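import Crest.Agent.R68.Defs
import Mathlib.Analysis.SpecialFunctions.Log.ENNRealLogExp

/-!
# Row 68, PART A (helper810): exponential form of the Boltzmann equation

`en a = e^{-a}` on `[0,∞]`, accumulated collision frequency `Acc F s t x v` along the flight
ending at `(t,x,v)`, the map `Ph F0 F` (gain-loss with the loss in the exponent), measurability.
-/

set_option autoImplicit false
open MeasureTheory Set Filter
open scoped ENNReal Topology
open Crest.AnalysisR.VecCalc3 Crest.AnalysisR.PDE.Boltzmann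

noncomputable section

namespace Crest.Agent.R68.A

/-! ### the exponential on `[0,∞]` -/

/-- `e^{-a}` for `a ∈ [0,∞]` -/
def en (a : ℝ≥0∞) : ℝ≥0∞ := EReal.exp (-(a : EReal))

theorem en_coe_ofReal {a : ℝ} (ha : 0 ≤ a) : en (ENNReal.ofReal a) = ENNReal.ofReal (Real.exp (-a)) := by
  unfold en
  rw [EReal.coe_ennreal_ofReal, max_eq_left ha, ← EReal.coe_neg, EReal.exp_coe]

@[simp] theorem en_top : en ⊤ = 0 := by simp [en]

@[simp] theorem en_zero : en 0 = 1 := by simp [en]

theorem en_antitone : Antitone en := by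
  intro a b hab
  unfold en
  apply EReal.exp_monotone
  rw [EReal.neg_le_neg_iff]
  exact_mod_cast hab

theorem en_le_one (a : ℝ≥0∞) : en a ≤ 1 := by
  have := en_antitone (a := 0) (b := a) zero_le
  simpa using this

theorem en_add (a b : ℝ≥0∞) : en (a + b) = en a * en b := by
  unfold en
  rw [← EReal.exp_add]
  congr 1
  rw [EReal.coe_ennreal_add]
  rw [EReal.neg_add]
  · rfl
  · left; exact EReal.coe_ennreal_ne_bot a
  · right; exact EReal.coe_ennreal_ne_bot b

theorem continuous_en : Continuous en := by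
  unfold en
  exact ENNReal.continuous_exp.comp (continuous_neg.comp continuous_coe_ennreal_ereal)

@[fun_prop]
theorem measurable_en : Measurable en := continuous_en.measurable

theorem en_ne_top (a : ℝ≥0∞) : en a ≠ ⊤ := (lt_of_le_of_lt (en_le_one a) ENNReal.one_lt_top).ne

/-- `1 ≤ e^{-a} + a` -/
theorem one_le_en_add (a : ℝ≥0∞) : 1 ≤ en a + a := by
  induction a with
  | top => simp
  | coe a =>
    have h : (a : ℝ≥0∞) = ENNReal.ofReal (a : ℝ) := by simp
    have h0 : (0 : ℝ) ≤ a := NNReal.coe_nonneg a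
    rw [h, en_coe_ofReal h0, ← ENNReal.ofReal_add (by positivity) h0]
    rw [ENNReal.one_le_ofReal]
    have := Real.add_one_le_exp (-(a : ℝ))
    linarith

/-- `a e^{-a/2} ≤ 1` in the form `a * en b ≤ 1` if `a ≤ 2 b` -/
theorem mul_en_le_one {a b : ℝ≥0∞} (h : a ≤ 2 * b) : a * en b ≤ 1 := by
  induction b with
  | top => simp
  | coe b =>
    have h1 : a ≤ ENNReal.ofReal (2 * b) := by
      refine h.trans (le_of_eq ?_)
      rw [ENNReal.ofReal_mul (by norm_num)]
      simp
    have h0 : (0 : ℝ) ≤ b := NNReal.coe_nonneg b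
    have h2 : en (b : ℝ≥0∞) = ENNReal.ofReal (Real.exp (-b)) := by
      rw [← en_coe_ofReal h0]; simp
    rw [h2]
    calc a * ENNReal.ofReal (Real.exp (-b)) ≤ ENNReal.ofReal (2 * b) * ENNReal.ofReal (Real.exp (-b)) := by
          gcongr
      _ = ENNReal.ofReal (2 * b * Real.exp (-b)) := by
          rw [← ENNReal.ofReal_mul (by positivity)]
      _ ≤ ENNReal.ofReal 1 := by
          apply ENNReal.ofReal_le_ofReal
          have h3 : (2 : ℝ) * b ≤ Real.exp b := by
            have := Real.quadratic_le_exp_of_nonneg h0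
            nlinarith [sq_nonneg ((b : ℝ) - 1)]
          rw [Real.exp_neg]
          have h4 := Real.exp_pos (b : ℝ)
          rw [mul_inv_le_iff₀ h4]
          linarith
      _ = 1 := by simp

/-- if `a' ≤ a + w` then `e^{-a} ≤ e^{-a'} + w e^{-a}` -/
theorem en_le_of_le_add {a a' w : ℝ≥0∞} (h : a' ≤ a + w) : en a ≤ en a' + w * en a := by
  have h1 : en a * en w ≤ en a' := by
    rw [← en_add]; exact en_antitone h
  calc en a = en a * 1 := by rw [mul_one]
    _ ≤ en a * (en w + w) := by gcongr; exact one_le_en_add w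
    _ = en a * en w + w * en a := by ring
    _ ≤ en a' + w * en a := by gcongr

/-! ### accumulated collision frequency and the exponential map -/

/-- accumulated collision frequency along the flight ending at `(t,x,v)` -/
def Acc (F : ℝ → P2 → R3 → ℝ≥0∞) (s t : ℝ) (x : P2) (v : R3) : ℝ≥0∞ :=
  ∫⁻ τ in Ioo s t, Lc (F τ (x - (t - τ) • bar v)) v

/-- the exponential form of the Boltzmann equation -/
def Ph (F0 : P2 → R3 → ℝ≥0∞) (F : ℝ → P2 → R3 → ℝ≥0∞) (t : ℝ) (x : P2) (v : R3) : ℝ≥0∞ :=
  F0 (x - t • bar v) v * en (Acc F 0 t x v) +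
    ∫⁻ s in Ioo 0 t, en (Acc F s t x v) *
      Qp (F s (x - (t - s) • bar v)) (F s (x - (t - s) • bar v)) v

/-- joint measurability -/
def Meas3 (F : ℝ → P2 → R3 → ℝ≥0∞) : Prop := Measurable (fun p : ℝ × P2 × R3 => F p.1 p.2.1 p.2.2)

instance : SFinite sphereMeasure := by unfold sphereMeasure; infer_instance

@[fun_prop]
theorem measurable_bar : Measurable bar := by
  unfold bar; fun_prop

@[fun_prop]
theorem continuous_bar : Continuous bar := by
  unfold bar; fun_prop

variable {α : Type*} [MeasurableSpace α]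

theorem Meas3.comp {F : ℝ → P2 → R3 → ℝ≥0∞} (hF : Meas3 F) {f : α → ℝ} {g : α → P2} {h : α → R3}
    (hf : Measurable f) (hg : Measurable g) (hh : Measurable h) :
    Measurable (fun a => F (f a) (g a) (h a)) :=
  Measurable.comp hF (hf.prodMk (hg.prodMk hh))

theorem measurable_postVel {f g h : α → R3} (hf : Measurable f) (hg : Measurable g)
    (hh : Measurable h) : Measurable (fun a => postVel (f a) (g a) (h a)) := by
  unfold postVel
  fun_prop

theorem measurable_postVelStar {f g h : α → R3} (hf : Measurable f) (hg : Measurable g)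
    (hh : Measurable h) : Measurable (fun a => postVelStar (f a) (g a) (h a)) := by
  unfold postVelStar
  fun_prop

/-- parametric measurability of the gain -/
theorem measurable_Qp {f g : α → R3 → ℝ≥0∞} {v : α → R3}
    (hf : Measurable (fun p : α × R3 => f p.1 p.2)) (hg : Measurable (fun p : α × R3 => g p.1 p.2))
    (hv : Measurable v) : Measurable (fun a => Qp (f a) (g a) (v a)) := by
  unfold Qp
  refine Measurable.lintegral_prod_right' (f := fun q : α × R3 =>
    ∫⁻ w, ENNReal.ofReal |inner ℝ (v q.1 - q.2) w| * f q.1 (postVel (v q.1) q.2 w) *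
      g q.1 (postVelStar (v q.1) q.2 w) ∂sphereMeasure) ?_
  refine Measurable.lintegral_prod_right' (f := fun q : (α × R3) × R3 =>
    ENNReal.ofReal |inner ℝ (v q.1.1 - q.1.2) q.2| * f q.1.1 (postVel (v q.1.1) q.1.2 q.2) *
      g q.1.1 (postVelStar (v q.1.1) q.1.2 q.2)) ?_
  refine Measurable.mul (Measurable.mul (by fun_prop) ?_) ?_
  · exact hf.comp (Measurable.prodMk (by fun_prop)
      (measurable_postVel (by fun_prop) (by fun_prop) (by fun_prop)))
  · exact hg.comp (Measurable.prodMk (by fun_prop)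
      (measurable_postVelStar (by fun_prop) (by fun_prop) (by fun_prop)))

/-- parametric measurability of the collision frequency -/
theorem measurable_Lc {g : α → R3 → ℝ≥0∞} {v : α → R3}
    (hg : Measurable (fun p : α × R3 => g p.1 p.2)) (hv : Measurable v) :
    Measurable (fun a => Lc (g a) (v a)) := by
  unfold Lc
  refine Measurable.lintegral_prod_right' (f := fun q : α × R3 =>
    ∫⁻ w, ENNReal.ofReal |inner ℝ (v q.1 - q.2) w| * g q.1 q.2 ∂sphereMeasure) ?_
  refine Measurable.lintegral_prod_right' (f := fun q : (α × R3) × R3 =>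
    ENNReal.ofReal |inner ℝ (v q.1.1 - q.1.2) q.2| * g q.1.1 q.1.2) ?_
  refine Measurable.mul (by fun_prop) ?_
  exact hg.comp (by fun_prop)

/-- integral over a moving time interval -/
theorem measurable_lintegral_Ioo {q : α × ℝ → ℝ≥0∞} (hq : Measurable q) {a b : α → ℝ}
    (ha : Measurable a) (hb : Measurable b) :
    Measurable (fun p => ∫⁻ s in Ioo (a p) (b p), q (p, s)) := by
  have h1 : (fun p => ∫⁻ s in Ioo (a p) (b p), q (p, s)) =
      fun p => ∫⁻ s, ({z : α × ℝ | a z.1 < z.2 ∧ z.2 < b z.1}.indicator q) (p, s) := by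
    funext p
    rw [← lintegral_indicator measurableSet_Ioo]
    refine lintegral_congr fun s => ?_
    by_cases hs : s ∈ Ioo (a p) (b p)
    · rw [indicator_of_mem hs, indicator_of_mem]
      exact hs
    · rw [indicator_of_notMem hs, indicator_of_notMem]
      exact hs
  rw [h1]
  refine Measurable.lintegral_prod_right' (f := {z : α × ℝ | a z.1 < z.2 ∧ z.2 < b z.1}.indicator q) ?_
  refine hq.indicator ?_
  exact (measurableSet_lt (ha.comp measurable_fst) measurable_snd).inter
    (measurableSet_lt measurable_snd (hb.comp measurable_fst))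

theorem measurable_Acc {F : ℝ → P2 → R3 → ℝ≥0∞} (hF : Meas3 F) {s t : α → ℝ} {x : α → P2}
    {v : α → R3} (hs : Measurable s) (ht : Measurable t) (hx : Measurable x) (hv : Measurable v) :
    Measurable (fun a => Acc F (s a) (t a) (x a) (v a)) := by
  unfold Acc
  refine measurable_lintegral_Ioo (q := fun z : α × ℝ =>
    Lc (F z.2 (x z.1 - (t z.1 - z.2) • bar (v z.1))) (v z.1)) ?_ hs ht
  refine measurable_Lc (g := fun z : α × ℝ => F z.2 (x z.1 - (t z.1 - z.2) • bar (v z.1))) ?_
    (by fun_prop)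
  exact hF.comp (by fun_prop) (by fun_prop) (by fun_prop)

theorem measurable_Ph {F0 : P2 → R3 → ℝ≥0∞} (hF0 : Measurable (fun p : P2 × R3 => F0 p.1 p.2))
    {F : ℝ → P2 → R3 → ℝ≥0∞} (hF : Meas3 F) : Meas3 (Ph F0 F) := by
  unfold Meas3 Ph
  refine Measurable.add (Measurable.mul ?_ ?_) ?_
  · exact hF0.comp (g := fun p : P2 × R3 => F0 p.1 p.2)
      (f := fun p : ℝ × P2 × R3 => (p.2.1 - p.1 • bar p.2.2, p.2.2)) (by fun_prop)
  · exact measurable_en.comp (measurable_Acc hF measurable_const (by fun_prop) (by fun_prop)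
      (by fun_prop))
  · refine measurable_lintegral_Ioo (α := ℝ × P2 × R3) (q := fun z : (ℝ × P2 × R3) × ℝ =>
      en (Acc F z.2 z.1.1 z.1.2.1 z.1.2.2) *
      Qp (F z.2 (z.1.2.1 - (z.1.1 - z.2) • bar z.1.2.2))
        (F z.2 (z.1.2.1 - (z.1.1 - z.2) • bar z.1.2.2)) z.1.2.2) ?_ measurable_const (by fun_prop)
    refine Measurable.mul ?_ ?_
    · exact measurable_en.comp (measurable_Acc hF (by fun_prop) (by fun_prop) (by fun_prop)
        (by fun_prop))
    · refine measurable_Qp (f := fun z : (ℝ × P2 × R3) × ℝ =>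
        F z.2 (z.1.2.1 - (z.1.1 - z.2) • bar z.1.2.2)) (g := fun z : (ℝ × P2 × R3) × ℝ =>
        F z.2 (z.1.2.1 - (z.1.1 - z.2) • bar z.1.2.2)) ?_ ?_ (by fun_prop)
      · exact hF.comp (by fun_prop) (by fun_prop) (by fun_prop)
      · exact hF.comp (by fun_prop) (by fun_prop) (by fun_prop)

end Crest.Agent.R68.A
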