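import Crest.Agent.R68.A2

/-!
# Row 68, PART A (helper810): envelope inequalities, invariance and contraction of the
exponential map
-/

set_option autoImplicit false
open MeasureTheory Set Filter
open scoped ENNReal Topology
open Crest.AnalysisR.VecCalc3 Crest.AnalysisR.PDE.Boltzmann

noncomputable section

namespace Crest.Agent.R68.A

/-- the five envelope inequalities on `[0,T]` -/
structure Env (T : ℝ) (f0 h0 : P2 → R3 → ℝ≥0∞) (φ N : ℝ → P2 → R3 → ℝ≥0∞) : Prop where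
  mf0 : Measurable (fun p : P2 × R3 => f0 p.1 p.2)
  mh0 : Measurable (fun p : P2 × R3 => h0 p.1 p.2)
  mφ : Meas3 φ
  mN : Meas3 N
  free : ∀ t ∈ Icc 0 T, ∀ x v, φ t x v = f0 (x - t • bar v) v
  bg : ∀ t ∈ Icc 0 T, ∀ x v, 4 * h0 (x - t • bar v) v ≤ N t x v
  cc : ∀ t ∈ Icc 0 T, ∀ x v, 16 * Duh (fun s y z => Qp (φ s y) (φ s y) z) t x v ≤ N t x v
  cN : ∀ t ∈ Icc 0 T, ∀ x v, 32 * Duh (fun s y z => Qp (φ s y) (N s y) z + Qp (N s y) (φ s y) z +
      Qp (N s y) (N s y) z) t x v ≤ N t x v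
  nuφ : ∀ t ∈ Icc 0 T, ∀ x v, φ t x v ≠ 0 →
      64 * Acc (fun s y z => φ s y z + N s y z) 0 t x v ≤ 1
  nuN : ∀ t ∈ Icc 0 T, ∀ x v, 64 * Duh (fun s y z => Lc (N s y) z * N s y z) t x v ≤ N t x v

/-- the class of densities between the envelopes -/
def Cls (T : ℝ) (φ N F : ℝ → P2 → R3 → ℝ≥0∞) : Prop :=
  Meas3 F ∧ ∀ t ∈ Icc 0 T, ∀ x v, φ t x v ≤ 2 * F t x v ∧ F t x v ≤ φ t x v + N t x v

section

variable {T : ℝ} {f0 h0 : P2 → R3 → ℝ≥0∞} {φ N : ℝ → P2 → R3 → ℝ≥0∞}

theorem Env.mE (hE : Env T f0 h0 φ N) : Meas3 (fun s y z => φ s y z + N s y z) :=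
  hE.mφ.add hE.mN

/-- expansion of the full gain -/
theorem Env.QEE (hE : Env T f0 h0 φ N) (s : ℝ) (y : P2) (v : R3) :
    Qp (fun z => φ s y z + N s y z) (fun z => φ s y z + N s y z) v =
      Qp (φ s y) (φ s y) v + (Qp (φ s y) (N s y) v + Qp (N s y) (φ s y) v +
        Qp (N s y) (N s y) v) := by
  have h1 := hE.mφ.slice s y
  have h2 := hE.mN.slice s y
  have h3 : Measurable (fun z => φ s y z + N s y z) := h1.add h2
  rw [Qp_add_left h1 h3, Qp_add_right h1 h1, Qp_add_right h2 h1]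
  ring

theorem Env.DuhEE (hE : Env T f0 h0 φ N) (t : ℝ) (x : P2) (v : R3) :
    Duh (fun s y v => Qp (fun z => φ s y z + N s y z) (fun z => φ s y z + N s y z) v) t x v =
      Duh (fun s y z => Qp (φ s y) (φ s y) z) t x v +
      Duh (fun s y z => Qp (φ s y) (N s y) z + Qp (N s y) (φ s y) z +
        Qp (N s y) (N s y) z) t x v := by
  rw [← Duh_add (meas3_Qp hE.mφ hE.mφ)]
  unfold Duh
  refine lintegral_congr fun s => ?_
  exact hE.QEE _ _ _

theorem Env.DuhEE_le (hE : Env T f0 h0 φ N) {t : ℝ} (ht : t ∈ Icc 0 T) (x : P2) (v : R3) :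
    2 * Duh (fun s y v => Qp (fun z => φ s y z + N s y z) (fun z => φ s y z + N s y z) v) t x v ≤
      N t x v := by
  rw [hE.DuhEE]
  set X := Duh (fun s y z => Qp (φ s y) (φ s y) z) t x v
  set Y := Duh (fun s y z => Qp (φ s y) (N s y) z + Qp (N s y) (φ s y) z +
        Qp (N s y) (N s y) z) t x v
  have h1 : 16 * X ≤ N t x v := hE.cc t ht x v
  have h2 : 32 * Y ≤ N t x v := hE.cN t ht x v
  have h3 : 4 * (2 * (X + Y)) ≤ 4 * N t x v := by
    calc 4 * (2 * (X + Y)) = 8 * X + 8 * Y := by ring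
      _ ≤ 16 * X + 32 * Y := by gcongr <;> norm_num
      _ ≤ N t x v + N t x v := by gcongr
      _ ≤ 4 * N t x v := by
        calc N t x v + N t x v = 2 * N t x v := by ring
          _ ≤ 4 * N t x v := by gcongr; norm_num
  exact (ENNReal.mul_le_mul_iff_right (by norm_num) (by norm_num)).1 h3

/-- invariance, upper bound -/
theorem Env.ph_le (hE : Env T f0 h0 φ N) {F : ℝ → P2 → R3 → ℝ≥0∞} (hF : Cls T φ N F) {t : ℝ}
    (ht : t ∈ Icc 0 T) (x : P2) (v : R3) :
    Ph (fun x v => f0 x v + h0 x v) F t x v ≤ φ t x v + N t x v := by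
  unfold Ph
  have h1 : ∫⁻ s in Ioo 0 t, en (Acc F s t x v) *
      Qp (F s (x - (t - s) • bar v)) (F s (x - (t - s) • bar v)) v ≤
      Duh (fun s y v => Qp (fun z => φ s y z + N s y z) (fun z => φ s y z + N s y z) v) t x v := by
    unfold Duh
    refine setLIntegral_mono_ae' measurableSet_Ioo (Eventually.of_forall fun s hs => ?_)
    have hs' : s ∈ Icc 0 T := ⟨hs.1.le, hs.2.le.trans ht.2⟩
    calc _ ≤ 1 * Qp (F s (x - (t - s) • bar v)) (F s (x - (t - s) • bar v)) v := by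
          gcongr; exact en_le_one _
      _ ≤ _ := by
          rw [one_mul]
          exact Qp_mono (fun z => (hF.2 s hs' _ z).2) (fun z => (hF.2 s hs' _ z).2) v
  have h2 := hE.DuhEE_le ht x v
  have h3 := hE.bg t ht x v
  have h4 := hE.free t ht x v
  set D := Duh (fun s y v => Qp (fun z => φ s y z + N s y z) (fun z => φ s y z + N s y z) v) t x v
  have h5 : (f0 (x - t • bar v) v + h0 (x - t • bar v) v) * en (Acc F 0 t x v) ≤
      φ t x v + h0 (x - t • bar v) v := by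
    calc _ ≤ (f0 (x - t • bar v) v + h0 (x - t • bar v) v) * 1 := by gcongr; exact en_le_one _
      _ = _ := by rw [mul_one, h4]
  refine (add_le_add h5 h1).trans ?_
  rw [add_assoc]
  gcongr
  have h6 : 2 * (h0 (x - t • bar v) v + D) ≤ 2 * N t x v := by
    calc 2 * (h0 (x - t • bar v) v + D) = 2 * h0 (x - t • bar v) v + 2 * D := by ring
      _ ≤ 4 * h0 (x - t • bar v) v + 2 * D := by gcongr; norm_num
      _ ≤ N t x v + N t x v := by gcongr
      _ = 2 * N t x v := by ring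
  exact (ENNReal.mul_le_mul_iff_right (by norm_num) (by norm_num)).1 h6

/-- invariance, lower bound -/
theorem Env.le_ph (hE : Env T f0 h0 φ N) {F : ℝ → P2 → R3 → ℝ≥0∞} (hF : Cls T φ N F) {t : ℝ}
    (ht : t ∈ Icc 0 T) (x : P2) (v : R3) :
    φ t x v ≤ 2 * Ph (fun x v => f0 x v + h0 x v) F t x v := by
  by_cases hφ : φ t x v = 0
  · rw [hφ]; exact zero_le
  have h1 := hE.nuφ t ht x v hφ
  have h2 : Acc F 0 t x v ≤ Acc (fun s y z => φ s y z + N s y z) 0 t x v :=
    Acc_mono fun τ hτ z => (hF.2 τ ⟨hτ.1.le, hτ.2.le.trans ht.2⟩ _ z).2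
  have h3 : 2 * Acc F 0 t x v ≤ 1 := by
    calc 2 * Acc F 0 t x v ≤ 64 * Acc (fun s y z => φ s y z + N s y z) 0 t x v := by
          gcongr; norm_num
      _ ≤ 1 := h1
  have h4 := one_le_en_add (Acc F 0 t x v)
  have h5 : 1 ≤ 2 * en (Acc F 0 t x v) := by
    have h6 : 1 + 2 * Acc F 0 t x v ≤ 2 * en (Acc F 0 t x v) + 2 * Acc F 0 t x v := by
      calc 1 + 2 * Acc F 0 t x v ≤ 1 + 1 := by gcongr
        _ = 2 * 1 := by norm_num
        _ ≤ 2 * (en (Acc F 0 t x v) + Acc F 0 t x v) := by gcongr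
        _ = _ := by ring
    have h7 : 2 * Acc F 0 t x v ≠ ⊤ := (lt_of_le_of_lt h3 ENNReal.one_lt_top).ne
    exact (ENNReal.add_le_add_iff_right h7).1 h6
  unfold Ph
  have h8 := hE.free t ht x v
  calc φ t x v = φ t x v * 1 := by rw [mul_one]
    _ ≤ φ t x v * (2 * en (Acc F 0 t x v)) := by gcongr
    _ = 2 * (f0 (x - t • bar v) v * en (Acc F 0 t x v)) := by rw [h8]; ring
    _ ≤ 2 * ((f0 (x - t • bar v) v + h0 (x - t • bar v) v) * en (Acc F 0 t x v) + _) := by
      gcongr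
      exact le_trans (mul_le_mul' le_self_add le_rfl) le_self_add

theorem Env.cls_ph (hE : Env T f0 h0 φ N) {F : ℝ → P2 → R3 → ℝ≥0∞} (hF : Cls T φ N F) :
    Cls T φ N (Ph (fun x v => f0 x v + h0 x v) F) :=
  ⟨measurable_Ph (hE.mf0.add hE.mh0) hF.1, fun _ ht x v => ⟨hE.le_ph hF ht x v, hE.ph_le hF ht x v⟩⟩

theorem Env.cls_phi (hE : Env T f0 h0 φ N) : Cls T φ N φ :=
  ⟨hE.mφ, fun t _ x v => ⟨by
    calc φ t x v = 1 * φ t x v := by rw [one_mul]
      _ ≤ 2 * φ t x v := by gcongr; norm_num, le_self_add⟩⟩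

/-- `Acc` of the weight `W = φ + 16 N` against the damping -/
theorem Env.accW_en (hE : Env T f0 h0 φ N) {F : ℝ → P2 → R3 → ℝ≥0∞} (hF : Cls T φ N F) {s t : ℝ}
    (hs : 0 ≤ s) (ht : t ∈ Icc 0 T) (x : P2) (v : R3) :
    Acc (fun a y z => φ a y z + 16 * N a y z) s t x v * en (Acc F s t x v) ≤
      1 + 16 * Acc N s t x v := by
  rw [Acc_add hE.mφ, Acc_const_mul (by norm_num), add_mul]
  have h1 : Acc φ s t x v ≤ 2 * Acc F s t x v := by
    rw [← Acc_const_mul (by norm_num)]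
    exact Acc_mono fun τ hτ z => (hF.2 τ ⟨hs.trans hτ.1.le, hτ.2.le.trans ht.2⟩ _ z).1
  refine add_le_add (mul_en_le_one h1) ?_
  calc _ ≤ 16 * Acc N s t x v * 1 := by gcongr; exact en_le_one _
    _ = _ := by rw [mul_one]

/-- one-sided comparison of the dampings -/
theorem Env.en_le (hE : Env T f0 h0 φ N) {F G : ℝ → P2 → R3 → ℝ≥0∞} (hF : Cls T φ N F)
    {d : ℝ≥0∞} (hd : d ≠ ⊤)
    (hGF : ∀ t ∈ Icc 0 T, ∀ x v, G t x v ≤ F t x v + d * (φ t x v + 16 * N t x v)) {s t : ℝ}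
    (hs : 0 ≤ s) (ht : t ∈ Icc 0 T) (x : P2) (v : R3) :
    en (Acc F s t x v) ≤ en (Acc G s t x v) + d * (Acc (fun a y z => φ a y z + 16 * N a y z) s t x v
      * en (Acc F s t x v)) := by
  have h1 : Acc G s t x v ≤ Acc F s t x v +
      d * Acc (fun a y z => φ a y z + 16 * N a y z) s t x v := by
    rw [← Acc_const_mul hd, ← Acc_add hF.1]
    exact Acc_mono fun τ hτ z => hGF τ ⟨hs.trans hτ.1.le, hτ.2.le.trans ht.2⟩ _ z
  refine (en_le_of_le_add h1).trans (le_of_eq ?_)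
  ring

/-- one-sided comparison of the gains -/
theorem Env.gain_le (hE : Env T f0 h0 φ N) {F G : ℝ → P2 → R3 → ℝ≥0∞} (hF : Cls T φ N F)
    (hG : Cls T φ N G) {d : ℝ≥0∞} (hd : d ≠ ⊤)
    (hFG : ∀ t ∈ Icc 0 T, ∀ x v, F t x v ≤ G t x v + d * (φ t x v + 16 * N t x v)) {s : ℝ}
    (hs : s ∈ Icc 0 T) (y : P2) (v : R3) :
    Qp (F s y) (F s y) v ≤ Qp (G s y) (G s y) v + d *
      (2 * Qp (φ s y) (φ s y) v + 32 * (Qp (φ s y) (N s y) v + Qp (N s y) (φ s y) v +
        Qp (N s y) (N s y) v)) := by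
  have mF := hF.1.slice s y
  have mG := hG.1.slice s y
  have mφ := hE.mφ.slice s y
  have mN := hE.mN.slice s y
  have mN16 : Measurable (fun z => 16 * N s y z) := mN.const_mul _
  have mW : Measurable (fun z => φ s y z + 16 * N s y z) := mφ.add mN16
  have mE : Measurable (fun z => φ s y z + N s y z) := mφ.add mN
  have e1 : Qp (fun z => φ s y z + 16 * N s y z) (fun z => φ s y z + N s y z) v =
      Qp (φ s y) (φ s y) v + Qp (φ s y) (N s y) v + 16 * Qp (N s y) (φ s y) v +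
        16 * Qp (N s y) (N s y) v := by
    rw [Qp_add_left mφ mE, Qp_add_right mφ mφ, Qp_const_mul_left (by norm_num),
      Qp_add_right mN mφ]
    ring
  have e2 : Qp (fun z => φ s y z + N s y z) (fun z => φ s y z + 16 * N s y z) v =
      Qp (φ s y) (φ s y) v + 16 * Qp (φ s y) (N s y) v + Qp (N s y) (φ s y) v +
        16 * Qp (N s y) (N s y) v := by
    rw [Qp_add_left mφ mW, Qp_add_right mφ mφ, Qp_const_mul_right (by norm_num),
      Qp_add_right mN mφ, Qp_const_mul_right (by norm_num)]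
    ring
  calc Qp (F s y) (F s y) v
      ≤ Qp (fun z => G s y z + d * (φ s y z + 16 * N s y z)) (F s y) v :=
        Qp_mono (fun z => hFG s hs y z) (fun _ => le_rfl) v
    _ = Qp (G s y) (F s y) v + d * Qp (fun z => φ s y z + 16 * N s y z) (F s y) v := by
        rw [Qp_add_left mG mF, Qp_const_mul_left hd]
    _ ≤ Qp (G s y) (fun z => G s y z + d * (φ s y z + 16 * N s y z)) v +
        d * Qp (fun z => φ s y z + 16 * N s y z) (fun z => φ s y z + N s y z) v := by
        gcongr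
        · exact Qp_mono (fun _ => le_rfl) (fun z => hFG s hs y z) v
        · exact Qp_mono (fun _ => le_rfl) (fun z => (hF.2 s hs y z).2) v
    _ = Qp (G s y) (G s y) v + d * Qp (G s y) (fun z => φ s y z + 16 * N s y z) v +
        d * Qp (fun z => φ s y z + 16 * N s y z) (fun z => φ s y z + N s y z) v := by
        rw [Qp_add_right mG mG, Qp_const_mul_right hd]
    _ ≤ Qp (G s y) (G s y) v +
        d * Qp (fun z => φ s y z + N s y z) (fun z => φ s y z + 16 * N s y z) v +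
        d * Qp (fun z => φ s y z + 16 * N s y z) (fun z => φ s y z + N s y z) v := by
        gcongr
        exact Qp_mono (fun z => (hG.2 s hs y z).2) (fun _ => le_rfl) v
    _ = Qp (G s y) (G s y) v + d * (2 * Qp (φ s y) (φ s y) v + 17 * Qp (φ s y) (N s y) v +
        17 * Qp (N s y) (φ s y) v + 32 * Qp (N s y) (N s y) v) := by
        rw [e1, e2]; ring
    _ ≤ Qp (G s y) (G s y) v + d * (2 * Qp (φ s y) (φ s y) v + 32 * Qp (φ s y) (N s y) v +
        32 * Qp (N s y) (φ s y) v + 32 * Qp (N s y) (N s y) v) := by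
        gcongr <;> norm_num
    _ = _ := by ring

/-- the accumulated frequency of `N` against the gains -/
theorem Env.triangle (hE : Env T f0 h0 φ N) {t : ℝ} (ht : t ∈ Icc 0 T) (x : P2) (v : R3) :
    2 * ∫⁻ s in Ioo 0 t, Acc N s t x v * Qp (fun z => φ s (x - (t - s) • bar v) z +
      N s (x - (t - s) • bar v) z) (fun z => φ s (x - (t - s) • bar v) z +
      N s (x - (t - s) • bar v) z) v ≤
      Duh (fun s y z => Lc (N s y) z * N s y z) t x v := by
  have h1 := lintegral_triangle (p := fun τ => Lc (N τ (x - (t - τ) • bar v)) v)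
    (q := fun s => Qp (fun z => φ s (x - (t - s) • bar v) z +
      N s (x - (t - s) • bar v) z) (fun z => φ s (x - (t - s) • bar v) z +
      N s (x - (t - s) • bar v) z) v) (measurable_Lc_flight hE.mN t x v)
    (measurable_Qp_flight hE.mE hE.mE t x v) 0 t
  have h2 : ∫⁻ s in Ioo 0 t, Acc N s t x v * Qp (fun z => φ s (x - (t - s) • bar v) z +
      N s (x - (t - s) • bar v) z) (fun z => φ s (x - (t - s) • bar v) z +
      N s (x - (t - s) • bar v) z) v = _ := h1
  rw [h2, ← lintegral_const_mul' _ _ (by norm_num)]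
  unfold Duh
  refine setLIntegral_mono_ae' measurableSet_Ioo (Eventually.of_forall fun τ hτ => ?_)
  have hτ' : τ ∈ Icc 0 T := ⟨hτ.1.le, hτ.2.le.trans ht.2⟩
  have h3 := hE.DuhEE_le hτ' (x - (t - τ) • bar v) v
  unfold Duh at h3
  simp only [flight_pos] at h3
  calc _ = Lc (N τ (x - (t - τ) • bar v)) v * (2 * ∫⁻ s in Ioo 0 τ,
        Qp (fun z => φ s (x - (t - s) • bar v) z +
      N s (x - (t - s) • bar v) z) (fun z => φ s (x - (t - s) • bar v) z +
      N s (x - (t - s) • bar v) z) v) := by ring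
    _ ≤ _ := mul_le_mul' le_rfl h3

/-- the background against the accumulated frequency of `N` -/
theorem Env.bg_acc (hE : Env T f0 h0 φ N) {t : ℝ} (ht : t ∈ Icc 0 T) (x : P2) (v : R3) :
    4 * (h0 (x - t • bar v) v * Acc N 0 t x v) ≤
      Duh (fun s y z => Lc (N s y) z * N s y z) t x v := by
  unfold Acc Duh
  rw [← lintegral_const_mul _ (measurable_Lc_flight hE.mN t x v),
    ← lintegral_const_mul' _ _ (by norm_num)]
  refine setLIntegral_mono_ae' measurableSet_Ioo (Eventually.of_forall fun τ hτ => ?_)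
  have hτ' : τ ∈ Icc 0 T := ⟨hτ.1.le, hτ.2.le.trans ht.2⟩
  have h3 := hE.bg τ hτ' (x - (t - τ) • bar v) v
  rw [flight_pos0] at h3
  calc _ = Lc (N τ (x - (t - τ) • bar v)) v * (4 * h0 (x - t • bar v) v) := by ring
    _ ≤ _ := mul_le_mul' le_rfl h3

end

end Crest.Agent.R68.A
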