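import Mathlib
import Crest.Prelude.Def_HardSphereBoltzmann

/-!
R68 / WEnt: the relative entropy controls the L1 distance (helper475), part W.
-/

set_option autoImplicit false
open MeasureTheory Set
open scoped ENNReal
open Crest.AnalysisR.VecCalc3 Crest.AnalysisR.PDE.Boltzmann

namespace Crest.Agent.R68.W

/-- the entropy integrand dominates the squared Hellinger distance -/
theorem hell_le {z m : ℝ} (hz : 0 ≤ z) (hm : 0 < m) :
    (√z - √m) ^ 2 ≤ z * Real.log (z / m) - z + m := by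
  rcases hz.eq_or_lt with rfl | hz
  · simp [Real.sq_sqrt hm.le]
  have h1 : Real.log (√m / √z) ≤ √m / √z - 1 :=
    Real.log_le_sub_one_of_pos (div_pos (Real.sqrt_pos.2 hm) (Real.sqrt_pos.2 hz))
  have h2 : Real.log (z / m) = -(2 * Real.log (√m / √z)) := by
    rw [Real.log_div hz.ne' hm.ne', Real.log_div (Real.sqrt_pos.2 hm).ne' (Real.sqrt_pos.2 hz).ne',
      Real.log_sqrt hm.le, Real.log_sqrt hz.le]
    ring
  have h3 : z * (√m / √z) = √z * √m := by
    have := Real.mul_self_sqrt hz.le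
    field_simp
    nlinarith
  rw [h2]
  have h4 := mul_le_mul_of_nonneg_left h1 hz.le
  have h5 := Real.sq_sqrt hz.le
  have h6 := Real.sq_sqrt hm.le
  nlinarith

/-- pointwise form of the Csiszar-Kullback inequality -/
theorem abs_sub_le_ent {z m θ : ℝ} (hz : 0 ≤ z) (hm : 0 < m) (hθ : 0 < θ) :
    |z - m| ≤ θ⁻¹ * (z * Real.log (z / m) - z + m) + θ / 2 * (z + m) := by
  have h1 := hell_le hz hm
  have h5 := Real.sq_sqrt hz
  have h6 := Real.sq_sqrt hm.le
  set a := √z
  set b := √m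
  have ha : 0 ≤ a := Real.sqrt_nonneg _
  have hb : 0 ≤ b := Real.sqrt_nonneg _
  have h7 : |z - m| = |a - b| * (a + b) := by
    rw [← h5, ← h6, show a ^ 2 - b ^ 2 = (a - b) * (a + b) by ring, abs_mul,
      abs_of_nonneg (add_nonneg ha hb)]
  have h8 : |a - b| * (a + b) ≤ θ⁻¹ * (a - b) ^ 2 + θ / 4 * (a + b) ^ 2 := by
    have h9 : 0 ≤ (θ⁻¹) * (|a - b| - θ / 2 * (a + b)) ^ 2 := by positivity
    have h10 : |a - b| ^ 2 = (a - b) ^ 2 := sq_abs _
    have h11 : (θ⁻¹) * (|a - b| - θ / 2 * (a + b)) ^ 2 =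
        θ⁻¹ * |a - b| ^ 2 - |a - b| * (a + b) + θ / 4 * (a + b) ^ 2 := by
      field_simp
      ring
    rw [h11, h10] at h9
    linarith
  have h12 : (a + b) ^ 2 ≤ 2 * (z + m) := by nlinarith [sq_nonneg (a - b)]
  have h13 : θ⁻¹ * (a - b) ^ 2 ≤ θ⁻¹ * (z * Real.log (z / m) - z + m) :=
    mul_le_mul_of_nonneg_left h1 (inv_nonneg.2 hθ.le)
  have h14 : θ / 4 * (a + b) ^ 2 ≤ θ / 4 * (2 * (z + m)) :=
    mul_le_mul_of_nonneg_left h12 (by positivity)
  rw [h7]
  linarith

theorem ent_nonneg {z m : ℝ} (hz : 0 ≤ z) (hm : 0 < m) :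
    0 ≤ z * Real.log (z / m) - z + m := (sq_nonneg _).trans (hell_le hz hm)

/-- integrated form over an arbitrary measure space -/
theorem lintegral_abs_sub_le {α : Type*} [MeasurableSpace α] (μ : Measure α) {f m : α → ℝ}
    (hf : Measurable f) (hm : Measurable m) (hf0 : ∀ q, 0 ≤ f q) (hm0 : ∀ q, 0 < m q)
    {θ : ℝ} (hθ : 0 < θ) :
    ∫⁻ q, ‖f q - m q‖ₑ ∂μ ≤
      ENNReal.ofReal θ⁻¹ * ∫⁻ q, ENNReal.ofReal (f q * Real.log (f q / m q) - f q + m q) ∂μ +
      ENNReal.ofReal (θ / 2) * (∫⁻ q, ENNReal.ofReal (f q) ∂μ + ∫⁻ q, ENNReal.ofReal (m q) ∂μ) := by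
  have hme : Measurable fun q => ENNReal.ofReal (f q * Real.log (f q / m q) - f q + m q) := by
    fun_prop
  rw [← lintegral_add_left (by fun_prop), ← lintegral_const_mul _ hme,
    ← lintegral_const_mul _ (by fun_prop), ← lintegral_add_left (by fun_prop)]
  refine lintegral_mono fun q => ?_
  have h := abs_sub_le_ent (hf0 q) (hm0 q) hθ
  rw [← ofReal_norm, Real.norm_eq_abs, ← ENNReal.ofReal_add (hf0 q) (hm0 q).le,
    ← ENNReal.ofReal_mul (inv_nonneg.2 hθ.le), ← ENNReal.ofReal_mul (by positivity),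
    ← ENNReal.ofReal_add (mul_nonneg (inv_nonneg.2 hθ.le) (ent_nonneg (hf0 q) (hm0 q)))
      (mul_nonneg (by positivity) (add_nonneg (hf0 q) (hm0 q).le))]
  exact ENNReal.ofReal_le_ofReal h

theorem maxwellian_pos (v : R3) : 0 < maxwellian v := by
  unfold maxwellian; positivity

theorem measurable_maxwellian : Measurable maxwellian := by
  unfold maxwellian; fun_prop

/-- relative entropy controls the L1 distance to the Maxwellian -/
theorem l1_le_relEntropy {f : R3 → R3 → ℝ} (hf : Measurable fun q : R3 × R3 => f q.1 q.2)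
    (hf0 : ∀ x v, 0 ≤ f x v) {θ : ℝ} (hθ : 0 < θ) :
    ∫⁻ q in cell ×ˢ Set.univ, ‖f q.1 q.2 - maxwellian q.2‖ₑ ∂(volume : Measure (R3 × R3)) ≤
      ENNReal.ofReal θ⁻¹ * relEntropy f +
      ENNReal.ofReal (θ / 2) *
        (∫⁻ q in cell ×ˢ Set.univ, ENNReal.ofReal (f q.1 q.2) ∂(volume : Measure (R3 × R3)) +
          ∫⁻ q in cell ×ˢ Set.univ, ENNReal.ofReal (maxwellian q.2) ∂(volume : Measure (R3 × R3))) :=
  lintegral_abs_sub_le _ hf (measurable_maxwellian.comp measurable_snd) (fun _ => hf0 _ _)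
    (fun _ => maxwellian_pos _) hθ

/-- the optimised form: if the relative entropy is at most `ε ^ 2` and both masses are at most `A`
then the `L¹` distance is at most `(1 + A) ε` -/
theorem l1_le_of_relEntropy_le {f : R3 → R3 → ℝ} (hf : Measurable fun q : R3 × R3 => f q.1 q.2)
    (hf0 : ∀ x v, 0 ≤ f x v) {ε A : ℝ} (hε : 0 < ε) (hA : 0 ≤ A)
    (hH : relEntropy f ≤ ENNReal.ofReal (ε ^ 2))
    (hm1 : ∫⁻ q in cell ×ˢ Set.univ, ENNReal.ofReal (f q.1 q.2) ∂(volume : Measure (R3 × R3)) ≤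
      ENNReal.ofReal A)
    (hm2 : ∫⁻ q in cell ×ˢ Set.univ, ENNReal.ofReal (maxwellian q.2) ∂(volume : Measure (R3 × R3)) ≤
      ENNReal.ofReal A) :
    ∫⁻ q in cell ×ˢ Set.univ, ‖f q.1 q.2 - maxwellian q.2‖ₑ ∂(volume : Measure (R3 × R3)) ≤
      ENNReal.ofReal ((1 + A) * ε) := by
  refine (l1_le_relEntropy hf hf0 hε).trans ?_
  calc _ ≤ ENNReal.ofReal ε⁻¹ * ENNReal.ofReal (ε ^ 2) +
        ENNReal.ofReal (ε / 2) * (ENNReal.ofReal A + ENNReal.ofReal A) := by gcongr
    _ = ENNReal.ofReal ((1 + A) * ε) := by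
        rw [← ENNReal.ofReal_add hA hA, ← ENNReal.ofReal_mul (by positivity),
          ← ENNReal.ofReal_mul (by positivity), ← ENNReal.ofReal_add (by positivity) (by positivity)]
        congr 1
        field_simp
        ring

theorem integral_maxwellian : ∫ v, maxwellian v ∂(volume : Measure R3) = 1 := by
  unfold maxwellian
  have h : ∀ v : R3, -‖v‖ ^ 2 / 2 = -(1 / 2 : ℝ) * ‖v‖ ^ 2 := fun v => by ring
  simp only [h]
  rw [integral_const_mul, GaussianFourier.integral_rexp_neg_mul_sq_norm (by norm_num)]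
  have h2 : (Module.finrank ℝ R3 : ℝ) / 2 = 3 / 2 := by
    have : Module.finrank ℝ R3 = 3 := by simp
    rw [this]; norm_num
  rw [h2, show Real.pi / (1 / 2) = 2 * Real.pi by ring, ← Real.rpow_add (by positivity)]
  norm_num

theorem lintegral_maxwellian : ∫⁻ v, ENNReal.ofReal (maxwellian v) ∂(volume : Measure R3) = 1 := by
  rw [← ofReal_integral_eq_lintegral_ofReal]
  · rw [integral_maxwellian]; simp
  · by_contra h
    have := integral_undef h
    rw [integral_maxwellian] at this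
    exact one_ne_zero this
  · exact ae_of_all _ fun v => (maxwellian_pos v).le

end Crest.Agent.R68.W
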