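import Crest.Agent.R68.EPer

/-!
R68 / EHyp: the hypotheses of the end-game theorem of Part E (helper485).
-/

set_option autoImplicit false
open MeasureTheory
open scoped ENNReal
open Crest.AnalysisR.VecCalc3 Crest.AnalysisR.PDE.Boltzmann

namespace Crest.Agent.R68

/-- net collision term Q⁺ - Q⁻ as a real number -/
noncomputable def Qr (F : ℝ → R3 → R3 → ℝ) (t : ℝ) (q : R3 × R3) : ℝ :=
  (collGain F t q.1 q.2).toReal - (collLoss F t q.1 q.2).toReal

/-- A nonnegative periodic mild solution with integrable weighted gain and loss: the hypotheses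
(MILD) and (INT) of Part E. -/
structure MildSol (F : ℝ → R3 → R3 → ℝ) (F0 : R3 → R3 → ℝ) (R : ℝ) : Prop where
  datum : IsAdmissibleDatum F0 R
  meas : MeasF F
  nonneg : ∀ t x v, 0 ≤ t → 0 ≤ F t x v
  per : ∀ t v, IsPeriodic3 (fun x => F t x v)
  init : ∀ x v, F 0 x v = F0 x v
  mild : ∀ t, 0 ≤ t → ∀ᵐ q ∂(volume : Measure (R3 × R3)),
    F t (q.1 + t • q.2) q.2 = F0 q.1 q.2 + ∫ s in (0)..t, Qr F s (shift s q)
  int : ∀ (T : ℝ) (k : ℕ), (∫⁻ p in Set.Ioo 0 T ×ˢ (cell ×ˢ Set.univ),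
      ENNReal.ofReal ((1 + ‖p.2.2‖ ^ 2) ^ (k / 2 : ℝ) + Real.log (1 + F p.1 p.2.1 p.2.2)) *
        (collGain F p.1 p.2.1 p.2.2 + collLoss F p.1 p.2.1 p.2.2)
      ∂(volume : Measure (ℝ × R3 × R3))) < ⊤

end Crest.Agent.R68
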