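import Crest.Agent.R68.Defs
import Crest.Agent.R68.EHyp

/-!
# Row 68, PART Z: mild solutions in the rotated planar frame
-/

set_option autoImplicit false
open MeasureTheory Set
open scoped ENNReal
open Crest.AnalysisR.VecCalc3 Crest.AnalysisR.PDE.Boltzmann

noncomputable section

namespace Crest.Agent.R68

/-- gain at the point `(t,x)` of a real density `G` in the planar frame -/
def gainG (G : ℝ → P2 → R3 → ℝ) (t : ℝ) (x : P2) (v : R3) : ℝ≥0∞ :=
  Qp (fun z => ENNReal.ofReal (G t x z)) (fun z => ENNReal.ofReal (G t x z)) v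

/-- loss at the point `(t,x)` of a real density `G` in the planar frame -/
def lossG (G : ℝ → P2 → R3 → ℝ) (t : ℝ) (x : P2) (v : R3) : ℝ≥0∞ :=
  ENNReal.ofReal (G t x v) * Lc (fun z => ENNReal.ofReal (G t x z)) v

/-- admissible datum in the planar frame -/
structure DatumG (G0 : P2 → R3 → ℝ) (R : ℝ) : Prop where
  meas : Measurable (fun q : P2 × R3 => G0 q.1 q.2)
  nonneg : ∀ x v, 0 ≤ G0 x v
  per : ∀ v, PerG (fun x => G0 x v)
  supp : ∀ x v, R ≤ ‖v‖ → G0 x v = 0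
  fin : (∫⁻ q in cellG ×ˢ (Set.univ : Set R3),
    ENNReal.ofReal (G0 q.1 q.2 * (1 + ‖q.2‖ ^ 2 + |Real.log (G0 q.1 q.2)|))) < ⊤

/-- global mild solution in the planar frame with the integrability of Part E -/
structure MildG (G : ℝ → P2 → R3 → ℝ) (G0 : P2 → R3 → ℝ) (R : ℝ) : Prop where
  datum : DatumG G0 R
  meas : Measurable (fun p : ℝ × P2 × R3 => G p.1 p.2.1 p.2.2)
  nonneg : ∀ t x v, 0 ≤ t → 0 ≤ G t x v
  per : ∀ t v, PerG (fun x => G t x v)
  init : ∀ x v, G 0 x v = G0 x v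
  mild : ∀ t, 0 ≤ t → ∀ᵐ q : P2 × R3,
    G t (q.1 + t • bar q.2) q.2 = G0 q.1 q.2 +
      ∫ s in (0)..t, ((gainG G s (q.1 + s • bar q.2) q.2).toReal -
        (lossG G s (q.1 + s • bar q.2) q.2).toReal)
  int : ∀ (T : ℝ) (k : ℕ), (∫⁻ p in Ioo 0 T ×ˢ (cellG ×ˢ (Set.univ : Set R3)),
      ENNReal.ofReal ((1 + ‖p.2.2‖ ^ 2) ^ (k / 2 : ℝ) + Real.log (1 + G p.1 p.2.1 p.2.2)) *
        (gainG G p.1 p.2.1 p.2.2 + lossG G p.1 p.2.1 p.2.2)) < ⊤

/-- planar coordinates of a position of `ℝ³` -/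
def prx (x : R3) : P2 :=
  ((x 1 - gold * x 0) / √(1 + gold ^ 2), (x 0 + gold * x 1) / √(1 + gold ^ 2))

/-- the corresponding orthogonal map of velocities -/
def rotv (v : R3) : R3 :=
  !₂[(v 1 - gold * v 0) / √(1 + gold ^ 2), (v 0 + gold * v 1) / √(1 + gold ^ 2), v 2]

/-- pull-back to the frame of the statement -/
def pull (G : ℝ → P2 → R3 → ℝ) (t : ℝ) (x v : R3) : ℝ := G t (prx x) (rotv v)

end Crest.Agent.R68
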