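import Crest.Agent.R68.Defs
import Crest.Agent.R68.FDat2
import Crest.Agent.R68.K3

/-!
# Row 68, PART A (helper418): the background datum and its envelope
-/

set_option autoImplicit false
open MeasureTheory Set
open scoped ENNReal
open Crest.AnalysisR.VecCalc3 Crest.AnalysisR.PDE.Boltzmann

noncomputable section

namespace Crest.Agent.R68.A

open Crest.Agent.R68.Fuel (bg bg_le bg_nonneg)

theorem maxwellian_le_exp (v : R3) : maxwellian v ≤ Real.exp (-‖v‖ ^ 2 / 2) :=
  Fuel.maxwellian_le v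

/-- the distance factor along a flight -/
theorem distG_flight_le {t : ℝ} (ht : 0 ≤ t) (x : P2) (v : R3) :
    distG (x - t • bar v) ≤ distG x + t * ‖v‖ := by
  have h := distG_le_add x (-(t • bar v))
  rw [norm_neg, norm_smul, Real.norm_of_nonneg ht, ← sub_eq_add_neg] at h
  have h2 := mul_le_mul_of_nonneg_left (K.norm_bar_le v) ht
  linarith

/-- outside the transported hole `Θ ≥ r_h²/Λ` -/
theorem Th_lower {Lam t rh : ℝ} (hL : 0 < Lam) (ht : 0 ≤ t) (hrh : 0 < rh) (x : P2) (v : R3)
    (h : rh < distG (x - t • bar v)) : 1 / Lam ≤ Th Lam t x v / rh ^ 2 := by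
  have h1 := distG_flight_le ht x v
  have h2 : rh < distG x + t * ‖v‖ := lt_of_lt_of_le h h1
  have h3 : rh ^ 2 ≤ (distG x + t * ‖v‖) ^ 2 := by
    apply pow_le_pow_left₀ hrh.le h2.le
  unfold Th
  rw [div_le_div_iff₀ hL (by positivity), add_mul, div_mul_cancel₀ _ hL.ne']
  nlinarith

/-- **(a)** the freely transported background is below `Lam^b * B1` -/
theorem bg_le_B1 (P : Par) {Lam rh g b t R : ℝ} (hL : 1 ≤ Lam) (hrh : 0 < rh)
    (hb : 0 ≤ b) (hg : g ≤ 1 / 2) (ht : 0 ≤ t) (x : P2) (v : R3) :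
    ENNReal.ofReal (bg rh R (x - t • bar v) v) ≤
      ENNReal.ofReal (Lam ^ b) * B1 P Lam rh g b t x v := by
  by_cases hin : ‖v‖ < R ∧ rh < distG (x - t • bar v)
  · have hT := Th_lower (by linarith : 0 < Lam) ht hrh x v hin.2
    have hmin : 1 / Lam ≤ min 1 (Th Lam t x v / rh ^ 2) :=
      le_min (by rw [div_le_one (by linarith)]; exact hL) hT
    have hpow : (1 / Lam) ^ b ≤ (min 1 (Th Lam t x v / rh ^ 2)) ^ b :=
      Real.rpow_le_rpow (by positivity) hmin hb
    have hgau : Real.exp (-‖v‖ ^ 2 / 2) ≤ gau g t v := by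
      unfold gau
      apply Real.exp_le_exp.2
      have : 0 ≤ √t := Real.sqrt_nonneg t
      nlinarith [sq_nonneg ‖v‖, mul_nonneg this (sq_nonneg ‖v‖)]
    have h1 : bg rh R (x - t • bar v) v ≤
        Lam ^ b * ((min 1 (Th Lam t x v / rh ^ 2)) ^ b * gau g t v) := by
      have e1 : Lam ^ b * (1 / Lam) ^ b = 1 := by
        rw [← Real.mul_rpow (by linarith) (by positivity), mul_one_div_cancel (by linarith),
          Real.one_rpow]
      calc bg rh R (x - t • bar v) v ≤ maxwellian v := bg_le _ _ _ _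
        _ ≤ Real.exp (-‖v‖ ^ 2 / 2) := maxwellian_le_exp v
        _ ≤ gau g t v := hgau
        _ = Lam ^ b * ((1 / Lam) ^ b * gau g t v) := by rw [← mul_assoc, e1, one_mul]
        _ ≤ _ := by
          have : 0 ≤ gau g t v := (Real.exp_pos _).le
          gcongr
    calc ENNReal.ofReal (bg rh R (x - t • bar v) v)
        ≤ ENNReal.ofReal (Lam ^ b * ((min 1 (Th Lam t x v / rh ^ 2)) ^ b * gau g t v)) :=
          ENNReal.ofReal_le_ofReal h1
      _ = ENNReal.ofReal (Lam ^ b) *
          ENNReal.ofReal ((min 1 (Th Lam t x v / rh ^ 2)) ^ b * gau g t v) :=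
          ENNReal.ofReal_mul (by positivity)
      _ ≤ ENNReal.ofReal (Lam ^ b) * B1 P Lam rh g b t x v := by
          unfold B1
          gcongr
          exact le_mul_of_one_le_right zero_le (K.one_le_Dm P t x v)
  · have : bg rh R (x - t • bar v) v = 0 := by
      unfold bg
      rw [if_neg hin]
    rw [this, ENNReal.ofReal_zero]
    exact zero_le

end Crest.Agent.R68.A
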