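import Crest.Prelude.Def_HardSphereBoltzmann

/-!
# Row 68 (S0091): common definitions (freeze v6, FINAL: notes 10077 + 10131 on rid 68 and mails; `r(a) = a²` continuous, lanes in `1/a²`,
gaps 1 percent, Lipschitz profiles)

Rotated frame: position `x : P2 = ℝ × ℝ` (functions do not depend on `x₃`), velocity `v : R3`
with components `v 0, v 1, v 2`; lattice `Γ` = rotated `ℤ²`, the `x₂`-axis has golden slope.
-/

set_option autoImplicit false
open MeasureTheory Set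
open scoped ENNReal
open Crest.AnalysisR.VecCalc3 Crest.AnalysisR.PDE.Boltzmann

noncomputable section

namespace Crest.Agent.R68

/-- planar position -/
abbrev P2 : Type := ℝ × ℝ

/-- planar part of a velocity -/
def bar (v : R3) : P2 := (v 0, v 1)

/-- the golden number -/
def gold : ℝ := (1 + √5) / 2

/-- the lattice `Γ` (rotated `ℤ²`) -/
def latt (k : ℤ × ℤ) : P2 :=
  (((k.2 : ℝ) - k.1 * gold) / √(1 + gold ^ 2), ((k.1 : ℝ) + k.2 * gold) / √(1 + gold ^ 2))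

/-- a fundamental cell of `Γ` -/
def cellG : Set P2 :=
  {x | ∃ s t : ℝ, s ∈ Ico (0 : ℝ) 1 ∧ t ∈ Ico (0 : ℝ) 1 ∧
    x = ((t - s * gold) / √(1 + gold ^ 2), (s + t * gold) / √(1 + gold ^ 2))}

/-- `Γ`-periodic in position -/
def PerG {α : Type*} (f : P2 → α) : Prop := ∀ (x : P2) (k : ℤ × ℤ), f (x + latt k) = f x

/-- distance to the lattice (sup norm of `ℝ × ℝ`) -/
def distG (x : P2) : ℝ := ⨅ k : ℤ × ℤ, ‖x + latt k‖

/-- bilinear gain of velocity profiles; `Q⁺(f,g)(v) = ∫∫ |⟨v-v⋆,ω⟩| f(v') g(v⋆')` -/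
def Qp (f g : R3 → ℝ≥0∞) (v : R3) : ℝ≥0∞ :=
  ∫⁻ vs, ∫⁻ w, ENNReal.ofReal |inner ℝ (v - vs) w| * f (postVel v vs w) *
    g (postVelStar v vs w) ∂sphereMeasure

/-- collision frequency of a velocity profile: `L g (v) = ∫∫ |⟨v-v⋆,ω⟩| g(v⋆) = 2π ∫ |v-v⋆| g(v⋆)` -/
def Lc (g : R3 → ℝ≥0∞) (v : R3) : ℝ≥0∞ :=
  ∫⁻ vs, ∫⁻ w, ENNReal.ofReal |inner ℝ (v - vs) w| * g vs ∂sphereMeasure

/-- Duhamel integral along free flight -/
def Duh (q : ℝ → P2 → R3 → ℝ≥0∞) (t : ℝ) (x : P2) (v : R3) : ℝ≥0∞ :=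
  ∫⁻ s in Ioo 0 t, q s (x - (t - s) • bar v) v

/-! ### the fuel -/

/-- parameters of the fuel: `K, Y` large, thickness exponent `p`, first lane `j0` (`δ = 1/(2 j0)`),
slow expansion `c`. -/
structure Par where
  K : ℝ
  Y : ℝ
  /-- width of the linear edge of the fan: full density for `|y| ≤ Y - ey`, zero for `|y| ≥ Y` -/
  ey : ℝ
  c : ℝ
  p : ℕ
  j0 : ℕ

/-- `δ`: all labels satisfy `|a| < δ` -/
def Par.dl (P : Par) : ℝ := 1 / √(2 * P.j0)

/-- time scale of the label `a` (thin cusp) -/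
def rr (a : ℝ) : ℝ := a ^ 2
/-- thickness of lane `j` (constant on the lane) -/
def etaj (p j : ℕ) : ℝ := (1 / (2 * (j : ℝ) + 1)) ^ p
/-- sign of lane `j` -/
def wj (j : ℕ) : ℝ := (-1) ^ j
/-- lane `j` (both sides of the axis): `1/a²` lies between `2j + 1/100` and `2j + 199/100` -/
def lane (j : ℕ) : Set ℝ :=
  {a | a ≠ 0 ∧ 2 * (j : ℝ) + 1 / 100 < 1 / a ^ 2 ∧ 1 / a ^ 2 < 2 * j + 199 / 100}
/-- enlarged lane `j` (still pairwise disjoint) -/
def laneE (j : ℕ) : Set ℝ :=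
  {a | a ≠ 0 ∧ 2 * (j : ℝ) + 1 / 200 < 1 / a ^ 2 ∧ 1 / a ^ 2 < 2 * j + 399 / 200}
/-- trapezoidal profile of lane `j` (support: closure of `lane j`), values in `[0,1]` -/
def chij (j : ℕ) (a : ℝ) : ℝ :=
  max 0 (min 1 (min (100 * (1 / a ^ 2 - (2 * j + 1 / 100))) (100 * (2 * j + 199 / 100 - 1 / a ^ 2))))
/-- profile in `y` -/
def ky (P : Par) (y : ℝ) : ℝ := max 0 (min 1 ((P.Y - |y|) / P.ey))

/-- label coordinate of position `x` at time `t` -/
def lab (P : Par) (t : ℝ) (x : P2) : ℝ := P.dl * x.1 / (P.dl + P.c * t)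

/-- the (Lipschitz) velocity field with third component `s` -/
def uvec (P : Par) (s t : ℝ) (x : P2) : R3 :=
  !₂[P.c * x.1 / (P.dl + P.c * t), x.2 / (t + rr (lab P t x)), s]

/-- initial fuel of lane `j`, one period -/
def phi0j (P : Par) (j : ℕ) (x : P2) (v : R3) : ℝ :=
  open scoped Classical in
    if x.1 ∈ lane j ∧ |x.2| < P.Y * rr x.1 ∧
        ∀ i : Fin 3, |v i - uvec P (wj j) 0 x i| < etaj P.p j then
      P.K * chij j x.1 * ky P (x.2 / rr x.1) / (8 * rr x.1 * etaj P.p j ^ 3) else 0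

/-- initial fuel, one period (at most one lane contributes) -/
def phi0 (P : Par) (x : P2) (v : R3) : ℝ := ∑' j : ℕ, if P.j0 ≤ j then phi0j P j x v else 0

/-- collisionless fuel, periodic -/
def phi (P : Par) (t : ℝ) (x : P2) (v : R3) : ℝ :=
  ∑' k : ℤ × ℤ, phi0 P (x + latt k - t • bar v) v

/-- upper bound of the density of the fuel at time `t` at the label `a`; the density itself is
`dens * chij j a * ky y` up to a thermal layer -/
def dens (P : Par) (t a : ℝ) : ℝ := P.K / ((t + rr a) * (1 + P.c * t / P.dl))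

/-! ### weights -/

/-- the set of transported distances to fuel labels -/
def Dset (P : Par) (t : ℝ) (x : P2) (v : R3) : Set ℝ :=
  {d | ∃ (k : ℤ × ℤ) (j : ℕ) (a y s : ℝ), P.j0 ≤ j ∧ a ∈ lane j ∧ |y| < P.Y ∧ (s = 1 ∨ s = -1) ∧
    d = ‖v - !₂[P.c * a / P.dl, y, s]‖ + ‖x + latt k - t • bar v - (a, y * rr a)‖ / (t + rr a)}

/-- the weight `D`, non-increasing along free flight -/
def Dw (P : Par) (t : ℝ) (x : P2) (v : R3) : ℝ := min 1 (sInf (Dset P t x v))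

/-- `Θ(t,x,v) = t + (|x|_Γ + t|v|)²/Λ` -/
def Th (Lam t : ℝ) (x : P2) (v : R3) : ℝ := t + (distG x + t * ‖v‖) ^ 2 / Lam

/-- Gaussian weight with slowly decreasing exponent -/
def gau (g : ℝ) (t : ℝ) (v : R3) : ℝ := Real.exp (-(g - √t / 100) * ‖v‖ ^ 2)

/-- `D^{-3/2}` as an extended number (`⊤` where `D = 0`) -/
def Dm (P : Par) (t : ℝ) (x : P2) (v : R3) : ℝ≥0∞ := ENNReal.ofReal (Dw P t x v) ^ (-(3 / 2) : ℝ)

/-- hot envelope `B1` of the unburnt solution on `[0,T1]` -/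
def B1 (P : Par) (Lam rh g : ℝ) (b : ℝ) (t : ℝ) (x : P2) (v : R3) : ℝ≥0∞ :=
  ENNReal.ofReal ((min 1 (Th Lam t x v / rh ^ 2)) ^ b * gau g t v) * Dm P t x v

/-- envelope `B2` (exponent `b`) of hot perturbations, localised at `|x| ≲ t` -/
def B2 (P : Par) (g1 g2 : ℝ) (b : ℝ) (t : ℝ) (x : P2) (v : R3) : ℝ≥0∞ :=
  ENNReal.ofReal (t ^ b * gau g1 t v * Real.exp (-g2 * (max ‖v‖ (distG x / t)) ^ 2)) * Dm P t x v

end Crest.Agent.R68
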