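/-
Row 68 (S0091), Part F (fuel): the golden lattice.
The torus lattice ℤ² written in the orthonormal frame (e⊥, e), e = (1, φ)/√(1+φ²):
  `γ1 k = (φ k₁ - k₂)/s`, `γ2 k = (k₁ + φ k₂)/s`, s = √(1+φ²).
Main facts: `γ1² + γ2² = k₁² + k₂²`, and the bad approximability
  `1 ≤ √5 * |γ1 k| * √(k₁² + k₂²)` for k ≠ 0.
-/
import Mathlib

set_option autoImplicit false

namespace Crest.Agent.R68.FLat

open Real

/-- the normalising constant `√(1+φ²)`. -/
noncomputable def s : ℝ := √(1 + goldenRatio ^ 2)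

lemma s_pos : 0 < s := Real.sqrt_pos.2 (by positivity)

lemma s_sq : s ^ 2 = 1 + goldenRatio ^ 2 := Real.sq_sqrt (by positivity)

/-- first (transversal) coordinate of the lattice point `k`. -/
noncomputable def γ1 (k : ℤ × ℤ) : ℝ := (goldenRatio * k.1 - k.2) / s

/-- second (longitudinal) coordinate of the lattice point `k`. -/
noncomputable def γ2 (k : ℤ × ℤ) : ℝ := (k.1 + goldenRatio * k.2) / s

@[simp] lemma γ1_zero : γ1 0 = 0 := by simp [γ1]
@[simp] lemma γ2_zero : γ2 0 = 0 := by simp [γ2]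

lemma γ1_add (k l : ℤ × ℤ) : γ1 (k + l) = γ1 k + γ1 l := by
  simp only [γ1, Prod.fst_add, Prod.snd_add, Int.cast_add]; ring

lemma γ2_add (k l : ℤ × ℤ) : γ2 (k + l) = γ2 k + γ2 l := by
  simp only [γ2, Prod.fst_add, Prod.snd_add, Int.cast_add]; ring

lemma γ1_neg (k : ℤ × ℤ) : γ1 (-k) = -γ1 k := by
  simp only [γ1, Prod.fst_neg, Prod.snd_neg, Int.cast_neg]; ring

lemma γ2_neg (k : ℤ × ℤ) : γ2 (-k) = -γ2 k := by
  simp only [γ2, Prod.fst_neg, Prod.snd_neg, Int.cast_neg]; ring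

lemma γ1_sub (k l : ℤ × ℤ) : γ1 (k - l) = γ1 k - γ1 l := by
  rw [sub_eq_add_neg, γ1_add, γ1_neg]; ring

lemma γ2_sub (k l : ℤ × ℤ) : γ2 (k - l) = γ2 k - γ2 l := by
  rw [sub_eq_add_neg, γ2_add, γ2_neg]; ring

/-- the frame change is an isometry. -/
lemma γ_sq (k : ℤ × ℤ) : γ1 k ^ 2 + γ2 k ^ 2 = (k.1 : ℝ) ^ 2 + (k.2 : ℝ) ^ 2 := by
  have hs := s_sq
  have hs0 : s ^ 2 ≠ 0 := by rw [hs]; positivity
  unfold γ1 γ2
  rw [div_pow, div_pow, ← add_div, div_eq_iff hs0, hs]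
  ring

/-- integers: `m² + m n - n² ≠ 0` unless both vanish. -/
lemma form_ne_zero {m n : ℤ} (h : (m, n) ≠ (0, 0)) : m ^ 2 + m * n - n ^ 2 ≠ 0 := by
  intro h0
  have hR : ((m : ℝ)) ^ 2 + m * n - (n : ℝ) ^ 2 = 0 := by exact_mod_cast h0
  have hf : (goldenRatio * m - n) * (goldenConj * m - n) = 0 := by
    have h1 := goldenRatio_mul_goldenConj
    have h2 := goldenRatio_add_goldenConj
    have : (goldenRatio * m - n) * (goldenConj * m - n)
        = (goldenRatio * goldenConj) * m ^ 2 - (goldenRatio + goldenConj) * m * n + (n : ℝ) ^ 2 := by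
      ring
    rw [this, h1, h2]; linarith
  have key : ∀ (x : ℝ), Irrational x → x * m - n = 0 → (m, n) = (0, 0) := by
    intro x hx hxe
    by_cases hm : m = 0
    · subst hm
      simp only [Int.cast_zero, mul_zero, zero_sub, neg_eq_zero, Int.cast_eq_zero] at hxe
      rw [hxe]
    · exfalso
      have hmR : (m : ℝ) ≠ 0 := by exact_mod_cast hm
      apply hx
      refine ⟨(n : ℚ) / m, ?_⟩
      push_cast
      rw [div_eq_iff hmR]; linarith
  rcases mul_eq_zero.1 hf with h1 | h1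
  · exact h (key _ goldenRatio_irrational h1)
  · exact h (key _ goldenConj_irrational h1)

lemma one_le_form {m n : ℤ} (h : (m, n) ≠ (0, 0)) :
    1 ≤ |(goldenRatio * m - n) * (goldenConj * m - n)| := by
  have h1 := goldenRatio_mul_goldenConj
  have h2 := goldenRatio_add_goldenConj
  have e : (goldenRatio * m - n) * (goldenConj * m - n)
      = -(((m ^ 2 + m * n - n ^ 2 : ℤ)) : ℝ) := by
    have : (goldenRatio * m - n) * (goldenConj * m - n)
        = (goldenRatio * goldenConj) * m ^ 2 - (goldenRatio + goldenConj) * m * n + (n : ℝ) ^ 2 := by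
      ring
    rw [this, h1, h2]; push_cast; ring
  rw [e, abs_neg]
  have := Int.one_le_abs (form_ne_zero h)
  exact_mod_cast this

/-- bad approximability: `1 ≤ √5 |γ1 k| |k|`. -/
lemma one_le_γ1_mul {k : ℤ × ℤ} (hk : k ≠ 0) :
    1 ≤ √5 * |γ1 k| * √((k.1 : ℝ) ^ 2 + (k.2 : ℝ) ^ 2) := by
  obtain ⟨m, n⟩ := k
  have h : (m, n) ≠ (0, 0) := hk
  have h1 := one_le_form h
  rw [abs_mul] at h1
  have hs := s_pos
  have e1 : |goldenRatio * m - n| = s * |γ1 (m, n)| := by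
    simp only [γ1]
    rw [abs_div, abs_of_pos hs]; field_simp
  have e2 : |goldenConj * m - n| ≤ √(1 + goldenConj ^ 2) * √((m : ℝ) ^ 2 + (n : ℝ) ^ 2) := by
    rw [← Real.sqrt_mul (by positivity)]
    apply Real.abs_le_sqrt
    nlinarith [sq_nonneg (goldenConj * n + m)]
  have e3 : s * √(1 + goldenConj ^ 2) = √5 := by
    unfold s
    rw [← Real.sqrt_mul (by positivity)]
    congr 1
    have h3 := goldenRatio_sq
    have h4 := goldenConj_sq
    have h5 := goldenRatio_mul_goldenConj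
    have h6 := goldenRatio_add_goldenConj
    have : (1 + goldenRatio ^ 2) * (1 + goldenConj ^ 2)
        = 1 + goldenRatio ^ 2 + goldenConj ^ 2 + (goldenRatio * goldenConj) ^ 2 := by ring
    rw [this, h3, h4, h5]; linarith
  calc (1 : ℝ) ≤ |goldenRatio * m - n| * |goldenConj * m - n| := h1
    _ ≤ (s * |γ1 (m, n)|) * (√(1 + goldenConj ^ 2) * √((m : ℝ) ^ 2 + (n : ℝ) ^ 2)) := by
        rw [e1]; exact mul_le_mul_of_nonneg_left e2 (by positivity)
    _ = (s * √(1 + goldenConj ^ 2)) * |γ1 (m, n)| * √((m : ℝ) ^ 2 + (n : ℝ) ^ 2) := by ring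
    _ = √5 * |γ1 (m, n)| * √((m : ℝ) ^ 2 + (n : ℝ) ^ 2) := by rw [e3]

/-- `γ1` vanishes only at the origin. -/
lemma γ1_ne_zero {k : ℤ × ℤ} (hk : k ≠ 0) : γ1 k ≠ 0 := by
  intro h
  have := one_le_γ1_mul hk
  rw [h] at this; simp at this
  linarith

/-- nonzero lattice points have norm at least one. -/
lemma one_le_norm_sq {k : ℤ × ℤ} (hk : k ≠ 0) : 1 ≤ γ1 k ^ 2 + γ2 k ^ 2 := by
  rw [γ_sq]
  obtain ⟨m, n⟩ := k
  have h : ¬ (m = 0 ∧ n = 0) := fun h => hk (by simp [h.1, h.2])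
  have h1 : 1 ≤ m ^ 2 + n ^ 2 := by
    by_cases hm : m = 0
    · have hn : n ≠ 0 := fun hn => h ⟨hm, hn⟩
      have : 0 < n ^ 2 := by positivity
      nlinarith [sq_nonneg m]
    · have : 0 < m ^ 2 := by positivity
      nlinarith [sq_nonneg n]
  exact_mod_cast h1

/-- quantitative form used for non-crossing: a lattice translate `k ≠ 0` of norm at most `L`
(in the coordinates `γ`) has transversal coordinate at least `1/(√5 L)`. -/
lemma γ1_lower {k : ℤ × ℤ} (hk : k ≠ 0) {L : ℝ} (hL : γ1 k ^ 2 + γ2 k ^ 2 ≤ L ^ 2) (hL0 : 0 ≤ L) :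
    1 ≤ √5 * L * |γ1 k| := by
  have h := one_le_γ1_mul hk
  rw [← γ_sq] at h
  have : √(γ1 k ^ 2 + γ2 k ^ 2) ≤ L := by
    rw [show L = √(L ^ 2) by rw [Real.sqrt_sq hL0]]
    exact Real.sqrt_le_sqrt hL
  calc (1 : ℝ) ≤ √5 * |γ1 k| * √(γ1 k ^ 2 + γ2 k ^ 2) := h
    _ ≤ √5 * |γ1 k| * L := mul_le_mul_of_nonneg_left this (by positivity)
    _ = √5 * L * |γ1 k| := by ring

end Crest.Agent.R68.FLat
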