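/-
Row 68 (S0091), Part F: distance to the golden lattice, local finiteness.
-/
import Mathlib
import Crest.Agent.R68.FLat

set_option autoImplicit false

namespace Crest.Agent.R68.FLat

open Real MeasureTheory

/-- standard first coordinate of the point with golden coordinates `(x1,x2)`. -/
noncomputable def sp (x1 x2 : ℝ) : ℝ := (goldenRatio * x1 + x2) / s

/-- standard second coordinate of the point with golden coordinates `(x1,x2)`. -/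
noncomputable def sq (x1 x2 : ℝ) : ℝ := (-x1 + goldenRatio * x2) / s

lemma sp_sq (x1 x2 : ℝ) : sp x1 x2 ^ 2 + sq x1 x2 ^ 2 = x1 ^ 2 + x2 ^ 2 := by
  have hs : s ≠ 0 := s_pos.ne'
  have h := s_sq
  unfold sp sq
  generalize goldenRatio = p at h ⊢
  field_simp
  linear_combination (-(x1 ^ 2) - x2 ^ 2) * h

lemma sp_γ (k : ℤ × ℤ) : sp (γ1 k) (γ2 k) = k.1 := by
  have hs : s ≠ 0 := s_pos.ne'
  have h := s_sq
  unfold sp γ1 γ2
  generalize goldenRatio = p at h ⊢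
  field_simp
  linear_combination (-(k.1 : ℝ)) * h

lemma sq_γ (k : ℤ × ℤ) : sq (γ1 k) (γ2 k) = k.2 := by
  have hs : s ≠ 0 := s_pos.ne'
  have h := s_sq
  unfold sq γ1 γ2
  generalize goldenRatio = p at h ⊢
  field_simp
  linear_combination (-(k.2 : ℝ)) * h

lemma sp_add (x1 x2 y1 y2 : ℝ) : sp (x1 + y1) (x2 + y2) = sp x1 x2 + sp y1 y2 := by
  unfold sp; ring

lemma sq_add (x1 x2 y1 y2 : ℝ) : sq (x1 + y1) (x2 + y2) = sq x1 x2 + sq y1 y2 := by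
  unfold sq; ring

lemma sum_sq_add_γ (x1 x2 : ℝ) (k : ℤ × ℤ) :
    (x1 + γ1 k) ^ 2 + (x2 + γ2 k) ^ 2 = (sp x1 x2 + k.1) ^ 2 + (sq x1 x2 + k.2) ^ 2 := by
  rw [← sp_sq, sp_add, sq_add, sp_γ, sq_γ]

/-- Distance of the point with golden coordinates `(x1,x2)` to the lattice. -/
noncomputable def dG (x1 x2 : ℝ) : ℝ :=
  √((sp x1 x2 - round (sp x1 x2)) ^ 2 + (sq x1 x2 - round (sq x1 x2)) ^ 2)

lemma dG_nonneg (x1 x2 : ℝ) : 0 ≤ dG x1 x2 := Real.sqrt_nonneg _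

lemma dG_le (x1 x2 : ℝ) (k : ℤ × ℤ) : dG x1 x2 ≤ √((x1 + γ1 k) ^ 2 + (x2 + γ2 k) ^ 2) := by
  rw [sum_sq_add_γ]
  apply Real.sqrt_le_sqrt
  have h : ∀ (p : ℝ) (m : ℤ), (p - round p) ^ 2 ≤ (p + m) ^ 2 := by
    intro p m
    have := round_le p (-m)
    push_cast at this
    rw [sub_neg_eq_add] at this
    exact sq_le_sq.2 this
  exact add_le_add (h _ _) (h _ _)

lemma exists_dG_eq (x1 x2 : ℝ) :
    ∃ k : ℤ × ℤ, dG x1 x2 = √((x1 + γ1 k) ^ 2 + (x2 + γ2 k) ^ 2) := by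
  refine ⟨(-round (sp x1 x2), -round (sq x1 x2)), ?_⟩
  rw [sum_sq_add_γ, dG]
  push_cast
  simp only [sub_eq_add_neg]

lemma dG_eq_iInf (x1 x2 : ℝ) :
    dG x1 x2 = ⨅ k : ℤ × ℤ, √((x1 + γ1 k) ^ 2 + (x2 + γ2 k) ^ 2) := by
  obtain ⟨k, hk⟩ := exists_dG_eq x1 x2
  apply le_antisymm
  · exact le_ciInf (dG_le x1 x2)
  · rw [hk]
    exact ciInf_le ⟨0, by rintro _ ⟨l, rfl⟩; exact Real.sqrt_nonneg _⟩ k

lemma dG_le_self (x1 x2 : ℝ) : dG x1 x2 ≤ √(x1 ^ 2 + x2 ^ 2) := by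
  simpa using dG_le x1 x2 0

lemma dG_add_γ (x1 x2 : ℝ) (k : ℤ × ℤ) : dG (x1 + γ1 k) (x2 + γ2 k) = dG x1 x2 := by
  apply le_antisymm
  · obtain ⟨l, hl⟩ := exists_dG_eq x1 x2
    rw [hl]
    refine (dG_le _ _ (l - k)).trans (le_of_eq ?_)
    rw [γ1_sub, γ2_sub]; congr 1; ring
  · obtain ⟨l, hl⟩ := exists_dG_eq (x1 + γ1 k) (x2 + γ2 k)
    rw [hl]
    refine (dG_le _ _ (l + k)).trans (le_of_eq ?_)
    rw [γ1_add, γ2_add]; congr 1; ring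

lemma dG_le_one (x1 x2 : ℝ) : dG x1 x2 ≤ 1 := by
  unfold dG
  rw [Real.sqrt_le_one]
  have h : ∀ p : ℝ, (p - round p) ^ 2 ≤ 1 / 4 := by
    intro p
    have := abs_sub_round p
    have h2 : |p - round p| ^ 2 ≤ (1 / 2) ^ 2 := by gcongr
    rw [sq_abs] at h2; norm_num at h2 ⊢; exact h2
  linarith [h (sp x1 x2), h (sq x1 x2)]

/-- triangle inequality in the plane (in square-root form). -/
lemma sqrt_add_le (a b c d : ℝ) : √((a + c) ^ 2 + (b + d) ^ 2) ≤ √(a ^ 2 + b ^ 2) + √(c ^ 2 + d ^ 2) := by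
  have h1 := Real.sqrt_nonneg (a ^ 2 + b ^ 2)
  have h2 := Real.sqrt_nonneg (c ^ 2 + d ^ 2)
  have e1 := Real.sq_sqrt (show 0 ≤ a ^ 2 + b ^ 2 by positivity)
  have e2 := Real.sq_sqrt (show 0 ≤ c ^ 2 + d ^ 2 by positivity)
  apply Real.sqrt_le_iff.2 ⟨by positivity, ?_⟩
  have h3 : a * c + b * d ≤ √(a ^ 2 + b ^ 2) * √(c ^ 2 + d ^ 2) := by
    rw [← Real.sqrt_mul (by positivity)]
    apply Real.le_sqrt_of_sq_le
    nlinarith [sq_nonneg (a * d - b * c)]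
  nlinarith

lemma dG_le_add (x1 x2 y1 y2 : ℝ) :
    dG (x1 + y1) (x2 + y2) ≤ dG x1 x2 + √(y1 ^ 2 + y2 ^ 2) := by
  obtain ⟨k, hk⟩ := exists_dG_eq x1 x2
  rw [hk]
  refine (dG_le _ _ k).trans ?_
  have := sqrt_add_le (x1 + γ1 k) (x2 + γ2 k) y1 y2
  refine le_trans (le_of_eq ?_) this
  congr 1; ring

lemma abs_dG_sub_le (x1 x2 y1 y2 : ℝ) :
    |dG x1 x2 - dG y1 y2| ≤ √((x1 - y1) ^ 2 + (x2 - y2) ^ 2) := by
  rw [abs_le]
  constructor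
  · have := dG_le_add x1 x2 (y1 - x1) (y2 - x2)
    rw [show x1 + (y1 - x1) = y1 by ring, show x2 + (y2 - x2) = y2 by ring] at this
    rw [show (x1 - y1) ^ 2 + (x2 - y2) ^ 2 = (y1 - x1) ^ 2 + (y2 - x2) ^ 2 by ring]
    linarith
  · have := dG_le_add y1 y2 (x1 - y1) (x2 - y2)
    rw [show y1 + (x1 - y1) = x1 by ring, show y2 + (x2 - y2) = x2 by ring] at this
    linarith

/-- near the origin the lattice distance is the norm. -/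
lemma dG_eq_self {x1 x2 : ℝ} (h : x1 ^ 2 + x2 ^ 2 ≤ 1 / 4) : dG x1 x2 = √(x1 ^ 2 + x2 ^ 2) := by
  apply le_antisymm (dG_le_self _ _)
  obtain ⟨k, hk⟩ := exists_dG_eq x1 x2
  by_cases h0 : k = 0
  · rw [hk, h0]; simp
  · rw [hk]
    have h1 := one_le_norm_sq h0
    have h2 : √(x1 ^ 2 + x2 ^ 2) ≤ 1 / 2 := by
      rw [show (1 / 2 : ℝ) = √(1 / 4) by
        rw [show (1 / 4 : ℝ) = (1 / 2) ^ 2 by norm_num, Real.sqrt_sq (by norm_num)]]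
      exact Real.sqrt_le_sqrt h
    have h3 : 1 ≤ √(γ1 k ^ 2 + γ2 k ^ 2) := by rw [Real.one_le_sqrt]; exact h1
    have h4 := sqrt_add_le (x1 + γ1 k) (x2 + γ2 k) (-x1) (-x2)
    rw [show x1 + γ1 k + -x1 = γ1 k by ring, show x2 + γ2 k + -x2 = γ2 k by ring,
      neg_sq, neg_sq] at h4
    linarith

/-- uniqueness of the image: two lattice translates of the same point cannot both be in the
open disc of radius 1/2. -/
lemma unique_image {x1 x2 : ℝ} {k l : ℤ × ℤ}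
    (hk : (x1 + γ1 k) ^ 2 + (x2 + γ2 k) ^ 2 < 1 / 4)
    (hl : (x1 + γ1 l) ^ 2 + (x2 + γ2 l) ^ 2 < 1 / 4) : k = l := by
  by_contra hne
  have h0 : k - l ≠ 0 := sub_ne_zero.2 hne
  have h1 := one_le_norm_sq h0
  rw [γ1_sub, γ2_sub] at h1
  nlinarith [sq_nonneg ((x1 + γ1 k) + (x1 + γ1 l)), sq_nonneg ((x2 + γ2 k) + (x2 + γ2 l))]

/-- local finiteness of the lattice. -/
lemma finite_near (x1 x2 L : ℝ) :
    {k : ℤ × ℤ | (x1 + γ1 k) ^ 2 + (x2 + γ2 k) ^ 2 ≤ L ^ 2}.Finite := by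
  have hsub : {k : ℤ × ℤ | (x1 + γ1 k) ^ 2 + (x2 + γ2 k) ^ 2 ≤ L ^ 2} ⊆
      (Set.Icc ⌈-|L| - sp x1 x2⌉ ⌊|L| - sp x1 x2⌋) ×ˢ (Set.Icc ⌈-|L| - sq x1 x2⌉ ⌊|L| - sq x1 x2⌋) := by
    intro k hk
    simp only [Set.mem_ofPred_eq] at hk
    rw [sum_sq_add_γ, ← sq_abs L] at hk
    have h1 : |sp x1 x2 + k.1| ≤ |L| := by
      apply abs_le_of_sq_le_sq _ (abs_nonneg L)
      nlinarith [sq_nonneg (sq x1 x2 + k.2)]
    have h2 : |sq x1 x2 + k.2| ≤ |L| := by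
      apply abs_le_of_sq_le_sq _ (abs_nonneg L)
      nlinarith [sq_nonneg (sp x1 x2 + k.1)]
    rw [abs_le] at h1 h2
    simp only [Set.mem_prod, Set.mem_Icc, Int.ceil_le, Int.le_floor]
    refine ⟨⟨by linarith, by linarith⟩, ⟨by linarith, by linarith⟩⟩
  exact ((Set.finite_Icc _ _).prod (Set.finite_Icc _ _)).subset hsub

/-- number of lattice translates of a point in a disc of radius `L`. -/
lemma ncard_near (x1 x2 : ℝ) {L : ℝ} (hL : 0 ≤ L) :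
    ({k : ℤ × ℤ | (x1 + γ1 k) ^ 2 + (x2 + γ2 k) ^ 2 ≤ L ^ 2}.ncard : ℝ) ≤ (2 * L + 1) ^ 2 := by
  set A := Finset.Icc ⌈-L - sp x1 x2⌉ ⌊L - sp x1 x2⌋ with hA
  set B := Finset.Icc ⌈-L - sq x1 x2⌉ ⌊L - sq x1 x2⌋ with hB
  have hcard : ∀ p : ℝ, ((Finset.Icc ⌈-L - p⌉ ⌊L - p⌋).card : ℝ) ≤ 2 * L + 1 := by
    intro p
    rw [Int.card_Icc]
    rcases le_or_gt 0 (⌊L - p⌋ + 1 - ⌈-L - p⌉) with h | h
    · have : (((⌊L - p⌋ + 1 - ⌈-L - p⌉).toNat : ℤ) : ℝ) = ((⌊L - p⌋ + 1 - ⌈-L - p⌉ : ℤ) : ℝ) := by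
        rw [Int.toNat_of_nonneg h]
      have h2 : (((⌊L - p⌋ + 1 - ⌈-L - p⌉).toNat : ℕ) : ℝ) = ((⌊L - p⌋ + 1 - ⌈-L - p⌉ : ℤ) : ℝ) := by
        rw [← this]; norm_cast
      rw [h2]; push_cast
      linarith [Int.floor_le (L - p), Int.le_ceil (-L - p)]
    · rw [Int.toNat_of_nonpos h.le]; simp; linarith
  have hsub : {k : ℤ × ℤ | (x1 + γ1 k) ^ 2 + (x2 + γ2 k) ^ 2 ≤ L ^ 2} ⊆ ((A ×ˢ B : Finset (ℤ × ℤ)) : Set (ℤ × ℤ)) := by
    intro k hk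
    simp only [Set.mem_ofPred_eq] at hk
    rw [sum_sq_add_γ] at hk
    have h1 : |sp x1 x2 + k.1| ≤ L := by
      apply abs_le_of_sq_le_sq _ hL
      nlinarith [sq_nonneg (sq x1 x2 + k.2)]
    have h2 : |sq x1 x2 + k.2| ≤ L := by
      apply abs_le_of_sq_le_sq _ hL
      nlinarith [sq_nonneg (sp x1 x2 + k.1)]
    rw [abs_le] at h1 h2
    simp only [Finset.coe_product, Set.mem_prod, Finset.mem_coe, hA, hB, Finset.mem_Icc,
      Int.ceil_le, Int.le_floor]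
    refine ⟨⟨by linarith, by linarith⟩, ⟨by linarith, by linarith⟩⟩
  have h1 := Set.ncard_le_ncard hsub (Finset.finite_toSet _)
  rw [Set.ncard_coe_finset, Finset.card_product] at h1
  calc ({k : ℤ × ℤ | (x1 + γ1 k) ^ 2 + (x2 + γ2 k) ^ 2 ≤ L ^ 2}.ncard : ℝ)
      ≤ ((A.card * B.card : ℕ) : ℝ) := by exact_mod_cast h1
    _ = (A.card : ℝ) * B.card := by push_cast; ring
    _ ≤ (2 * L + 1) * (2 * L + 1) :=
        mul_le_mul (hcard _) (hcard _) (by positivity) (by linarith)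
    _ = (2 * L + 1) ^ 2 := by ring

lemma continuous_dG : Continuous (fun p : ℝ × ℝ => dG p.1 p.2) := by
  rw [Metric.continuous_iff]
  intro b ε hε
  refine ⟨ε / 2, by positivity, fun a ha => ?_⟩
  rw [Real.dist_eq]
  refine (abs_dG_sub_le _ _ _ _).trans_lt ?_
  rw [Prod.dist_eq, max_lt_iff, Real.dist_eq, Real.dist_eq] at ha
  have h : (a.1 - b.1) ^ 2 + (a.2 - b.2) ^ 2 < ε ^ 2 := by
    have h1 := sq_lt_sq' (by linarith [abs_lt.1 ha.1]) (abs_lt.1 ha.1).2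
    have h2 := sq_lt_sq' (by linarith [abs_lt.1 ha.2]) (abs_lt.1 ha.2).2
    nlinarith
  rw [show ε = √(ε ^ 2) by rw [Real.sqrt_sq hε.le]]
  exact Real.sqrt_lt_sqrt (by positivity) h

lemma measurable_dG : Measurable (fun p : ℝ × ℝ => dG p.1 p.2) := continuous_dG.measurable

end Crest.Agent.R68.FLat
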