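/-
Row 68 (S0091), Part F: the lattice `latt` and the distance `distG` of `R68/Defs.lean`.
-/
import Mathlib
import Crest.Agent.R68.Defs
import Crest.Agent.R68.FDist

set_option autoImplicit false

namespace Crest.Agent.R68

open Real MeasureTheory FLat

lemma gold_eq : gold = goldenRatio := rfl

lemma sqrt_gold_eq : √(1 + gold ^ 2) = FLat.s := rfl

lemma latt_fst (k : ℤ × ℤ) : (latt k).1 = -γ1 k := by
  show ((k.2 : ℝ) - k.1 * goldenRatio) / FLat.s = -((goldenRatio * k.1 - k.2) / FLat.s)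
  ring

lemma latt_snd (k : ℤ × ℤ) : (latt k).2 = γ2 k := by
  show ((k.1 : ℝ) + k.2 * goldenRatio) / FLat.s = (k.1 + goldenRatio * k.2) / FLat.s
  ring

@[simp] lemma latt_zero : latt 0 = 0 := by
  ext <;> simp [latt_fst, latt_snd]

lemma latt_add (k l : ℤ × ℤ) : latt (k + l) = latt k + latt l := by
  ext
  · simp only [latt_fst, Prod.fst_add, γ1_add]; ring
  · simp only [latt_snd, Prod.snd_add, γ2_add]

lemma latt_neg (k : ℤ × ℤ) : latt (-k) = -latt k := by
  ext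
  · simp only [latt_fst, Prod.fst_neg, γ1_neg]
  · simp only [latt_snd, Prod.snd_neg, γ2_neg]

lemma latt_sub (k l : ℤ × ℤ) : latt (k - l) = latt k - latt l := by
  rw [sub_eq_add_neg, latt_add, latt_neg, sub_eq_add_neg]

/-- Euclidean length of lattice vectors. -/
lemma latt_sq (k : ℤ × ℤ) : (latt k).1 ^ 2 + (latt k).2 ^ 2 = (k.1 : ℝ) ^ 2 + (k.2 : ℝ) ^ 2 := by
  rw [latt_fst, latt_snd, neg_sq, γ_sq]

lemma one_le_latt_sq {k : ℤ × ℤ} (hk : k ≠ 0) : 1 ≤ (latt k).1 ^ 2 + (latt k).2 ^ 2 := by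
  rw [latt_fst, latt_snd, neg_sq]; exact one_le_norm_sq hk

/-- sup norm versus Euclidean norm on `P2`. -/
lemma sq_add_sq_le_norm (x : P2) : x.1 ^ 2 + x.2 ^ 2 ≤ 2 * ‖x‖ ^ 2 := by
  have h1 : |x.1| ≤ ‖x‖ := by simpa using norm_fst_le x
  have h2 : |x.2| ≤ ‖x‖ := by simpa using norm_snd_le x
  have h3 := sq_le_sq' (by linarith [neg_abs_le x.1]) ((le_abs_self x.1).trans h1)
  have h4 := sq_le_sq' (by linarith [neg_abs_le x.2]) ((le_abs_self x.2).trans h2)
  linarith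

lemma norm_sq_le_sq_add_sq (x : P2) : ‖x‖ ^ 2 ≤ x.1 ^ 2 + x.2 ^ 2 := by
  rw [Prod.norm_def]
  rcases le_total ‖x.1‖ ‖x.2‖ with h | h
  · rw [max_eq_right h, Real.norm_eq_abs, sq_abs]; nlinarith [_root_.sq_nonneg x.1]
  · rw [max_eq_left h, Real.norm_eq_abs, sq_abs]; nlinarith [_root_.sq_nonneg x.2]

/-- nonzero lattice vectors have sup norm at least 7/10. -/
lemma norm_latt_ge {k : ℤ × ℤ} (hk : k ≠ 0) : 7 / 10 ≤ ‖latt k‖ := by
  have h := one_le_latt_sq hk
  have h2 := sq_add_sq_le_norm (latt k)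
  by_contra hlt
  push Not at hlt
  have : ‖latt k‖ ^ 2 < (7 / 10) ^ 2 := by gcongr
  norm_num at this; linarith

/-- golden slope: `|k_1| ≥ c_G/|k|` with `c_G = 1/4` in the sup norm. -/
lemma latt_fst_lower {k : ℤ × ℤ} (hk : k ≠ 0) : 1 ≤ 4 * |(latt k).1| * ‖latt k‖ := by
  have h := one_le_γ1_mul hk
  rw [← latt_sq] at h
  rw [latt_fst, abs_neg]
  have h2 := sq_add_sq_le_norm (latt k)
  have h3 : √((latt k).1 ^ 2 + (latt k).2 ^ 2) ≤ √2 * ‖latt k‖ := by
    rw [show √2 * ‖latt k‖ = √(2 * ‖latt k‖ ^ 2) by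
      rw [Real.sqrt_mul (by norm_num), Real.sqrt_sq (norm_nonneg _)]]
    exact Real.sqrt_le_sqrt h2
  have h4 : √5 * √2 ≤ 4 := by
    rw [← Real.sqrt_mul (by norm_num)]
    rw [show (4 : ℝ) = √(16) by
      rw [show (16 : ℝ) = 4 ^ 2 by norm_num, Real.sqrt_sq (by norm_num)]]
    exact Real.sqrt_le_sqrt (by norm_num)
  calc (1 : ℝ) ≤ √5 * |γ1 k| * √((latt k).1 ^ 2 + (latt k).2 ^ 2) := h
    _ ≤ √5 * |γ1 k| * (√2 * ‖latt k‖) := mul_le_mul_of_nonneg_left h3 (by positivity)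
    _ = (√5 * √2) * |γ1 k| * ‖latt k‖ := by ring
    _ ≤ 4 * |γ1 k| * ‖latt k‖ := by gcongr

/-- if the translate `k ≠ 0` has norm at most `L` then `|k_1| ≥ 1/(4L)`. -/
lemma latt_fst_lower' {k : ℤ × ℤ} (hk : k ≠ 0) {L : ℝ} (hL : ‖latt k‖ ≤ L) :
    1 / (4 * L) ≤ |(latt k).1| := by
  have h := latt_fst_lower hk
  have h0 : 0 < ‖latt k‖ := by linarith [norm_latt_ge hk]
  have hL0 : 0 < L := h0.trans_le hL
  rw [div_le_iff₀ (by positivity)]
  have : |(latt k).1| * ‖latt k‖ ≤ |(latt k).1| * L := mul_le_mul_of_nonneg_left hL (abs_nonneg _)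
  nlinarith

lemma latt_fst_ne_zero {k : ℤ × ℤ} (hk : k ≠ 0) : (latt k).1 ≠ 0 := by
  rw [latt_fst, neg_ne_zero]; exact γ1_ne_zero hk

lemma latt_injective : Function.Injective latt := by
  intro k l h
  by_contra hne
  have h1 := norm_latt_ge (sub_ne_zero.2 hne)
  rw [latt_sub, h, sub_self, norm_zero] at h1
  norm_num at h1

/-! ### distance to the lattice -/

lemma distG_bdd (x : P2) : BddBelow (Set.range fun k : ℤ × ℤ => ‖x + latt k‖) :=
  ⟨0, by rintro _ ⟨k, rfl⟩; exact norm_nonneg _⟩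

lemma distG_nonneg (x : P2) : 0 ≤ distG x := le_ciInf fun _ => norm_nonneg _

lemma distG_le (x : P2) (k : ℤ × ℤ) : distG x ≤ ‖x + latt k‖ := ciInf_le (distG_bdd x) k

lemma distG_le_norm (x : P2) : distG x ≤ ‖x‖ := by simpa using distG_le x 0

/-- only finitely many translates are in a given ball. -/
lemma finite_latt_near (x : P2) (L : ℝ) : {k : ℤ × ℤ | ‖x + latt k‖ ≤ L}.Finite := by
  rcases le_or_gt 0 L with hL | hL
  · refine (finite_near (-x.1) x.2 (√2 * L)).subset ?_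
    intro k hk
    simp only [Set.mem_ofPred_eq] at hk ⊢
    have h := sq_add_sq_le_norm (x + latt k)
    rw [Prod.fst_add, Prod.snd_add, latt_fst, latt_snd] at h
    have h2 : ‖x + latt k‖ ^ 2 ≤ L ^ 2 := by
      have := norm_nonneg (x + latt k); gcongr
    rw [mul_pow, Real.sq_sqrt (by norm_num)]
    nlinarith
  · convert Set.finite_empty (α := ℤ × ℤ)
    ext k
    simp only [Set.mem_ofPred_eq, Set.mem_empty_iff_false, iff_false, not_le]
    exact hL.trans_le (norm_nonneg _)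

/-- the number of translates in the ball of radius `L` is at most `(3L+1)^2`. -/
lemma ncard_latt_near (x : P2) {L : ℝ} (hL : 0 ≤ L) :
    ({k : ℤ × ℤ | ‖x + latt k‖ ≤ L}.ncard : ℝ) ≤ (3 * L + 1) ^ 2 := by
  have hsub : {k : ℤ × ℤ | ‖x + latt k‖ ≤ L} ⊆
      {k : ℤ × ℤ | (-x.1 + γ1 k) ^ 2 + (x.2 + γ2 k) ^ 2 ≤ (√2 * L) ^ 2} := by
    intro k hk
    simp only [Set.mem_ofPred_eq] at hk ⊢
    have h := sq_add_sq_le_norm (x + latt k)
    rw [Prod.fst_add, Prod.snd_add, latt_fst, latt_snd] at h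
    have h2 : ‖x + latt k‖ ^ 2 ≤ L ^ 2 := by
      have := norm_nonneg (x + latt k); gcongr
    rw [mul_pow, Real.sq_sqrt (by norm_num)]
    nlinarith
  have h1 := Set.ncard_le_ncard hsub (finite_near (-x.1) x.2 (√2 * L))
  have h2 := ncard_near (-x.1) x.2 (L := √2 * L) (by positivity)
  have h3 : √2 ≤ 3 / 2 := by
    rw [show (3 / 2 : ℝ) = √((3 / 2) ^ 2) by rw [Real.sqrt_sq (by norm_num)]]
    exact Real.sqrt_le_sqrt (by norm_num)
  calc ({k : ℤ × ℤ | ‖x + latt k‖ ≤ L}.ncard : ℝ)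
      ≤ ({k : ℤ × ℤ | (-x.1 + γ1 k) ^ 2 + (x.2 + γ2 k) ^ 2 ≤ (√2 * L) ^ 2}.ncard : ℝ) := by
        exact_mod_cast h1
    _ ≤ (2 * (√2 * L) + 1) ^ 2 := h2
    _ ≤ (3 * L + 1) ^ 2 := by
        have : 2 * (√2 * L) ≤ 3 * L := by nlinarith
        gcongr

lemma exists_distG_eq (x : P2) : ∃ k : ℤ × ℤ, distG x = ‖x + latt k‖ := by
  have hfin := finite_latt_near x ‖x‖
  have hne : (0 : ℤ × ℤ) ∈ {k : ℤ × ℤ | ‖x + latt k‖ ≤ ‖x‖} := by simp
  obtain ⟨k, hk, hmin⟩ := hfin.exists_minimalFor (fun k => ‖x + latt k‖) _ ⟨0, hne⟩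
  refine ⟨k, le_antisymm (distG_le x k) (le_ciInf fun l => ?_)⟩
  by_cases hl : ‖x + latt l‖ ≤ ‖x‖
  · rcases le_total ‖x + latt k‖ ‖x + latt l‖ with h | h
    · exact h
    · exact hmin hl h
  · push Not at hl
    exact (hk : ‖x + latt k‖ ≤ ‖x‖).trans hl.le

lemma distG_add_latt (x : P2) (k : ℤ × ℤ) : distG (x + latt k) = distG x := by
  apply le_antisymm
  · obtain ⟨l, hl⟩ := exists_distG_eq x
    rw [hl]
    refine (distG_le _ (l - k)).trans (le_of_eq ?_)
    rw [latt_sub]; congr 1; abel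
  · obtain ⟨l, hl⟩ := exists_distG_eq (x + latt k)
    rw [hl]
    refine (distG_le _ (l + k)).trans (le_of_eq ?_)
    rw [latt_add]; congr 1; abel

lemma perG_distG : PerG distG := fun x k => distG_add_latt x k

lemma distG_le_add (x y : P2) : distG (x + y) ≤ distG x + ‖y‖ := by
  obtain ⟨k, hk⟩ := exists_distG_eq x
  rw [hk]
  refine (distG_le _ k).trans ?_
  rw [show x + y + latt k = (x + latt k) + y by abel]
  exact norm_add_le _ _

lemma abs_distG_sub_le (x y : P2) : |distG x - distG y| ≤ ‖x - y‖ := by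
  rw [abs_le]
  constructor
  · have := distG_le_add x (y - x)
    rw [add_sub_cancel] at this
    rw [norm_sub_rev]; linarith
  · have := distG_le_add y (x - y)
    rw [add_sub_cancel] at this
    linarith

lemma lipschitz_distG : LipschitzWith 1 distG := by
  apply LipschitzWith.of_dist_le_mul
  intro x y
  rw [Real.dist_eq, NNReal.coe_one, one_mul, dist_eq_norm]
  exact abs_distG_sub_le x y

lemma continuous_distG : Continuous distG := lipschitz_distG.continuous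

lemma measurable_distG : Measurable distG := continuous_distG.measurable

/-- near the origin the distance is the norm. -/
lemma distG_eq_norm {x : P2} (h : ‖x‖ ≤ 7 / 20) : distG x = ‖x‖ := by
  apply le_antisymm (distG_le_norm x)
  obtain ⟨k, hk⟩ := exists_distG_eq x
  by_cases h0 : k = 0
  · rw [hk, h0]; simp
  · rw [hk]
    have h1 := norm_latt_ge h0
    have h2 : ‖latt k‖ ≤ ‖x + latt k‖ + ‖x‖ := by
      have := norm_sub_le (x + latt k) x
      rwa [add_sub_cancel_left] at this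
    linarith

/-- two translates of the same point in the open ball of radius 7/20 coincide. -/
lemma latt_unique {x : P2} {k l : ℤ × ℤ} (hk : ‖x + latt k‖ < 7 / 20) (hl : ‖x + latt l‖ < 7 / 20) :
    k = l := by
  by_contra hne
  have h1 := norm_latt_ge (sub_ne_zero.2 hne)
  rw [latt_sub] at h1
  have h2 := norm_sub_le (x + latt k) (x + latt l)
  rw [show x + latt k - (x + latt l) = latt k - latt l by abel] at h2
  linarith

lemma distG_le_one (x : P2) : distG x ≤ 1 := by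
  obtain ⟨k, hk⟩ := exists_dG_eq (-x.1) x.2
  have h1 := dG_le_one (-x.1) x.2
  rw [hk] at h1
  have h2 := norm_sq_le_sq_add_sq (x + latt k)
  rw [Prod.fst_add, Prod.snd_add, latt_fst, latt_snd] at h2
  rw [Real.sqrt_le_one] at h1
  have h3 : ‖x + latt k‖ ^ 2 ≤ 1 := by nlinarith
  have h4 : ‖x + latt k‖ ≤ 1 := by
    have := norm_nonneg (x + latt k)
    nlinarith
  exact (distG_le x k).trans h4

end Crest.Agent.R68
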