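import Crest.Agent.R68.FOne
import Crest.Agent.R68.FLattice

/-! Row 68, PART F (helper195).  The whole fuel: lanes do not overlap, images, the free flow as a sum of
one-lane flows, measurability, density. -/

set_option autoImplicit false

namespace Crest.Agent.R68.Fuel

open MeasureTheory Crest.AnalysisR.VecCalc3
open scoped ENNReal

noncomputable section

/-! ### Images -/

theorem Ysq_le {P : Par} (h : P.Ok) {j : ℕ} (hj : P.j0 ≤ j) {a : ℝ} (ha : a ∈ lane j) :
    P.Y * rr a ≤ 1 / 20 := by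
  have h3 := lane_lt_dl (Ok.j1 h) hj ha
  have h4 := Ok.dl20 h
  have h5 : rr a ≤ P.dl := by
    unfold rr
    rw [← sq_abs]
    nlinarith [abs_nonneg a]
  exact (mul_le_mul_of_nonneg_left h5 h.Y0.le).trans h.Ysm

/-- positions of labels are close to the origin -/
theorem norm_label_lt {P : Par} (h : P.Ok) {j : ℕ} (hj : P.j0 ≤ j) {t : ℝ} {x : P2} {v : R3}
    (hv : v ∈ lset P j t x) : ‖x - t • bar v‖ < 7 / 20 := by
  rw [mem_lset] at hv
  obtain ⟨⟨h1, h2⟩, -⟩ := hv
  have h3 := lane_lt_dl (Ok.j1 h) hj h1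
  have h4 := Ok.dl20 h
  have h5 := Ysq_le h hj h1
  rw [Prod.norm_def, max_lt_iff]
  simp only [bar, Prod.fst_sub, Prod.snd_sub, Prod.smul_fst, Prod.smul_snd, smul_eq_mul,
    Real.norm_eq_abs]
  constructor <;> linarith

/-- at fixed `(t, x, v)` at most one pair (image, lane) is visible -/
theorem image_lane_unique {P : Par} (h : P.Ok) {i j : ℕ} (hi : P.j0 ≤ i) (hj : P.j0 ≤ j) {t : ℝ}
    {x : P2} {v : R3} {k l : ℤ × ℤ} (hk : v ∈ lset P i t (x + latt k))
    (hl : v ∈ lset P j t (x + latt l)) : k = l ∧ i = j := by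
  have h1 := norm_label_lt h hi hk
  have h2 := norm_label_lt h hj hl
  rw [add_sub_right_comm] at h1 h2
  have h3 := latt_unique h1 h2
  refine ⟨h3, ?_⟩
  subst h3
  rw [mem_lset] at hk hl
  exact lane_unique hk.1.1 hl.1.1

/-- one lane, switched off for `j < j0` -/
def phs (P : Par) (j : ℕ) (t : ℝ) (x : P2) (v : R3) : ℝ := if P.j0 ≤ j then phij P j t x v else 0

theorem phs_of_le {P : Par} {j : ℕ} (hj : P.j0 ≤ j) (t : ℝ) (x : P2) (v : R3) :
    phs P j t x v = phij P j t x v := if_pos hj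

theorem phs_nonneg {P : Par} (hK : 0 ≤ P.K) (j : ℕ) (t : ℝ) (x : P2) (v : R3) :
    0 ≤ phs P j t x v := by
  unfold phs
  split_ifs
  · exact phij_nonneg hK j t x v
  · exact le_rfl

theorem phs_transport (P : Par) (j : ℕ) (t : ℝ) (x : P2) (v : R3) :
    phs P j t x v = phs P j 0 (x - t • bar v) v := by
  unfold phs
  rw [phij_transport]

theorem measurable_phs (P : Par) (j : ℕ) :
    Measurable fun p : ℝ × P2 × R3 => phs P j p.1 p.2.1 p.2.2 := by
  unfold phs
  split_ifs
  · exact measurable_phij P j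
  · exact measurable_const

theorem mem_of_phs_ne {P : Par} {j : ℕ} {t : ℝ} {x : P2} {v : R3} (h : phs P j t x v ≠ 0) :
    P.j0 ≤ j ∧ v ∈ lset P j t x := by
  unfold phs at h
  split_ifs at h with h1
  · exact ⟨h1, phij_ne h⟩
  · exact (h rfl).elim

theorem phi0_eq {P : Par} (h : P.Ok) (x : P2) (v : R3) : phi0 P x v = ∑' j : ℕ, phs P j 0 x v := by
  unfold phi0
  refine tsum_congr fun j => ?_
  unfold phs
  by_cases h1 : P.j0 ≤ j
  · rw [if_pos h1, if_pos h1]
    unfold phi0j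
    have h2 : (x.1 ∈ lane j ∧ |x.2| < P.Y * rr x.1 ∧
        ∀ i : Fin 3, |v i - uvec P (wj j) 0 x i| < etaj P.p j) ↔ v ∈ lset P j 0 x := by
      have e0 : uvec P (wj j) 0 x 0 = P.kap * x.1 := by
        show P.c * x.1 / (P.dl + P.c * 0) = P.kap * x.1
        unfold Par.kap
        rw [mul_zero, add_zero]; ring
      have e1 : uvec P (wj j) 0 x 1 = x.2 / rr x.1 := by
        show x.2 / (0 + rr (P.dl * x.1 / (P.dl + P.c * 0))) = x.2 / rr x.1
        rw [mul_zero, add_zero, zero_add]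
        rw [mul_div_cancel_left₀ _ (Ok.dlp h).ne']
      have e2 : uvec P (wj j) 0 x 2 = wj j := rfl
      rw [mem_lset, Fin.forall_fin_succ, Fin.forall_fin_succ, Fin.forall_fin_succ]
      simp only [zero_mul, sub_zero, Fin.succ_zero_eq_one, Fin.succ_one_eq_two,
        IsEmpty.forall_iff, and_true, e0, e1, e2]
      tauto
    by_cases h3 : v ∈ lset P j 0 x
    · rw [if_pos (h2.2 h3), phij_of_mem h3]
      simp
    · rw [if_neg (fun h => h3 (h2.1 h)), phij_of_notMem h3]
  · rw [if_neg h1, if_neg h1]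

theorem phi_eq {P : Par} (h : P.Ok) (t : ℝ) (x : P2) (v : R3) :
    phi P t x v = ∑' k : ℤ × ℤ, ∑' j : ℕ, phs P j t (x + latt k) v := by
  unfold phi
  refine tsum_congr fun k => ?_
  rw [phi0_eq h]
  refine tsum_congr fun j => ?_
  rw [phs_transport P j t]

/-- sums with at most one nonzero term -/
theorem ofReal_tsum_one {ι : Type*} (f : ι → ℝ) (h : ∀ i j, f i ≠ 0 → f j ≠ 0 → i = j) :
    ENNReal.ofReal (∑' i, f i) = ∑' i, ENNReal.ofReal (f i) := by
  by_cases h1 : ∃ i, f i ≠ 0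
  · obtain ⟨i, hi⟩ := h1
    have h2 : ∀ j, j ≠ i → f j = 0 := fun j hj => by
      by_contra h3
      exact hj (h j i h3 hi)
    rw [tsum_eq_single i h2, tsum_eq_single i fun j hj => by rw [h2 j hj, ENNReal.ofReal_zero]]
  · push Not at h1
    simp [h1]

theorem tsum_one_ne {ι : Type*} {f : ι → ℝ} (h : ∑' i, f i ≠ 0) : ∃ i, f i ≠ 0 := by
  by_contra h1
  push Not at h1
  simp [h1] at h

theorem ofReal_phi {P : Par} (h : P.Ok) (t : ℝ) (x : P2) (v : R3) :
    ENNReal.ofReal (phi P t x v) =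
      ∑' k : ℤ × ℤ, ∑' j : ℕ, ENNReal.ofReal (phs P j t (x + latt k) v) := by
  rw [phi_eq h, ofReal_tsum_one]
  · refine tsum_congr fun k => ofReal_tsum_one _ fun i j hi hj => ?_
    have h1 := mem_of_phs_ne hi
    have h2 := mem_of_phs_ne hj
    exact (image_lane_unique h h1.1 h2.1 h1.2 h2.2).2
  · intro k l hk hl
    obtain ⟨i, hi⟩ := tsum_one_ne hk
    obtain ⟨j, hj⟩ := tsum_one_ne hl
    have h1 := mem_of_phs_ne hi
    have h2 := mem_of_phs_ne hj
    exact (image_lane_unique h h1.1 h2.1 h1.2 h2.2).1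

theorem phi_nonneg {P : Par} (h : P.Ok) (t : ℝ) (x : P2) (v : R3) : 0 ≤ phi P t x v := by
  rw [phi_eq h]
  exact tsum_nonneg fun k => tsum_nonneg fun j => phs_nonneg h.K0 j t _ v

/-- the fuel is one of its pieces -/
theorem phi_eq_phij {P : Par} (h : P.Ok) {t : ℝ} {x : P2} {v : R3} {j : ℕ} {k : ℤ × ℤ}
    (hj : P.j0 ≤ j) (hv : v ∈ lset P j t (x + latt k)) :
    phi P t x v = phij P j t (x + latt k) v := by
  rw [phi_eq h, tsum_eq_single k, tsum_eq_single j]
  · rw [phs_of_le hj]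
  · intro i hi
    by_contra h1
    have h2 := mem_of_phs_ne h1
    exact hi (image_lane_unique h h2.1 hj h2.2 hv).2
  · intro l hl
    by_contra h1
    obtain ⟨i, h2⟩ := tsum_one_ne h1
    have h3 := mem_of_phs_ne h2
    exact hl (image_lane_unique h h3.1 hj h3.2 hv).1

theorem exists_of_phi_ne {P : Par} (h : P.Ok) {t : ℝ} {x : P2} {v : R3} (h0 : phi P t x v ≠ 0) :
    ∃ (k : ℤ × ℤ) (j : ℕ), P.j0 ≤ j ∧ v ∈ lset P j t (x + latt k) := by
  rw [phi_eq h] at h0
  obtain ⟨k, hk⟩ := tsum_one_ne h0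
  obtain ⟨j, hj⟩ := tsum_one_ne hk
  exact ⟨k, j, mem_of_phs_ne hj⟩

/-- free transport -/
theorem phi_transport (P : Par) (t : ℝ) (x : P2) (v : R3) :
    phi P t x v = phi P 0 (x - t • bar v) v := by
  unfold phi
  refine tsum_congr fun k => ?_
  rw [zero_smul, sub_zero, sub_add_eq_add_sub]

theorem phi_transport' (P : Par) (t s : ℝ) (x : P2) (v : R3) :
    phi P t x v = phi P s (x - (t - s) • bar v) v := by
  rw [phi_transport P t, phi_transport P s]
  congr 1
  rw [sub_smul]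
  abel

/-- periodicity -/
theorem perG_phi (P : Par) (t : ℝ) (v : R3) : PerG fun x => phi P t x v := by
  intro x l
  show phi P t (x + latt l) v = phi P t x v
  unfold phi
  rw [← (Equiv.addLeft l).tsum_eq (fun k => phi0 P (x + latt k - t • bar v) v)]
  refine tsum_congr fun k => ?_
  rw [Equiv.coe_addLeft, latt_add, add_assoc]

theorem measurable_ofReal_phi {P : Par} (h : P.Ok) :
    Measurable fun p : ℝ × P2 × R3 => ENNReal.ofReal (phi P p.1 p.2.1 p.2.2) := by
  simp_rw [ofReal_phi h]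
  refine Measurable.tsum fun k => Measurable.tsum fun j => ?_
  have h1 : Measurable fun p : ℝ × P2 × R3 => (p.1, p.2.1 + latt k, p.2.2) := by fun_prop
  exact ENNReal.measurable_ofReal.comp ((measurable_phs P j).comp h1)

theorem measurable_phi {P : Par} (h : P.Ok) :
    Measurable fun p : ℝ × P2 × R3 => phi P p.1 p.2.1 p.2.2 := by
  have h1 : (fun p : ℝ × P2 × R3 => phi P p.1 p.2.1 p.2.2) =
      fun p : ℝ × P2 × R3 => (ENNReal.ofReal (phi P p.1 p.2.1 p.2.2)).toReal := by
    funext p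
    rw [ENNReal.toReal_ofReal (phi_nonneg h _ _ _)]
  rw [h1]
  exact (measurable_ofReal_phi h).ennreal_toReal

/-- velocity integrals of the fuel -/
theorem lint_phi {P : Par} (h : P.Ok) (t : ℝ) (x : P2) {g : R3 → ℝ≥0∞} (hg : Measurable g) :
    ∫⁻ v, ENNReal.ofReal (phi P t x v) * g v =
      ∑' k : ℤ × ℤ, ∑' j : ℕ, ∫⁻ v, ENNReal.ofReal (phs P j t (x + latt k) v) * g v := by
  have hm : ∀ (k : ℤ × ℤ) (j : ℕ),
      Measurable fun v => ENNReal.ofReal (phs P j t (x + latt k) v) * g v := by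
    intro k j
    have h1 : Measurable fun v : R3 => (t, x + latt k, v) := by fun_prop
    exact (ENNReal.measurable_ofReal.comp ((measurable_phs P j).comp h1)).mul hg
  simp_rw [ofReal_phi h, ← ENNReal.tsum_mul_right]
  rw [lintegral_tsum fun k => (Measurable.tsum (hm k)).aemeasurable]
  refine tsum_congr fun k => ?_
  rw [lintegral_tsum fun j => (hm k j).aemeasurable]

/-- visible images -/
def vis (P : Par) (t : ℝ) (x : P2) : Set (ℤ × ℤ) :=
  {k | ∃ j, P.j0 ≤ j ∧ (lset P j t (x + latt k)).Nonempty}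

theorem norm_of_vis {P : Par} (h : P.Ok) {t : ℝ} (ht : 0 ≤ t) {x : P2} {k : ℤ × ℤ}
    (hk : k ∈ vis P t x) :
    ‖x + latt k‖ ≤ (1 + P.Y) * P.dl + (P.c + P.Y + etaj P.p P.j0) * t := by
  obtain ⟨j, hj, v, hv⟩ := hk
  rw [mem_lset] at hv
  obtain ⟨⟨h1, h2⟩, h1', h2', -⟩ := hv
  have h3 := lane_lt_dl (Ok.j1 h) hj h1
  have h5 := etaj_anti P.p hj
  have hd := Ok.dlp h
  have hd20 := Ok.dl20 h
  have hY := h.Y0
  have hc := h.c0
  have hκ : 0 ≤ P.kap := zero_le_one.trans h.kap1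
  have hκ' : P.kap * P.dl = P.c := by unfold Par.kap; field_simp
  set X := x + latt k with hX
  set a := X.1 - t * v 0 with ha
  have hr : 0 < rr a := rr_pos h1.1
  have hra : rr a ≤ P.dl := by
    unfold rr
    rw [← sq_abs]
    nlinarith [abs_nonneg a]
  have e1 : X.1 = (1 + P.kap * t) * a + t * (v 0 - P.kap * a) := by rw [ha]; ring
  have e2 : X.2 = (1 + (rr a)⁻¹ * t) * (X.2 - t * v 1) +
      t * (v 1 - (X.2 - t * v 1) / rr a) := by field_simp; ring
  have b1 : |X.1| ≤ P.dl + (P.c + etaj P.p P.j0) * t := by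
    rw [e1]
    refine (abs_add_le _ _).trans ?_
    rw [abs_mul, abs_mul, abs_of_nonneg ht, abs_of_nonneg (show 0 ≤ 1 + P.kap * t by positivity)]
    have k1 : (1 + P.kap * t) * |a| ≤ (1 + P.kap * t) * P.dl :=
      mul_le_mul_of_nonneg_left h3.le (by positivity)
    have k2 : t * |v 0 - P.kap * a| ≤ t * etaj P.p P.j0 :=
      mul_le_mul_of_nonneg_left (h1'.le.trans h5) ht
    nlinarith
  have b2 : |X.2| ≤ P.Y * P.dl + (P.Y + etaj P.p P.j0) * t := by
    rw [e2]
    refine (abs_add_le _ _).trans ?_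
    rw [abs_mul, abs_mul, abs_of_nonneg ht, abs_of_nonneg (show 0 ≤ 1 + (rr a)⁻¹ * t by positivity)]
    have k1 : (1 + (rr a)⁻¹ * t) * |X.2 - t * v 1| ≤ (1 + (rr a)⁻¹ * t) * (P.Y * rr a) :=
      mul_le_mul_of_nonneg_left h2.le (by positivity)
    have k2 : t * |v 1 - (X.2 - t * v 1) / rr a| ≤ t * etaj P.p P.j0 :=
      mul_le_mul_of_nonneg_left (h2'.le.trans h5) ht
    have k3 : (1 + (rr a)⁻¹ * t) * (P.Y * rr a) = P.Y * rr a + P.Y * t := by
      field_simp
    have k4 : P.Y * rr a ≤ P.Y * P.dl := mul_le_mul_of_nonneg_left hra hY.le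
    nlinarith
  have hη := etaj_pos P.p P.j0
  rw [Prod.norm_def, max_le_iff, Real.norm_eq_abs, Real.norm_eq_abs]
  constructor
  · refine b1.trans ?_
    nlinarith [mul_pos hY hd, mul_nonneg hY.le ht]
  · refine b2.trans ?_
    nlinarith [mul_nonneg hc.le ht]

theorem vis_finite {P : Par} (h : P.Ok) {t : ℝ} (ht : 0 ≤ t) (x : P2) : (vis P t x).Finite :=
  (finite_latt_near x _).subset fun _ hk => norm_of_vis h ht hk

/-- number of visible images -/
theorem vis_ncard {P : Par} (h : P.Ok) {t : ℝ} (ht : 0 ≤ t) (x : P2) :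
    ((vis P t x).ncard : ℝ) ≤ (4 + 3 * (P.Y + 2) * t) ^ 2 := by
  have hη := etaj_le_one P.p P.j0
  have hη0 := etaj_pos P.p P.j0
  have hY := h.Y0
  have hd := dl_pos (Ok.j1 h)
  have h4 := Ok.dl20 h
  have h1 : vis P t x ⊆ {k : ℤ × ℤ | ‖x + latt k‖ ≤ 1 + (P.Y + 2) * t} := by
    intro k hk
    refine (norm_of_vis h ht hk).trans ?_
    have := h.Ysm
    have := h.c1
    nlinarith
  have h2 := Set.ncard_le_ncard h1 (finite_latt_near x _)
  have h3 := ncard_latt_near x (L := 1 + (P.Y + 2) * t) (by positivity)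
  calc ((vis P t x).ncard : ℝ) ≤ _ := by exact_mod_cast h2
    _ ≤ _ := h3
    _ = _ := by ring

/-- one visible image for short times -/
theorem vis_subsingleton {P : Par} (h : P.Ok) {t : ℝ} (ht : 0 ≤ t)
    (hT : (1 + P.Y) * P.dl + (P.c + P.Y + etaj P.p P.j0) * t < 7 / 20) (x : P2) :
    (vis P t x).Subsingleton := fun _ hk _ hl =>
  latt_unique ((norm_of_vis h ht hk).trans_lt hT) ((norm_of_vis h ht hl).trans_lt hT)

/-- upper bounds for velocity integrals of the fuel, lane by lane -/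
theorem lint_phi_le {P : Par} (h : P.Ok) {t : ℝ} (ht : 0 ≤ t) (x : P2) {g : R3 → ℝ≥0∞}
    (hg : Measurable g) {B : ℝ≥0∞}
    (hB : ∀ k j, P.j0 ≤ j → (lset P j t (x + latt k)).Nonempty →
      ∫⁻ v, ENNReal.ofReal (phij P j t (x + latt k) v) * g v ≤ B) :
    ∫⁻ v, ENNReal.ofReal (phi P t x v) * g v ≤ (vis P t x).ncard * B := by
  rw [lint_phi h t x hg]
  have h1 : ∀ k, (∑' j : ℕ, ∫⁻ v, ENNReal.ofReal (phs P j t (x + latt k) v) * g v) ≤
      (vis P t x).indicator (fun _ => B) k := by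
    intro k
    have hz : ∀ j, ¬ (P.j0 ≤ j ∧ (lset P j t (x + latt k)).Nonempty) →
        ∫⁻ v, ENNReal.ofReal (phs P j t (x + latt k) v) * g v = 0 := by
      intro j hj
      have h2 : ∀ v, phs P j t (x + latt k) v = 0 := by
        intro v
        by_contra h3
        have h4 := mem_of_phs_ne h3
        exact hj ⟨h4.1, v, h4.2⟩
      simp [h2]
    by_cases hk : k ∈ vis P t x
    · obtain ⟨j, hj, hne⟩ := hk
      rw [Set.indicator_of_mem (show k ∈ vis P t x from ⟨j, hj, hne⟩), tsum_eq_single j]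
      · have h2 : ∀ v, phs P j t (x + latt k) v = phij P j t (x + latt k) v := fun v =>
          phs_of_le hj t _ v
        simp_rw [h2]
        exact hB k j hj hne
      · intro i hi
        apply hz
        rintro ⟨hi', v, hv⟩
        obtain ⟨w, hw⟩ := hne
        exact hi (one_lane h hi' hj ht hv hw)
    · rw [Set.indicator_of_notMem hk]
      rw [show (∑' j : ℕ, ∫⁻ v, ENNReal.ofReal (phs P j t (x + latt k) v) * g v) = ∑' j : ℕ, 0 from
        tsum_congr fun j => hz j fun h => hk ⟨j, h⟩, tsum_zero]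
  calc _ ≤ ∑' k, (vis P t x).indicator (fun _ => B) k := ENNReal.tsum_le_tsum h1
    _ = _ := by
      have hf := vis_finite h ht x
      rw [tsum_eq_sum (s := hf.toFinset)]
      · rw [Set.ncard_eq_toFinset_card _ hf, ← nsmul_eq_mul, ← Finset.sum_const]
        refine Finset.sum_congr rfl fun k hk => Set.indicator_of_mem (hf.mem_toFinset.1 hk) _
      · intro k hk
        exact Set.indicator_of_notMem (fun h' => hk (hf.mem_toFinset.2 h')) _

/-- density of the fuel -/
theorem density_phi_le {P : Par} (h : P.Ok) {t : ℝ} (ht : 0 < t) (x : P2) :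
    ∫⁻ v, ENNReal.ofReal (phi P t x v) ≤
      ENNReal.ofReal ((4 + 3 * (P.Y + 2) * t) ^ 2 * (P.K / (t * (1 + P.kap * t)))) := by
  have h1 := lint_phi_le h ht.le x (g := fun _ => 1) measurable_const
    (B := ENNReal.ofReal (P.K / (t * (1 + P.kap * t)))) fun k j hj _ => by
      have h2 := lint_phij_le h j ht.le (x + latt k) (g := fun _ => 1) measurable_const
        (A := ENNReal.ofReal (P.K / (t * (1 + P.kap * t)))) (B := 1)
        (fun a _ => ENNReal.ofReal_le_ofReal (dens_le h ht a)) (fun _ _ => le_rfl)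
      rwa [mul_one] at h2
  simp only [mul_one] at h1
  refine h1.trans ?_
  rw [ENNReal.ofReal_mul (by positivity)]
  refine mul_le_mul_left ?_ _
  rw [← ENNReal.ofReal_natCast]
  exact ENNReal.ofReal_le_ofReal (vis_ncard h ht.le x)

end

end Crest.Agent.R68.Fuel
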