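import Crest.Agent.R68.CNewt
import Crest.Agent.R68.FSum
import Crest.Agent.R68.Pole

/-!
# Row 68, PART C/K (helper779): Newton potential of the fuel against `D^{-3/2}`
-/

set_option autoImplicit false
open MeasureTheory Set
open scoped ENNReal
open Crest.AnalysisR.VecCalc3 Crest.AnalysisR.PDE.Boltzmann

noncomputable section

namespace Crest.Agent.R68.C

open Crest.Agent.R68.Fuel

variable {P : Par}

/-- Euclidean norm from the coordinates -/
theorem norm_le_two_mul {w : R3} {η : ℝ} (h0 : |w 0| ≤ η) (h1 : |w 1| ≤ η) (h2 : |w 2| ≤ η) :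
    ‖w‖ ≤ 2 * η := by
  have hη : 0 ≤ η := (abs_nonneg _).trans h0
  rw [EuclideanSpace.norm_eq, Fin.sum_univ_three]
  apply Real.sqrt_le_iff.2
  refine ⟨by positivity, ?_⟩
  simp only [Real.norm_eq_abs]
  nlinarith [mul_self_le_mul_self (abs_nonneg _) h0, mul_self_le_mul_self (abs_nonneg _) h1,
    mul_self_le_mul_self (abs_nonneg _) h2]

theorem norm_bar_le (w : R3) : ‖bar w‖ ≤ ‖w‖ := by
  unfold bar
  rw [Prod.norm_def]
  exact max_le (by simpa using PiLp.norm_apply_le w 0) (by simpa using PiLp.norm_apply_le w 1)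

/-- the weight near a fuel velocity -/
theorem Dw_le_of_lset {j : ℕ} (hj : P.j0 ≤ j) {t : ℝ} (ht : 0 ≤ t) {x : P2} {k : ℤ × ℤ} {u : R3}
    (hu : u ∈ lset P j t (x + latt k)) (v : R3) :
    Dw P t x v ≤ 2 * ‖v - u‖ + 2 * etaj P.p j := by
  rw [mem_lset] at hu
  obtain ⟨⟨ha, hz⟩, h0, h1, h2⟩ := hu
  set X := x + latt k with hX
  set a := X.1 - t * u 0 with hadef
  set y := (X.2 - t * u 1) / rr a with hydef
  have hr : 0 < rr a := rr_pos ha.1
  have hy : |y| < P.Y := by
    rw [hydef, abs_div, abs_of_pos hr, div_lt_iff₀ hr]; exact hz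
  have hs : wj j = 1 ∨ wj j = -1 := by
    unfold wj
    rcases Nat.even_or_odd j with h | h
    · left; exact h.neg_one_pow
    · right; exact h.neg_one_pow
  have hd := Pole.Dw_le_of_mem (P := P) (t := t) ht (x := x) (v := v)
    (d := ‖v - !₂[P.c * a / P.dl, y, wj j]‖ + ‖x + latt k - t • bar v - (a, y * rr a)‖ / (t + rr a))
    ⟨k, j, a, y, wj j, hj, ha, hy, hs, rfl⟩
  refine hd.trans ?_
  have e1 : ‖v - !₂[P.c * a / P.dl, y, wj j]‖ ≤ ‖v - u‖ + 2 * etaj P.p j := by
    have : v - !₂[P.c * a / P.dl, y, wj j] = (v - u) + (u - !₂[P.c * a / P.dl, y, wj j]) := by abel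
    rw [this]
    refine (norm_add_le _ _).trans (add_le_add le_rfl ?_)
    refine norm_le_two_mul ?_ ?_ ?_
    · have : (u - !₂[P.c * a / P.dl, y, wj j]) 0 = u 0 - P.kap * a := by
        show u 0 - P.c * a / P.dl = u 0 - P.kap * a
        unfold Par.kap; ring
      rw [this]; exact h0.le
    · exact h1.le
    · exact h2.le
  have e2 : ‖x + latt k - t • bar v - (a, y * rr a)‖ / (t + rr a) ≤ ‖v - u‖ := by
    have h3 : x + latt k - t • bar v - (a, y * rr a) = -(t • bar (v - u)) := by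
      rw [← hX]
      ext
      · simp only [bar, Prod.fst_sub, Prod.smul_fst, smul_eq_mul, Prod.fst_neg, PiLp.sub_apply]
        rw [hadef]; ring
      · simp only [bar, Prod.snd_sub, Prod.smul_snd, smul_eq_mul, Prod.snd_neg, PiLp.sub_apply]
        rw [hydef]; field_simp; ring
    rw [h3, norm_neg, norm_smul, Real.norm_of_nonneg ht, div_le_iff₀ (by positivity)]
    have h4 := norm_bar_le (v - u)
    have h5 := norm_nonneg (v - u)
    nlinarith
  linarith

theorem Dw_nonneg' {t : ℝ} (ht : 0 ≤ t) (x : P2) (v : R3) : 0 ≤ Dw P t x v := by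
  unfold Dw
  refine le_min zero_le_one (Real.sInf_nonneg fun d hd => ?_)
  exact Pole.Dset_nonneg ht x v hd

/-- `1 ≤ D^{-3/2}` -/
theorem one_le_Dm (t : ℝ) (x : P2) (v : R3) : 1 ≤ Dm P t x v := by
  unfold Dm
  have h1 : ENNReal.ofReal (Dw P t x v) ≤ 1 := by
    rw [← ENNReal.ofReal_one]; exact ENNReal.ofReal_le_ofReal (min_le_left _ _)
  rw [ENNReal.rpow_neg, ENNReal.one_le_inv]
  exact ENNReal.rpow_le_one h1 (by norm_num)

/-- `θ^{-3/2} ≤ D^{-3/2}` for `D ≤ θ` -/
theorem le_Dm {t : ℝ} {x : P2} {v : R3} {θ : ℝ} (hθ : 0 < θ) (h : Dw P t x v ≤ θ) :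
    ENNReal.ofReal (θ ^ (-(3 / 2) : ℝ)) ≤ Dm P t x v := by
  unfold Dm
  rw [← ENNReal.ofReal_rpow_of_pos hθ, ENNReal.rpow_neg, ENNReal.rpow_neg]
  exact ENNReal.inv_le_inv.2 (ENNReal.rpow_le_rpow (ENNReal.ofReal_le_ofReal h) (by norm_num))

/-- `D^{-1} ≤ D^{-3/2}` -/
theorem inv_le_Dm {t : ℝ} {x : P2} {v : R3} (h0 : 0 < Dw P t x v) :
    ENNReal.ofReal (Dw P t x v)⁻¹ ≤ Dm P t x v := by
  unfold Dm
  rw [ENNReal.ofReal_rpow_of_pos h0]
  refine ENNReal.ofReal_le_ofReal ?_
  rw [← Real.rpow_neg_one]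
  exact Real.rpow_le_rpow_of_exponent_ge h0 (min_le_left _ _) (by norm_num)

/-- thickness of the lanes against the strain -/
theorem kap_mul_etaj_le (h : P.Ok) {j : ℕ} (hj : P.j0 ≤ j) : P.kap * etaj P.p j ≤ 1 := by
  have hd := Ok.dlp h
  have h1 : etaj P.p j ≤ P.dl := by
    have h2 : etaj P.p j ≤ (1 / (2 * (j : ℝ) + 1)) ^ 1 :=
      pow_le_pow_of_le_one (by positivity) (inv_le_one' j) (by linarith [h.p3])
    rw [pow_one] at h2
    refine h2.trans ?_
    have h3 : (200 : ℝ) ≤ P.j0 := by exact_mod_cast h.j0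
    have h4 : (P.j0 : ℝ) ≤ j := by exact_mod_cast hj
    have h5 : 1 / (2 * (j : ℝ) + 1) ≤ P.dl ^ 2 := by
      rw [dl_sq, div_le_div_iff₀ (by positivity) (by positivity)]
      linarith
    have h6 := Ok.dl20 h
    nlinarith
  unfold Par.kap
  have h7 : P.c / P.dl * etaj P.p j = P.c * (etaj P.p j / P.dl) := by ring
  rw [h7]
  have h8 : etaj P.p j / P.dl ≤ 1 := by rw [div_le_one hd]; exact h1
  have h9 : 0 ≤ etaj P.p j / P.dl := div_nonneg (etaj_pos _ _).le hd.le
  have := h.c1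
  have := h.c0
  nlinarith

/-- **(N1), one lane**: Newton potential of one lane against `D^{-3/2}` -/
theorem newt_phij_le (h : P.Ok) {j : ℕ} (hj : P.j0 ≤ j) {t : ℝ} (ht : 0 ≤ t) (x : P2) (k : ℤ × ℤ)
    {n : ℝ} (hn0 : 0 ≤ n) (hn : ∀ a ∈ lane j, dens P t a ≤ n) (v : R3) :
    newt (fun u => ENNReal.ofReal (phij P j t (x + latt k) u)) v ≤
      ENNReal.ofReal (72 * n * (1 + t)) * Dm P t x v := by
  have hη := etaj_pos P.p j
  have hκ := Ok.kap0 h
  by_cases hD : 4 * etaj P.p j ≤ Dw P t x v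
  · -- far from the lane
    have hD0 : 0 < Dw P t x v := lt_of_lt_of_le (by positivity) hD
    have hg : Measurable fun u : R3 => ENNReal.ofReal ‖v - u‖⁻¹ := by fun_prop
    have h1 := lint_phij_le h j ht (x + latt k) hg (A := ENNReal.ofReal n)
      (B := ENNReal.ofReal (4 * (Dw P t x v)⁻¹)) (fun a ha => ENNReal.ofReal_le_ofReal (hn a ha))
      (fun u hu => ENNReal.ofReal_le_ofReal (by
        have h2 := Dw_le_of_lset hj ht hu v
        have h3 : Dw P t x v / 4 ≤ ‖v - u‖ := by linarith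
        have h4 : ‖v - u‖⁻¹ ≤ (Dw P t x v / 4)⁻¹ := inv_anti₀ (by positivity) h3
        refine h4.trans (le_of_eq ?_)
        rw [inv_div]; ring))
    refine h1.trans ?_
    calc ENNReal.ofReal n * ENNReal.ofReal (4 * (Dw P t x v)⁻¹)
        = ENNReal.ofReal (4 * n) * ENNReal.ofReal (Dw P t x v)⁻¹ := by
          rw [← ENNReal.ofReal_mul hn0, ← ENNReal.ofReal_mul (by positivity)]
          congr 1; ring
      _ ≤ ENNReal.ofReal (72 * n * (1 + t)) * Dm P t x v := by
          gcongr ?_ * ?_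
          · refine ENNReal.ofReal_le_ofReal ?_
            nlinarith [mul_nonneg hn0 ht]
          · exact inv_le_Dm hD0
  · -- close to the lane: pancake bound
    push Not at hD
    have h1 := newt_strm_le (w := wj j) hκ hη rr_nonneg measurable_rr (measurable_qj P j)
      (fun a z ha => qj_zero j a z ha) ht (x + latt k) hn0 (n := n) (fun s _ z => by
        have hb : 0 < 1 + P.kap * t := by positivity
        by_cases h4 : qj P j (sa P.kap (etaj P.p j) t (x + latt k) s) z = 0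
        · rw [h4, zero_div]; exact hn0
        · have h5 := (qj_ne h4).1
          refine le_trans ?_ (hn _ h5)
          have h6 := rr_pos h5.1
          have h9 := qj_le h.K0 j (sa P.kap (etaj P.p j) t (x + latt k) s) z
          unfold dens
          rw [one_add_kap]
          gcongr) v
    refine h1.trans ?_
    have h2 := le_Dm (P := P) (t := t) (x := x) (v := v) (θ := 4 * etaj P.p j) (by positivity) hD.le
    refine le_trans ?_ (mul_le_mul_right h2 _)
    rw [← ENNReal.ofReal_mul (by positivity)]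
    refine ENNReal.ofReal_le_ofReal ?_
    have e1 : (4 * etaj P.p j) ^ (-(3 / 2) : ℝ) = 1 / 8 * etaj P.p j ^ (-(3 / 2) : ℝ) := by
      rw [Real.mul_rpow (by norm_num) hη.le]
      congr 1
      rw [show (4 : ℝ) = 2 ^ (2 : ℝ) by norm_num, ← Real.rpow_mul (by norm_num)]
      norm_num
    have e2 : (1 + P.kap * t) ^ (1 / 2 : ℝ) * (etaj P.p j) ^ (1 / 2 : ℝ) ≤ 1 + t := by
      rw [← Real.mul_rpow (by positivity) hη.le]
      have h3 : (1 + P.kap * t) * etaj P.p j ≤ 1 + t := by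
        have h4 := kap_mul_etaj_le h hj
        have h5 := etaj_le_one P.p j
        nlinarith
      calc ((1 + P.kap * t) * etaj P.p j) ^ (1 / 2 : ℝ) ≤ (1 + t) ^ (1 / 2 : ℝ) :=
            Real.rpow_le_rpow (by positivity) h3 (by norm_num)
        _ ≤ (1 + t) ^ (1 : ℝ) := Real.rpow_le_rpow_of_exponent_le (by linarith) (by norm_num)
        _ = 1 + t := Real.rpow_one _
    have e3 : (etaj P.p j)⁻¹ = (etaj P.p j) ^ (1 / 2 : ℝ) * etaj P.p j ^ (-(3 / 2) : ℝ) := by
      rw [← Real.rpow_add hη, ← Real.rpow_neg_one]; norm_num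
    rw [e1, div_eq_mul_inv, e3]
    have e4 : 0 ≤ etaj P.p j ^ (-(3 / 2) : ℝ) := by positivity
    calc 9 * n * (1 + P.kap * t) ^ (1 / 2 : ℝ) *
          ((etaj P.p j) ^ (1 / 2 : ℝ) * etaj P.p j ^ (-(3 / 2) : ℝ))
        = 9 * n * ((1 + P.kap * t) ^ (1 / 2 : ℝ) * (etaj P.p j) ^ (1 / 2 : ℝ)) *
          etaj P.p j ^ (-(3 / 2) : ℝ) := by ring
      _ ≤ 9 * n * (1 + t) * etaj P.p j ^ (-(3 / 2) : ℝ) := by gcongr
      _ = 72 * n * (1 + t) * (1 / 8 * etaj P.p j ^ (-(3 / 2) : ℝ)) := by ring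

/-! ### the label coordinate on the fuel -/

theorem lab_eq (h : P.Ok) (t : ℝ) (x : P2) : lab P t x = x.1 / (1 + P.kap * t) := by
  have hd := Ok.dlp h
  unfold lab Par.kap
  rw [show P.dl + P.c * t = P.dl * (1 + P.c / P.dl * t) by field_simp, mul_div_mul_left _ _ hd.ne']

theorem lab_of_lset (h : P.Ok) {j : ℕ} {t : ℝ} (ht : 0 ≤ t) {x : P2} {u : R3}
    (hu : u ∈ lset P j t x) : |lab P t x - (x.1 - t * u 0)| ≤ etaj P.p j := by
  rw [mem_lset] at hu
  obtain ⟨-, h0, -, -⟩ := hu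
  have hκ := Ok.kap0 h
  have hκ1 := h.kap1
  have hb : 0 < 1 + P.kap * t := by positivity
  have e : lab P t x - (x.1 - t * u 0) = t * (u 0 - P.kap * (x.1 - t * u 0)) / (1 + P.kap * t) := by
    rw [lab_eq h]; field_simp; ring
  rw [e, abs_div, abs_mul, abs_of_nonneg ht, abs_of_pos hb, div_le_iff₀ hb]
  have hη := etaj_pos P.p j
  have h1 : t * |u 0 - P.kap * (x.1 - t * u 0)| ≤ t * etaj P.p j :=
    mul_le_mul_of_nonneg_left h0.le ht
  have h2 : t ≤ 1 + P.kap * t := by nlinarith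
  nlinarith

theorem lane_abs_le_one {j : ℕ} (hj : 1 ≤ j) {a : ℝ} (ha : a ∈ lane j) : |a| ≤ 1 := by
  have h1 := lane_upper ha
  have h2 : (1 : ℝ) ≤ j := by exact_mod_cast hj
  have h3 : |a| ^ 2 ≤ 1 := by rw [sq_abs]; nlinarith [sq_nonneg a]
  nlinarith [abs_nonneg a]

/-- `r` at the label coordinate and at any label of the same lane are comparable -/
theorem rr_lab (h : P.Ok) {j : ℕ} (hj : P.j0 ≤ j) {b a A : ℝ} (hb : b ∈ lane j) (ha : a ∈ lane j)
    (hA : |A - a| ≤ etaj P.p j) : rr A ≤ 2 * rr b ∧ rr b ≤ 2 * rr A := by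
  have hj0 : (200 : ℝ) ≤ P.j0 := by exact_mod_cast h.j0
  have hj' : (P.j0 : ℝ) ≤ j := by exact_mod_cast hj
  have hj1 : 1 ≤ j := (Ok.j1 h).trans hj
  have ha1 := lane_abs_le_one hj1 ha
  have hη0 := etaj_pos P.p j
  have hη : etaj P.p j ≤ (1 / (2 * (j : ℝ) + 1)) ^ 3 :=
    pow_le_pow_of_le_one (by positivity) (inv_le_one' j) h.p3
  set D : ℝ := 2 * (j : ℝ) + 1 with hD
  have hD400 : (401 : ℝ) ≤ D := by linarith
  have hη2 : etaj P.p j ≤ 1 / 160801 / D := by
    refine hη.trans ?_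
    rw [div_pow, one_pow, div_div, div_le_div_iff₀ (by positivity) (by positivity)]
    nlinarith [mul_self_le_mul_self (by norm_num) hD400]
  have hD1 : 1 / D ≤ 1 / 401 := one_div_le_one_div_of_le (by norm_num) hD400
  have hη1 : etaj P.p j ≤ 1 := etaj_le_one _ _
  have k1 : |A| ^ 2 ≤ |a| ^ 2 + 3 * etaj P.p j := by
    have k2 : |A| ≤ |a| + etaj P.p j := by
      have := abs_sub_abs_le_abs_sub A a
      linarith
    have := mul_self_le_mul_self (abs_nonneg A) k2
    nlinarith [abs_nonneg a]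
  have k2 : |a| ^ 2 ≤ |A| ^ 2 + 3 * etaj P.p j := by
    have k2 : |a| ≤ |A| + etaj P.p j := by
      have := abs_sub_abs_le_abs_sub a A
      rw [abs_sub_comm] at this
      linarith
    have k3 : |A| ≤ |a| + etaj P.p j := by
      have := abs_sub_abs_le_abs_sub A a
      linarith
    have := mul_self_le_mul_self (abs_nonneg a) k2
    have k4 : |a| ^ 2 ≤ |A| ^ 2 + 2 * |A| * etaj P.p j + etaj P.p j ^ 2 := by nlinarith
    by_cases k5 : |A| ≤ 1
    · nlinarith
    · nlinarith [abs_nonneg a]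
  rw [sq_abs, sq_abs] at k1 k2
  -- lane bounds
  have la := lane_lower ha
  have ua := lane_upper ha
  have lb := lane_lower hb
  have ub := lane_upper hb
  have ua' : a ^ 2 * (D - 99 / 100) < 1 := by rw [hD]; linarith
  have la' : 1 < a ^ 2 * (D + 99 / 100) := by rw [hD]; linarith
  have ub' : b ^ 2 * (D - 99 / 100) < 1 := by rw [hD]; linarith
  have lb' : 1 < b ^ 2 * (D + 99 / 100) := by rw [hD]; linarith
  have hDη : etaj P.p j * D ≤ 1 / 160801 := by
    rw [div_div, ← one_div_mul_one_div] at hη2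
    have : etaj P.p j * D ≤ (1 / 160801 * (1 / D)) * D := mul_le_mul_of_nonneg_right hη2 (by positivity)
    rwa [mul_assoc, one_div_mul_cancel (by positivity), mul_one] at this
  unfold rr
  constructor
  · refine k1.trans ?_
    have q1 : (a ^ 2 + 3 * etaj P.p j) * (D + 99 / 100) ≤ 2 * b ^ 2 * (D + 99 / 100) := by
      nlinarith [sq_nonneg a, sq_nonneg b]
    exact le_of_mul_le_mul_right q1 (by positivity)
  · have q1 : b ^ 2 * (D - 99 / 100) ≤ 2 * (a ^ 2 - 3 * etaj P.p j) * (D - 99 / 100) := by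
      nlinarith [sq_nonneg a, sq_nonneg b]
    have q2 := le_of_mul_le_mul_right q1 (by linarith)
    linarith

theorem dens_le_two (h : P.Ok) {t : ℝ} (ht : 0 ≤ t) {a b : ℝ} (ha : 0 < t + rr a)
    (hr : rr b ≤ 2 * rr a) (hb : 0 < t + rr b) : dens P t a ≤ 2 * dens P t b := by
  unfold dens
  rw [one_add_kap]
  have hκ := Ok.kap0 h
  have hK := h.K0
  have hp : 0 < 1 + P.kap * t := by positivity
  rw [mul_div_assoc', div_le_div_iff₀ (by positivity) (by positivity)]
  have h1 : t + rr b ≤ 2 * (t + rr a) := by linarith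
  have h2 : P.K * (t + rr b) ≤ P.K * (2 * (t + rr a)) := mul_le_mul_of_nonneg_left h1 hK
  nlinarith

/-- density of the lane at a visible point -/
theorem dens_lane_le (h : P.Ok) {j : ℕ} (hj : P.j0 ≤ j) {t : ℝ} (ht : 0 ≤ t) {x : P2} {u : R3}
    (hu : u ∈ lset P j t x) {b : ℝ} (hb : b ∈ lane j) :
    dens P t b ≤ 2 * dens P t (lab P t x) := by
  have h1 := rr_lab h hj hb hu.1.1 (lab_of_lset h ht hu)
  have h2 := rr_pos hb.1
  exact dens_le_two h ht (by positivity) h1.1 (by linarith)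

theorem vis_zone (h : P.Ok) (hY : 1 ≤ P.Y) {t : ℝ} (ht : 0 ≤ t) {x : P2} {k : ℤ × ℤ}
    (hk : k ∈ vis P t x) : |lab P t (x + latt k)| ≤ 2 * P.dl ∧
      |(x + latt k).2| ≤ 2 * P.Y * (t + rr (lab P t (x + latt k))) := by
  obtain ⟨j, hj, u, hu⟩ := hk
  have h1 := lab_of_lset h ht hu
  have hu' := hu
  rw [mem_lset] at hu'
  obtain ⟨⟨ha, hz⟩, -, h3, -⟩ := hu'
  have h4 := rr_lab h hj ha ha h1
  have h5 := lane_lt_dl (Ok.j1 h) hj ha
  have hη : etaj P.p j ≤ P.dl := by
    have h2 : etaj P.p j ≤ (1 / (2 * (j : ℝ) + 1)) ^ 1 :=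
      pow_le_pow_of_le_one (by positivity) (inv_le_one' j) (by linarith [h.p3])
    rw [pow_one] at h2
    refine h2.trans ?_
    have h3 : (200 : ℝ) ≤ P.j0 := by exact_mod_cast h.j0
    have h4 : (P.j0 : ℝ) ≤ j := by exact_mod_cast hj
    have h5 : 1 / (2 * (j : ℝ) + 1) ≤ P.dl ^ 2 := by
      rw [dl_sq, div_le_div_iff₀ (by positivity) (by positivity)]
      linarith
    have h6 := Ok.dl20 h
    have h7 := Ok.dlp h
    nlinarith
  set X := x + latt k with hX
  set a := X.1 - t * u 0 with hadef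
  constructor
  · have := abs_sub_abs_le_abs_sub (lab P t X) a
    linarith
  · have hr : 0 < rr a := rr_pos ha.1
    have e : X.2 = (t + rr a) * ((X.2 - t * u 1) / rr a) + t * (u 1 - (X.2 - t * u 1) / rr a) := by
      field_simp; ring
    have hy : |(X.2 - t * u 1) / rr a| ≤ P.Y := by
      rw [abs_div, abs_of_pos hr, div_le_iff₀ hr]; exact hz.le
    have h6 : |X.2| ≤ (t + rr a) * P.Y + t * etaj P.p j := by
      rw [e]
      refine (abs_add_le _ _).trans ?_
      rw [abs_mul, abs_mul, abs_of_nonneg ht, abs_of_nonneg (show 0 ≤ t + rr a by positivity)]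
      gcongr
    have hη1 : etaj P.p j ≤ 1 := etaj_le_one _ _
    nlinarith [mul_le_mul_of_nonneg_left hη1 ht]

/-- upper bounds for velocity integrals of the fuel, image by image -/
theorem lint_phi_le' (h : P.Ok) {t : ℝ} (ht : 0 ≤ t) (x : P2) {g : R3 → ℝ≥0∞}
    (hg : Measurable g) {B : ℤ × ℤ → ℝ≥0∞}
    (hB : ∀ k j, P.j0 ≤ j → (lset P j t (x + latt k)).Nonempty →
      ∫⁻ v, ENNReal.ofReal (phij P j t (x + latt k) v) * g v ≤ B k) :
    ∫⁻ v, ENNReal.ofReal (phi P t x v) * g v ≤ ∑' k, (vis P t x).indicator B k := by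
  rw [lint_phi h t x hg]
  refine ENNReal.tsum_le_tsum fun k => ?_
  have hz : ∀ j, ¬ (P.j0 ≤ j ∧ (lset P j t (x + latt k)).Nonempty) →
      ∫⁻ v, ENNReal.ofReal (phs P j t (x + latt k) v) * g v = 0 := by
    intro j hj
    have h2 : ∀ v, phs P j t (x + latt k) v = 0 := by
      intro v
      by_contra h3
      have h4 := mem_of_phs_ne h3
      exact hj ⟨h4.1, v, h4.2⟩
    simp [h2]
  by_cases hk : k ∈ vis P t x
  · obtain ⟨j, hj, hne⟩ := hk
    rw [Set.indicator_of_mem (show k ∈ vis P t x from ⟨j, hj, hne⟩), tsum_eq_single j]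
    · have h2 : ∀ v, phs P j t (x + latt k) v = phij P j t (x + latt k) v := fun v =>
        phs_of_le hj t _ v
      simp_rw [h2]
      exact hB k j hj hne
    · intro i hi
      apply hz
      rintro ⟨hi', v, hv⟩
      obtain ⟨w, hw⟩ := hne
      exact hi (one_lane h hi' hj ht hv hw)
  · rw [Set.indicator_of_notMem hk]
    rw [show (∑' j : ℕ, ∫⁻ v, ENNReal.ofReal (phs P j t (x + latt k) v) * g v) = ∑' j : ℕ, 0 from
      tsum_congr fun j => hz j fun h => hk ⟨j, h⟩, tsum_zero]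

/-- density of the fuel at `(t,x)`, summed over the visible images -/
def rho (P : Par) (t : ℝ) (x : P2) : ℝ≥0∞ :=
  ∑' k : ℤ × ℤ, (vis P t x).indicator (fun k => ENNReal.ofReal (dens P t (lab P t (x + latt k)))) k

/-- **(N1) density** -/
theorem density_phi (h : P.Ok) {t : ℝ} (ht : 0 ≤ t) (x : P2) :
    ∫⁻ v, ENNReal.ofReal (phi P t x v) ≤ 2 * rho P t x := by
  have h1 := lint_phi_le' h ht x (g := fun _ => 1) measurable_const
    (B := fun k => 2 * ENNReal.ofReal (dens P t (lab P t (x + latt k)))) fun k j hj hne => by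
      obtain ⟨u, hu⟩ := hne
      have h2 := lint_phij_le h j ht (x + latt k) (g := fun _ => 1) measurable_const
        (A := 2 * ENNReal.ofReal (dens P t (lab P t (x + latt k)))) (B := 1)
        (fun a ha => by
          rw [show (2 : ℝ≥0∞) = ENNReal.ofReal 2 by norm_num, ← ENNReal.ofReal_mul (by norm_num)]
          exact ENNReal.ofReal_le_ofReal (dens_lane_le h hj ht hu ha)) (fun _ _ => le_rfl)
      rwa [mul_one] at h2
  simp only [mul_one] at h1
  refine h1.trans (le_of_eq ?_)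
  unfold rho
  rw [← ENNReal.tsum_mul_left]
  refine tsum_congr fun k => ?_
  by_cases hk : k ∈ vis P t x
  · rw [indicator_of_mem hk, indicator_of_mem hk]
  · rw [indicator_of_notMem hk, indicator_of_notMem hk, mul_zero]

/-- **(N1) Newton potential** of the fuel -/
theorem newt_phi_le (h : P.Ok) {t : ℝ} (ht : 0 ≤ t) (x : P2) (v : R3) :
    newt (fun u => ENNReal.ofReal (phi P t x u)) v ≤
      ENNReal.ofReal (144 * (1 + t)) * rho P t x * Dm P t x v := by
  have hg : Measurable fun u : R3 => ENNReal.ofReal ‖v - u‖⁻¹ := by fun_prop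
  have h1 := lint_phi_le' h ht x hg
    (B := fun k => ENNReal.ofReal (144 * (1 + t)) * Dm P t x v *
      ENNReal.ofReal (dens P t (lab P t (x + latt k)))) fun k j hj hne => by
      obtain ⟨u, hu⟩ := hne
      have h0 := dens_nonneg h ht (lab P t (x + latt k))
      have h2 := newt_phij_le h hj ht x k (n := 2 * dens P t (lab P t (x + latt k)))
        (by positivity) (fun a ha => dens_lane_le h hj ht hu ha) v
      refine h2.trans (le_of_eq ?_)
      rw [show 72 * (2 * dens P t (lab P t (x + latt k))) * (1 + t) =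
        144 * (1 + t) * dens P t (lab P t (x + latt k)) by ring, ENNReal.ofReal_mul (by positivity)]
      ring
  refine h1.trans (le_of_eq ?_)
  unfold rho
  rw [mul_right_comm, ← ENNReal.tsum_mul_left]
  refine tsum_congr fun k => ?_
  by_cases hk : k ∈ vis P t x
  · rw [indicator_of_mem hk, indicator_of_mem hk]
  · rw [indicator_of_notMem hk, indicator_of_notMem hk, mul_zero]

/-- fuel velocities are bounded -/
theorem norm_le_of_lset (h : P.Ok) {j : ℕ} (hj : P.j0 ≤ j) {t : ℝ} {x : P2} {u : R3}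
    (hu : u ∈ lset P j t x) : ‖u‖ ≤ P.Y + 5 := by
  rw [mem_lset] at hu
  obtain ⟨⟨ha, hz⟩, h0, h1, h2⟩ := hu
  have hr : 0 < rr (x.1 - t * u 0) := rr_pos ha.1
  have hη1 : etaj P.p j ≤ 1 := etaj_le_one _ _
  have hy : |(x.2 - t * u 1) / rr (x.1 - t * u 0)| ≤ P.Y := by
    rw [abs_div, abs_of_pos hr, div_le_iff₀ hr]; exact hz.le
  have h5 := lane_lt_dl (Ok.j1 h) hj ha
  have hκ := Ok.kap0 h
  have hd := Ok.dlp h
  have h6 : P.kap * |x.1 - t * u 0| ≤ 1 := by
    have : P.kap * P.dl = P.c := by unfold Par.kap; field_simp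
    have h7 := mul_le_mul_of_nonneg_left h5.le hκ
    linarith [h.c1]
  have k0 : |u 0| ≤ 2 := by
    have := abs_sub_abs_le_abs_sub (u 0) (P.kap * (x.1 - t * u 0))
    rw [abs_mul, abs_of_nonneg hκ] at this
    linarith
  have k1 : |u 1| ≤ P.Y + 1 := by
    have := abs_sub_abs_le_abs_sub (u 1) ((x.2 - t * u 1) / rr (x.1 - t * u 0))
    linarith
  have k2 : |u 2| ≤ 2 := by
    have := abs_sub_abs_le_abs_sub (u 2) (wj j)
    have hw : |wj j| = 1 := by unfold wj; rw [abs_pow]; simp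
    linarith
  have := Pole.norm_le_sum3 u
  linarith

theorem phi_eq_zero_of_norm (h : P.Ok) {t : ℝ} {x : P2} {u : R3} (hu : P.Y + 5 < ‖u‖) :
    phi P t x u = 0 := by
  by_contra h1
  obtain ⟨k, j, hj, hk⟩ := exists_of_phi_ne h h1
  exact (not_lt.2 (norm_le_of_lset h hj hk)) hu

/-- **(N1) far velocities** -/
theorem newt_phi_far (h : P.Ok) {t : ℝ} (ht : 0 ≤ t) (x : P2) {v : R3}
    (hv : 2 * (P.Y + 5) ≤ ‖v‖) :
    newt (fun u => ENNReal.ofReal (phi P t x u)) v ≤ ENNReal.ofReal (4 / ‖v‖) * rho P t x := by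
  have hY := h.Y0
  have hv0 : 0 < ‖v‖ := lt_of_lt_of_le (by positivity) hv
  have h1 : newt (fun u => ENNReal.ofReal (phi P t x u)) v ≤
      ∫⁻ u, ENNReal.ofReal (phi P t x u) * ENNReal.ofReal (2 / ‖v‖) := by
    refine lintegral_mono fun u => ?_
    by_cases hu : P.Y + 5 < ‖u‖
    · simp only [phi_eq_zero_of_norm h hu]
      simp
    · refine mul_le_mul_right (ENNReal.ofReal_le_ofReal ?_) _
      push Not at hu
      have h2 : ‖v‖ / 2 ≤ ‖v - u‖ := by
        have := norm_sub_norm_le v u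
        linarith
      have h3 := inv_anti₀ (by positivity) h2
      rwa [inv_div] at h3
  refine h1.trans ?_
  rw [lintegral_mul_const' _ _ ENNReal.ofReal_ne_top]
  calc _ ≤ 2 * rho P t x * ENNReal.ofReal (2 / ‖v‖) := mul_le_mul_left (density_phi h ht x) _
    _ = _ := by
      rw [show (4 : ℝ) / ‖v‖ = 2 * (2 / ‖v‖) by ring, ENNReal.ofReal_mul (by norm_num)]
      rw [show ENNReal.ofReal 2 = 2 by norm_num]
      ring

/-- `rho` when at most one image is visible -/
theorem rho_le_of_zone {t : ℝ} {x : P2} {M : ℝ}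
    (hs : (vis P t x).Subsingleton)
    (hM : ∀ k ∈ vis P t x, dens P t (lab P t (x + latt k)) ≤ M) :
    rho P t x ≤ ENNReal.ofReal M := by
  unfold rho
  rcases hs.eq_empty_or_singleton with he | ⟨k, hk⟩
  · rw [he]; simp
  · rw [tsum_eq_single k]
    · rw [hk, indicator_of_mem (mem_singleton k)]
      exact ENNReal.ofReal_le_ofReal (hM k (by rw [hk]; exact mem_singleton k))
    · intro l hl
      rw [hk, indicator_of_notMem (by simpa using hl)]

/-- `rho ≤ #images · K / (t (1 + κ t))` -/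
theorem rho_le (h : P.Ok) {t : ℝ} (ht : 0 < t) (x : P2) :
    rho P t x ≤ ENNReal.ofReal ((4 + 3 * (P.Y + 2) * t) ^ 2 * (P.K / (t * (1 + P.kap * t)))) := by
  have hf := vis_finite h ht.le x
  have hκ := Ok.kap0 h
  have hK := h.K0
  have h1 : rho P t x ≤ (vis P t x).ncard * ENNReal.ofReal (P.K / (t * (1 + P.kap * t))) := by
    unfold rho
    rw [tsum_eq_sum (s := hf.toFinset)]
    · rw [Set.ncard_eq_toFinset_card _ hf, ← nsmul_eq_mul, ← Finset.sum_const]
      refine Finset.sum_le_sum fun k hk => ?_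
      rw [indicator_of_mem (hf.mem_toFinset.1 hk)]
      exact ENNReal.ofReal_le_ofReal (dens_le h ht _)
    · intro k hk
      exact Set.indicator_of_notMem (fun h' => hk (hf.mem_toFinset.2 h')) _
  refine h1.trans ?_
  rw [ENNReal.ofReal_mul (by positivity)]
  refine mul_le_mul_left ?_ _
  rw [← ENNReal.ofReal_natCast]
  exact ENNReal.ofReal_le_ofReal (vis_ncard h ht.le x)

end Crest.Agent.R68.C
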