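import Crest.Agent.R68.EGeom

/-!
R68 / EMeas: measurability of gain, loss, dissipation (helper485, Part E).
-/

set_option autoImplicit false
open MeasureTheory
open scoped ENNReal
open Crest.AnalysisR.VecCalc3 Crest.AnalysisR.PDE.Boltzmann

namespace Crest.Agent.R68

variable {α : Type*} [MeasurableSpace α]

/-- generic: postVel is jointly measurable -/
@[fun_prop]
theorem Measurable.postVel {f g h : α → R3} (hf : Measurable f) (hg : Measurable g)
    (hh : Measurable h) : Measurable (fun a => postVel (f a) (g a) (h a)) := by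
  unfold Crest.AnalysisR.PDE.Boltzmann.postVel
  fun_prop

@[fun_prop]
theorem Measurable.postVelStar {f g h : α → R3} (hf : Measurable f) (hg : Measurable g)
    (hh : Measurable h) : Measurable (fun a => postVelStar (f a) (g a) (h a)) := by
  unfold Crest.AnalysisR.PDE.Boltzmann.postVelStar
  fun_prop

/-- joint measurability of a kinetic density -/
def MeasF (F : ℝ → R3 → R3 → ℝ) : Prop := Measurable (fun p : ℝ × R3 × R3 => F p.1 p.2.1 p.2.2)

theorem MeasF.comp {F : ℝ → R3 → R3 → ℝ} (hF : MeasF F) {f : α → ℝ} {g h : α → R3}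
    (hf : Measurable f) (hg : Measurable g) (hh : Measurable h) :
    Measurable (fun a => F (f a) (g a) (h a)) :=
  Measurable.comp hF (hf.prodMk (hg.prodMk hh))

theorem MeasF.collGain {F : ℝ → R3 → R3 → ℝ} (hF : MeasF F) :
    Measurable (fun p : ℝ × R3 × R3 => collGain F p.1 p.2.1 p.2.2) := by
  unfold Crest.AnalysisR.PDE.Boltzmann.collGain
  refine Measurable.lintegral_prod_right' (f := fun q : (ℝ × R3 × R3) × R3 =>
    ∫⁻ w, ENNReal.ofReal (|inner ℝ (q.1.2.2 - q.2) w| * F q.1.1 q.1.2.1 (postVel q.1.2.2 q.2 w) *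
    F q.1.1 q.1.2.1 (postVelStar q.1.2.2 q.2 w)) ∂sphereMeasure) ?_
  refine Measurable.lintegral_prod_right' (f := fun q : ((ℝ × R3 × R3) × R3) × R3 =>
    ENNReal.ofReal (|inner ℝ (q.1.1.2.2 - q.1.2) q.2| *
      F q.1.1.1 q.1.1.2.1 (postVel q.1.1.2.2 q.1.2 q.2) *
    F q.1.1.1 q.1.1.2.1 (postVelStar q.1.1.2.2 q.1.2 q.2))) ?_
  refine Measurable.ennreal_ofReal ?_
  refine Measurable.mul (Measurable.mul (by fun_prop) ?_) ?_
  · exact hF.comp (by fun_prop) (by fun_prop)
      (Measurable.postVel (by fun_prop) (by fun_prop) (by fun_prop))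
  · exact hF.comp (by fun_prop) (by fun_prop)
      (Measurable.postVelStar (by fun_prop) (by fun_prop) (by fun_prop))

theorem MeasF.collLoss {F : ℝ → R3 → R3 → ℝ} (hF : MeasF F) :
    Measurable (fun p : ℝ × R3 × R3 => collLoss F p.1 p.2.1 p.2.2) := by
  unfold Crest.AnalysisR.PDE.Boltzmann.collLoss
  refine Measurable.lintegral_prod_right' (f := fun q : (ℝ × R3 × R3) × R3 =>
    ∫⁻ w, ENNReal.ofReal (|inner ℝ (q.1.2.2 - q.2) w| * F q.1.1 q.1.2.1 q.1.2.2 *
    F q.1.1 q.1.2.1 q.2) ∂sphereMeasure) ?_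
  refine Measurable.lintegral_prod_right' (f := fun q : ((ℝ × R3 × R3) × R3) × R3 =>
    ENNReal.ofReal (|inner ℝ (q.1.1.2.2 - q.1.2) q.2| *
      F q.1.1.1 q.1.1.2.1 q.1.1.2.2 *
    F q.1.1.1 q.1.1.2.1 q.1.2)) ?_
  refine Measurable.ennreal_ofReal ?_
  refine Measurable.mul (Measurable.mul (by fun_prop) ?_) ?_
  · exact hF.comp (by fun_prop) (by fun_prop) (by fun_prop)
  · exact hF.comp (by fun_prop) (by fun_prop) (by fun_prop)

theorem measurable_pairDissipation :
    Measurable (fun p : ℝ × ℝ => pairDissipation p.1 p.2) := by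
  unfold pairDissipation
  refine Measurable.ite ?_ measurable_const (Measurable.ite ?_ ?_ measurable_const)
  · exact (measurableSet_eq_fun measurable_fst measurable_const).inter
      (measurableSet_eq_fun measurable_snd measurable_const)
  · exact (measurableSet_lt measurable_const measurable_fst).inter
      (measurableSet_lt measurable_const measurable_snd)
  · fun_prop

end Crest.Agent.R68
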