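import Crest.Agent.R68.NDefs
import Crest.Agent.R68.EMeas

/-!
R68 / NAlg: the distance `dd a b = (a-b)+(b-a)` on `ℝ≥0∞` and Lipschitz bounds of the bilinear
gain and of the collision frequency (helper485, Part N).
-/

set_option autoImplicit false
open MeasureTheory Set
open scoped ENNReal
open Crest.AnalysisR.VecCalc3 Crest.AnalysisR.PDE.Boltzmann

noncomputable section

namespace Crest.Agent.R68.N

theorem dd_comm (a b : ℝ≥0∞) : dd a b = dd b a := add_comm _ _

@[simp] theorem dd_self (a : ℝ≥0∞) : dd a a = 0 := by simp [dd]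

@[simp] theorem dd_zero (a : ℝ≥0∞) : dd a 0 = a := by simp [dd]

@[simp] theorem zero_dd (a : ℝ≥0∞) : dd 0 a = a := by simp [dd]

theorem dd_of_le {a b : ℝ≥0∞} (h : a ≤ b) : dd a b = b - a := by
  unfold dd; rw [tsub_eq_zero_of_le h, zero_add]

theorem dd_le_iff {a b r : ℝ≥0∞} : dd a b ≤ r ↔ a ≤ b + r ∧ b ≤ a + r := by
  rcases le_total a b with h | h
  · rw [dd_of_le h]
    constructor
    · intro h1
      exact ⟨h.trans le_self_add, tsub_le_iff_left.1 h1⟩
    · intro h1
      exact tsub_le_iff_left.2 h1.2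
  · rw [dd_comm, dd_of_le h]
    constructor
    · intro h1
      exact ⟨tsub_le_iff_left.1 h1, h.trans le_self_add⟩
    · intro h1
      exact tsub_le_iff_left.2 h1.1

theorem le_add_dd (a b : ℝ≥0∞) : a ≤ b + dd a b := (dd_le_iff.1 le_rfl).1

theorem le_add_dd' (a b : ℝ≥0∞) : b ≤ a + dd a b := (dd_le_iff.1 le_rfl).2

theorem dd_le {a b r : ℝ≥0∞} (h1 : a ≤ b + r) (h2 : b ≤ a + r) : dd a b ≤ r := dd_le_iff.2 ⟨h1, h2⟩

theorem dd_le_add (a b : ℝ≥0∞) : dd a b ≤ a + b := by
  refine dd_le ?_ ?_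
  · calc a ≤ a + (b + b) := le_self_add
      _ = b + (a + b) := by ring
  · calc b ≤ b + (a + a) := le_self_add
      _ = a + (a + b) := by ring

theorem dd_triangle (a b c : ℝ≥0∞) : dd a c ≤ dd a b + dd b c := by
  refine dd_le ?_ ?_
  · calc a ≤ b + dd a b := le_add_dd a b
      _ ≤ (c + dd b c) + dd a b := by gcongr; exact le_add_dd b c
      _ = c + (dd a b + dd b c) := by ring
  · calc c ≤ b + dd b c := le_add_dd' b c
      _ ≤ (a + dd a b) + dd b c := by gcongr; exact le_add_dd' a b
      _ = a + (dd a b + dd b c) := by ring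

theorem dd_add_add (a b c d : ℝ≥0∞) : dd (a + c) (b + d) ≤ dd a b + dd c d := by
  refine dd_le ?_ ?_
  · calc a + c ≤ (b + dd a b) + (d + dd c d) := add_le_add (le_add_dd a b) (le_add_dd c d)
      _ = b + d + (dd a b + dd c d) := by ring
  · calc b + d ≤ (a + dd a b) + (c + dd c d) := add_le_add (le_add_dd' a b) (le_add_dd' c d)
      _ = a + c + (dd a b + dd c d) := by ring

theorem dd_mul (a b c d : ℝ≥0∞) : dd (a * b) (c * d) ≤ dd a c * b + c * dd b d := by
  refine dd_le ?_ ?_
  · calc a * b ≤ (c + dd a c) * b := mul_le_mul' (le_add_dd a c) le_rfl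
      _ = c * b + dd a c * b := by ring
      _ ≤ c * (d + dd b d) + dd a c * b := by gcongr; exact le_add_dd b d
      _ = c * d + (dd a c * b + c * dd b d) := by ring
  · calc c * d ≤ c * (b + dd b d) := mul_le_mul' le_rfl (le_add_dd' b d)
      _ = c * b + c * dd b d := by ring
      _ ≤ (a + dd a c) * b + c * dd b d := by gcongr; exact le_add_dd' a c
      _ = a * b + (dd a c * b + c * dd b d) := by ring

theorem dd_mul_right (a b c : ℝ≥0∞) : dd (a * c) (b * c) ≤ dd a b * c := by
  have := dd_mul a c b c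
  simpa using this

theorem dd_mul_left (a b c : ℝ≥0∞) : dd (c * a) (c * b) ≤ c * dd a b := by
  have := dd_mul c a c b
  simpa using this

theorem dd_mono_of_between {a b c : ℝ≥0∞} (h1 : a ≤ b) (h2 : b ≤ c) : dd a b ≤ dd a c := by
  rw [dd_of_le h1, dd_of_le (h1.trans h2)]
  exact tsub_le_tsub_right h2 a

@[fun_prop]
theorem _root_.Measurable.dd {α : Type*} [MeasurableSpace α] {f g : α → ℝ≥0∞} (hf : Measurable f)
    (hg : Measurable g) : Measurable (fun x => N.dd (f x) (g x)) :=
  (hf.sub hg).add (hg.sub hf)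

/-- `dd` of integrals is at most the integral of `dd` -/
theorem dd_lintegral {α : Type*} [MeasurableSpace α] {μ : Measure α} {f g : α → ℝ≥0∞}
    (hf : Measurable f) (hg : Measurable g) :
    dd (∫⁻ x, f x ∂μ) (∫⁻ x, g x ∂μ) ≤ ∫⁻ x, dd (f x) (g x) ∂μ := by
  refine dd_le ?_ ?_
  · rw [← lintegral_add_left hg]
    exact lintegral_mono fun x => le_add_dd _ _
  · rw [← lintegral_add_left hf]
    exact lintegral_mono fun x => le_add_dd' _ _

/-- version with a kernel -/
theorem dd_lintegral_mul {α : Type*} [MeasurableSpace α] {μ : Measure α} {k f g : α → ℝ≥0∞}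
    (hk : Measurable k) (hf : Measurable f) (hg : Measurable g) :
    dd (∫⁻ x, k x * f x ∂μ) (∫⁻ x, k x * g x ∂μ) ≤ ∫⁻ x, k x * dd (f x) (g x) ∂μ :=
  (dd_lintegral (hk.mul hf) (hk.mul hg)).trans (lintegral_mono fun _ => dd_mul_left _ _ _)

/-- version with a bound of the integrands -/
theorem dd_lintegral_le {α : Type*} [MeasurableSpace α] {μ : Measure α} {f g h : α → ℝ≥0∞}
    (hf : Measurable f) (hg : Measurable g) (hh : ∀ x, dd (f x) (g x) ≤ h x) :
    dd (∫⁻ x, f x ∂μ) (∫⁻ x, g x ∂μ) ≤ ∫⁻ x, h x ∂μ :=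
  (dd_lintegral hf hg).trans (lintegral_mono hh)

section coll

theorem meas_B (v : R3) : Measurable (fun q : R3 × R3 => ENNReal.ofReal |inner ℝ (v - q.1) q.2|) := by
  fun_prop

theorem meas_slice {F : R3 × R3 → ℝ≥0∞} (hF : Measurable F) (vs : R3) :
    Measurable fun w => F (vs, w) := hF.comp measurable_prodMk_left

theorem meas_slint {F : R3 × R3 → ℝ≥0∞} (hF : Measurable F) :
    Measurable fun vs => ∫⁻ w, F (vs, w) ∂sphereMeasure := Measurable.lintegral_prod_right' hF

theorem meas_post {f : R3 → ℝ≥0∞} (hf : Measurable f) (v : R3) :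
    Measurable (fun q : R3 × R3 => f (postVel v q.1 q.2)) :=
  hf.comp (R68.Measurable.postVel measurable_const measurable_fst measurable_snd)

theorem meas_postStar {f : R3 → ℝ≥0∞} (hf : Measurable f) (v : R3) :
    Measurable (fun q : R3 × R3 => f (postVelStar v q.1 q.2)) :=
  hf.comp (R68.Measurable.postVelStar measurable_const measurable_fst measurable_snd)

theorem meas_Qint {f g : R3 → ℝ≥0∞} (hf : Measurable f) (hg : Measurable g) (v : R3) :
    Measurable (fun q : R3 × R3 => ENNReal.ofReal |inner ℝ (v - q.1) q.2| *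
      f (postVel v q.1 q.2) * g (postVelStar v q.1 q.2)) :=
  ((meas_B v).mul (meas_post hf v)).mul (meas_postStar hg v)

/-- **Lipschitz bound of the gain.** -/
theorem dd_Qp {f f2 g g2 : R3 → ℝ≥0∞} (hf : Measurable f) (hf2 : Measurable f2)
    (hg : Measurable g) (hg2 : Measurable g2) (v : R3) :
    dd (Qp f g v) (Qp f2 g2 v) ≤
      Qp (fun z => dd (f z) (f2 z)) g v + Qp f2 (fun z => dd (g z) (g2 z)) v := by
  have m1 := meas_Qint hf hg v
  have m2 := meas_Qint hf2 hg2 v
  have m3 := meas_Qint (hf.dd hf2) hg v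
  have m4 := meas_Qint hf2 (hg.dd hg2) v
  have hsl : ∀ {F : R3 × R3 → ℝ≥0∞}, Measurable F → ∀ vs, Measurable fun w => F (vs, w) :=
    fun hF vs => hF.comp measurable_prodMk_left
  have hin : ∀ {F : R3 × R3 → ℝ≥0∞}, Measurable F →
      Measurable fun vs => ∫⁻ w, F (vs, w) ∂sphereMeasure :=
    fun hF => Measurable.lintegral_prod_right' hF
  have key : ∀ vs, dd
      (∫⁻ w, ENNReal.ofReal |inner ℝ (v - vs) w| * f (postVel v vs w) * g (postVelStar v vs w)
        ∂sphereMeasure)
      (∫⁻ w, ENNReal.ofReal |inner ℝ (v - vs) w| * f2 (postVel v vs w) * g2 (postVelStar v vs w)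
        ∂sphereMeasure) ≤
      (∫⁻ w, ENNReal.ofReal |inner ℝ (v - vs) w| * dd (f (postVel v vs w)) (f2 (postVel v vs w)) *
        g (postVelStar v vs w) ∂sphereMeasure) +
      ∫⁻ w, ENNReal.ofReal |inner ℝ (v - vs) w| * f2 (postVel v vs w) *
        dd (g (postVelStar v vs w)) (g2 (postVelStar v vs w)) ∂sphereMeasure := by
    intro vs
    rw [← lintegral_add_left (hsl m3 vs)]
    refine dd_lintegral_le (hsl m1 vs) (hsl m2 vs) fun w => ?_
    refine (dd_mul _ _ _ _).trans ?_
    refine add_le_add (mul_le_mul' (dd_mul_left _ _ _) le_rfl) le_rfl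
  unfold Qp
  rw [← lintegral_add_left (hin m3)]
  exact dd_lintegral_le (hin m1) (hin m2) key

theorem meas_Lint {f : R3 → ℝ≥0∞} (hf : Measurable f) (v : R3) :
    Measurable (fun q : R3 × R3 => ENNReal.ofReal |inner ℝ (v - q.1) q.2| * f q.1) :=
  (meas_B v).mul (hf.comp measurable_fst)

/-- **Lipschitz bound of the collision frequency.** -/
theorem dd_Lc {f f2 : R3 → ℝ≥0∞} (hf : Measurable f) (hf2 : Measurable f2) (v : R3) :
    dd (Lc f v) (Lc f2 v) ≤ Lc (fun z => dd (f z) (f2 z)) v := by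
  have m1 := meas_Lint hf v
  have m2 := meas_Lint hf2 v
  unfold Lc
  refine dd_lintegral_le (meas_slint m1) (meas_slint m2) fun vs => ?_
  exact dd_lintegral_le (meas_slice m1 vs) (meas_slice m2 vs) fun w => dd_mul_left _ _ _

/-- congruence of the bilinear gain -/
theorem Qp_congr {f f2 g g2 : R3 → ℝ≥0∞} (hf : ∀ z, f z = f2 z) (hg : ∀ z, g z = g2 z) (v : R3) :
    Qp f g v = Qp f2 g2 v := by
  rw [funext hf, funext hg]

end coll

open Crest.Agent.R68.A in
/-- joint measurability of the accumulated rate -/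
theorem measurable_acc {α : Type*} [MeasurableSpace α] {n : Fld} (hn : Meas3 n) {s t : α → ℝ}
    {x : α → P2} {v : α → R3} (hs : Measurable s) (ht : Measurable t) (hx : Measurable x)
    (hv : Measurable v) : Measurable (fun a => acc n (s a) (t a) (x a) (v a)) := by
  unfold acc
  refine measurable_lintegral_Ioo (q := fun z : α × ℝ =>
    n z.2 (x z.1 - (t z.1 - z.2) • bar (v z.1)) (v z.1)) ?_ hs ht
  exact hn.comp (by fun_prop) (by fun_prop) (by fun_prop)

open Crest.Agent.R68.A in
theorem measurable_Dam_integrand {n q : Fld} (hn : Meas3 n) (hq : Meas3 q) (t : ℝ) (x : P2)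
    (v : R3) : Measurable (fun s => en (acc n s t x v) * q s (x - (t - s) • bar v) v) :=
  (measurable_en.comp (measurable_acc hn measurable_id measurable_const measurable_const
    measurable_const)).mul (hq.comp (by fun_prop) (by fun_prop) (by fun_prop))

open Crest.Agent.R68.A (Meas3)

theorem meas3_ddF {f g : Fld} (hf : Meas3 f) (hg : Meas3 g) : Meas3 (ddF f g) :=
  Measurable.dd hf hg

/-- **Lipschitz bound of the damped Duhamel integral (same damping).** -/
theorem dd_Dam {n q q' : Fld} (hn : Meas3 n) (hq : Meas3 q) (hq' : Meas3 q') (t : ℝ) (x : P2)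
    (v : R3) : dd (Dam n q t x v) (Dam n q' t x v) ≤ Dam n (ddF q q') t x v := by
  unfold Dam ddF
  exact dd_lintegral_le (measurable_Dam_integrand hn hq t x v)
    (measurable_Dam_integrand hn hq' t x v) fun s => dd_mul_left _ _ _

/-- version with a bound on the flight -/
theorem dd_Dam_le {n q q' r : Fld} (hn : Meas3 n) (hq : Meas3 q) (hq' : Meas3 q') {t : ℝ} {x : P2}
    {v : R3} (h : ∀ s ∈ Ioo 0 t, dd (q s (x - (t - s) • bar v) v) (q' s (x - (t - s) • bar v) v) ≤
      r s (x - (t - s) • bar v) v) :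
    dd (Dam n q t x v) (Dam n q' t x v) ≤ Dam n r t x v := by
  refine (dd_Dam hn hq hq' t x v).trans ?_
  unfold Dam ddF
  exact setLIntegral_mono_ae' measurableSet_Ioo
    (Filter.Eventually.of_forall fun s hs => mul_le_mul' le_rfl (h s hs))

/-- differences of truncated subtractions with the same minuend -/
theorem dd_tsub (n a b : ℝ≥0∞) : dd (n - a) (n - b) ≤ dd a b := by
  refine dd_le ?_ ?_
  · -- n - a ≤ (n - b) + dd a b
    rw [tsub_le_iff_right]
    calc n ≤ (n - b) + b := le_tsub_add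
      _ ≤ (n - b) + (a + dd a b) := by gcongr; exact le_add_dd' a b
      _ = (n - b) + dd a b + a := by ring
  · rw [tsub_le_iff_right]
    calc n ≤ (n - a) + a := le_tsub_add
      _ ≤ (n - a) + (b + dd a b) := by gcongr; exact le_add_dd a b
      _ = (n - a) + dd a b + b := by ring

/-- differences of truncated subtractions with the same subtrahend -/
theorem dd_tsub_right (a b n : ℝ≥0∞) : dd (a - n) (b - n) ≤ dd a b := by
  refine dd_le ?_ ?_
  · rw [tsub_le_iff_right]
    calc a ≤ b + dd a b := le_add_dd a b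
      _ ≤ (b - n + n) + dd a b := by gcongr; exact le_tsub_add
      _ = (b - n) + dd a b + n := by ring
  · rw [tsub_le_iff_right]
    calc b ≤ a + dd a b := le_add_dd' a b
      _ ≤ (a - n + n) + dd a b := by gcongr; exact le_tsub_add
      _ = (a - n) + dd a b + n := by ring

theorem dd_sub_mul (n a b h h' : ℝ≥0∞) :
    dd ((n - a) * h) ((n - b) * h') ≤ dd a b * h + (n - b) * dd h h' :=
  (dd_mul _ _ _ _).trans (add_le_add (mul_le_mul' (dd_tsub n a b) le_rfl) le_rfl)

section gain

variable {c sp H c' sp' H' : Fld} {t : ℝ} {x : P2}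

/-- **Lipschitz bound of the gain of the hot equation** -/
theorem dd_gainH (hc : Measurable (c t x)) (hc' : Measurable (c' t x)) (hH : Measurable (H t x))
    (hH' : Measurable (H' t x)) (v : R3) :
    dd (gainH c sp H t x v) (gainH c' sp' H' t x v) ≤ dd (sp t x v) (sp' t x v) +
      (Qp (ddF c c' t x) (H t x) v + Qp (H t x) (ddF c c' t x) v) +
      (Qp (c' t x) (ddF H H' t x) v + Qp (ddF H H' t x) (c' t x) v) +
      (Qp (ddF H H' t x) (H t x) v + Qp (H' t x) (ddF H H' t x) v) := by
  have e1 : dd (Qp (c t x) (H t x) v) (Qp (c' t x) (H' t x) v) ≤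
      Qp (ddF c c' t x) (H t x) v + Qp (c' t x) (ddF H H' t x) v := dd_Qp hc hc' hH hH' v
  have e2 : dd (Qp (H t x) (c t x) v) (Qp (H' t x) (c' t x) v) ≤
      Qp (H t x) (ddF c c' t x) v + Qp (ddF H H' t x) (c' t x) v := by
    rw [dd_comm]
    refine (dd_Qp hH' hH hc' hc v).trans (le_of_eq ?_)
    rw [add_comm]
    congr 1
    · exact Qp_congr (fun _ => rfl) (fun z => dd_comm _ _) v
    · exact Qp_congr (fun z => dd_comm _ _) (fun _ => rfl) v
  have e3 : dd (Qp (H t x) (H t x) v) (Qp (H' t x) (H' t x) v) ≤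
      Qp (ddF H H' t x) (H t x) v + Qp (H' t x) (ddF H H' t x) v := dd_Qp hH hH' hH hH' v
  unfold gainH
  refine (dd_add_add _ _ _ _).trans ?_
  refine (add_le_add ((dd_add_add _ _ _ _).trans (add_le_add (dd_add_add _ _ _ _) le_rfl)) le_rfl).trans ?_
  refine (add_le_add (add_le_add (add_le_add le_rfl e1) e2) e3).trans (le_of_eq ?_)
  ring

/-- Lipschitz bound of the total collision frequency -/
theorem dd_lossH (hc : Measurable (c t x)) (hc' : Measurable (c' t x)) (hH : Measurable (H t x))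
    (hH' : Measurable (H' t x)) (v : R3) :
    dd (lossH c H t x v) (lossH c' H' t x v) ≤ Lc (ddF c c' t x) v + Lc (ddF H H' t x) v := by
  unfold lossH
  refine (dd_Lc (hc.add hH) (hc'.add hH') v).trans ?_
  have e : Lc (fun z => ddF c c' t x z + ddF H H' t x z) v =
      Lc (ddF c c' t x) v + Lc (ddF H H' t x) v := by
    refine A.Lc_add ?_ v
    exact Measurable.dd hc hc'
  rw [← e]
  exact A.Lc_mono (fun z => dd_add_add _ _ _ _) v

/-- Lipschitz bound of the extra term `(n - lossH) H` (no condition on `n`) -/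
theorem dd_subH (hc : Measurable (c t x)) (hc' : Measurable (c' t x)) (hH : Measurable (H t x))
    (hH' : Measurable (H' t x)) (n : ℝ≥0∞) (v : R3) :
    dd ((n - lossH c H t x v) * H t x v) ((n - lossH c' H' t x v) * H' t x v) ≤
      (Lc (ddF c c' t x) v + Lc (ddF H H' t x) v) * H t x v +
        (n - lossH c' H' t x v) * ddF H H' t x v :=
  (dd_sub_mul _ _ _ _ _).trans
    (add_le_add (mul_le_mul' (dd_lossH hc hc' hH hH' v) le_rfl) le_rfl)

end gain

end Crest.Agent.R68.N
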