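import Crest.Agent.R68.NHyp
import Crest.Agent.R68.NAlg
import Crest.Agent.R68.CNewt2

/-!
# Row 68 (helper585): the cold component fulfils the hypotheses of Part N

`ColdOut P` collects the theorems of Part C (statements of `ColdIface`) for one `P`;
`coldInp` is the structure `N.ColdInp` with `Mc = 2 coldS`, `Wm = warm`, `V = Y + 5`,
`q = p / 32`.
-/

set_option autoImplicit false
open MeasureTheory Set Filter
open scoped ENNReal Topology
open Crest.AnalysisR.VecCalc3 Crest.AnalysisR.PDE.Boltzmann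

noncomputable section

namespace Crest.Agent.R68.N

open Crest.Agent.R68.A (en Meas3)

/-- the theorems of Part C, for one set of parameters -/
structure ColdOut (P : Par) : Prop where
  meas : ∀ lam : Fld, Meas3 lam → PerF lam → Meas3 (coldR P lam)
  measS : ∀ lam : Fld, Meas3 lam → PerF lam → Meas3 (coldSpill P lam)
  measW : Meas3 (warm P)
  per : ∀ lam : Fld, Meas3 lam → PerF lam → PerF (coldR P lam)
  le : ∀ lam : Fld, Meas3 lam → PerF lam → ∀ t x v, 0 ≤ t →
    coldR P lam t x v ≤ phiE P t x v + ENNReal.ofReal (min t 1) * warm P t x v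
  supp : ∀ t x v, 0 ≤ t → P.Y + 5 < ‖v‖ → warm P t x v = 0
  le_T1 : ∀ lam : Fld, Meas3 lam → PerF lam → ∀ t x v, 0 ≤ t → t ≤ P.dl ^ (3 / 8 : ℝ) →
    coldR P lam t x v ≤ phiE P t x v +
      ENNReal.ofReal (t * distG x ^ (P.p / 32)) * warm P t x v
  phi_le : ∀ lam : Fld, Meas3 lam → PerF lam → ∀ t x v, 0 ≤ t → t ≤ P.dl ^ (3 / 8 : ℝ) →
    phiE P t x v ≤ coldR P lam t x v +
      (ENNReal.ofReal (t * distG x ^ (P.p / 32)) +
        ∫⁻ s in Ioo 0 t, lam s (x - (t - s) • bar v) v) * phiE P t x v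
  lip : ∀ lam lam' g : Fld, Meas3 lam → PerF lam → Meas3 lam' → PerF lam' →
    ∀ (T : ℝ) (Δ : ℝ → P2 → ℝ≥0∞), T ≤ P.dl ^ (3 / 8 : ℝ) →
    (∀ t x v, 0 < t → t < T → ‖v‖ < P.Y + 3 → lam t x v ≤ lam' t x v + g t x v ∧
      lam' t x v ≤ lam t x v + g t x v) →
    (∀ t x v, 0 < t → t ≤ T → ‖v‖ < P.Y + 3 →
      ∫⁻ s in Ioo 0 t, g s (x - (t - s) • bar v) v ≤ Δ t x) →
    (∀ s t x v, 0 < s → s ≤ t → t ≤ T → ‖v‖ < P.Y + 3 → Δ s (x - (t - s) • bar v) ≤ Δ t x) →
    ∀ t x v, 0 < t → t ≤ T →
      coldR P lam t x v ≤ coldR P lam' t x v + 2 * Δ t x * coldS P t x v ∧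
      coldSpill P lam t x v ≤ coldSpill P lam' t x v +
        Δ t x * ENNReal.ofReal (distG x ^ (P.p / 32) * Real.exp (-‖v‖ ^ 2))

/-! ### periodicity and support of the majorants -/

theorem perF_phiE (P : Par) : PerF (phiE P) := by
  intro t v x k
  show ENNReal.ofReal (phi P t (x + latt k) v) = ENNReal.ofReal (phi P t x v)
  congr 1
  exact Fuel.perG_phi P t v x k

theorem perF_coldSpill (P : Par) (lam : Fld) : PerF (coldSpill P lam) := by
  classical
  intro t v x l
  show coldSpill P lam t (x + latt l) v = coldSpill P lam t x v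
  have h1 : ∀ i : (ℤ × ℤ) × ℕ, ∀ z, coldjk P lam i t (x + latt l) z =
      coldjk P lam (i.1 + l, i.2) t x z := by
    intro i z
    unfold coldjk
    rw [add_assoc, ← latt_add, add_comm l i.1]
  have h2 : ∀ i : (ℤ × ℤ) × ℕ, coldjk P lam i t (x + latt l) =
      coldjk P lam (i.1 + l, i.2) t x := fun i => funext (h1 i)
  have h3 : ∀ i : (ℤ × ℤ) × ℕ, x + latt l + latt i.1 = x + latt (i.1 + l) := by
    intro i
    rw [add_assoc, ← latt_add, add_comm l i.1]
  unfold coldSpill
  let e : ((ℤ × ℤ) × ℕ) ≃ ((ℤ × ℤ) × ℕ) := (Equiv.addRight l).prodCongr (Equiv.refl ℕ)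
  symm
  rw [← e.tsum_eq]
  refine tsum_congr fun i => ?_
  rw [← e.tsum_eq]
  refine tsum_congr fun i' => ?_
  have e1 : ∀ i : (ℤ × ℤ) × ℕ, e i = (i.1 + l, i.2) := fun i => rfl
  rw [h2 i, h2 i', h3 i, e1, e1]
  have e2 : (i = i') ↔ (((i.1 + l, i.2) : (ℤ × ℤ) × ℕ) = (i'.1 + l, i'.2)) := by
    constructor
    · rintro rfl; rfl
    · intro h
      have ha := congrArg Prod.fst h
      have hb := congrArg Prod.snd h
      simp only at ha hb
      exact Prod.ext (add_right_cancel ha) hb
  refine Eq.trans ?_ (if_congr (⟨fun h => ⟨e2.2 h.1, h.2⟩, fun h => ⟨e2.1 h.1, h.2⟩⟩ :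
    ((((i.1 + l, i.2) : (ℤ × ℤ) × ℕ) = (i'.1 + l, i'.2)) ∧ t ≤ tauj P.p i.2 ∧
      Zj P i.2 1 t (x + latt (i.1 + l)) v) ↔ (i = i' ∧ t ≤ tauj P.p i.2 ∧
      Zj P i.2 1 t (x + latt (i.1 + l)) v)) rfl rfl)
  rfl

theorem phiE_zero (P : Par) (h : P.Ok) {t : ℝ} {x : P2} {v : R3} (hv : P.Y + 5 < ‖v‖) :
    phiE P t x v = 0 := by
  unfold phiE; rw [C.phi_eq_zero_of_norm h hv]; simp

theorem tx_ge (q : ℕ) {t : ℝ} (ht : 0 ≤ t) (x : P2) :
    ENNReal.ofReal (distG x ^ q) ≤ tx (q : ℝ) t x := by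
  unfold tx
  apply ENNReal.ofReal_le_ofReal
  rw [Real.rpow_natCast]
  exact pow_le_pow_left₀ (distG_nonneg x) (by linarith) q

/-- `∫_0^t Del ≤ t Del(t)` along flights -/
theorem lint_mono_fl {V T : ℝ} {Del : ℝ → P2 → ℝ≥0∞} (hD : MonoFl V T Del) {t : ℝ} (_ht : 0 < t)
    (htT : t ≤ T) (x : P2) {v : R3} (hv : ‖v‖ ≤ V) :
    ∫⁻ s in Ioo 0 t, Del s (x - (t - s) • bar v) ≤ ENNReal.ofReal t * Del t x := by
  calc ∫⁻ s in Ioo 0 t, Del s (x - (t - s) • bar v)
      ≤ ∫⁻ _ in Ioo 0 t, Del t x := by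
        refine setLIntegral_mono' measurableSet_Ioo fun s hs => ?_
        exact hD s t hs.1 hs.2.le htT x v hv
    _ = _ := by
        rw [lintegral_const, Measure.restrict_apply_univ, Real.volume_Ioo, sub_zero, mul_comm]

/-- **the hypotheses of Part N on the cold component** -/
theorem coldInp (P : Par) (h : P.Ok) (hC : ColdOut P) {T : ℝ} (hT : T ≤ P.dl ^ (3 / 8 : ℝ)) :
    ColdInp P T (P.Y + 5) (coldR P) (coldSpill P) (fun t x v => 2 * coldS P t x v)
      (warm P) 2 ((P.p / 32 : ℕ) : ℝ) where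
  measC := hC.meas
  measS := hC.measS
  perC := hC.per
  perS := fun lam _ _ => perF_coldSpill P lam
  measM := by
    have h1 : Meas3 (phiE P) := (Fuel.measurable_phi h).ennreal_ofReal
    exact (h1.add hC.measW).const_mul 2
  measW := hC.measW
  W_le := fun t _ x v => by
    show warm P t x v ≤ 2 * (phiE P t x v + warm P t x v)
    calc warm P t x v ≤ phiE P t x v + warm P t x v := le_add_self
      _ = 1 * (phiE P t x v + warm P t x v) := (one_mul _).symm
      _ ≤ _ := by gcongr; norm_num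
  CC_ne := by norm_num
  supp := fun t ht x v hv => by
    show 2 * (phiE P t x v + warm P t x v) = 0
    rw [hC.supp t x v ht.1.le hv, phiE_zero P h hv]
    simp
  phi_le := fun t _ x v => by
    show phiE P t x v ≤ 2 * (phiE P t x v + warm P t x v)
    calc phiE P t x v ≤ phiE P t x v + warm P t x v := le_self_add
      _ = 1 * (phiE P t x v + warm P t x v) := (one_mul _).symm
      _ ≤ _ := by gcongr; norm_num
  le := fun lam hm hp t ht x v => by
    show coldR P lam t x v ≤ 2 * (phiE P t x v + warm P t x v)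
    calc coldR P lam t x v ≤ phiE P t x v + ENNReal.ofReal (min t 1) * warm P t x v :=
          hC.le lam hm hp t x v ht.1.le
      _ ≤ phiE P t x v + 1 * warm P t x v := by
          gcongr
          rw [← ENNReal.ofReal_one]
          exact ENNReal.ofReal_le_ofReal (min_le_right _ _)
      _ = 1 * (phiE P t x v + warm P t x v) := by rw [one_mul, one_mul]
      _ ≤ _ := by gcongr; norm_num
  lip := fun lam lam' hm hp hm' hp' Del hDm hD hdd t ht x v => by
    have hL := hC.lip lam lam' (fun s y _ => Del s y) hm hp hm' hp' T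
      (fun t x => ENNReal.ofReal t * Del t x) hT
      (fun s y w hs0 hsT hw => dd_le_iff.1 (hdd s ⟨hs0, hsT.le⟩ y w (by linarith)))
      (fun s y w hs0 hsT hw => lint_mono_fl hD hs0 hsT y (by linarith))
      (fun s r y w hs0 hsr hrT hw => by
        gcongr
        exact hD s r hs0 hsr hrT y w (by linarith))
    have hL' := hC.lip lam' lam (fun s y _ => Del s y) hm' hp' hm hp T
      (fun t x => ENNReal.ofReal t * Del t x) hT
      (fun s y w hs0 hsT hw => (dd_le_iff.1 (hdd s ⟨hs0, hsT.le⟩ y w (by linarith))).symm)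
      (fun s y w hs0 hsT hw => lint_mono_fl hD hs0 hsT y (by linarith))
      (fun s r y w hs0 hsr hrT hw => by
        gcongr
        exact hD s r hs0 hsr hrT y w (by linarith))
    have key : ∀ c c' : ℝ≥0∞, c ≤ c' + 2 * (ENNReal.ofReal t * Del t x) * coldS P t x v →
        c ≤ c' + 2 * ENNReal.ofReal t * Del t x * (2 * coldS P t x v) := by
      intro c c' hc
      refine hc.trans ?_
      gcongr c' + ?_
      calc 2 * (ENNReal.ofReal t * Del t x) * coldS P t x v
          = 1 * (2 * ENNReal.ofReal t * Del t x * coldS P t x v) := by ring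
        _ ≤ 2 * (2 * ENNReal.ofReal t * Del t x * coldS P t x v) := by gcongr; norm_num
        _ = _ := by ring
    exact dd_le (key _ _ (hL t x v ht.1 ht.2).1) (key _ _ (hL' t x v ht.1 ht.2).1)
  lip0 := fun lam hm hp Del hDm hD hle t ht x v => by
    have hT1 : t ≤ P.dl ^ (3 / 8 : ℝ) := ht.2.trans hT
    have h1 := hC.le_T1 lam hm hp t x v ht.1.le hT1
    have h2 := hC.phi_le lam hm hp t x v ht.1.le hT1
    have htx := tx_ge (P.p / 32) ht.1.le x
    have hW : ∀ c : ℝ≥0∞, c * (ENNReal.ofReal t * ((Del t x + tx ((P.p / 32 : ℕ) : ℝ) t x) *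
        (2 * (phiE P t x v + warm P t x v)))) ≤
        c * ENNReal.ofReal t * ((Del t x + tx ((P.p / 32 : ℕ) : ℝ) t x) *
          (2 * coldS P t x v) + warm P t x v) := by
      intro c
      rw [mul_assoc]
      gcongr
      exact le_self_add
    have hc : ENNReal.ofReal (t * distG x ^ (P.p / 32)) ≤
        ENNReal.ofReal t * tx ((P.p / 32 : ℕ) : ℝ) t x := by
      rw [ENNReal.ofReal_mul ht.1.le]
      gcongr
    refine dd_le ?_ ?_
    · refine h1.trans ?_
      gcongr _ + ?_
      calc ENNReal.ofReal (t * distG x ^ (P.p / 32)) * warm P t x v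
          ≤ (ENNReal.ofReal t * tx ((P.p / 32 : ℕ) : ℝ) t x) * (phiE P t x v + warm P t x v) := by
            gcongr
            exact le_add_self
        _ = 1 * (ENNReal.ofReal t * (tx ((P.p / 32 : ℕ) : ℝ) t x *
            (1 * (phiE P t x v + warm P t x v)))) := by ring
        _ ≤ 2 * (ENNReal.ofReal t * ((Del t x + tx ((P.p / 32 : ℕ) : ℝ) t x) *
            (2 * (phiE P t x v + warm P t x v)))) := by
            gcongr
            · norm_num
            · exact le_add_self
            · norm_num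
        _ ≤ _ := hW 2
    · by_cases hv : ‖v‖ ≤ P.Y + 5
      · refine h2.trans ?_
        gcongr _ + ?_
        have h3 : ∫⁻ s in Ioo 0 t, lam s (x - (t - s) • bar v) v ≤ ENNReal.ofReal t * Del t x := by
          refine le_trans ?_ (lint_mono_fl hD ht.1 ht.2 x hv)
          refine setLIntegral_mono' measurableSet_Ioo fun s hs => ?_
          exact hle s ⟨hs.1, hs.2.le.trans ht.2⟩ _ v hv
        calc (ENNReal.ofReal (t * distG x ^ (P.p / 32)) +
            ∫⁻ s in Ioo 0 t, lam s (x - (t - s) • bar v) v) * phiE P t x v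
            ≤ (ENNReal.ofReal t * tx ((P.p / 32 : ℕ) : ℝ) t x + ENNReal.ofReal t * Del t x) *
              (phiE P t x v + warm P t x v) := by
              gcongr
              exact le_self_add
          _ = 1 * (ENNReal.ofReal t * ((Del t x + tx ((P.p / 32 : ℕ) : ℝ) t x) *
              (1 * (phiE P t x v + warm P t x v)))) := by ring
          _ ≤ 2 * (ENNReal.ofReal t * ((Del t x + tx ((P.p / 32 : ℕ) : ℝ) t x) *
              (2 * (phiE P t x v + warm P t x v)))) := by
              gcongr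
              · norm_num
              · norm_num
          _ ≤ _ := hW 2
      · rw [phiE_zero P h (not_le.1 hv)]
        exact zero_le
  spill := fun lam lam' hm hp hm' hp' Del hDm hD hdd t ht x v => by
    have hL := hC.lip lam lam' (fun s y _ => Del s y) hm hp hm' hp' T
      (fun t x => ENNReal.ofReal t * Del t x) hT
      (fun s y w hs0 hsT hw => dd_le_iff.1 (hdd s ⟨hs0, hsT.le⟩ y w (by linarith)))
      (fun s y w hs0 hsT hw => lint_mono_fl hD hs0 hsT y (by linarith))
      (fun s r y w hs0 hsr hrT hw => by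
        gcongr
        exact hD s r hs0 hsr hrT y w (by linarith))
    have hL' := hC.lip lam' lam (fun s y _ => Del s y) hm' hp' hm hp T
      (fun t x => ENNReal.ofReal t * Del t x) hT
      (fun s y w hs0 hsT hw => (dd_le_iff.1 (hdd s ⟨hs0, hsT.le⟩ y w (by linarith))).symm)
      (fun s y w hs0 hsT hw => lint_mono_fl hD hs0 hsT y (by linarith))
      (fun s r y w hs0 hsr hrT hw => by
        gcongr
        exact hD s r hs0 hsr hrT y w (by linarith))
    have key : ∀ c c' : ℝ≥0∞, c ≤ c' + (ENNReal.ofReal t * Del t x) *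
        ENNReal.ofReal (distG x ^ (P.p / 32) * Real.exp (-‖v‖ ^ 2)) →
        c ≤ c' + 2 * ENNReal.ofReal t * Del t x * tx ((P.p / 32 : ℕ) : ℝ) t x *
          ENNReal.ofReal (Real.exp (-‖v‖ ^ 2)) := by
      intro c c' hc
      refine hc.trans ?_
      gcongr c' + ?_
      rw [ENNReal.ofReal_mul (pow_nonneg (distG_nonneg x) _)]
      calc (ENNReal.ofReal t * Del t x) * (ENNReal.ofReal (distG x ^ (P.p / 32)) *
            ENNReal.ofReal (Real.exp (-‖v‖ ^ 2)))
          ≤ (ENNReal.ofReal t * Del t x) * (tx ((P.p / 32 : ℕ) : ℝ) t x *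
            ENNReal.ofReal (Real.exp (-‖v‖ ^ 2))) := by
            gcongr
            exact tx_ge _ ht.1.le x
        _ = 1 * (ENNReal.ofReal t * Del t x * tx ((P.p / 32 : ℕ) : ℝ) t x *
            ENNReal.ofReal (Real.exp (-‖v‖ ^ 2))) := by ring
        _ ≤ 2 * (ENNReal.ofReal t * Del t x * tx ((P.p / 32 : ℕ) : ℝ) t x *
            ENNReal.ofReal (Real.exp (-‖v‖ ^ 2))) := by gcongr; norm_num
        _ = _ := by ring
    exact dd_le (key _ _ (hL t x v ht.1 ht.2).2) (key _ _ (hL' t x v ht.1 ht.2).2)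

end Crest.Agent.R68.N
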