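import Crest.Agent.R68.A3Inst
import Crest.Agent.R68.A3Bg
import Crest.Agent.R68.IColdInp

/-!
# Row 68, PART A (helper418): closeness of the unburnt solution to the transported background
-/

set_option autoImplicit false
open MeasureTheory Set Filter
open scoped ENNReal Topology Real
open Crest.AnalysisR.VecCalc3 Crest.AnalysisR.PDE.Boltzmann

noncomputable section

namespace Crest.Agent.R68.A

open Crest.Agent.R68.N
open Crest.Agent.R68.KC (WSz Lc_cold' ev_mul ParD_of_Ok measurable_phiE phiE_supp warm_supp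
  newt_warm)
open Crest.Agent.R68.Fuel (vis)

/-- **(b')** the spill in the form `|x|^n e^{-|v|²}` against `B1` -/
theorem Duh_dist_pow_le (P : Par) {Lam rh g b : ℝ} {n : ℕ} (hL : 1 ≤ Lam) (hrh : 0 < rh)
    (hrh1 : rh ≤ 1) (hb : 0 < b) (hn : 2 * b ≤ n) (hg : g ≤ 1) {t : ℝ} (ht : 0 ≤ t) (x : P2)
    (v : R3) :
    Duh (fun _ y z => ENNReal.ofReal (distG y ^ n * Real.exp (-‖z‖ ^ 2))) t x v ≤
      ENNReal.ofReal (t * (1 + Lam ^ b)) * B1 P Lam rh g b t x v := by
  set z := distG x + t * ‖v‖ with hz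
  have hz0 : 0 ≤ z := by
    have := distG_nonneg x
    positivity
  set C : ℝ := 1 + Lam ^ b with hC
  have hC0 : 0 ≤ C := by positivity
  have hTh0 : 0 ≤ Th Lam t x v := K.Th_nonneg (by linarith) ht x v
  have hzTh : z ^ 2 ≤ Lam * Th Lam t x v := by
    unfold Th
    rw [mul_add, mul_div_cancel₀ _ (by linarith : Lam ≠ 0)]
    have : 0 ≤ Lam * t := by positivity
    linarith
  have key : ∀ s ∈ Ioo 0 t, ENNReal.ofReal (distG (x - (t - s) • bar v) ^ n *
      Real.exp (-‖v‖ ^ 2)) ≤ ENNReal.ofReal C * B1 P Lam rh g b t x v := by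
    intro s hs
    set y := x - (t - s) • bar v with hy
    have hy0 : 0 ≤ distG y := distG_nonneg y
    have hy1 : distG y ≤ 1 := distG_le_one y
    have hyz : distG y ≤ z := by
      have h := distG_le_add x (-((t - s) • bar v))
      rw [norm_neg, norm_smul, Real.norm_of_nonneg (by linarith [hs.2]), ← sub_eq_add_neg] at h
      have h2 : (t - s) * ‖bar v‖ ≤ t * ‖v‖ :=
        mul_le_mul (by linarith [hs.1]) (K.norm_bar_le v) (norm_nonneg _) ht
      linarith
    have h2 : distG y ^ n ≤ C * (min 1 (Th Lam t x v / rh ^ 2)) ^ b := by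
      rcases le_or_gt 1 (Th Lam t x v / rh ^ 2) with h3 | h3
      · rw [min_eq_left h3, Real.one_rpow, mul_one]
        have h4 : distG y ^ n ≤ 1 := pow_le_one₀ hy0 hy1
        have h5 : 0 ≤ Lam ^ b := by positivity
        linarith
      · rw [min_eq_right h3.le]
        have h4 : Th Lam t x v ≤ Th Lam t x v / rh ^ 2 := by
          rw [le_div_iff₀ (by positivity)]
          have : rh ^ 2 ≤ 1 := pow_le_one₀ hrh.le hrh1
          nlinarith
        have h5 : distG y ^ n ≤ (z ^ 2) ^ b := by
          have hn0 : n ≠ 0 := by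
            rintro rfl
            simp at hn
            linarith
          rcases hy0.eq_or_lt with h6 | h6
          · rw [← h6, zero_pow hn0]; positivity
          · calc distG y ^ n = distG y ^ (n : ℝ) := (Real.rpow_natCast _ _).symm
              _ ≤ distG y ^ (2 * b) := Real.rpow_le_rpow_of_exponent_ge h6 hy1 hn
              _ ≤ z ^ (2 * b) := Real.rpow_le_rpow hy0 hyz (by positivity)
              _ = (z ^ 2) ^ b := by
                rw [← Real.rpow_natCast z 2, ← Real.rpow_mul hz0]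
                norm_num
        calc distG y ^ n ≤ (z ^ 2) ^ b := h5
          _ ≤ (Lam * Th Lam t x v) ^ b := by gcongr
          _ = Lam ^ b * (Th Lam t x v) ^ b := by rw [Real.mul_rpow (by linarith) hTh0]
          _ ≤ C * (Th Lam t x v / rh ^ 2) ^ b := by
              apply mul_le_mul _ _ (by positivity) hC0
              · rw [hC]; linarith
              · exact Real.rpow_le_rpow hTh0 h4 hb.le
    have h3 : Real.exp (-‖v‖ ^ 2) ≤ gau g t v := by
      unfold gau
      apply Real.exp_le_exp.2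
      have : 0 ≤ √t := Real.sqrt_nonneg t
      nlinarith [sq_nonneg ‖v‖, mul_nonneg this (sq_nonneg ‖v‖)]
    have hm0 : 0 ≤ (min 1 (Th Lam t x v / rh ^ 2)) ^ b :=
      Real.rpow_nonneg (le_min zero_le_one (by positivity)) _
    calc ENNReal.ofReal (distG y ^ n * Real.exp (-‖v‖ ^ 2))
        ≤ ENNReal.ofReal (C * ((min 1 (Th Lam t x v / rh ^ 2)) ^ b * gau g t v)) := by
          apply ENNReal.ofReal_le_ofReal
          rw [← mul_assoc]
          apply mul_le_mul h2 h3 (Real.exp_pos _).le (by positivity)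
      _ = ENNReal.ofReal C * ENNReal.ofReal ((min 1 (Th Lam t x v / rh ^ 2)) ^ b * gau g t v) :=
          ENNReal.ofReal_mul hC0
      _ ≤ ENNReal.ofReal C * B1 P Lam rh g b t x v := by
          unfold B1
          gcongr
          exact le_mul_of_one_le_right zero_le (K.one_le_Dm P t x v)
  unfold Duh
  calc ∫⁻ s in Ioo 0 t, ENNReal.ofReal (distG (x - (t - s) • bar v) ^ n * Real.exp (-‖v‖ ^ 2))
      ≤ ∫⁻ _ in Ioo 0 t, ENNReal.ofReal C * B1 P Lam rh g b t x v :=
        setLIntegral_mono' measurableSet_Ioo key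
    _ = ENNReal.ofReal (t * C) * B1 P Lam rh g b t x v := by
        rw [setLIntegral_const, Real.volume_Ioo, sub_zero, ENNReal.ofReal_mul ht]
        ring

/-- the spill bound of Part C -/
def SpillOut (P : Par) : Prop :=
  ∀ lam : Fld, Meas3 lam → PerF lam → ∀ t x v, 0 ≤ t → t ≤ P.dl ^ (3 / 8 : ℝ) →
    coldSpill P lam t x v ≤ ENNReal.ofReal (distG x ^ (P.p / 32) * Real.exp (-‖v‖ ^ 2))

/-- background particles do not meet the fuel on `[0,T]` -/
theorem vis_empty {P : Par} (h : P.Ok) {T R rh : ℝ} (hTR : T * R ≤ rh / 2)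
    (hz : (1 + P.Y) * P.dl + (P.c + P.Y + etaj P.p P.j0) * T < rh / 2) {s t : ℝ} (hs : 0 ≤ s)
    (hst : s ≤ t) (htT : t ≤ T) {x : P2} {v : R3} (hv : ‖v‖ < R)
    (hx : rh < distG (x - t • bar v)) : vis P s (x - (t - s) • bar v) = ∅ := by
  rw [eq_empty_iff_forall_notMem]
  intro k hk
  have h1 := Fuel.norm_of_vis h hs hk
  set y := x - (t - s) • bar v with hy
  have h2 : distG y ≤ ‖y + latt k‖ := distG_le y k
  have h3 : distG (y + -(s • bar v)) ≤ distG y + ‖-(s • bar v)‖ := distG_le_add y _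
  have h4 : y + -(s • bar v) = x - t • bar v := by
    rw [hy, sub_smul]; abel
  rw [h4, norm_neg, norm_smul, Real.norm_of_nonneg hs] at h3
  have h5 : s * ‖bar v‖ ≤ T * R :=
    mul_le_mul (hst.trans htT) ((K.norm_bar_le v).trans hv.le) (norm_nonneg _) (hs.trans (hst.trans htT))
  have h6 : (P.c + P.Y + etaj P.p P.j0) * s ≤ (P.c + P.Y + etaj P.p P.j0) * T := by
    have h7 := h.c0
    have h8 := h.Y0
    have h9 : 0 ≤ etaj P.p P.j0 := (Fuel.etaj_pos _ _).le
    have h10 := hst.trans htT
    gcongr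
  linarith

/-- `(1+|v|) M(v) ≤ 2 Z_{g'}` -/
theorem ev_mul_maxw_le (P : Par) {g' : ℝ} (hg' : g' ≤ 1 / 20) {t : ℝ} (x : P2)
    (v : R3) {rh R : ℝ} (y : P2) :
    ev v * ENNReal.ofReal (Fuel.bg rh R y v) ≤ 2 * Zg P g' t x v := by
  have h1 : Fuel.bg rh R y v ≤ Real.exp (-‖v‖ ^ 2 / 2) := (Fuel.bg_le _ _ _ _).trans
    (Fuel.maxwellian_le v)
  have hv := norm_nonneg v
  have h2 : (1 + ‖v‖) * Real.exp (-‖v‖ ^ 2 / 2) ≤ 2 * gau g' t v := by
    have h3 : 1 + ‖v‖ ≤ 2 * Real.exp (9 / 20 * ‖v‖ ^ 2) := by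
      have h4 := Real.add_one_le_exp (9 / 20 * ‖v‖ ^ 2)
      nlinarith [sq_nonneg (‖v‖ - 5 / 9)]
    have h5 : Real.exp (-‖v‖ ^ 2 / 20) ≤ gau g' t v := by
      unfold gau
      apply Real.exp_le_exp.2
      have : 0 ≤ √t := Real.sqrt_nonneg t
      nlinarith [sq_nonneg ‖v‖, mul_nonneg this (sq_nonneg ‖v‖)]
    calc (1 + ‖v‖) * Real.exp (-‖v‖ ^ 2 / 2)
        ≤ (2 * Real.exp (9 / 20 * ‖v‖ ^ 2)) * Real.exp (-‖v‖ ^ 2 / 2) := by gcongr
      _ = 2 * Real.exp (-‖v‖ ^ 2 / 20) := by
          rw [mul_assoc, ← Real.exp_add]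
          congr 2
          ring
      _ ≤ _ := by gcongr
  have h0 : 0 ≤ gau g' t v := (Real.exp_pos _).le
  unfold ev Zg
  rw [K4.one_add_ofReal]
  calc ENNReal.ofReal (1 + ‖v‖) * ENNReal.ofReal (Fuel.bg rh R y v)
      = ENNReal.ofReal ((1 + ‖v‖) * Fuel.bg rh R y v) :=
        (ENNReal.ofReal_mul (by positivity)).symm
    _ ≤ ENNReal.ofReal (2 * gau g' t v) := by
        apply ENNReal.ofReal_le_ofReal
        refine le_trans ?_ h2
        gcongr
    _ = 2 * ENNReal.ofReal (gau g' t v) := by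
        rw [ENNReal.ofReal_mul (by norm_num)]
        norm_num
    _ ≤ 2 * (ENNReal.ofReal (gau g' t v) * Dm P t x v) := by
        gcongr
        exact le_mul_of_one_le_right zero_le (K.one_le_Dm P t x v)

/-- the constant in the closeness estimate -/
def cClose (P : Par) (T Lam g g' b r ε1 : ℝ) : ℝ :=
  T * (1 + Lam ^ b) +
    r * (2 * P.K * cqA P.Y g * ε1 ^ b * (Real.exp (2 * (g - g')) * (b / (g - g')) ^ b)) +
    r * (K4.CC P.Y g g (P.Y + 5) * (16 * T ^ (3 / 4 : ℝ))) +
    r ^ 2 * (cKA P g * (16 * T ^ (3 / 4 : ℝ))) +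
    2 * (T * (2 * π * (P.Y + 5) + r * cKA P g))

theorem gau_mono' {g g' : ℝ} (h : g' ≤ g) (t : ℝ) (v : R3) : gau g t v ≤ gau g' t v := by
  unfold gau
  refine Real.exp_le_exp.2 ?_
  nlinarith [sq_nonneg ‖v‖]

theorem cKA_nonneg {P : Par} (h : P.Ok) (g : ℝ) : 0 ≤ cKA P g := by
  have hCN := (KC.CN_pos h).le
  have hCm := (KC.Cm_pos h).le
  have e2 := K4.CC_nonneg P.Y g g (P.Y + 5)
  have e3 := K4.CQ_nonneg P.Y g
  have e5 := K4.CL_nonneg P.Y g
  have hY := h.Y0
  have hπ := Real.pi_pos
  unfold cKA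
  positivity

/-- **closeness of the unburnt solution to the transported background** -/
theorem close_thm {P : Par} (h : P.Ok) (hY : 1 ≤ P.Y) {T Lam rh g g' b q R : ℝ} (hT0 : 0 < T)
    (hT1 : T ≤ 1) (hTd : T ≤ P.dl ^ (3 / 8 : ℝ))
    (hT : (1 + P.Y) * P.dl + (P.c + P.Y + etaj P.p P.j0) * T < 7 / 20)
    (hCo : ColdOut P) (hSp : SpillOut P) (hW : WSz P T)
    (hL : 100 * P.Y ^ 2 ≤ Lam) (hb : 1 ≤ b) (hg : 1 / 50 ≤ g) (hg1 : g ≤ 1)
    (hLb : 8 * b * (b + 1) ≤ g * Lam) (hrh : 0 < rh) (hrh1 : rh ≤ 1) (hq : 2 * b ≤ q)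
    (hn : 2 * b ≤ ((P.p / 32 : ℕ) : ℝ)) (hgg : g' < g) (hg' : g' ≤ 1 / 20)
    (hTR : T * R ≤ rh / 2)
    (hz : (1 + P.Y) * P.dl + (P.c + P.Y + etaj P.p P.j0) * T < rh / 2)
    {ε1 : ℝ} (hε1 : T + 4 * P.dl ^ 2 ≤ ε1 * rh ^ 2)
    {H : Fld} (hH : HotSol P (coldR P) (coldSpill P)
      (fun x v => ENNReal.ofReal (Fuel.bg rh R x v)) T H)
    {r : ℝ} (hr : 0 ≤ r)
    (hle : ∀ t ∈ Ioc 0 T, ∀ x v, H t x v ≤ ENNReal.ofReal r * Wb P Lam rh g b t x v) :
    ∀ t ∈ Ioc 0 T, ∀ x v,
      dd (H t x v) (ENNReal.ofReal (Fuel.bg rh R (x - t • bar v) v)) ≤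
        ENNReal.ofReal (cClose P T Lam g g' b r ε1) * Zg P g' t x v := by
  intro t ht x v
  have hWm : ∀ t x, Measurable (warm P t x) := fun t x => hCo.measW.slice t x
  have hA := aInp h hY hT0 hT1 hT hW hWm hL hb hg hg1 hLb hrh hrh1 hq
  have hP := ParD_of_Ok h
  have hK := h.K0
  have hL0 : 0 < Lam := by nlinarith
  have hL1 : 1 ≤ Lam := by nlinarith
  have hcK := cKA_nonneg h g
  have hCC := K4.CC_nonneg P.Y g g (P.Y + 5)
  have hcq := cqA_nonneg P.Y g
  have hd := Fuel.Ok.dlp h
  have hπ := Real.pi_pos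
  have hgg0 : 0 < g - g' := by linarith
  have hε0 : 0 ≤ ε1 := by
    have : 0 ≤ ε1 * rh ^ 2 := le_trans (by positivity) hε1
    exact nonneg_of_mul_nonneg_left this (by positivity)
  have ht0 := ht.1
  have ht1 : t ≤ 1 := ht.2.trans hT1
  set W := Wb P Lam rh g b with hWdef
  set θ2 : ℝ≥0∞ := ENNReal.ofReal (16 * T ^ (3 / 4 : ℝ)) with hθ2
  set CKe : ℝ≥0∞ := ENNReal.ofReal (cKA P g) with hCKe
  have hZ : W t x v ≤ Zg P g' t x v := by
    refine (hA.WZ t ht x v).trans ?_
    unfold Zg
    gcongr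
    exact gau_mono' hgg.le t v
  have mH := hH.meas
  have pH := hH.per
  have mL := meas3_LcF mH
  have pL := perF_LcF pH
  have mphi : Meas3 (phiE P) := (Fuel.measurable_phi h).ennreal_ofReal
  -- positivity of the constant
  have hcpos : 0 < cClose P T Lam g g' b r ε1 := by
    unfold cClose
    have : 0 < T * (1 + Lam ^ b) := by positivity
    have h2 : 0 ≤ P.Y := h.Y0.le
    positivity
  rcases (K.Dw_nonneg P t ht0.le x v).eq_or_lt with hD | hD
  · have hDm : Dm P t x v = ⊤ := by
      unfold Dm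
      rw [← hD, ENNReal.ofReal_zero]
      exact ENNReal.zero_rpow_of_neg (by norm_num)
    unfold Zg
    rw [hDm, ENNReal.mul_top, ENNReal.mul_top]
    · exact le_top
    · exact (ENNReal.ofReal_pos.2 hcpos).ne'
    · exact (ENNReal.ofReal_pos.2 (Real.exp_pos _)).ne'
  set lam := LcF H with hlam
  have mc : Meas3 (coldR P lam) := hCo.meas _ mL pL
  have ms : Meas3 (coldSpill P lam) := hCo.measS _ mL pL
  set a := acc (lossH (coldR P lam) H) 0 t x v with ha
  set H0' := ENNReal.ofReal (Fuel.bg rh R (x - t • bar v) v) with hH0'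
  have heq : H t x v = en a * H0' + Dam (lossH (coldR P lam) H)
      (gainH (coldR P lam) (coldSpill P lam) H) t x v := hH.eqn t ht x v hD
  -- the gain
  have hcold : ∀ s ∈ Ioc 0 T, ∀ y z, coldR P lam s y z ≤ phiE P s y z + warm P s y z := by
    intro s hs y z
    refine (hCo.le lam mL pL s y z hs.1.le).trans ?_
    gcongr
    refine mul_le_of_le_one_left' ?_
    rw [← ENNReal.ofReal_one]
    exact ENNReal.ofReal_le_ofReal (min_le_right _ _)
  have hDW : Duh W t x v ≤ θ2 * W t x v := by
    refine le_trans ?_ (hA.ab t ht x v)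
    exact Duh_mono_on fun s _ => le_ev_mul _ _
  have g1 : Duh (coldSpill P lam) t x v ≤
      ENNReal.ofReal (T * (1 + Lam ^ b)) * Zg P g' t x v := by
    refine le_trans (Duh_mono_on (q' := fun _ y z =>
      ENNReal.ofReal (distG y ^ (P.p / 32) * Real.exp (-‖z‖ ^ 2))) fun s hs =>
      hSp lam mL pL s _ v hs.1.le ((hs.2.le.trans ht.2).trans hTd)) ?_
    refine (Duh_dist_pow_le P hL1 hrh hrh1 (by linarith) hn hg1 ht0.le x v).trans ?_
    rw [← Wb_eq P Lam rh g b ht0.le x]
    gcongr
    exact ht.2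
  have g2 : Duh (fun s y z => Qp (coldR P lam s y) (H s y) z + Qp (H s y) (coldR P lam s y) z)
      t x v ≤ (ENNReal.ofReal (r * (2 * P.K * cqA P.Y g * ε1 ^ b *
        (Real.exp (2 * (g - g')) * (b / (g - g')) ^ b))) +
        ENNReal.ofReal (r * (K4.CC P.Y g g (P.Y + 5) * (16 * T ^ (3 / 4 : ℝ))))) *
        Zg P g' t x v := by
    have hpt : ∀ s ∈ Ioo 0 t, Qp (coldR P lam s (x - (t - s) • bar v))
        (H s (x - (t - s) • bar v)) v + Qp (H s (x - (t - s) • bar v))
        (coldR P lam s (x - (t - s) • bar v)) v ≤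
        ENNReal.ofReal r * Gf P W s (x - (t - s) • bar v) v +
        ENNReal.ofReal (r * K4.CC P.Y g g (P.Y + 5)) * W s (x - (t - s) • bar v) v := by
      intro s hs
      have hs' : s ∈ Ioc 0 T := ⟨hs.1, hs.2.le.trans ht.2⟩
      set y := x - (t - s) • bar v with hy
      have hphm := measurable_phiE h s y
      have hwm := hWm s y
      have hWs : Measurable (W s y) := (meas3_Wb h.Y0 Lam rh g b).slice s y
      have e1 : Qp (coldR P lam s y) (H s y) v ≤ ENNReal.ofReal r *
          (Qp (phiE P s y) (W s y) v + Qp (warm P s y) (W s y) v) := by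
        calc Qp (coldR P lam s y) (H s y) v
            ≤ Qp (fun z => phiE P s y z + warm P s y z) (fun z => ENNReal.ofReal r * W s y z) v :=
              Qp_mono (fun z => hcold s hs' y z) (fun z => hle s hs' y z) v
          _ = _ := by
              rw [Qp_const_mul_right ENNReal.ofReal_ne_top, Qp_add_left hphm hWs]
      have e2 : Qp (H s y) (coldR P lam s y) v ≤ ENNReal.ofReal r *
          (Qp (W s y) (phiE P s y) v + Qp (W s y) (warm P s y) v) := by
        calc Qp (H s y) (coldR P lam s y) v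
            ≤ Qp (fun z => ENNReal.ofReal r * W s y z) (fun z => phiE P s y z + warm P s y z) v :=
              Qp_mono (fun z => hle s hs' y z) (fun z => hcold s hs' y z) v
          _ = _ := by
              have hpw : Measurable (fun z => phiE P s y z + warm P s y z) := hphm.add hwm
              rw [Qp_const_mul_left ENNReal.ofReal_ne_top, Qp_comm hWs hpw,
                Qp_add_left hphm hWs, Qp_comm hphm hWs, Qp_comm hwm hWs]
      have e3 : Qp (warm P s y) (W s y) v + Qp (W s y) (warm P s y) v ≤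
          ENNReal.ofReal (K4.CC P.Y g g (P.Y + 5)) * W s y v := by
        rw [hWdef, Wb_slice P Lam rh g b hs.1.le y]
        have h1 := K4.Qp_cold_B1 hP hs.1.le (hs'.2.trans hT1) (Lam := Lam) (rh := rh) (b := b)
          (R := P.Y + 5) hg hrh hb hLb hwm
          (fun z hz => warm_supp hW hs.1.le hs'.2 (by linarith)) y v (N := 1)
          (by rw [one_mul]; exact newt_warm hW hs.1.le hs'.2 y v)
        rwa [mul_one] at h1
      calc _ ≤ ENNReal.ofReal r *
            (Qp (phiE P s y) (W s y) v + Qp (warm P s y) (W s y) v) + ENNReal.ofReal r *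
          (Qp (W s y) (phiE P s y) v + Qp (W s y) (warm P s y) v) := add_le_add e1 e2
        _ = ENNReal.ofReal r * Gf P W s y v + ENNReal.ofReal r *
            (Qp (warm P s y) (W s y) v + Qp (W s y) (warm P s y) v) := by
            unfold Gf; ring
        _ ≤ ENNReal.ofReal r * Gf P W s y v + ENNReal.ofReal r *
            (ENNReal.ofReal (K4.CC P.Y g g (P.Y + 5)) * W s y v) := by gcongr
        _ = _ := by rw [ENNReal.ofReal_mul hr]; ring
    have mG : Meas3 (Gf P W) := meas3_Gf mphi (meas3_Wb h.Y0 Lam rh g b)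
    have hG : Duh (Gf P W) t x v ≤ ENNReal.ofReal (2 * P.K * cqA P.Y g * ε1 ^ b *
        (Real.exp (2 * (g - g')) * (b / (g - g')) ^ b)) * Zg P g' t x v := by
      refine Duh_fuel_small h hY hT1 hL hb hrh hcq hgg hT hε1 (fun s hs hsT y z => ?_) ht.1 ht.2 x v
      unfold Gf
      rw [hWdef, Wb_slice P Lam rh g b hs.le y]
      exact Gf_B1_le h hrh hb hg hLb hs.le (hsT.le.trans hT1) y z
    refine (Duh_mono_on (q' := fun s y z => ENNReal.ofReal r * Gf P W s y z +
      ENNReal.ofReal (r * K4.CC P.Y g g (P.Y + 5)) * W s y z) hpt).trans ?_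
    rw [Duh_add (mG.const_mul _), Duh_const_mul ENNReal.ofReal_ne_top,
      Duh_const_mul ENNReal.ofReal_ne_top, add_mul]
    refine add_le_add ?_ ?_
    · rw [ENNReal.ofReal_mul hr, mul_assoc]
      exact mul_le_mul_right hG _
    · calc ENNReal.ofReal (r * K4.CC P.Y g g (P.Y + 5)) * Duh W t x v
          ≤ ENNReal.ofReal (r * K4.CC P.Y g g (P.Y + 5)) * (θ2 * Zg P g' t x v) := by
            gcongr
            exact hDW.trans (mul_le_mul_right hZ _)
        _ = _ := by
            rw [hθ2, ← mul_assoc, ← ENNReal.ofReal_mul (by positivity)]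
            congr 2
            ring
  have g3 : Duh (fun s y z => Qp (H s y) (H s y) z) t x v ≤
      ENNReal.ofReal (r ^ 2 * (cKA P g * (16 * T ^ (3 / 4 : ℝ)))) * Zg P g' t x v := by
    have hpt : ∀ s ∈ Ioo 0 t, Qp (H s (x - (t - s) • bar v)) (H s (x - (t - s) • bar v)) v ≤
        ENNReal.ofReal (r ^ 2 * cKA P g) *
          (ev v * W s (x - (t - s) • bar v) v) := by
      intro s hs
      have hs' : s ∈ Ioc 0 T := ⟨hs.1, hs.2.le.trans ht.2⟩
      set y := x - (t - s) • bar v with hy
      calc Qp (H s y) (H s y) v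
          ≤ Qp (fun z => ENNReal.ofReal r * W s y z) (fun z => ENNReal.ofReal r * W s y z) v :=
            Qp_mono (fun z => hle s hs' y z) (fun z => hle s hs' y z) v
        _ = ENNReal.ofReal r * (ENNReal.ofReal r * Qp (W s y) (W s y) v) := by
            rw [Qp_const_mul_left ENNReal.ofReal_ne_top, Qp_const_mul_right ENNReal.ofReal_ne_top]
        _ ≤ ENNReal.ofReal r * (ENNReal.ofReal r * (CKe * ev v * W s y v)) := by
            gcongr
            exact hA.qWW s hs' y v
        _ = _ := by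
            rw [hCKe, pow_two, ENNReal.ofReal_mul (by positivity), ENNReal.ofReal_mul hr]
            ring
    refine (Duh_mono_on (q' := fun s y z => ENNReal.ofReal (r ^ 2 * cKA P g) *
      (ev z * W s y z)) hpt).trans ?_
    rw [Duh_const_mul ENNReal.ofReal_ne_top]
    calc ENNReal.ofReal (r ^ 2 * cKA P g) * Duh (fun s y z => ev z * W s y z) t x v
        ≤ ENNReal.ofReal (r ^ 2 * cKA P g) * (θ2 * Zg P g' t x v) := by
          gcongr
          exact (hA.ab t ht x v).trans (mul_le_mul_right hZ _)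
      _ = _ := by
          rw [hθ2, ← mul_assoc, ← ENNReal.ofReal_mul (by positivity)]
          congr 2
          ring
  have hgain : Duh (gainH (coldR P lam) (coldSpill P lam) H) t x v =
      Duh (coldSpill P lam) t x v +
      Duh (fun s y z => Qp (coldR P lam s y) (H s y) z + Qp (H s y) (coldR P lam s y) z) t x v +
      Duh (fun s y z => Qp (H s y) (H s y) z) t x v := by
    have m1 : Meas3 (fun s y z => Qp (coldR P lam s y) (H s y) z +
        Qp (H s y) (coldR P lam s y) z) := (meas3_Qp mc mH).add (meas3_Qp mH mc)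
    rw [← Duh_add ms, ← Duh_add (ms.add m1)]
    unfold Duh
    refine lintegral_congr fun s => ?_
    unfold gainH
    ring
  -- the loss
  have hloss : a * H0' ≤ ENNReal.ofReal (2 * (T * (2 * π * (P.Y + 5) + r * cKA P g))) *
      Zg P g' t x v := by
    by_cases hb0 : ‖v‖ < R ∧ rh < distG (x - t • bar v)
    swap
    · have : H0' = 0 := by
        rw [hH0']
        unfold Fuel.bg
        rw [if_neg hb0, ENNReal.ofReal_zero]
      rw [this, mul_zero]
      exact zero_le
    have hpt : ∀ s ∈ Ioo 0 t, lossH (coldR P lam) H s (x - (t - s) • bar v) v ≤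
        ENNReal.ofReal (2 * π * (P.Y + 5) + r * cKA P g) * ev v := by
      intro s hs
      have hs' : s ∈ Ioc 0 T := ⟨hs.1, hs.2.le.trans ht.2⟩
      have hve := vis_empty h hTR hz hs.1.le hs.2.le ht.2 hb0.1 hb0.2
      set y := x - (t - s) • bar v with hy
      have hphm := measurable_phiE h s y
      have hwm := hWm s y
      have hrho : C.rho P s y = 0 := by
        unfold C.rho
        rw [hve]; simp
      have hphi0 : Lc (phiE P s y) v = 0 := by
        have h1 := Lc_cold' (R := P.Y + 5) (by linarith) (c := phiE P s y)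
          (fun z hz => phiE_supp h hz) v
        have h2 : ∫⁻ u, phiE P s y u = 0 := by
          have h3 := C.density_phi h hs.1.le y
          rw [hrho, mul_zero] at h3
          exact le_antisymm h3 zero_le
        rw [h2, mul_zero] at h1
        exact le_antisymm h1 zero_le
      have hwarm : Lc (warm P s y) v ≤ ENNReal.ofReal (2 * π * (P.Y + 5)) * ev v := by
        have h1 := Lc_cold' (R := P.Y + 5) (by linarith) (c := warm P s y)
          (fun z hz => warm_supp hW hs.1.le hs'.2 (by linarith)) v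
        refine h1.trans ?_
        calc ENNReal.ofReal (2 * π * (P.Y + 5)) * ev v * ∫⁻ u, warm P s y u
            ≤ ENNReal.ofReal (2 * π * (P.Y + 5)) * ev v * 1 := by
              gcongr
              exact hW.mass s hs.1.le hs'.2 y
          _ = _ := mul_one _
      have hhot : Lc (H s y) v ≤ ENNReal.ofReal (r * cKA P g) * ev v := by
        refine (LcF_le hA ENNReal.ofReal_ne_top hle hs' y v).trans (le_of_eq ?_)
        rw [ENNReal.ofReal_mul hr]
      unfold lossH
      calc Lc (fun z => coldR P lam s y z + H s y z) v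
          ≤ Lc (fun z => (phiE P s y z + warm P s y z) + H s y z) v :=
            Lc_mono (fun z => add_le_add (hcold s hs' y z) le_rfl) v
        _ = Lc (phiE P s y) v + Lc (warm P s y) v + Lc (H s y) v := by
            have hpw : Measurable (fun z => phiE P s y z + warm P s y z) := hphm.add hwm
            rw [Lc_add hpw v, Lc_add hphm v]
        _ ≤ 0 + ENNReal.ofReal (2 * π * (P.Y + 5)) * ev v +
            ENNReal.ofReal (r * cKA P g) * ev v := by
            gcongr
            exact hphi0.le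
        _ = _ := by
            have hYp := h.Y0
            rw [ENNReal.ofReal_add (by positivity) (by positivity)]
            ring
    have ha' : a ≤ ENNReal.ofReal (T * (2 * π * (P.Y + 5) + r * cKA P g)) * ev v := by
      have hYp := h.Y0
      rw [ha]
      unfold acc
      calc _ ≤ ∫⁻ _ in Ioo 0 t, ENNReal.ofReal (2 * π * (P.Y + 5) + r * cKA P g) * ev v :=
            setLIntegral_mono_ae' measurableSet_Ioo (Eventually.of_forall hpt)
        _ = ENNReal.ofReal t * (ENNReal.ofReal (2 * π * (P.Y + 5) + r * cKA P g) * ev v) := by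
            rw [setLIntegral_const, Real.volume_Ioo, sub_zero]; ring
        _ ≤ ENNReal.ofReal T * (ENNReal.ofReal (2 * π * (P.Y + 5) + r * cKA P g) * ev v) := by
            gcongr
            exact ht.2
        _ = _ := by rw [ENNReal.ofReal_mul hT0.le]; ring
    have hYp := h.Y0
    calc a * H0' ≤ ENNReal.ofReal (T * (2 * π * (P.Y + 5) + r * cKA P g)) * ev v * H0' := by
          gcongr
      _ = ENNReal.ofReal (T * (2 * π * (P.Y + 5) + r * cKA P g)) * (ev v * H0') := by ring
      _ ≤ ENNReal.ofReal (T * (2 * π * (P.Y + 5) + r * cKA P g)) * (2 * Zg P g' t x v) :=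
          mul_le_mul_right (ev_mul_maxw_le P hg' x v _) _
      _ = _ := by
          rw [ENNReal.ofReal_mul (p := 2) (by norm_num)]
          norm_num
          ring
  -- conclusion
  have htot : dd (H t x v) H0' ≤
      Duh (gainH (coldR P lam) (coldSpill P lam) H) t x v + a * H0' := by
    apply dd_le
    · rw [heq]
      calc en a * H0' + Dam (lossH (coldR P lam) H)
            (gainH (coldR P lam) (coldSpill P lam) H) t x v
          ≤ 1 * H0' + Duh (gainH (coldR P lam) (coldSpill P lam) H) t x v :=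
            add_le_add (mul_le_mul' (en_le_one _) le_rfl) (Dam_le_Duh _ _ t x v)
        _ ≤ H0' + (Duh (gainH (coldR P lam) (coldSpill P lam) H) t x v + a * H0') := by
            rw [one_mul]
            gcongr
            exact le_self_add
    · calc H0' = 1 * H0' := (one_mul _).symm
        _ ≤ (en a + a) * H0' := mul_le_mul' (one_le_en_add a) le_rfl
        _ = en a * H0' + a * H0' := add_mul _ _ _
        _ ≤ H t x v + (Duh (gainH (coldR P lam) (coldSpill P lam) H) t x v + a * H0') := by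
            rw [heq]
            exact add_le_add le_self_add le_add_self
  refine htot.trans ?_
  rw [hgain]
  have hYp := h.Y0
  have c1 : 0 ≤ T * (1 + Lam ^ b) := by positivity
  have c2 : 0 ≤ r * (2 * P.K * cqA P.Y g * ε1 ^ b *
    (Real.exp (2 * (g - g')) * (b / (g - g')) ^ b)) := by positivity
  have c3 : 0 ≤ r * (K4.CC P.Y g g (P.Y + 5) * (16 * T ^ (3 / 4 : ℝ))) := by positivity
  have c4 : 0 ≤ r ^ 2 * (cKA P g * (16 * T ^ (3 / 4 : ℝ))) := by positivity
  have c5 : 0 ≤ 2 * (T * (2 * π * (P.Y + 5) + r * cKA P g)) := by positivity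
  unfold cClose
  rw [ENNReal.ofReal_add (by positivity) c5, ENNReal.ofReal_add (by positivity) c4,
    ENNReal.ofReal_add (by positivity) c3, ENNReal.ofReal_add c1 c2]
  simp only [add_mul]
  calc _ ≤ ENNReal.ofReal (T * (1 + Lam ^ b)) * Zg P g' t x v + (ENNReal.ofReal (r * (2 * P.K *
        cqA P.Y g * ε1 ^ b * (Real.exp (2 * (g - g')) * (b / (g - g')) ^ b))) +
        ENNReal.ofReal (r * (K4.CC P.Y g g (P.Y + 5) * (16 * T ^ (3 / 4 : ℝ))))) *
        Zg P g' t x v + ENNReal.ofReal (r ^ 2 * (cKA P g * (16 * T ^ (3 / 4 : ℝ)))) *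
        Zg P g' t x v + ENNReal.ofReal (2 * (T * (2 * π * (P.Y + 5) + r * cKA P g))) *
        Zg P g' t x v := add_le_add (add_le_add (add_le_add g1 g2) g3) hloss
    _ = _ := by ring

end Crest.Agent.R68.A
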