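import Crest.Agent.R68.CNewt2
import Crest.Agent.R68.K3

/-!
# Row 68, PART A (helper418): sources born in collisions with the fuel, envelope `B1`
-/

set_option autoImplicit false
open MeasureTheory Set
open scoped ENNReal
open Crest.AnalysisR.VecCalc3 Crest.AnalysisR.PDE.Boltzmann

noncomputable section

namespace Crest.Agent.R68.A

open Crest.Agent.R68.Fuel

variable {P : Par}

/-- at most one image is visible on `[0,T]` -/
theorem vis_sub (h : P.Ok) {T : ℝ}
    (hT : (1 + P.Y) * P.dl + (P.c + P.Y + etaj P.p P.j0) * T < 7 / 20) {t : ℝ} (ht : 0 ≤ t)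
    (htT : t ≤ T) (x : P2) : (vis P t x).Subsingleton := by
  apply vis_subsingleton h ht
  refine lt_of_le_of_lt ?_ hT
  have h1 := h.c0
  have h2 := h.Y0
  have h3 : 0 ≤ etaj P.p P.j0 := (etaj_pos _ _).le
  gcongr

/-- the density rate in the zone -/
theorem rho_cases (h : P.Ok) (hY : 1 ≤ P.Y) {T : ℝ}
    (hT : (1 + P.Y) * P.dl + (P.c + P.Y + etaj P.p P.j0) * T < 7 / 20) {t : ℝ} (ht : 0 < t)
    (htT : t ≤ T) (x : P2) :
    C.rho P t x = 0 ∨ ∃ k : ℤ × ℤ, |lab P t (x + latt k)| ≤ 2 * P.dl ∧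
      |(x + latt k).2| ≤ 2 * P.Y * (t + rr (lab P t (x + latt k))) ∧
      C.rho P t x ≤ ENNReal.ofReal (P.K / (t + rr (lab P t (x + latt k)))) := by
  have hs := vis_sub h hT ht.le htT x
  rcases hs.eq_empty_or_singleton with he | ⟨k, hk⟩
  · left
    unfold C.rho
    rw [he]; simp
  · right
    have hkm : k ∈ vis P t x := by rw [hk]; exact mem_singleton k
    have hz := C.vis_zone h hY ht.le hkm
    refine ⟨k, hz.1, hz.2, ?_⟩
    apply C.rho_le_of_zone hs
    intro l hl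
    rw [hk, mem_singleton_iff] at hl
    subst hl
    unfold dens
    have hr := rr_nonneg (lab P t (x + latt l))
    have hK := h.K0
    have hc := h.c0
    have hd := Ok.dlp h
    apply div_le_div_of_nonneg_left hK (by positivity)
    have h1 : 0 ≤ P.c * t / P.dl := by positivity
    nlinarith

theorem rho_ne_top (h : P.Ok) (hY : 1 ≤ P.Y) {T : ℝ}
    (hT : (1 + P.Y) * P.dl + (P.c + P.Y + etaj P.p P.j0) * T < 7 / 20) {t : ℝ} (ht : 0 < t)
    (htT : t ≤ T) (x : P2) : C.rho P t x ≠ ⊤ := by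
  rcases rho_cases h hY hT ht htT x with h1 | ⟨k, -, -, h3⟩
  · rw [h1]; simp
  · exact ne_top_of_le_ne_top ENNReal.ofReal_ne_top h3

theorem rho_le_inv (h : P.Ok) (hY : 1 ≤ P.Y) {T : ℝ}
    (hT : (1 + P.Y) * P.dl + (P.c + P.Y + etaj P.p P.j0) * T < 7 / 20) {t : ℝ} (ht : 0 < t)
    (htT : t ≤ T) (x : P2) : C.rho P t x ≤ ENNReal.ofReal (P.K / t) := by
  rcases rho_cases h hY hT ht htT x with h1 | ⟨k, -, -, h3⟩
  · rw [h1]; exact zero_le
  · refine h3.trans (ENNReal.ofReal_le_ofReal ?_)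
    have hr := rr_nonneg (lab P t (x + latt k))
    have hK := h.K0
    apply div_le_div_of_nonneg_left hK ht
    linarith

/-- the fuel rate against `Θ` -/
theorem rho_mul_Th (h : P.Ok) (hY : 1 ≤ P.Y) {T Lam : ℝ} (hT1 : T ≤ 1) (hL : 100 * P.Y ^ 2 ≤ Lam)
    (hT : (1 + P.Y) * P.dl + (P.c + P.Y + etaj P.p P.j0) * T < 7 / 20) {t : ℝ} (ht : 0 < t)
    (htT : t ≤ T) (x : P2) (v : R3) :
    (C.rho P t x).toReal * Th Lam t x v ≤ 2 * P.K * (1 + t * ‖v‖ ^ 2) := by
  have hK := h.K0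
  have hL0 : 0 ≤ Lam := by nlinarith
  have hTh := K.Th_nonneg hL0 ht.le x v
  rcases rho_cases h hY hT ht htT x with h1 | ⟨k, h1, h2, h3⟩
  · rw [h1, ENNReal.toReal_zero, zero_mul]; positivity
  · set r := rr (lab P t (x + latt k)) with hr
    have hr0 : 0 ≤ r := rr_nonneg _
    have hle : (C.rho P t x).toReal ≤ P.K / (t + r) :=
      ENNReal.toReal_le_of_le_ofReal (by positivity) h3
    have hj : 2 ≤ P.j0 := le_trans (by norm_num) h.j0
    have hTh2 := K.Th_fuel P hY h.c0.le h.c1 hj hL ht.le (htT.trans hT1) x k v h1 h2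
    calc (C.rho P t x).toReal * Th Lam t x v
        ≤ P.K / (t + r) * ((t + r) * (2 + t * ‖v‖ ^ 2)) :=
          mul_le_mul hle hTh2 hTh (by positivity)
      _ = P.K * (2 + t * ‖v‖ ^ 2) := by field_simp
      _ ≤ 2 * P.K * (1 + t * ‖v‖ ^ 2) := by
          have : 0 ≤ P.K * (t * ‖v‖ ^ 2) := by positivity
          linarith

/-- in the fuel zone `Θ` is small -/
theorem Th_small_of_rho (h : P.Ok) (hY : 1 ≤ P.Y) {T Lam : ℝ} (hT1 : T ≤ 1)
    (hL : 100 * P.Y ^ 2 ≤ Lam)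
    (hT : (1 + P.Y) * P.dl + (P.c + P.Y + etaj P.p P.j0) * T < 7 / 20) {t : ℝ} (ht : 0 < t)
    (htT : t ≤ T) (x : P2) (v : R3) (hne : C.rho P t x ≠ 0) :
    Th Lam t x v ≤ (T + 4 * P.dl ^ 2) * (2 + ‖v‖ ^ 2) := by
  rcases rho_cases h hY hT ht htT x with h1 | ⟨k, h1, h2, h3⟩
  · exact absurd h1 hne
  · have hj : 2 ≤ P.j0 := le_trans (by norm_num) h.j0
    have hTh2 := K.Th_fuel P hY h.c0.le h.c1 hj hL ht.le (htT.trans hT1) x k v h1 h2
    have hd := Ok.dlp h
    have hr : rr (lab P t (x + latt k)) ≤ 4 * P.dl ^ 2 := by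
      unfold rr
      rw [← sq_abs]
      calc |lab P t (x + latt k)| ^ 2 ≤ (2 * P.dl) ^ 2 := pow_le_pow_left₀ (abs_nonneg _) h1 2
        _ = _ := by ring
    have hr0 : 0 ≤ rr (lab P t (x + latt k)) := rr_nonneg _
    have hT0 : 0 < T := lt_of_lt_of_le ht htT
    refine hTh2.trans (mul_le_mul (by linarith) ?_ (by positivity) (by positivity))
    have : t * ‖v‖ ^ 2 ≤ 1 * ‖v‖ ^ 2 := by
      gcongr
      exact htT.trans hT1
    linarith

/-- **(c)** Duhamel integral of a source born in collisions with the fuel -/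
theorem Duh_fuel_B1 (h : P.Ok) (hY : 1 ≤ P.Y) {T Lam rh g b Cq : ℝ} (hT1 : T ≤ 1)
    (hL : 100 * P.Y ^ 2 ≤ Lam) (hb : 1 ≤ b) (hrh : 0 < rh) (hC : 0 ≤ Cq)
    (hT : (1 + P.Y) * P.dl + (P.c + P.Y + etaj P.p P.j0) * T < 7 / 20)
    {q : ℝ → P2 → R3 → ℝ≥0∞}
    (hq : ∀ s, 0 < s → s < T → ∀ y z,
      q s y z ≤ ENNReal.ofReal Cq * C.rho P s y * B1 P Lam rh g b s y z)
    {t : ℝ} (ht : 0 < t) (htT : t ≤ T) (x : P2) (v : R3) :
    Duh q t x v ≤
      ENNReal.ofReal (2 * P.K * Cq * (1 / b + T / rh ^ 2 + 400 * √T)) * B1 P Lam rh g b t x v := by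
  have hK := h.K0
  have hL0 : 0 < Lam := by nlinarith
  have h1 := K.Duh_rate_B1 P (g := g) hL0 hb hrh (C1 := 2 * P.K * Cq) (by positivity)
    (fun s y => Cq * (C.rho P s y).toReal) (T := T) (fun s y z hs hsT => by
      have h2 := rho_mul_Th h hY hT1 hL hT hs hsT y z
      calc Cq * (C.rho P s y).toReal * Th Lam s y z
          = Cq * ((C.rho P s y).toReal * Th Lam s y z) := by ring
        _ ≤ Cq * (2 * P.K * (1 + s * ‖z‖ ^ 2)) := by gcongr
        _ = _ := by ring) ht htT x v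
  refine le_trans ?_ h1
  unfold Duh
  refine setLIntegral_mono' measurableSet_Ioo fun s hs => ?_
  refine (hq s hs.1 (lt_of_lt_of_le hs.2 htT) _ _).trans (le_of_eq ?_)
  show _ = ENNReal.ofReal (Cq * (C.rho P s (x - (t - s) • bar v)).toReal) * _
  rw [ENNReal.ofReal_mul hC, ENNReal.ofReal_toReal
    (rho_ne_top h hY hT hs.1 (hs.2.le.trans htT) _)]

/-- `(2+r)^b e^{-hr} ≤ e^{2h} (b/h)^b` -/
theorem poly_exp_le {r b h : ℝ} (hr : 0 ≤ r) (hb : 0 < b) (hh : 0 < h) :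
    (2 + r) ^ b * Real.exp (-(h * r)) ≤ Real.exp (2 * h) * (b / h) ^ b := by
  have h1 : h * (2 + r) / b ≤ Real.exp (h * (2 + r) / b) := by
    have := Real.add_one_le_exp (h * (2 + r) / b); linarith
  have h2 : (h * (2 + r) / b) ^ b ≤ Real.exp (h * (2 + r)) := by
    calc (h * (2 + r) / b) ^ b ≤ (Real.exp (h * (2 + r) / b)) ^ b :=
          Real.rpow_le_rpow (by positivity) h1 hb.le
      _ = Real.exp (h * (2 + r)) := by rw [← Real.exp_mul, div_mul_cancel₀ _ hb.ne']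
  have h3 : (2 + r) ^ b = (h * (2 + r) / b) ^ b * (b / h) ^ b := by
    rw [← Real.mul_rpow (by positivity) (by positivity)]
    congr 1
    field_simp
  rw [h3]
  calc (h * (2 + r) / b) ^ b * (b / h) ^ b * Real.exp (-(h * r))
      ≤ Real.exp (h * (2 + r)) * (b / h) ^ b * Real.exp (-(h * r)) := by gcongr
    _ = (Real.exp (h * (2 + r)) * Real.exp (-(h * r))) * (b / h) ^ b := by ring
    _ = Real.exp (2 * h) * (b / h) ^ b := by
        rw [← Real.exp_add]
        congr 2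
        ring

/-- Duhamel integral of a source born in collisions with the fuel: smallness in a weaker norm -/
theorem Duh_fuel_small (h : P.Ok) (hY : 1 ≤ P.Y) {T Lam rh g g' b Cq ε : ℝ} (hT1 : T ≤ 1)
    (hL : 100 * P.Y ^ 2 ≤ Lam) (hb : 1 ≤ b) (hrh : 0 < rh) (hC : 0 ≤ Cq) (hg : g' < g)
    (hT : (1 + P.Y) * P.dl + (P.c + P.Y + etaj P.p P.j0) * T < 7 / 20)
    (hε : T + 4 * P.dl ^ 2 ≤ ε * rh ^ 2)
    {q : ℝ → P2 → R3 → ℝ≥0∞}
    (hq : ∀ s, 0 < s → s < T → ∀ y z,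
      q s y z ≤ ENNReal.ofReal Cq * C.rho P s y * B1 P Lam rh g b s y z)
    {t : ℝ} (ht : 0 < t) (htT : t ≤ T) (x : P2) (v : R3) :
    Duh q t x v ≤
      ENNReal.ofReal (2 * P.K * Cq * ε ^ b *
        (Real.exp (2 * (g - g')) * (b / (g - g')) ^ b)) *
        (ENNReal.ofReal (gau g' t v) * Dm P t x v) := by
  have hK := h.K0
  have hL0 : 0 < Lam := by nlinarith
  have hgg : 0 < g - g' := by linarith
  have hd := Ok.dlp h
  have hT0 : 0 < T := lt_of_lt_of_le ht htT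
  have hε0 : 0 ≤ ε := by
    have : 0 ≤ ε * rh ^ 2 := le_trans (by positivity) hε
    exact nonneg_of_mul_nonneg_left this (by positivity)
  set Cb : ℝ := Real.exp (2 * (g - g')) * (b / (g - g')) ^ b with hCb
  have hCb0 : 0 ≤ Cb := by positivity
  have key : ∀ s ∈ Ioo 0 t, q s (x - (t - s) • bar v) v ≤
      ENNReal.ofReal (2 * P.K * Cq * ε ^ (b - 1) * Cb / rh ^ 2) *
        (ENNReal.ofReal (gau g' t v) * Dm P t x v) := by
    intro s hs
    set y := x - (t - s) • bar v with hy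
    have hsT : s < T := lt_of_lt_of_le hs.2 htT
    refine (hq s hs.1 hsT y v).trans ?_
    by_cases h0 : C.rho P s y = 0
    · rw [h0]; simp
    have hTh0 : 0 ≤ Th Lam s y v := K.Th_nonneg hL0.le hs.1.le y v
    have h1 := rho_mul_Th h hY hT1 hL hT hs.1 hsT.le y v
    have h2 := Th_small_of_rho h hY hT1 hL hT hs.1 hsT.le y v h0
    have hne := rho_ne_top h hY hT hs.1 hsT.le y
    have hm0 : 0 ≤ min 1 (Th Lam s y v / rh ^ 2) := le_min zero_le_one (by positivity)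
    set m := min 1 (Th Lam s y v / rh ^ 2) with hm
    have hm1 : m ≤ Th Lam s y v / rh ^ 2 := min_le_right _ _
    have hm2 : m ≤ ε * (2 + ‖v‖ ^ 2) := by
      refine hm1.trans ?_
      rw [div_le_iff₀ (by positivity)]
      calc Th Lam s y v ≤ (T + 4 * P.dl ^ 2) * (2 + ‖v‖ ^ 2) := h2
        _ ≤ (ε * rh ^ 2) * (2 + ‖v‖ ^ 2) := by gcongr
        _ = _ := by ring
    have hmb : m ^ b ≤ Th Lam s y v / rh ^ 2 * (ε * (2 + ‖v‖ ^ 2)) ^ (b - 1) := by
      rcases hm0.eq_or_lt with h3 | h3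
      · rw [← h3, Real.zero_rpow (by linarith)]
        positivity
      · have : m ^ b = m * m ^ (b - 1) := by
          rw [Real.rpow_sub h3, Real.rpow_one]
          field_simp
        rw [this]
        apply mul_le_mul hm1 (Real.rpow_le_rpow hm0 hm2 (by linarith)) (by positivity)
          (by positivity)
    have hsv : s * ‖v‖ ^ 2 ≤ ‖v‖ ^ 2 := by
      have : s * ‖v‖ ^ 2 ≤ 1 * ‖v‖ ^ 2 := by gcongr; linarith
      linarith
    have hreal : (C.rho P s y).toReal * m ^ b ≤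
        2 * P.K * ε ^ (b - 1) / rh ^ 2 * (2 + ‖v‖ ^ 2) ^ b := by
      have h2v : (0 : ℝ) < 2 + ‖v‖ ^ 2 := by positivity
      calc (C.rho P s y).toReal * m ^ b
          ≤ (C.rho P s y).toReal * (Th Lam s y v / rh ^ 2 * (ε * (2 + ‖v‖ ^ 2)) ^ (b - 1)) := by
            gcongr
        _ = ((C.rho P s y).toReal * Th Lam s y v) / rh ^ 2 *
            (ε * (2 + ‖v‖ ^ 2)) ^ (b - 1) := by ring
        _ ≤ (2 * P.K * (1 + s * ‖v‖ ^ 2)) / rh ^ 2 * (ε * (2 + ‖v‖ ^ 2)) ^ (b - 1) := by gcongr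
        _ ≤ (2 * P.K * (2 + ‖v‖ ^ 2)) / rh ^ 2 * (ε * (2 + ‖v‖ ^ 2)) ^ (b - 1) := by
            gcongr
            linarith
        _ = 2 * P.K * ε ^ (b - 1) / rh ^ 2 * ((2 + ‖v‖ ^ 2) * (2 + ‖v‖ ^ 2) ^ (b - 1)) := by
            rw [Real.mul_rpow hε0 h2v.le]; ring
        _ = _ := by
            congr 1
            rw [Real.rpow_sub h2v, Real.rpow_one]
            field_simp
    have hgau : (2 + ‖v‖ ^ 2) ^ b * gau g s v ≤ Cb * gau g' t v := by
      have h4 : gau g s v ≤ Real.exp (-((g - g') * ‖v‖ ^ 2)) * gau g' t v := by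
        unfold gau
        rw [← Real.exp_add]
        apply Real.exp_le_exp.2
        have h5 : √s ≤ √t := Real.sqrt_le_sqrt hs.2.le
        nlinarith [sq_nonneg ‖v‖, mul_le_mul_of_nonneg_right h5 (sq_nonneg ‖v‖)]
      have h6 : 0 ≤ gau g' t v := (Real.exp_pos _).le
      calc (2 + ‖v‖ ^ 2) ^ b * gau g s v
          ≤ (2 + ‖v‖ ^ 2) ^ b * (Real.exp (-((g - g') * ‖v‖ ^ 2)) * gau g' t v) := by gcongr
        _ = ((2 + ‖v‖ ^ 2) ^ b * Real.exp (-((g - g') * ‖v‖ ^ 2))) * gau g' t v := by ring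
        _ ≤ Cb * gau g' t v := by
            gcongr
            exact poly_exp_le (sq_nonneg _) (by linarith) hgg
    have hfin : Cq * ((C.rho P s y).toReal * (m ^ b * gau g s v)) ≤
        2 * P.K * Cq * ε ^ (b - 1) * Cb / rh ^ 2 * gau g' t v := by
      have h6 : 0 ≤ gau g s v := (Real.exp_pos _).le
      calc Cq * ((C.rho P s y).toReal * (m ^ b * gau g s v))
          = Cq * (((C.rho P s y).toReal * m ^ b) * gau g s v) := by ring
        _ ≤ Cq * ((2 * P.K * ε ^ (b - 1) / rh ^ 2 * (2 + ‖v‖ ^ 2) ^ b) * gau g s v) := by gcongr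
        _ = 2 * P.K * Cq * ε ^ (b - 1) / rh ^ 2 * ((2 + ‖v‖ ^ 2) ^ b * gau g s v) := by ring
        _ ≤ 2 * P.K * Cq * ε ^ (b - 1) / rh ^ 2 * (Cb * gau g' t v) := by gcongr
        _ = _ := by ring
    have hmb0 : 0 ≤ m ^ b := Real.rpow_nonneg hm0 _
    have hg0 : 0 ≤ gau g s v := (Real.exp_pos _).le
    calc ENNReal.ofReal Cq * C.rho P s y * B1 P Lam rh g b s y v
        = ENNReal.ofReal (Cq * ((C.rho P s y).toReal * (m ^ b * gau g s v))) *
            Dm P s y v := by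
          rw [ENNReal.ofReal_mul hC, ENNReal.ofReal_mul ENNReal.toReal_nonneg,
            ENNReal.ofReal_toReal hne]
          unfold B1
          rw [← hm]
          ring
      _ ≤ ENNReal.ofReal (2 * P.K * Cq * ε ^ (b - 1) * Cb / rh ^ 2 * gau g' t v) *
            Dm P t x v := by
          gcongr
          exact K.Dm_flight P hs.1.le hs.2.le x v
      _ = _ := by
          rw [ENNReal.ofReal_mul (by positivity), mul_assoc]
  unfold Duh
  calc ∫⁻ s in Ioo 0 t, q s (x - (t - s) • bar v) v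
      ≤ ∫⁻ _ in Ioo 0 t, ENNReal.ofReal (2 * P.K * Cq * ε ^ (b - 1) * Cb / rh ^ 2) *
        (ENNReal.ofReal (gau g' t v) * Dm P t x v) := setLIntegral_mono' measurableSet_Ioo key
    _ = ENNReal.ofReal (2 * P.K * Cq * ε ^ (b - 1) * Cb / rh ^ 2 * t) *
        (ENNReal.ofReal (gau g' t v) * Dm P t x v) := by
        rw [setLIntegral_const, Real.volume_Ioo, sub_zero, ENNReal.ofReal_mul (by positivity)]
        ring
    _ ≤ _ := by
        refine mul_le_mul' (ENNReal.ofReal_le_ofReal ?_) le_rfl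
        have h7 : t ≤ ε * rh ^ 2 := by
          have : 0 ≤ 4 * P.dl ^ 2 := by positivity
          linarith
        have hε1 : 0 < ε := by
          rcases hε0.eq_or_lt with h8 | h8
          · rw [← h8, zero_mul] at h7; linarith
          · exact h8
        calc 2 * P.K * Cq * ε ^ (b - 1) * Cb / rh ^ 2 * t
            ≤ 2 * P.K * Cq * ε ^ (b - 1) * Cb / rh ^ 2 * (ε * rh ^ 2) := by gcongr
          _ = 2 * P.K * Cq * (ε ^ (b - 1) * ε) * Cb := by field_simp
          _ = 2 * P.K * Cq * ε ^ b * Cb := by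
            congr 2
            rw [Real.rpow_sub hε1, Real.rpow_one]
            field_simp

end Crest.Agent.R68.A
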