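import Crest.Agent.R68.K4b

/-!
# Row 68, K4c (helper616): cold × hot gains with the weights of `Defs`, abstract cold partner

`c : R3 → ℝ≥0∞` measurable, `c u = 0` for `R < ‖u‖`; `N` = its Newton potential relative to
`D^{-3/2}`.
-/

set_option autoImplicit false
open MeasureTheory Set Metric
open scoped ENNReal Real
open Crest.AnalysisR.VecCalc3 Crest.AnalysisR.PDE.Boltzmann

noncomputable section

namespace Crest.Agent.R68.K4

open Crest.Agent.R68.K2 Crest.Agent.R68.DPole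

theorem newton_shift (c : R3 → ℝ≥0∞) (v : R3) :
    ∫⁻ z, ENNReal.ofReal ‖z‖⁻¹ * c (v + z) = ∫⁻ u, c u * ENNReal.ofReal ‖v - u‖⁻¹ := by
  have h := lintegral_add_left_eq_self (μ := (volume : Measure R3))
    (fun u : R3 => c u * ENNReal.ofReal ‖v - u‖⁻¹) v
  rw [← h]
  refine lintegral_congr fun z => ?_
  rw [sub_add_cancel_left, norm_neg, mul_comm]

/-- constant of the cold gain (extended form) -/
def CCe (Y g G R : ℝ) : ℝ≥0∞ :=
  4 * Cpl (g / 4) (Np Y * 2) * Cd Y * ENNReal.ofReal (Real.exp (1 + G * R ^ 2))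

theorem CCe_lt_top (Y g G R : ℝ) : CCe Y g G R < ⊤ :=
  ENNReal.mul_lt_top (ENNReal.mul_lt_top (ENNReal.mul_lt_top (by norm_num) (Cpl_lt_top _ _))
    (Cd_lt_top _)) ENNReal.ofReal_lt_top

/-- constant of the cold gain: depends on `Y`, the exponents and the support radius `R` only -/
def CC (Y g G R : ℝ) : ℝ := (CCe Y g G R).toReal

theorem CC_nonneg (Y g G R : ℝ) : 0 ≤ CC Y g G R := ENNReal.toReal_nonneg

theorem ofReal_CC (Y g G R : ℝ) : ENNReal.ofReal (CC Y g G R) = CCe Y g G R :=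
  ENNReal.ofReal_toReal (CCe_lt_top Y g G R).ne

variable {P : Par} {t : ℝ}

/-- abstract cold × hot estimate with the weight `D^{-3/2}` -/
theorem Qp_cold_Dm (hP : ParD P) (ht : 0 ≤ t) (ht1 : t ≤ 1) (x : P2) {α : ℝ} (hα : 0 < α)
    {c : R3 → ℝ≥0∞} {R : ℝ} (hcm : Measurable c) (hc : ∀ y, R < ‖y‖ → c y = 0)
    {om2 : R3 → ℝ≥0∞} {om L : ℝ≥0∞} (v : R3)
    (hom : ∀ vs w : R3, ‖w‖ = 1 → ‖postVel v vs w‖ ≤ R →
      om2 (postVelStar v vs w) ≤ L * om * ga α vs) :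
    Qp c (fun y => om2 y * Dm P t x y) v ≤
      2 * Cpl α (Np P.Y * 2) * Cd P.Y * L * om * ∫⁻ u, c u * ENNReal.ofReal ‖v - u‖⁻¹ := by
  obtain ⟨u, hu⟩ := exists_Sw hP ht ht1 x
  have h := Qp_cold (c := c) (g := fun y => om2 y * Dm P t x y) (om2 := om2) (om := fun _ => om)
    (A := Cd P.Y) (L := L) hα u R v hcm hc
    (fun y => by
      calc om2 y * Dm P t x y ≤ om2 y * (Cd P.Y * Sw u y) := mul_le_mul_right (hu y) _
        _ = _ := by ring) hom
  rw [card_ix, newton_shift] at h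
  exact h

/-- common last step -/
theorem cold_fin {Y g G R : ℝ} {L om N D I Q Q' : ℝ≥0∞}
    (hL : L ≤ ENNReal.ofReal (Real.exp (1 + G * R ^ 2)))
    (hQ : Q ≤ 2 * Cpl (g / 4) (Np Y * 2) * Cd Y * L * om * I) (hQ' : Q' = Q) (hI : I ≤ N * D) :
    Q + Q' ≤ ENNReal.ofReal (CC Y g G R) * N * (om * D) := by
  rw [hQ', ofReal_CC]
  unfold CCe
  calc Q + Q = 2 * Q := by ring
    _ ≤ 2 * (2 * Cpl (g / 4) (Np Y * 2) * Cd Y * ENNReal.ofReal (Real.exp (1 + G * R ^ 2)) * om *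
        (N * D)) := by
        refine mul_le_mul_right (hQ.trans ?_) _
        gcongr
    _ = _ := by ring

/-- `cold × Z + Z × cold → Z` -/
theorem Qp_cold_Z (hP : ParD P) (ht : 0 ≤ t) (ht1 : t ≤ 1) {g R : ℝ} (hg : 1 / 50 ≤ g)
    {c : R3 → ℝ≥0∞} (hcm : Measurable c) (hc : ∀ y, R < ‖y‖ → c y = 0) (x : P2) (v : R3)
    {N : ℝ≥0∞} (hN : ∫⁻ u, c u * ENNReal.ofReal ‖v - u‖⁻¹ ≤ N * Dm P t x v) :
    Qp c (Zw P g t x) v + Qp (Zw P g t x) c v ≤
      ENNReal.ofReal (CC P.Y g g R) * N * Zw P g t x v := by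
  have hs : 0 ≤ √t := Real.sqrt_nonneg t
  have h := Qp_cold_Dm hP ht ht1 x (α := g / 4) (by linarith) hcm hc
    (om2 := fun y => ENNReal.ofReal (gau g t y)) (om := ENNReal.ofReal (gau g t v))
    (L := ENNReal.ofReal (Real.exp ((g - √t / 100) * R ^ 2))) v (by
      intro vs w hw hR
      simp only [gau_eq_ga]
      have h3 := half_le hg ht1
      refine (ga_cold_post (g := g - √t / 100) (by linarith) hw hR).trans ?_
      exact mul_le_mul_right (ga_anti (by linarith) vs) _)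
  refine cold_fin (L := ENNReal.ofReal (Real.exp ((g - √t / 100) * R ^ 2))) ?_ h
    (Qp_comm (measurable_Zw_v hP g ht x) hcm v) hN
  apply ENNReal.ofReal_le_ofReal
  apply Real.exp_le_exp.2
  nlinarith [mul_nonneg hs (sq_nonneg R)]

/-- `cold × B2 + B2 × cold → B2` -/
theorem Qp_cold_B2 (hP : ParD P) (ht : 0 ≤ t) (ht1 : t ≤ 1) {g1 g2 b R : ℝ} (hg1 : 1 / 50 ≤ g1)
    (hg2 : 0 ≤ g2) {c : R3 → ℝ≥0∞} (hcm : Measurable c) (hc : ∀ y, R < ‖y‖ → c y = 0) (x : P2)
    (v : R3) {N : ℝ≥0∞} (hN : ∫⁻ u, c u * ENNReal.ofReal ‖v - u‖⁻¹ ≤ N * Dm P t x v) :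
    Qp c (B2 P g1 g2 b t x) v + Qp (B2 P g1 g2 b t x) c v ≤
      ENNReal.ofReal (CC P.Y g1 (g1 + g2) R) * N * B2 P g1 g2 b t x v := by
  have hs : 0 ≤ √t := Real.sqrt_nonneg t
  have hζ : 0 ≤ distG x / t := div_nonneg (distG_nonneg x) ht
  have h := Qp_cold_Dm hP ht ht1 x (α := g1 / 4) (by linarith) hcm hc
    (om2 := fun y => ENNReal.ofReal (t ^ b) * omE (g1 - √t / 100) g2 (distG x / t) y)
    (om := ENNReal.ofReal (t ^ b) * omE (g1 - √t / 100) g2 (distG x / t) v)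
    (L := ENNReal.ofReal (Real.exp ((g1 - √t / 100 + g2) * R ^ 2))) v (by
      intro vs w hw hR
      have h3 := half_le hg1 ht1
      calc _ ≤ ENNReal.ofReal (t ^ b) * (ENNReal.ofReal (Real.exp ((g1 - √t / 100 + g2) * R ^ 2)) *
            omE (g1 - √t / 100) g2 (distG x / t) v * ga (g1 - √t / 100) vs) :=
            mul_le_mul_right (omE_cold_post (g1 := g1 - √t / 100) (by linarith) hg2 hζ hw hR) _
        _ ≤ ENNReal.ofReal (t ^ b) * (ENNReal.ofReal (Real.exp ((g1 - √t / 100 + g2) * R ^ 2)) *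
            omE (g1 - √t / 100) g2 (distG x / t) v * ga (g1 / 4) vs) :=
            mul_le_mul_right (mul_le_mul_right (ga_anti (by linarith) vs) _) _
        _ = _ := by ring)
  have e : B2 P g1 g2 b t x = fun y =>
      (ENNReal.ofReal (t ^ b) * omE (g1 - √t / 100) g2 (distG x / t) y) * Dm P t x y := by
    funext y; exact B2_eq_omE P g1 g2 b t x y
  rw [← e] at h
  rw [B2_eq_omE P g1 g2 b t x v]
  refine cold_fin (L := ENNReal.ofReal (Real.exp ((g1 - √t / 100 + g2) * R ^ 2))) ?_ h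
    (Qp_comm (measurable_B2_v hP g1 g2 b ht x) hcm v) hN
  apply ENNReal.ofReal_le_ofReal
  apply Real.exp_le_exp.2
  nlinarith [mul_nonneg hs (sq_nonneg R)]

/-- `cold × B1 + B1 × cold → B1` -/
theorem Qp_cold_B1 (hP : ParD P) (ht : 0 ≤ t) (ht1 : t ≤ 1) {Lam rh g b R : ℝ} (hg : 1 / 50 ≤ g)
    (hrh : 0 < rh) (hb : 1 ≤ b) (hL : 8 * b * (b + 1) ≤ g * Lam)
    {c : R3 → ℝ≥0∞} (hcm : Measurable c) (hc : ∀ y, R < ‖y‖ → c y = 0) (x : P2)
    (v : R3) {N : ℝ≥0∞} (hN : ∫⁻ u, c u * ENNReal.ofReal ‖v - u‖⁻¹ ≤ N * Dm P t x v) :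
    Qp c (B1 P Lam rh g b t x) v + Qp (B1 P Lam rh g b t x) c v ≤
      ENNReal.ofReal (CC P.Y g g R) * N * B1 P Lam rh g b t x v := by
  have hs : 0 ≤ √t := Real.sqrt_nonneg t
  have hL0 : 0 < Lam := by
    by_contra hc
    push Not at hc
    have h1 : g * Lam ≤ 0 := mul_nonpos_of_nonneg_of_nonpos (by linarith) hc
    have h2 : 0 < 8 * b * (b + 1) := by positivity
    linarith
  have hrat : b * (b + 1) / Lam ≤ g / 8 := by
    rw [div_le_div_iff₀ hL0 (by norm_num)]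
    linarith
  have h := Qp_cold_Dm hP ht ht1 x (α := g / 4) (by linarith) hcm hc
    (om2 := fun y => omB Lam rh g b t x y) (om := omB Lam rh g b t x v)
    (L := ENNReal.ofReal (Real.exp (1 + (g - √t / 100) * R ^ 2))) v (by
      intro vs w hw hR
      unfold omB ga
      have hpn := post_norm_sq hw v vs
      have h1 := K.Th_coll (Lam := Lam) (b := b) (ρ := rh ^ 2) (s := t) hL0 hb (by positivity) ht x
        v vs (postVelStar v vs w) (by nlinarith [sq_nonneg ‖postVel v vs w‖])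
      have hT0 : 0 ≤ (min 1 (Th Lam t x v / rh ^ 2)) ^ b :=
        Real.rpow_nonneg (K.minTh_nonneg hL0.le ht x v) _
      rw [← ENNReal.ofReal_mul (by positivity), ← ENNReal.ofReal_mul
        (mul_nonneg (by positivity) (mul_nonneg hT0 (K.gau_pos _ _ _).le))]
      apply ENNReal.ofReal_le_ofReal
      unfold gau
      have hR2 : ‖postVel v vs w‖ ^ 2 ≤ R ^ 2 := by gcongr
      have h3 := half_le hg ht1
      have hg' : 0 ≤ g - √t / 100 := by linarith
      have hsum : ‖postVelStar v vs w‖ ^ 2 = ‖v‖ ^ 2 + ‖vs‖ ^ 2 - ‖postVel v vs w‖ ^ 2 := by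
        linarith
      have h4 : b * (b + 1) / Lam * t ≤ g / 8 := by
        calc b * (b + 1) / Lam * t ≤ b * (b + 1) / Lam * 1 := by gcongr
          _ ≤ g / 8 := by rw [mul_one]; exact hrat
      calc (min 1 (Th Lam t x (postVelStar v vs w) / rh ^ 2)) ^ b *
            Real.exp (-(g - √t / 100) * ‖postVelStar v vs w‖ ^ 2)
          ≤ (Real.exp (1 + b * (b + 1) / Lam * t * ‖vs‖ ^ 2) *
            (min 1 (Th Lam t x v / rh ^ 2)) ^ b) *
            Real.exp (-(g - √t / 100) * ‖postVelStar v vs w‖ ^ 2) :=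
            mul_le_mul_of_nonneg_right h1 (Real.exp_pos _).le
        _ = (min 1 (Th Lam t x v / rh ^ 2)) ^ b *
            (Real.exp (1 + b * (b + 1) / Lam * t * ‖vs‖ ^ 2) *
            Real.exp (-(g - √t / 100) * ‖postVelStar v vs w‖ ^ 2)) := by ring
        _ ≤ (min 1 (Th Lam t x v / rh ^ 2)) ^ b *
            (Real.exp (1 + (g - √t / 100) * R ^ 2) * Real.exp (-(g - √t / 100) * ‖v‖ ^ 2) *
              Real.exp (-(g / 4) * ‖vs‖ ^ 2)) := by
            apply mul_le_mul_of_nonneg_left _ hT0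
            rw [← Real.exp_add, ← Real.exp_add, ← Real.exp_add]
            apply Real.exp_le_exp.2
            have h5 := mul_le_mul_of_nonneg_right h4 (sq_nonneg ‖vs‖)
            have h6 := mul_le_mul_of_nonneg_right h3 (sq_nonneg ‖vs‖)
            have h7 := mul_le_mul_of_nonneg_left hR2 hg'
            rw [hsum]
            nlinarith [sq_nonneg ‖vs‖]
        _ = _ := by ring)
  rw [B1_eq_omB P Lam rh g b t x v]
  refine cold_fin (L := ENNReal.ofReal (Real.exp (1 + (g - √t / 100) * R ^ 2))) ?_ h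
    (Qp_comm (measurable_B1_v hP Lam rh g b ht x) hcm v) hN
  apply ENNReal.ofReal_le_ofReal
  apply Real.exp_le_exp.2
  nlinarith [mul_nonneg hs (sq_nonneg R)]

/-! ### losses of a cold partner, fast velocities -/

theorem Lc_cold {c : R3 → ℝ≥0∞} {R : ℝ} (hc : ∀ y, R < ‖y‖ → c y = 0) (v : R3) :
    Lc c v ≤ ENNReal.ofReal (2 * π * (R + ‖v‖)) * ∫⁻ u, c u := by
  rw [K2.Lc_eq, ← lintegral_const_mul' _ _ ENNReal.ofReal_ne_top]
  refine lintegral_mono fun u => ?_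
  dsimp only
  by_cases hu : ‖u‖ ≤ R
  · gcongr
    have := norm_sub_le v u
    linarith
  · rw [hc u (not_le.1 hu), mul_zero]
    exact zero_le

/-- fast velocities: the Newton potential of a cold partner decays -/
theorem newton_far {c : R3 → ℝ≥0∞} {R : ℝ} (hR : 0 < R) (hc : ∀ y, R < ‖y‖ → c y = 0) {v : R3}
    (hv : 2 * R ≤ ‖v‖) :
    ∫⁻ u, c u * ENNReal.ofReal ‖v - u‖⁻¹ ≤ ENNReal.ofReal (2 / ‖v‖) * ∫⁻ u, c u := by
  rw [← lintegral_const_mul' _ _ ENNReal.ofReal_ne_top]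
  refine lintegral_mono fun u => ?_
  dsimp only
  by_cases hu : ‖u‖ ≤ R
  · rw [mul_comm]
    gcongr
    have h1 := norm_sub_norm_le v u
    have h2 : ‖v‖ / 2 ≤ ‖v - u‖ := by linarith
    have h3 : 0 < ‖v‖ := by linarith
    calc ‖v - u‖⁻¹ ≤ (‖v‖ / 2)⁻¹ := by gcongr
      _ = 2 / ‖v‖ := by rw [inv_div]
  · rw [hc u (not_le.1 hu), zero_mul]
    exact zero_le

end Crest.Agent.R68.K4
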