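import Crest.Agent.R68.KC
import Crest.Agent.R68.K4c

/-!
# R68 / IKInp (helper819): the hypotheses `N.KInp` of Part N
-/

set_option autoImplicit false
open MeasureTheory Set Filter
open scoped ENNReal Topology Real
open Crest.AnalysisR.VecCalc3 Crest.AnalysisR.PDE.Boltzmann

noncomputable section

namespace Crest.Agent.R68.KC

open Crest.Agent.R68.C (newt rho)
open Crest.Agent.R68.DPole (ParD)
open Crest.Agent.R68.N (tx Zg EE ev ez2 KInp)
open Crest.Agent.R68.K4 (CQ CL CC CQ_nonneg CL_nonneg CC_nonneg)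

variable {P : Par}

/-- relation between the two sets of standing hypotheses -/
theorem ParD_of_Ok (h : P.Ok) : ParD P where
  Y := h.Y0
  c := h.c0
  c1 := h.c1
  dlc := by
    have h1 := h.kap1
    unfold Par.kap at h1
    rwa [one_le_div (Fuel.Ok.dlp h)] at h1
  j0 := le_trans (by norm_num) h.j0

/-- the warm majorant has the additional factor `(t+|x|)^q` -/
structure WSq (P : Par) (T q : ℝ) : Prop where
  mass : ∀ t ∈ Ioc 0 T, ∀ x, (∫⁻ v, warm P t x v) ≤ tx q t x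
  newt : ∀ t ∈ Ioc 0 T, ∀ x v,
    (∫⁻ v', warm P t x v' / ENNReal.ofReal ‖v - v'‖) ≤ tx q t x * Dm P t x v

/-- the common constant -/
def CKi (P : Par) (g g1 g2 : ℝ) : ℝ :=
  CC P.Y g1 (g1 + g2) (P.Y + 5) * (2 * CN P) + CC P.Y g g (P.Y + 5) * (2 * CN P) +
    2 * π * (P.Y + 5) * (2 * Cm P) + 2 * π * (P.Y + 5) * (2 * Cq P) + CQ P.Y g1 + CL P.Y g1 +
    CL P.Y g + CC P.Y g1 (g1 + g2) (P.Y + 5) + 2 * π * (P.Y + 5)

theorem Lc_cold' {c : R3 → ℝ≥0∞} {R : ℝ} (hR : 1 ≤ R) (hc : ∀ y, R < ‖y‖ → c y = 0) (v : R3) :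
    Lc c v ≤ ENNReal.ofReal (2 * π * R) * ev v * ∫⁻ u, c u := by
  refine (K4.Lc_cold hc v).trans (mul_le_mul_left ?_ _)
  unfold ev
  rw [K4.one_add_ofReal, ← ENNReal.ofReal_mul (by positivity)]
  apply ENNReal.ofReal_le_ofReal
  have hv := norm_nonneg v
  have : R + ‖v‖ ≤ R * (1 + ‖v‖) := by nlinarith
  have h2 := mul_le_mul_of_nonneg_left this (by positivity : 0 ≤ 2 * π)
  linarith

theorem ev_mul (a : ℝ) (ha : 0 ≤ a) (v : R3) :
    ENNReal.ofReal (a * (1 + ‖v‖)) = ENNReal.ofReal a * ev v := by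
  unfold ev
  rw [K4.one_add_ofReal, ← ENNReal.ofReal_mul ha]

/-- **`KInp`** for the majorant `2 coldS`. -/
theorem kInp (h : P.Ok) (hY : 1 ≤ P.Y) {T q : ℝ} (hT1 : T ≤ 1) (hW : WSz P T) (hWq : WSq P T q)
    (hWm : ∀ t x, Measurable (warm P t x)) {g g1 g2 : ℝ} (hg1 : 1 / 50 ≤ g1) (hg2 : 0 ≤ g2)
    (hg : g1 + g2 ≤ g) :
    KInp P T (fun t x v => 2 * coldS P t x v) (warm P) q g g1 g2
      (ENNReal.ofReal (CKi P g g1 g2)) := by
  have hP := ParD_of_Ok h
  have hgg : 1 / 50 ≤ g := by linarith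
  have hCN := (CN_pos h).le
  have hCm := (Cm_pos h).le
  have hCq := Cq_nonneg h
  have e1 := CC_nonneg P.Y g1 (g1 + g2) (P.Y + 5)
  have e2 := CC_nonneg P.Y g g (P.Y + 5)
  have e3 := CQ_nonneg P.Y g1
  have e4 := CL_nonneg P.Y g1
  have e5 := CL_nonneg P.Y g
  have hR : 1 ≤ P.Y + 5 := by linarith
  have hR0 : 0 ≤ P.Y + 5 := by linarith
  have hπ := Real.pi_pos
  have p1 : 0 ≤ CC P.Y g1 (g1 + g2) (P.Y + 5) * (2 * CN P) := by positivity
  have p2 : 0 ≤ CC P.Y g g (P.Y + 5) * (2 * CN P) := by positivity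
  have p3 : 0 ≤ 2 * π * (P.Y + 5) * (2 * Cm P) := by positivity
  have p4 : 0 ≤ 2 * π * (P.Y + 5) * (2 * Cq P) := by positivity
  have p5 : 0 ≤ 2 * π * (P.Y + 5) := by positivity
  -- facts on `coldS`
  have hSm : ∀ t x, Measurable (fun v => 2 * coldS P t x v) := fun t x =>
    ((measurable_phiE h t x).add (hWm t x)).const_mul 2
  have hS0 : ∀ t ∈ Ioc 0 T, ∀ x v, P.Y + 5 < ‖v‖ → 2 * coldS P t x v = 0 := fun t ht x v hv => by
    rw [coldS_supp h hW ht.1.le ht.2 hv, mul_zero]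
  have hW0 : ∀ t ∈ Ioc 0 T, ∀ x v, P.Y + 5 < ‖v‖ → warm P t x v = 0 := fun t ht x v hv =>
    warm_supp hW ht.1.le ht.2 (by linarith)
  have hSN : ∀ t ∈ Ioc 0 T, ∀ x v, ∫⁻ u, 2 * coldS P t x u * ENNReal.ofReal ‖v - u‖⁻¹ ≤
      ENNReal.ofReal (2 * CN P / t) * Dm P t x v := fun t ht x v => by
    have h1 : ∫⁻ u, 2 * coldS P t x u * ENNReal.ofReal ‖v - u‖⁻¹ = 2 * newt (coldS P t x) v := by
      unfold C.newt
      rw [← lintegral_const_mul' _ _ (by norm_num)]
      exact lintegral_congr fun u => mul_assoc _ _ _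
    rw [h1]
    calc 2 * newt (coldS P t x) v ≤ ENNReal.ofReal 2 * (ENNReal.ofReal (CN P / t) * Dm P t x v) := by
          rw [show ENNReal.ofReal 2 = 2 by norm_num]
          exact mul_le_mul_right (newt_coldS_le h hT1 hW ht.1 ht.2 x v) _
      _ = _ := by
          rw [← mul_assoc, ← ENNReal.ofReal_mul (by norm_num), mul_div_assoc]
  have hWN : ∀ t ∈ Ioc 0 T, ∀ x v, ∫⁻ u, warm P t x u * ENNReal.ofReal ‖v - u‖⁻¹ ≤
      tx q t x * Dm P t x v := fun t ht x v => by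
    refine le_trans ?_ (hWq.newt t ht x v)
    refine lintegral_mono fun u => ?_
    rw [ENNReal.div_eq_inv_mul, mul_comm]
    exact mul_le_mul_left (ofReal_inv_le _) _
  have hSM : ∀ t ∈ Ioc 0 T, ∀ x, ∫⁻ u, 2 * coldS P t x u ≤ ENNReal.ofReal (2 * Cm P / t) :=
    fun t ht x => by
    rw [lintegral_const_mul' _ _ (by norm_num)]
    calc 2 * ∫⁻ u, coldS P t x u ≤ ENNReal.ofReal 2 * ENNReal.ofReal (Cm P / t) := by
          rw [show ENNReal.ofReal 2 = 2 by norm_num]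
          exact mul_le_mul_right (mass_coldS_le h hT1 hW ht.1 ht.2 x) _
      _ = _ := by rw [← ENNReal.ofReal_mul (by norm_num), mul_div_assoc]
  have hmono : ∀ {a : ℝ} {X : ℝ≥0∞}, a ≤ CKi P g g1 g2 →
      ENNReal.ofReal a * X ≤ ENNReal.ofReal (CKi P g g1 g2) * X := fun ha =>
    mul_le_mul_left (ENNReal.ofReal_le_ofReal ha) _
  refine ⟨ENNReal.ofReal_ne_top, ?_, ?_, ?_, ?_, ?_, ?_, ?_, ?_, ?_⟩
  · -- qME
    intro t ht x v
    have ht1 : t ≤ 1 := ht.2.trans hT1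
    have h1 := K4.Qp_cold_B2 (b := 0) hP ht.1.le ht1 hg1 hg2 (hSm t x) (hS0 t ht x) x v (hSN t ht x v)
    refine le_self_add.trans (h1.trans ?_)
    unfold EE
    rw [mul_assoc, mul_assoc]
    calc ENNReal.ofReal (CC P.Y g1 (g1 + g2) (P.Y + 5)) *
          (ENNReal.ofReal (2 * CN P / t) * B2 P g1 g2 0 t x v)
        = ENNReal.ofReal (CC P.Y g1 (g1 + g2) (P.Y + 5) * (2 * CN P)) *
          (ENNReal.ofReal (1 / t) * B2 P g1 g2 0 t x v) := by
          have ht0 := ht.1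
          rw [← mul_assoc, ← mul_assoc, ← ENNReal.ofReal_mul e1, ← ENNReal.ofReal_mul p1]
          congr 2
          ring
      _ ≤ _ := hmono (by unfold CKi; linarith)
  · -- qMZ
    intro t ht x v
    have ht1 : t ≤ 1 := ht.2.trans hT1
    have h1 := K4.Qp_cold_Z hP ht.1.le ht1 hgg (hSm t x) (hS0 t ht x) x v (hSN t ht x v)
    refine le_self_add.trans (h1.trans ?_)
    change _ ≤ ENNReal.ofReal (CKi P g g1 g2) * ENNReal.ofReal (1 / t) * K4.Zw P g t x v
    rw [mul_assoc, mul_assoc]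
    calc ENNReal.ofReal (CC P.Y g g (P.Y + 5)) *
          (ENNReal.ofReal (2 * CN P / t) * K4.Zw P g t x v)
        = ENNReal.ofReal (CC P.Y g g (P.Y + 5) * (2 * CN P)) *
          (ENNReal.ofReal (1 / t) * K4.Zw P g t x v) := by
          have ht0 := ht.1
          rw [← mul_assoc, ← mul_assoc, ← ENNReal.ofReal_mul e2, ← ENNReal.ofReal_mul p2]
          congr 2
          ring
      _ ≤ _ := hmono (by unfold CKi; linarith)
  · -- lM
    intro t ht x v
    have ht0 := ht.1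
    have h1 := Lc_cold' hR (hS0 t ht x) v
    refine h1.trans ?_
    calc ENNReal.ofReal (2 * π * (P.Y + 5)) * ev v * ∫⁻ u, 2 * coldS P t x u
        ≤ ENNReal.ofReal (2 * π * (P.Y + 5)) * ev v * ENNReal.ofReal (2 * Cm P / t) :=
          mul_le_mul_right (hSM t ht x) _
      _ = ENNReal.ofReal (2 * π * (P.Y + 5)) * ENNReal.ofReal (2 * Cm P / t) * ev v := by ring
      _ = ENNReal.ofReal (2 * π * (P.Y + 5) * (2 * Cm P)) * (ENNReal.ofReal (1 / t) * ev v) := by
          rw [← mul_assoc, ← ENNReal.ofReal_mul p5, ← ENNReal.ofReal_mul p3]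
          congr 2
          ring
      _ ≤ ENNReal.ofReal (CKi P g g1 g2) * (ENNReal.ofReal (1 / t) * ev v) :=
          hmono (by unfold CKi; linarith)
      _ = _ := by ring
  · -- lM2
    intro t ht x v
    have h1 := Lc_cold' hR (hS0 t ht x) v
    have h2 := sq_mul_mass_coldS h hY hT1 hW ht.1 ht.2 x
    rw [lintegral_const_mul' _ _ (by norm_num)] at h1
    calc ENNReal.ofReal ((t + distG x) ^ 2) * Lc (fun v => 2 * coldS P t x v) v
        ≤ ENNReal.ofReal ((t + distG x) ^ 2) *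
          (ENNReal.ofReal (2 * π * (P.Y + 5)) * ev v * (2 * ∫⁻ u, coldS P t x u)) :=
          mul_le_mul_right h1 _
      _ = ENNReal.ofReal (2 * π * (P.Y + 5)) * 2 *
          (ENNReal.ofReal ((t + distG x) ^ 2) * ∫⁻ u, coldS P t x u) * ev v := by ring
      _ ≤ ENNReal.ofReal (2 * π * (P.Y + 5)) * 2 * ENNReal.ofReal (Cq P) * ev v := by gcongr
      _ = ENNReal.ofReal (2 * π * (P.Y + 5) * (2 * Cq P)) * ev v := by
          rw [show (2 : ℝ≥0∞) = ENNReal.ofReal 2 by norm_num, ← ENNReal.ofReal_mul p5,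
            ← ENNReal.ofReal_mul (by positivity)]
          congr 2
          ring
      _ ≤ _ := hmono (by unfold CKi; linarith)
  · -- qZE
    intro t ht x v
    have ht1 : t ≤ 1 := ht.2.trans hT1
    have h1 := K4.Qp_Z_B2 (b := 0) hP ht.1.le ht1 hg1 hg2 hg x v
    refine h1.trans ?_
    rw [ev_mul _ e3]
    unfold EE
    rw [mul_assoc, mul_assoc]
    exact hmono (by unfold CKi; linarith)
  · -- lE
    intro t ht x v
    have ht1 : t ≤ 1 := ht.2.trans hT1
    have h1 := K4.Lc_B2 (b := 0) hP ht.1.le ht1 hg1 hg2 x v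
    refine h1.trans ?_
    rw [ev_mul _ e4, Real.rpow_zero, ENNReal.ofReal_one, one_mul, mul_assoc, mul_assoc]
    exact hmono (by unfold CKi; linarith)
  · -- lZ
    intro t ht x v
    have ht1 : t ≤ 1 := ht.2.trans hT1
    have h1 := K4.Lc_Z hP ht.1.le ht1 hgg x v
    refine h1.trans ?_
    rw [ev_mul _ e5]
    exact hmono (by unfold CKi; linarith)
  · -- qWE
    intro t ht x v
    have ht1 : t ≤ 1 := ht.2.trans hT1
    have h1 := K4.Qp_cold_B2 (b := 0) hP ht.1.le ht1 hg1 hg2 (hWm t x) (hW0 t ht x) x v (hWN t ht x v)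
    refine le_self_add.trans (h1.trans ?_)
    unfold EE
    rw [mul_assoc, mul_assoc]
    exact hmono (by unfold CKi; linarith)
  · -- lW
    intro t ht x v
    have h1 := Lc_cold' hR (hW0 t ht x) v
    refine h1.trans ?_
    calc ENNReal.ofReal (2 * π * (P.Y + 5)) * ev v * ∫⁻ u, warm P t x u
        ≤ ENNReal.ofReal (2 * π * (P.Y + 5)) * ev v * tx q t x :=
          mul_le_mul_right (hWq.mass t ht x) _
      _ = ENNReal.ofReal (2 * π * (P.Y + 5)) * (tx q t x * ev v) := by ring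
      _ ≤ ENNReal.ofReal (CKi P g g1 g2) * (tx q t x * ev v) := hmono (by unfold CKi; linarith)
      _ = _ := by ring

end Crest.Agent.R68.KC
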