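import Crest.Agent.R68.NDefs

/-!
# Row 68, PART N (helper621, helper559): the hypotheses of the nonlinear step

`ColdInp` = what is needed from Part C, `KInp` = what is needed from Parts K/F.
-/

set_option autoImplicit false
open MeasureTheory Set Filter
open scoped ENNReal Topology
open Crest.AnalysisR.VecCalc3 Crest.AnalysisR.PDE.Boltzmann

noncomputable section

namespace Crest.Agent.R68.N

open Crest.Agent.R68.A (en Meas3)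

/-- `Del` is non-decreasing along flights with velocity `|v| ≤ V` -/
def MonoFl (V T : ℝ) (Del : ℝ → P2 → ℝ≥0∞) : Prop :=
  ∀ s t : ℝ, 0 < s → s ≤ t → t ≤ T → ∀ (x : P2) (v : R3), ‖v‖ ≤ V →
    Del s (x - (t - s) • bar v) ≤ Del t x

/-- `(t + |x|_Γ)^q` -/
def tx (q : ℝ) (t : ℝ) (x : P2) : ℝ≥0∞ := ENNReal.ofReal ((t + distG x) ^ q)

/-- What Part N needs from Part C on `(0,T]`. `Cf lam` = cold component damped by the rate `lam`,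
`Sf lam` = its spill, `Mc` = envelope of the cold component, supported in `|v| ≤ V`.
All inequalities hold everywhere. -/
structure ColdInp (P : Par) (T V : ℝ) (Cf Sf : Fld → Fld) (Mc Wm : Fld) (CC : ℝ≥0∞) (q : ℝ) :
    Prop where
  measC : ∀ lam, Meas3 lam → PerF lam → Meas3 (Cf lam)
  measS : ∀ lam, Meas3 lam → PerF lam → Meas3 (Sf lam)
  perC : ∀ lam, Meas3 lam → PerF lam → PerF (Cf lam)
  perS : ∀ lam, Meas3 lam → PerF lam → PerF (Sf lam)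
  measM : Meas3 Mc
  measW : Meas3 Wm
  W_le : ∀ t ∈ Ioc 0 T, ∀ x v, Wm t x v ≤ Mc t x v
  CC_ne : CC ≠ ⊤
  supp : ∀ t ∈ Ioc 0 T, ∀ x v, V < ‖v‖ → Mc t x v = 0
  phi_le : ∀ t ∈ Ioc 0 T, ∀ x v, phiE P t x v ≤ Mc t x v
  le : ∀ lam, Meas3 lam → PerF lam → ∀ t ∈ Ioc 0 T, ∀ x v, Cf lam t x v ≤ Mc t x v
  /-- Lipschitz dependence on the damping rate -/
  lip : ∀ lam lam', Meas3 lam → PerF lam → Meas3 lam' → PerF lam' → ∀ Del : ℝ → P2 → ℝ≥0∞,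
    Measurable (fun p : ℝ × P2 => Del p.1 p.2) → MonoFl V T Del →
    (∀ s ∈ Ioc 0 T, ∀ y v, ‖v‖ ≤ V → dd (lam s y v) (lam' s y v) ≤ Del s y) →
    ∀ t ∈ Ioc 0 T, ∀ x v, dd (Cf lam t x v) (Cf lam' t x v) ≤
      CC * ENNReal.ofReal t * Del t x * Mc t x v
  /-- comparison with the free fuel -/
  lip0 : ∀ lam, Meas3 lam → PerF lam → ∀ Del : ℝ → P2 → ℝ≥0∞,
    Measurable (fun p : ℝ × P2 => Del p.1 p.2) → MonoFl V T Del →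
    (∀ s ∈ Ioc 0 T, ∀ y v, ‖v‖ ≤ V → lam s y v ≤ Del s y) →
    ∀ t ∈ Ioc 0 T, ∀ x v, dd (Cf lam t x v) (phiE P t x v) ≤
      CC * ENNReal.ofReal t * ((Del t x + tx q t x) * Mc t x v + Wm t x v)
  /-- the spill is tiny and Lipschitz -/
  spill : ∀ lam lam', Meas3 lam → PerF lam → Meas3 lam' → PerF lam' → ∀ Del : ℝ → P2 → ℝ≥0∞,
    Measurable (fun p : ℝ × P2 => Del p.1 p.2) → MonoFl V T Del →
    (∀ s ∈ Ioc 0 T, ∀ y v, ‖v‖ ≤ V → dd (lam s y v) (lam' s y v) ≤ Del s y) →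
    ∀ t ∈ Ioc 0 T, ∀ x v, dd (Sf lam t x v) (Sf lam' t x v) ≤
      CC * ENNReal.ofReal t * Del t x * tx q t x * ENNReal.ofReal (Real.exp (-‖v‖ ^ 2))

/-- What Part N needs from Parts K and F on `(0,T]`, for a pair `(g1,g2)` and `g ≥ g1 + g2`. -/
structure KInp (P : Par) (T : ℝ) (Mc Wm : Fld) (q g g1 g2 : ℝ) (CK : ℝ≥0∞) : Prop where
  ne : CK ≠ ⊤
  qME : ∀ t ∈ Ioc 0 T, ∀ x v, Qp (Mc t x) (EE P g1 g2 t x) v ≤
    CK * ENNReal.ofReal (1 / t) * EE P g1 g2 t x v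
  qMZ : ∀ t ∈ Ioc 0 T, ∀ x v, Qp (Mc t x) (Zg P g t x) v ≤
    CK * ENNReal.ofReal (1 / t) * Zg P g t x v
  lM : ∀ t ∈ Ioc 0 T, ∀ x v, Lc (Mc t x) v ≤ CK * ENNReal.ofReal (1 / t) * ev v
  lM2 : ∀ t ∈ Ioc 0 T, ∀ x v, ENNReal.ofReal ((t + distG x) ^ 2) * Lc (Mc t x) v ≤ CK * ev v
  qZE : ∀ t ∈ Ioc 0 T, ∀ x v, Qp (Zg P g t x) (EE P g1 g2 t x) v ≤ CK * ev v * EE P g1 g2 t x v
  lE : ∀ t ∈ Ioc 0 T, ∀ x v, Lc (EE P g1 g2 t x) v ≤ CK * ev v * ez2 g2 t x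
  lZ : ∀ t ∈ Ioc 0 T, ∀ x v, Lc (Zg P g t x) v ≤ CK * ev v
  qWE : ∀ t ∈ Ioc 0 T, ∀ x v, Qp (Wm t x) (EE P g1 g2 t x) v ≤ CK * tx q t x * EE P g1 g2 t x v
  lW : ∀ t ∈ Ioc 0 T, ∀ x v, Lc (Wm t x) v ≤ CK * tx q t x * ev v

/-- The ancient solution of the linear hot equation and the bound for the linear solver (Part L). -/
structure LInp (P : Par) (T : ℝ) (Hs : Fld) (g1 g2 g1' g2' a b : ℝ) (CL : ℝ≥0∞) : Prop where
  ne : CL ≠ ⊤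
  neu : ∀ t ∈ Ioc 0 T, ∀ x v,
    ∑' m : ℕ, (TT P)^[m] (fun s y z => ENNReal.ofReal (s ^ b) * EE P g1' g2' s y z) t x v ≤
      CL * ENNReal.ofReal (t ^ b) * EE P g1' g2' t x v
  meas : Meas3 Hs
  per : PerF Hs
  eqn : ∀ t ∈ Ioc 0 T, ∀ x v, Hs t x v = TT P Hs t x v
  le : ∀ t ∈ Ioc 0 T, ∀ x v, Hs t x v ≤ CL * ENNReal.ofReal (t ^ (a - 2)) * EE P g1 g2 t x v
  pos : ¬ ∀ᵐ p : ℝ × P2 × R3, p.1 ∈ Ioo 0 T → Hs p.1 p.2.1 p.2.2 = 0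

end Crest.Agent.R68.N
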