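import Crest.Agent.R68.K1a
import Crest.Agent.R68.NHyp

/-!
# R68 / KC2 (helper819): `B1 ≤ C (t+|x|)^β Z_{g0}` and absorption of powers of `|x|/t` in `EE`
-/

set_option autoImplicit false
open MeasureTheory Set Filter
open scoped ENNReal Topology
open Crest.AnalysisR.VecCalc3 Crest.AnalysisR.PDE.Boltzmann

noncomputable section

namespace Crest.Agent.R68.KC

open Crest.Agent.R68.N (tx Zg EE)

variable {P : Par}

/-- `(1 + c m)^b e^{-κ m²}` is bounded -/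
theorem exists_poly_exp {κ : ℝ} (hκ : 0 < κ) (b : ℝ) (hb : 0 ≤ b) :
    ∃ C : ℝ, 0 < C ∧ ∀ m : ℝ, 0 ≤ m → (1 + m) ^ b * Real.exp (-κ * m ^ 2) ≤ C := by
  obtain ⟨n, hn⟩ := exists_nat_ge b
  -- (1+m)^n e^{-κ m²} ≤ (1+m)^n n!/(κ' (1+m))^n * e^{κ'(1+m) - κ m²}
  refine ⟨(n.factorial : ℝ) * Real.exp (1 + 1 / (4 * κ)), by positivity, fun m hm => ?_⟩
  have h1 : (1 + m) ^ b ≤ (1 + m) ^ (n : ℝ) :=
    Real.rpow_le_rpow_of_exponent_le (by linarith) hn
  rw [Real.rpow_natCast] at h1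
  have h2 : (1 + m) ^ n ≤ n.factorial * Real.exp (1 + m) := by
    have := Real.pow_div_factorial_le_exp (1 + m) (by positivity) n
    rw [div_le_iff₀ (by positivity)] at this
    linarith
  have h3 : Real.exp (1 + m) * Real.exp (-κ * m ^ 2) ≤ Real.exp (1 + 1 / (4 * κ)) := by
    rw [← Real.exp_add]
    apply Real.exp_le_exp.2
    have h4 : m - κ * m ^ 2 ≤ 1 / (4 * κ) := by
      rw [le_div_iff₀ (by positivity)]
      nlinarith [sq_nonneg (2 * κ * m - 1)]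
    linarith
  calc (1 + m) ^ b * Real.exp (-κ * m ^ 2)
      ≤ (n.factorial * Real.exp (1 + m)) * Real.exp (-κ * m ^ 2) :=
        mul_le_mul_of_nonneg_right (h1.trans h2) (Real.exp_pos _).le
    _ = n.factorial * (Real.exp (1 + m) * Real.exp (-κ * m ^ 2)) := by ring
    _ ≤ _ := mul_le_mul_of_nonneg_left h3 (by positivity)

theorem gau_split (γ g0 t : ℝ) (v : R3) :
    gau γ t v = gau g0 t v * Real.exp (-(γ - g0) * ‖v‖ ^ 2) := by
  unfold gau
  rw [← Real.exp_add]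
  congr 1
  ring

/-- `Θ ≤ (t+|x|)(1 + 2(1+|v|)²/Λ)` -/
theorem Th_le {Lam t : ℝ} (hL : 0 < Lam) (ht : 0 ≤ t) (ht1 : t ≤ 1) (x : P2) (v : R3) :
    Th Lam t x v ≤ (t + distG x) * (1 + 2 * (1 + ‖v‖) ^ 2 / Lam) := by
  have hd0 := distG_nonneg x
  have hd1 := distG_le_one x
  have hv := norm_nonneg v
  unfold Th
  have h1 : (distG x + t * ‖v‖) ^ 2 ≤ (t + distG x) * (2 * (1 + ‖v‖) ^ 2) := by
    have h2 : distG x + t * ‖v‖ ≤ (t + distG x) * (1 + ‖v‖) := by nlinarith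
    have h3 : (distG x + t * ‖v‖) ^ 2 ≤ ((t + distG x) * (1 + ‖v‖)) ^ 2 :=
      pow_le_pow_left₀ (by positivity) h2 2
    have h4 : (t + distG x) ^ 2 ≤ 2 * (t + distG x) := by nlinarith
    have h5 : ((t + distG x) * (1 + ‖v‖)) ^ 2 = (t + distG x) ^ 2 * (1 + ‖v‖) ^ 2 := by ring
    rw [h5] at h3
    have h6 := mul_le_mul_of_nonneg_right h4 (sq_nonneg (1 + ‖v‖))
    linarith
  have h7 : (distG x + t * ‖v‖) ^ 2 / Lam ≤ (t + distG x) * (2 * (1 + ‖v‖) ^ 2 / Lam) := by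
    rw [← mul_div_assoc]
    exact div_le_div_of_nonneg_right h1 hL.le
  nlinarith

/-- **621's item**: `B1 ≤ C (t+|x|)^β Z_{g0}` for `g0 < γ`, `β ≤ b` -/
theorem B1_le_Zg {Lam rh γ g0 b β : ℝ} (hL : 0 < Lam) (hr : 0 < rh) (hg : g0 < γ) (hb : 0 ≤ b)
    (hβ : β ≤ b) (hβ0 : 0 ≤ β) :
    ∃ C : ℝ≥0∞, C ≠ ⊤ ∧ ∀ t : ℝ, 0 ≤ t → t ≤ 1 → ∀ (x : P2) (v : R3),
      B1 P Lam rh γ b t x v ≤ C * tx β t x * Zg P g0 t x v := by
  obtain ⟨C0, hC0, hC⟩ := exists_poly_exp (sub_pos.2 hg) (2 * b) (by positivity)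
  set A : ℝ := ((1 + 2 / Lam) / rh ^ 2) ^ b * 2 ^ (b - β) with hA
  have hA0 : 0 ≤ A := by positivity
  refine ⟨ENNReal.ofReal (A * C0), ENNReal.ofReal_ne_top, fun t ht ht1 x v => ?_⟩
  have hd0 := distG_nonneg x
  have hd1 := distG_le_one x
  have hv := norm_nonneg v
  unfold B1 tx Zg
  rw [← mul_assoc, ← ENNReal.ofReal_mul (by positivity), ← ENNReal.ofReal_mul (by positivity)]
  refine mul_le_mul_left (ENNReal.ofReal_le_ofReal ?_) _
  have hTh0 : 0 ≤ Th Lam t x v := by unfold Th; positivity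
  have h1 : (min 1 (Th Lam t x v / rh ^ 2)) ^ b ≤ A * (t + distG x) ^ β * (1 + ‖v‖) ^ (2 * b) := by
    have h2 : min 1 (Th Lam t x v / rh ^ 2) ≤
        ((1 + 2 / Lam) / rh ^ 2) * ((t + distG x) * (1 + ‖v‖) ^ 2) := by
      refine (min_le_right _ _).trans ?_
      rw [div_le_iff₀ (by positivity)]
      have h3 : ((1 + 2 / Lam) / rh ^ 2) * ((t + distG x) * (1 + ‖v‖) ^ 2) * rh ^ 2 =
          (1 + 2 / Lam) * ((t + distG x) * (1 + ‖v‖) ^ 2) := by field_simp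
      rw [h3]
      refine (Th_le hL ht ht1 x v).trans ?_
      have h4 : (1 : ℝ) ≤ (1 + ‖v‖) ^ 2 := by nlinarith
      have h5 : 1 + 2 * (1 + ‖v‖) ^ 2 / Lam ≤ (1 + 2 / Lam) * (1 + ‖v‖) ^ 2 := by
        have : 2 * (1 + ‖v‖) ^ 2 / Lam = 2 / Lam * (1 + ‖v‖) ^ 2 := by ring
        rw [this]; linarith
      calc (t + distG x) * (1 + 2 * (1 + ‖v‖) ^ 2 / Lam)
          ≤ (t + distG x) * ((1 + 2 / Lam) * (1 + ‖v‖) ^ 2) :=
            mul_le_mul_of_nonneg_left h5 (by positivity)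
        _ = _ := by ring
    have h6 : 0 ≤ min 1 (Th Lam t x v / rh ^ 2) := le_min zero_le_one (by positivity)
    refine (Real.rpow_le_rpow h6 h2 hb).trans ?_
    rw [Real.mul_rpow (by positivity) (by positivity), Real.mul_rpow (by positivity) (by positivity)]
    have h7 : ((1 + ‖v‖) ^ 2) ^ b = (1 + ‖v‖) ^ (2 * b) := by
      rw [← Real.rpow_natCast, ← Real.rpow_mul (by positivity)]; norm_num
    rw [h7]
    have h8 : (t + distG x) ^ b ≤ 2 ^ (b - β) * (t + distG x) ^ β := by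
      rcases (by positivity : 0 ≤ t + distG x).eq_or_lt with h9 | h9
      · rw [← h9]
        rcases hb.eq_or_lt with h10 | h10
        · have h11 : β = 0 := le_antisymm (by rw [h10]; exact hβ) hβ0
          rw [← h10, h11]; norm_num
        · rw [Real.zero_rpow h10.ne']; positivity
      · have h10 : (t + distG x) ^ b = (t + distG x) ^ (b - β) * (t + distG x) ^ β := by
          rw [← Real.rpow_add h9]; congr 1; ring
        rw [h10]
        apply mul_le_mul_of_nonneg_right _ (by positivity)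
        exact Real.rpow_le_rpow (by positivity) (by linarith) (by linarith)
    calc ((1 + 2 / Lam) / rh ^ 2) ^ b * ((t + distG x) ^ b * (1 + ‖v‖) ^ (2 * b))
        ≤ ((1 + 2 / Lam) / rh ^ 2) ^ b * ((2 ^ (b - β) * (t + distG x) ^ β) * (1 + ‖v‖) ^ (2 * b)) := by
          gcongr
      _ = _ := by rw [hA]; ring
  rw [gau_split γ g0]
  have h20 := hC ‖v‖ hv
  have h21 : 0 ≤ gau g0 t v := (Real.exp_pos _).le
  calc (min 1 (Th Lam t x v / rh ^ 2)) ^ b * (gau g0 t v * Real.exp (-(γ - g0) * ‖v‖ ^ 2))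
      ≤ (A * (t + distG x) ^ β * (1 + ‖v‖) ^ (2 * b)) *
        (gau g0 t v * Real.exp (-(γ - g0) * ‖v‖ ^ 2)) :=
        mul_le_mul_of_nonneg_right h1 (by positivity)
    _ = A * (t + distG x) ^ β * gau g0 t v *
        ((1 + ‖v‖) ^ (2 * b) * Real.exp (-(γ - g0) * ‖v‖ ^ 2)) := by ring
    _ ≤ A * (t + distG x) ^ β * gau g0 t v * C0 :=
        mul_le_mul_of_nonneg_left h20 (by positivity)
    _ = _ := by ring

/-- **621's item**: powers of `1+|x|/t` (and of `1+|v|`) are absorbed by the Gaussian of `EE` -/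
theorem EE_poly {g1 g2 g1' g2' j : ℝ} (hg1 : g1' ≤ g1) (hg2 : g2' < g2) (hj : 0 ≤ j) :
    ∃ C : ℝ≥0∞, C ≠ ⊤ ∧ ∀ t : ℝ, 0 < t → ∀ (x : P2) (v : R3),
      ENNReal.ofReal ((1 + max ‖v‖ (distG x / t)) ^ j) * EE P g1 g2 t x v ≤
        C * EE P g1' g2' t x v := by
  obtain ⟨C0, hC0, hC⟩ := exists_poly_exp (sub_pos.2 hg2) j hj
  refine ⟨ENNReal.ofReal C0, ENNReal.ofReal_ne_top, fun t ht x v => ?_⟩
  have hm : 0 ≤ max ‖v‖ (distG x / t) := le_max_of_le_left (norm_nonneg _)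
  set m := max ‖v‖ (distG x / t) with hmdef
  unfold EE B2
  rw [← mul_assoc, ← mul_assoc, ← ENNReal.ofReal_mul (by positivity),
    ← ENNReal.ofReal_mul hC0.le]
  refine mul_le_mul_left (ENNReal.ofReal_le_ofReal ?_) _
  rw [Real.rpow_zero, one_mul, one_mul, ← hmdef]
  have h1 : gau g1 t v ≤ gau g1' t v := by
    unfold gau
    apply Real.exp_le_exp.2
    nlinarith [sq_nonneg ‖v‖]
  have h2 : Real.exp (-g2 * m ^ 2) = Real.exp (-(g2 - g2') * m ^ 2) * Real.exp (-g2' * m ^ 2) := by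
    rw [← Real.exp_add]; congr 1; ring
  rw [h2]
  have h3 := hC m hm
  have h4 : 0 ≤ gau g1 t v := (Real.exp_pos _).le
  have h5 : 0 ≤ gau g1' t v := (Real.exp_pos _).le
  calc (1 + m) ^ j * (gau g1 t v * (Real.exp (-(g2 - g2') * m ^ 2) * Real.exp (-g2' * m ^ 2)))
      = ((1 + m) ^ j * Real.exp (-(g2 - g2') * m ^ 2)) * (gau g1 t v * Real.exp (-g2' * m ^ 2)) := by
        ring
    _ ≤ C0 * (gau g1' t v * Real.exp (-g2' * m ^ 2)) := by
        apply mul_le_mul h3 _ (by positivity) hC0.le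
        exact mul_le_mul_of_nonneg_right h1 (Real.exp_pos _).le
    _ = _ := by ring

end Crest.Agent.R68.KC
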