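import Crest.Agent.R68.A3Main
import Crest.Agent.R68.A3Zone
import Crest.Agent.R68.IKInp
import Crest.Agent.R68.KC2

/-!
# Row 68, PART A (helper418): `AInp` for the envelope `B1`
-/

set_option autoImplicit false
open MeasureTheory Set Filter
open scoped ENNReal Topology Real
open Crest.AnalysisR.VecCalc3 Crest.AnalysisR.PDE.Boltzmann

noncomputable section

namespace Crest.Agent.R68.A

open Crest.Agent.R68.N
open Crest.Agent.R68.DPole (ParD)
open Crest.Agent.R68.KC (WSz CN Cm CN_pos Cm_pos newt_coldS_le mass_coldS_le coldS_supp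
  measurable_phiE phiE_supp Lc_cold' ev_mul ParD_of_Ok)
open Crest.Agent.R68.C (newt)

/-- measurable version of `B1` -/
def Wb (P : Par) (Lam rh g b : ℝ) : Fld := fun t x v =>
  ENNReal.ofReal ((min 1 (Th Lam t x v / rh ^ 2)) ^ b * gau g t v) *
    (if 0 ≤ t then Dm P t x v else 1)

theorem Wb_eq (P : Par) (Lam rh g b : ℝ) {t : ℝ} (ht : 0 ≤ t) (x : P2) (v : R3) :
    Wb P Lam rh g b t x v = B1 P Lam rh g b t x v := by
  unfold Wb B1
  rw [if_pos ht]

theorem Wb_slice (P : Par) (Lam rh g b : ℝ) {t : ℝ} (ht : 0 ≤ t) (x : P2) :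
    Wb P Lam rh g b t x = B1 P Lam rh g b t x := funext fun v => Wb_eq P Lam rh g b ht x v

theorem meas3_Wb {P : Par} (hY : 0 < P.Y) (Lam rh g b : ℝ) : Meas3 (Wb P Lam rh g b) := by
  have h1 := K.measurable_Th Lam
  have h2 := DPole.measurable_Dm (P := P) hY
  unfold Meas3 Wb
  refine Measurable.mul ?_ h2
  unfold gau
  refine ENNReal.measurable_ofReal.comp (Measurable.mul ?_ ?_)
  · exact ((measurable_const.min (h1.div_const _)).pow_const b)
  · fun_prop

/-- constant of Part A -/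
def cKA (P : Par) (g : ℝ) : ℝ :=
  K4.CC P.Y g g (P.Y + 5) * (2 * CN P) + 2 * π * (P.Y + 5) * (2 * Cm P) + K4.CQ P.Y g + K4.CL P.Y g

/-- constant of the fuel gain -/
def cqA (Y g : ℝ) : ℝ := K4.CC Y g g (Y + 5) * 288

/-- constant of the spill against `B1` -/
def cWA (Lam b q : ℝ) : ℝ := 2 ^ q * (1 + (2 * (1 + Lam)) ^ b)

theorem cqA_nonneg (Y g : ℝ) : 0 ≤ cqA Y g := by
  have := K4.CC_nonneg Y g g (Y + 5)
  unfold cqA; positivity

theorem tx_le {q : ℝ} (hq : 0 ≤ q) {t : ℝ} (ht : 0 ≤ t) (ht1 : t ≤ 1) (x : P2) :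
    tx q t x ≤ ENNReal.ofReal (2 ^ q) := by
  unfold tx
  refine ENNReal.ofReal_le_ofReal (Real.rpow_le_rpow ?_ ?_ hq)
  · have := distG_nonneg x; linarith
  · have := distG_le_one x; linarith

/-- `(t+|x|)^q e^{-|v|²} ≤ C B1` -/
theorem tx_mul_exp_le_B1 (P : Par) {Lam rh g b q : ℝ} (hL : 0 < Lam) (hrh : 0 < rh) (hrh1 : rh ≤ 1)
    (hb : 0 ≤ b) (hg : g ≤ 1) (hq : 2 * b ≤ q) {t : ℝ} (ht : 0 ≤ t) (ht1 : t ≤ 1) (x : P2) (v : R3) :
    tx q t x * ENNReal.ofReal (Real.exp (-‖v‖ ^ 2)) ≤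
      ENNReal.ofReal (cWA Lam b q) * B1 P Lam rh g b t x v := by
  have hd0 := distG_nonneg x
  have hd1 := distG_le_one x
  have hv := norm_nonneg v
  have hTh0 : 0 ≤ Th Lam t x v := K.Th_nonneg hL.le ht x v
  have hbase : (t + distG x) ^ 2 ≤ 2 * (1 + Lam) * Th Lam t x v := by
    have h1 : t ≤ Th Lam t x v := K.le_Th hL.le x v
    have h2 : distG x ^ 2 ≤ Lam * Th Lam t x v := by
      unfold Th
      rw [mul_add, mul_div_cancel₀ _ hL.ne']
      have h3 : 0 ≤ Lam * t := by positivity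
      have h4 : distG x ^ 2 ≤ (distG x + t * ‖v‖) ^ 2 := by
        apply pow_le_pow_left₀ hd0
        have : 0 ≤ t * ‖v‖ := by positivity
        linarith
      linarith
    nlinarith [sq_nonneg (t - distG x)]
  have hmain : (t + distG x) ^ q ≤ cWA Lam b q * (min 1 (Th Lam t x v / rh ^ 2)) ^ b := by
    have hs : 0 ≤ t + distG x := by positivity
    have hq0 : 0 ≤ q := by linarith
    have hC1 : (1 : ℝ) ≤ 1 + (2 * (1 + Lam)) ^ b := by
      have : 0 ≤ (2 * (1 + Lam)) ^ b := by positivity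
      linarith
    unfold cWA
    rcases le_or_gt 1 (Th Lam t x v / rh ^ 2) with h3 | h3
    · rw [min_eq_left h3, Real.one_rpow, mul_one]
      calc (t + distG x) ^ q ≤ 2 ^ q := Real.rpow_le_rpow hs (by linarith) hq0
        _ ≤ 2 ^ q * (1 + (2 * (1 + Lam)) ^ b) := le_mul_of_one_le_right (by positivity) hC1
    · rw [min_eq_right h3.le]
      rcases hs.eq_or_lt with h5 | h5
      · rw [← h5]
        rcases hq0.eq_or_lt with h6 | h6
        · have hb0 : b = 0 := by linarith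
          rw [← h6, hb0]
          simp only [Real.rpow_zero]
          norm_num
        · rw [Real.zero_rpow h6.ne']
          positivity
      · have e1 : (t + distG x) ^ q = (t + distG x) ^ (q - 2 * b) * ((t + distG x) ^ 2) ^ b := by
          rw [← Real.rpow_natCast (t + distG x) 2, ← Real.rpow_mul h5.le, ← Real.rpow_add h5]
          congr 1
          push_cast
          ring
        have e2 : (t + distG x) ^ (q - 2 * b) ≤ 2 ^ q := by
          calc (t + distG x) ^ (q - 2 * b) ≤ 2 ^ (q - 2 * b) :=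
                Real.rpow_le_rpow h5.le (by linarith) (by linarith)
            _ ≤ 2 ^ q := Real.rpow_le_rpow_of_exponent_le (by norm_num) (by linarith)
        have e3 : Th Lam t x v ≤ Th Lam t x v / rh ^ 2 := by
          rw [le_div_iff₀ (by positivity)]
          have : rh ^ 2 ≤ 1 := pow_le_one₀ hrh.le hrh1
          nlinarith
        rw [e1]
        calc (t + distG x) ^ (q - 2 * b) * ((t + distG x) ^ 2) ^ b
            ≤ 2 ^ q * (2 * (1 + Lam) * Th Lam t x v) ^ b := by gcongr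
          _ = 2 ^ q * ((2 * (1 + Lam)) ^ b * (Th Lam t x v) ^ b) := by
              rw [Real.mul_rpow (by positivity) hTh0]
          _ ≤ 2 ^ q * ((1 + (2 * (1 + Lam)) ^ b) * (Th Lam t x v / rh ^ 2) ^ b) := by
              gcongr
              linarith
          _ = _ := by ring
  have h3 : Real.exp (-‖v‖ ^ 2) ≤ gau g t v := by
    unfold gau
    apply Real.exp_le_exp.2
    have : 0 ≤ √t := Real.sqrt_nonneg t
    nlinarith [sq_nonneg ‖v‖, mul_nonneg this (sq_nonneg ‖v‖)]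
  have hC0 : 0 ≤ cWA Lam b q := by unfold cWA; positivity
  have hm0 : 0 ≤ (min 1 (Th Lam t x v / rh ^ 2)) ^ b :=
    Real.rpow_nonneg (le_min zero_le_one (by positivity)) _
  unfold tx
  calc ENNReal.ofReal ((t + distG x) ^ q) * ENNReal.ofReal (Real.exp (-‖v‖ ^ 2))
      = ENNReal.ofReal ((t + distG x) ^ q * Real.exp (-‖v‖ ^ 2)) :=
        (ENNReal.ofReal_mul (by positivity)).symm
    _ ≤ ENNReal.ofReal (cWA Lam b q * ((min 1 (Th Lam t x v / rh ^ 2)) ^ b * gau g t v)) := by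
        apply ENNReal.ofReal_le_ofReal
        rw [← mul_assoc]
        exact mul_le_mul hmain h3 (Real.exp_pos _).le (by positivity)
    _ = ENNReal.ofReal (cWA Lam b q) *
        ENNReal.ofReal ((min 1 (Th Lam t x v / rh ^ 2)) ^ b * gau g t v) :=
        ENNReal.ofReal_mul hC0
    _ ≤ _ := by
        unfold B1
        gcongr
        exact le_mul_of_one_le_right zero_le (K.one_le_Dm P t x v)

/-- the linear gain of `B1` -/
theorem Gf_B1_le {P : Par} (h : P.Ok) {Lam rh g b : ℝ} (hrh : 0 < rh) (hb : 1 ≤ b)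
    (hg : 1 / 50 ≤ g) (hLb : 8 * b * (b + 1) ≤ g * Lam) {t : ℝ} (ht : 0 ≤ t) (ht1 : t ≤ 1)
    (x : P2) (v : R3) :
    Qp (phiE P t x) (B1 P Lam rh g b t x) v + Qp (B1 P Lam rh g b t x) (phiE P t x) v ≤
      ENNReal.ofReal (cqA P.Y g) * C.rho P t x * B1 P Lam rh g b t x v := by
  have hP := ParD_of_Ok h
  have h1 := K4.Qp_cold_B1 hP ht ht1 (Lam := Lam) (rh := rh) (g := g) (b := b) (R := P.Y + 5) hg hrh
    hb hLb (c := phiE P t x) (measurable_phiE h t x) (fun y hy => phiE_supp h hy) x v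
    (N := ENNReal.ofReal (144 * (1 + t)) * C.rho P t x) (C.newt_phi_le h ht x v)
  refine h1.trans ?_
  unfold cqA
  rw [ENNReal.ofReal_mul (K4.CC_nonneg _ _ _ _)]
  have h2 : ENNReal.ofReal (144 * (1 + t)) ≤ ENNReal.ofReal 288 :=
    ENNReal.ofReal_le_ofReal (by linarith)
  calc _ ≤ ENNReal.ofReal (K4.CC P.Y g g (P.Y + 5)) * (ENNReal.ofReal 288 * C.rho P t x) *
        B1 P Lam rh g b t x v := by gcongr
    _ = _ := by ring

/-- **`AInp` for `B1`** -/
theorem aInp {P : Par} (h : P.Ok) (hY : 1 ≤ P.Y) {T Lam rh g b q : ℝ} (hT0 : 0 < T) (hT1 : T ≤ 1)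
    (hT : (1 + P.Y) * P.dl + (P.c + P.Y + etaj P.p P.j0) * T < 7 / 20)
    (hW : WSz P T) (hWm : ∀ t x, Measurable (warm P t x))
    (hL : 100 * P.Y ^ 2 ≤ Lam) (hb : 1 ≤ b) (hg : 1 / 50 ≤ g) (hg1 : g ≤ 1)
    (hLb : 8 * b * (b + 1) ≤ g * Lam) (hrh : 0 < rh) (hrh1 : rh ≤ 1) (hq : 2 * b ≤ q) :
    AInp P T (fun t x v => 2 * coldS P t x v) (Wb P Lam rh g b) q g (ENNReal.ofReal (cKA P g))
      (ENNReal.ofReal (cWA Lam b q))
      (ENNReal.ofReal (2 * P.K * cqA P.Y g * (1 / b + T / rh ^ 2 + 400 * √T)))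
      (ENNReal.ofReal (16 * T ^ (3 / 4 : ℝ))) (ENNReal.ofReal (2 ^ q)) := by
  have hP := ParD_of_Ok h
  have hK := h.K0
  have hL0 : 0 < Lam := by nlinarith
  have hCN := (CN_pos h).le
  have hCm := (Cm_pos h).le
  have e2 := K4.CC_nonneg P.Y g g (P.Y + 5)
  have e3 := K4.CQ_nonneg P.Y g
  have e5 := K4.CL_nonneg P.Y g
  have hR : 1 ≤ P.Y + 5 := by linarith
  have hπ := Real.pi_pos
  have p2 : 0 ≤ K4.CC P.Y g g (P.Y + 5) * (2 * CN P) := by positivity
  have p3 : 0 ≤ 2 * π * (P.Y + 5) * (2 * Cm P) := by positivity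
  have p5 : 0 ≤ 2 * π * (P.Y + 5) := by positivity
  have hSm : ∀ t x, Measurable (fun v => 2 * coldS P t x v) := fun t x =>
    ((measurable_phiE h t x).add (hWm t x)).const_mul 2
  have hS0 : ∀ t ∈ Ioc 0 T, ∀ x v, P.Y + 5 < ‖v‖ → 2 * coldS P t x v = 0 := fun t ht x v hv => by
    rw [coldS_supp h hW ht.1.le ht.2 hv, mul_zero]
  have hSN : ∀ t ∈ Ioc 0 T, ∀ x v, ∫⁻ u, 2 * coldS P t x u * ENNReal.ofReal ‖v - u‖⁻¹ ≤
      ENNReal.ofReal (2 * CN P / t) * Dm P t x v := fun t ht x v => by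
    have h1 : ∫⁻ u, 2 * coldS P t x u * ENNReal.ofReal ‖v - u‖⁻¹ = 2 * newt (coldS P t x) v := by
      unfold C.newt
      rw [← lintegral_const_mul' _ _ (by norm_num)]
      exact lintegral_congr fun u => mul_assoc _ _ _
    rw [h1]
    calc 2 * newt (coldS P t x) v ≤ ENNReal.ofReal 2 * (ENNReal.ofReal (CN P / t) * Dm P t x v) := by
          rw [show ENNReal.ofReal 2 = 2 by norm_num]
          exact mul_le_mul_right (newt_coldS_le h hT1 hW ht.1 ht.2 x v) _
      _ = _ := by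
          rw [← mul_assoc, ← ENNReal.ofReal_mul (by norm_num), mul_div_assoc]
  have hSM : ∀ t ∈ Ioc 0 T, ∀ x, ∫⁻ u, 2 * coldS P t x u ≤ ENNReal.ofReal (2 * Cm P / t) :=
    fun t ht x => by
    rw [lintegral_const_mul' _ _ (by norm_num)]
    calc 2 * ∫⁻ u, coldS P t x u ≤ ENNReal.ofReal 2 * ENNReal.ofReal (Cm P / t) := by
          rw [show ENNReal.ofReal 2 = 2 by norm_num]
          exact mul_le_mul_right (mass_coldS_le h hT1 hW ht.1 ht.2 x) _
      _ = _ := by rw [← ENNReal.ofReal_mul (by norm_num), mul_div_assoc]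
  have hmono : ∀ {a : ℝ} {X : ℝ≥0∞}, a ≤ cKA P g →
      ENNReal.ofReal a * X ≤ ENNReal.ofReal (cKA P g) * X := fun ha =>
    mul_le_mul_left (ENNReal.ofReal_le_ofReal ha) _
  refine ⟨ENNReal.ofReal_ne_top, ENNReal.ofReal_ne_top, ENNReal.ofReal_ne_top,
    meas3_Wb h.Y0 _ _ _ _, fun t ht x => tx_le (by linarith) ht.1.le (ht.2.trans hT1) x,
    ?_, ?_, ?_, ?_, ?_, ?_, ?_, ?_⟩
  · -- qMW
    intro t ht x v
    have ht1 : t ≤ 1 := ht.2.trans hT1
    have ht0 := ht.1
    rw [Wb_slice P Lam rh g b ht0.le x]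
    have h1 := K4.Qp_cold_B1 hP ht.1.le ht1 (Lam := Lam) (rh := rh) (b := b) hg hrh hb hLb
      (hSm t x) (hS0 t ht x) x v (hSN t ht x v)
    refine le_self_add.trans (h1.trans ?_)
    rw [mul_assoc, mul_assoc]
    calc ENNReal.ofReal (K4.CC P.Y g g (P.Y + 5)) *
          (ENNReal.ofReal (2 * CN P / t) * B1 P Lam rh g b t x v)
        = ENNReal.ofReal (K4.CC P.Y g g (P.Y + 5) * (2 * CN P)) *
          (ENNReal.ofReal (1 / t) * B1 P Lam rh g b t x v) := by
          rw [← mul_assoc, ← mul_assoc, ← ENNReal.ofReal_mul e2, ← ENNReal.ofReal_mul p2]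
          congr 2
          ring
      _ ≤ _ := hmono (by unfold cKA; linarith)
  · -- lM
    intro t ht x v
    have ht0 := ht.1
    have h1 := Lc_cold' hR (hS0 t ht x) v
    refine h1.trans ?_
    calc ENNReal.ofReal (2 * π * (P.Y + 5)) * ev v * ∫⁻ u, 2 * coldS P t x u
        ≤ ENNReal.ofReal (2 * π * (P.Y + 5)) * ev v * ENNReal.ofReal (2 * Cm P / t) :=
          mul_le_mul_right (hSM t ht x) _
      _ = ENNReal.ofReal (2 * π * (P.Y + 5)) * ENNReal.ofReal (2 * Cm P / t) * ev v := by ring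
      _ = ENNReal.ofReal (2 * π * (P.Y + 5) * (2 * Cm P)) * (ENNReal.ofReal (1 / t) * ev v) := by
          rw [← mul_assoc, ← ENNReal.ofReal_mul p5, ← ENNReal.ofReal_mul p3]
          congr 2
          ring
      _ ≤ ENNReal.ofReal (cKA P g) * (ENNReal.ofReal (1 / t) * ev v) :=
          hmono (by unfold cKA; linarith)
      _ = _ := by ring
  · -- qWW
    intro t ht x v
    rw [Wb_slice P Lam rh g b ht.1.le x]
    refine (K4.Qp_B1_B1 hP ht.1.le (ht.2.trans hT1) hg hrh hb hLb x v).trans ?_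
    rw [ev_mul _ e3, mul_assoc, mul_assoc]
    exact hmono (by unfold cKA; linarith)
  · -- lW
    intro t ht x v
    rw [Wb_slice P Lam rh g b ht.1.le x]
    refine (K4.Lc_B1 hP ht.1.le (ht.2.trans hT1) hL0.le (by linarith) hg x v).trans ?_
    rw [ev_mul _ e5]
    exact hmono (by unfold cKA; linarith)
  · -- sW
    intro t ht x v
    rw [Wb_eq P Lam rh g b ht.1.le x]
    exact tx_mul_exp_le_B1 P hL0 hrh hrh1 (by linarith) hg1 hq ht.1.le (ht.2.trans hT1) x v
  · -- WZ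
    intro t ht x v
    rw [Wb_eq P Lam rh g b ht.1.le x]
    exact K4.B1_le_Zw P hL0.le ht.1.le (by linarith) x v
  · -- TW
    intro t ht x v
    rw [Wb_eq P Lam rh g b ht.1.le x]
    unfold TT
    refine (Dam_le_Duh _ _ t x v).trans ?_
    refine Duh_fuel_B1 h hY hT1 hL hb hrh (cqA_nonneg _ _) hT (fun s hs hsT y z => ?_) ht.1 ht.2 x v
    unfold Gf
    rw [Wb_slice P Lam rh g b hs.le y]
    exact Gf_B1_le h hrh hb hg hLb hs.le (hsT.le.trans hT1) y z
  · -- ab
    intro t ht x v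
    rw [Wb_eq P Lam rh g b ht.1.le x]
    have h1 := K.Duh_lin_B1 P (Lam := Lam) (rh := rh) (g := g) (b := b) hL0 (by linarith) ht.1
      (ht.2.trans hT1) x v
    have h2 : Duh (fun s y z => ev z * Wb P Lam rh g b s y z) t x v =
        Duh (fun s x v => ENNReal.ofReal (1 + ‖v‖) * B1 P Lam rh g b s x v) t x v := by
      unfold Duh
      refine setLIntegral_congr_fun measurableSet_Ioo fun s hs => ?_
      simp only
      rw [Wb_eq P Lam rh g b hs.1.le, ENNReal.ofReal_add zero_le_one (norm_nonneg _),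
        ENNReal.ofReal_one]
      rfl
    rw [h2]
    refine h1.trans ?_
    gcongr
    · exact ht.1.le
    · exact ht.2

end Crest.Agent.R68.A
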