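import Crest.Agent.R68.NDamp
import Crest.Agent.R68.NHyp
import Crest.Agent.R68.K1b

/-!
# Row 68, PART N (helper810): `HotSol.eqn` ⟺ fixed point of `Psi`

(S1) the exponential form with the true rate `lossH` implies the fixed point equation with the
larger rate `nuT`;  (S2) conversely a bounded fixed point satisfies the exponential form.
-/

set_option autoImplicit false
open MeasureTheory Set Filter
open scoped ENNReal Topology
open Crest.AnalysisR.VecCalc3 Crest.AnalysisR.PDE.Boltzmann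

noncomputable section

namespace Crest.Agent.R68.N

open Crest.Agent.R68.ND
open Crest.Agent.R68.A (en Meas3 en_top en_zero en_antitone en_le_one en_add continuous_en
  measurable_en en_ne_top one_le_en_add measurable_flight flight_pos flight_pos0)

/-! ### one-dimensional uniqueness -/

/-- `e^{-b} ≤ e^{M} e^{-(b+a)}` for `a ≤ M < ∞` -/
theorem en_le_exp_mul {a b M : ℝ≥0∞} (haM : a ≤ M) (hM : M ≠ ⊤) :
    en b ≤ ENNReal.ofReal (Real.exp M.toReal) * en (b + a) := by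
  have ha : a ≠ ⊤ := ne_top_of_le_ne_top hM haM
  rw [← exp_mul_en_add ha b, add_comm b a]
  gcongr

/-- one step of the contraction (one side) -/
theorem unchange_step {n μ q y z : ℝ → ℝ≥0∞} (hn : Measurable n) (hμ : Measurable μ)
    {t : ℝ} (y0 : ℝ≥0∞)
    (hy : ∀ s ∈ Ioc 0 t, y s = en (O1 (fun r => n r + μ r) 0 s) * y0 +
      ∫⁻ r in Ioo 0 s, en (O1 (fun r => n r + μ r) r s) * (q r + μ r * y r))
    (hz : ∀ s ∈ Ioc 0 t, z s = en (O1 (fun r => n r + μ r) 0 s) * y0 +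
      ∫⁻ r in Ioo 0 s, en (O1 (fun r => n r + μ r) r s) * (q r + μ r * z r))
    (hM : O1 μ 0 t ≠ ⊤) {c : ℝ≥0∞} (hc : ∀ s ∈ Ioc 0 t, y s ≤ z s + c) :
    ∀ s ∈ Ioc 0 t, y s ≤ z s + c * (1 - en (O1 μ 0 t)) := by
  intro s hs
  have hMs : O1 μ 0 s ≠ ⊤ := ne_top_of_le_ne_top hM (O1_mono_right μ hs.2)
  have hmeas : Measurable fun r => en (O1 (fun r => n r + μ r) r s) * (μ r * c) := by
    have := measurable_en.comp (measurable_O1_left (hn.add hμ) s)
    exact Measurable.mul this (hμ.mul_const c)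
  have h1 : (∫⁻ r in Ioo 0 s, en (O1 (fun r => n r + μ r) r s) * (q r + μ r * y r)) ≤
      (∫⁻ r in Ioo 0 s, en (O1 (fun r => n r + μ r) r s) * (q r + μ r * z r)) +
      ∫⁻ r in Ioo 0 s, en (O1 (fun r => n r + μ r) r s) * (μ r * c) := by
    rw [← lintegral_add_right _ hmeas]
    refine setLIntegral_mono_ae' measurableSet_Ioo (Eventually.of_forall fun r hr => ?_)
    rw [← mul_add]
    refine mul_le_mul' le_rfl ?_
    calc q r + μ r * y r ≤ q r + μ r * (z r + c) := by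
          gcongr
          exact hc r ⟨hr.1, hr.2.le.trans hs.2⟩
      _ = q r + μ r * z r + μ r * c := by ring
  have h2 : (∫⁻ r in Ioo 0 s, en (O1 (fun r => n r + μ r) r s) * (μ r * c)) ≤
      c * (1 - en (O1 μ 0 t)) := by
    have h3 : (∫⁻ r in Ioo 0 s, en (O1 (fun r => n r + μ r) r s) * (μ r * c)) ≤
        ∫⁻ r in Ioo 0 s, c * (μ r * en (O1 μ r s)) := by
      refine setLIntegral_mono_ae' measurableSet_Ioo (Eventually.of_forall fun r hr => ?_)
      have h4 : en (O1 (fun r => n r + μ r) r s) ≤ en (O1 μ r s) :=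
        en_antitone (O1_mono fun r _ => le_add_self)
      calc en (O1 (fun r => n r + μ r) r s) * (μ r * c) ≤ en (O1 μ r s) * (μ r * c) := by gcongr
        _ = c * (μ r * en (O1 μ r s)) := by ring
    refine h3.trans ?_
    have hm2 : Measurable fun r => μ r * en (O1 μ r s) :=
      hμ.mul (measurable_en.comp (measurable_O1_left hμ s))
    rw [lintegral_const_mul _ hm2]
    refine mul_le_mul' le_rfl ?_
    have h5 := ftc_back_fin' hμ le_rfl hs.1.le hMs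
    have h6 : (∫⁻ r in Ioo 0 s, μ r * en (O1 μ r s)) = 1 - en (O1 μ 0 s) := by
      rw [← h5, ENNReal.add_sub_cancel_right (en_ne_top _)]
    rw [h6]
    exact tsub_le_tsub_left (en_antitone (O1_mono_right μ hs.2)) 1
  calc y s = en (O1 (fun r => n r + μ r) 0 s) * y0 +
        ∫⁻ r in Ioo 0 s, en (O1 (fun r => n r + μ r) r s) * (q r + μ r * y r) := hy s hs
    _ ≤ en (O1 (fun r => n r + μ r) 0 s) * y0 +
        ((∫⁻ r in Ioo 0 s, en (O1 (fun r => n r + μ r) r s) * (q r + μ r * z r)) +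
        c * (1 - en (O1 μ 0 t))) := by
        gcongr
        exact h1.trans (add_le_add le_rfl h2)
    _ = z s + c * (1 - en (O1 μ 0 t)) := by rw [hz s hs]; ring

theorem unchange_le {n μ q y z : ℝ → ℝ≥0∞} (hn : Measurable n) (hμ : Measurable μ)
    {t : ℝ} (y0 : ℝ≥0∞)
    (hy : ∀ s ∈ Ioc 0 t, y s = en (O1 (fun r => n r + μ r) 0 s) * y0 +
      ∫⁻ r in Ioo 0 s, en (O1 (fun r => n r + μ r) r s) * (q r + μ r * y r))
    (hz : ∀ s ∈ Ioc 0 t, z s = en (O1 (fun r => n r + μ r) 0 s) * y0 +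
      ∫⁻ r in Ioo 0 s, en (O1 (fun r => n r + μ r) r s) * (q r + μ r * z r))
    (hM : O1 μ 0 t ≠ ⊤) {c : ℝ≥0∞} (hcT : c ≠ ⊤) (hc : ∀ s ∈ Ioc 0 t, y s ≤ z s + c) :
    ∀ s ∈ Ioc 0 t, y s ≤ z s := by
  set th : ℝ≥0∞ := 1 - en (O1 μ 0 t) with hth
  have hth1 : th < 1 := by
    refine ENNReal.sub_lt_self ENNReal.one_ne_top one_ne_zero ?_
    rw [en_eq_ofReal hM]
    exact (ENNReal.ofReal_pos.2 (Real.exp_pos _)).ne'
  have h1 : ∀ k : ℕ, ∀ s ∈ Ioc 0 t, y s ≤ z s + c * th ^ k := by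
    intro k
    induction k with
    | zero => simpa using hc
    | succ k ih =>
      intro s hs
      have := unchange_step hn hμ y0 hy hz hM ih s hs
      rwa [mul_assoc, ← hth, ← pow_succ] at this
  intro s hs
  have h2 : Tendsto (fun k : ℕ => z s + c * th ^ k) atTop (𝓝 (z s + c * 0)) :=
    tendsto_const_nhds.add (ENNReal.Tendsto.const_mul
      (ENNReal.tendsto_pow_atTop_nhds_zero_of_lt_one hth1) (Or.inr hcT))
  have h3 := ge_of_tendsto' h2 (fun k => h1 k s hs)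
  simpa using h3

/-- (I3) a bounded solution with the rate `n + μ` is the solution with the rate `n` -/
theorem unchange_rate {n μ q y : ℝ → ℝ≥0∞} (hn : Measurable n) (hμ : Measurable μ)
    (hq : Measurable q) {t : ℝ} (y0 : ℝ≥0∞)
    (hy : ∀ s ∈ Ioc 0 t, y s = en (O1 (fun r => n r + μ r) 0 s) * y0 +
      ∫⁻ r in Ioo 0 s, en (O1 (fun r => n r + μ r) r s) * (q r + μ r * y r))
    (hM : O1 μ 0 t ≠ ⊤) {B : ℝ≥0∞} (hB : B ≠ ⊤) (hyB : ∀ s ∈ Ioc 0 t, y s ≤ B) :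
    ∀ s ∈ Ioc 0 t, y s = en (O1 n 0 s) * y0 + ∫⁻ r in Ioo 0 s, en (O1 n r s) * q r := by
  set Y : ℝ → ℝ≥0∞ := fun s => en (O1 n 0 s) * y0 + ∫⁻ r in Ioo 0 s, en (O1 n r s) * q r with hY
  set eM : ℝ≥0∞ := ENNReal.ofReal (Real.exp (O1 μ 0 t).toReal) with heM
  have hO : ∀ r s, O1 (fun r => n r + μ r) r s = O1 n r s + O1 μ r s := fun r s => O1_add hn r s
  have hsub : ∀ r s, 0 ≤ r → s ≤ t → O1 μ r s ≤ O1 μ 0 t := fun r s hr hs =>
    (O1_mono_left μ hr).trans (O1_mono_right μ hs)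
  have hz : ∀ s ∈ Ioc 0 t, Y s = en (O1 (fun r => n r + μ r) 0 s) * y0 +
      ∫⁻ r in Ioo 0 s, en (O1 (fun r => n r + μ r) r s) * (q r + μ r * Y r) := by
    intro s hs
    exact change_rate (y := Y) hn hμ hq hs.1.le y0 (fun r _ => rfl)
      (fun r h1 _ => ne_top_of_le_ne_top hM (hsub r s h1.le hs.2))
  have hYB : ∀ s ∈ Ioc 0 t, Y s ≤ eM * B := by
    intro s hs
    refine le_trans ?_ (mul_le_mul' le_rfl (hyB s hs))
    rw [hy s hs, mul_add]
    refine add_le_add ?_ ?_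
    · rw [← mul_assoc, hO]
      exact mul_le_mul' (en_le_exp_mul (hsub 0 s le_rfl hs.2) hM) le_rfl
    · rw [← lintegral_const_mul' _ _ ENNReal.ofReal_ne_top]
      refine setLIntegral_mono_ae' measurableSet_Ioo (Eventually.of_forall fun r hr => ?_)
      rw [← mul_assoc, hO]
      exact mul_le_mul' (en_le_exp_mul (hsub r s hr.1.le hs.2) hM) le_self_add
  intro s hs
  apply le_antisymm
  · exact unchange_le hn hμ y0 hy hz hM hB (fun s hs => (hyB s hs).trans le_add_self) s hs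
  · exact unchange_le hn hμ y0 hz hy hM (ENNReal.mul_ne_top ENNReal.ofReal_ne_top hB)
      (fun s hs => (hYB s hs).trans le_add_self) s hs

/-- (I3) along a flight -/
theorem unchange_rate_flight {n n' q H : Fld} {h0 : P2 → R3 → ℝ≥0∞} (hn : Meas3 n)
    (hn' : Meas3 n') (hq : Meas3 q) {t : ℝ} {x : P2} {v : R3} (ht : 0 < t)
    (hle : ∀ s ∈ Ioo 0 t, n s (x - (t - s) • bar v) v ≤ n' s (x - (t - s) • bar v) v)
    (hH : ∀ s ∈ Ioc 0 t, H s (x - (t - s) • bar v) v =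
      Dat n' h0 s (x - (t - s) • bar v) v +
        Dam n' (fun s y z => q s y z + (n' s y z - n s y z) * H s y z) s
          (x - (t - s) • bar v) v)
    (hM : acc (fun s y z => n' s y z - n s y z) 0 t x v ≠ ⊤) {B : ℝ≥0∞} (hB : B ≠ ⊤)
    (hHB : ∀ s ∈ Ioc 0 t, H s (x - (t - s) • bar v) v ≤ B) :
    H t x v = Dat n h0 t x v + Dam n q t x v := by
  set n1 : ℝ → ℝ≥0∞ := fun r => n r (x - (t - r) • bar v) v with hn1
  set μ1 : ℝ → ℝ≥0∞ := fun r => n' r (x - (t - r) • bar v) v - n r (x - (t - r) • bar v) v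
    with hμ1
  set q1 : ℝ → ℝ≥0∞ := fun r => q r (x - (t - r) • bar v) v with hq1
  set y1 : ℝ → ℝ≥0∞ := fun r => H r (x - (t - r) • bar v) v with hy1
  have hO : ∀ r s, 0 ≤ r → s ≤ t →
      O1 (fun r => n' r (x - (t - r) • bar v) v) r s = O1 (fun r => n1 r + μ1 r) r s := by
    intro r s hr hs
    unfold O1
    refine setLIntegral_congr_fun measurableSet_Ioo fun τ hτ => ?_
    exact (add_tsub_cancel_of_le (hle τ ⟨hr.trans_lt hτ.1, hτ.2.trans_le hs⟩)).symm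
  have hform : ∀ s ∈ Ioc 0 t, y1 s =
      en (O1 (fun r => n1 r + μ1 r) 0 s) * h0 (x - t • bar v) v +
      ∫⁻ r in Ioo 0 s, en (O1 (fun r => n1 r + μ1 r) r s) * (q1 r + μ1 r * y1 r) := by
    intro s hs
    rw [hy1]
    simp only
    rw [hH s hs]
    unfold Dat Dam
    rw [acc_flight, flight_pos0, hO 0 s le_rfl hs.2]
    congr 1
    refine setLIntegral_congr_fun measurableSet_Ioo fun r hr => ?_
    simp only
    rw [acc_flight, flight_pos, hO r s hr.1.le hs.2]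
  have key := unchange_rate (measurable_flight hn t x v)
    ((measurable_flight hn' t x v).sub (measurable_flight hn t x v))
    (measurable_flight hq t x v) (h0 (x - t • bar v) v) hform hM hB hHB t ⟨ht, le_rfl⟩
  have h2 : H t x v = y1 t := by simp [hy1]
  rw [h2, key]
  rfl

/-! ### (S1), (S2) -/

section main

open Crest.Agent.R68.K (Dw_flight Dm_flight)

variable {P : Par} {T V : ℝ} {Cf Sf : Fld → Fld} {Mc Wm : Fld} {CC CK : ℝ≥0∞} {q g g1 g2 : ℝ}
  {L0 : ℝ≥0∞}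

/-- the reference rate on `(0,T]` -/
theorem nuT_le (hC : ColdInp P T V Cf Sf Mc Wm CC q) (hK : KInp P T Mc Wm q g g1 g2 CK)
    {t : ℝ} (ht : t ∈ Ioc 0 T) (x : P2) (v : R3) :
    nuT P L0 t x v ≤ (CK * ENNReal.ofReal (1 / t) + L0) * ev v := by
  have h1 : nuf P t x v ≤ Lc (Mc t x) v := A.Lc_mono (fun z => hC.phi_le t ht x z) v
  calc nuT P L0 t x v = nuf P t x v + L0 * ev v := rfl
    _ ≤ CK * ENNReal.ofReal (1 / t) * ev v + L0 * ev v := by
        gcongr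
        exact h1.trans (hK.lM t ht x v)
    _ = _ := by ring

private theorem ev_ne_top (v : R3) : ev v ≠ ⊤ := by
  unfold ev
  exact ENNReal.add_ne_top.2 ⟨ENNReal.one_ne_top, ENNReal.ofReal_ne_top⟩

/-- the reference optical depth of a window `(r,t)`, `r > 0`, is finite -/
theorem acc_nuT_ne_top (hC : ColdInp P T V Cf Sf Mc Wm CC q)
    (hK : KInp P T Mc Wm q g g1 g2 CK) (hL0 : L0 ≠ ⊤) {t : ℝ} (htT : t ≤ T) (x : P2) (v : R3)
    {r : ℝ} (hr : 0 < r) : acc (nuT P L0) r t x v ≠ ⊤ := by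
  have h1 : acc (nuT P L0) r t x v ≤
      ∫⁻ _ in Ioo r t, (CK * ENNReal.ofReal (1 / r) + L0) * ev v := by
    unfold acc
    refine setLIntegral_mono_ae' measurableSet_Ioo (Eventually.of_forall fun s hs => ?_)
    have hs0 : 0 < s := hr.trans hs.1
    refine (nuT_le hC hK ⟨hs0, hs.2.le.trans htT⟩ _ v).trans ?_
    have h2 : (1 : ℝ) / s ≤ 1 / r := one_div_le_one_div_of_le hr hs.1.le
    gcongr
  refine ne_top_of_le_ne_top ?_ h1
  rw [setLIntegral_const]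
  refine ENNReal.mul_ne_top (ENNReal.mul_ne_top ?_ (ev_ne_top v)) (by simp)
  exact ENNReal.add_ne_top.2 ⟨ENNReal.mul_ne_top hK.ne ENNReal.ofReal_ne_top, hL0⟩

/-- `Psi` in terms of `Dat`, `Dam` -/
theorem Psi_eq (P : Par) (L0 : ℝ≥0∞) (Cf Sf : Fld → Fld) (H0 : P2 → R3 → ℝ≥0∞) (H : Fld)
    (t : ℝ) (x : P2) (v : R3) :
    Psi P L0 Cf Sf H0 H t x v = Dat (nuT P L0) H0 t x v +
      Dam (nuT P L0) (fun s y z => gainH (Cf (LcF H)) (Sf (LcF H)) H s y z +
        (nuT P L0 s y z - lossH (Cf (LcF H)) H s y z) * H s y z) t x v := rfl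

theorem meas_aux (hphi : Meas3 (phiE P)) (hC : ColdInp P T V Cf Sf Mc Wm CC q) {H : Fld}
    (mH : Meas3 H) (pH : PerF H) :
    Meas3 (Cf (LcF H)) ∧ Meas3 (Sf (LcF H)) ∧ Meas3 (lossH (Cf (LcF H)) H) ∧
      Meas3 (gainH (Cf (LcF H)) (Sf (LcF H)) H) ∧ Meas3 (nuT P L0) := by
  have m1 : Meas3 (LcF H) := A.meas3_Lc mH
  have p1 : PerF (LcF H) := by
    intro t v x k
    have : H t (x + latt k) = H t x := by funext z; exact pH t z x k
    simp only [LcF, this]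
  have mc := hC.measC _ m1 p1
  have ms := hC.measS _ m1 p1
  refine ⟨mc, ms, A.meas3_Lc (mc.add mH), ?_, ?_⟩
  · exact Measurable.add (Measurable.add (Measurable.add ms (A.meas3_Qp mc mH))
      (A.meas3_Qp mH mc)) (A.meas3_Qp mH mH)
  · unfold Meas3 nuT
    refine Measurable.add (A.meas3_Lc hphi) ?_
    fun_prop

/-- the points of the flight ending in `(t,x,v)` with `D > 0` have `D > 0` -/
theorem Dw_pos_flight {t : ℝ} {x : P2} {v : R3} (hD : 0 < Dw P t x v) {s : ℝ}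
    (hs : s ∈ Ioc 0 t) : 0 < Dw P s (x - (t - s) • bar v) v :=
  hD.trans_le (Dw_flight P hs.1.le hs.2 x v)

/-- **(S1)** a solution in exponential form is a fixed point of `Psi` -/
theorem HotSol.eq_Psi (hphi : Meas3 (phiE P)) (hC : ColdInp P T V Cf Sf Mc Wm CC q)
    (hK : KInp P T Mc Wm q g g1 g2 CK) (hL0 : L0 ≠ ⊤) {H0 : P2 → R3 → ℝ≥0∞} {H : Fld}
    (hH : HotSol P Cf Sf H0 T H)
    (hle : ∀ t ∈ Ioc 0 T, ∀ x v, lossH (Cf (LcF H)) H t x v ≤ nuT P L0 t x v) :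
    ∀ t ∈ Ioc 0 T, ∀ x v, 0 < Dw P t x v → H t x v = Psi P L0 Cf Sf H0 H t x v := by
  intro t ht x v hD
  obtain ⟨-, -, ml, mg, mn⟩ := meas_aux (L0 := L0) hphi hC hH.meas hH.per
  rw [Psi_eq]
  refine change_rate_flight' ml mn mg ht.1 (fun s hs => hle s ⟨hs.1, hs.2.le.trans ht.2⟩ _ _) ?_
    (fun r hr _ => acc_nuT_ne_top hC hK hL0 ht.2 x v hr)
  intro s hs
  exact hH.eqn s ⟨hs.1, hs.2.trans ht.2⟩ _ v (Dw_pos_flight hD hs)

/-- the Gaussian weight times `D^{-3/2}` is bounded along flights -/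
theorem gau_Dm_flight {C : ℝ≥0∞} {g0 : ℝ} {t : ℝ} {x : P2} {v : R3} {s : ℝ} (hs : s ∈ Ioc 0 t) :
    C * (ENNReal.ofReal (gau g0 s v) * Dm P s (x - (t - s) • bar v) v) ≤
      C * (ENNReal.ofReal (gau g0 t v) * Dm P t x v) := by
  have h1 : gau g0 s v ≤ gau g0 t v := by
    unfold gau
    refine Real.exp_le_exp.2 ?_
    have := Real.sqrt_le_sqrt hs.2
    have h2 : 0 ≤ ‖v‖ ^ 2 := by positivity
    nlinarith
  gcongr
  exact Dm_flight P hs.1.le hs.2 x v

theorem Dm_ne_top {t : ℝ} {x : P2} {v : R3} (hD : 0 < Dw P t x v) : Dm P t x v ≠ ⊤ := by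
  unfold Dm
  refine ENNReal.rpow_ne_top_of_ne_zero ?_ ENNReal.ofReal_ne_top
  exact (ENNReal.ofReal_pos.2 hD).ne'

/-- **(S2)** a fixed point of `Psi` with `H ≤ C Z_{g0}` and `nuT - lossH ≤ C (1+|v|)` is a
solution in exponential form -/
theorem HotSol_of_Psi (hphi : Meas3 (phiE P)) (hC : ColdInp P T V Cf Sf Mc Wm CC q)
    {H0 : P2 → R3 → ℝ≥0∞} {H : Fld} (mH : Meas3 H) (pH : PerF H)
    (hfix : ∀ t ∈ Ioc 0 T, ∀ x v, 0 < Dw P t x v → H t x v = Psi P L0 Cf Sf H0 H t x v)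
    (hle : ∀ t ∈ Ioc 0 T, ∀ x v, lossH (Cf (LcF H)) H t x v ≤ nuT P L0 t x v)
    {C3 : ℝ≥0∞} (hC3 : C3 ≠ ⊤)
    (hmu : ∀ t ∈ Ioc 0 T, ∀ x v, nuT P L0 t x v ≤ lossH (Cf (LcF H)) H t x v + C3 * ev v)
    {C2 : ℝ≥0∞} (hC2 : C2 ≠ ⊤) {g0 : ℝ}
    (hb : ∀ t ∈ Ioc 0 T, ∀ x v, H t x v ≤ C2 * Zg P g0 t x v) :
    HotSol P Cf Sf H0 T H := by
  obtain ⟨-, -, ml, mg, mn⟩ := meas_aux (L0 := L0) hphi hC mH pH
  refine ⟨mH, pH, fun t ht x v hD => ?_⟩
  refine unchange_rate_flight (n' := nuT P L0) ml mn mg ht.1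
    (fun s hs => hle s ⟨hs.1, hs.2.le.trans ht.2⟩ _ _) ?_ ?_
    (B := C2 * (ENNReal.ofReal (gau g0 t v) * Dm P t x v)) ?_ ?_
  · intro s hs
    rw [← Psi_eq]
    exact hfix s ⟨hs.1, hs.2.trans ht.2⟩ _ v (Dw_pos_flight hD hs)
  · have h1 : acc (fun s y z => nuT P L0 s y z - lossH (Cf (LcF H)) H s y z) 0 t x v ≤
        ∫⁻ _ in Ioo 0 t, C3 * ev v := by
      unfold acc
      refine setLIntegral_mono_ae' measurableSet_Ioo (Eventually.of_forall fun s hs => ?_)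
      rw [tsub_le_iff_left]
      exact hmu s ⟨hs.1, hs.2.le.trans ht.2⟩ _ v
    refine ne_top_of_le_ne_top ?_ h1
    rw [setLIntegral_const]
    exact ENNReal.mul_ne_top (ENNReal.mul_ne_top hC3 (ev_ne_top v)) (by simp)
  · exact ENNReal.mul_ne_top hC2 (ENNReal.mul_ne_top ENNReal.ofReal_ne_top (Dm_ne_top hD))
  · intro s hs
    exact (hb s ⟨hs.1, hs.2.trans ht.2⟩ _ v).trans (gau_Dm_flight hs)

end main

end Crest.Agent.R68.N
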