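import Crest.Agent.R68.NLip
import Crest.Agent.R68.NStart

/-!
# Row 68, PART A (helper418): the unburnt solution (abstract form)

`W` = envelope of the hot component (`B1` in the application).
-/

set_option autoImplicit false
open MeasureTheory Set Filter
open scoped ENNReal Topology
open Crest.AnalysisR.VecCalc3 Crest.AnalysisR.PDE.Boltzmann

noncomputable section

namespace Crest.Agent.R68.A

open Crest.Agent.R68.N

/-- What Part A needs from Parts K and F on `(0,T]` -/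
structure AInp (P : Par) (T : ℝ) (Mc W : Fld) (q g0 : ℝ) (CK CW θ1 θ2 X : ℝ≥0∞) : Prop where
  ne : CK ≠ ⊤
  neW : CW ≠ ⊤
  neX : X ≠ ⊤
  measW : Meas3 W
  hX : ∀ t ∈ Ioc 0 T, ∀ x, tx q t x ≤ X
  qMW : ∀ t ∈ Ioc 0 T, ∀ x v, Qp (Mc t x) (W t x) v ≤ CK * ENNReal.ofReal (1 / t) * W t x v
  lM : ∀ t ∈ Ioc 0 T, ∀ x v, Lc (Mc t x) v ≤ CK * ENNReal.ofReal (1 / t) * ev v
  qWW : ∀ t ∈ Ioc 0 T, ∀ x v, Qp (W t x) (W t x) v ≤ CK * ev v * W t x v
  lW : ∀ t ∈ Ioc 0 T, ∀ x v, Lc (W t x) v ≤ CK * ev v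
  sW : ∀ t ∈ Ioc 0 T, ∀ x v, tx q t x * ENNReal.ofReal (Real.exp (-‖v‖ ^ 2)) ≤ CW * W t x v
  WZ : ∀ t ∈ Ioc 0 T, ∀ x v, W t x v ≤ Zg P g0 t x v
  TW : ∀ t ∈ Ioc 0 T, ∀ x v, TT P W t x v ≤ θ1 * W t x v
  ab : ∀ t ∈ Ioc 0 T, ∀ x v, Duh (fun s y z => ev z * W s y z) t x v ≤ θ2 * W t x v

/-- bound of the distance of the cold component from the free fuel, times the density bound -/
def cB (CC CK EV X ρ : ℝ≥0∞) : ℝ≥0∞ := CC * (ρ * CK * EV + X + 1) * CK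

/-- the constant `L0` in the damping rate -/
def cL0 (CC CK EV X ρ : ℝ≥0∞) : ℝ≥0∞ := cB CC CK EV X ρ + ρ * CK

/-- the Lipschitz constant of the remainder -/
def cTot (CC CK CW EV X ρ : ℝ≥0∞) : ℝ≥0∞ :=
  CC * (CK * EV) * CW + 2 * (CC * (CK * EV) * ρ * CK) + 2 * cB CC CK EV X ρ +
    2 * (ρ * CK) + (CC * (CK * EV) * CK + CK) * ρ + (cB CC CK EV X ρ + cL0 CC CK EV X ρ)

section

variable {P : Par} {T V : ℝ} {Cf Sf : Fld → Fld} {Mc Wm W : Fld} {CC CK CW θ1 θ2 X ρ : ℝ≥0∞}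
  {q g0 : ℝ} {H0 : P2 → R3 → ℝ≥0∞}

theorem ofReal_t_mul_inv {t : ℝ} (ht : 0 < t) :
    ENNReal.ofReal t * ENNReal.ofReal (1 / t) = 1 := by
  rw [← ENNReal.ofReal_mul ht.le, mul_one_div_cancel ht.ne', ENNReal.ofReal_one]

theorem one_le_ev (v : R3) : 1 ≤ ev v := le_self_add

theorem le_ev_mul (a : ℝ≥0∞) (v : R3) : a ≤ ev v * a :=
  le_mul_of_one_le_left zero_le (one_le_ev v)

theorem LcF_le (hA : AInp P T Mc W q g0 CK CW θ1 θ2 X) {H : Fld} {d : ℝ≥0∞} (hd : d ≠ ⊤)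
    (hH : ∀ t ∈ Ioc 0 T, ∀ x v, H t x v ≤ d * W t x v) {t : ℝ} (ht : t ∈ Ioc 0 T) (x : P2)
    (v : R3) : Lc (H t x) v ≤ d * CK * ev v := by
  calc Lc (H t x) v ≤ Lc (fun z => d * W t x z) v := Lc_mono (fun z => hH t ht x z) v
    _ = d * Lc (W t x) v := Lc_const_mul hd _ v
    _ ≤ d * (CK * ev v) := by gcongr; exact hA.lW t ht x v
    _ = _ := by ring

theorem ev_le {V : ℝ} {v : R3} (hv : ‖v‖ ≤ V) : ev v ≤ 1 + ENNReal.ofReal V := by
  unfold ev
  gcongr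

/-- distance between two cold components -/
theorem dd_cold (hC : ColdInp P T V Cf Sf Mc Wm CC q) (hA : AInp P T Mc W q g0 CK CW θ1 θ2 X)
    {H H' : Fld} (mH : Meas3 H) (pH : PerF H) (mH' : Meas3 H') (pH' : PerF H') {d : ℝ≥0∞}
    (hd : d ≠ ⊤) (hHH : ∀ t ∈ Ioc 0 T, ∀ x v, dd (H t x v) (H' t x v) ≤ d * W t x v) {t : ℝ}
    (ht : t ∈ Ioc 0 T) (x : P2) (v : R3) :
    dd (Cf (LcF H) t x v) (Cf (LcF H') t x v) ≤
      CC * ENNReal.ofReal t * (d * CK * (1 + ENNReal.ofReal V)) * Mc t x v ∧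
    dd (Sf (LcF H) t x v) (Sf (LcF H') t x v) ≤
      CC * ENNReal.ofReal t * (d * CK * (1 + ENNReal.ofReal V)) * tx q t x *
        ENNReal.ofReal (Real.exp (-‖v‖ ^ 2)) := by
  have key : ∀ s ∈ Ioc 0 T, ∀ (y : P2) (v : R3), ‖v‖ ≤ V →
      dd (LcF H s y v) (LcF H' s y v) ≤ d * CK * (1 + ENNReal.ofReal V) := by
    intro s hs y v hv
    calc dd (LcF H s y v) (LcF H' s y v) ≤ Lc (ddF H H' s y) v :=
          dd_Lc (mH.slice s y) (mH'.slice s y) v
      _ ≤ d * CK * ev v := LcF_le hA (H := ddF H H') hd hHH hs y v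
      _ ≤ _ := by gcongr; exact ev_le hv
  constructor
  · exact hC.lip _ _ (meas3_LcF mH) (perF_LcF pH) (meas3_LcF mH') (perF_LcF pH')
      (fun _ _ => d * CK * (1 + ENNReal.ofReal V)) measurable_const
      (fun _ _ _ _ _ _ _ _ => le_rfl) key t ht x v
  · exact hC.spill _ _ (meas3_LcF mH) (perF_LcF pH) (meas3_LcF mH') (perF_LcF pH')
      (fun _ _ => d * CK * (1 + ENNReal.ofReal V)) measurable_const
      (fun _ _ _ _ _ _ _ _ => le_rfl) key t ht x v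

/-- distance of the cold component from the free fuel -/
theorem dd_cold_phi (hC : ColdInp P T V Cf Sf Mc Wm CC q)
    (hA : AInp P T Mc W q g0 CK CW θ1 θ2 X)
    {H : Fld} (mH : Meas3 H) (pH : PerF H) (hρ : ρ ≠ ⊤)
    (hH : ∀ t ∈ Ioc 0 T, ∀ x v, H t x v ≤ ρ * W t x v) {t : ℝ}
    (ht : t ∈ Ioc 0 T) (x : P2) (v : R3) :
    dd (Cf (LcF H) t x v) (phiE P t x v) ≤
      CC * ENNReal.ofReal t * (ρ * CK * (1 + ENNReal.ofReal V) + X + 1) * Mc t x v := by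
  have h := hC.lip0 _ (meas3_LcF mH) (perF_LcF pH)
    (fun _ _ => ρ * CK * (1 + ENNReal.ofReal V)) measurable_const
    (fun _ _ _ _ _ _ _ _ => le_rfl) (fun s hs y v hv => by
      refine (LcF_le hA hρ hH hs y v).trans ?_
      gcongr
      exact ev_le hv) t ht x v
  refine h.trans ?_
  rw [mul_assoc (CC * ENNReal.ofReal t)]
  refine mul_le_mul_right ?_ _
  calc (ρ * CK * (1 + ENNReal.ofReal V) + tx q t x) * Mc t x v + Wm t x v
      ≤ (ρ * CK * (1 + ENNReal.ofReal V) + X) * Mc t x v + Mc t x v := by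
        gcongr
        · exact hA.hX t ht x
        · exact hC.W_le t ht x v
    _ = _ := by ring

theorem Lc_Mc_t (hA : AInp P T Mc W q g0 CK CW θ1 θ2 X) {t : ℝ} (ht : t ∈ Ioc 0 T)
    (x : P2) (v : R3) (a : ℝ≥0∞) :
    CC * ENNReal.ofReal t * a * Lc (Mc t x) v ≤ CC * a * CK * ev v := by
  calc CC * ENNReal.ofReal t * a * Lc (Mc t x) v
      ≤ CC * ENNReal.ofReal t * a * (CK * ENNReal.ofReal (1 / t) * ev v) := by
        gcongr; exact hA.lM t ht x v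
    _ = CC * a * CK * ev v * (ENNReal.ofReal t * ENNReal.ofReal (1 / t)) := by ring
    _ = _ := by rw [ofReal_t_mul_inv ht.1, mul_one]

theorem Qp_Mc_t (hA : AInp P T Mc W q g0 CK CW θ1 θ2 X) {t : ℝ} (ht : t ∈ Ioc 0 T)
    (x : P2) (v : R3) (a : ℝ≥0∞) :
    CC * ENNReal.ofReal t * a * Qp (Mc t x) (W t x) v ≤ CC * a * CK * W t x v := by
  calc CC * ENNReal.ofReal t * a * Qp (Mc t x) (W t x) v
      ≤ CC * ENNReal.ofReal t * a * (CK * ENNReal.ofReal (1 / t) * W t x v) := by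
        gcongr; exact hA.qMW t ht x v
    _ = CC * a * CK * W t x v * (ENNReal.ofReal t * ENNReal.ofReal (1 / t)) := by ring
    _ = _ := by rw [ofReal_t_mul_inv ht.1, mul_one]

theorem mulT_ne_top (hC : ColdInp P T V Cf Sf Mc Wm CC q) {t : ℝ} {a : ℝ≥0∞} (ha : a ≠ ⊤) :
    CC * ENNReal.ofReal t * a ≠ ⊤ :=
  ENNReal.mul_ne_top (ENNReal.mul_ne_top hC.CC_ne ENNReal.ofReal_ne_top) ha

/-- `Lc |c - φ| ≤ cB (1+|v|)` -/
theorem Lc_dd_phi (hC : ColdInp P T V Cf Sf Mc Wm CC q)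
    (hA : AInp P T Mc W q g0 CK CW θ1 θ2 X)
    {H : Fld} (mH : Meas3 H) (pH : PerF H) (hρ : ρ ≠ ⊤)
    (hH : ∀ t ∈ Ioc 0 T, ∀ x v, H t x v ≤ ρ * W t x v) {t : ℝ}
    (ht : t ∈ Ioc 0 T) (x : P2) (v : R3) :
    Lc (ddF (Cf (LcF H)) (phiE P) t x) v ≤ cB CC CK (1 + ENNReal.ofReal V) X ρ * ev v := by
  set a : ℝ≥0∞ := ρ * CK * (1 + ENNReal.ofReal V) + X + 1 with ha
  have haT : a ≠ ⊤ := by
    rw [ha]
    simp only [ne_eq, ENNReal.add_eq_top, not_or]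
    exact ⟨⟨ENNReal.mul_ne_top (ENNReal.mul_ne_top hρ hA.ne)
      (ENNReal.add_ne_top.2 ⟨ENNReal.one_ne_top, ENNReal.ofReal_ne_top⟩), hA.neX⟩,
      ENNReal.one_ne_top⟩
  calc Lc (ddF (Cf (LcF H)) (phiE P) t x) v
      ≤ Lc (fun z => CC * ENNReal.ofReal t * a * Mc t x z) v :=
        Lc_mono (fun z => dd_cold_phi hC hA mH pH hρ hH ht x z) v
    _ = CC * ENNReal.ofReal t * a * Lc (Mc t x) v := Lc_const_mul (mulT_ne_top hC haT) _ v
    _ ≤ CC * a * CK * ev v := Lc_Mc_t hA ht x v a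
    _ = _ := rfl

/-- the damping rate dominates the collision frequency -/
theorem lossH_le_nuT (hC : ColdInp P T V Cf Sf Mc Wm CC q)
    (hA : AInp P T Mc W q g0 CK CW θ1 θ2 X) (hphi : Meas3 (phiE P))
    {H : Fld} (mH : Meas3 H) (pH : PerF H) (hρ : ρ ≠ ⊤)
    (hH : ∀ t ∈ Ioc 0 T, ∀ x v, H t x v ≤ ρ * W t x v) {t : ℝ}
    (ht : t ∈ Ioc 0 T) (x : P2) (v : R3) :
    lossH (Cf (LcF H)) H t x v ≤ nuT P (cL0 CC CK (1 + ENNReal.ofReal V) X ρ) t x v := by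
  have mc : Meas3 (Cf (LcF H)) := hC.measC _ (meas3_LcF mH) (perF_LcF pH)
  have h1 : Lc (Cf (LcF H) t x) v ≤ nuf P t x v + Lc (ddF (Cf (LcF H)) (phiE P) t x) v := by
    unfold nuf
    rw [← Lc_add (hphi.slice t x) v]
    exact Lc_mono (fun z => le_add_dd _ _) v
  unfold lossH nuT
  rw [Lc_add (mc.slice t x) v]
  calc Lc (Cf (LcF H) t x) v + Lc (H t x) v
      ≤ (nuf P t x v + cB CC CK (1 + ENNReal.ofReal V) X ρ * ev v) + ρ * CK * ev v :=
        add_le_add (h1.trans (add_le_add le_rfl (Lc_dd_phi hC hA mH pH hρ hH ht x v)))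
          (LcF_le hA hρ hH ht x v)
    _ = _ := by unfold cL0 ev; ring

theorem nuT_le_lossH (hC : ColdInp P T V Cf Sf Mc Wm CC q)
    (hA : AInp P T Mc W q g0 CK CW θ1 θ2 X) (hphi : Meas3 (phiE P))
    {H : Fld} (mH : Meas3 H) (pH : PerF H) (hρ : ρ ≠ ⊤)
    (hH : ∀ t ∈ Ioc 0 T, ∀ x v, H t x v ≤ ρ * W t x v) {t : ℝ}
    (ht : t ∈ Ioc 0 T) (x : P2) (v : R3) :
    nuT P (cL0 CC CK (1 + ENNReal.ofReal V) X ρ) t x v ≤ lossH (Cf (LcF H)) H t x v +
      (cB CC CK (1 + ENNReal.ofReal V) X ρ + cL0 CC CK (1 + ENNReal.ofReal V) X ρ) * ev v := by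
  have mc : Meas3 (Cf (LcF H)) := hC.measC _ (meas3_LcF mH) (perF_LcF pH)
  have h1 := nuT_sub_lossH (L0 := cL0 CC CK (1 + ENNReal.ofReal V) X ρ) (P := P)
    (H := H) (mc.slice t x) (hphi.slice t x) v
  rw [tsub_le_iff_left] at h1
  refine h1.trans ?_
  rw [add_mul]
  gcongr
  exact Lc_dd_phi hC hA mH pH hρ hH ht x v

/-- the pointwise Lipschitz bound of the remainder -/
theorem restF_le (hC : ColdInp P T V Cf Sf Mc Wm CC q)
    (hA : AInp P T Mc W q g0 CK CW θ1 θ2 X) (hT1 : T ≤ 1) (hρ : ρ ≠ ⊤)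
    {H H' : Fld} (mH : Meas3 H) (pH : PerF H) (mH' : Meas3 H') (pH' : PerF H')
    (hH : ∀ t ∈ Ioc 0 T, ∀ x v, H t x v ≤ ρ * W t x v)
    (hH' : ∀ t ∈ Ioc 0 T, ∀ x v, H' t x v ≤ ρ * W t x v) {d : ℝ≥0∞} (hd : d ≠ ⊤)
    (hHH : ∀ t ∈ Ioc 0 T, ∀ x v, dd (H t x v) (H' t x v) ≤ d * W t x v) {t : ℝ}
    (ht : t ∈ Ioc 0 T) (x : P2) (v : R3) :
    restF P (cL0 CC CK (1 + ENNReal.ofReal V) X ρ) (Cf (LcF H)) (Cf (LcF H')) (Sf (LcF H))
      (Sf (LcF H')) H H' t x v ≤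
    cTot CC CK CW (1 + ENNReal.ofReal V) X ρ * d * (ev v * W t x v) := by
  set EV : ℝ≥0∞ := 1 + ENNReal.ofReal V with hEV
  have hEVT : EV ≠ ⊤ := ENNReal.add_ne_top.2 ⟨ENNReal.one_ne_top, ENNReal.ofReal_ne_top⟩
  have hdK : d * CK * EV ≠ ⊤ := ENNReal.mul_ne_top (ENNReal.mul_ne_top hd hA.ne) hEVT
  set a : ℝ≥0∞ := ρ * CK * EV + X + 1 with ha
  have haT : a ≠ ⊤ := by
    rw [ha]
    simp only [ne_eq, ENNReal.add_eq_top, not_or]
    exact ⟨⟨ENNReal.mul_ne_top (ENNReal.mul_ne_top hρ hA.ne) hEVT, hA.neX⟩, ENNReal.one_ne_top⟩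
  have mW := hA.measW
  -- the spill
  have h1 : dd (Sf (LcF H) t x v) (Sf (LcF H') t x v) ≤
      CC * (CK * EV) * CW * d * (ev v * W t x v) := by
    refine (dd_cold hC hA mH pH mH' pH' hd hHH ht x v).2.trans ?_
    have ht1 : ENNReal.ofReal t ≤ 1 := by
      rw [← ENNReal.ofReal_one]
      exact ENNReal.ofReal_le_ofReal (ht.2.trans hT1)
    calc CC * ENNReal.ofReal t * (d * CK * EV) * tx q t x * ENNReal.ofReal (Real.exp (-‖v‖ ^ 2))
        = CC * (d * CK * EV) * ENNReal.ofReal t *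
          (tx q t x * ENNReal.ofReal (Real.exp (-‖v‖ ^ 2))) := by ring
      _ ≤ CC * (d * CK * EV) * 1 * (CW * W t x v) :=
          mul_le_mul' (mul_le_mul' le_rfl ht1) (hA.sW t ht x v)
      _ = CC * (CK * EV) * CW * d * W t x v := by ring
      _ ≤ _ := by gcongr; exact le_ev_mul _ v
  -- Qp (dd c c') H
  have h2 : Qp (ddF (Cf (LcF H)) (Cf (LcF H')) t x) (H t x) v ≤
      CC * (CK * EV) * ρ * CK * d * (ev v * W t x v) := by
    calc Qp (ddF (Cf (LcF H)) (Cf (LcF H')) t x) (H t x) v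
        ≤ Qp (fun z => CC * ENNReal.ofReal t * (d * CK * EV) * Mc t x z)
            (fun z => ρ * W t x z) v :=
          Qp_mono (fun z => (dd_cold hC hA mH pH mH' pH' hd hHH ht x z).1)
            (fun z => hH t ht x z) v
      _ = ρ * (CC * ENNReal.ofReal t * (d * CK * EV) * Qp (Mc t x) (W t x) v) := by
          rw [Qp_const_mul_left (mulT_ne_top hC hdK), Qp_const_mul_right hρ]; ring
      _ ≤ ρ * (CC * (d * CK * EV) * CK * W t x v) := mul_le_mul_right (Qp_Mc_t hA ht x v _) _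
      _ = CC * (CK * EV) * ρ * CK * d * W t x v := by ring
      _ ≤ _ := by gcongr; exact le_ev_mul _ v
  -- Qp (dd c' phi) (dd H H')
  have h3 : Qp (ddF (Cf (LcF H')) (phiE P) t x) (ddF H H' t x) v ≤
      cB CC CK EV X ρ * d * (ev v * W t x v) := by
    calc Qp (ddF (Cf (LcF H')) (phiE P) t x) (ddF H H' t x) v
        ≤ Qp (fun z => CC * ENNReal.ofReal t * a * Mc t x z)
            (fun z => d * W t x z) v :=
          Qp_mono (fun z => dd_cold_phi hC hA mH' pH' hρ hH' ht x z)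
            (fun z => hHH t ht x z) v
      _ = d * (CC * ENNReal.ofReal t * a * Qp (Mc t x) (W t x) v) := by
          rw [Qp_const_mul_left (mulT_ne_top hC haT), Qp_const_mul_right hd]; ring
      _ ≤ d * (CC * a * CK * W t x v) := mul_le_mul_right (Qp_Mc_t hA ht x v _) _
      _ = cB CC CK EV X ρ * d * W t x v := by unfold cB; ring
      _ ≤ _ := by gcongr; exact le_ev_mul _ v
  -- Qp H (dd H H')
  have h4 : ∀ {K : Fld}, (∀ t ∈ Ioc 0 T, ∀ x v, K t x v ≤ ρ * W t x v) →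
      Qp (K t x) (ddF H H' t x) v ≤ ρ * CK * d * (ev v * W t x v) := by
    intro K hK
    calc Qp (K t x) (ddF H H' t x) v
        ≤ Qp (fun z => ρ * W t x z) (fun z => d * W t x z) v :=
          Qp_mono (fun z => hK t ht x z) (fun z => hHH t ht x z) v
      _ = ρ * (d * Qp (W t x) (W t x) v) := by
          rw [Qp_const_mul_left hρ, Qp_const_mul_right hd]
      _ ≤ ρ * (d * (CK * ev v * W t x v)) := by gcongr; exact hA.qWW t ht x v
      _ = _ := by ring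
  -- loss
  have h5 : (Lc (ddF (Cf (LcF H)) (Cf (LcF H')) t x) v + Lc (ddF H H' t x) v) * H t x v ≤
      (CC * (CK * EV) * CK + CK) * ρ * d * (ev v * W t x v) := by
    have e1 : Lc (ddF (Cf (LcF H)) (Cf (LcF H')) t x) v ≤ CC * (d * CK * EV) * CK * ev v := by
      calc Lc (ddF (Cf (LcF H)) (Cf (LcF H')) t x) v
          ≤ Lc (fun z => CC * ENNReal.ofReal t * (d * CK * EV) * Mc t x z) v :=
            Lc_mono (fun z => (dd_cold hC hA mH pH mH' pH' hd hHH ht x z).1) v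
        _ = CC * ENNReal.ofReal t * (d * CK * EV) * Lc (Mc t x) v :=
            Lc_const_mul (mulT_ne_top hC hdK) _ v
        _ ≤ _ := Lc_Mc_t hA ht x v _
    have e2 : Lc (ddF H H' t x) v ≤ d * CK * ev v := LcF_le hA (H := ddF H H') hd hHH ht x v
    calc (Lc (ddF (Cf (LcF H)) (Cf (LcF H')) t x) v + Lc (ddF H H' t x) v) * H t x v
        ≤ (CC * (d * CK * EV) * CK * ev v + d * CK * ev v) * (ρ * W t x v) :=
          mul_le_mul' (add_le_add e1 e2) (hH t ht x v)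
      _ = _ := by ring
  have h6 : (Lc (ddF (Cf (LcF H')) (phiE P) t x) v + cL0 CC CK EV X ρ * ev v) *
      ddF H H' t x v ≤
      (cB CC CK EV X ρ + cL0 CC CK EV X ρ) * d * (ev v * W t x v) := by
    calc _ ≤ (cB CC CK EV X ρ * ev v + cL0 CC CK EV X ρ * ev v) * (d * W t x v) :=
          mul_le_mul' (add_le_add (Lc_dd_phi hC hA mH' pH' hρ hH' ht x v) le_rfl)
            (hHH t ht x v)
      _ = _ := by ring
  unfold restF cTot
  calc _ ≤ CC * (CK * EV) * CW * d * (ev v * W t x v) +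
        2 * (CC * (CK * EV) * ρ * CK * d * (ev v * W t x v)) +
        2 * (cB CC CK EV X ρ * d * (ev v * W t x v)) +
        (ρ * CK * d * (ev v * W t x v) + ρ * CK * d * (ev v * W t x v)) +
        (CC * (CK * EV) * CK + CK) * ρ * d * (ev v * W t x v) +
        (cB CC CK EV X ρ + cL0 CC CK EV X ρ) * d * (ev v * W t x v) := by
        refine add_le_add (add_le_add (add_le_add (add_le_add (add_le_add h1 ?_) ?_)
          (add_le_add (h4 hH) (h4 hH'))) h5) h6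
        · exact mul_le_mul_right h2 _
        · exact mul_le_mul_right h3 _
    _ = _ := by ring

/-- monotonicity and homogeneity of `T` -/
theorem TT_le {k : Fld} {d : ℝ≥0∞} (hd : d ≠ ⊤)
    (hk : ∀ t ∈ Ioc 0 T, ∀ x v, k t x v ≤ d * W t x v) {t : ℝ} (htT : t ≤ T)
    (x : P2) (v : R3) : TT P k t x v ≤ d * TT P W t x v := by
  unfold TT Dam
  rw [← lintegral_const_mul' _ _ hd]
  refine setLIntegral_mono_ae' measurableSet_Ioo (Eventually.of_forall fun s hs => ?_)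
  have hs' : s ∈ Ioc 0 T := ⟨hs.1, hs.2.le.trans htT⟩
  have h1 : Gf P k s (x - (t - s) • bar v) v ≤ d * Gf P W s (x - (t - s) • bar v) v := by
    unfold Gf
    rw [mul_add]
    refine add_le_add ?_ ?_
    · rw [← Qp_const_mul_right hd]
      exact Qp_mono (fun _ => le_rfl) (fun z => hk s hs' _ z) v
    · rw [← Qp_const_mul_left hd]
      exact Qp_mono (fun z => hk s hs' _ z) (fun _ => le_rfl) v
  calc _ ≤ en (acc (nuf P) s t x v) * (d * Gf P W s (x - (t - s) • bar v) v) := by gcongr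
    _ = _ := by ring

theorem Qp_zero_right (f : R3 → ℝ≥0∞) (v : R3) : Qp f (fun _ => 0) v = 0 := by simp [Qp]
theorem Qp_zero_left (f : R3 → ℝ≥0∞) (v : R3) : Qp (fun _ => 0) f v = 0 := by simp [Qp]

/-- **PART A (abstract form): existence of the unburnt solution with envelope `ρ W`.** -/
theorem exists_HotSol (hC : ColdInp P T V Cf Sf Mc Wm CC q)
    (hA : AInp P T Mc W q g0 CK CW θ1 θ2 X) (hT1 : T ≤ 1)
    (hphi : Meas3 (phiE P)) (hphip : PerF (phiE P))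
    (mH0 : Measurable (fun p : P2 × R3 => H0 p.1 p.2)) (pH0 : ∀ v, PerG (fun x => H0 x v))
    {A0 θ3 : ℝ≥0∞} (hρ : ρ ≠ ⊤) (hρ0 : ρ ≠ 0) (hρA : A0 + θ3 ≤ 2⁻¹ * ρ)
    (hH0 : ∀ t ∈ Ioc 0 T, ∀ x v, H0 (x - t • bar v) v ≤ A0 * W t x v)
    (hsp : ∀ t ∈ Ioc 0 T, ∀ x v, Duh (Sf (LcF (fun _ _ _ => 0))) t x v ≤ θ3 * W t x v)
    (hsmall : θ1 + cTot CC CK CW (1 + ENNReal.ofReal V) X ρ * θ2 ≤ 2⁻¹) :
    ∃ H : Fld, HotSol P Cf Sf H0 T H ∧ ∀ t ∈ Ioc 0 T, ∀ x v, H t x v ≤ ρ * W t x v := by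
  set EV : ℝ≥0∞ := 1 + ENNReal.ofReal V with hEV
  set L0 := cL0 CC CK EV X ρ with hL0
  have hzero : ∀ {H : Fld}, SS T ρ (fun _ _ _ => 0) W H →
      ∀ t ∈ Ioc 0 T, ∀ x v, H t x v ≤ ρ * W t x v := by
    intro H hH t ht x v
    have := hH.2.2 t ht x v
    rwa [dd_zero] at this
  have hlip : ∀ H H', SS T ρ (fun _ _ _ => 0) W H → SS T ρ (fun _ _ _ => 0) W H' →
      ∀ d : ℝ≥0∞, d ≠ ⊤ →
      (∀ t ∈ Ioc 0 T, ∀ x v, dd (H t x v) (H' t x v) ≤ d * W t x v) →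
      ∀ t ∈ Ioc 0 T, ∀ x v,
        dd (Psi P L0 Cf Sf H0 H t x v) (Psi P L0 Cf Sf H0 H' t x v) ≤ 2⁻¹ * d * W t x v := by
    intro H H' hH hH' d hd hHH t ht x v
    have h1 := psi_lip_core (P := P) (L0 := L0) (Cf := Cf) (Sf := Sf) (H0 := H0) (H := H)
      (H' := H') hphi hH.1 hH'.1
      (hC.measC _ (meas3_LcF hH.1) (perF_LcF hH.2.1))
      (hC.measC _ (meas3_LcF hH'.1) (perF_LcF hH'.2.1))
      (hC.measS _ (meas3_LcF hH.1) (perF_LcF hH.2.1))
      (hC.measS _ (meas3_LcF hH'.1) (perF_LcF hH'.2.1)) t x v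
    refine h1.trans ?_
    have h2 : TT P (ddF H H') t x v ≤ d * (θ1 * W t x v) := by
      refine (TT_le (P := P) (W := W) hd hHH ht.2 x v).trans ?_
      gcongr
      exact hA.TW t ht x v
    have h3 : Duh (restF P L0 (Cf (LcF H)) (Cf (LcF H')) (Sf (LcF H)) (Sf (LcF H')) H H') t x v ≤
        cTot CC CK CW EV X ρ * d * (θ2 * W t x v) := by
      have e1 : Duh (restF P L0 (Cf (LcF H)) (Cf (LcF H')) (Sf (LcF H)) (Sf (LcF H')) H H') t x v
          ≤ ∫⁻ s in Ioo 0 t, cTot CC CK CW EV X ρ * d *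
            (ev v * W s (x - (t - s) • bar v) v) := by
        unfold Duh
        refine setLIntegral_mono_ae' measurableSet_Ioo (Eventually.of_forall fun s hs => ?_)
        exact restF_le hC hA hT1 hρ hH.1 hH.2.1 hH'.1 hH'.2.1 (hzero hH) (hzero hH') hd hHH
          ⟨hs.1, hs.2.le.trans ht.2⟩ _ v
      refine e1.trans ?_
      rw [lintegral_const_mul _ (by
        have : Measurable fun s : ℝ => W s (x - (t - s) • bar v) v :=
          hA.measW.comp measurable_id (by fun_prop) measurable_const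
        exact this.const_mul _)]
      exact mul_le_mul_right (hA.ab t ht x v) _
    calc _ ≤ d * (θ1 * W t x v) + cTot CC CK CW EV X ρ * d * (θ2 * W t x v) :=
          add_le_add h2 h3
      _ = (θ1 + cTot CC CK CW EV X ρ * θ2) * d * W t x v := by ring
      _ ≤ 2⁻¹ * d * W t x v := by gcongr
  have hstart : ∀ t ∈ Ioc 0 T, ∀ x v,
      dd (Psi P L0 Cf Sf H0 (fun _ _ _ => 0) t x v) ((fun _ _ _ => 0 : Fld) t x v) ≤
        (1 - 2⁻¹) * ρ * W t x v := by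
    intro t ht x v
    rw [dd_zero]
    have h1 : Psi P L0 Cf Sf H0 (fun _ _ _ => 0) t x v ≤ A0 * W t x v + θ3 * W t x v := by
      unfold Psi
      refine add_le_add ?_ ?_
      · calc _ ≤ 1 * H0 (x - t • bar v) v := by gcongr; exact en_le_one _
          _ ≤ A0 * W t x v := by rw [one_mul]; exact hH0 t ht x v
      · refine (Dam_le_Duh _ _ t x v).trans ?_
        refine le_trans (le_of_eq ?_) (hsp t ht x v)
        unfold Duh
        refine lintegral_congr fun s => ?_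
        simp only [mul_zero, add_zero]
        unfold gainH
        rw [Qp_zero_right, Qp_zero_left, Qp_zero_right]
        simp
    refine h1.trans ?_
    rw [← add_mul]
    have h2 : (1 : ℝ≥0∞) - 2⁻¹ = 2⁻¹ := ENNReal.one_sub_inv_two
    rw [h2]
    gcongr
  obtain ⟨H, hS, hfix⟩ := exists_fix (T := T) (th := 2⁻¹) (rho := ρ) (u0 := fun _ _ _ => 0)
    (W' := W) hphi hphip (L0 := L0) (Cf := Cf) (Sf := Sf)
    (fun lam m p => ⟨hC.measC lam m p, hC.perC lam m p⟩)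
    (fun lam m p => ⟨hC.measS lam m p, hC.perS lam m p⟩) mH0 pH0
    (by simp) hρ0 hρ measurable_const (fun _ _ _ _ => rfl) hlip hstart
  have hle := hzero hS
  have mH := hS.1
  have pH := hS.2.1
  have hcB : cB CC CK EV X ρ ≠ ⊤ := by
    unfold cB
    refine ENNReal.mul_ne_top (ENNReal.mul_ne_top hC.CC_ne ?_) hA.ne
    simp only [ne_eq, ENNReal.add_eq_top, not_or]
    exact ⟨⟨ENNReal.mul_ne_top (ENNReal.mul_ne_top hρ hA.ne)
      (ENNReal.add_ne_top.2 ⟨ENNReal.one_ne_top, ENNReal.ofReal_ne_top⟩), hA.neX⟩,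
      ENNReal.one_ne_top⟩
  refine ⟨H, HotSol_of_Psi (L0 := L0) (C3 := cB CC CK EV X ρ + L0) (C2 := ρ) (g0 := g0) hphi hC
    mH pH ?_ ?_ ?_ ?_ hρ ?_, hle⟩
  · intro t ht x v hD
    refine hfix t ht x v ?_
    refine ne_top_of_le_ne_top ?_ (hA.WZ t ht x v)
    exact ENNReal.mul_ne_top ENNReal.ofReal_ne_top (Dm_ne_top hD)
  · intro t ht x v
    exact lossH_le_nuT hC hA hphi mH pH hρ hle ht x v
  · rw [hL0]
    unfold cL0
    simp only [ne_eq, ENNReal.add_eq_top, not_or]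
    exact ⟨hcB, hcB, ENNReal.mul_ne_top hρ hA.ne⟩
  · intro t ht x v
    exact nuT_le_lossH hC hA hphi mH pH hρ hle ht x v
  · intro t ht x v
    refine (hle t ht x v).trans ?_
    gcongr
    exact hA.WZ t ht x v

end

end Crest.Agent.R68.A
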