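import Crest.Agent.R68.Defs
import Crest.Agent.R68.K3

/-!
# Row 68, PART A (helper418): the spill and the envelope `B1`
-/

set_option autoImplicit false
open MeasureTheory Set
open scoped ENNReal
open Crest.AnalysisR.VecCalc3 Crest.AnalysisR.PDE.Boltzmann

noncomputable section

namespace Crest.Agent.R68.A

/-- the size of the spill on `[0,T1]` (vanishes over the lattice points) -/
def spW (x : P2) (v : R3) : ℝ≥0∞ :=
  open scoped Classical in
  if distG x = 0 then 0 else ENNReal.ofReal (Real.exp (-(distG x)⁻¹) * Real.exp (-‖v‖ ^ 2))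

/-- `e^{-u} u^m ≤ m^m` -/
theorem rpow_mul_exp_neg_le {u m : ℝ} (hu : 0 ≤ u) (hm : 0 < m) :
    u ^ m * Real.exp (-u) ≤ m ^ m := by
  have h1 : u / m ≤ Real.exp (u / m) := by
    have := Real.add_one_le_exp (u / m); linarith
  have h2 : (u / m) ^ m ≤ Real.exp u := by
    calc (u / m) ^ m ≤ (Real.exp (u / m)) ^ m := Real.rpow_le_rpow (by positivity) h1 hm.le
      _ = Real.exp u := by rw [← Real.exp_mul, div_mul_cancel₀ _ hm.ne']
  rw [Real.div_rpow hu hm.le, div_le_iff₀ (by positivity)] at h2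
  rw [Real.exp_neg, ← div_eq_mul_inv, div_le_iff₀ (Real.exp_pos u), mul_comm]
  exact h2

/-- `e^{-1/z} ≤ (2b)^{2b} (z²)^b` -/
theorem exp_neg_inv_le {z b : ℝ} (hz : 0 < z) (hb : 0 < b) :
    Real.exp (-z⁻¹) ≤ (2 * b) ^ (2 * b) * (z ^ 2) ^ b := by
  have h := rpow_mul_exp_neg_le (u := z⁻¹) (m := 2 * b) (by positivity) (by positivity)
  have e : (z ^ 2) ^ b = z ^ (2 * b) := by
    rw [← Real.rpow_natCast z 2, ← Real.rpow_mul hz.le]
    norm_num
  rw [e]
  have hp : 0 < z ^ (2 * b) := Real.rpow_pos_of_pos hz _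
  rw [Real.inv_rpow hz.le] at h
  have h2 : Real.exp (-z⁻¹) = z ^ (2 * b) * ((z ^ (2 * b))⁻¹ * Real.exp (-z⁻¹)) := by
    rw [← mul_assoc, mul_inv_cancel₀ hp.ne', one_mul]
  rw [h2, mul_comm ((2 * b) ^ (2 * b))]
  gcongr

theorem distG_nonneg' (x : P2) : 0 ≤ distG x := Real.iInf_nonneg fun _ => norm_nonneg _

/-- **(b)** the spill is below a small multiple of `B1` -/
theorem Duh_spW_le (P : Par) {Lam rh g b : ℝ} (hL : 1 ≤ Lam) (hrh : 0 < rh) (hrh1 : rh ≤ 1)
    (hb : 0 < b) (hg : g ≤ 1) {t : ℝ} (ht : 0 ≤ t) (x : P2) (v : R3) :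
    Duh (fun _ y z => spW y z) t x v ≤
      ENNReal.ofReal (t * (1 + (2 * b) ^ (2 * b) * Lam ^ b)) * B1 P Lam rh g b t x v := by
  set z := distG x + t * ‖v‖ with hz
  set C : ℝ := 1 + (2 * b) ^ (2 * b) * Lam ^ b with hC
  have hC0 : 0 ≤ C := by positivity
  have hTh0 : 0 ≤ Th Lam t x v := K.Th_nonneg (by linarith) ht x v
  have hzTh : z ^ 2 ≤ Lam * Th Lam t x v := by
    unfold Th
    rw [mul_add, mul_div_cancel₀ _ (by linarith : Lam ≠ 0)]
    have : 0 ≤ Lam * t := by positivity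
    linarith
  have key : ∀ s ∈ Ioo 0 t, spW (x - (t - s) • bar v) v ≤
      ENNReal.ofReal C * B1 P Lam rh g b t x v := by
    intro s hs
    unfold spW
    split_ifs with h0
    · exact zero_le
    set y := x - (t - s) • bar v with hy
    have hy0 : 0 < distG y := lt_of_le_of_ne (distG_nonneg' y) (Ne.symm h0)
    have hyz : distG y ≤ z := by
      have h := distG_le_add x (-((t - s) • bar v))
      rw [norm_neg, norm_smul, Real.norm_of_nonneg (by linarith [hs.2]), ← sub_eq_add_neg] at h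
      have h2 : (t - s) * ‖bar v‖ ≤ t * ‖v‖ :=
        mul_le_mul (by linarith [hs.1]) (K.norm_bar_le v) (norm_nonneg _) ht
      linarith
    have hz0 : 0 < z := lt_of_lt_of_le hy0 hyz
    have h1 : Real.exp (-(distG y)⁻¹) ≤ Real.exp (-z⁻¹) := by
      apply Real.exp_le_exp.2
      have := inv_anti₀ hy0 hyz
      linarith
    have h2 : Real.exp (-z⁻¹) ≤ C * (min 1 (Th Lam t x v / rh ^ 2)) ^ b := by
      rcases le_or_gt 1 (Th Lam t x v / rh ^ 2) with h3 | h3
      · rw [min_eq_left h3, Real.one_rpow, mul_one]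
        have h4 : Real.exp (-z⁻¹) ≤ 1 := Real.exp_le_one_iff.2 (by
          have : 0 ≤ z⁻¹ := by positivity
          linarith)
        have h5 : 0 ≤ (2 * b) ^ (2 * b) * Lam ^ b := by positivity
        linarith
      · rw [min_eq_right h3.le]
        have h4 : Th Lam t x v ≤ Th Lam t x v / rh ^ 2 := by
          rw [le_div_iff₀ (by positivity)]
          have : rh ^ 2 ≤ 1 := pow_le_one₀ hrh.le hrh1
          nlinarith
        calc Real.exp (-z⁻¹) ≤ (2 * b) ^ (2 * b) * (z ^ 2) ^ b := exp_neg_inv_le hz0 hb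
          _ ≤ (2 * b) ^ (2 * b) * (Lam * Th Lam t x v) ^ b := by gcongr
          _ = (2 * b) ^ (2 * b) * Lam ^ b * (Th Lam t x v) ^ b := by
              rw [Real.mul_rpow (by linarith) hTh0]; ring
          _ ≤ C * (Th Lam t x v / rh ^ 2) ^ b := by
              apply mul_le_mul _ _ (by positivity) hC0
              · rw [hC]; linarith
              · exact Real.rpow_le_rpow hTh0 h4 hb.le
    have h3 : Real.exp (-‖v‖ ^ 2) ≤ gau g t v := by
      unfold gau
      apply Real.exp_le_exp.2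
      have : 0 ≤ √t := Real.sqrt_nonneg t
      nlinarith [sq_nonneg ‖v‖, mul_nonneg this (sq_nonneg ‖v‖)]
    have hm0 : 0 ≤ (min 1 (Th Lam t x v / rh ^ 2)) ^ b :=
      Real.rpow_nonneg (le_min zero_le_one (by positivity)) _
    calc ENNReal.ofReal (Real.exp (-(distG y)⁻¹) * Real.exp (-‖v‖ ^ 2))
        ≤ ENNReal.ofReal (C * ((min 1 (Th Lam t x v / rh ^ 2)) ^ b * gau g t v)) := by
          apply ENNReal.ofReal_le_ofReal
          rw [← mul_assoc]
          apply mul_le_mul (h1.trans h2) h3 (Real.exp_pos _).le (by positivity)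
      _ = ENNReal.ofReal C * ENNReal.ofReal ((min 1 (Th Lam t x v / rh ^ 2)) ^ b * gau g t v) :=
          ENNReal.ofReal_mul hC0
      _ ≤ ENNReal.ofReal C * B1 P Lam rh g b t x v := by
          unfold B1
          gcongr
          exact le_mul_of_one_le_right zero_le (K.one_le_Dm P t x v)
  unfold Duh
  calc ∫⁻ s in Ioo 0 t, spW (x - (t - s) • bar v) v
      ≤ ∫⁻ _ in Ioo 0 t, ENNReal.ofReal C * B1 P Lam rh g b t x v :=
        setLIntegral_mono' measurableSet_Ioo key
    _ = ENNReal.ofReal (t * C) * B1 P Lam rh g b t x v := by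
        rw [setLIntegral_const, Real.volume_Ioo, sub_zero, ENNReal.ofReal_mul ht]
        ring

end Crest.Agent.R68.A
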