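import Crest.Agent.R68.A3

/-!
# Row 68, PART A (helper810): contraction with the weight `W = φ + 16 N`, factor `1/4`
-/

set_option autoImplicit false
open MeasureTheory Set Filter
open scoped ENNReal Topology
open Crest.AnalysisR.VecCalc3 Crest.AnalysisR.PDE.Boltzmann

noncomputable section

namespace Crest.Agent.R68.A

variable {T : ℝ} {f0 h0 : P2 → R3 → ℝ≥0∞} {φ N : ℝ → P2 → R3 → ℝ≥0∞}

/-- the arithmetic of the contraction -/
theorem contr_arith {P h n X Y Z p N : ℝ≥0∞} (hP : 4 * P ≤ p) (hh : 4 * h ≤ N) (hn : 4 * n ≤ Z)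
    (hZ : 64 * Z ≤ N) (hX : 16 * X ≤ N) (hY : 32 * Y ≤ N) :
    4 * (P + (h + 16 * n) + ((2 * X + 32 * Y) + (X + Y) + 16 * Z)) ≤ p + 16 * N := by
  calc 4 * (P + (h + 16 * n) + ((2 * X + 32 * Y) + (X + Y) + 16 * Z))
      = 4 * P + 4 * h + 16 * (4 * n) + 12 * X + 132 * Y + 64 * Z := by ring
    _ ≤ p + N + 64 * Z + 16 * X + 160 * Y + N := by
        gcongr
        · norm_num
        · norm_num
        · norm_num
    _ = p + N + 64 * Z + 16 * X + 5 * (32 * Y) + N := by ring
    _ ≤ p + N + N + N + 5 * N + N := by gcongr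
    _ = p + 9 * N := by ring
    _ ≤ p + 16 * N := by gcongr; norm_num

theorem Env.contr (hE : Env T f0 h0 φ N) {F G : ℝ → P2 → R3 → ℝ≥0∞} (hF : Cls T φ N F)
    (hG : Cls T φ N G) {d : ℝ≥0∞} (hd : d ≠ ⊤)
    (hFG : ∀ t ∈ Icc 0 T, ∀ x v, F t x v ≤ G t x v + (4 * d) * (φ t x v + 16 * N t x v))
    (hGF : ∀ t ∈ Icc 0 T, ∀ x v, G t x v ≤ F t x v + (4 * d) * (φ t x v + 16 * N t x v)) :
    ∀ t ∈ Icc 0 T, ∀ x v, Ph (fun x v => f0 x v + h0 x v) F t x v ≤
      Ph (fun x v => f0 x v + h0 x v) G t x v + d * (φ t x v + 16 * N t x v) := by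
  intro t ht x v
  have hd4 : 4 * d ≠ ⊤ := ENNReal.mul_ne_top (by norm_num) hd
  -- notation
  set e := 4 * d with he
  let QE : ℝ → ℝ≥0∞ := fun s => Qp (fun z => φ s (x - (t - s) • bar v) z +
      N s (x - (t - s) • bar v) z) (fun z => φ s (x - (t - s) • bar v) z +
      N s (x - (t - s) • bar v) z) v
  have mQE : Measurable QE := measurable_Qp_flight hE.mE hE.mE t x v
  let X : ℝ≥0∞ := Duh (fun s y z => Qp (φ s y) (φ s y) z) t x v
  let Y : ℝ≥0∞ := Duh (fun s y z => Qp (φ s y) (N s y) z + Qp (N s y) (φ s y) z +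
        Qp (N s y) (N s y) z) t x v
  let Z : ℝ≥0∞ := Duh (fun s y z => Lc (N s y) z * N s y z) t x v
  have mAccN : Measurable (fun s : ℝ => Acc N s t x v) :=
    measurable_Acc hE.mN measurable_id measurable_const measurable_const measurable_const
  have mAccG : Measurable (fun s : ℝ => Acc G s t x v) :=
    measurable_Acc hG.1 measurable_id measurable_const measurable_const measurable_const
  -- comparison of the dampings, integrated form
  have hen : ∀ s, 0 ≤ s → en (Acc F s t x v) ≤ en (Acc G s t x v) + e * (1 + 16 * Acc N s t x v) := by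
    intro s hs
    refine (hE.en_le hF hd4 hGF hs ht x v).trans ?_
    gcongr
    exact hE.accW_en hF hs ht x v
  -- the gain part
  have hgain : ∫⁻ s in Ioo 0 t, en (Acc F s t x v) *
      Qp (F s (x - (t - s) • bar v)) (F s (x - (t - s) • bar v)) v ≤
      (∫⁻ s in Ioo 0 t, en (Acc G s t x v) *
      Qp (G s (x - (t - s) • bar v)) (G s (x - (t - s) • bar v)) v) +
      e * ((2 * X + 32 * Y) + (X + Y) + 16 * Z) := by
    let gg : ℝ → ℝ≥0∞ := fun s => en (Acc G s t x v) *
      Qp (G s (x - (t - s) • bar v)) (G s (x - (t - s) • bar v)) v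
    have mgg : Measurable gg :=
      (measurable_en.comp mAccG).mul (measurable_Qp_flight hG.1 hG.1 t x v)
    let aa : ℝ → ℝ≥0∞ := fun s => 2 * Qp (φ s (x - (t - s) • bar v)) (φ s (x - (t - s) • bar v)) v +
      32 * (Qp (φ s (x - (t - s) • bar v)) (N s (x - (t - s) • bar v)) v +
        Qp (N s (x - (t - s) • bar v)) (φ s (x - (t - s) • bar v)) v +
        Qp (N s (x - (t - s) • bar v)) (N s (x - (t - s) • bar v)) v)
    have maa1 : Measurable (fun s : ℝ => 2 * Qp (φ s (x - (t - s) • bar v))
        (φ s (x - (t - s) • bar v)) v) := (measurable_Qp_flight hE.mφ hE.mφ t x v).const_mul _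
    have maa2 : Measurable (fun s : ℝ => Qp (φ s (x - (t - s) • bar v)) (N s (x - (t - s) • bar v)) v
        + Qp (N s (x - (t - s) • bar v)) (φ s (x - (t - s) • bar v)) v +
        Qp (N s (x - (t - s) • bar v)) (N s (x - (t - s) • bar v)) v) :=
      ((measurable_Qp_flight hE.mφ hE.mN t x v).add
        (measurable_Qp_flight hE.mN hE.mφ t x v)).add (measurable_Qp_flight hE.mN hE.mN t x v)
    have maa : Measurable aa := maa1.add (maa2.const_mul _)
    calc _ ≤ ∫⁻ s in Ioo 0 t, (gg s + (e * aa s + (e * QE s + e * 16 * (Acc N s t x v * QE s)))) := by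
          refine setLIntegral_mono_ae' measurableSet_Ioo (Eventually.of_forall fun s hs => ?_)
          have hs' : s ∈ Icc 0 T := ⟨hs.1.le, hs.2.le.trans ht.2⟩
          have h1 : Qp (F s (x - (t - s) • bar v)) (F s (x - (t - s) • bar v)) v ≤ QE s :=
            Qp_mono (fun z => (hF.2 s hs' _ z).2) (fun z => (hF.2 s hs' _ z).2) v
          have h2 := hE.gain_le hF hG hd4 hFG hs' (x - (t - s) • bar v) v
          calc en (Acc F s t x v) * Qp (F s (x - (t - s) • bar v)) (F s (x - (t - s) • bar v)) v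
              ≤ (en (Acc G s t x v) + e * (1 + 16 * Acc N s t x v)) *
                Qp (F s (x - (t - s) • bar v)) (F s (x - (t - s) • bar v)) v :=
                mul_le_mul' (hen s hs.1.le) le_rfl
            _ = en (Acc G s t x v) * Qp (F s (x - (t - s) • bar v)) (F s (x - (t - s) • bar v)) v +
                e * (1 + 16 * Acc N s t x v) *
                Qp (F s (x - (t - s) • bar v)) (F s (x - (t - s) • bar v)) v := by rw [add_mul]
            _ ≤ en (Acc G s t x v) * (Qp (G s (x - (t - s) • bar v)) (G s (x - (t - s) • bar v)) v +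
                e * aa s) + e * (1 + 16 * Acc N s t x v) * QE s :=
                add_le_add (mul_le_mul' le_rfl h2) (mul_le_mul' le_rfl h1)
            _ ≤ gg s + 1 * (e * aa s) + e * (1 + 16 * Acc N s t x v) * QE s := by
                rw [mul_add]
                gcongr
                exact en_le_one _
            _ = _ := by ring
      _ = (∫⁻ s in Ioo 0 t, gg s) + (e * (∫⁻ s in Ioo 0 t, aa s) + (e * (∫⁻ s in Ioo 0 t, QE s) +
          e * 16 * ∫⁻ s in Ioo 0 t, Acc N s t x v * QE s)) := by
          rw [lintegral_add_left mgg, lintegral_add_left (maa.const_mul _),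
            lintegral_add_left (mQE.const_mul _), lintegral_const_mul' _ _ hd4,
            lintegral_const_mul' _ _ hd4,
            lintegral_const_mul' _ _ (ENNReal.mul_ne_top hd4 (by norm_num))]
      _ ≤ (∫⁻ s in Ioo 0 t, gg s) + (e * (2 * X + 32 * Y) + (e * (X + Y) + e * 16 * Z)) := by
          have h3 : (∫⁻ s in Ioo 0 t, aa s) = 2 * X + 32 * Y := by
            rw [show (∫⁻ s in Ioo 0 t, aa s) = ∫⁻ s in Ioo 0 t, (2 * Qp (φ s (x - (t - s) • bar v))
              (φ s (x - (t - s) • bar v)) v +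
              32 * (Qp (φ s (x - (t - s) • bar v)) (N s (x - (t - s) • bar v)) v +
              Qp (N s (x - (t - s) • bar v)) (φ s (x - (t - s) • bar v)) v +
              Qp (N s (x - (t - s) • bar v)) (N s (x - (t - s) • bar v)) v)) from rfl,
              lintegral_add_left maa1, lintegral_const_mul' _ _ (by norm_num),
              lintegral_const_mul' _ _ (by norm_num)]
            rfl
          have h4 : (∫⁻ s in Ioo 0 t, QE s) = X + Y := hE.DuhEE t x v
          have h5 : (∫⁻ s in Ioo 0 t, Acc N s t x v * QE s) ≤ Z := by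
            have := hE.triangle ht x v
            refine le_trans ?_ this
            calc _ = 1 * (∫⁻ s in Ioo 0 t, Acc N s t x v * QE s) := by rw [one_mul]
              _ ≤ 2 * (∫⁻ s in Ioo 0 t, Acc N s t x v * QE s) := by gcongr; norm_num
          rw [h3, h4]
          gcongr
      _ = _ := by ring
  -- the initial part
  have hinit : (f0 (x - t • bar v) v + h0 (x - t • bar v) v) * en (Acc F 0 t x v) ≤
      (f0 (x - t • bar v) v + h0 (x - t • bar v) v) * en (Acc G 0 t x v) +
      e * (φ t x v * Acc (fun a y z => φ a y z + 16 * N a y z) 0 t x v +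
        (h0 (x - t • bar v) v + 16 * (h0 (x - t • bar v) v * Acc N 0 t x v))) := by
    rw [← hE.free t ht x v, add_mul, add_mul]
    have h1 : φ t x v * en (Acc F 0 t x v) ≤ φ t x v * en (Acc G 0 t x v) +
        e * (φ t x v * Acc (fun a y z => φ a y z + 16 * N a y z) 0 t x v) := by
      calc φ t x v * en (Acc F 0 t x v) ≤ φ t x v * (en (Acc G 0 t x v) +
            e * (Acc (fun a y z => φ a y z + 16 * N a y z) 0 t x v * en (Acc F 0 t x v))) :=
            mul_le_mul' le_rfl (hE.en_le hF hd4 hGF le_rfl ht x v)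
        _ ≤ φ t x v * (en (Acc G 0 t x v) +
            e * (Acc (fun a y z => φ a y z + 16 * N a y z) 0 t x v * 1)) := by
            gcongr; exact en_le_one _
        _ = _ := by ring
    have h2 : h0 (x - t • bar v) v * en (Acc F 0 t x v) ≤ h0 (x - t • bar v) v *
        en (Acc G 0 t x v) + e * (h0 (x - t • bar v) v + 16 * (h0 (x - t • bar v) v *
          Acc N 0 t x v)) := by
      calc _ ≤ h0 (x - t • bar v) v * (en (Acc G 0 t x v) + e * (1 + 16 * Acc N 0 t x v)) :=
            mul_le_mul' le_rfl (hen 0 le_rfl)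
        _ = _ := by ring
    calc _ ≤ _ := add_le_add h1 h2
      _ = _ := by ring
  unfold Ph
  refine (add_le_add hinit hgain).trans ?_
  have hP : 4 * (φ t x v * Acc (fun a y z => φ a y z + 16 * N a y z) 0 t x v) ≤ φ t x v := by
    by_cases hφ : φ t x v = 0
    · rw [hφ]; simp
    have h1 := hE.nuφ t ht x v hφ
    have h2 : Acc (fun a y z => φ a y z + 16 * N a y z) 0 t x v ≤
        16 * Acc (fun s y z => φ s y z + N s y z) 0 t x v := by
      rw [← Acc_const_mul (by norm_num)]
      refine Acc_mono fun τ hτ z => ?_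
      rw [mul_add]
      gcongr
      calc φ τ (x - (t - τ) • bar v) z = 1 * φ τ (x - (t - τ) • bar v) z := by rw [one_mul]
        _ ≤ 16 * φ τ (x - (t - τ) • bar v) z := by gcongr; norm_num
    calc _ = φ t x v * (4 * Acc (fun a y z => φ a y z + 16 * N a y z) 0 t x v) := by ring
      _ ≤ φ t x v * (4 * (16 * Acc (fun s y z => φ s y z + N s y z) 0 t x v)) := by gcongr
      _ = φ t x v * (64 * Acc (fun s y z => φ s y z + N s y z) 0 t x v) := by ring
      _ ≤ φ t x v * 1 := by gcongr
      _ = φ t x v := mul_one _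
  have hfin := contr_arith hP (hE.bg t ht x v) (hE.bg_acc ht x v) (hE.nuN t ht x v)
    (hE.cc t ht x v) (hE.cN t ht x v)
  calc _ = ((f0 (x - t • bar v) v + h0 (x - t • bar v) v) * en (Acc G 0 t x v) +
      ∫⁻ s in Ioo 0 t, en (Acc G s t x v) *
      Qp (G s (x - (t - s) • bar v)) (G s (x - (t - s) • bar v)) v) +
      d * (4 * (φ t x v * Acc (fun a y z => φ a y z + 16 * N a y z) 0 t x v +
        (h0 (x - t • bar v) v + 16 * (h0 (x - t • bar v) v * Acc N 0 t x v)) +
        ((2 * X + 32 * Y) + (X + Y) + 16 * Z))) := by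
        rw [he]; ring
    _ ≤ _ := by
        gcongr

end Crest.Agent.R68.A
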