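import Crest.Agent.R68.A4

/-!
# Row 68, PART A (helper810): continuity of the exponential map under dominated convergence
-/

set_option autoImplicit false
open MeasureTheory Set Filter
open scoped ENNReal Topology
open Crest.AnalysisR.VecCalc3 Crest.AnalysisR.PDE.Boltzmann

noncomputable section

namespace Crest.Agent.R68.A

theorem Qp_eq_prod {f g : R3 → ℝ≥0∞} (hf : Measurable f) (hg : Measurable g) (v : R3) :
    Qp f g v = ∫⁻ p : R3 × R3, ENNReal.ofReal |inner ℝ (v - p.1) p.2| *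
      f (postVel v p.1 p.2) * g (postVelStar v p.1 p.2) ∂(volume.prod sphereMeasure) := by
  rw [lintegral_prod _ (measurable_Qp_integrand hf hg v).aemeasurable]
  rfl

theorem measurable_Lc_integrand {f : R3 → ℝ≥0∞} (hf : Measurable f) (v : R3) :
    Measurable (fun p : R3 × R3 => ENNReal.ofReal |inner ℝ (v - p.1) p.2| * f p.1) := by
  fun_prop

theorem Lc_eq_prod {f : R3 → ℝ≥0∞} (hf : Measurable f) (v : R3) :
    Lc f v = ∫⁻ p : R3 × R3, ENNReal.ofReal |inner ℝ (v - p.1) p.2| * f p.1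
      ∂(volume.prod sphereMeasure) := by
  rw [lintegral_prod _ (measurable_Lc_integrand hf v).aemeasurable]
  rfl

/-- product limit below an envelope -/
theorem tendsto_mul_env {a : ℝ≥0∞} (ha : a ≠ ⊤) {p q : ℕ → ℝ≥0∞} {p' q' e e' : ℝ≥0∞}
    (hpe : ∀ n, p n ≤ e) (hqe : ∀ n, q n ≤ e') (hpe' : p' ≤ e) (hqe' : q' ≤ e')
    (hp : e ≠ ⊤ → Tendsto p atTop (𝓝 p')) (hq : e' ≠ ⊤ → Tendsto q atTop (𝓝 q'))
    (hfin : a * e * e' ≠ ⊤) : Tendsto (fun n => a * p n * q n) atTop (𝓝 (a * p' * q')) := by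
  by_cases ha0 : a = 0
  · simp [ha0]
  by_cases he0 : e = 0
  · have h1 : ∀ n, p n = 0 := fun n => le_antisymm (he0 ▸ hpe n) zero_le
    have h2 : p' = 0 := le_antisymm (he0 ▸ hpe') zero_le
    simp [h1, h2]
  by_cases he0' : e' = 0
  · have h1 : ∀ n, q n = 0 := fun n => le_antisymm (he0' ▸ hqe n) zero_le
    have h2 : q' = 0 := le_antisymm (he0' ▸ hqe') zero_le
    simp [h1, h2]
  have he : e ≠ ⊤ := by
    rintro rfl
    apply hfin
    rw [ENNReal.mul_top ha0, ENNReal.top_mul he0']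
  have he' : e' ≠ ⊤ := by
    rintro rfl
    apply hfin
    rw [ENNReal.mul_top (mul_ne_zero ha0 he0)]
  have hp1 : p' ≠ ⊤ := (lt_of_le_of_lt hpe' (lt_top_iff_ne_top.2 he)).ne
  have hq1 : q' ≠ ⊤ := (lt_of_le_of_lt hqe' (lt_top_iff_ne_top.2 he')).ne
  refine ENNReal.Tendsto.mul (ENNReal.Tendsto.const_mul (hp he) (Or.inr ha)) ?_ (hq he') ?_
  · exact Or.inr hq1
  · exact Or.inr (ENNReal.mul_ne_top ha hp1)

theorem tendsto_Qp {f : ℕ → R3 → ℝ≥0∞} {g e : R3 → ℝ≥0∞} (mf : ∀ n, Measurable (f n))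
    (mg : Measurable g) (me : Measurable e) (hfe : ∀ n z, f n z ≤ e z) (hge : ∀ z, g z ≤ e z)
    (hlim : ∀ z, e z ≠ ⊤ → Tendsto (fun n => f n z) atTop (𝓝 (g z))) {v : R3}
    (hfin : Qp e e v ≠ ⊤) :
    Tendsto (fun n => Qp (f n) (f n) v) atTop (𝓝 (Qp g g v)) := by
  rw [Qp_eq_prod me me] at hfin
  rw [Qp_eq_prod mg mg]
  simp_rw [fun n => Qp_eq_prod (mf n) (mf n) v]
  refine tendsto_lintegral_of_dominated_convergence _
    (fun n => measurable_Qp_integrand (mf n) (mf n) v) (fun n => Eventually.of_forall fun p => ?_)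
    hfin ?_
  · exact mul_le_mul' (mul_le_mul' le_rfl (hfe n _)) (hfe n _)
  · filter_upwards [ae_lt_top (measurable_Qp_integrand me me v) hfin] with p hp
    exact tendsto_mul_env ENNReal.ofReal_ne_top (fun n => hfe n _) (fun n => hfe n _) (hge _)
      (hge _) (hlim _) (hlim _) hp.ne

theorem tendsto_Lc {f : ℕ → R3 → ℝ≥0∞} {g e : R3 → ℝ≥0∞} (mf : ∀ n, Measurable (f n))
    (mg : Measurable g) (me : Measurable e) (hfe : ∀ n z, f n z ≤ e z) (hge : ∀ z, g z ≤ e z)
    (hlim : ∀ z, e z ≠ ⊤ → Tendsto (fun n => f n z) atTop (𝓝 (g z))) {v : R3}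
    (hfin : Lc e v ≠ ⊤) :
    Tendsto (fun n => Lc (f n) v) atTop (𝓝 (Lc g v)) := by
  rw [Lc_eq_prod me] at hfin
  rw [Lc_eq_prod mg]
  simp_rw [fun n => Lc_eq_prod (mf n) v]
  refine tendsto_lintegral_of_dominated_convergence _
    (fun n => measurable_Lc_integrand (mf n) v) (fun n => Eventually.of_forall fun p => ?_)
    hfin ?_
  · exact mul_le_mul' le_rfl (hfe n _)
  · filter_upwards [ae_lt_top (measurable_Lc_integrand me v) hfin] with p hp
    have := tendsto_mul_env (a := ENNReal.ofReal |inner ℝ (v - p.1) p.2|) ENNReal.ofReal_ne_top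
      (p := fun n => f n p.1) (q := fun _ => 1) (p' := g p.1) (q' := 1) (e := e p.1) (e' := 1)
      (fun n => hfe n _) (fun _ => le_rfl) (hge _) le_rfl (hlim _) (fun _ => tendsto_const_nhds)
      (by simpa using hp.ne)
    simpa using this

section

variable {F : ℕ → ℝ → P2 → R3 → ℝ≥0∞} {G E : ℝ → P2 → R3 → ℝ≥0∞} {T : ℝ}

/-- a sequence of densities converging below an envelope on `[0,T]` -/
structure Conv (T : ℝ) (F : ℕ → ℝ → P2 → R3 → ℝ≥0∞) (G E : ℝ → P2 → R3 → ℝ≥0∞) : Prop where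
  mF : ∀ n, Meas3 (F n)
  mG : Meas3 G
  mE : Meas3 E
  le : ∀ n, ∀ t ∈ Icc 0 T, ∀ x v, F n t x v ≤ E t x v
  le' : ∀ t ∈ Icc 0 T, ∀ x v, G t x v ≤ E t x v
  lim : ∀ t ∈ Icc 0 T, ∀ x v, E t x v ≠ ⊤ → Tendsto (fun n => F n t x v) atTop (𝓝 (G t x v))

theorem Conv.acc (h : Conv T F G E) {s t : ℝ} (hs : 0 ≤ s) (ht : t ∈ Icc 0 T) (x : P2) (v : R3)
    (hfin : Acc E s t x v ≠ ⊤) :
    Tendsto (fun n => Acc (F n) s t x v) atTop (𝓝 (Acc G s t x v)) := by
  unfold Acc at hfin ⊢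
  refine tendsto_lintegral_of_dominated_convergence
    (fun τ => Lc (E τ (x - (t - τ) • bar v)) v)
    (fun n => measurable_Lc_flight (h.mF n) t x v) (fun n => ?_) hfin ?_
  · refine (ae_restrict_mem measurableSet_Ioo).mono fun τ hτ => ?_
    exact Lc_mono (h.le n τ ⟨hs.trans hτ.1.le, hτ.2.le.trans ht.2⟩ _) v
  · filter_upwards [ae_restrict_mem measurableSet_Ioo,
      ae_lt_top (measurable_Lc_flight h.mE t x v) hfin] with τ hτ hτ2
    have hτ' : τ ∈ Icc 0 T := ⟨hs.trans hτ.1.le, hτ.2.le.trans ht.2⟩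
    exact tendsto_Lc (fun n => (h.mF n).slice _ _) (h.mG.slice _ _) (h.mE.slice _ _)
      (fun n z => h.le n τ hτ' _ z) (h.le' τ hτ' _) (h.lim τ hτ' _) hτ2.ne

/-- the exponential map is continuous along the sequence where the envelope integrals are finite -/
theorem Conv.ph (h : Conv T F G E) {F0 : P2 → R3 → ℝ≥0∞} {t : ℝ} (ht : t ∈ Icc 0 T) (x : P2)
    (v : R3) (h0 : F0 (x - t • bar v) v ≠ ⊤) (hA : Acc E 0 t x v ≠ ⊤)
    (hQ : Duh (fun s y z => Qp (E s y) (E s y) z) t x v ≠ ⊤) :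
    Tendsto (fun n => Ph F0 (F n) t x v) atTop (𝓝 (Ph F0 G t x v)) := by
  unfold Ph
  refine Tendsto.add ?_ ?_
  · refine ENNReal.Tendsto.const_mul ?_ (Or.inr h0)
    exact (continuous_en.tendsto _).comp (h.acc le_rfl ht x v hA)
  · unfold Duh at hQ
    refine tendsto_lintegral_of_dominated_convergence
      (fun s => Qp (E s (x - (t - s) • bar v)) (E s (x - (t - s) • bar v)) v)
      (fun n => ?_) (fun n => ?_) hQ ?_
    · exact (measurable_en.comp (measurable_Acc (h.mF n) measurable_id measurable_const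
        measurable_const measurable_const)).mul (measurable_Qp_flight (h.mF n) (h.mF n) t x v)
    · refine (ae_restrict_mem measurableSet_Ioo).mono fun s hs => ?_
      have hs' : s ∈ Icc 0 T := ⟨hs.1.le, hs.2.le.trans ht.2⟩
      calc _ ≤ 1 * Qp (E s (x - (t - s) • bar v)) (E s (x - (t - s) • bar v)) v :=
            mul_le_mul' (en_le_one _) (Qp_mono (h.le n s hs' _) (h.le n s hs' _) v)
        _ = _ := one_mul _
    · filter_upwards [ae_restrict_mem measurableSet_Ioo,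
        ae_lt_top (measurable_Qp_flight h.mE h.mE t x v) hQ] with s hs hs2
      have hs' : s ∈ Icc 0 T := ⟨hs.1.le, hs.2.le.trans ht.2⟩
      have h1 : Acc E s t x v ≠ ⊤ := by
        refine ne_top_of_le_ne_top hA ?_
        unfold Acc
        exact lintegral_mono_set (Ioo_subset_Ioo_left hs.1.le)
      have h2 : Tendsto (fun n => en (Acc (F n) s t x v)) atTop (𝓝 (en (Acc G s t x v))) :=
        (continuous_en.tendsto _).comp (h.acc hs.1.le ht x v h1)
      have h3 : Tendsto (fun n => Qp (F n s (x - (t - s) • bar v)) (F n s (x - (t - s) • bar v)) v)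
          atTop (𝓝 (Qp (G s (x - (t - s) • bar v)) (G s (x - (t - s) • bar v)) v)) :=
        tendsto_Qp (fun n => (h.mF n).slice _ _) (h.mG.slice _ _) (h.mE.slice _ _)
          (fun n z => h.le n s hs' _ z) (h.le' s hs' _) (h.lim s hs' _) hs2.ne
      have h4 : Qp (G s (x - (t - s) • bar v)) (G s (x - (t - s) • bar v)) v ≠ ⊤ :=
        ne_top_of_le_ne_top hs2.ne (Qp_mono (h.le' s hs' _) (h.le' s hs' _) v)
      exact ENNReal.Tendsto.mul h2 (Or.inr h4) h3 (Or.inr (en_ne_top _))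

end

end Crest.Agent.R68.A
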