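import Crest.Agent.R68.A5

/-!
# Row 68, PART A (helper810): existence of the fixed point (abstract Theorem A)
-/

set_option autoImplicit false
open MeasureTheory Set Filter
open scoped ENNReal Topology
open Crest.AnalysisR.VecCalc3 Crest.AnalysisR.PDE.Boltzmann

noncomputable section

namespace Crest.Agent.R68.A

/-- a sequence in `[0,∞]` whose increments are summable converges to its `liminf` -/
theorem tendsto_liminf_of_close {u d : ℕ → ℝ≥0∞} (h1 : ∀ n, u (n + 1) ≤ u n + d n)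
    (h2 : ∀ n, u n ≤ u (n + 1) + d n) (hd : ∑' n, d n ≠ ⊤) :
    Tendsto u atTop (𝓝 (liminf u atTop)) ∧
      ∀ n, liminf u atTop ≤ u n + ∑' k, d (k + n) ∧ u n ≤ liminf u atTop + ∑' k, d (k + n) := by
  have key1 : ∀ n m, u (n + m) ≤ u n + ∑' k, d (k + n) := by
    intro n m
    have : u (n + m) ≤ u n + ∑ k ∈ Finset.range m, d (k + n) := by
      induction m with
      | zero => simp
      | succ m ih =>
        rw [Finset.sum_range_succ, ← add_assoc, ← add_assoc]
        refine (h1 (n + m)).trans ?_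
        rw [add_comm m n]
        gcongr
    refine this.trans ?_
    gcongr
    exact ENNReal.sum_le_tsum _
  have key2 : ∀ n m, u n ≤ u (n + m) + ∑' k, d (k + n) := by
    intro n m
    have : u n ≤ u (n + m) + ∑ k ∈ Finset.range m, d (k + n) := by
      induction m with
      | zero => simp
      | succ m ih =>
        rw [Finset.sum_range_succ]
        refine ih.trans ?_
        have h3 := h2 (n + m)
        calc u (n + m) + ∑ k ∈ Finset.range m, d (k + n)
            ≤ (u (n + m + 1) + d (n + m)) + ∑ k ∈ Finset.range m, d (k + n) := by gcongr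
          _ = u (n + (m + 1)) + (∑ k ∈ Finset.range m, d (k + n) + d (m + n)) := by
            rw [add_comm m n, ← add_assoc n m 1]; ring
    refine this.trans ?_
    gcongr
    exact ENNReal.sum_le_tsum _
  have hr : Tendsto (fun n => ∑' k, d (k + n)) atTop (𝓝 0) :=
    ENNReal.tendsto_sum_nat_add d hd
  have hL1 : ∀ n, limsup u atTop ≤ u n + ∑' k, d (k + n) := by
    intro n
    refine limsup_le_of_le (by isBoundedDefault) ?_
    filter_upwards [eventually_ge_atTop n] with m hm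
    obtain ⟨k, rfl⟩ := Nat.exists_eq_add_of_le hm
    exact key1 n k
  have hL2 : ∀ n, u n ≤ liminf u atTop + ∑' k, d (k + n) := by
    intro n
    by_cases htop : ∑' k, d (k + n) = ⊤
    · rw [htop]; simp
    rw [← tsub_le_iff_right]
    refine le_liminf_of_le (by isBoundedDefault) ?_
    filter_upwards [eventually_ge_atTop n] with m hm
    obtain ⟨k, rfl⟩ := Nat.exists_eq_add_of_le hm
    rw [tsub_le_iff_right]
    exact key2 n k
  have hls : limsup u atTop ≤ liminf u atTop := by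
    have h3 : ∀ n, limsup u atTop ≤ liminf u atTop + 2 * ∑' k, d (k + n) := by
      intro n
      refine (hL1 n).trans ?_
      calc u n + ∑' k, d (k + n) ≤ (liminf u atTop + ∑' k, d (k + n)) + ∑' k, d (k + n) := by
            gcongr; exact hL2 n
        _ = _ := by ring
    have h4 : Tendsto (fun n => liminf u atTop + 2 * ∑' k, d (k + n)) atTop
        (𝓝 (liminf u atTop + 2 * 0)) :=
      tendsto_const_nhds.add (ENNReal.Tendsto.const_mul hr (Or.inr (by norm_num)))
    have := ge_of_tendsto' h4 h3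
    simpa using this
  refine ⟨tendsto_of_le_liminf_of_limsup_le le_rfl hls, fun n => ⟨?_, hL2 n⟩⟩
  exact le_trans (liminf_le_limsup) (hL1 n)

section

variable {T : ℝ} {f0 h0 : P2 → R3 → ℝ≥0∞} {φ N : ℝ → P2 → R3 → ℝ≥0∞}

/-- the Picard iterates -/
def itr (f0 h0 : P2 → R3 → ℝ≥0∞) (n : ℕ) : ℝ → P2 → R3 → ℝ≥0∞ :=
  (Ph (fun x v => f0 x v + h0 x v))^[n] (fun t x v => f0 (x - t • bar v) v)

theorem itr_succ (f0 h0 : P2 → R3 → ℝ≥0∞) (n : ℕ) :
    itr f0 h0 (n + 1) = Ph (fun x v => f0 x v + h0 x v) (itr f0 h0 n) := by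
  unfold itr
  rw [Function.iterate_succ_apply']

theorem Env.cls_free (hE : Env T f0 h0 φ N) : Cls T φ N (fun t x v => f0 (x - t • bar v) v) := by
  refine ⟨hE.mf0.comp (f := fun p : ℝ × P2 × R3 => (p.2.1 - p.1 • bar p.2.2, p.2.2))
    (by fun_prop), fun t ht x v => ?_⟩
  show φ t x v ≤ 2 * f0 (x - t • bar v) v ∧ f0 (x - t • bar v) v ≤ φ t x v + N t x v
  rw [← hE.free t ht x v]
  exact hE.cls_phi.2 t ht x v

theorem Env.cls_itr (hE : Env T f0 h0 φ N) (n : ℕ) : Cls T φ N (itr f0 h0 n) := by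
  induction n with
  | zero => exact hE.cls_free
  | succ n ih => rw [itr_succ]; exact hE.cls_ph ih

theorem Env.close_itr (hE : Env T f0 h0 φ N) (n : ℕ) : ∀ t ∈ Icc 0 T, ∀ x v,
    itr f0 h0 (n + 1) t x v ≤ itr f0 h0 n t x v + (4⁻¹ : ℝ≥0∞) ^ n * (φ t x v + 16 * N t x v) ∧
    itr f0 h0 n t x v ≤ itr f0 h0 (n + 1) t x v + (4⁻¹ : ℝ≥0∞) ^ n * (φ t x v + 16 * N t x v) := by
  induction n with
  | zero =>
    intro t ht x v
    have h1 := ((hE.cls_itr 1).2 t ht x v).2
    have h2 : itr f0 h0 0 t x v = φ t x v := (hE.free t ht x v).symm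
    have h3 : N t x v ≤ 16 * N t x v := by
      calc N t x v = 1 * N t x v := (one_mul _).symm
        _ ≤ 16 * N t x v := by gcongr; norm_num
    rw [h2, pow_zero, one_mul]
    constructor
    · refine h1.trans ?_
      gcongr
      exact h3.trans le_add_self
    · exact le_trans le_self_add le_add_self
  | succ n ih =>
    have hd : (4⁻¹ : ℝ≥0∞) ^ (n + 1) ≠ ⊤ := ENNReal.pow_ne_top (by simp)
    have he : 4 * (4⁻¹ : ℝ≥0∞) ^ (n + 1) = (4⁻¹ : ℝ≥0∞) ^ n := by
      rw [pow_succ', ← mul_assoc, ENNReal.mul_inv_cancel (by norm_num) (by norm_num), one_mul]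
    intro t ht x v
    have h1 := hE.contr (hE.cls_itr (n + 1)) (hE.cls_itr n) hd
      (fun t ht x v => by rw [he]; exact (ih t ht x v).1)
      (fun t ht x v => by rw [he]; exact (ih t ht x v).2) t ht x v
    have h2 := hE.contr (hE.cls_itr n) (hE.cls_itr (n + 1)) hd
      (fun t ht x v => by rw [he]; exact (ih t ht x v).2)
      (fun t ht x v => by rw [he]; exact (ih t ht x v).1) t ht x v
    rw [← itr_succ, ← itr_succ] at h1 h2
    exact ⟨h1, h2⟩

theorem Ph_zero (F0 : P2 → R3 → ℝ≥0∞) (F : ℝ → P2 → R3 → ℝ≥0∞) (x : P2) (v : R3) :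
    Ph F0 F 0 x v = F0 x v := by
  simp [Ph, Acc]

theorem Ph_per {F0 : P2 → R3 → ℝ≥0∞} {F : ℝ → P2 → R3 → ℝ≥0∞}
    (h0 : ∀ v, PerG (fun x => F0 x v)) (hF : ∀ t v, PerG (fun x => F t x v)) (t : ℝ) (v : R3) :
    PerG (fun x => Ph F0 F t x v) := by
  intro x k
  have hsl : ∀ (s : ℝ) (y : P2), F s (y + latt k) = F s y := fun s y => by
    funext z; exact hF s z y k
  have e1 : ∀ c : P2, x + latt k - c = x - c + latt k := fun c => by
    rw [sub_add_eq_add_sub]
  have h1 := h0 v (x - t • bar v) k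
  simp only at h1
  simp only [Ph, Acc, e1, hsl]
  rw [h1]

theorem itr_per (hf : ∀ v, PerG (fun x => f0 x v)) (hh : ∀ v, PerG (fun x => h0 x v)) (n : ℕ) :
    ∀ t v, PerG (fun x => itr f0 h0 n t x v) := by
  induction n with
  | zero =>
    intro t v x k
    have : x + latt k - t • bar v = x - t • bar v + latt k := by rw [sub_add_eq_add_sub]
    simp only [itr, Function.iterate_zero, id_eq]
    rw [this]
    exact hf v _ k
  | succ n ih =>
    intro t v
    rw [itr_succ]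
    refine Ph_per (fun v x k => ?_) ih t v
    have h1 := hf v x k
    have h2 := hh v x k
    simp only at h1 h2 ⊢
    rw [h1, h2]

/-- abstract Theorem A -/
theorem exists_fixed (hE : Env T f0 h0 φ N) :
    ∃ F : ℝ → P2 → R3 → ℝ≥0∞, Cls T φ N F ∧
      (∀ x v, F 0 x v = f0 x v + h0 x v) ∧
      (∀ t ∈ Icc 0 T, ∀ x v, φ t x v ≠ ⊤ → N t x v ≠ ⊤ →
        F t x v = Ph (fun x v => f0 x v + h0 x v) F t x v) ∧
      ((∀ v, PerG (fun x => f0 x v)) → (∀ v, PerG (fun x => h0 x v)) →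
        ∀ t v, PerG (fun x => F t x v)) := by
  let F : ℝ → P2 → R3 → ℝ≥0∞ := fun t x v => liminf (fun n => itr f0 h0 n t x v) atTop
  have mF : Meas3 F := Measurable.liminf fun n => (hE.cls_itr n).1
  have hgeo : ∀ (W : ℝ≥0∞) (n : ℕ), ∑' k, (4⁻¹ : ℝ≥0∞) ^ (k + n) * W ≤
      4 * (4⁻¹ : ℝ≥0∞) ^ (n + 1) * (2 * W) := by
    intro W n
    have h1 : ∀ k, (4⁻¹ : ℝ≥0∞) ^ (k + n) * W = (4⁻¹ : ℝ≥0∞) ^ k * ((4⁻¹ : ℝ≥0∞) ^ n * W) := by
      intro k; rw [pow_add]; ring
    simp_rw [h1]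
    rw [ENNReal.tsum_mul_right, ENNReal.tsum_geometric]
    have h2 : (1 - (4⁻¹ : ℝ≥0∞))⁻¹ ≤ 2 := by
      rw [ENNReal.inv_le_iff_inv_le]
      have : (2⁻¹ : ℝ≥0∞) + 4⁻¹ ≤ 1 := by
        rw [← ENNReal.toReal_le_toReal (by simp) (by simp), ENNReal.toReal_add (by simp) (by simp)]
        norm_num
      exact ENNReal.le_sub_of_add_le_right (by simp) this
    have he : 4 * (4⁻¹ : ℝ≥0∞) ^ (n + 1) = (4⁻¹ : ℝ≥0∞) ^ n := by
      rw [pow_succ', ← mul_assoc, ENNReal.mul_inv_cancel (by norm_num) (by norm_num), one_mul]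
    rw [he]
    calc _ ≤ 2 * ((4⁻¹ : ℝ≥0∞) ^ n * W) := by gcongr
      _ = _ := by ring
  have hlim : ∀ t ∈ Icc 0 T, ∀ x v, φ t x v + 16 * N t x v ≠ ⊤ →
      Tendsto (fun n => itr f0 h0 n t x v) atTop (𝓝 (F t x v)) ∧ ∀ n,
      F t x v ≤ itr f0 h0 n t x v + 4 * (4⁻¹ : ℝ≥0∞) ^ (n + 1) * (2 * (φ t x v + 16 * N t x v)) ∧
      itr f0 h0 n t x v ≤ F t x v + 4 * (4⁻¹ : ℝ≥0∞) ^ (n + 1) *
        (2 * (φ t x v + 16 * N t x v)) := by
    intro t ht x v hW
    have hsum : ∑' n, (4⁻¹ : ℝ≥0∞) ^ n * (φ t x v + 16 * N t x v) ≠ ⊤ := by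
      have h1 := hgeo (φ t x v + 16 * N t x v) 0
      simp only [add_zero] at h1
      refine ne_top_of_le_ne_top ?_ h1
      exact ENNReal.mul_ne_top (ENNReal.mul_ne_top (by norm_num) (ENNReal.pow_ne_top (by simp)))
        (ENNReal.mul_ne_top (by norm_num) hW)
    have h2 := tendsto_liminf_of_close (u := fun n => itr f0 h0 n t x v)
      (d := fun n => (4⁻¹ : ℝ≥0∞) ^ n * (φ t x v + 16 * N t x v))
      (fun n => (hE.close_itr n t ht x v).1) (fun n => (hE.close_itr n t ht x v).2) hsum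
    refine ⟨h2.1, fun n => ?_⟩
    have h3 := h2.2 n
    constructor
    · refine h3.1.trans ?_
      gcongr
      exact hgeo _ n
    · refine h3.2.trans ?_
      gcongr
      exact hgeo _ n
  have hcls : Cls T φ N F := by
    refine ⟨mF, fun t ht x v => ⟨?_, ?_⟩⟩
    · have h1 : ∀ n, φ t x v ≤ 2 * itr f0 h0 n t x v := fun n => ((hE.cls_itr n).2 t ht x v).1
      have h2 : ∀ n, φ t x v / 2 ≤ itr f0 h0 n t x v := fun n => by
        rw [ENNReal.div_le_iff (by norm_num) (by norm_num), mul_comm]; exact h1 n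
      have h3 : φ t x v / 2 ≤ F t x v :=
        le_liminf_of_le (by isBoundedDefault) (Eventually.of_forall h2)
      rwa [ENNReal.div_le_iff (by norm_num) (by norm_num), mul_comm] at h3
    · refine le_trans (liminf_le_limsup) ?_
      exact limsup_le_of_le (by isBoundedDefault)
        (Eventually.of_forall fun n => ((hE.cls_itr n).2 t ht x v).2)
  have hclose : ∀ n, ∀ t ∈ Icc 0 T, ∀ x v,
      F t x v ≤ itr f0 h0 n t x v + (4 * (2 * (4⁻¹ : ℝ≥0∞) ^ (n + 1))) *
        (φ t x v + 16 * N t x v) ∧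
      itr f0 h0 n t x v ≤ F t x v + (4 * (2 * (4⁻¹ : ℝ≥0∞) ^ (n + 1))) *
        (φ t x v + 16 * N t x v) := by
    intro n t ht x v
    by_cases hW : φ t x v + 16 * N t x v = ⊤
    · rw [hW, ENNReal.mul_top]
      · simp
      · refine mul_ne_zero (by norm_num) (mul_ne_zero (by norm_num) (pow_ne_zero _ (by simp)))
    · have h1 := (hlim t ht x v hW).2 n
      have e : 4 * (4⁻¹ : ℝ≥0∞) ^ (n + 1) * (2 * (φ t x v + 16 * N t x v)) =
          (4 * (2 * (4⁻¹ : ℝ≥0∞) ^ (n + 1))) * (φ t x v + 16 * N t x v) := by ring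
      rw [e] at h1
      exact h1
  refine ⟨F, hcls, ?_, ?_, ?_⟩
  · intro x v
    have h1 : Tendsto (fun n => itr f0 h0 n 0 x v) atTop (𝓝 (f0 x v + h0 x v)) := by
      rw [← tendsto_add_atTop_iff_nat 1]
      have : (fun n => itr f0 h0 (n + 1) 0 x v) = fun _ => f0 x v + h0 x v := by
        funext n
        rw [itr_succ, Ph_zero]
      rw [this]
      exact tendsto_const_nhds
    exact h1.liminf_eq
  · intro t ht x v h1 h2
    have hW : φ t x v + 16 * N t x v ≠ ⊤ :=
      ENNReal.add_ne_top.2 ⟨h1, ENNReal.mul_ne_top (by norm_num) h2⟩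
    have hd : ∀ n, 2 * (4⁻¹ : ℝ≥0∞) ^ (n + 1) ≠ ⊤ := fun n =>
      ENNReal.mul_ne_top (by norm_num) (ENNReal.pow_ne_top (by simp))
    have h3 : ∀ n, itr f0 h0 (n + 1) t x v ≤ Ph (fun x v => f0 x v + h0 x v) F t x v +
        2 * (4⁻¹ : ℝ≥0∞) ^ (n + 1) * (φ t x v + 16 * N t x v) := by
      intro n
      rw [itr_succ]
      exact hE.contr (hE.cls_itr n) hcls (hd n) (fun t ht x v => (hclose n t ht x v).2)
        (fun t ht x v => (hclose n t ht x v).1) t ht x v
    have h4 : ∀ n, Ph (fun x v => f0 x v + h0 x v) F t x v ≤ itr f0 h0 (n + 1) t x v +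
        2 * (4⁻¹ : ℝ≥0∞) ^ (n + 1) * (φ t x v + 16 * N t x v) := by
      intro n
      rw [itr_succ]
      exact hE.contr hcls (hE.cls_itr n) (hd n) (fun t ht x v => (hclose n t ht x v).1)
        (fun t ht x v => (hclose n t ht x v).2) t ht x v
    have h5 : Tendsto (fun n => itr f0 h0 (n + 1) t x v) atTop (𝓝 (F t x v)) :=
      (tendsto_add_atTop_iff_nat 1).2 (hlim t ht x v hW).1
    have h6 : Tendsto (fun n : ℕ => 2 * (4⁻¹ : ℝ≥0∞) ^ (n + 1) * (φ t x v + 16 * N t x v)) atTop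
        (𝓝 0) := by
      have h7 : Tendsto (fun n : ℕ => (4⁻¹ : ℝ≥0∞) ^ (n + 1)) atTop (𝓝 0) :=
        (tendsto_add_atTop_iff_nat 1).2
          (ENNReal.tendsto_pow_atTop_nhds_zero_of_lt_one (by simp))
      have h8 := ENNReal.Tendsto.const_mul (a := 2) h7 (Or.inr (by norm_num))
      have h9 := ENNReal.Tendsto.mul_const (b := φ t x v + 16 * N t x v) h8 (Or.inr hW)
      simpa using h9
    apply le_antisymm
    · have h10 : Tendsto (fun n => Ph (fun x v => f0 x v + h0 x v) F t x v +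
        2 * (4⁻¹ : ℝ≥0∞) ^ (n + 1) * (φ t x v + 16 * N t x v)) atTop
        (𝓝 (Ph (fun x v => f0 x v + h0 x v) F t x v + 0)) := tendsto_const_nhds.add h6
      rw [add_zero] at h10
      exact le_of_tendsto_of_tendsto' h5 h10 h3
    · have h10 := h5.add h6
      rw [add_zero] at h10
      exact ge_of_tendsto' h10 h4
  · intro hf hh t v x k
    have : (fun n => itr f0 h0 n t (x + latt k) v) = fun n => itr f0 h0 n t x v := by
      funext n
      exact itr_per hf hh n t v x k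
    simp only [F, this]

end

end Crest.Agent.R68.A
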