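import Crest.Agent.R68.A2

/-!
# Row 68, PART A: interface (statements only; do not import in proofs)

ABSTRACT THEOREM A (helper810).  Data: `f0` (fuel), `h0` (background), `φ` = free flow of `f0`,
`N` = envelope of everything that has collided + background (`N = warm + A * B1`).
-/

set_option autoImplicit false
open MeasureTheory Set Filter
open scoped ENNReal Topology
open Crest.AnalysisR.VecCalc3 Crest.AnalysisR.PDE.Boltzmann

noncomputable section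

namespace Crest.Agent.R68.A

/-- the five envelope inequalities on `[0,T]` -/
structure EnvI (T : ℝ) (f0 h0 : P2 → R3 → ℝ≥0∞) (φ N : ℝ → P2 → R3 → ℝ≥0∞) : Prop where
  mf0 : Measurable (fun p : P2 × R3 => f0 p.1 p.2)
  mh0 : Measurable (fun p : P2 × R3 => h0 p.1 p.2)
  mφ : Meas3 φ
  mN : Meas3 N
  free : ∀ t ∈ Icc 0 T, ∀ x v, φ t x v = f0 (x - t • bar v) v
  bg : ∀ t ∈ Icc 0 T, ∀ x v, 4 * h0 (x - t • bar v) v ≤ N t x v
  cc : ∀ t ∈ Icc 0 T, ∀ x v, 16 * Duh (fun s y z => Qp (φ s y) (φ s y) z) t x v ≤ N t x v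
  cN : ∀ t ∈ Icc 0 T, ∀ x v, 32 * Duh (fun s y z => Qp (φ s y) (N s y) z + Qp (N s y) (φ s y) z +
      Qp (N s y) (N s y) z) t x v ≤ N t x v
  nuφ : ∀ t ∈ Icc 0 T, ∀ x v, φ t x v ≠ 0 →
      64 * Acc (fun s y z => φ s y z + N s y z) 0 t x v ≤ 1
  nuN : ∀ t ∈ Icc 0 T, ∀ x v, 64 * Duh (fun s y z => Lc (N s y) z * N s y z) t x v ≤ N t x v

theorem exists_fixed_iface {T : ℝ} {f0 h0 : P2 → R3 → ℝ≥0∞} {φ N : ℝ → P2 → R3 → ℝ≥0∞}
    (hE : EnvI T f0 h0 φ N) :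
    ∃ F : ℝ → P2 → R3 → ℝ≥0∞, Meas3 F ∧
      (∀ t ∈ Icc 0 T, ∀ x v, φ t x v ≤ 2 * F t x v ∧ F t x v ≤ φ t x v + N t x v) ∧
      (∀ x v, F 0 x v = f0 x v + h0 x v) ∧
      (∀ t ∈ Icc 0 T, ∀ x v, φ t x v ≠ ⊤ → N t x v ≠ ⊤ →
        Acc (fun s y z => φ s y z + N s y z) 0 t x v ≠ ⊤ →
        F t x v = Ph (fun x v => f0 x v + h0 x v) F t x v) ∧
      ((∀ v, PerG (fun x => f0 x v)) → (∀ v, PerG (fun x => h0 x v)) →
        ∀ t v, PerG (fun x => F t x v)) := by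
  sorry

end Crest.Agent.R68.A
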