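import Crest.Agent.R68.IKOut
import Crest.Agent.R68.IColdInp
import Crest.Agent.R68.KWarm
import Crest.Agent.R68.Main0

/-!
# R68 / CKOut (helper819): the Prop `Main0.CKOut` from Part C (`N.ColdOut`) and `WarmSize`
-/

set_option autoImplicit false
open MeasureTheory Set Filter
open scoped ENNReal Topology Real
open Crest.AnalysisR.VecCalc3 Crest.AnalysisR.PDE.Boltzmann

noncomputable section

namespace Crest.Agent.R68.KC

open Crest.Agent.R68.N (Fld tx Zg EE ev ez2 KInp ColdInp ColdOut coldInp MonoFl dd)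

/-- comparison of the factors `(t+|x|)^q` -/
theorem tx_le_tx {T : ℝ} (hT : T ≤ 1) {q q' : ℝ} (hq : 0 ≤ q) (hqq : q ≤ q') {t : ℝ}
    (ht : t ∈ Ioc 0 T) (x : P2) : tx q' t x ≤ ENNReal.ofReal (2 ^ (q' - q)) * tx q t x := by
  unfold tx
  rw [← ENNReal.ofReal_mul (by positivity)]
  apply ENNReal.ofReal_le_ofReal
  have hd0 := distG_nonneg x
  have hd1 := distG_le_one x
  have ht0 := ht.1
  have ht1 := ht.2.trans hT
  have h9 : 0 < t + distG x := by linarith
  have h10 : (t + distG x) ^ q' = (t + distG x) ^ (q' - q) * (t + distG x) ^ q := by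
    rw [← Real.rpow_add h9]; congr 1; ring
  rw [h10]
  apply mul_le_mul_of_nonneg_right _ (by positivity)
  exact Real.rpow_le_rpow (by positivity) (by linarith) (by linarith)

/-- `ColdInp` is monotone in the exponent `q` -/
theorem ColdInp_mono_q {P : Par} {T V : ℝ} {Cf Sf : Fld → Fld} {Mc Wm : Fld} {CC : ℝ≥0∞} {q q' : ℝ}
    (hT : T ≤ 1) (hq : 0 ≤ q) (hqq : q ≤ q') (h : ColdInp P T V Cf Sf Mc Wm CC q') :
    ColdInp P T V Cf Sf Mc Wm (CC * ENNReal.ofReal (2 ^ (q' - q))) q := by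
  have h2 : (1 : ℝ≥0∞) ≤ ENNReal.ofReal (2 ^ (q' - q)) := by
    rw [← ENNReal.ofReal_one]
    exact ENNReal.ofReal_le_ofReal (Real.one_le_rpow (by norm_num) (by linarith))
  set c := ENNReal.ofReal (2 ^ (q' - q)) with hc
  exact
  { measC := h.measC
    measS := h.measS
    perC := h.perC
    perS := h.perS
    measM := h.measM
    measW := h.measW
    W_le := h.W_le
    CC_ne := ENNReal.mul_ne_top h.CC_ne ENNReal.ofReal_ne_top
    supp := h.supp
    phi_le := h.phi_le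
    le := h.le
    lip := fun lam lam' h1 h1' h3 h3' Del h4 h5 h6 t ht x v => by
      refine (h.lip lam lam' h1 h1' h3 h3' Del h4 h5 h6 t ht x v).trans ?_
      calc CC * ENNReal.ofReal t * Del t x * Mc t x v
          = CC * 1 * ENNReal.ofReal t * Del t x * Mc t x v := by rw [mul_one]
        _ ≤ CC * c * ENNReal.ofReal t * Del t x * Mc t x v := by gcongr
    lip0 := fun lam h1 h1' Del h4 h5 h6 t ht x v => by
      refine (h.lip0 lam h1 h1' Del h4 h5 h6 t ht x v).trans ?_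
      have h7 := tx_le_tx hT hq hqq ht x
      calc CC * ENNReal.ofReal t * ((Del t x + tx q' t x) * Mc t x v + Wm t x v)
          ≤ CC * ENNReal.ofReal t * ((c * Del t x + c * tx q t x) * Mc t x v + c * Wm t x v) := by
            gcongr
            · exact le_mul_of_one_le_left zero_le h2
            · exact le_mul_of_one_le_left zero_le h2
        _ = _ := by ring
    spill := fun lam lam' h1 h1' h3 h3' Del h4 h5 h6 t ht x v => by
      refine (h.spill lam lam' h1 h1' h3 h3' Del h4 h5 h6 t ht x v).trans ?_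
      have h7 := tx_le_tx hT hq hqq ht x
      calc CC * ENNReal.ofReal t * Del t x * tx q' t x * ENNReal.ofReal (Real.exp (-‖v‖ ^ 2))
          ≤ CC * ENNReal.ofReal t * Del t x * (c * tx q t x) *
            ENNReal.ofReal (Real.exp (-‖v‖ ^ 2)) := by gcongr
        _ = _ := by ring }

/-- Part C for the final parameters: `N.ColdOut` (585) -/
def ColdOutAll (Y : ℝ) : Prop :=
  ∀ K ey : ℝ, 1 ≤ K → 0 < ey → ey ≤ 1 / 100 → ∀ᶠ p : ℕ in atTop, ∀ᶠ j0 : ℕ in atTop,
    ColdOut (par K Y ey p j0)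

/-- (c1) of 418: the constants do not depend on `j0` -/
theorem coldInp_ev {Y : ℝ} (hY : 1 ≤ Y) (hC : ColdOutAll Y) (K ey q : ℝ) (hK : 1 ≤ K)
    (hey : 0 < ey) (hey1 : ey ≤ 1 / 100) (hq : 0 ≤ q) :
    ∀ᶠ p : ℕ in atTop, ∀ᶠ j0 : ℕ in atTop,
      ColdInp (par K Y ey p j0) (T1j j0) (Y + 5) (coldR (par K Y ey p j0))
        (coldSpill (par K Y ey p j0)) (fun t x v => 2 * coldS (par K Y ey p j0) t x v)
        (warm (par K Y ey p j0)) (2 * ENNReal.ofReal (2 ^ (((p / 32 : ℕ) : ℝ) - q))) q := by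
  obtain ⟨n, hn⟩ := exists_nat_ge q
  filter_upwards [hC K ey hK hey hey1, eventually_ge_atTop (32 * (n + 1) + 512)] with p hCp hp
  have hp2 : n + 1 ≤ p / 32 := by omega
  filter_upwards [hCp, ev_Ok K Y ey p (by linarith) (by linarith) hey (by omega),
    ev_T1_le one_pos] with j0 hCj hOk hT1
  have hqn : q ≤ ((p / 32 : ℕ) : ℝ) := by
    have : ((n + 1 : ℕ) : ℝ) ≤ ((p / 32 : ℕ) : ℝ) := by exact_mod_cast hp2
    push_cast at this ⊢
    linarith
  have h1 := coldInp (par K Y ey p j0) hOk hCj (T := T1j j0) le_rfl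
  exact ColdInp_mono_q hT1 hq hqn h1

/-- the form of `Main0.CKOut` -/
theorem ckOut {Y : ℝ} (hY : 1 ≤ Y) (hC : ColdOutAll Y) (hws : WarmSize) (K ey q : ℝ) (hK : 1 ≤ K)
    (hey : 0 < ey) (hey1 : ey ≤ 1 / 100) (hq : 0 ≤ q) :
    ∀ᶠ p : ℕ in atTop, ∀ᶠ j0 : ℕ in atTop,
      ∃ (V : ℝ) (Mc Wm : Fld) (CC CK : ℝ≥0∞), 0 ≤ V ∧
        ColdInp (par K Y ey p j0) (T1j j0) V (coldR (par K Y ey p j0))
          (coldSpill (par K Y ey p j0)) Mc Wm CC q ∧
        KInp (par K Y ey p j0) (T1j j0) Mc Wm q (1 / 10) (1 / 25) (1 / 25) CK ∧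
        KInp (par K Y ey p j0) (T1j j0) Mc Wm q (1 / 50 + 1 / 50) (1 / 50) (1 / 50) CK := by
  filter_upwards [coldInp_ev hY hC K ey q hK hey hey1 hq,
    kOut hY hey hws measurable_warm_v K q hK hq] with p h1 h2
  filter_upwards [h1, h2] with j0 h3 h4
  obtain ⟨CK, h5, h6⟩ := h4
  exact ⟨Y + 5, _, _, _, CK, by linarith, h3, h5, h6⟩

/-- **`Main0.CKOut`** from Part C and `WarmSize` -/
theorem CKOut_of {Y : ℝ} (hY : 1 ≤ Y) (hC : ColdOutAll Y) (hws : WarmSize) : Main0.CKOut Y :=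
  ⟨1, fun K hK _ ey q hey hey1 hq => ckOut hY hC hws K ey q hK hey hey1 hq⟩

end Crest.Agent.R68.KC
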