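import Crest.Agent.R68.A3Close
import Crest.Agent.R68.CKOut

/-!
# Row 68, PART A (helper418): `Main0.AOut`
-/

set_option autoImplicit false
open MeasureTheory Set Filter
open scoped ENNReal Topology Real
open Crest.AnalysisR.VecCalc3 Crest.AnalysisR.PDE.Boltzmann

noncomputable section

namespace Crest.Agent.R68.A

open Crest.Agent.R68.N
open Crest.Agent.R68.KC (WSz WarmSize ColdOutAll coldInp_ev distG_pow_le_one)
open Crest.Agent.R68.Main0 (H0f Hot)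

/-- existence for fixed parameters -/
theorem solve_thm {P : Par} (h : P.Ok) (hY : 1 ≤ P.Y) {T Lam rh g b q R : ℝ} (hT0 : 0 < T)
    (hT1 : T ≤ 1) (hTd : T ≤ P.dl ^ (3 / 8 : ℝ))
    (hT : (1 + P.Y) * P.dl + (P.c + P.Y + etaj P.p P.j0) * T < 7 / 20)
    (hCo : ColdOut P) (hSp : SpillOut P) (hW : WSz P T)
    (hL : 100 * P.Y ^ 2 ≤ Lam) (hb : 1 ≤ b) (hg : 1 / 50 ≤ g) (hg1 : g ≤ 1 / 2)
    (hLb : 8 * b * (b + 1) ≤ g * Lam) (hrh : 0 < rh) (hrh1 : rh ≤ 1) (hq : 2 * b ≤ q)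
    (hn : 2 * b ≤ ((P.p / 32 : ℕ) : ℝ)) {CC : ℝ≥0∞}
    (hC : ColdInp P T (P.Y + 5) (coldR P) (coldSpill P) (fun t x v => 2 * coldS P t x v)
      (warm P) CC q)
    {r : ℝ} (hr : 2 + 4 * Lam ^ b ≤ r)
    (hθ1 : 2 * P.K * cqA P.Y g * (1 / b + T / rh ^ 2 + 400 * √T) ≤ 1 / 4)
    (hθ2 : cTot CC (ENNReal.ofReal (cKA P g)) (ENNReal.ofReal (cWA Lam b q))
      (1 + ENNReal.ofReal (P.Y + 5)) (ENNReal.ofReal (2 ^ q)) (ENNReal.ofReal r) *
      ENNReal.ofReal (16 * T ^ (3 / 4 : ℝ)) ≤ ENNReal.ofReal (1 / 4)) :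
    ∃ H : Fld, HotSol P (coldR P) (coldSpill P)
      (fun x v => ENNReal.ofReal (Fuel.bg rh R x v)) T H ∧
      ∀ t ∈ Ioc 0 T, ∀ x v, H t x v ≤ ENNReal.ofReal r * Wb P Lam rh g b t x v := by
  have hWm : ∀ t x, Measurable (warm P t x) := fun t x => hCo.measW.slice t x
  have hL0 : 0 < Lam := by nlinarith
  have hL1 : 1 ≤ Lam := by nlinarith
  have hA := aInp h hY hT0 hT1 hT hW hWm hL hb hg (by linarith) hLb hrh hrh1 hq
  have hLb0 : 0 ≤ Lam ^ b := by positivity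
  have hr0 : 0 < r := by linarith
  refine exists_HotSol (ρ := ENNReal.ofReal r) (A0 := ENNReal.ofReal (Lam ^ b))
    (θ3 := ENNReal.ofReal (1 + Lam ^ b)) hC hA hT1 (Fuel.measurable_phi h).ennreal_ofReal
    (perF_phiE P) (ENNReal.measurable_ofReal.comp (Fuel.measurable_bg _ _)) ?_
    ENNReal.ofReal_ne_top (ENNReal.ofReal_pos.2 hr0).ne' ?_ ?_ ?_ ?_
  · intro v x k
    have h1 : Fuel.bg rh R (x + latt k) v = Fuel.bg rh R x v := Fuel.perG_bg rh R v x k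
    show ENNReal.ofReal (Fuel.bg rh R (x + latt k) v) = ENNReal.ofReal (Fuel.bg rh R x v)
    rw [h1]
  · rw [← ENNReal.ofReal_add (by positivity) (by positivity)]
    have h2 : (2⁻¹ : ℝ≥0∞) = ENNReal.ofReal (1 / 2) := by
      rw [one_div, ENNReal.ofReal_inv_of_pos (by norm_num)]
      norm_num
    rw [h2, ← ENNReal.ofReal_mul (by norm_num)]
    apply ENNReal.ofReal_le_ofReal
    linarith
  · intro t ht x v
    rw [Wb_eq P Lam rh g b ht.1.le x v]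
    exact bg_le_B1 P hL1 hrh (by linarith) hg1 ht.1.le x v
  · intro t ht x v
    have hz : Meas3 (fun _ _ _ => 0 : Fld) := measurable_const
    have hzp : PerF (fun _ _ _ => 0 : Fld) := fun _ _ _ _ => rfl
    rw [Wb_eq P Lam rh g b ht.1.le x v]
    refine le_trans (Duh_mono_on (q' := fun _ y z =>
      ENNReal.ofReal (distG y ^ (P.p / 32) * Real.exp (-‖z‖ ^ 2))) fun s hs =>
      hSp _ (meas3_LcF hz) (perF_LcF hzp) s _ v hs.1.le ((hs.2.le.trans ht.2).trans hTd)) ?_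
    have hb0 : 0 < b := by linarith
    have hg2 : g ≤ 1 := by linarith
    refine (Duh_dist_pow_le P (Lam := Lam) (rh := rh) (g := g) (b := b) hL1 hrh hrh1 hb0 hn hg2
      ht.1.le x v).trans ?_
    gcongr
    have h3 : t ≤ 1 := ht.2.trans hT1
    have h4 : 0 ≤ 1 + Lam ^ b := by positivity
    nlinarith [ht.1]
  · calc _ ≤ ENNReal.ofReal (1 / 4) + ENNReal.ofReal (1 / 4) :=
          add_le_add (ENNReal.ofReal_le_ofReal hθ1) hθ2
      _ = 2⁻¹ := by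
          rw [← ENNReal.ofReal_add (by norm_num) (by norm_num)]
          norm_num
          rw [one_div, ENNReal.ofReal_inv_of_pos (by norm_num)]
          norm_num

/-- the spill bound of Part C for the final parameters -/
def SpillOutAll (Y : ℝ) : Prop :=
  ∀ K ey : ℝ, 1 ≤ K → 0 < ey → ey ≤ 1 / 100 → ∀ᶠ p : ℕ in atTop, ∀ᶠ j0 : ℕ in atTop,
    SpillOut (par K Y ey p j0)

/-! ### elementary limits -/

theorem ev_T1_pow {ε : ℝ} (hε : 0 < ε) : ∀ᶠ j0 : ℕ in atTop, T1j j0 ^ (3 / 4 : ℝ) ≤ ε := by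
  filter_upwards [ev_T1_le (show 0 < ε ^ (4 / 3 : ℝ) by positivity), ev_pos] with j0 h1 h2
  calc T1j j0 ^ (3 / 4 : ℝ) ≤ (ε ^ (4 / 3 : ℝ)) ^ (3 / 4 : ℝ) :=
        Real.rpow_le_rpow h2.2.2.le h1 (by norm_num)
    _ = ε := by
        rw [← Real.rpow_mul hε.le]
        norm_num

theorem ev_T1_sqrt {ε : ℝ} (hε : 0 < ε) : ∀ᶠ j0 : ℕ in atTop, √(T1j j0) ≤ ε := by
  filter_upwards [ev_T1_le (show 0 < ε ^ 2 by positivity)] with j0 h1
  calc √(T1j j0) ≤ √(ε ^ 2) := Real.sqrt_le_sqrt h1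
    _ = ε := Real.sqrt_sq hε.le

/-- a constant times `T1^{3/4}` is small -/
theorem ev_mul_T1_pow (A : ℝ) {ε : ℝ} (hε : 0 < ε) :
    ∀ᶠ j0 : ℕ in atTop, A * (16 * T1j j0 ^ (3 / 4 : ℝ)) ≤ ε := by
  have h0 : 0 < ε / (16 * (|A| + 1)) := by positivity
  filter_upwards [ev_T1_pow h0, ev_pos] with j0 h1 h2
  have h3 : 0 ≤ T1j j0 ^ (3 / 4 : ℝ) := Real.rpow_nonneg h2.2.2.le _
  calc A * (16 * T1j j0 ^ (3 / 4 : ℝ)) ≤ (|A| + 1) * (16 * T1j j0 ^ (3 / 4 : ℝ)) := by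
        gcongr
        have := le_abs_self A
        linarith
    _ ≤ (|A| + 1) * (16 * (ε / (16 * (|A| + 1)))) := by gcongr
    _ = ε := by field_simp

theorem ev_mul_T1 (A : ℝ) {ε : ℝ} (hε : 0 < ε) : ∀ᶠ j0 : ℕ in atTop, A * T1j j0 ≤ ε := by
  have h0 : 0 < ε / (|A| + 1) := by positivity
  filter_upwards [ev_T1_le h0, ev_pos] with j0 h1 h2
  have h3 := h2.2.2.le
  calc A * T1j j0 ≤ (|A| + 1) * T1j j0 := by
        gcongr
        have := le_abs_self A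
        linarith
    _ ≤ (|A| + 1) * (ε / (|A| + 1)) := by gcongr
    _ = ε := by field_simp

theorem cTot_ne_top {CC CK CW EV X ρ : ℝ≥0∞} (h1 : CC ≠ ⊤) (h2 : CK ≠ ⊤) (h3 : CW ≠ ⊤)
    (h4 : EV ≠ ⊤) (h5 : X ≠ ⊤) (h6 : ρ ≠ ⊤) : cTot CC CK CW EV X ρ ≠ ⊤ := by
  lift CC to NNReal using h1
  lift CK to NNReal using h2
  lift CW to NNReal using h3
  lift EV to NNReal using h4
  lift X to NNReal using h5
  lift ρ to NNReal using h6
  unfold cTot cL0 cB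
  norm_cast
  exact ENNReal.coe_ne_top

/-- `2K C (1/b + T/rh² + 400√T) ≤ 1/4` -/
theorem ev_theta1 {A b : ℝ} (hA : 0 ≤ A) (hb : 0 < b) (hAb : 8 * A ≤ b) :
    ∀ᶠ j0 : ℕ in atTop, A * (1 / b + T1j j0 / rhj j0 ^ 2 + 400 * √(T1j j0)) ≤ 1 / 4 := by
  have h0 : 0 < 1 / (16 * (A + 1)) := by positivity
  have h0' : 0 < 1 / (6400 * (A + 1)) := by positivity
  filter_upwards [ev_T1_rh2 h0, ev_T1_sqrt h0', ev_pos] with j0 h1 h2 h3
  have h4 : T1j j0 / rhj j0 ^ 2 ≤ 1 / (16 * (A + 1)) := by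
    rw [div_le_iff₀ (pow_pos h3.2.1 2)]
    exact h1
  have h5 : A * (1 / b) ≤ 1 / 8 := by
    rw [mul_one_div, div_le_iff₀ hb]
    linarith
  have h6 : A * (1 / (16 * (A + 1))) ≤ 1 / 16 := by
    rw [mul_one_div, div_le_div_iff₀ (by positivity) (by norm_num)]
    linarith
  have h7 : A * (400 * (1 / (6400 * (A + 1)))) ≤ 1 / 16 := by
    have e : A * (400 * (1 / (6400 * (A + 1)))) = A * (1 / (16 * (A + 1))) := by
      field_simp
      ring
    rw [e]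
    exact h6
  calc A * (1 / b + T1j j0 / rhj j0 ^ 2 + 400 * √(T1j j0))
      ≤ A * (1 / b + 1 / (16 * (A + 1)) + 400 * (1 / (6400 * (A + 1)))) := by gcongr
    _ = A * (1 / b) + A * (1 / (16 * (A + 1))) + A * (400 * (1 / (6400 * (A + 1)))) := by ring
    _ ≤ 1 / 4 := by linarith

/-- **`Main0.AOut`** -/
theorem AOut_of {Y : ℝ} (hY : 1 ≤ Y) (hC : ColdOutAll Y) (hws : WarmSize) (hsp : SpillOutAll Y) :
    Main0.AOut Y := by
  refine ⟨1, fun K hK _ ey β hey hey1 hβ => ?_⟩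
  obtain ⟨Cw, hCw⟩ := hws
  -- the exponents
  set g : ℝ := 1 / 8 with hgdef
  set A1 : ℝ := 2 * K * cqA Y g with hA1
  have hA10 : 0 ≤ A1 := by
    have := cqA_nonneg Y g
    positivity
  set b : ℝ := 1 + β + 8 * A1 with hb
  have hb1 : 1 ≤ b := by rw [hb]; linarith
  set Lam : ℝ := 100 * Y ^ 2 + 64 * b * (b + 1) with hLam
  have hLamY : 100 * Y ^ 2 ≤ Lam := by rw [hLam]; nlinarith
  have hLb : 8 * b * (b + 1) ≤ g * Lam := by rw [hgdef, hLam]; nlinarith [sq_nonneg Y]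
  have hLam0 : 0 < Lam := by nlinarith
  set q : ℝ := 2 * b with hq
  set r : ℝ := 2 + 4 * Lam ^ b with hr
  have hr0 : 0 < r := by rw [hr]; positivity
  obtain ⟨n, hn⟩ := exists_nat_ge (2 * b)
  filter_upwards [coldInp_ev hY hC K ey q hK hey hey1 (by positivity), hC K ey hK hey hey1,
    hsp K ey hK hey hey1, eventually_ge_atTop (32 * (n + 1) + 512)] with p hCI hCO hSpO hp
  intro R ε hε
  have hp1 : 512 ≤ p := by omega
  have hp2 : n + 1 ≤ p / 32 := by omega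
  -- constants independent of `j0`
  set cK : ℝ := cKA (par K Y ey p 1) g with hcK
  have hcK' : ∀ j0, cKA (par K Y ey p j0) g = cK := fun _ => rfl
  set CC : ℝ≥0∞ := 2 * ENNReal.ofReal (2 ^ (((p / 32 : ℕ) : ℝ) - q)) with hCC
  have hCCT : CC ≠ ⊤ := ENNReal.mul_ne_top (by norm_num) ENNReal.ofReal_ne_top
  set Ct : ℝ≥0∞ := cTot CC (ENNReal.ofReal cK) (ENNReal.ofReal (cWA Lam b q))
      (1 + ENNReal.ofReal (Y + 5)) (ENNReal.ofReal (2 ^ q)) (ENNReal.ofReal r) with hCt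
  have hCtT : Ct ≠ ⊤ := cTot_ne_top hCCT ENNReal.ofReal_ne_top ENNReal.ofReal_ne_top
    (ENNReal.add_ne_top.2 ⟨ENNReal.one_ne_top, ENNReal.ofReal_ne_top⟩) ENNReal.ofReal_ne_top
    ENNReal.ofReal_ne_top
  -- the smallness parameter
  set g' : ℝ := 1 / 20 with hg'
  set D1 : ℝ := Real.exp (2 * (g - g')) * (b / (g - g')) ^ b with hD1
  have hgg : 0 < g - g' := by rw [hgdef, hg']; norm_num
  have hD10 : 0 ≤ D1 := by rw [hD1]; positivity
  set D2 : ℝ := r * (A1 * D1) with hD2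
  have hD20 : 0 ≤ D2 := by rw [hD2]; positivity
  set ε1 : ℝ := min 1 (ε / (5 * (D2 + 1))) with hε1
  have hε10 : 0 < ε1 := by rw [hε1]; exact lt_min one_pos (by positivity)
  have hε11 : ε1 ≤ 1 := min_le_left _ _
  have hε12 : D2 * ε1 ^ b ≤ ε / 5 := by
    have h1 : ε1 ^ b ≤ ε1 := by
      calc ε1 ^ b ≤ ε1 ^ (1 : ℝ) := Real.rpow_le_rpow_of_exponent_ge hε10 hε11 hb1
        _ = ε1 := Real.rpow_one _
    have h2 : ε1 ≤ ε / (5 * (D2 + 1)) := min_le_right _ _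
    calc D2 * ε1 ^ b ≤ D2 * (ε / (5 * (D2 + 1))) := by gcongr; exact h1.trans h2
      _ ≤ (D2 + 1) * (ε / (5 * (D2 + 1))) := by gcongr; linarith
      _ = ε / 5 := by field_simp
  have hε5 : 0 < ε / 5 := by positivity
  filter_upwards [hCI, hCO, hSpO,
    ev_Ok K Y ey p (by linarith) (by linarith) hey (by omega),
    ev_ColdPar K Y ey p Cw hK hY hp1, ev_T1_le one_pos, ev_rh_le one_pos, ev_pos,
    ev_one_image K Y ey p (by linarith), ev_theta1 (b := b) hA10 (by linarith) (by rw [hb]; linarith),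
    ev_mul_T1_pow Ct.toReal (show (0 : ℝ) < 1 / 4 by norm_num),
    ev_T1_rh2 (show 0 < ε1 / 2 by positivity), ev_dl_rh 2 (show 0 < ε1 / 2 by positivity),
    ev_T1_R R (show (0 : ℝ) < 1 / 2 by norm_num), ev_T1_R (Y + 2) (show (0 : ℝ) < 1 / 8 by norm_num),
    ev_dl_rh (1 + Y) (show (0 : ℝ) < 1 / 8 by norm_num), ev_c_le K Y ey p one_pos,
    ev_mul_T1 (1 + Lam ^ b) hε5, ev_mul_T1_pow (r * K4.CC Y g g (Y + 5)) hε5,
    ev_mul_T1_pow (r ^ 2 * cK) hε5,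
    ev_mul_T1 (2 * (2 * π * (Y + 5) + r * cK)) hε5] with j0 a1 a2 a3 a4 a5 a6 a7 a8 a9 a10 a11 a12
      a13 a14 a15 a16 a17 a18 a19 a20 a21
  obtain ⟨hdl, hrh, hT0⟩ := a8
  set P := par K Y ey p j0 with hP
  have hPY : P.Y = Y := rfl
  have hPK : P.K = K := rfl
  have hTd : T1j j0 ≤ P.dl ^ (3 / 8 : ℝ) := le_rfl
  have hW : WSz P (T1j j0) := WSz.of fun t x ht hT => by
    obtain ⟨h1, h2, h3⟩ := hCw P a5 t x ht (hT.trans hTd)
    refine ⟨h1, h2.trans (distG_pow_le_one _ x), fun v => (h3 v).trans ?_⟩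
    calc _ ≤ 1 * Dm P t x v := mul_le_mul_left (distG_pow_le_one _ x) _
      _ = _ := one_mul _
  have hTz := a9 (T1j j0) hT0.le le_rfl
  have hnp : 2 * b ≤ ((P.p / 32 : ℕ) : ℝ) := by
    have h1 : ((n + 1 : ℕ) : ℝ) ≤ ((P.p / 32 : ℕ) : ℝ) := by exact_mod_cast hp2
    push_cast at h1 ⊢
    linarith
  have hθ2 : cTot CC (ENNReal.ofReal (cKA P g)) (ENNReal.ofReal (cWA Lam b q))
      (1 + ENNReal.ofReal (P.Y + 5)) (ENNReal.ofReal (2 ^ q)) (ENNReal.ofReal r) *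
      ENNReal.ofReal (16 * T1j j0 ^ (3 / 4 : ℝ)) ≤ ENNReal.ofReal (1 / 4) := by
    rw [hcK' j0]
    change Ct * _ ≤ _
    rw [← ENNReal.ofReal_toReal hCtT, ← ENNReal.ofReal_mul ENNReal.toReal_nonneg]
    exact ENNReal.ofReal_le_ofReal a11
  obtain ⟨H, hH, hle⟩ := solve_thm (R := R) a4 hY hT0 a6 hTd hTz a2 a3 hW hLamY hb1
    (by rw [hgdef]; norm_num) (by rw [hgdef]; norm_num) hLb hrh a7 (le_refl q) hnp a1 le_rfl
    a10 hθ2
  obtain ⟨C0, hC0, hB1⟩ := KC.B1_le_Zg (P := P) (Lam := Lam) (rh := rhj j0) (γ := g) (g0 := 1 / 10)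
    (b := b) (β := β) hLam0 hrh (by rw [hgdef]; norm_num) (by linarith)
    (by rw [hb]; linarith) hβ
  refine ⟨H, ENNReal.ofReal r * C0, hH, ENNReal.mul_ne_top ENNReal.ofReal_ne_top hC0, ?_, ?_⟩
  · intro t ht x v
    refine (hle t ht x v).trans ?_
    rw [Wb_eq P Lam (rhj j0) g b ht.1.le x v]
    calc ENNReal.ofReal r * B1 P Lam (rhj j0) g b t x v
        ≤ ENNReal.ofReal r * (C0 * tx β t x * Zg P (1 / 10) t x v) := by
          gcongr
          exact hB1 t ht.1.le (ht.2.trans a6) x v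
      _ = _ := by ring
  · -- closeness
    have hε1' : T1j j0 + 4 * P.dl ^ 2 ≤ ε1 * rhj j0 ^ 2 := by
      have h1 : 4 * P.dl ^ 2 ≤ (ε1 / 2 * rhj j0) ^ 2 := by
        have h2 : 0 ≤ 2 * dlj j0 := by positivity
        calc 4 * P.dl ^ 2 = (2 * dlj j0) ^ 2 := by
              show 4 * (dlj j0) ^ 2 = _
              ring
          _ ≤ (ε1 / 2 * rhj j0) ^ 2 := pow_le_pow_left₀ h2 a13 2
      have h3 : (ε1 / 2 * rhj j0) ^ 2 ≤ ε1 / 2 * rhj j0 ^ 2 := by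
        rw [mul_pow]
        have : (ε1 / 2) ^ 2 ≤ ε1 / 2 := by nlinarith
        have h4 : 0 ≤ rhj j0 ^ 2 := by positivity
        gcongr
      linarith
    have hzz : (1 + P.Y) * P.dl + (P.c + P.Y + etaj P.p P.j0) * T1j j0 < rhj j0 / 2 := by
      have h1 : (1 + P.Y) * P.dl ≤ 1 / 8 * rhj j0 := a16
      have h2 : (P.c + P.Y + etaj P.p P.j0) * T1j j0 ≤ T1j j0 * (Y + 2) := by
        have h3 := Fuel.etaj_le_one P.p P.j0
        rw [mul_comm]
        apply mul_le_mul_of_nonneg_left _ hT0.le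
        rw [hPY]
        linarith
      linarith
    have hcl := close_thm (q := q) (g' := g') (ε1 := ε1) a4 hY hT0 a6 hTd hTz a2 a3 hW hLamY hb1
      (by rw [hgdef]; norm_num) (by rw [hgdef]; norm_num) hLb hrh a7 (le_refl q) hnp
      (by linarith) le_rfl (by linarith) hzz hε1' hH hr0.le hle
    intro t ht x v
    refine (hcl t ht x v).trans ?_
    gcongr
    show cClose P (T1j j0) Lam g g' b r ε1 ≤ ε
    unfold cClose
    rw [hcK' j0, hPY, hPK]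
    have e1 : T1j j0 * (1 + Lam ^ b) ≤ ε / 5 := by rw [mul_comm]; exact a18
    have e2 : r * (2 * K * cqA Y g * ε1 ^ b * (Real.exp (2 * (g - g')) * (b / (g - g')) ^ b)) ≤
        ε / 5 := by
      have : r * (2 * K * cqA Y g * ε1 ^ b * (Real.exp (2 * (g - g')) * (b / (g - g')) ^ b)) =
          D2 * ε1 ^ b := by rw [hD2, hA1, hD1]; ring
      rw [this]; exact hε12
    have e3 : r * (K4.CC Y g g (Y + 5) * (16 * T1j j0 ^ (3 / 4 : ℝ))) ≤ ε / 5 := by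
      rw [← mul_assoc]; exact a19
    have e4 : r ^ 2 * (cK * (16 * T1j j0 ^ (3 / 4 : ℝ))) ≤ ε / 5 := by
      rw [← mul_assoc]; exact a20
    have e5 : 2 * (T1j j0 * (2 * π * (Y + 5) + r * cK)) ≤ ε / 5 := by
      have : 2 * (T1j j0 * (2 * π * (Y + 5) + r * cK)) =
          2 * (2 * π * (Y + 5) + r * cK) * T1j j0 := by ring
      rw [this]; exact a21
    linarith

end Crest.Agent.R68.A
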