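import Crest.Agent.R68.LUlt

/-!
# Row 68, Part L: ancient solutions as weak limits (general measure space version)
-/

set_option autoImplicit false
open MeasureTheory Set Filter Topology
open scoped ENNReal

namespace Crest.Agent.R68.L

variable {Ω : Type*} [MeasurableSpace Ω] {μ : Measure Ω}

theorem PosOp.congr {T : (Ω → ℝ≥0∞) → Ω → ℝ≥0∞} (hT : PosOp μ T) {f g : Ω → ℝ≥0∞}
    (hf : Measurable f) (hg : Measurable g) (h : ∀ᵐ x ∂μ, f x = g x) :
    ∀ᵐ x ∂μ, T f x = T g x := by
  have key : ∀ {f g : Ω → ℝ≥0∞}, Measurable f → Measurable g → (∀ᵐ x ∂μ, f x = g x) →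
      ∀ᵐ x ∂μ, T f x ≤ T g x := by
    intro f g hf hg h
    have h1 : ∀ x, f x ≤ (g + fun x => f x - g x) x := fun x => by
      show f x ≤ g x + (f x - g x)
      exact le_add_tsub
    have hd : Measurable (fun x => f x - g x) := hf.sub hg
    have h2 := hT.mono hf (hg.add hd) h1
    rw [hT.add g _ hg hd] at h2
    have h3 : ∀ᵐ x ∂μ, (fun x => f x - g x) x = 0 := by
      filter_upwards [h] with x hx
      simp [hx]
    filter_upwards [hT.null _ hd h3] with x hx
    have := h2 x
    simp only [Pi.add_apply] at this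
    rwa [hx, add_zero] at this
  filter_upwards [key hf hg h, key hg hf (h.mono fun x hx => hx.symm)] with x h1 h2
  exact le_antisymm h1 h2

/-- **Ancient solutions as weak limits.** -/
theorem exists_anc_ae [SigmaFinite μ] (U : Ultrafilter ℕ) (hU : (U : Filter ℕ) ≤ atTop)
    {T : (Ω → ℝ≥0∞) → Ω → ℝ≥0∞} (hT : PosOp μ T)
    {W : Ω → ℝ≥0∞} (hW : Measurable W) (hWfin : ∀ᵐ x ∂μ, W x ≠ ∞)
    {C : ℝ≥0∞} (hC : C ≠ ∞) (hTW : ∀ᵐ x ∂μ, T W x ≤ C * W x)
    (H S : ℕ → Ω → ℝ≥0∞) (hH : ∀ n, Measurable (H n)) (hS : ∀ n, Measurable (S n))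
    (hHW : ∀ n x, H n x ≤ W x) (hHS : ∀ n, ∀ᵐ x ∂μ, H n x = T (H n) x + S n x)
    (hS0 : ∀ᵐ x ∂μ, Tendsto (fun n => S n x / W x) atTop (𝓝 0)) :
    ∃ g : Ω → ℝ≥0∞, Measurable g ∧ (∀ x, g x ≤ W x) ∧ (∀ᵐ x ∂μ, g x = T g x) ∧
      ∀ κ : Ω → ℝ≥0∞, Measurable κ → ∫⁻ x, κ x * W x ∂μ ≠ ∞ →
        Tendsto (fun n => ∫⁻ x, H n x * κ x ∂μ) U (𝓝 (∫⁻ x, g x * κ x ∂μ)) := by
  classical
  -- the finite reference measure
  have hsf : SigmaFinite (μ.withDensity W) := by
    exact SigmaFinite.withDensity_of_ne_top hWfin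
  obtain ⟨w, hw0, hwm, hwi⟩ := exists_pos_lintegral_lt_of_sigmaFinite (μ.withDensity W)
    (ε := 1) one_ne_zero
  set w' : Ω → ℝ≥0∞ := fun x => (w x : ℝ≥0∞) with hw'
  have hw'm : Measurable w' := hwm.coe_nnreal_ennreal
  have hw'0 : ∀ x, w' x ≠ 0 := fun x => by
    simp only [hw', ne_eq, ENNReal.coe_eq_zero]; exact (hw0 x).ne'
  have hw't : ∀ x, w' x ≠ ∞ := fun x => ENNReal.coe_ne_top
  set m : Measure Ω := μ.withDensity (fun x => W x * w' x) with hm
  have hWw : Measurable (fun x => W x * w' x) := hW.mul hw'm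
  have hmi : ∀ f : Ω → ℝ≥0∞, Measurable f → ∫⁻ x, f x ∂m = ∫⁻ x, W x * w' x * f x ∂μ := by
    intro f hf
    rw [hm, lintegral_withDensity_eq_lintegral_mul _ hWw hf]
    rfl
  have hmfin : IsFiniteMeasure m := by
    refine ⟨?_⟩
    rw [hm, withDensity_apply _ MeasurableSet.univ, Measure.restrict_univ]
    have : ∫⁻ x, w' x ∂(μ.withDensity W) = ∫⁻ x, W x * w' x ∂μ := by
      rw [lintegral_withDensity_eq_lintegral_mul _ hW hw'm]
      rfl
    rw [← this]
    exact hwi.trans ENNReal.one_lt_top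
  have hmac : m ≪ μ := withDensity_absolutelyContinuous μ _
  -- m-a.e. statements
  have hae_of : ∀ {p : Ω → Prop}, MeasurableSet {x | ¬ p x} → (∀ᵐ x ∂m, p x) →
      ∀ᵐ x ∂μ, W x = 0 ∨ p x := by
    intro p hp h
    have h1 : m {x | ¬ p x} = 0 := h
    rw [hm, withDensity_apply _ hp] at h1
    rw [lintegral_eq_zero_iff hWw] at h1
    have h2 := (ae_restrict_iff' hp).1 h1
    filter_upwards [h2] with x hx
    by_cases hpx : p x
    · exact Or.inr hpx
    · left
      have h3 := hx hpx
      simp only [Pi.zero_apply, mul_eq_zero] at h3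
      rcases h3 with h3 | h3
      · exact h3
      · exact absurd h3 (hw'0 x)
  set f : ℕ → Ω → ℝ≥0∞ := fun n x => H n x / W x with hf
  have hfm : ∀ n, Measurable (f n) := fun n => (hH n).div hW
  have hf1 : ∀ n x, f n x ≤ 1 := fun n x => by
    simp only [hf]
    exact ENNReal.div_le_of_le_mul (by rw [one_mul]; exact hHW n x)
  set T' : (Ω → ℝ≥0∞) → Ω → ℝ≥0∞ := fun h x => T (fun y => W y * h y) x / W x with hT'
  have hmul : ∀ {h : Ω → ℝ≥0∞}, Measurable h → Measurable (fun y => W y * h y) :=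
    fun hh => hW.mul hh
  have hPT' : PosOp m T' := by
    refine ⟨?_, ?_, ?_, ?_, ?_⟩
    · intro h hh
      exact (hT.meas _ (hmul hh)).div hW
    · intro h k hh hk
      funext x
      simp only [hT', Pi.add_apply]
      have e1 : (fun y => W y * (h y + k y)) = (fun y => W y * h y) + fun y => W y * k y := by
        funext y; simp [mul_add]
      rw [e1, hT.add _ _ (hmul hh) (hmul hk)]
      simp only [Pi.add_apply]
      rw [ENNReal.add_div]
    · intro h hh hmono
      funext x
      simp only [hT']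
      have e1 : (fun y => W y * ⨆ n, h n y) = fun y => ⨆ n, W y * h n y := by
        funext y; rw [ENNReal.mul_iSup]
      rw [e1, hT.sup (fun n y => W y * h n y) (fun n => hmul (hh n))
        (fun i j hij y => mul_le_mul' le_rfl (hmono hij y))]
      rw [ENNReal.iSup_div]
    · intro c h hh
      funext x
      simp only [hT']
      have e1 : (fun y => W y * (c * h y)) = fun y => c * (W y * h y) := by
        funext y; ring
      rw [e1, hT.smul c _ (hmul hh)]
      rw [mul_div_assoc]
    · intro h hh h0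
      have h1 := hae_of (p := fun x => h x = 0) (by
        have : MeasurableSet {x | h x = 0} := hh (measurableSet_singleton 0)
        exact this.compl) h0
      have h2 : ∀ᵐ x ∂μ, (fun y => W y * h y) x = 0 := by
        filter_upwards [h1] with x hx
        rcases hx with hx | hx <;> simp [hx]
      have h3 := hT.null _ (hmul hh) h2
      refine hmac.ae_le ?_
      filter_upwards [h3] with x hx
      simp only [hT']
      rw [hx, ENNReal.zero_div]
  have hT'1 : ∫⁻ x, T' 1 x ∂m ≠ ∞ := by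
    have h1 : ∀ᵐ x ∂m, T' 1 x ≤ C := by
      refine hmac.ae_le ?_
      filter_upwards [hTW] with x hx
      simp only [hT', Pi.one_apply, mul_one]
      exact ENNReal.div_le_of_le_mul hx
    refine ne_top_of_le_ne_top ?_ (lintegral_mono_ae h1)
    rw [lintegral_const]
    exact ENNReal.mul_ne_top hC (measure_ne_top _ _)
  have hWf : ∀ {h : Ω → ℝ≥0∞}, (∀ x, h x ≤ W x) → ∀ᵐ x ∂μ, W x * (h x / W x) = h x := by
    intro h hle
    filter_upwards [hWfin] with x hx
    by_cases h0 : W x = 0
    · have : h x = 0 := le_antisymm ((hle x).trans h0.le) bot_le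
      simp [h0, this]
    · exact ENNReal.mul_div_cancel h0 hx
  set e : ℕ → Ω → ℝ≥0∞ := fun n x => S n x / W x with he
  have hem : ∀ n, Measurable (e n) := fun n => (hS n).div hW
  have hfe : ∀ n, ∀ᵐ x ∂m, f n x = T' (f n) x + e n x := by
    intro n
    refine hmac.ae_le ?_
    have hc := hT.congr (hmul (hfm n)) (hH n) (hWf (hHW n))
    filter_upwards [hc, hHS n] with x h1 h2
    simp only [hf, hT', he]
    have h1' : T (fun y => W y * (H n y / W y)) x = T (H n) x := h1
    rw [h1', ← ENNReal.add_div, ← h2]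
  have he1 : ∀ n, ∀ᵐ x ∂m, e n x ≤ 1 := by
    intro n
    filter_upwards [hfe n] with x hx
    have := hf1 n x
    rw [hx] at this
    exact le_trans le_add_self this
  have hlim : Tendsto (fun n => ∫⁻ x, e n x ∂m) U (𝓝 0) := by
    have h0 : Tendsto (fun n => ∫⁻ x, e n x ∂m) atTop (𝓝 (∫⁻ _, 0 ∂m)) := by
      refine tendsto_lintegral_of_dominated_convergence (fun _ => 1) hem he1 ?_ ?_
      · rw [lintegral_const, one_mul]; exact measure_ne_top _ _
      · exact hmac.ae_le hS0
    rw [lintegral_zero] at h0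
    exact h0.mono_left hU
  obtain ⟨g, hg, hg1, hgT, hgl⟩ := exists_fixed_ae U (m := m) f hPT' hT'1 hfm hf1 e hem hfe hlim
  refine ⟨fun x => W x * g x, hW.mul hg, fun x => ?_, ?_, ?_⟩
  · calc W x * g x ≤ W x * 1 := mul_le_mul' le_rfl (hg1 x)
      _ = W x := mul_one _
  · have hle : ∀ x, W x * g x ≤ W x := fun x => by
      calc W x * g x ≤ W x * 1 := mul_le_mul' le_rfl (hg1 x)
        _ = W x := mul_one _
    have hTle : ∀ x, T (fun y => W y * g y) x ≤ T W x := hT.mono (hW.mul hg) hW hle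
    have hset : MeasurableSet {x | ¬ (g x = T' g x)} := by
      have : MeasurableSet {x | g x = T' g x} := measurableSet_eq_fun hg (hPT'.meas g hg)
      exact this.compl
    have h1 := hae_of hset hgT
    filter_upwards [h1, hWfin, hTW] with x hx hxf hxT
    rcases hx with hx | hx
    · have h0 : T (fun y => W y * g y) x = 0 := by
        refine le_antisymm ((hTle x).trans (hxT.trans ?_)) bot_le
        rw [hx, mul_zero]
      show W x * g x = T (fun y => W y * g y) x
      rw [h0, hx, zero_mul]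
    · show W x * g x = T (fun y => W y * g y) x
      by_cases h0 : W x = 0
      · have h0' : T (fun y => W y * g y) x = 0 := by
          refine le_antisymm ((hTle x).trans (hxT.trans ?_)) bot_le
          rw [h0, mul_zero]
        rw [h0', h0, zero_mul]
      · rw [hx]
        simp only [hT']
        exact ENNReal.mul_div_cancel h0 hxf
  · intro κ hκ hfin
    have hκw : Measurable (fun x => κ x / w' x) := hκ.div hw'm
    have e1 : ∀ h : Ω → ℝ≥0∞, Measurable h → (∀ x, h x ≤ 1) →
        ∫⁻ x, h x * (κ x / w' x) ∂m = ∫⁻ x, W x * h x * κ x ∂μ := by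
      intro h hh _
      have e0 : ∫⁻ x, h x * (κ x / w' x) ∂m =
          ∫⁻ x, W x * w' x * (h x * (κ x / w' x)) ∂μ :=
        hmi (fun x => h x * (κ x / w' x)) (hh.mul hκw)
      refine e0.trans (lintegral_congr (fun x => ?_))
      calc W x * w' x * (h x * (κ x / w' x)) = W x * h x * (w' x * (κ x / w' x)) := by ring
        _ = W x * h x * κ x := by rw [ENNReal.mul_div_cancel (hw'0 x) (hw't x)]
    have hρ : ∫⁻ x, κ x / w' x ∂m ≠ ∞ := by
      have := e1 1 measurable_one (fun _ => le_rfl)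
      simp only [Pi.one_apply, one_mul, mul_one] at this
      rw [this]
      have e2 : ∫⁻ x, W x * κ x ∂μ = ∫⁻ x, κ x * W x ∂μ := by
        refine lintegral_congr (fun x => mul_comm _ _)
      rw [e2]; exact hfin
    have h2 := hgl _ hκw hρ
    rw [e1 g hg hg1] at h2
    refine h2.congr (fun n => ?_)
    rw [e1 (f n) (hfm n) (hf1 n)]
    refine lintegral_congr_ae ?_
    filter_upwards [hWf (hHW n)] with x hx
    show W x * (H n x / W x) * κ x = H n x * κ x
    rw [hx]

end Crest.Agent.R68.L
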