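import Crest.Agent.R68.A2
import Crest.Agent.R68.LUlt2

/-!
# Row 68, Part L: the linear hot equation: gain, damped Duhamel operator, Neumann series `sol`
-/

set_option autoImplicit false
open MeasureTheory Set Filter
open scoped ENNReal Topology
open Crest.AnalysisR.VecCalc3 Crest.AnalysisR.PDE.Boltzmann

noncomputable section

namespace Crest.Agent.R68.L

open Crest.Agent.R68.A

/-- densities -/
abbrev Den : Type := ℝ → P2 → R3 → ℝ≥0∞

/-- the fuel as an extended nonnegative density -/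
def phiE (P : Par) : Den := fun t x v => ENNReal.ofReal (phi P t x v)

/-- gain against the fuel `φ` -/
def Gf (φ h : Den) : Den := fun t x v => 2 * Qp (φ t x) (h t x) v

/-- Duhamel integral with the damping `exp(-∫ν_φ)` -/
def Dam (φ q : Den) : Den := fun t x v =>
  ∫⁻ s in Ioo 0 t, en (Acc φ s t x v) * q s (x - (t - s) • bar v) v

/-- the linear operator of the hot equation -/
def TL (φ h : Den) : Den := Dam φ (Gf φ h)

/-- Neumann series -/
def sol (φ σ : Den) : Den := fun t x v => ∑' n : ℕ, (TL φ)^[n] (Dam φ σ) t x v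

variable {φ : Den}

theorem meas3_Gf (hφ : Meas3 φ) {h : Den} (hh : Meas3 h) : Meas3 (Gf φ h) :=
  Meas3.const_mul (meas3_Qp hφ hh) 2

theorem meas3_Dam (hφ : Meas3 φ) {q : Den} (hq : Meas3 q) : Meas3 (Dam φ q) := by
  unfold Meas3 Dam
  refine measurable_lintegral_Ioo (α := ℝ × P2 × R3) (q := fun z : (ℝ × P2 × R3) × ℝ =>
      en (Acc φ z.2 z.1.1 z.1.2.1 z.1.2.2) *
      q z.2 (z.1.2.1 - (z.1.1 - z.2) • bar z.1.2.2) z.1.2.2) ?_ measurable_const (by fun_prop)
  refine Measurable.mul ?_ ?_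
  · exact measurable_en.comp (measurable_Acc hφ (by fun_prop) (by fun_prop) (by fun_prop)
      (by fun_prop))
  · exact hq.comp (by fun_prop) (by fun_prop) (by fun_prop)

theorem meas3_TL (hφ : Meas3 φ) {h : Den} (hh : Meas3 h) : Meas3 (TL φ h) :=
  meas3_Dam hφ (meas3_Gf hφ hh)

theorem meas3_iter (hφ : Meas3 φ) {h : Den} (hh : Meas3 h) (n : ℕ) : Meas3 ((TL φ)^[n] h) := by
  induction n with
  | zero => exact hh
  | succ n ih => rw [Function.iterate_succ_apply']; exact meas3_TL hφ ih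

theorem meas3_sol (hφ : Meas3 φ) {σ : Den} (hσ : Meas3 σ) : Meas3 (sol φ σ) :=
  Measurable.tsum (fun n => meas3_iter hφ (meas3_Dam hφ hσ) n)

/-! ### measurability along flights -/

theorem measurable_Acc_left (hφ : Meas3 φ) (t : ℝ) (x : P2) (v : R3) :
    Measurable (fun s => Acc φ s t x v) :=
  measurable_Acc hφ measurable_id measurable_const measurable_const measurable_const

theorem measurable_Dam_integrand (hφ : Meas3 φ) {q : Den} (hq : Meas3 q) (t : ℝ) (x : P2)
    (v : R3) : Measurable (fun s => en (Acc φ s t x v) * q s (x - (t - s) • bar v) v) :=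
  (measurable_en.comp (measurable_Acc_left hφ t x v)).mul (measurable_flight hq t x v)

/-! ### countable additivity, monotone continuity -/

theorem slice_meas {f g : R3 → ℝ≥0∞} (hf : Measurable f) (hg : Measurable g) (v vs : R3) :
    Measurable (fun w : R3 => ENNReal.ofReal |inner ℝ (v - vs) w| *
      f (postVel v vs w) * g (postVelStar v vs w)) := by
  refine Measurable.mul (Measurable.mul (by fun_prop) ?_) ?_
  · exact hf.comp (measurable_postVel measurable_const measurable_const measurable_id)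
  · exact hg.comp (measurable_postVelStar measurable_const measurable_const measurable_id)

theorem Qp_tsum {f : R3 → ℝ≥0∞} (hf : Measurable f) (g : ℕ → R3 → ℝ≥0∞)
    (hg : ∀ n, Measurable (g n)) (v : R3) :
    Qp f (fun z => ∑' n, g n z) v = ∑' n, Qp f (g n) v := by
  unfold Qp
  have hm : ∀ n, Measurable (fun p : R3 × R3 => ENNReal.ofReal |inner ℝ (v - p.1) p.2| *
      f (postVel v p.1 p.2) * g n (postVelStar v p.1 p.2)) := fun n =>
    measurable_Qp_integrand hf (hg n) v
  rw [← lintegral_tsum (fun n => (Measurable.lintegral_prod_right' (hm n)).aemeasurable)]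
  refine lintegral_congr (fun vs => ?_)
  have hs : ∀ n, Measurable (fun w : R3 => ENNReal.ofReal |inner ℝ (v - vs) w| *
      f (postVel v vs w) * g n (postVelStar v vs w)) := fun n => slice_meas hf (hg n) v vs
  dsimp only
  rw [← lintegral_tsum (fun n => (hs n).aemeasurable)]
  refine lintegral_congr (fun w => ?_)
  rw [ENNReal.tsum_mul_left]

theorem Qp_iSup {f : R3 → ℝ≥0∞} (hf : Measurable f) (g : ℕ → R3 → ℝ≥0∞)
    (hg : ∀ n, Measurable (g n)) (hmono : ∀ z, Monotone (fun n => g n z)) (v : R3) :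
    Qp f (fun z => ⨆ n, g n z) v = ⨆ n, Qp f (g n) v := by
  unfold Qp
  have hm : ∀ n, Measurable (fun p : R3 × R3 => ENNReal.ofReal |inner ℝ (v - p.1) p.2| *
      f (postVel v p.1 p.2) * g n (postVelStar v p.1 p.2)) := fun n =>
    measurable_Qp_integrand hf (hg n) v
  rw [← lintegral_iSup (fun n => Measurable.lintegral_prod_right' (hm n))
    (fun i j hij vs => lintegral_mono (fun w => mul_le_mul' le_rfl (hmono _ hij)))]
  refine lintegral_congr (fun vs => ?_)
  have hs : ∀ n, Measurable (fun w : R3 => ENNReal.ofReal |inner ℝ (v - vs) w| *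
      f (postVel v vs w) * g n (postVelStar v vs w)) := fun n => slice_meas hf (hg n) v vs
  dsimp only
  rw [← lintegral_iSup hs (fun i j hij w => mul_le_mul' le_rfl (hmono _ hij))]
  refine lintegral_congr (fun w => ?_)
  rw [ENNReal.mul_iSup]

theorem Gf_tsum (hφ : Meas3 φ) (h : ℕ → Den) (hh : ∀ n, Meas3 (h n)) :
    Gf φ (fun t x v => ∑' n, h n t x v) = fun t x v => ∑' n, Gf φ (h n) t x v := by
  funext t x v
  unfold Gf
  rw [Qp_tsum (hφ.slice t x) (fun n => h n t x) (fun n => (hh n).slice t x), ENNReal.tsum_mul_left]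

theorem Gf_iSup (hφ : Meas3 φ) (h : ℕ → Den) (hh : ∀ n, Meas3 (h n))
    (hmono : ∀ t x v, Monotone (fun n => h n t x v)) :
    Gf φ (fun t x v => ⨆ n, h n t x v) = fun t x v => ⨆ n, Gf φ (h n) t x v := by
  funext t x v
  unfold Gf
  rw [Qp_iSup (hφ.slice t x) (fun n => h n t x) (fun n => (hh n).slice t x) (hmono t x),
    ENNReal.mul_iSup]

theorem Dam_tsum (hφ : Meas3 φ) (q : ℕ → Den) (hq : ∀ n, Meas3 (q n)) :
    Dam φ (fun t x v => ∑' n, q n t x v) = fun t x v => ∑' n, Dam φ (q n) t x v := by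
  funext t x v
  unfold Dam
  rw [← lintegral_tsum (fun n => (measurable_Dam_integrand hφ (hq n) t x v).aemeasurable)]
  refine lintegral_congr (fun s => ?_)
  rw [ENNReal.tsum_mul_left]

theorem Dam_iSup (hφ : Meas3 φ) (q : ℕ → Den) (hq : ∀ n, Meas3 (q n))
    (hmono : ∀ t x v, Monotone (fun n => q n t x v)) :
    Dam φ (fun t x v => ⨆ n, q n t x v) = fun t x v => ⨆ n, Dam φ (q n) t x v := by
  funext t x v
  unfold Dam
  rw [← lintegral_iSup (fun n => measurable_Dam_integrand hφ (hq n) t x v)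
    (fun i j hij s => mul_le_mul' le_rfl (hmono _ _ _ hij))]
  refine lintegral_congr (fun s => ?_)
  rw [ENNReal.mul_iSup]

theorem Gf_mono {h k : Den} (hhk : ∀ t x v, h t x v ≤ k t x v) (t : ℝ) (x : P2) (v : R3) :
    Gf φ h t x v ≤ Gf φ k t x v :=
  mul_le_mul' le_rfl (Qp_mono (fun _ => le_rfl) (fun z => hhk t x z) v)

theorem Gf_mono_at {h k : Den} {t : ℝ} {x : P2} (hhk : ∀ v, h t x v ≤ k t x v) (v : R3) :
    Gf φ h t x v ≤ Gf φ k t x v :=
  mul_le_mul' le_rfl (Qp_mono (fun _ => le_rfl) (fun z => hhk z) v)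

theorem Dam_mono {h k : Den} (hhk : ∀ t x v, h t x v ≤ k t x v) (t : ℝ) (x : P2) (v : R3) :
    Dam φ h t x v ≤ Dam φ k t x v :=
  lintegral_mono (fun _ => mul_le_mul' le_rfl (hhk _ _ _))

theorem Dam_mono_at {h k : Den} {t : ℝ} {x : P2} {v : R3}
    (hhk : ∀ s ∈ Ioo 0 t, h s (x - (t - s) • bar v) v ≤ k s (x - (t - s) • bar v) v) :
    Dam φ h t x v ≤ Dam φ k t x v :=
  setLIntegral_mono_ae' measurableSet_Ioo
    (Eventually.of_forall fun s hs => mul_le_mul' le_rfl (hhk s hs))

theorem TL_mono {h k : Den} (hhk : ∀ t x v, h t x v ≤ k t x v) (t : ℝ) (x : P2) (v : R3) :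
    TL φ h t x v ≤ TL φ k t x v :=
  Dam_mono (Gf_mono hhk) t x v

theorem iter_mono {h k : Den} (hhk : ∀ t x v, h t x v ≤ k t x v) (n : ℕ) :
    ∀ t x v, (TL φ)^[n] h t x v ≤ (TL φ)^[n] k t x v := by
  induction n with
  | zero => exact hhk
  | succ n ih =>
    intro t x v
    rw [Function.iterate_succ_apply', Function.iterate_succ_apply']
    exact TL_mono ih t x v

theorem Gf_add (hφ : Meas3 φ) {h k : Den} (hh : Meas3 h) :
    Gf φ (fun t x v => h t x v + k t x v) = fun t x v => Gf φ h t x v + Gf φ k t x v := by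
  funext t x v
  unfold Gf
  rw [Qp_add_right (g := h t x) (h := k t x) (hφ.slice t x) (hh.slice t x), mul_add]

theorem Dam_add (hφ : Meas3 φ) {h k : Den} (hh : Meas3 h) :
    Dam φ (fun t x v => h t x v + k t x v) = fun t x v => Dam φ h t x v + Dam φ k t x v := by
  funext t x v
  unfold Dam
  rw [← lintegral_add_left (measurable_Dam_integrand hφ hh t x v)]
  refine lintegral_congr (fun s => ?_)
  rw [mul_add]

theorem TL_add (hφ : Meas3 φ) {h k : Den} (hh : Meas3 h) :
    TL φ (fun t x v => h t x v + k t x v) = fun t x v => TL φ h t x v + TL φ k t x v := by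
  unfold TL
  rw [Gf_add hφ hh, Dam_add hφ (meas3_Gf hφ hh)]

theorem Qp_const_mul_right' {f g : R3 → ℝ≥0∞} (hf : Measurable f) (hg : Measurable g)
    (c : ℝ≥0∞) (v : R3) : Qp f (fun z => c * g z) v = c * Qp f g v := by
  unfold Qp
  have hm : Measurable (fun p : R3 × R3 => ENNReal.ofReal |inner ℝ (v - p.1) p.2| *
      f (postVel v p.1 p.2) * g (postVelStar v p.1 p.2)) := measurable_Qp_integrand hf hg v
  rw [← lintegral_const_mul _ (Measurable.lintegral_prod_right' hm)]
  refine lintegral_congr fun vs => ?_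
  have hs : Measurable (fun w : R3 => ENNReal.ofReal |inner ℝ (v - vs) w| *
      f (postVel v vs w) * g (postVelStar v vs w)) := slice_meas hf hg v vs
  dsimp only
  rw [← lintegral_const_mul c hs]
  refine lintegral_congr fun w => ?_
  ring

theorem Gf_smul (hφ : Meas3 φ) {h : Den} (hh : Meas3 h) (c : ℝ≥0∞) :
    Gf φ (fun t x v => c * h t x v) = fun t x v => c * Gf φ h t x v := by
  funext t x v
  unfold Gf
  rw [Qp_const_mul_right' (hφ.slice t x) (hh.slice t x)]
  ring

theorem Dam_smul (hφ : Meas3 φ) {h : Den} (hh : Meas3 h) (c : ℝ≥0∞) :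
    Dam φ (fun t x v => c * h t x v) = fun t x v => c * Dam φ h t x v := by
  funext t x v
  unfold Dam
  rw [← lintegral_const_mul _ (measurable_Dam_integrand hφ hh t x v)]
  refine lintegral_congr (fun s => ?_)
  ring

theorem TL_smul (hφ : Meas3 φ) {h : Den} (hh : Meas3 h) (c : ℝ≥0∞) :
    TL φ (fun t x v => c * h t x v) = fun t x v => c * TL φ h t x v := by
  unfold TL
  rw [Gf_smul hφ hh, Dam_smul hφ (meas3_Gf hφ hh)]

theorem TL_tsum (hφ : Meas3 φ) (h : ℕ → Den) (hh : ∀ n, Meas3 (h n)) :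
    TL φ (fun t x v => ∑' n, h n t x v) = fun t x v => ∑' n, TL φ (h n) t x v := by
  unfold TL
  rw [Gf_tsum hφ h hh, Dam_tsum hφ _ (fun n => meas3_Gf hφ (hh n))]

theorem TL_iSup (hφ : Meas3 φ) (h : ℕ → Den) (hh : ∀ n, Meas3 (h n))
    (hmono : ∀ t x v, Monotone (fun n => h n t x v)) :
    TL φ (fun t x v => ⨆ n, h n t x v) = fun t x v => ⨆ n, TL φ (h n) t x v := by
  unfold TL
  rw [Gf_iSup hφ h hh hmono, Dam_iSup hφ _ (fun n => meas3_Gf hφ (hh n))]
  intro t x v i j hij
  exact Gf_mono_at (fun z => hmono t x z hij) v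

/-! ### the Neumann series -/

/-- `sol` solves the equation everywhere -/
theorem sol_eq (hφ : Meas3 φ) {σ : Den} (hσ : Meas3 σ) (t : ℝ) (x : P2) (v : R3) :
    sol φ σ t x v = TL φ (sol φ σ) t x v + Dam φ σ t x v := by
  have h1 : TL φ (sol φ σ) = fun t x v => ∑' n : ℕ, TL φ ((TL φ)^[n] (Dam φ σ)) t x v :=
    TL_tsum hφ (fun n => (TL φ)^[n] (Dam φ σ)) (fun n => meas3_iter hφ (meas3_Dam hφ hσ) n)
  rw [h1]
  show (∑' n : ℕ, (TL φ)^[n] (Dam φ σ) t x v) = _
  rw [tsum_eq_zero_add' ENNReal.summable, add_comm]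
  simp only [Function.iterate_zero, id_eq, Function.iterate_succ_apply']

/-- partial sums -/
def psum (φ σ : Den) (N : ℕ) : Den := fun t x v =>
  ∑ n ∈ Finset.range N, (TL φ)^[n] (Dam φ σ) t x v

theorem meas3_psum (hφ : Meas3 φ) {σ : Den} (hσ : Meas3 σ) (N : ℕ) : Meas3 (psum φ σ N) :=
  Finset.measurable_sum _ (fun n _ => meas3_iter hφ (meas3_Dam hφ hσ) n)

theorem psum_mono (σ : Den) (t : ℝ) (x : P2) (v : R3) : Monotone (fun N => psum φ σ N t x v) :=
  fun _ _ hij => Finset.sum_le_sum_of_subset (Finset.range_mono hij)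

theorem sol_eq_iSup (σ : Den) (t : ℝ) (x : P2) (v : R3) :
    sol φ σ t x v = ⨆ N, psum φ σ N t x v := ENNReal.tsum_eq_iSup_nat

theorem psum_succ (hφ : Meas3 φ) {σ : Den} (hσ : Meas3 σ) (N : ℕ) (t : ℝ) (x : P2) (v : R3) :
    psum φ σ (N + 1) t x v = TL φ (psum φ σ N) t x v + Dam φ σ t x v := by
  induction N generalizing t x v with
  | zero =>
    have h0 : psum φ σ 0 = fun _ _ _ => 0 := by funext t x v; simp [psum]
    have h1 := TL_smul (φ := φ) hφ (h := fun _ _ _ => 0) measurable_const 0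
    simp only [zero_mul] at h1
    rw [h0, h1]
    simp [psum]
  | succ N ih =>
    have e1 : psum φ σ (N + 1 + 1) t x v =
        psum φ σ (N + 1) t x v + (TL φ)^[N + 1] (Dam φ σ) t x v := by
      simp [psum, Finset.sum_range_succ]
    have e2 : psum φ σ (N + 1) = fun t x v => psum φ σ N t x v + (TL φ)^[N] (Dam φ σ) t x v := by
      funext t x v
      simp [psum, Finset.sum_range_succ]
    rw [e1]
    conv_rhs => rw [e2, TL_add hφ (meas3_psum hφ hσ N)]
    rw [ih]
    rw [Function.iterate_succ_apply']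
    ring

/-- least solution -/
theorem sol_le (hφ : Meas3 φ) {σ H : Den} (hσ : Meas3 σ)
    (hle : ∀ t x v, TL φ H t x v + Dam φ σ t x v ≤ H t x v) (t : ℝ) (x : P2) (v : R3) :
    sol φ σ t x v ≤ H t x v := by
  rw [sol_eq_iSup]
  refine iSup_le (fun N => ?_)
  induction N generalizing t x v with
  | zero => simp [psum]
  | succ N ih =>
    rw [psum_succ hφ hσ]
    exact (add_le_add (TL_mono ih t x v) le_rfl).trans (hle t x v)

theorem sol_mono {σ τ : Den} (h : ∀ t x v, σ t x v ≤ τ t x v) (t : ℝ) (x : P2) (v : R3) :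
    sol φ σ t x v ≤ sol φ τ t x v :=
  ENNReal.tsum_le_tsum (fun n => iter_mono (Dam_mono h) n t x v)

theorem iter_add (hφ : Meas3 φ) {h k : Den} (hh : Meas3 h) (n : ℕ) :
    (TL φ)^[n] (fun t x v => h t x v + k t x v) =
      fun t x v => (TL φ)^[n] h t x v + (TL φ)^[n] k t x v := by
  induction n with
  | zero => rfl
  | succ n ih =>
    rw [Function.iterate_succ_apply', ih, TL_add hφ (meas3_iter hφ hh n)]
    funext t x v
    rw [Function.iterate_succ_apply', Function.iterate_succ_apply']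

theorem iter_smul (hφ : Meas3 φ) {h : Den} (hh : Meas3 h) (c : ℝ≥0∞) (n : ℕ) :
    (TL φ)^[n] (fun t x v => c * h t x v) = fun t x v => c * (TL φ)^[n] h t x v := by
  induction n with
  | zero => rfl
  | succ n ih =>
    rw [Function.iterate_succ_apply', ih, TL_smul hφ (meas3_iter hφ hh n)]
    funext t x v
    rw [Function.iterate_succ_apply']

theorem iter_iSup (hφ : Meas3 φ) (h : ℕ → Den) (hh : ∀ n, Meas3 (h n))
    (hmono : ∀ t x v, Monotone (fun n => h n t x v)) (k : ℕ) :
    (TL φ)^[k] (fun t x v => ⨆ n, h n t x v) = fun t x v => ⨆ n, (TL φ)^[k] (h n) t x v := by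
  induction k with
  | zero => rfl
  | succ k ih =>
    rw [Function.iterate_succ_apply', ih, TL_iSup hφ _ (fun n => meas3_iter hφ (hh n) k)]
    · funext t x v
      simp only [Function.iterate_succ_apply']
    · intro t x v i j hij
      exact iter_mono (fun t x v => hmono t x v hij) k t x v

theorem sol_add (hφ : Meas3 φ) {σ τ : Den} (hσ : Meas3 σ) (t : ℝ) (x : P2) (v : R3) :
    sol φ (fun t x v => σ t x v + τ t x v) t x v = sol φ σ t x v + sol φ τ t x v := by
  unfold sol
  rw [← ENNReal.tsum_add]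
  congr 1
  funext n
  rw [Dam_add hφ hσ, iter_add hφ (meas3_Dam hφ hσ)]

theorem sol_smul (hφ : Meas3 φ) {σ : Den} (hσ : Meas3 σ) (c : ℝ≥0∞) (t : ℝ) (x : P2) (v : R3) :
    sol φ (fun t x v => c * σ t x v) t x v = c * sol φ σ t x v := by
  unfold sol
  rw [← ENNReal.tsum_mul_left]
  congr 1
  funext n
  rw [Dam_smul hφ hσ, iter_smul hφ (meas3_Dam hφ hσ)]

/-- monotone continuity of the solver -/
theorem sol_iSup (hφ : Meas3 φ) (σ : ℕ → Den) (hσ : ∀ n, Meas3 (σ n))
    (hmono : ∀ t x v, Monotone (fun n => σ n t x v)) (t : ℝ) (x : P2) (v : R3) :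
    sol φ (fun t x v => ⨆ n, σ n t x v) t x v = ⨆ n, sol φ (σ n) t x v := by
  have h1 : ∀ k : ℕ, (TL φ)^[k] (Dam φ (fun t x v => ⨆ n, σ n t x v)) t x v =
      ⨆ n, (TL φ)^[k] (Dam φ (σ n)) t x v := by
    intro k
    rw [Dam_iSup hφ σ hσ hmono, iter_iSup hφ _ (fun n => meas3_Dam hφ (hσ n))]
    intro t x v i j hij
    exact Dam_mono (fun t x v => hmono t x v hij) t x v
  refine le_antisymm ?_ (iSup_le fun n => sol_mono (fun t x v => le_iSup (fun n => σ n t x v) n)
    t x v)
  show (∑' k : ℕ, (TL φ)^[k] (Dam φ (fun t x v => ⨆ n, σ n t x v)) t x v) ≤ _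
  rw [ENNReal.tsum_eq_iSup_nat]
  refine iSup_le (fun N => ?_)
  have h2 : ∑ k ∈ Finset.range N, (TL φ)^[k] (Dam φ (fun t x v => ⨆ n, σ n t x v)) t x v =
      ⨆ n, ∑ k ∈ Finset.range N, (TL φ)^[k] (Dam φ (σ n)) t x v := by
    rw [Finset.sum_congr rfl (fun k _ => h1 k)]
    exact ENNReal.finsetSum_iSup_of_monotone (fun k i j hij =>
      iter_mono (Dam_mono (fun t x v => hmono t x v hij)) k t x v)
  rw [h2]
  exact iSup_mono (fun n => ENNReal.sum_le_tsum (f := fun k => (TL φ)^[k] (Dam φ (σ n)) t x v) _)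

end Crest.Agent.R68.L
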