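import Crest.Agent.R68.ColdCpl
import Crest.Agent.R68.LDefs

/-!
# Row 68, PART C (helper585): self-collisions of the coupled cold component
`Qp coldR coldR = coldGain + coldSpill`
-/

set_option autoImplicit false
open MeasureTheory Set Filter
open scoped ENNReal Topology
open Crest.AnalysisR.VecCalc3 Crest.AnalysisR.PDE.Boltzmann

noncomputable section

namespace Crest.Agent.R68.ColdC

open Crest.Agent.R68.A (Meas3)
open Crest.Agent.R68.ColdW (Big)
open Crest.Agent.R68.Cold (C0)

variable {P : Par}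

/-- bilinear gain of countable sums -/
theorem Qp_tsum_tsum {ι ι' : Type*} [Countable ι] [Countable ι'] {f : ι → R3 → ℝ≥0∞}
    {g : ι' → R3 → ℝ≥0∞} (hf : ∀ i, Measurable (f i)) (hg : ∀ i, Measurable (g i)) (v : R3) :
    Qp (fun z => ∑' i, f i z) (fun z => ∑' i, g i z) v = ∑' i, ∑' i', Qp (f i) (g i') v := by
  have hm : ∀ i i', Measurable (fun p : R3 × R3 => ENNReal.ofReal |inner ℝ (v - p.1) p.2| *
      f i (postVel v p.1 p.2) * g i' (postVelStar v p.1 p.2)) := fun i i' =>
    A.measurable_Qp_integrand (hf i) (hg i') v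
  have hs : ∀ i i' (vs : R3), Measurable (fun w : R3 => ENNReal.ofReal |inner ℝ (v - vs) w| *
      f i (postVel v vs w) * g i' (postVelStar v vs w)) := fun i i' vs =>
    L.slice_meas (hf i) (hg i') v vs
  have e1 : ∀ vs w : R3, ENNReal.ofReal |inner ℝ (v - vs) w| * (∑' i, f i (postVel v vs w)) *
      (∑' i, g i (postVelStar v vs w)) = ∑' i, ∑' i', ENNReal.ofReal |inner ℝ (v - vs) w| *
      f i (postVel v vs w) * g i' (postVelStar v vs w) := by
    intro vs w
    have a1 : ENNReal.ofReal |inner ℝ (v - vs) w| * (∑' i, f i (postVel v vs w)) =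
        ∑' i, ENNReal.ofReal |inner ℝ (v - vs) w| * f i (postVel v vs w) :=
      ENNReal.tsum_mul_left.symm
    rw [a1, ← ENNReal.tsum_mul_right]
    refine tsum_congr fun i => ?_
    rw [ENNReal.tsum_mul_left]
  unfold Qp
  simp_rw [e1]
  have e2 : ∀ vs : R3, ∫⁻ w, ∑' i, ∑' i', ENNReal.ofReal |inner ℝ (v - vs) w| *
      f i (postVel v vs w) * g i' (postVelStar v vs w) ∂sphereMeasure =
      ∑' i, ∑' i', ∫⁻ w, ENNReal.ofReal |inner ℝ (v - vs) w| *
      f i (postVel v vs w) * g i' (postVelStar v vs w) ∂sphereMeasure := by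
    intro vs
    rw [lintegral_tsum fun i => (Measurable.tsum fun i' => hs i i' vs).aemeasurable]
    refine tsum_congr fun i => ?_
    rw [lintegral_tsum fun i' => (hs i i' vs).aemeasurable]
  simp_rw [e2]
  have hm' : ∀ i i', Measurable fun vs : R3 => ∫⁻ w, ENNReal.ofReal |inner ℝ (v - vs) w| *
      f i (postVel v vs w) * g i' (postVelStar v vs w) ∂sphereMeasure := fun i i' =>
    Measurable.lintegral_prod_right' (hm i i')
  rw [lintegral_tsum fun i => (Measurable.tsum fun i' => hm' i i').aemeasurable]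
  refine tsum_congr fun i => ?_
  rw [lintegral_tsum fun i' => (hm' i i').aemeasurable]

/-- the cold component is the sum of its sheets -/
theorem coldR_eq_tsum (hC : ColdPar C0 P) (hB : Big P) (hK : 0 < P.K)
    {lam : ℝ → P2 → R3 → ℝ≥0∞} (hl : Meas3 lam) {t : ℝ} (ht : 0 ≤ t) (x : P2) (v : R3) :
    coldR P lam t x v = ∑' i : (ℤ × ℤ) × ℕ, coldjk P lam i t x v := by
  rw [coldR_eq_coldL hC hB hK hl ht, ENNReal.tsum_prod']
  rfl

/-- **collisions inside the cold component** -/
theorem Qp_coldR (hC : ColdPar C0 P) (hB : Big P) (hK : 0 < P.K)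
    {lam : ℝ → P2 → R3 → ℝ≥0∞} (hl : Meas3 lam) {t : ℝ} (ht : 0 ≤ t) (x : P2) (v : R3) :
    Qp (coldR P lam t x) (coldR P lam t x) v = coldGain P lam t x v + coldSpill P lam t x v := by
  classical
  have h1 : coldR P lam t x = fun z => ∑' i : (ℤ × ℤ) × ℕ, coldjk P lam i t x z := by
    funext z; exact coldR_eq_tsum hC hB hK hl ht x z
  have hm : ∀ i : (ℤ × ℤ) × ℕ, Measurable (coldjk P lam i t x) := fun i =>
    A.Meas3.slice (ColdM.meas3_coldjk P hl i) t x
  rw [h1, Qp_tsum_tsum hm hm]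
  unfold coldGain coldSpill
  rw [← ENNReal.tsum_add]
  refine tsum_congr fun i => ?_
  by_cases hg : t ≤ tauj P.p i.2 ∧ Zj P i.2 1 t (x + latt i.1) v
  · rw [if_pos hg]
    have h2 : Qp (coldjk P lam i t x) (coldjk P lam i t x) v =
        ∑' i' : (ℤ × ℤ) × ℕ, if i = i' then Qp (coldjk P lam i t x) (coldjk P lam i' t x) v else 0 := by
      rw [tsum_eq_single i]
      · rw [if_pos rfl]
      · intro i' hi'
        rw [if_neg (Ne.symm hi')]
    rw [h2, ← ENNReal.tsum_add]
    refine tsum_congr fun i' => ?_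
    by_cases hi : i = i'
    · rw [if_pos hi, if_pos ⟨hi, hg⟩, add_zero]
    · rw [if_neg hi, if_neg (fun h => hi h.1), zero_add]
  · rw [if_neg hg, zero_add]
    refine tsum_congr fun i' => ?_
    rw [if_neg (fun h => hg h.2)]

end Crest.Agent.R68.ColdC
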