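/-
Row 68 (S0091), Part F: the fundamental cell `cellG`, unfolding of integrals over the lattice.
-/
import Mathlib
import Crest.Agent.R68.FLattice

set_option autoImplicit false

namespace Crest.Agent.R68

open Real MeasureTheory Set FLat
open scoped ENNReal

/-- the frame change from standard to golden coordinates as a linear map of the plane. -/
noncomputable def stdG : P2 →ₗ[ℝ] P2 :=
  Matrix.toLin (Module.Basis.finTwoProd ℝ) (Module.Basis.finTwoProd ℝ)
    !![-(gold / √(1 + gold ^ 2)), 1 / √(1 + gold ^ 2);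
      1 / √(1 + gold ^ 2), gold / √(1 + gold ^ 2)]

lemma sqrtg_pos : 0 < √(1 + gold ^ 2) := Real.sqrt_pos.2 (by positivity)

lemma sqrtg_sq : √(1 + gold ^ 2) ^ 2 = 1 + gold ^ 2 := Real.sq_sqrt (by positivity)

lemma stdG_apply (p : P2) : stdG p =
    ((p.2 - p.1 * gold) / √(1 + gold ^ 2), (p.1 + p.2 * gold) / √(1 + gold ^ 2)) := by
  rw [stdG, Matrix.toLin_finTwoProd_apply]
  ext
  · show -(gold / √(1 + gold ^ 2)) * p.1 + 1 / √(1 + gold ^ 2) * p.2
      = (p.2 - p.1 * gold) / √(1 + gold ^ 2)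
    ring
  · show 1 / √(1 + gold ^ 2) * p.1 + gold / √(1 + gold ^ 2) * p.2
      = (p.1 + p.2 * gold) / √(1 + gold ^ 2)
    ring

lemma det_stdG : LinearMap.det stdG = -1 := by
  rw [stdG, LinearMap.det_toLin, Matrix.det_fin_two_of]
  have h := sqrtg_sq
  have h0 := sqrtg_pos.ne'
  generalize √(1 + gold ^ 2) = q at h h0 ⊢
  field_simp
  linear_combination h

lemma latt_eq_stdG (k : ℤ × ℤ) : latt k = stdG ((k.1 : ℝ), (k.2 : ℝ)) := by
  rw [stdG_apply]; rfl

lemma stdG_mp : MeasurePreserving stdG (volume : Measure P2) volume := by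
  refine ⟨stdG.continuous_of_finiteDimensional.measurable, ?_⟩
  rw [Measure.map_linearMap_addHaar_eq_smul_addHaar volume (by rw [det_stdG]; norm_num), det_stdG]
  norm_num

/-- the frame change as a continuous linear equivalence. -/
noncomputable def stdGe : P2 ≃L[ℝ] P2 :=
  (LinearEquiv.ofIsUnitDet (f := stdG) (v := Module.Basis.finTwoProd ℝ)
    (v' := Module.Basis.finTwoProd ℝ) (by
      rw [LinearMap.det_toMatrix, det_stdG]
      exact (isUnit_one.neg))).toContinuousLinearEquiv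

@[simp] lemma stdGe_apply (p : P2) : stdGe p = stdG p := rfl

/-- the unit square -/
def sqr : Set P2 := Ico (0 : ℝ) 1 ×ˢ Ico (0 : ℝ) 1

lemma measurableSet_sqr : MeasurableSet sqr := measurableSet_Ico.prod measurableSet_Ico

lemma cellG_eq_image : cellG = stdG '' sqr := by
  ext x
  simp only [cellG, Set.mem_ofPred_eq, mem_image, sqr, mem_prod, Prod.exists]
  constructor
  · rintro ⟨s, t, hs, ht, rfl⟩
    exact ⟨s, t, ⟨hs, ht⟩, by rw [stdG_apply]⟩
  · rintro ⟨s, t, ⟨hs, ht⟩, rfl⟩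
    exact ⟨s, t, hs, ht, by rw [stdG_apply]⟩

lemma preimage_cellG : stdG ⁻¹' cellG = sqr := by
  rw [cellG_eq_image]
  exact preimage_image_eq _ stdGe.injective

lemma measurableSet_cellG : MeasurableSet cellG := by
  rw [cellG_eq_image]
  exact stdGe.toHomeomorph.measurableEmbedding.measurableSet_image.2 measurableSet_sqr

lemma measurableEmbedding_stdG : MeasurableEmbedding (stdG : P2 → P2) :=
  stdGe.toHomeomorph.measurableEmbedding

lemma volume_sqr : volume sqr = 1 := by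
  rw [sqr, Measure.volume_eq_prod, Measure.prod_prod]; simp

lemma volume_cellG : volume cellG = 1 := by
  rw [← stdG_mp.measure_preimage measurableSet_cellG.nullMeasurableSet, preimage_cellG, volume_sqr]

/-- integration over the cell in standard coordinates. -/
lemma setLIntegral_cellG (g : P2 → ℝ≥0∞) : ∫⁻ x in cellG, g x = ∫⁻ p in sqr, g (stdG p) := by
  rw [← preimage_cellG]
  exact (stdG_mp.setLIntegral_comp_preimage_emb measurableEmbedding_stdG g cellG).symm

lemma lintegral_stdG (g : P2 → ℝ≥0∞) : ∫⁻ x, g (stdG x) = ∫⁻ x, g x :=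
  stdG_mp.lintegral_comp_emb measurableEmbedding_stdG g

/-- the integer translate of the unit square. -/
def sqk (k : ℤ × ℤ) : Set P2 := Ico (k.1 : ℝ) (k.1 + 1) ×ˢ Ico (k.2 : ℝ) (k.2 + 1)

lemma iUnion_sqk : ⋃ k, sqk k = univ := by
  ext p
  simp only [mem_iUnion, mem_univ, iff_true]
  exact ⟨(⌊p.1⌋, ⌊p.2⌋), ⟨⟨Int.floor_le _, Int.lt_floor_add_one _⟩,
    ⟨Int.floor_le _, Int.lt_floor_add_one _⟩⟩⟩

lemma disjoint_sqk : Pairwise (Function.onFun Disjoint sqk) := by
  intro k l hkl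
  rw [Function.onFun, Set.disjoint_left]
  intro p hp hq
  apply hkl
  obtain ⟨⟨h1, h2⟩, ⟨h3, h4⟩⟩ := hp
  obtain ⟨⟨h5, h6⟩, ⟨h7, h8⟩⟩ := hq
  have e1 : ⌊p.1⌋ = k.1 := Int.floor_eq_iff.2 ⟨h1, h2⟩
  have e2 : ⌊p.1⌋ = l.1 := Int.floor_eq_iff.2 ⟨h5, h6⟩
  have e3 : ⌊p.2⌋ = k.2 := Int.floor_eq_iff.2 ⟨h3, h4⟩
  have e4 : ⌊p.2⌋ = l.2 := Int.floor_eq_iff.2 ⟨h7, h8⟩
  exact Prod.ext (e1.symm.trans e2) (e3.symm.trans e4)

lemma measurableSet_sqk (k : ℤ × ℤ) : MeasurableSet (sqk k) :=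
  measurableSet_Ico.prod measurableSet_Ico

lemma setLIntegral_sqk (g : P2 → ℝ≥0∞) (k : ℤ × ℤ) :
    ∫⁻ p in sqk k, g p = ∫⁻ p in sqr, g (p + ((k.1 : ℝ), (k.2 : ℝ))) := by
  have hmp : MeasurePreserving (fun p : P2 => p + ((k.1 : ℝ), (k.2 : ℝ))) volume volume :=
    measurePreserving_add_right volume _
  have hemb : MeasurableEmbedding (fun p : P2 => p + ((k.1 : ℝ), (k.2 : ℝ))) :=
    measurableEmbedding_addRight _
  rw [← hmp.setLIntegral_comp_preimage_emb hemb g (sqk k)]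
  congr 2
  ext p
  simp only [sqk, sqr, mem_preimage, mem_prod, mem_Ico, Prod.fst_add, Prod.snd_add]
  constructor
  · rintro ⟨⟨h1, h2⟩, ⟨h3, h4⟩⟩
    exact ⟨⟨by linarith, by linarith⟩, ⟨by linarith, by linarith⟩⟩
  · rintro ⟨⟨h1, h2⟩, ⟨h3, h4⟩⟩
    exact ⟨⟨by linarith, by linarith⟩, ⟨by linarith, by linarith⟩⟩

lemma lintegral_eq_tsum_sqr (g : P2 → ℝ≥0∞) :
    ∫⁻ p, g p = ∑' k : ℤ × ℤ, ∫⁻ p in sqr, g (p + ((k.1 : ℝ), (k.2 : ℝ))) := by
  rw [← setLIntegral_univ, ← iUnion_sqk, lintegral_iUnion measurableSet_sqk disjoint_sqk]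
  exact tsum_congr (setLIntegral_sqk g)

/-- UNFOLDING: the integral over the plane is the integral over the cell of the lattice sum. -/
theorem lintegral_eq_tsum_cellG (g : P2 → ℝ≥0∞) :
    ∫⁻ x, g x = ∑' k : ℤ × ℤ, ∫⁻ x in cellG, g (x + latt k) := by
  rw [← lintegral_stdG, lintegral_eq_tsum_sqr]
  refine tsum_congr fun k => ?_
  rw [setLIntegral_cellG]
  simp only [map_add, latt_eq_stdG]

theorem lintegral_cellG_tsum {g : P2 → ℝ≥0∞} (hg : Measurable g) :
    ∫⁻ x in cellG, ∑' k : ℤ × ℤ, g (x + latt k) = ∫⁻ x, g x := by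
  rw [lintegral_eq_tsum_cellG, lintegral_tsum]
  intro k
  exact (hg.comp (measurable_add_const _)).aemeasurable

/-- a periodic weight can be taken out of the lattice sum. -/
theorem lintegral_cellG_tsum_mul {g f : P2 → ℝ≥0∞} (hg : Measurable g) (hf : Measurable f)
    (hp : PerG f) :
    ∫⁻ x in cellG, (∑' k : ℤ × ℤ, g (x + latt k)) * f x = ∫⁻ x, g x * f x := by
  have h := lintegral_cellG_tsum (g := fun x => g x * f x) (hg.mul hf)
  rw [← h]
  congr 1
  ext x
  rw [← ENNReal.tsum_mul_right]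
  refine tsum_congr fun k => ?_
  rw [hp x k]

/-- translation invariance of the cell integral of a periodic function. -/
theorem lintegral_cellG_add {g : P2 → ℝ≥0∞} (hg : Measurable g) (hp : PerG g) (a : P2) :
    ∫⁻ x in cellG, g (x + a) = ∫⁻ x in cellG, g x := by
  -- both sides equal the integral of `(indicator of the translated cell) * g`
  have h1 : ∫⁻ x in cellG, g (x + a) = ∫⁻ x, (cellG.indicator 1 (x - a)) * g x := by
    rw [← lintegral_indicator measurableSet_cellG,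
      ← lintegral_add_right_eq_self (fun x => (cellG.indicator 1 (x - a)) * g x) a]
    congr 1; ext x
    rw [add_sub_cancel_right]
    by_cases hx : x ∈ cellG
    · simp [hx]
    · simp [hx]
  have hm : Measurable (fun x : P2 => (cellG.indicator (1 : P2 → ℝ≥0∞) (x - a))) :=
    (measurable_one.indicator measurableSet_cellG).comp (measurable_sub_const a)
  rw [h1, ← lintegral_cellG_tsum_mul hm hg hp]
  -- the lattice sum of the indicator is one
  have h2 : ∀ y : P2, ∑' k : ℤ × ℤ, cellG.indicator (1 : P2 → ℝ≥0∞) (y + latt k) = 1 := by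
    intro y
    obtain ⟨p, rfl⟩ := stdGe.surjective y
    have h3 : ∀ k : ℤ × ℤ, cellG.indicator (1 : P2 → ℝ≥0∞) (stdGe p + latt k)
        = if k = (-⌊p.1⌋, -⌊p.2⌋) then 1 else 0 := by
      intro k
      rw [stdGe_apply, latt_eq_stdG, ← map_add]
      have h4 : stdG (p + ((k.1 : ℝ), (k.2 : ℝ))) ∈ cellG ↔ p + ((k.1 : ℝ), (k.2 : ℝ)) ∈ sqr := by
        rw [← preimage_cellG]; rfl
      have h5 : p + ((k.1 : ℝ), (k.2 : ℝ)) ∈ sqr ↔ k = (-⌊p.1⌋, -⌊p.2⌋) := by
        simp only [sqr, mem_prod, mem_Ico, Prod.fst_add, Prod.snd_add]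
        constructor
        · rintro ⟨⟨h1, h2⟩, ⟨h3, h4⟩⟩
          have e1 : ⌊p.1⌋ = -k.1 := Int.floor_eq_iff.2 (by push_cast; constructor <;> linarith)
          have e2 : ⌊p.2⌋ = -k.2 := Int.floor_eq_iff.2 (by push_cast; constructor <;> linarith)
          rw [e1, e2]; simp
        · rintro rfl
          push_cast
          refine ⟨⟨?_, ?_⟩, ⟨?_, ?_⟩⟩
          · linarith [Int.floor_le p.1]
          · linarith [Int.lt_floor_add_one p.1]
          · linarith [Int.floor_le p.2]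
          · linarith [Int.lt_floor_add_one p.2]
      by_cases h : k = (-⌊p.1⌋, -⌊p.2⌋)
      · rw [if_pos h, indicator_of_mem (h4.2 (h5.2 h))]; rfl
      · rw [if_neg h, indicator_of_notMem (fun hh => h (h5.1 (h4.1 hh)))]
    rw [tsum_congr h3, tsum_ite_eq]
  congr 1; ext x
  have h6 : ∀ k : ℤ × ℤ, x + latt k - a = (x - a) + latt k := fun k => by abel
  simp only [h6, h2, one_mul]

end Crest.Agent.R68
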