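/-
Row 68 (S0091), Part F: lanes, one-lane fuel, superposition formula (flow in labels).
-/
import Mathlib
import Crest.Agent.R68.FCell

set_option autoImplicit false

namespace Crest.Agent.R68

open Real MeasureTheory Set
open scoped ENNReal
open Crest.AnalysisR.VecCalc3 Crest.AnalysisR.PDE.Boltzmann

/-! ### lanes -/

lemma etaj_pos (p j : ℕ) : 0 < etaj p j := by unfold etaj; positivity

lemma etaj_le_one (p j : ℕ) : etaj p j ≤ 1 := by
  unfold etaj
  apply pow_le_one₀ (by positivity)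
  rw [div_le_one (by positivity)]
  have : (0 : ℝ) ≤ j := Nat.cast_nonneg j
  linarith

lemma rr_nonneg (a : ℝ) : 0 ≤ rr a := sq_nonneg a

lemma rr_pos {a : ℝ} (ha : a ≠ 0) : 0 < rr a := by unfold rr; positivity

lemma lane_ne {j : ℕ} {a : ℝ} (ha : a ∈ lane j) : a ≠ 0 := ha.1

lemma lane_lt {j : ℕ} {a : ℝ} (ha : a ∈ lane j) : (2 * (j : ℝ) + 1 / 100) * rr a < 1 := by
  have h := ha.2.1
  rwa [lt_div_iff₀ (by have := ha.1; positivity)] at h

lemma lt_lane {j : ℕ} {a : ℝ} (ha : a ∈ lane j) : 1 < (2 * (j : ℝ) + 199 / 100) * rr a := by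
  have h := ha.2.2
  rwa [div_lt_iff₀ (by have := ha.1; positivity)] at h

/-- a label determines its lane. -/
lemma lane_unique {i j : ℕ} {a : ℝ} (hi : a ∈ lane i) (hj : a ∈ lane j) : i = j := by
  have h1 := hi.2.1; have h2 := hi.2.2; have h3 := hj.2.1; have h4 := hj.2.2
  have h5 : (i : ℝ) < j + 1 := by linarith
  have h6 : (j : ℝ) < i + 1 := by linarith
  have h7 : i < j + 1 := by exact_mod_cast h5
  have h8 : j < i + 1 := by exact_mod_cast h6
  omega

lemma measurableSet_lane (j : ℕ) : MeasurableSet (lane j) := by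
  have h : lane j = ({0}ᶜ ∩ (fun a : ℝ => 1 / a ^ 2) ⁻¹' Ioo (2 * (j : ℝ) + 1 / 100) (2 * j + 199 / 100)) := by
    ext a; simp only [lane, mem_ofPred_eq, mem_inter_iff, mem_compl_iff, mem_singleton_iff,
      mem_preimage, mem_Ioo]
  rw [h]
  refine (measurableSet_singleton 0).compl.inter (measurableSet_Ioo.preimage ?_)
  exact (measurable_const.div (measurable_id.pow_const 2))

lemma rr_lt_of_mem_lane {j : ℕ} (hj : 1 ≤ j) {a : ℝ} (ha : a ∈ lane j) : rr a < 1 / (2 * j) := by
  have h := lane_lt ha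
  have hj' : (0 : ℝ) < j := by exact_mod_cast hj
  rw [lt_div_iff₀ (by positivity)]
  nlinarith [rr_pos ha.1]

lemma abs_lt_dl {P : Par} (hj0 : 1 ≤ P.j0) {j : ℕ} (hj : P.j0 ≤ j) {a : ℝ} (ha : a ∈ lane j) :
    |a| < P.dl := by
  have h := rr_lt_of_mem_lane (hj0.trans hj) ha
  have hj0' : (0 : ℝ) < P.j0 := by exact_mod_cast hj0
  have hjj : (P.j0 : ℝ) ≤ j := by exact_mod_cast hj
  have h2 : rr a < 1 / (2 * P.j0) := h.trans_le (by
    apply one_div_le_one_div_of_le <;> linarith)
  unfold Par.dl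
  rw [show 1 / √(2 * (P.j0 : ℝ)) = √(1 / (2 * P.j0)) by
    rw [Real.sqrt_div zero_le_one, Real.sqrt_one]]
  rw [← Real.sqrt_sq_eq_abs]
  exact Real.sqrt_lt_sqrt (sq_nonneg a) h2

/-! ### profiles -/

lemma chij_nonneg (j : ℕ) (a : ℝ) : 0 ≤ chij j a := le_max_left _ _

lemma chij_le_one (j : ℕ) (a : ℝ) : chij j a ≤ 1 :=
  max_le zero_le_one (min_le_left _ _)

lemma ky_nonneg (P : Par) (y : ℝ) : 0 ≤ ky P y := le_max_left _ _

lemma ky_le_one (P : Par) (y : ℝ) : ky P y ≤ 1 :=
  max_le zero_le_one (min_le_left _ _)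

lemma ky_eq_zero {P : Par} (hey : 0 < P.ey) {y : ℝ} (hy : P.Y ≤ |y|) : ky P y = 0 := by
  unfold ky
  apply max_eq_left
  exact (min_le_right _ _).trans (div_nonpos_of_nonpos_of_nonneg (by linarith) hey.le)

lemma measurable_chij (j : ℕ) : Measurable (chij j) := by
  unfold chij; fun_prop

lemma measurable_ky (P : Par) : Measurable (ky P) := by
  unfold ky; fun_prop

/-- the chij of a label outside the lane (and nonzero) vanishes. -/
lemma chij_eq_zero {j : ℕ} {a : ℝ} (ha0 : a ≠ 0) (ha : a ∉ lane j) : chij j a = 0 := by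
  unfold chij
  apply max_eq_left
  by_cases h1 : 2 * (j : ℝ) + 1 / 100 < 1 / a ^ 2
  · have h2 : 2 * (j : ℝ) + 199 / 100 ≤ 1 / a ^ 2 := by
      by_contra h; push Not at h; exact ha ⟨ha0, h1, h⟩
    refine (min_le_right _ _).trans ((min_le_right _ _).trans ?_)
    nlinarith
  · push Not at h1
    refine (min_le_right _ _).trans ((min_le_left _ _).trans ?_)
    nlinarith

/-! ### the fuel of one lane -/

/-- amplitude at the label point. -/
lemma phi0j_amp_nonneg {P : Par} (hK : 0 ≤ P.K) (j : ℕ) (x : P2) :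
    0 ≤ P.K * chij j x.1 * ky P (x.2 / rr x.1) / (8 * rr x.1 * etaj P.p j ^ 3) := by
  have := rr_nonneg x.1
  have := (etaj_pos P.p j).le
  have := chij_nonneg j x.1
  have := ky_nonneg P (x.2 / rr x.1)
  positivity

lemma phi0j_nonneg {P : Par} (hK : 0 ≤ P.K) (j : ℕ) (x : P2) (v : R3) : 0 ≤ phi0j P j x v := by
  unfold phi0j
  split_ifs
  · exact phi0j_amp_nonneg hK j x
  · exact le_rfl

/-- pointwise bound of the initial fuel of a lane. -/
lemma phi0j_le {P : Par} (hK : 0 ≤ P.K) (j : ℕ) (x : P2) (v : R3) :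
    phi0j P j x v ≤ P.K / (8 * rr x.1 * etaj P.p j ^ 3) := by
  have h1 := rr_nonneg x.1
  have h2 := (etaj_pos P.p j).le
  unfold phi0j
  split_ifs
  · have h3 := chij_nonneg j x.1
    have h4 := ky_nonneg P (x.2 / rr x.1)
    have h5 := chij_le_one j x.1
    have h6 := ky_le_one P (x.2 / rr x.1)
    have : P.K * chij j x.1 * ky P (x.2 / rr x.1) ≤ P.K * 1 * 1 := by gcongr
    rw [mul_one, mul_one] at this
    gcongr
  · positivity

lemma phi0j_eq_zero {P : Par} {j : ℕ} {x : P2} (hx : x.1 ∉ lane j) (v : R3) :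
    phi0j P j x v = 0 := by
  unfold phi0j; rw [if_neg (fun h => hx h.1)]

lemma phi0j_eq_zero' {P : Par} {j : ℕ} {x : P2} (hx : ¬ |x.2| < P.Y * rr x.1) (v : R3) :
    phi0j P j x v = 0 := by
  unfold phi0j; rw [if_neg (fun h => hx h.2.1)]

lemma phi0_eq_tsum (P : Par) (x : P2) (v : R3) :
    phi0 P x v = ∑' j : ℕ, if P.j0 ≤ j then phi0j P j x v else 0 := rfl

/-- the sum over the lanes has at most one nonzero term. -/
lemma phi0_of_mem {P : Par} {j : ℕ} (hj : P.j0 ≤ j) {x : P2} (hx : x.1 ∈ lane j) (v : R3) :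
    phi0 P x v = phi0j P j x v := by
  rw [phi0_eq_tsum, tsum_eq_single j]
  · rw [if_pos hj]
  · intro i hi
    by_cases h : P.j0 ≤ i
    · rw [if_pos h, phi0j_eq_zero (fun h' => hi (lane_unique h' hx))]
    · rw [if_neg h]

lemma phi0_of_notMem {P : Par} {x : P2} (hx : ∀ j, P.j0 ≤ j → x.1 ∉ lane j) (v : R3) :
    phi0 P x v = 0 := by
  rw [phi0_eq_tsum]
  have : (fun j => if P.j0 ≤ j then phi0j P j x v else 0) = fun _ => (0 : ℝ) := by
    funext j
    by_cases h : P.j0 ≤ j
    · rw [if_pos h, phi0j_eq_zero (hx j h)]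
    · rw [if_neg h]
  rw [this, tsum_zero]

lemma phi0_nonneg {P : Par} (hK : 0 ≤ P.K) (x : P2) (v : R3) : 0 ≤ phi0 P x v := by
  rw [phi0_eq_tsum]
  exact tsum_nonneg fun j => by split_ifs <;> [exact phi0j_nonneg hK j x v; exact le_rfl]

lemma ofReal_phi0 (P : Par) (x : P2) (v : R3) :
    ENNReal.ofReal (phi0 P x v) =
      ∑' j : ℕ, if P.j0 ≤ j then ENNReal.ofReal (phi0j P j x v) else 0 := by
  by_cases h : ∃ j, P.j0 ≤ j ∧ x.1 ∈ lane j
  · obtain ⟨j, hj, hx⟩ := h
    rw [phi0_of_mem hj hx, tsum_eq_single j]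
    · rw [if_pos hj]
    · intro i hi
      by_cases h : P.j0 ≤ i
      · rw [if_pos h, phi0j_eq_zero (fun h' => hi (lane_unique h' hx)), ENNReal.ofReal_zero]
      · rw [if_neg h]
  · push Not at h
    rw [phi0_of_notMem h, ENNReal.ofReal_zero]
    symm
    rw [ENNReal.tsum_eq_zero]
    intro j
    split_ifs with hj
    · rw [phi0j_eq_zero (h j hj), ENNReal.ofReal_zero]
    · rfl

/-- support of the initial fuel. -/
lemma phi0_ne_zero {P : Par} {x : P2} {v : R3} (h : phi0 P x v ≠ 0) :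
    ∃ j, P.j0 ≤ j ∧ x.1 ∈ lane j ∧ |x.2| < P.Y * rr x.1 ∧
      (∀ i : Fin 3, |v i - uvec P (wj j) 0 x i| < etaj P.p j) ∧
      phi0 P x v = P.K * chij j x.1 * ky P (x.2 / rr x.1) / (8 * rr x.1 * etaj P.p j ^ 3) := by
  by_cases h' : ∃ j, P.j0 ≤ j ∧ x.1 ∈ lane j
  · obtain ⟨j, hj, hx⟩ := h'
    have h2 := phi0_of_mem hj hx v
    rw [h2] at h ⊢
    unfold phi0j at h ⊢
    by_cases hc : x.1 ∈ lane j ∧ |x.2| < P.Y * rr x.1 ∧
        ∀ i : Fin 3, |v i - uvec P (wj j) 0 x i| < etaj P.p j
    · exact ⟨j, hj, hx, hc.2.1, hc.2.2, by rw [if_pos hc]⟩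
    · rw [if_neg hc] at h; exact absurd rfl h
  · push Not at h'
    exact absurd (phi0_of_notMem h' v) h

lemma measurable_phi0j (P : Par) (j : ℕ) : Measurable (fun q : P2 × R3 => phi0j P j q.1 q.2) := by
  unfold phi0j
  refine Measurable.ite ?_ ?_ measurable_const
  · have hc : ∀ i : Fin 3, Measurable (fun q : P2 × R3 => q.2 i) := fun i =>
      (EuclideanSpace.proj (𝕜 := ℝ) i).continuous.measurable.comp measurable_snd
    have h1 : MeasurableSet {q : P2 × R3 | q.1.1 ∈ lane j} :=
      (measurableSet_lane j).preimage (measurable_fst.comp measurable_fst)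
    have h2 : MeasurableSet {q : P2 × R3 | |q.1.2| < P.Y * rr q.1.1} := by
      apply measurableSet_lt
      · exact (measurable_snd.comp measurable_fst).abs
      · exact ((measurable_fst.comp measurable_fst).pow_const 2).const_mul _
    have h3 : ∀ i : Fin 3, MeasurableSet {q : P2 × R3 | |q.2 i - uvec P (wj j) 0 q.1 i| < etaj P.p j} := by
      intro i
      apply measurableSet_lt _ measurable_const
      refine ((hc i).sub ?_).abs
      have hx1 : Measurable (fun q : P2 × R3 => q.1.1) := measurable_fst.comp measurable_fst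
      have hx2 : Measurable (fun q : P2 × R3 => q.1.2) := measurable_snd.comp measurable_fst
      fin_cases i
      · show Measurable (fun q : P2 × R3 => P.c * q.1.1 / (P.dl + P.c * 0))
        exact (hx1.const_mul _).div_const _
      · show Measurable (fun q : P2 × R3 => q.1.2 / (0 + rr (lab P 0 q.1)))
        refine hx2.div (Measurable.const_add ?_ _)
        exact (((hx1.const_mul _).div_const _).pow_const 2)
      · show Measurable (fun q : P2 × R3 => wj j)
        exact measurable_const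
    have : {q : P2 × R3 | q.1.1 ∈ lane j ∧ |q.1.2| < P.Y * rr q.1.1 ∧
        ∀ i : Fin 3, |q.2 i - uvec P (wj j) 0 q.1 i| < etaj P.p j}
        = {q : P2 × R3 | q.1.1 ∈ lane j} ∩ ({q : P2 × R3 | |q.1.2| < P.Y * rr q.1.1} ∩
          ⋂ i : Fin 3, {q : P2 × R3 | |q.2 i - uvec P (wj j) 0 q.1 i| < etaj P.p j}) := by
      ext q; simp
    rw [this]
    exact h1.inter (h2.inter (MeasurableSet.iInter h3))
  · have hx1 : Measurable (fun q : P2 × R3 => q.1.1) := measurable_fst.comp measurable_fst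
    have hx2 : Measurable (fun q : P2 × R3 => q.1.2) := measurable_snd.comp measurable_fst
    have hr : Measurable (fun q : P2 × R3 => rr q.1.1) := hx1.pow_const 2
    refine Measurable.div (Measurable.mul (Measurable.const_mul ?_ _) ?_)
      (Measurable.mul_const (Measurable.const_mul hr _) _)
    · exact (measurable_chij j).comp hx1
    · exact (measurable_ky P).comp (hx2.div hr)

lemma measurable_phi0 (P : Par) : Measurable (fun q : P2 × R3 => phi0 P q.1 q.2) := by
  have h : (fun q : P2 × R3 => phi0 P q.1 q.2) = fun q : P2 × R3 =>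
      ∑' j : ℕ, (if P.j0 ≤ j then phi0j P j q.1 q.2 else 0) := by
    funext q; exact phi0_eq_tsum P q.1 q.2
  -- positive and negative parts through `ENNReal`
  have key : (fun q : P2 × R3 => phi0 P q.1 q.2) = fun q =>
      (∑' j : ℕ, if P.j0 ≤ j then ENNReal.ofReal (phi0j P j q.1 q.2) else 0).toReal
      - (∑' j : ℕ, if P.j0 ≤ j then ENNReal.ofReal (-phi0j P j q.1 q.2) else 0).toReal := by
    funext q
    rw [← ofReal_phi0]
    have h2 : (∑' j : ℕ, if P.j0 ≤ j then ENNReal.ofReal (-phi0j P j q.1 q.2) else 0)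
        = ENNReal.ofReal (-phi0 P q.1 q.2) := by
      by_cases h : ∃ j, P.j0 ≤ j ∧ q.1.1 ∈ lane j
      · obtain ⟨j, hj, hx⟩ := h
        rw [phi0_of_mem hj hx, tsum_eq_single j]
        · rw [if_pos hj]
        · intro i hi
          by_cases h : P.j0 ≤ i
          · rw [if_pos h, phi0j_eq_zero (fun h' => hi (lane_unique h' hx)), neg_zero,
              ENNReal.ofReal_zero]
          · rw [if_neg h]
      · push Not at h
        rw [phi0_of_notMem h, neg_zero, ENNReal.ofReal_zero, ENNReal.tsum_eq_zero]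
        intro j
        split_ifs with hj
        · rw [phi0j_eq_zero (h j hj), neg_zero, ENNReal.ofReal_zero]
        · rfl
    rw [h2]
    rcases le_total 0 (phi0 P q.1 q.2) with h0 | h0
    · rw [ENNReal.toReal_ofReal h0, ENNReal.ofReal_of_nonpos (by linarith)]; simp
    · rw [ENNReal.ofReal_of_nonpos h0, ENNReal.toReal_ofReal (by linarith)]; simp
  rw [key]
  refine Measurable.sub (Measurable.ennreal_toReal ?_) (Measurable.ennreal_toReal ?_)
  · refine Measurable.tsum fun j => ?_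
    split_ifs
    · exact (measurable_phi0j P j).ennreal_ofReal
    · exact measurable_const
  · refine Measurable.tsum fun j => ?_
    split_ifs
    · exact (measurable_phi0j P j).neg.ennreal_ofReal
    · exact measurable_const

end Crest.Agent.R68
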