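import Mathlib
import Crest.Prelude.Def_HardSphereBoltzmann

/-!
R68 / EGeom: geometry of the hard-sphere collision map (helper485, Part E).
-/

set_option autoImplicit false
open MeasureTheory
open scoped ENNReal
open Crest.AnalysisR.VecCalc3 Crest.AnalysisR.PDE.Boltzmann

namespace Crest.Agent.R68

/-- the collision map for fixed ω -/
noncomputable def cmap (w : R3) (p : R3 × R3) : R3 × R3 :=
  (postVel p.1 p.2 w, postVelStar p.1 p.2 w)

theorem inner_self_one {w : R3} (hw : ‖w‖ = 1) : inner ℝ w w = (1 : ℝ) := by
  rw [real_inner_self_eq_norm_sq, hw]; norm_num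

theorem inner_post_sub {w : R3} (hw : ‖w‖ = 1) (v vs : R3) :
    inner ℝ (postVel v vs w - postVelStar v vs w) w = -(inner ℝ (v - vs) w : ℝ) := by
  have h1 : postVel v vs w - postVelStar v vs w
      = (v - vs) - (2 * (inner ℝ (v - vs) w : ℝ)) • w := by
    unfold postVel postVelStar
    module
  rw [h1, inner_sub_left, real_inner_smul_left, inner_self_one hw]
  ring

theorem postVel_post {w : R3} (hw : ‖w‖ = 1) (v vs : R3) :
    postVel (postVel v vs w) (postVelStar v vs w) w = v := by
  rw [postVel, inner_post_sub hw, postVel]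
  module

theorem postVelStar_post {w : R3} (hw : ‖w‖ = 1) (v vs : R3) :
    postVelStar (postVel v vs w) (postVelStar v vs w) w = vs := by
  rw [postVelStar, inner_post_sub hw, postVelStar]
  module

theorem cmap_cmap {w : R3} (hw : ‖w‖ = 1) (p : R3 × R3) : cmap w (cmap w p) = p := by
  unfold cmap
  simp only [postVel_post hw, postVelStar_post hw]

theorem abs_inner_post {w : R3} (hw : ‖w‖ = 1) (v vs : R3) :
    |inner ℝ (postVel v vs w - postVelStar v vs w) w| = |(inner ℝ (v - vs) w : ℝ)| := by
  rw [inner_post_sub hw, abs_neg]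

theorem post_add (v vs w : R3) : postVel v vs w + postVelStar v vs w = v + vs := by
  unfold postVel postVelStar
  module

theorem post_norm_sq {w : R3} (hw : ‖w‖ = 1) (v vs : R3) :
    ‖postVel v vs w‖ ^ 2 + ‖postVelStar v vs w‖ ^ 2 = ‖v‖ ^ 2 + ‖vs‖ ^ 2 := by
  unfold postVel postVelStar
  rw [norm_sub_sq_real, norm_add_sq_real, real_inner_smul_right, real_inner_smul_right, norm_smul,
    hw, inner_sub_left]
  simp only [Real.norm_eq_abs, mul_one, sq_abs]
  ring

theorem postVel_swap (v vs w : R3) : postVel vs v w = postVelStar v vs w := by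
  unfold postVel postVelStar
  have : vs - v = -(v - vs) := by abel
  rw [this, inner_neg_left]
  module

theorem postVelStar_swap (v vs w : R3) : postVelStar vs v w = postVel v vs w := by
  unfold postVel postVelStar
  have : vs - v = -(v - vs) := by abel
  rw [this, inner_neg_left]
  module

theorem postVel_neg (v vs w : R3) : postVel v vs (-w) = postVel v vs w := by
  unfold postVel
  rw [inner_neg_right]
  module

theorem postVelStar_neg (v vs w : R3) : postVelStar v vs (-w) = postVelStar v vs w := by
  unfold postVelStar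
  rw [inner_neg_right]
  module

/-- the collision map as a linear map -/
noncomputable def cmapL (w : R3) : (R3 × R3) →ₗ[ℝ] (R3 × R3) where
  toFun := cmap w
  map_add' p q := by
    ext1
    · simp only [cmap, postVel, Prod.fst_add, Prod.snd_add]
      rw [show p.1 + q.1 - (p.2 + q.2) = (p.1 - p.2) + (q.1 - q.2) by abel, inner_add_left]
      module
    · simp only [cmap, postVelStar, Prod.fst_add, Prod.snd_add]
      rw [show p.1 + q.1 - (p.2 + q.2) = (p.1 - p.2) + (q.1 - q.2) by abel, inner_add_left]
      module
  map_smul' c p := by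
    ext1
    · simp only [cmap, postVel, Prod.smul_fst, Prod.smul_snd, RingHom.id_apply]
      rw [← smul_sub, real_inner_smul_left]
      module
    · simp only [cmap, postVelStar, Prod.smul_fst, Prod.smul_snd, RingHom.id_apply]
      rw [← smul_sub, real_inner_smul_left]
      module

@[simp] theorem cmapL_apply (w : R3) (p : R3 × R3) : cmapL w p = cmap w p := rfl

theorem cmapL_comp {w : R3} (hw : ‖w‖ = 1) : cmapL w ∘ₗ cmapL w = LinearMap.id := by
  ext1
  · ext1 x
    exact cmap_cmap hw _
  · ext1 x
    exact cmap_cmap hw _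

theorem det_cmapL {w : R3} (hw : ‖w‖ = 1) : |LinearMap.det (cmapL w)| = 1 := by
  have h : LinearMap.det (cmapL w) * LinearMap.det (cmapL w) = 1 := by
    rw [← LinearMap.det_comp, cmapL_comp hw, LinearMap.det_id]
  have h2 : |LinearMap.det (cmapL w)| * |LinearMap.det (cmapL w)| = 1 := by
    rw [← abs_mul, h, abs_one]
  nlinarith [abs_nonneg (LinearMap.det (cmapL w)), sq_nonneg (|LinearMap.det (cmapL w)| - 1),
    sq_nonneg (|LinearMap.det (cmapL w)| + 1)]

@[fun_prop]
theorem measurable_postVel : Measurable (fun p : R3 × R3 × R3 => postVel p.1 p.2.1 p.2.2) := by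
  unfold postVel
  fun_prop

@[fun_prop]
theorem measurable_postVelStar :
    Measurable (fun p : R3 × R3 × R3 => postVelStar p.1 p.2.1 p.2.2) := by
  unfold postVelStar
  fun_prop

theorem continuous_cmap (w : R3) : Continuous (cmap w) := by
  unfold cmap postVel postVelStar
  fun_prop

theorem measurable_cmap (w : R3) : Measurable (cmap w) := (continuous_cmap w).measurable

instance : (volume : Measure (R3 × R3)).IsAddHaarMeasure := by
  rw [Measure.volume_eq_prod]
  infer_instance

theorem measurePreserving_cmap {w : R3} (hw : ‖w‖ = 1) :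
    MeasurePreserving (cmap w) (volume : Measure (R3 × R3)) volume := by
  refine ⟨measurable_cmap w, ?_⟩
  have hd : LinearMap.det (cmapL w) ≠ 0 := by
    intro h
    have := det_cmapL hw
    rw [h] at this
    simp at this
  have h := Measure.map_linearMap_addHaar_eq_smul_addHaar (volume : Measure (R3 × R3)) hd
  have h1 : |(LinearMap.det (cmapL w))⁻¹| = 1 := by rw [abs_inv, det_cmapL hw, inv_one]
  rw [h1, ENNReal.ofReal_one, one_smul] at h
  exact h

instance : IsFiniteMeasure sphereMeasure := by
  unfold sphereMeasure
  infer_instance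

theorem ae_sphereMeasure : ∀ᵐ w ∂sphereMeasure, ‖w‖ = 1 := by
  have hm : MeasurableSet {w : R3 | ‖w‖ = 1} := by
    have : {w : R3 | ‖w‖ = 1} = Metric.sphere 0 1 := by ext; simp
    rw [this]; exact Metric.isClosed_sphere.measurableSet
  unfold sphereMeasure
  rw [ae_map_iff measurable_subtype_coe.aemeasurable hm]
  exact Filter.Eventually.of_forall fun w => by simp

end Crest.Agent.R68
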