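import Mathlib
import Crest.Agent.R68.EGeom

/-!
R68 / Sph1: the surface measure of the unit sphere of ℝ³: polar formula, ball formula,
invariance under linear isometries (helper779).
-/

set_option autoImplicit false
open MeasureTheory Set Metric
open scoped ENNReal
open Crest.AnalysisR.VecCalc3 Crest.AnalysisR.PDE.Boltzmann

namespace Crest.Agent.R68

theorem lintegral_sphere_sub {G : R3 → ℝ≥0∞} (hG : Measurable G) :
    ∫⁻ w, G w ∂sphereMeasure
      = ∫⁻ w : sphere (0 : R3) 1, G w ∂(volume : Measure R3).toSphere := by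
  unfold sphereMeasure
  exact lintegral_map hG measurable_subtype_coe

theorem finrank_R3 : Module.finrank ℝ R3 = 3 := by
  simp

/-- polar coordinates, product form -/
theorem lintegral_polar_prod {F : R3 → ℝ≥0∞} (hF : Measurable F) :
    ∫⁻ x, F x = ∫⁻ p : sphere (0 : R3) 1 × Ioi (0 : ℝ), F ((p.2 : ℝ) • (p.1 : R3))
      ∂((volume : Measure R3).toSphere.prod (Measure.volumeIoiPow 2)) := by
  have h3 : Module.finrank ℝ R3 - 1 = 2 := by rw [finrank_R3]
  have hmp := (volume : Measure R3).measurePreserving_homeomorphUnitSphereProd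
  rw [h3] at hmp
  have hmeas : Measurable fun p : sphere (0 : R3) 1 × Ioi (0 : ℝ) =>
      F ((p.2 : ℝ) • (p.1 : R3)) := by
    apply hF.comp
    fun_prop
  rw [← hmp.lintegral_comp hmeas]
  have h1 : ∫⁻ x, F x = ∫⁻ x in ({0}ᶜ : Set R3), F x := by
    rw [restrict_compl_singleton]
  rw [h1, ← lintegral_subtype_comap (measurableSet_singleton (0 : R3)).compl]
  refine lintegral_congr fun x => ?_
  congr 1
  rw [homeomorphUnitSphereProd_apply_fst_coe, homeomorphUnitSphereProd_apply_snd_coe, smul_smul,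
    mul_inv_cancel₀, one_smul]
  exact norm_ne_zero_iff.2 x.2

/-- polar coordinates -/
theorem lintegral_polar {F : R3 → ℝ≥0∞} (hF : Measurable F) :
    ∫⁻ x, F x = ∫⁻ r in Ioi (0 : ℝ), ENNReal.ofReal (r ^ 2) *
      ∫⁻ w, F (r • w) ∂sphereMeasure := by
  have hmeas : Measurable fun p : sphere (0 : R3) 1 × Ioi (0 : ℝ) =>
      F ((p.2 : ℝ) • (p.1 : R3)) := by
    apply hF.comp
    fun_prop
  rw [lintegral_polar_prod hF, lintegral_prod_symm _ hmeas.aemeasurable]
  have hm2 : Measurable fun r : Ioi (0 : ℝ) =>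
      ∫⁻ w : sphere (0 : R3) 1, F ((r : ℝ) • (w : R3)) ∂(volume : Measure R3).toSphere :=
    hmeas.lintegral_prod_left'
  rw [Measure.volumeIoiPow, lintegral_withDensity_eq_lintegral_mul _ (by fun_prop) hm2]
  have h4 := lintegral_subtype_comap (measurableSet_Ioi (a := (0 : ℝ)))
    (μ := (volume : Measure ℝ))
    (fun r : ℝ => ENNReal.ofReal (r ^ 2) * ∫⁻ w, F (r • w) ∂sphereMeasure)
  rw [← h4]
  refine lintegral_congr fun r => ?_
  simp only [Pi.mul_apply]
  congr 1
  rw [lintegral_sphere_sub]
  exact hF.comp (measurable_const_smul _)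

theorem measurable_lintegral_smul {F : R3 → ℝ≥0∞} (hF : Measurable F) :
    Measurable fun r : ℝ => ∫⁻ w, F (r • w) ∂sphereMeasure := by
  have : Measurable fun p : ℝ × R3 => F (p.1 • p.2) := hF.comp (by fun_prop)
  exact this.lintegral_prod_right'

/-- polar coordinates, radius inside -/
theorem lintegral_polar' {F : R3 → ℝ≥0∞} (hF : Measurable F) :
    ∫⁻ x, F x = ∫⁻ w, ∫⁻ r in Ioi (0 : ℝ), ENNReal.ofReal (r ^ 2) * F (r • w)
      ∂volume ∂sphereMeasure := by
  rw [lintegral_polar hF]
  have hm : Measurable fun p : ℝ × R3 => ENNReal.ofReal (p.1 ^ 2) * F (p.1 • p.2) := by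
    apply Measurable.mul (by fun_prop) (hF.comp (by fun_prop))
  have h1 : ∀ r : ℝ, ENNReal.ofReal (r ^ 2) * ∫⁻ w, F (r • w) ∂sphereMeasure
      = ∫⁻ w, ENNReal.ofReal (r ^ 2) * F (r • w) ∂sphereMeasure := by
    intro r
    rw [lintegral_const_mul]
    exact hF.comp (measurable_const_smul _)
  simp_rw [h1]
  exact lintegral_lintegral_swap hm.aemeasurable

theorem lintegral_sq_Ioo : ∫⁻ r in Ioo (0 : ℝ) 1, ENNReal.ofReal (r ^ 2) = (3 : ℝ≥0∞)⁻¹ := by
  rw [← ofReal_integral_eq_lintegral_ofReal]
  · rw [← integral_Ioc_eq_integral_Ioo, ← intervalIntegral.integral_of_le zero_le_one]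
    rw [integral_pow]
    rw [show ((1 : ℝ) ^ (2 + 1) - 0 ^ (2 + 1)) / ((2 : ℕ) + 1) = 3⁻¹ by norm_num,
      ENNReal.ofReal_inv_of_pos (by norm_num)]
    norm_num
  · exact ((continuous_pow 2).integrableOn_Icc (a := (0 : ℝ)) (b := 1)).mono_set Ioo_subset_Icc_self
  · exact Filter.Eventually.of_forall fun r => by positivity

/-- sphere integrals as integrals over the unit ball -/
theorem lintegral_sphere_eq_ball {G : R3 → ℝ≥0∞} (hG : Measurable G) :
    ∫⁻ w, G w ∂sphereMeasure = 3 * ∫⁻ x in ball (0 : R3) 1, G (‖x‖⁻¹ • x) := by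
  have hm : Measurable fun x : R3 => (ball (0 : R3) 1).indicator (fun x => G (‖x‖⁻¹ • x)) x :=
    (hG.comp (by fun_prop)).indicator measurableSet_ball
  rw [← lintegral_indicator measurableSet_ball, lintegral_polar hm]
  have h1 : ∀ r ∈ Ioi (0 : ℝ), ENNReal.ofReal (r ^ 2) *
      ∫⁻ w, (ball (0 : R3) 1).indicator (fun x => G (‖x‖⁻¹ • x)) (r • w) ∂sphereMeasure
      = (Ioo (0 : ℝ) 1).indicator (fun r => ENNReal.ofReal (r ^ 2)) r *
        ∫⁻ w, G w ∂sphereMeasure := by
    intro r hr
    have h2 : ∫⁻ w, (ball (0 : R3) 1).indicator (fun x => G (‖x‖⁻¹ • x)) (r • w) ∂sphereMeasure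
        = ∫⁻ w, (Iio (1 : ℝ)).indicator 1 r * G w ∂sphereMeasure := by
      refine lintegral_congr_ae ?_
      filter_upwards [ae_sphereMeasure] with w hw
      have hn : ‖r • w‖ = r := by
        rw [norm_smul, hw, Real.norm_of_nonneg (le_of_lt hr), mul_one]
      by_cases h : r < 1
      · rw [indicator_of_mem (by simpa [hn] using h), indicator_of_mem (by exact h), hn, smul_smul,
          inv_mul_cancel₀ (ne_of_gt hr), one_smul]
        simp
      · rw [indicator_of_notMem (by simpa [hn] using h), indicator_of_notMem (by simpa using h)]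
        simp
    rw [h2, lintegral_const_mul _ hG, ← mul_assoc]
    congr 1
    by_cases h : r < 1
    · rw [indicator_of_mem (show r ∈ Iio (1 : ℝ) from h), indicator_of_mem (show r ∈ Ioo (0 : ℝ) 1 from ⟨hr, h⟩)]
      simp
    · rw [indicator_of_notMem (by simpa using h), indicator_of_notMem (fun h' => h h'.2)]
      simp
  rw [setLIntegral_congr_fun measurableSet_Ioi h1, lintegral_mul_const,
    lintegral_indicator measurableSet_Ioo, Measure.restrict_restrict measurableSet_Ioo,
    inter_eq_left.2 Ioo_subset_Ioi_self, lintegral_sq_Ioo, ← mul_assoc, ENNReal.mul_inv_cancel,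
    one_mul]
  · norm_num
  · norm_num
  · exact (Measurable.ennreal_ofReal (by fun_prop)).indicator measurableSet_Ioo

/-- invariance of the surface measure under linear isometries -/
theorem lintegral_sphere_isometry (L : R3 ≃ₗᵢ[ℝ] R3) {G : R3 → ℝ≥0∞} (hG : Measurable G) :
    ∫⁻ w, G (L w) ∂sphereMeasure = ∫⁻ w, G w ∂sphereMeasure := by
  have hL : Measurable L := L.continuous.measurable
  have hGL : Measurable fun w => G (L w) := hG.comp hL
  rw [lintegral_sphere_eq_ball hG, lintegral_sphere_eq_ball hGL]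
  congr 1
  have hmp : MeasurePreserving L (volume : Measure R3) volume := L.measurePreserving
  have h2 : Measurable fun x : R3 => G (‖x‖⁻¹ • x) := hG.comp (by fun_prop)
  rw [← hmp.setLIntegral_comp_preimage measurableSet_ball h2]
  have h3 : L ⁻¹' ball (0 : R3) 1 = ball 0 1 := by
    ext x; simp
  rw [h3]
  refine lintegral_congr fun x => ?_
  simp

theorem measurePreserving_sphere_isometry (L : R3 ≃ₗᵢ[ℝ] R3) :
    MeasurePreserving L sphereMeasure sphereMeasure := by
  have hL : Measurable L := L.continuous.measurable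
  refine ⟨hL, ?_⟩
  ext s hs
  rw [Measure.map_apply hL hs]
  have h := lintegral_sphere_isometry L (G := s.indicator 1) (measurable_one.indicator hs)
  rw [lintegral_indicator_one hs] at h
  rw [← h, ← lintegral_indicator_one (hL hs)]
  rfl

theorem sphereMeasure_univ : sphereMeasure (univ : Set R3) = ENNReal.ofReal (4 * Real.pi) := by
  have h := lintegral_sphere_eq_ball (G := fun _ => 1) measurable_const
  simp only [lintegral_const, one_mul, MeasurableSet.univ, Measure.restrict_apply,
    univ_inter] at h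
  rw [h, EuclideanSpace.volume_ball_fin_three]
  rw [show (3 : ℝ≥0∞) = ENNReal.ofReal 3 by simp, ← ENNReal.ofReal_pow (by norm_num),
    ← ENNReal.ofReal_mul (by norm_num), ← ENNReal.ofReal_mul (by norm_num)]
  congr 1
  ring

end Crest.Agent.R68
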