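import Mathlib
import Crest.Agent.R68.Sph1

/-!
R68 / Sph2: coordinates on ℝ³, spherical coordinates, cylindrical (Archimedes) parametrisation of
the sphere measure (helper779).
-/

set_option autoImplicit false
open MeasureTheory Set Metric
open scoped ENNReal Real
open Crest.AnalysisR.VecCalc3 Crest.AnalysisR.PDE.Boltzmann

namespace Crest.Agent.R68

/-- the point with coordinates `a b c` -/
noncomputable def vec3 (a b c : ℝ) : R3 := !₂[a, b, c]

@[simp] theorem vec3_zero (a b c : ℝ) : vec3 a b c 0 = a := rfl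
@[simp] theorem vec3_one (a b c : ℝ) : vec3 a b c 1 = b := rfl
@[simp] theorem vec3_two (a b c : ℝ) : vec3 a b c 2 = c := rfl

theorem vec3_eta (x : R3) : vec3 (x 0) (x 1) (x 2) = x := by
  ext i; fin_cases i <;> rfl

theorem vec3_ext {x y : R3} (h0 : x 0 = y 0) (h1 : x 1 = y 1) (h2 : x 2 = y 2) : x = y := by
  ext i; fin_cases i <;> assumption

theorem vec3_add (a b c a' b' c' : ℝ) :
    vec3 a b c + vec3 a' b' c' = vec3 (a + a') (b + b') (c + c') := by
  apply vec3_ext <;> simp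

theorem vec3_smul (t a b c : ℝ) : t • vec3 a b c = vec3 (t * a) (t * b) (t * c) := by
  apply vec3_ext <;> simp

theorem norm_vec3 (a b c : ℝ) : ‖vec3 a b c‖ = √(a ^ 2 + b ^ 2 + c ^ 2) := by
  rw [EuclideanSpace.norm_eq, Fin.sum_univ_three]
  simp

theorem norm_sq_vec3 (a b c : ℝ) : ‖vec3 a b c‖ ^ 2 = a ^ 2 + b ^ 2 + c ^ 2 := by
  rw [norm_vec3, Real.sq_sqrt (by positivity)]

theorem inner_vec3 (a b c a' b' c' : ℝ) :
    inner ℝ (vec3 a b c) (vec3 a' b' c') = a * a' + b * b' + c * c' := by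
  rw [PiLp.inner_apply, Fin.sum_univ_three]
  simp [mul_comm]

theorem continuous_vec3 : Continuous (fun p : ℝ × ℝ × ℝ => vec3 p.1 p.2.1 p.2.2) := by
  unfold vec3
  refine (PiLp.continuous_toLp 2 _).comp (continuous_pi fun i => ?_)
  fin_cases i
  · exact continuous_fst
  · exact continuous_fst.comp continuous_snd
  · exact continuous_snd.comp continuous_snd

@[fun_prop]
theorem Continuous.vec3 {X : Type*} [TopologicalSpace X] {f g h : X → ℝ} (hf : Continuous f)
    (hg : Continuous g) (hh : Continuous h) : Continuous fun x => vec3 (f x) (g x) (h x) :=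
  continuous_vec3.comp (hf.prodMk (hg.prodMk hh))

@[fun_prop]
theorem Measurable.vec3 {X : Type*} [MeasurableSpace X] {f g h : X → ℝ} (hf : Measurable f)
    (hg : Measurable g) (hh : Measurable h) : Measurable fun x => vec3 (f x) (g x) (h x) :=
  continuous_vec3.measurable.comp (hf.prodMk (hg.prodMk hh))

theorem mp_vec3 : MeasurePreserving (fun p : ℝ × ℝ × ℝ => vec3 p.1 p.2.1 p.2.2)
    (volume : Measure (ℝ × ℝ × ℝ)) (volume : Measure R3) := by
  have h1 : MeasurePreserving (MeasurableEquiv.piFinTwo (fun _ : Fin 2 => ℝ)).symm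
      (volume : Measure (ℝ × ℝ)) volume :=
    (volume_preserving_piFinTwo (fun _ : Fin 2 => ℝ)).symm
  have h2 : MeasurePreserving (Prod.map id (MeasurableEquiv.piFinTwo (fun _ : Fin 2 => ℝ)).symm)
      (volume : Measure (ℝ × ℝ × ℝ)) (volume : Measure (ℝ × (Fin 2 → ℝ))) :=
    (MeasurePreserving.id (volume : Measure ℝ)).prod h1
  have h3 : MeasurePreserving (MeasurableEquiv.piFinSuccAbove (fun _ : Fin 3 => ℝ) 0).symm
      (volume : Measure (ℝ × (Fin 2 → ℝ))) volume :=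
    (volume_preserving_piFinSuccAbove (fun _ : Fin 3 => ℝ) 0).symm
  have h4 := (PiLp.volume_preserving_toLp (Fin 3)).comp (h3.comp h2)
  have h5 : (fun p : ℝ × ℝ × ℝ => vec3 p.1 p.2.1 p.2.2) =
      WithLp.toLp 2 ∘ (MeasurableEquiv.piFinSuccAbove (fun _ : Fin 3 => ℝ) 0).symm ∘
        Prod.map id (MeasurableEquiv.piFinTwo (fun _ : Fin 2 => ℝ)).symm := by
    funext p
    apply vec3_ext <;> rfl
  rw [h5]
  exact h4

/-- Lebesgue integral in Cartesian coordinates -/
theorem lintegral_R3 {F : R3 → ℝ≥0∞} (hF : Measurable F) :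
    ∫⁻ x, F x = ∫⁻ a : ℝ, ∫⁻ b : ℝ, ∫⁻ c : ℝ, F (vec3 a b c) := by
  have hm : Measurable fun p : ℝ × ℝ × ℝ => F (vec3 p.1 p.2.1 p.2.2) := hF.comp (by fun_prop)
  rw [← mp_vec3.lintegral_comp hF]
  rw [show (volume : Measure (ℝ × ℝ × ℝ)) = volume.prod (volume.prod volume) from rfl,
    lintegral_prod _ hm.aemeasurable]
  refine lintegral_congr fun a => ?_
  rw [lintegral_prod]
  exact (hm.comp (measurable_const.prodMk measurable_id)).aemeasurable

/-- Lebesgue integral with the last coordinate outside -/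
theorem lintegral_R3' {F : R3 → ℝ≥0∞} (hF : Measurable F) :
    ∫⁻ x, F x = ∫⁻ c : ℝ, ∫⁻ p : ℝ × ℝ, F (vec3 p.1 p.2 c) := by
  have hm : Measurable fun p : (ℝ × ℝ) × ℝ => F (vec3 p.1.1 p.1.2 p.2) := hF.comp (by fun_prop)
  have h1 : MeasurePreserving (fun p : (ℝ × ℝ) × ℝ => vec3 p.1.1 p.1.2 p.2)
      (volume : Measure ((ℝ × ℝ) × ℝ)) (volume : Measure R3) :=
    mp_vec3.comp (volume_preserving_prodAssoc (α₁ := ℝ) (β₁ := ℝ) (γ₁ := ℝ))
  rw [← h1.lintegral_comp hF]
  rw [show (volume : Measure ((ℝ × ℝ) × ℝ)) = (volume : Measure (ℝ × ℝ)).prod volume from rfl,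
    lintegral_prod_symm _ hm.aemeasurable]

/-- point with spherical coordinates, polar angle `θ` from the last axis -/
noncomputable def sph (θ φ : ℝ) : R3 :=
  vec3 (Real.sin θ * Real.cos φ) (Real.sin θ * Real.sin φ) (Real.cos θ)

theorem norm_sph (θ φ : ℝ) : ‖sph θ φ‖ = 1 := by
  rw [sph, norm_vec3, Real.sqrt_eq_one]
  have h1 := Real.sin_sq_add_cos_sq θ
  have h2 := Real.sin_sq_add_cos_sq φ
  calc _ = Real.sin θ ^ 2 * (Real.sin φ ^ 2 + Real.cos φ ^ 2) + Real.cos θ ^ 2 := by ring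
    _ = 1 := by rw [h2, mul_one, h1]

@[fun_prop]
theorem measurable_sph : Measurable fun p : ℝ × ℝ => sph p.1 p.2 := by
  unfold sph; fun_prop

attribute [irreducible] sph

theorem lintegral_prod_restrict {F : ℝ × ℝ → ℝ≥0∞} {s t : Set ℝ} (hF : Measurable F) :
    ∫⁻ p in s ×ˢ t, F p = ∫⁻ a in s, ∫⁻ b in t, F (a, b) := by
  rw [show (volume : Measure (ℝ × ℝ)) = volume.prod volume from rfl, ← Measure.prod_restrict,
    lintegral_prod _ hF.aemeasurable]

/-- the plane in polar coordinates -/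
theorem lintegral_polar2 {f : ℝ × ℝ → ℝ≥0∞} (hf : Measurable f) :
    ∫⁻ p : ℝ × ℝ, f p = ∫⁻ r in Ioi (0 : ℝ), ∫⁻ φ in Ioo (-π) π,
      ENNReal.ofReal r * f (r * Real.cos φ, r * Real.sin φ) := by
  rw [← lintegral_comp_polarCoord_symm, polarCoord_target, lintegral_prod_restrict]
  · rfl
  · simp only [smul_eq_mul]
    exact Measurable.mul (by fun_prop) (hf.comp continuous_polarCoord_symm.measurable)

/-- the upper half plane in polar coordinates, radius outside -/
theorem lintegral_polar_half {f : ℝ × ℝ → ℝ≥0∞} (hf : Measurable f) :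
    ∫⁻ z : ℝ, ∫⁻ ρ in Ioi (0 : ℝ), f (z, ρ) = ∫⁻ r in Ioi (0 : ℝ), ∫⁻ θ in Ioo 0 π,
      ENNReal.ofReal r * f (r * Real.cos θ, r * Real.sin θ) := by
  have hS : MeasurableSet ((univ : Set ℝ) ×ˢ Ioi (0 : ℝ)) := MeasurableSet.univ.prod measurableSet_Ioi
  have h1 : ∫⁻ z : ℝ, ∫⁻ ρ in Ioi (0 : ℝ), f (z, ρ)
      = ∫⁻ p : ℝ × ℝ, ((univ : Set ℝ) ×ˢ Ioi (0 : ℝ)).indicator f p := by
    rw [lintegral_indicator hS, lintegral_prod_restrict hf]
    simp
  rw [h1, lintegral_polar2 (hf.indicator hS)]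
  refine setLIntegral_congr_fun measurableSet_Ioi fun r hr => ?_
  have h2 : ∀ φ ∈ Ioo (-π) π, ENNReal.ofReal r *
      ((univ : Set ℝ) ×ˢ Ioi (0 : ℝ)).indicator f (r * Real.cos φ, r * Real.sin φ)
      = (Ioo 0 π).indicator (fun φ => ENNReal.ofReal r * f (r * Real.cos φ, r * Real.sin φ)) φ := by
    intro φ hφ
    by_cases h : 0 < φ
    · have hs : 0 < Real.sin φ := Real.sin_pos_of_pos_of_lt_pi h hφ.2
      rw [indicator_of_mem (show φ ∈ Ioo 0 π from ⟨h, hφ.2⟩), indicator_of_mem]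
      exact ⟨mem_univ _, mul_pos hr hs⟩
    · have hs : Real.sin φ ≤ 0 := Real.sin_nonpos_of_nonpos_of_neg_pi_le (not_lt.1 h) hφ.1.le
      have h6 : (r * Real.cos φ, r * Real.sin φ) ∉ (univ : Set ℝ) ×ˢ Ioi (0 : ℝ) := by
        intro h'
        have h3 : 0 < r * Real.sin φ := h'.2
        have h4 : 0 < r := hr
        nlinarith
      rw [indicator_of_notMem (show φ ∉ Ioo 0 π from fun h' => h h'.1), indicator_of_notMem h6,
        mul_zero]
  rw [setLIntegral_congr_fun measurableSet_Ioo h2, lintegral_indicator measurableSet_Ioo,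
    Measure.restrict_restrict measurableSet_Ioo]
  have h5 : Ioo 0 π ∩ Ioo (-π) π = Ioo 0 π := by
    apply inter_eq_left.2
    apply Ioo_subset_Ioo_left
    linarith [Real.pi_pos]
  rw [h5]

/-- spherical coordinates -/
theorem lintegral_spherical {F : R3 → ℝ≥0∞} (hF : Measurable F) :
    ∫⁻ x, F x = ∫⁻ r in Ioi (0 : ℝ), ∫⁻ θ in Ioo 0 π, ∫⁻ φ in Ioo (-π) π,
      ENNReal.ofReal (r ^ 2 * Real.sin θ) * F (r • sph θ φ) := by
  rw [lintegral_R3' hF]
  have hm : ∀ c : ℝ, Measurable fun p : ℝ × ℝ => F (vec3 p.1 p.2 c) := fun c =>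
    hF.comp (by fun_prop)
  have h1 : ∀ c : ℝ, ∫⁻ p : ℝ × ℝ, F (vec3 p.1 p.2 c) = ∫⁻ r in Ioi (0 : ℝ),
      ∫⁻ φ in Ioo (-π) π, ENNReal.ofReal r * F (vec3 (r * Real.cos φ) (r * Real.sin φ) c) :=
    fun c => lintegral_polar2 (hm c)
  simp_rw [h1]
  have hm2 : Measurable fun p : ℝ × ℝ => ∫⁻ φ in Ioo (-π) π,
      ENNReal.ofReal p.2 * F (vec3 (p.2 * Real.cos φ) (p.2 * Real.sin φ) p.1) := by
    apply Measurable.lintegral_prod_right'
      (f := fun q : (ℝ × ℝ) × ℝ => ENNReal.ofReal q.1.2 *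
        F (vec3 (q.1.2 * Real.cos q.2) (q.1.2 * Real.sin q.2) q.1.1))
    apply Measurable.mul (by fun_prop)
    apply hF.comp
    fun_prop
  rw [lintegral_polar_half hm2]
  refine setLIntegral_congr_fun measurableSet_Ioi fun r hr => ?_
  refine setLIntegral_congr_fun measurableSet_Ioo fun θ hθ => ?_
  beta_reduce
  have hr' : (0 : ℝ) ≤ r := le_of_lt hr
  have hs : 0 ≤ Real.sin θ := (Real.sin_pos_of_pos_of_lt_pi hθ.1 hθ.2).le
  rw [← lintegral_const_mul]
  · refine lintegral_congr fun φ => ?_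
    rw [← mul_assoc, ← ENNReal.ofReal_mul hr']
    congr 2
    · ring
    · rw [sph, vec3_smul]
      congr 1 <;> ring
  · apply Measurable.mul (by fun_prop)
    apply hF.comp
    fun_prop

/-- sphere integrals in spherical coordinates -/
theorem lintegral_sphere_spherical {G : R3 → ℝ≥0∞} (hG : Measurable G) :
    ∫⁻ w, G w ∂sphereMeasure = ∫⁻ θ in Ioo 0 π, ∫⁻ φ in Ioo (-π) π,
      ENNReal.ofReal (Real.sin θ) * G (sph θ φ) := by
  have hm : Measurable fun x : R3 => (ball (0 : R3) 1).indicator (fun x => G (‖x‖⁻¹ • x)) x :=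
    (hG.comp (by fun_prop)).indicator measurableSet_ball
  rw [lintegral_sphere_eq_ball hG, ← lintegral_indicator measurableSet_ball,
    lintegral_spherical hm]
  set I := ∫⁻ θ in Ioo 0 π, ∫⁻ φ in Ioo (-π) π, ENNReal.ofReal (Real.sin θ) * G (sph θ φ) with hI
  have hmm : Measurable fun q : ℝ × ℝ => ENNReal.ofReal (Real.sin q.1) * G (sph q.1 q.2) := by
    apply Measurable.mul (by fun_prop)
    exact hG.comp measurable_sph
  have hm1 : ∀ θ : ℝ, Measurable fun φ : ℝ => ENNReal.ofReal (Real.sin θ) * G (sph θ φ) := by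
    intro θ
    have h0 : Measurable fun φ : ℝ => sph θ φ := measurable_sph.comp measurable_prodMk_left
    exact Measurable.mul measurable_const (hG.comp h0)
  have hm3 : Measurable fun θ : ℝ => ∫⁻ φ in Ioo (-π) π,
      ENNReal.ofReal (Real.sin θ) * G (sph θ φ) := hmm.lintegral_prod_right'
  have h1 : ∀ r ∈ Ioi (0 : ℝ), (∫⁻ θ in Ioo 0 π, ∫⁻ φ in Ioo (-π) π,
      ENNReal.ofReal (r ^ 2 * Real.sin θ) *
        (ball (0 : R3) 1).indicator (fun x => G (‖x‖⁻¹ • x)) (r • sph θ φ))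
      = (Ioo (0 : ℝ) 1).indicator (fun r => ENNReal.ofReal (r ^ 2)) r * I := by
    intro r hr
    have hr' : (0 : ℝ) ≤ r := le_of_lt hr
    have hn : ∀ θ φ, ‖r • sph θ φ‖ = r := by
      intro θ φ
      rw [norm_smul, norm_sph, Real.norm_of_nonneg hr', mul_one]
    by_cases h : r < 1
    · have hmem : ∀ θ φ, r • sph θ φ ∈ ball (0 : R3) 1 := by
        intro θ φ
        rw [mem_ball_zero_iff, hn]
        exact h
      have hval : ∀ θ φ, (ball (0 : R3) 1).indicator (fun x => G (‖x‖⁻¹ • x)) (r • sph θ φ)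
          = G (sph θ φ) := by
        intro θ φ
        rw [indicator_of_mem (hmem θ φ), hn, smul_smul, inv_mul_cancel₀ (ne_of_gt hr), one_smul]
      simp_rw [hval]
      rw [indicator_of_mem (show r ∈ Ioo (0 : ℝ) 1 from ⟨hr, h⟩), hI, ← lintegral_const_mul]
      · refine lintegral_congr fun θ => ?_
        rw [← lintegral_const_mul]
        · refine lintegral_congr fun φ => ?_
          rw [ENNReal.ofReal_mul (by positivity), mul_assoc]
        · exact hm1 θ
      · exact hm3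
    · have hmem : ∀ θ φ, r • sph θ φ ∉ ball (0 : R3) 1 := by
        intro θ φ
        rw [mem_ball_zero_iff, hn]
        exact h
      have hval : ∀ θ φ, (ball (0 : R3) 1).indicator (fun x => G (‖x‖⁻¹ • x)) (r • sph θ φ)
          = 0 := by
        intro θ φ
        rw [indicator_of_notMem (hmem θ φ)]
      simp_rw [hval]
      rw [indicator_of_notMem (show r ∉ Ioo (0 : ℝ) 1 from fun h' => h h'.2), zero_mul]
      simp
  rw [setLIntegral_congr_fun measurableSet_Ioi h1, lintegral_mul_const,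
    lintegral_indicator measurableSet_Ioo, Measure.restrict_restrict measurableSet_Ioo,
    inter_eq_left.2 Ioo_subset_Ioi_self, lintegral_sq_Ioo, ← mul_assoc, ENNReal.mul_inv_cancel,
    one_mul]
  · norm_num
  · norm_num
  · exact (Measurable.ennreal_ofReal (by fun_prop)).indicator measurableSet_Ioo

/-- point of the sphere with height `t` and azimuth `φ` -/
noncomputable def cyl (t φ : ℝ) : R3 :=
  vec3 (√(1 - t ^ 2) * Real.cos φ) (√(1 - t ^ 2) * Real.sin φ) t

@[fun_prop]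
theorem measurable_cyl : Measurable fun p : ℝ × ℝ => cyl p.1 p.2 := by
  unfold cyl; fun_prop

theorem norm_cyl {t : ℝ} (ht : t ∈ Icc (-1 : ℝ) 1) (φ : ℝ) : ‖cyl t φ‖ = 1 := by
  have h0 : 0 ≤ 1 - t ^ 2 := by nlinarith [ht.1, ht.2]
  rw [cyl, norm_vec3, Real.sqrt_eq_one]
  have h2 := Real.sin_sq_add_cos_sq φ
  calc _ = √(1 - t ^ 2) ^ 2 * (Real.sin φ ^ 2 + Real.cos φ ^ 2) + t ^ 2 := by ring
    _ = 1 := by rw [h2, mul_one, Real.sq_sqrt h0]; ring

attribute [irreducible] cyl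

theorem lintegral_sin_comp_cos {g : ℝ → ℝ≥0∞} :
    ∫⁻ θ in Ioo 0 π, ENNReal.ofReal (Real.sin θ) * g (Real.cos θ) = ∫⁻ t in Ioo (-1 : ℝ) 1, g t := by
  have himg : Real.cos '' Ioo 0 π = Ioo (-1 : ℝ) 1 := by
    have h := Real.bijOn_cos
    ext t
    constructor
    · rintro ⟨θ, hθ, rfl⟩
      constructor
      · rw [← Real.cos_pi]
        exact Real.cos_lt_cos_of_nonneg_of_le_pi hθ.1.le le_rfl hθ.2
      · rw [← Real.cos_zero]
        exact Real.cos_lt_cos_of_nonneg_of_le_pi le_rfl hθ.2.le hθ.1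
    · intro ht
      refine ⟨Real.arccos t, ⟨Real.arccos_pos.2 ht.2, ?_⟩, Real.cos_arccos ht.1.le ht.2.le⟩
      rcases lt_or_eq_of_le (Real.arccos_le_pi t) with h' | h'
      · exact h'
      · rw [Real.arccos_eq_pi] at h'
        exact absurd ht.1 (not_lt.2 h')
  rw [← himg, lintegral_image_eq_lintegral_abs_deriv_mul (f' := fun θ => -Real.sin θ)
    measurableSet_Ioo]
  · refine setLIntegral_congr_fun measurableSet_Ioo fun θ hθ => ?_
    rw [abs_neg, abs_of_pos (Real.sin_pos_of_pos_of_lt_pi hθ.1 hθ.2)]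
  · intro θ _
    exact (Real.hasDerivAt_cos θ).hasDerivWithinAt
  · exact Real.injOn_cos.mono Ioo_subset_Icc_self

/-- **Archimedes**: cylindrical parametrisation of the sphere measure -/
theorem lintegral_sphere_cyl {G : R3 → ℝ≥0∞} (hG : Measurable G) :
    ∫⁻ w, G w ∂sphereMeasure = ∫⁻ t in Ioo (-1 : ℝ) 1, ∫⁻ φ in Ioo (-π) π, G (cyl t φ) := by
  rw [lintegral_sphere_spherical hG, ← lintegral_sin_comp_cos]
  refine setLIntegral_congr_fun measurableSet_Ioo fun θ hθ => ?_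
  beta_reduce
  rw [← lintegral_const_mul]
  · refine lintegral_congr fun φ => ?_
    congr 2
    rw [sph, cyl]
    have : √(1 - Real.cos θ ^ 2) = Real.sin θ := by
      rw [← Real.sin_sq, Real.sqrt_sq (Real.sin_pos_of_pos_of_lt_pi hθ.1 hθ.2).le]
    rw [this]
  · exact hG.comp (measurable_cyl.comp (measurable_const.prodMk measurable_id))

end Crest.Agent.R68
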