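import Crest.Agent.R68.ColdDefs
import Crest.Agent.R68.A2
import Crest.Agent.R68.FLab
import Crest.Agent.R68.Sph2

/-!
# Row 68, PART C (helper585): measurability and periodicity of the cold component
-/

set_option autoImplicit false
open MeasureTheory Set Filter
open scoped ENNReal Topology Pointwise
open Crest.AnalysisR.VecCalc3 Crest.AnalysisR.PDE.Boltzmann

noncomputable section

namespace Crest.Agent.R68.ColdM

open Crest.Agent.R68.A (Meas3 en measurable_en)

/-! ### the lanes -/

theorem isOpen_lane (j : ℕ) : IsOpen (lane j) := by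
  have h : lane j = {a | a ≠ 0} ∩ ({a | (2 * (j : ℝ) + 1 / 100) * a ^ 2 < 1} ∩
      {a | 1 < (2 * (j : ℝ) + 199 / 100) * a ^ 2}) := by
    ext a
    simp only [lane, mem_ofPred_eq, mem_inter_iff]
    refine and_congr_right fun h0 => ?_
    have : 0 < a ^ 2 := by positivity
    rw [lt_div_iff₀ this, div_lt_iff₀ this]
  rw [h]
  refine isOpen_ne.inter (IsOpen.inter ?_ ?_)
  · exact isOpen_lt (by fun_prop) (by fun_prop)
  · exact isOpen_lt (by fun_prop) (by fun_prop)

theorem measurableSet_laneE (j : ℕ) : MeasurableSet (laneE j) := by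
  have h : laneE j = ({0}ᶜ ∩ (fun a : ℝ => 1 / a ^ 2) ⁻¹'
      Ioo (2 * (j : ℝ) + 1 / 200) (2 * j + 399 / 200)) := by
    ext a; simp only [laneE, mem_ofPred_eq, mem_inter_iff, mem_compl_iff, mem_singleton_iff,
      mem_preimage, mem_Ioo]
  rw [h]
  refine (measurableSet_singleton 0).compl.inter (measurableSet_Ioo.preimage ?_)
  exact (measurable_const.div (measurable_id.pow_const 2))

/-- neighbourhoods of the lanes are open -/
theorem isOpen_near_lane (j : ℕ) (c : ℝ) : IsOpen {y : ℝ | ∃ a ∈ lane j, |y - a| ≤ c} := by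
  have h : {y : ℝ | ∃ a ∈ lane j, |y - a| ≤ c} = lane j + {b : ℝ | |b| ≤ c} := by
    ext y
    simp only [mem_ofPred_eq, Set.mem_add]
    constructor
    · rintro ⟨a, ha, hy⟩
      exact ⟨a, ha, y - a, hy, by ring⟩
    · rintro ⟨a, ha, b, hb, rfl⟩
      exact ⟨a, ha, by simpa using hb⟩
  rw [h]
  exact (isOpen_lane j).add_right

variable {α : Type*} [MeasurableSpace α]

@[fun_prop]
theorem measurable_lab {P : Par} {t : α → ℝ} {x : α → P2} (ht : Measurable t) (hx : Measurable x) :
    Measurable (fun a => lab P (t a) (x a)) := by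
  unfold lab; fun_prop

@[fun_prop]
theorem measurable_rr' {f : α → ℝ} (hf : Measurable f) : Measurable (fun a => rr (f a)) := by
  unfold rr; fun_prop

@[fun_prop]
theorem measurable_uvec {P : Par} {s : ℝ} {t : α → ℝ} {x : α → P2} (ht : Measurable t)
    (hx : Measurable x) : Measurable (fun a => uvec P s (t a) (x a)) := by
  have h : (fun a => uvec P s (t a) (x a)) = fun a =>
      vec3 (P.c * (x a).1 / (P.dl + P.c * t a)) ((x a).2 / (t a + rr (lab P (t a) (x a)))) s := rfl
  rw [h]
  exact Measurable.vec3 (by fun_prop) (by fun_prop) measurable_const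

theorem measurableSet_Zj (P : Par) (j : ℕ) (θ : ℝ) {t : α → ℝ} {x : α → P2} {v : α → R3}
    (ht : Measurable t) (hx : Measurable x) (hv : Measurable v) :
    MeasurableSet {a | Zj P j θ (t a) (x a) (v a)} := by
  have h1 : MeasurableSet {a | lab P (t a) (x a) ∈ laneE j} :=
    (measurableSet_laneE j).preimage (measurable_lab ht hx)
  have h2 : MeasurableSet {a | |(x a).2| < 2 * P.Y * (t a + rr (lab P (t a) (x a)))} :=
    measurableSet_lt (by fun_prop) (by fun_prop)
  have h3 : MeasurableSet {a | ‖v a - uvec P (wj j) (t a) (x a)‖ < θ * rhoj P.p j} :=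
    measurableSet_lt (by fun_prop) (by fun_prop)
  unfold Zj
  exact (MeasurableSet.const _).inter (h1.inter (h2.inter h3))

theorem measurableSet_Ztj (P : Par) (j : ℕ) {t : α → ℝ} {x : α → P2} {v : α → R3}
    (ht : Measurable t) (hx : Measurable x) (hv : Measurable v) :
    MeasurableSet {a | Ztj P j (t a) (x a) (v a)} := by
  have h1 : MeasurableSet {b | ∃ a ∈ lane j, |lab P (t b) (x b) - a| ≤
      rhoj P.p j * tauj P.p j / bj j} :=
    ((isOpen_near_lane j _).measurableSet).preimage (measurable_lab ht hx)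
  have h2 : MeasurableSet {a | |(x a).2| ≤ (P.Y + rhoj P.p j * tauj P.p j / bj j ^ 2) *
      (t a + rr (lab P (t a) (x a)))} := measurableSet_le (by fun_prop) (by fun_prop)
  have h3 : MeasurableSet {a | ‖v a - uvec P (wj j) (t a) (x a)‖ < 2 * rhoj P.p j} :=
    measurableSet_lt (by fun_prop) (by fun_prop)
  unfold Ztj
  exact (MeasurableSet.const _).inter (h1.inter (h2.inter h3))

/-! ### the sheets -/

theorem meas3_phij (P : Par) (j : ℕ) : Meas3 (phij P j) := by
  unfold Meas3 phij
  by_cases hj : P.j0 ≤ j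
  · simp only [if_pos hj]
    exact ((measurable_phi0j P j).comp (Measurable.prodMk (by fun_prop)
      (by fun_prop : Measurable fun z : ℝ × P2 × R3 => z.2.2))).ennreal_ofReal
  · simp only [if_neg hj]
    exact measurable_const

theorem meas3_damp {Λ : ℝ → P2 → R3 → ℝ≥0∞} (hΛ : Meas3 Λ) {s t : α → ℝ} {x : α → P2}
    {v : α → R3} (hs : Measurable s) (ht : Measurable t) (hx : Measurable x) (hv : Measurable v) :
    Measurable (fun a => damp Λ (s a) (t a) (x a) (v a)) := by
  unfold damp
  refine measurable_en.comp ?_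
  refine A.measurable_lintegral_Ioo (q := fun z : α × ℝ =>
    Λ z.2 (x z.1 - (t z.1 - z.2) • bar (v z.1)) (v z.1)) ?_ hs ht
  exact hΛ.comp (by fun_prop) (by fun_prop) (by fun_prop)

theorem meas3_DuhD {Λ q : ℝ → P2 → R3 → ℝ≥0∞} (hΛ : Meas3 Λ) (hq : Meas3 q) :
    Meas3 (DuhD Λ q) := by
  unfold Meas3 DuhD
  refine A.measurable_lintegral_Ioo (α := ℝ × P2 × R3) (q := fun z : (ℝ × P2 × R3) × ℝ =>
      damp Λ z.2 z.1.1 z.1.2.1 z.1.2.2 *
      q z.2 (z.1.2.1 - (z.1.1 - z.2) • bar z.1.2.2) z.1.2.2) ?_ measurable_const (by fun_prop)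
  refine Measurable.mul ?_ ?_
  · exact meas3_damp hΛ (by fun_prop) (by fun_prop) (by fun_prop) (by fun_prop)
  · exact hq.comp (by fun_prop) (by fun_prop) (by fun_prop)

theorem meas3_gainj (P : Par) (j : ℕ) {c : ℝ → P2 → R3 → ℝ≥0∞} (hc : Meas3 c) :
    Meas3 (gainj P j c) := by
  classical
  unfold Meas3 gainj
  refine Measurable.ite ?_ (A.meas3_Qp hc hc) measurable_const
  exact (measurableSet_le measurable_fst measurable_const).inter
    (measurableSet_Zj P j 1 measurable_fst (by fun_prop) (by fun_prop))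

theorem meas3_itj (P : Par) (j : ℕ) {Λ : ℝ → P2 → R3 → ℝ≥0∞} (hΛ : Meas3 Λ) (n : ℕ) :
    Meas3 (itj P j Λ n) := by
  induction n with
  | zero => exact measurable_const
  | succ n ih =>
    show Measurable fun p : ℝ × P2 × R3 => phij P j p.1 p.2.1 p.2.2 * damp Λ 0 p.1 p.2.1 p.2.2 +
      DuhD Λ (gainj P j (itj P j Λ n)) p.1 p.2.1 p.2.2
    refine Measurable.add (Measurable.mul (meas3_phij P j) ?_) (meas3_DuhD hΛ (meas3_gainj P j ih))
    exact meas3_damp hΛ measurable_const measurable_fst (by fun_prop) (by fun_prop)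

theorem meas3_coldj (P : Par) (j : ℕ) {Λ : ℝ → P2 → R3 → ℝ≥0∞} (hΛ : Meas3 Λ) :
    Meas3 (coldj P j Λ) :=
  Measurable.iSup fun n => meas3_itj P j hΛ n

theorem meas3_coldL (P : Par) {Λ : ℝ → P2 → R3 → ℝ≥0∞} (hΛ : Meas3 Λ) : Meas3 (coldL P Λ) := by
  unfold Meas3 coldL
  refine Measurable.tsum fun k => Measurable.tsum fun j => ?_
  exact (meas3_coldj P j hΛ).comp measurable_fst (by fun_prop) (by fun_prop)

theorem meas3_itc (P : Par) {lam : ℝ → P2 → R3 → ℝ≥0∞} (hl : Meas3 lam) (n : ℕ) :
    Meas3 (itc P lam n) := by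
  induction n with
  | zero => exact measurable_const
  | succ n ih => exact meas3_coldL P ((A.meas3_Lc ih).add hl)

theorem meas3_coldR (P : Par) {lam : ℝ → P2 → R3 → ℝ≥0∞} (hl : Meas3 lam) : Meas3 (coldR P lam) :=
  Measurable.limsup fun n => meas3_itc P hl n

theorem meas3_rateC (P : Par) {lam : ℝ → P2 → R3 → ℝ≥0∞} (hl : Meas3 lam) :
    Meas3 (rateC P lam) :=
  (A.meas3_Lc (meas3_coldR P hl)).add hl

theorem meas3_coldjk (P : Par) {lam : ℝ → P2 → R3 → ℝ≥0∞} (hl : Meas3 lam)
    (i : (ℤ × ℤ) × ℕ) : Meas3 (coldjk P lam i) :=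
  (meas3_coldj P i.2 (meas3_rateC P hl)).comp measurable_fst (by fun_prop) (by fun_prop)

theorem meas3_coldGain (P : Par) {lam : ℝ → P2 → R3 → ℝ≥0∞} (hl : Meas3 lam) :
    Meas3 (coldGain P lam) := by
  classical
  unfold Meas3 coldGain
  refine Measurable.tsum fun i => ?_
  refine Measurable.ite ?_ (A.meas3_Qp (meas3_coldjk P hl i) (meas3_coldjk P hl i)) measurable_const
  exact (measurableSet_le measurable_fst measurable_const).inter
    (measurableSet_Zj P i.2 1 measurable_fst (by fun_prop) (by fun_prop))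

theorem meas3_coldSpill (P : Par) {lam : ℝ → P2 → R3 → ℝ≥0∞} (hl : Meas3 lam) :
    Meas3 (coldSpill P lam) := by
  classical
  unfold Meas3 coldSpill
  refine Measurable.tsum fun i => Measurable.tsum fun i' => ?_
  refine Measurable.ite ?_ measurable_const (A.meas3_Qp (meas3_coldjk P hl i) (meas3_coldjk P hl i'))
  exact (MeasurableSet.const _).inter ((measurableSet_le measurable_fst measurable_const).inter
    (measurableSet_Zj P i.2 1 measurable_fst (by fun_prop) (by fun_prop)))

theorem meas3_gaussj (P : Par) (j : ℕ) : Meas3 (gaussj P j) := by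
  unfold Meas3 gaussj
  fun_prop

theorem meas3_warmj (P : Par) (j : ℕ) : Meas3 (warmj P j) := by
  classical
  unfold Meas3 warmj
  refine Measurable.ite ?_ ((meas3_gaussj P j).const_mul _) measurable_const
  exact measurableSet_Ztj P j measurable_fst (by fun_prop) (by fun_prop)

theorem meas3_warm (P : Par) : Meas3 (warm P) := by
  unfold Meas3 warm
  refine Measurable.tsum fun k => Measurable.tsum fun j => ?_
  exact (meas3_warmj P j).comp measurable_fst (by fun_prop) (by fun_prop)

/-! ### periodicity -/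

/-- a sum over all images is periodic -/
theorem perG_tsum_latt {f : P2 → ℝ≥0∞} : PerG (fun x => ∑' k : ℤ × ℤ, f (x + latt k)) := by
  intro x l
  show (∑' k : ℤ × ℤ, f (x + latt l + latt k)) = ∑' k : ℤ × ℤ, f (x + latt k)
  rw [← (Equiv.addLeft l).tsum_eq (fun k => f (x + latt k))]
  refine tsum_congr fun k => ?_
  rw [Equiv.coe_addLeft, latt_add, add_assoc]

theorem perG_coldL (P : Par) (Λ : ℝ → P2 → R3 → ℝ≥0∞) (t : ℝ) (v : R3) :
    PerG (fun x => coldL P Λ t x v) :=
  perG_tsum_latt (f := fun x => ∑' j : ℕ, coldj P j Λ t x v)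

theorem perG_warm (P : Par) (t : ℝ) (v : R3) : PerG (fun x => warm P t x v) :=
  perG_tsum_latt (f := fun x => ∑' j : ℕ, warmj P j t x v)

theorem perG_itc (P : Par) (lam : ℝ → P2 → R3 → ℝ≥0∞) (n : ℕ) (t : ℝ) (v : R3) :
    PerG (fun x => itc P lam n t x v) := by
  cases n with
  | zero => exact fun _ _ => rfl
  | succ n => exact perG_coldL P _ t v

theorem perG_coldR (P : Par) (lam : ℝ → P2 → R3 → ℝ≥0∞) (t : ℝ) (v : R3) :
    PerG (fun x => coldR P lam t x v) := by
  intro x k
  show limsup (fun n => itc P lam n t (x + latt k) v) atTop = limsup (fun n => itc P lam n t x v) atTop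
  congr 1
  funext n
  exact perG_itc P lam n t v x k

end Crest.Agent.R68.ColdM
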