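import Crest.Agent.R68.ColdSup
import Crest.Agent.R68.ColdMeas

/-!
# Row 68, PART C: the cold component of one sheet (C1, C2, C3) (helper906)
-/

set_option autoImplicit false
open MeasureTheory Set Filter
open scoped ENNReal
open Crest.AnalysisR.VecCalc3 Crest.AnalysisR.PDE.Boltzmann

noncomputable section

namespace Crest.Agent.R68.Cold

open A ColdM

/-! ### continuity from below -/

theorem iSup_mul_iSup_mono {f g : ℕ → ℝ≥0∞} (hf : Monotone f) (hg : Monotone g) :
    (⨆ n, f n) * (⨆ n, g n) = ⨆ n, f n * g n := by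
  apply le_antisymm
  · rw [ENNReal.iSup_mul]
    refine iSup_le fun i => ?_
    rw [ENNReal.mul_iSup]
    refine iSup_le fun k => ?_
    refine le_iSup_of_le (max i k) ?_
    exact mul_le_mul' (hf (le_max_left _ _)) (hg (le_max_right _ _))
  · exact iSup_le fun n => mul_le_mul' (le_iSup f n) (le_iSup g n)

theorem Qp_iSup {f : ℕ → R3 → ℝ≥0∞} (hf : ∀ n, Measurable (f n)) (hm : Monotone f) (v : R3) :
    Qp (fun z => ⨆ n, f n z) (fun z => ⨆ n, f n z) v = ⨆ n, Qp (f n) (f n) v := by
  unfold Qp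
  have h1 : ∀ vs w : R3, ENNReal.ofReal |inner ℝ (v - vs) w| * (⨆ n, f n (postVel v vs w)) *
      (⨆ n, f n (postVelStar v vs w)) =
      ⨆ n, ENNReal.ofReal |inner ℝ (v - vs) w| * f n (postVel v vs w) *
        f n (postVelStar v vs w) := by
    intro vs w
    have e : ENNReal.ofReal |inner ℝ (v - vs) w| * (⨆ n, f n (postVel v vs w)) =
        ⨆ n, ENNReal.ofReal |inner ℝ (v - vs) w| * f n (postVel v vs w) := ENNReal.mul_iSup ..
    rw [e, iSup_mul_iSup_mono]
    · intro i k hik
      exact mul_le_mul' le_rfl (hm hik _)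
    · intro i k hik
      exact hm hik _
  simp_rw [h1]
  have hmeas : ∀ n, Measurable (fun p : R3 × R3 => ENNReal.ofReal |inner ℝ (v - p.1) p.2| *
      f n (postVel v p.1 p.2) * f n (postVelStar v p.1 p.2)) := fun n =>
    measurable_Qp_integrand (hf n) (hf n) v
  have h2 : ∀ vs : R3, (∫⁻ w, ⨆ n, ENNReal.ofReal |inner ℝ (v - vs) w| * f n (postVel v vs w) *
        f n (postVelStar v vs w) ∂sphereMeasure) =
      ⨆ n, ∫⁻ w, ENNReal.ofReal |inner ℝ (v - vs) w| * f n (postVel v vs w) *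
        f n (postVelStar v vs w) ∂sphereMeasure := by
    intro vs
    rw [lintegral_iSup]
    · intro n
      exact (hmeas n).comp (f := fun w => (vs, w)) (by fun_prop)
    · intro i k hik w
      exact mul_le_mul' (mul_le_mul' le_rfl (hm hik _)) (hm hik _)
  simp_rw [h2]
  rw [lintegral_iSup]
  · intro n
    exact Measurable.lintegral_prod_right' (hmeas n)
  · intro i k hik vs
    exact lintegral_mono fun w => mul_le_mul' (mul_le_mul' le_rfl (hm hik _)) (hm hik _)

variable {P : Par} {j : ℕ}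

open scoped Classical in
theorem gainj_mono {c c' : ℝ → P2 → R3 → ℝ≥0∞} {t : ℝ} {x : P2} (hc : ∀ v, c t x v ≤ c' t x v)
    (v : R3) : gainj P j c t x v ≤ gainj P j c' t x v := by
  unfold gainj
  split_ifs
  · exact A.Qp_mono hc hc v
  · exact le_rfl

theorem itj_le_succ (Λ : ℝ → P2 → R3 → ℝ≥0∞) (n : ℕ) (t : ℝ) (x : P2) (v : R3) :
    itj P j Λ n t x v ≤ itj P j Λ (n + 1) t x v := by
  induction n generalizing t x v with
  | zero => simp [itj]
  | succ n ih =>
    simp only [itj] at ih ⊢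
    unfold DuhD
    gcongr with s
    exact gainj_mono (fun z => ih s _ z) v

theorem itj_mono (Λ : ℝ → P2 → R3 → ℝ≥0∞) (t : ℝ) (x : P2) (v : R3) :
    Monotone fun n => itj P j Λ n t x v :=
  monotone_nat_of_le_succ fun n => itj_le_succ Λ n t x v

open scoped Classical in
/-- the fixed point equation, for all times -/
theorem coldj_eq {Λ : ℝ → P2 → R3 → ℝ≥0∞} (hΛ : Meas3 Λ) (t : ℝ) (x : P2) (v : R3) :
    coldj P j Λ t x v = phij P j t x v * damp Λ 0 t x v +
      DuhD Λ (gainj P j (coldj P j Λ)) t x v := by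
  have h1 : coldj P j Λ t x v = ⨆ n, itj P j Λ (n + 1) t x v := by
    unfold coldj
    apply le_antisymm
    · exact iSup_mono fun n => itj_le_succ Λ n t x v
    · exact iSup_le fun n => le_iSup (fun n => itj P j Λ n t x v) (n + 1)
  rw [h1]
  simp only [itj]
  rw [← ENNReal.add_iSup]
  congr 1
  -- the Duhamel part
  have h2 : ∀ s, gainj P j (coldj P j Λ) s (x - (t - s) • bar v) v =
      ⨆ n, gainj P j (itj P j Λ n) s (x - (t - s) • bar v) v := by
    intro s
    unfold gainj
    by_cases hg : s ≤ tauj P.p j ∧ Zj P j 1 s (x - (t - s) • bar v) v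
    · simp only [if_pos hg]
      exact Qp_iSup (f := fun n => itj P j Λ n s (x - (t - s) • bar v))
        (fun n => (meas3_itj P j hΛ n).slice s _)
        (fun a b hab z => itj_mono Λ s _ z hab) v
    · simp only [if_neg hg, iSup_const]
  unfold DuhD
  simp_rw [h2, ENNReal.mul_iSup]
  symm
  apply lintegral_iSup
  · intro n
    refine Measurable.mul ?_ ?_
    · exact meas3_damp hΛ (by fun_prop) (by fun_prop) (by fun_prop) (by fun_prop)
    · exact measurable_flight (meas3_gainj P j (meas3_itj P j hΛ n)) t x v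
  · intro a b hab s
    exact mul_le_mul' le_rfl (gainj_mono (fun z => itj_mono Λ s _ z hab) v)

theorem damp_le_one (Λ : ℝ → P2 → R3 → ℝ≥0∞) (s t : ℝ) (x : P2) (v : R3) :
    damp Λ s t x v ≤ 1 := A.en_le_one _

variable (h : ColdPar C0 P)

theorem src_of_Zj {s : ℝ} {x : P2} {v : R3} (hs : 0 ≤ s) (hZ : Zj P j 1 s x v) :
    Src P j s x v := by
  obtain ⟨h1, h2, h3, h4⟩ := hZ
  exact ⟨hs, h1, h2, h3.le, by simpa using h4⟩

include h in
/-- collisions of the Gaussian majorant inside the zone -/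
theorem Qp_Mj_le {s t : ℝ} {x : P2} {v : R3} (S : Src P j s (x - (t - s) • bar v) v)
    (hst : s ≤ t) :
    Qp (Mj P j s (x - (t - s) • bar v)) (Mj P j s (x - (t - s) • bar v)) v ≤
      ENNReal.ofReal (rhoj P.p j / (800 * bj j ^ 2)) * Mj P j t x v := by
  have hb := bj_pos j
  have hη := etaj_pos P.p j
  have hρ := rhoj_pos P.p j
  have hK := h.K
  have hβ := half_le_beta s
  have hβ0 := beta_pos s
  have hCG := C.CG_pos
  set X := x - (t - s) • bar v with hX
  have hsb : 0 < √(beta s) := Real.sqrt_pos.2 hβ0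
  have hηs : 0 < etaj P.p j / √(beta s) := by positivity
  have h1 := C.Qp_le_gs (amp_nonneg h (j := j)) hηs (uvec P (wj j) s X) (f := Mj P j s X)
    (g := Mj P j s X) (a := 1) (b := 1) (by simp) (by simp) (fun z => by rw [one_mul]; rfl)
    (fun z => by rw [one_mul]; rfl) v
  rw [one_mul, one_mul] at h1
  refine h1.trans ?_
  have h2 : etaj P.p j / √(beta s) ≤ 3 / 2 * etaj P.p j := by
    rw [div_le_iff₀ hsb]
    have h3 : 2 / 3 ≤ √(beta s) := by
      apply Real.le_sqrt_of_sq_le; norm_num; linarith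
    nlinarith
  have h4 : 3 / 2 * etaj P.p j ≤ rhoj P.p j := by
    have h5 := eta_rho h (j := j) 1 (by norm_num)
    have h7 := small_b h S.jj
    nlinarith
  have h5 : C.CG * (P.K / (bj j * etaj P.p j ^ 3)) * (etaj P.p j / √(beta s)) ^ 3 *
      (‖v - uvec P (wj j) s X‖ + etaj P.p j / √(beta s)) ≤ rhoj P.p j / (800 * bj j ^ 2) := by
    have e1 : (etaj P.p j / √(beta s)) ^ 3 ≤ 4 * etaj P.p j ^ 3 := by
      calc (etaj P.p j / √(beta s)) ^ 3 ≤ (3 / 2 * etaj P.p j) ^ 3 :=
            pow_le_pow_left₀ hηs.le h2 3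
        _ = 27 / 8 * etaj P.p j ^ 3 := by ring
        _ ≤ 4 * etaj P.p j ^ 3 := by
            have : 0 < etaj P.p j ^ 3 := by positivity
            linarith
    have e2 : ‖v - uvec P (wj j) s X‖ + etaj P.p j / √(beta s) ≤ 2 * rhoj P.p j := by
      have := S.pec.le
      linarith
    have e3 := small_CGK h S.jj
    calc C.CG * (P.K / (bj j * etaj P.p j ^ 3)) * (etaj P.p j / √(beta s)) ^ 3 *
      (‖v - uvec P (wj j) s X‖ + etaj P.p j / √(beta s))
        ≤ C.CG * (P.K / (bj j * etaj P.p j ^ 3)) * (4 * etaj P.p j ^ 3) * (2 * rhoj P.p j) := by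
          gcongr
      _ = 8 * (C.CG * P.K * bj j) * rhoj P.p j / bj j ^ 2 := by field_simp; ring
      _ ≤ 8 * (1 / 10 ^ 12) * rhoj P.p j / bj j ^ 2 := by
          gcongr
          rw [le_div_iff₀ (by positivity)]
          linarith
      _ ≤ rhoj P.p j / (800 * bj j ^ 2) := by
          rw [div_le_div_iff₀ (by positivity) (by positivity)]
          have : 0 < rhoj P.p j * bj j ^ 2 := by positivity
          nlinarith
  calc ENNReal.ofReal (C.CG * (P.K / (bj j * etaj P.p j ^ 3)) * (etaj P.p j / √(beta s)) ^ 3 *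
        (‖v - uvec P (wj j) s X‖ + etaj P.p j / √(beta s))) *
        C.gs (P.K / (bj j * etaj P.p j ^ 3)) (etaj P.p j / √(beta s)) (uvec P (wj j) s X) v
      ≤ ENNReal.ofReal (rhoj P.p j / (800 * bj j ^ 2)) * Mj P j s X v := by
        apply mul_le_mul' (ENNReal.ofReal_le_ofReal h5) le_rfl
    _ ≤ _ := mul_le_mul' le_rfl (Mj_flight h S hst)

/-- effective collision number of a sheet -/
def epsj (p j : ℕ) : ℝ := rhoj p j * tauj p j / (200 * bj j ^ 2)

theorem epsj_pos (p j : ℕ) : 0 < epsj p j := by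
  unfold epsj
  have := rhoj_pos p j; have := tauj_pos p j; have := bj_pos j
  positivity

theorem epsj_eq (p j : ℕ) : epsj p j = kapj p j * bj j ^ (4 + p / 32) / 200 := by
  unfold epsj kapj
  have hb := bj_pos j
  rw [div_mul_eq_mul_div, show 6 + p / 32 = (4 + p / 32) + 2 by ring, pow_add (bj j) (4 + p / 32) 2]
  field_simp

include h in
theorem epsj_le : epsj P.p j ≤ 1 / 200 := by
  unfold epsj
  have hb := bj_pos j
  rw [div_le_div_iff₀ (by positivity) (by norm_num)]
  have := rt_le h (j := j) 2 (by norm_num)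
  nlinarith

/-- births only up to time `tauj` -/
theorem lint_gate {τ t : ℝ} (ht : 0 ≤ t) (hτ : 1 ≤ τ) (c : ℝ≥0∞) :
    (∫⁻ s in Ioo 0 t, if s ≤ τ then c else 0) ≤ c * ENNReal.ofReal (τ * min t 1) := by
  have h1 : (∫⁻ s in Ioo 0 t, if s ≤ τ then c else 0) ≤
      ∫⁻ s in Ioo 0 t, (Icc 0 τ).indicator (fun _ => c) s := by
    apply setLIntegral_mono_ae' measurableSet_Ioo
    refine Eventually.of_forall fun s hs => ?_
    by_cases hsτ : s ≤ τ
    · rw [if_pos hsτ, indicator_of_mem (show s ∈ Icc 0 τ from ⟨hs.1.le, hsτ⟩)]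
    · rw [if_neg hsτ]; exact zero_le
  refine h1.trans ?_
  rw [lintegral_indicator measurableSet_Icc, setLIntegral_const, Measure.restrict_apply
    measurableSet_Icc]
  gcongr
  calc volume (Icc 0 τ ∩ Ioo 0 t) ≤ volume (Icc (0 : ℝ) (min τ t)) := by
        apply measure_mono
        rintro s ⟨⟨h2, h3⟩, h4, h5⟩
        exact ⟨h2, le_min h3 h5.le⟩
    _ = ENNReal.ofReal (min τ t) := by rw [Real.volume_Icc, sub_zero]
    _ ≤ ENNReal.ofReal (τ * min t 1) := by
        apply ENNReal.ofReal_le_ofReal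
        rcases le_total t 1 with h6 | h6
        · rw [min_eq_left h6]
          refine (min_le_right _ _).trans ?_
          nlinarith
        · rw [min_eq_right h6, mul_one]
          exact min_le_left _ _

open scoped Classical in
include h in
/-- (P4a) the time integral of the collisions of `2 Mj` in the zone -/
theorem gain_Mj_le {t : ℝ} (ht : 0 ≤ t) (x : P2) (v : R3) :
    (∫⁻ s in Ioo 0 t, gainj P j (fun s y z => 2 * Mj P j s y z) s (x - (t - s) • bar v) v) ≤
      ENNReal.ofReal (epsj P.p j * min t 1) * Mj P j t x v := by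
  have h1 : ∀ s ∈ Ioo 0 t, gainj P j (fun s y z => 2 * Mj P j s y z) s (x - (t - s) • bar v) v ≤
      if s ≤ tauj P.p j then ENNReal.ofReal (rhoj P.p j / (200 * bj j ^ 2)) * Mj P j t x v
        else 0 := by
    intro s hs
    unfold gainj
    by_cases hg : s ≤ tauj P.p j ∧ Zj P j 1 s (x - (t - s) • bar v) v
    · rw [if_pos hg, if_pos hg.1]
      have S := src_of_Zj hs.1.le hg.2
      rw [A.Qp_const_mul_left (by simp), A.Qp_const_mul_right (by simp)]
      have h2 := Qp_Mj_le h S hs.2.le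
      calc 2 * (2 * Qp (Mj P j s (x - (t - s) • bar v)) (Mj P j s (x - (t - s) • bar v)) v)
          ≤ 2 * (2 * (ENNReal.ofReal (rhoj P.p j / (800 * bj j ^ 2)) * Mj P j t x v)) := by
            gcongr
        _ = (4 * ENNReal.ofReal (rhoj P.p j / (800 * bj j ^ 2))) * Mj P j t x v := by ring
        _ = ENNReal.ofReal (rhoj P.p j / (200 * bj j ^ 2)) * Mj P j t x v := by
            congr 1
            have h4 : (4 : ℝ≥0∞) = ENNReal.ofReal 4 := by norm_num
            rw [h4, ← ENNReal.ofReal_mul (by norm_num)]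
            congr 1
            have := bj_pos j
            field_simp
            ring
    · rw [if_neg hg]; exact zero_le
  refine (setLIntegral_mono_ae' measurableSet_Ioo (Eventually.of_forall h1)).trans ?_
  refine (lint_gate ht (one_le_tauj _ _) _).trans ?_
  rw [mul_right_comm]
  gcongr
  rw [← ENNReal.ofReal_mul]
  · apply ENNReal.ofReal_le_ofReal
    unfold epsj
    apply le_of_eq
    ring
  · have := rhoj_pos P.p j; have := bj_pos j; positivity

include h in
/-- crude bound of the iterates -/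
theorem itj_le_two (Λ : ℝ → P2 → R3 → ℝ≥0∞) (n : ℕ) {t : ℝ} (ht : 0 ≤ t) (x : P2) (v : R3) :
    itj P j Λ n t x v ≤ phij P j t x v + ENNReal.ofReal (epsj P.p j * min t 1) * Mj P j t x v ∧
    itj P j Λ n t x v ≤ 2 * Mj P j t x v := by
  have key : ∀ (n : ℕ) {t : ℝ} (_ : 0 ≤ t) (x : P2) (v : R3),
      phij P j t x v + ENNReal.ofReal (epsj P.p j * min t 1) * Mj P j t x v ≤ 2 * Mj P j t x v := by
    intro _ t ht x v
    rw [two_mul]
    apply add_le_add (phij_le_Mj h ht x v)
    refine le_trans (mul_le_mul' (ENNReal.ofReal_le_ofReal (q := 1) ?_) le_rfl) (by simp)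
    have h1 := epsj_le h (j := j)
    have h2 := epsj_pos P.p j
    have h3 : min t 1 ≤ 1 := min_le_right _ _
    have h4 : 0 ≤ min t 1 := le_min ht zero_le_one
    nlinarith
  suffices hmain : itj P j Λ n t x v ≤
      phij P j t x v + ENNReal.ofReal (epsj P.p j * min t 1) * Mj P j t x v from
    ⟨hmain, hmain.trans (key n ht x v)⟩
  induction n generalizing t x v with
  | zero => simp [itj]
  | succ n ih =>
    simp only [itj]
    apply add_le_add
    · exact (mul_le_mul' le_rfl (damp_le_one Λ 0 t x v)).trans (by rw [mul_one])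
    · refine le_trans ?_ (gain_Mj_le h ht x v)
      unfold DuhD
      apply setLIntegral_mono_ae' measurableSet_Ioo
      refine Eventually.of_forall fun s hs => ?_
      refine (mul_le_mul' (damp_le_one Λ s t x v) le_rfl).trans ?_
      rw [one_mul]
      exact gainj_mono (fun z => (ih hs.1.le _ z).trans (key n hs.1.le _ z)) v

theorem exists_ne_of_Qp_ne {f g : R3 → ℝ≥0∞} {v : R3} (h0 : Qp f g v ≠ 0) :
    ∃ u, f u ≠ 0 := by
  by_contra hcon
  push Not at hcon
  apply h0
  unfold Qp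
  simp [hcon]

open scoped Classical in
/-- births -/
theorem Sup.birth {s t : ℝ} {x : P2} {v : R3} {c : ℝ → P2 → R3 → ℝ≥0∞}
    (hs : 0 ≤ s) (hst : s ≤ t)
    (hc : ∀ u, c s (x - (t - s) • bar v) u ≠ 0 → Pos P j s (x - (t - s) • bar v))
    (h0 : gainj P j c s (x - (t - s) • bar v) v ≠ 0) : Sup P j t x v := by
  unfold gainj at h0
  by_cases hg : s ≤ tauj P.p j ∧ Zj P j 1 s (x - (t - s) • bar v) v
  · rw [if_pos hg] at h0
    obtain ⟨u, hu⟩ := exists_ne_of_Qp_ne h0
    exact ⟨s, hs, hst, hg.1, src_of_Zj hs hg.2, hc u hu⟩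
  · rw [if_neg hg] at h0
    exact absurd rfl h0

include h in
theorem Sup.of_phij {t : ℝ} {x : P2} {v : R3} (ht : 0 ≤ t) (h0 : phij P j t x v ≠ 0) :
    Sup P j t x v := by
  have S := src_of_phij h h0
  obtain ⟨hj, h1, h2, h3⟩ := phij_ne h0
  have hl := lab_zero h (x - t • bar v)
  refine ⟨0, le_rfl, ht, (tauj_pos _ _).le, by rw [sub_zero]; exact S, ?_⟩
  rw [sub_zero]
  refine ⟨⟨_, h1, ?_⟩, ?_⟩
  · rw [hl]; simp
  · rw [hl]
    have hr : 0 < rr (x - t • bar v).1 := Fuel.rr_pos h1.1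
    rw [Real.sqrt_zero, mul_zero, add_zero, zero_add]
    unfold rr at hr h2
    rw [abs_div, abs_of_pos hr, div_le_iff₀ hr]
    exact h2.le

theorem exists_of_DuhD_ne {Λ q : ℝ → P2 → R3 → ℝ≥0∞} {t : ℝ} {x : P2} {v : R3}
    (h0 : DuhD Λ q t x v ≠ 0) : ∃ s ∈ Ioo 0 t, q s (x - (t - s) • bar v) v ≠ 0 := by
  by_contra hcon
  push Not at hcon
  apply h0
  unfold DuhD
  rw [setLIntegral_congr_fun measurableSet_Ioo (g := fun _ => 0)]
  · simp
  · intro s hs
    simp [hcon s hs]

include h in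
/-- (C2) support of the iterates -/
theorem itj_sup (Λ : ℝ → P2 → R3 → ℝ≥0∞) (n : ℕ) {t : ℝ} (ht : 0 ≤ t) {x : P2} {v : R3}
    (h0 : itj P j Λ n t x v ≠ 0) : Sup P j t x v := by
  induction n generalizing t x v with
  | zero => exact absurd rfl h0
  | succ n ih =>
    simp only [itj] at h0
    by_cases h1 : phij P j t x v = 0
    · rw [h1, zero_mul, zero_add] at h0
      obtain ⟨s, hs, h2⟩ := exists_of_DuhD_ne h0
      exact Sup.birth hs.1.le hs.2.le (fun u hu => (ih hs.1.le hu).pos h) h2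
    · exact Sup.of_phij h ht h1

include h in
/-- (C2) -/
theorem coldj_sup {Λ : ℝ → P2 → R3 → ℝ≥0∞} {t : ℝ} (ht : 0 ≤ t) {x : P2} {v : R3}
    (h0 : coldj P j Λ t x v ≠ 0) : Sup P j t x v := by
  unfold coldj at h0
  by_contra hcon
  apply h0
  simp only [ENNReal.iSup_eq_zero]
  intro n
  by_contra h1
  exact hcon (itj_sup h Λ n ht h1)

include h in
theorem coldj_le_two (Λ : ℝ → P2 → R3 → ℝ≥0∞) {t : ℝ} (ht : 0 ≤ t) (x : P2) (v : R3) :
    coldj P j Λ t x v ≤ 2 * Mj P j t x v :=
  iSup_le fun n => (itj_le_two h Λ n ht x v).2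

open scoped Classical in
/-- sharp majorant of the births -/
def wj' (P : Par) (j : ℕ) (t : ℝ) (x : P2) (v : R3) : ℝ≥0∞ :=
  if Sup P j t x v then ENNReal.ofReal (epsj P.p j * min t 1) * Mj P j t x v else 0

include h in
theorem coldj_le' (Λ : ℝ → P2 → R3 → ℝ≥0∞) {t : ℝ} (ht : 0 ≤ t) (x : P2) (v : R3) :
    coldj P j Λ t x v ≤ phij P j t x v + wj' P j t x v := by
  by_cases h0 : Sup P j t x v
  · unfold wj'
    rw [if_pos h0]
    exact iSup_le fun n => (itj_le_two h Λ n ht x v).1
  · have : coldj P j Λ t x v = 0 := by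
      by_contra h1
      exact h0 (coldj_sup h ht h1)
    rw [this]
    exact zero_le

include h in
theorem wj'_le {t : ℝ} (ht : 0 ≤ t) (x : P2) (v : R3) :
    wj' P j t x v ≤ ENNReal.ofReal (min t 1) * (ENNReal.ofReal (bj j ^ (4 + P.p / 32)) *
      warmj P j t x v) := by
  unfold wj'
  by_cases h0 : Sup P j t x v
  · rw [if_pos h0]
    unfold warmj
    rw [if_pos (h0.tight h)]
    have hk : 0 ≤ kapj P.p j := by
      unfold kapj
      have := rhoj_pos P.p j; have := tauj_pos P.p j; have := bj_pos j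
      positivity
    have hm : 0 ≤ min t 1 := le_min ht zero_le_one
    have hb := bj_pos j
    calc ENNReal.ofReal (epsj P.p j * min t 1) * Mj P j t x v
        ≤ ENNReal.ofReal (min t 1 * (bj j ^ (4 + P.p / 32) * kapj P.p j)) * gaussj P j t x v := by
          apply mul_le_mul' (ENNReal.ofReal_le_ofReal ?_) (Mj_le_gaussj h t x v)
          rw [epsj_eq]
          have : 0 ≤ kapj P.p j * bj j ^ (4 + P.p / 32) * min t 1 := by positivity
          nlinarith
      _ = _ := by
          rw [ENNReal.ofReal_mul hm, ENNReal.ofReal_mul (by positivity)]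
          ring
  · rw [if_neg h0]; exact zero_le

include h in
/-- (P2) -/
theorem coldj_le (Λ : ℝ → P2 → R3 → ℝ≥0∞) {t : ℝ} (ht : 0 ≤ t) (x : P2) (v : R3) :
    coldj P j Λ t x v ≤ phij P j t x v + ENNReal.ofReal (min t 1) * warmj P j t x v := by
  refine (coldj_le' h Λ ht x v).trans (add_le_add le_rfl ((wj'_le h ht x v).trans ?_))
  gcongr
  refine (mul_le_mul' (ENNReal.ofReal_le_ofReal (q := 1) ?_) le_rfl).trans (by simp)
  exact pow_le_one₀ (bj_pos j).le (bj_le_one j)

end Crest.Agent.R68.Cold
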