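import Crest.Agent.R68.ColdSpill
import Crest.Agent.R68.ColdPic
import Crest.Agent.R68.AOut

/-!
# Row 68, PART C (helper150): the spill of the cold component on `[0,T1]`
-/

set_option autoImplicit false
open MeasureTheory Set
open scoped ENNReal
open Crest.AnalysisR.VecCalc3 Crest.AnalysisR.PDE.Boltzmann

noncomputable section

namespace Crest.Agent.R68.ColdSp

open Crest.Agent.R68

variable {P : Par}

theorem coldjk_le (h' : ColdPar Cold.C0 P) (lam : ℝ → P2 → R3 → ℝ≥0∞) {t : ℝ} (ht : 0 ≤ t)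
    (x : P2) (i : Ix) (v : R3) : coldjk P lam i t x v ≤ cS P t x i v := by
  unfold coldjk cS
  refine (Cold.coldj_le h' (rateC P lam) ht (x + latt i.1) v).trans (add_le_add le_rfl ?_)
  calc ENNReal.ofReal (min t 1) * warmj P i.2 t (x + latt i.1) v
      ≤ 1 * warmj P i.2 t (x + latt i.1) v := by
        gcongr
        rw [ENNReal.ofReal_le_one]
        exact min_le_right _ _
    _ = _ := one_mul _

/-- **(C6)** -/
theorem coldSpill_le_spB (h : ColdPar C.C0 P) (h' : ColdPar Cold.C0 P) (hey : 0 < P.ey)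
    (lam : ℝ → P2 → R3 → ℝ≥0∞) {t : ℝ} (ht : 0 ≤ t) (htT : t ≤ P.dl ^ (3 / 8 : ℝ)) (x : P2)
    (v : R3) : coldSpill P lam t x v ≤ spB P x v := by
  rw [coldSpill_eq]
  exact spillF_le h hey ht htT x (fun i v => coldjk_le h' lam ht x i v) v

theorem coldSpill_le (h : ColdPar C.C0 P) (h' : ColdPar Cold.C0 P) (hey : 0 < P.ey)
    (lam : ℝ → P2 → R3 → ℝ≥0∞) {t : ℝ} (ht : 0 ≤ t) (htT : t ≤ P.dl ^ (3 / 8 : ℝ)) (x : P2)
    (v : R3) :
    coldSpill P lam t x v ≤ ENNReal.ofReal (distG x ^ (P.p / 32) * Real.exp (-‖v‖ ^ 2)) :=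
  (coldSpill_le_spB h h' hey lam ht htT x v).trans (spB_le_pow P x v)

theorem coldSpill_le_spW (h : ColdPar C.C0 P) (h' : ColdPar Cold.C0 P) (hey : 0 < P.ey)
    (lam : ℝ → P2 → R3 → ℝ≥0∞) {t : ℝ} (ht : 0 ≤ t) (htT : t ≤ P.dl ^ (3 / 8 : ℝ)) (x : P2)
    (v : R3) : coldSpill P lam t x v ≤ A.spW x v :=
  (coldSpill_le_spB h h' hey lam ht htT x v).trans
    (spB_le_spW P (le_trans (by norm_num) h.p) x v)

/-- **(C4), spill half**, from the Lipschitz estimate of the sheets -/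
theorem coldSpill_lip (h : ColdPar C.C0 P) (h' : ColdPar Cold.C0 P) (hey : 0 < P.ey)
    (lam lam' : ℝ → P2 → R3 → ℝ≥0∞) {t : ℝ} (ht : 0 ≤ t) (htT : t ≤ P.dl ^ (3 / 8 : ℝ)) (x : P2)
    (hm : ∀ i, Measurable (fun v => coldjk P lam' i t x v)) (Δ : ℝ≥0∞)
    (hd : ∀ i v, coldjk P lam i t x v ≤ coldjk P lam' i t x v + 2 * Δ * cS P t x i v) (v : R3) :
    coldSpill P lam t x v ≤ coldSpill P lam' t x v +
      Δ * ENNReal.ofReal (distG x ^ (P.p / 32) * Real.exp (-‖v‖ ^ 2)) := by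
  rw [coldSpill_eq, coldSpill_eq]
  refine (spillF_lip h hey ht htT x hm (fun i v => coldjk_le h' lam ht x i v)
    (fun i v => coldjk_le h' lam' ht x i v) Δ hd v).trans ?_
  gcongr
  exact spB_le_pow P x v

/-- the same for measurable rates -/
theorem coldSpill_lip' (h : ColdPar C.C0 P) (h' : ColdPar Cold.C0 P) (hey : 0 < P.ey)
    (lam lam' : ℝ → P2 → R3 → ℝ≥0∞) (hl' : A.Meas3 lam') {t : ℝ} (ht : 0 ≤ t)
    (htT : t ≤ P.dl ^ (3 / 8 : ℝ)) (x : P2) (Δ : ℝ≥0∞)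
    (hd : ∀ i v, coldjk P lam i t x v ≤ coldjk P lam' i t x v + 2 * Δ * cS P t x i v) (v : R3) :
    coldSpill P lam t x v ≤ coldSpill P lam' t x v +
      Δ * ENNReal.ofReal (distG x ^ (P.p / 32) * Real.exp (-‖v‖ ^ 2)) :=
  coldSpill_lip h h' hey lam lam' ht htT x
    (fun i => (ColdM.meas3_coldjk P hl' i).comp measurable_const measurable_const
      measurable_id) Δ hd v

/-- **the spill input of Part A** -/
theorem SpillOutAll_holds {Y : ℝ} (hY : 1 ≤ Y) : A.SpillOutAll Y := by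
  intro K ey hK hey _
  filter_upwards [Filter.eventually_ge_atTop 512] with p hp
  filter_upwards [ev_ColdPar K Y ey p C.C0 hK hY hp, ev_ColdPar K Y ey p Cold.C0 hK hY hp] with
    j0 h h'
  intro lam _ _ t x v ht htT
  exact coldSpill_le h h' hey lam ht htT x v

end Crest.Agent.R68.ColdSp
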