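import Crest.Agent.R68.Pole

/-!
# Row 68, part W, block (D): geometry of the sheets for `t ≥ T1` (helper827)

`zone P t` = set of positions (in one image) which can carry cold matter at time `t`.
Two different images can be in the zone simultaneously only if one of the labels is not small
(golden direction).
-/

set_option autoImplicit false
open MeasureTheory Set
open scoped ENNReal
open Crest.AnalysisR.VecCalc3 Crest.AnalysisR.PDE.Boltzmann

noncomputable section

namespace Crest.Agent.R68.W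

open Crest.Agent.R68 Crest.Agent.R68.Pole

variable {P : Par}

/-- enlarged fuel zone at time `t` (one image) -/
def zone (P : Par) (t : ℝ) : Set P2 :=
  {X | |lab P t X| ≤ P.dl ∧ |X.2| ≤ 2 * P.Y * (t + rr (lab P t X))}

lemma norm_le_of_mem_zone (h : Ok P) {t : ℝ} (ht : 0 ≤ t) {X : P2} (hX : X ∈ zone P t) :
    ‖X‖ ≤ (2 * P.Y + 1) * (t + P.dl) := by
  obtain ⟨h1, h2⟩ := hX
  have hdl := h.dl_pos
  have hdl8 := h.dl_le
  have hc0 := h.c0
  have hc1 := h.c1
  have hY := h.Y0
  have hden : 0 < P.dl + P.c * t := by positivity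
  have hra := rr_le_dl h h1
  rw [Prod.norm_def, max_le_iff, Real.norm_eq_abs, Real.norm_eq_abs]
  constructor
  · have h3 : X.1 = lab P t X * (P.dl + P.c * t) / P.dl := by
      rw [lab]; field_simp
    have h4 : |X.1| ≤ P.dl + P.c * t := by
      rw [h3, abs_div, abs_mul, abs_of_pos hden, abs_of_pos hdl, div_le_iff₀ hdl]
      nlinarith
    nlinarith [mul_nonneg hY.le ht, mul_pos hY hdl]
  · refine h2.trans ?_
    nlinarith [mul_pos hY hdl, rr_nonneg (lab P t X)]

/-- images for which `x` is in the zone -/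
def seen (P : Par) (t : ℝ) (x : P2) : Finset (ℤ × ℤ) :=
  (finite_latt_near x ((2 * P.Y + 1) * (t + P.dl))).toFinset

lemma mem_seen {t : ℝ} {x : P2} {k : ℤ × ℤ} :
    k ∈ seen P t x ↔ ‖x + latt k‖ ≤ (2 * P.Y + 1) * (t + P.dl) := by
  simp [seen]

lemma mem_seen_of_zone (h : Ok P) {t : ℝ} (ht : 0 ≤ t) {x : P2} {k : ℤ × ℤ}
    (hk : x + latt k ∈ zone P t) : k ∈ seen P t x :=
  mem_seen.2 (norm_le_of_mem_zone h ht hk)

lemma card_seen_le (h : Ok P) {t : ℝ} (ht : 0 ≤ t) (x : P2) :
    ((seen P t x).card : ℝ) ≤ (3 * ((2 * P.Y + 1) * (t + P.dl)) + 1) ^ 2 := by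
  have hdl := h.dl_pos
  have hY := h.Y0
  have h1 := ncard_latt_near x (L := (2 * P.Y + 1) * (t + P.dl)) (by positivity)
  rwa [Set.ncard_eq_toFinset_card _ (finite_latt_near x ((2 * P.Y + 1) * (t + P.dl)))] at h1

/-- the separation of labels of two crossing sheets -/
def sep (P : Par) (t : ℝ) : ℝ := P.dl / (16 * (2 * P.Y + 1) * (1 + t) * (P.dl + P.c * t))

lemma sep_pos (h : Ok P) {t : ℝ} (ht : 0 ≤ t) : 0 < sep P t := by
  have hdl := h.dl_pos
  have hY := h.Y0
  have hc0 := h.c0
  unfold sep; positivity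

/-- **Golden separation**: of two different images in the zone, one has label `≥ sep`. -/
theorem sep_le_max (h : Ok P) {t : ℝ} (ht : 0 ≤ t) {x : P2} {k l : ℤ × ℤ} (hkl : k ≠ l)
    (hk : x + latt k ∈ zone P t) (hl : x + latt l ∈ zone P t) :
    sep P t ≤ max |lab P t (x + latt k)| |lab P t (x + latt l)| := by
  have hdl := h.dl_pos
  have hdl8 := h.dl_le
  have hY := h.Y0
  have hc0 := h.c0
  have hc1 := h.c1
  have hden : 0 < P.dl + P.c * t := by positivity
  have hne : k - l ≠ 0 := sub_ne_zero.2 hkl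
  have h1 : ‖latt (k - l)‖ ≤ 2 * ((2 * P.Y + 1) * (t + P.dl)) := by
    rw [latt_sub]
    have h2 := norm_sub_le (x + latt k) (x + latt l)
    rw [show x + latt k - (x + latt l) = latt k - latt l by abel] at h2
    have h3 := norm_le_of_mem_zone h ht hk
    have h4 := norm_le_of_mem_zone h ht hl
    linarith
  have h1' : ‖latt (k - l)‖ ≤ 2 * (2 * P.Y + 1) * (1 + t) := by nlinarith
  have h2 := latt_fst_lower hne
  have h3 : 1 ≤ 4 * |(latt (k - l)).1| * (2 * (2 * P.Y + 1) * (1 + t)) := by
    refine h2.trans ?_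
    gcongr
  have h4 : lab P t (x + latt k) - lab P t (x + latt l)
      = P.dl * (latt (k - l)).1 / (P.dl + P.c * t) := by
    rw [latt_sub]; simp only [lab, Prod.fst_add, Prod.fst_sub]; field_simp; ring
  have h5 : P.dl / (8 * (2 * P.Y + 1) * (1 + t) * (P.dl + P.c * t)) ≤
      |lab P t (x + latt k) - lab P t (x + latt l)| := by
    rw [h4, abs_div, abs_of_pos hden, abs_mul, abs_of_pos hdl, div_le_div_iff₀ (by positivity) hden]
    have h6 : 0 ≤ P.dl * (P.dl + P.c * t) := by positivity
    nlinarith [mul_le_mul_of_nonneg_left h3 h6]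
  have h6 : |lab P t (x + latt k) - lab P t (x + latt l)| ≤
      |lab P t (x + latt k)| + |lab P t (x + latt l)| := abs_sub _ _
  have h7 : P.dl / (8 * (2 * P.Y + 1) * (1 + t) * (P.dl + P.c * t)) = 2 * sep P t := by
    unfold sep; field_simp; norm_num
  have h8 := le_max_left |lab P t (x + latt k)| |lab P t (x + latt l)|
  have h9 := le_max_right |lab P t (x + latt k)| |lab P t (x + latt l)|
  linarith

/-- no crossing at all as long as `δ < sep` -/
theorem zone_unique (h : Ok P) {t : ℝ} (ht : 0 ≤ t) {x : P2} {k l : ℤ × ℤ}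
    (hk : x + latt k ∈ zone P t) (hl : x + latt l ∈ zone P t) (hs : P.dl < sep P t) : k = l := by
  by_contra hkl
  have h1 := sep_le_max h ht hkl hk hl
  have h2 : max |lab P t (x + latt k)| |lab P t (x + latt l)| ≤ P.dl := max_le hk.1 hl.1
  linarith

/-- before the time `τ` with `16(2Y+1)(1+τ)(dl+cτ) < 1` sheets do not cross -/
theorem dl_lt_sep (h : Ok P) {t : ℝ} (ht : 0 ≤ t)
    (hτ : 16 * (2 * P.Y + 1) * (1 + t) * (P.dl + P.c * t) < 1) : P.dl < sep P t := by
  have hdl := h.dl_pos
  have hY := h.Y0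
  have hc0 := h.c0
  unfold sep
  rw [lt_div_iff₀ (by positivity)]
  nlinarith

end Crest.Agent.R68.W
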