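import Crest.Agent.R68.ColdW1
import Crest.Agent.R68.ColdDefs
import Crest.Agent.R68.WC1

/-!
# Row 68, part C for all times (helper827): scales, `phij ≤ gaussj`, tight zone ⊆ enlarged lane
-/

set_option autoImplicit false
open MeasureTheory Set
open scoped ENNReal
open Crest.AnalysisR.VecCalc3 Crest.AnalysisR.PDE.Boltzmann

noncomputable section

namespace Crest.Agent.R68.ColdW

open Crest.Agent.R68

variable {P : Par}

/-! ### scales -/

lemma bj_pos (j : ℕ) : 0 < bj j := by unfold bj; positivity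

lemma bj_le_one (j : ℕ) : bj j ≤ 1 := Fuel.inv_le_one' j

lemma bj_le_dl_sq (h : P.Ok) {j : ℕ} (hj : P.j0 ≤ j) : bj j ≤ P.dl ^ 2 := by
  rw [Fuel.dl_sq]
  unfold bj
  have : (P.j0 : ℝ) ≤ j := by exact_mod_cast hj
  have h3 : (0 : ℝ) < P.j0 := by
    have : (200 : ℝ) ≤ P.j0 := by exact_mod_cast h.j0
    linarith
  gcongr
  linarith

lemma bj_le (h : P.Ok) {j : ℕ} (hj : P.j0 ≤ j) : bj j ≤ 1 / 401 := by
  unfold bj
  have : (200 : ℝ) ≤ P.j0 := by exact_mod_cast h.j0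
  have : (P.j0 : ℝ) ≤ j := by exact_mod_cast hj
  gcongr
  linarith

lemma etaj_eq (p j : ℕ) : etaj p j = bj j ^ p := rfl

lemma tauj_eq (p j : ℕ) : tauj p j = (bj j)⁻¹ ^ (p / 16) := by
  unfold tauj bj; rw [one_div, inv_inv]

lemma one_le_tauj (p j : ℕ) : 1 ≤ tauj p j := by
  rw [tauj_eq]
  exact one_le_pow₀ (one_le_inv_iff₀.2 ⟨bj_pos j, bj_le_one j⟩)

lemma rhoj_pos (p j : ℕ) : 0 < rhoj p j := pow_pos (bj_pos j) _

lemma tauj_pos (p j : ℕ) : 0 < tauj p j := zero_lt_one.trans_le (one_le_tauj p j)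

/-- `ρ_j τ_j / b^m ≤ b^100` for `m ≤ 50` -/
lemma rho_tau_le {p : ℕ} (hp : 512 ≤ p) (j : ℕ) {m : ℕ} (hm : m ≤ 50) :
    rhoj p j * tauj p j / bj j ^ m ≤ bj j ^ 100 := by
  have hb := bj_pos j
  have hb1 := bj_le_one j
  rw [tauj_eq, rhoj, div_le_iff₀ (by positivity), inv_pow, ← pow_add]
  rw [← div_eq_mul_inv, div_le_iff₀ (by positivity), ← pow_add]
  exact pow_le_pow_of_le_one hb.le hb1 (by omega)

lemma rhoj_le {p : ℕ} (hp : 512 ≤ p) (j : ℕ) : rhoj p j ≤ bj j ^ 200 :=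
  pow_le_pow_of_le_one (bj_pos j).le (bj_le_one j) (by omega)

lemma kapj_pos (p j : ℕ) : 0 < kapj p j := by
  have h1 := rhoj_pos p j
  have h2 := tauj_pos p j
  have h3 := bj_pos j
  unfold kapj; positivity

lemma kapj_le {p : ℕ} (hp : 512 ≤ p) (j : ℕ) : kapj p j ≤ bj j ^ 100 := by
  have hb := bj_pos j
  have hb1 := bj_le_one j
  rw [kapj, tauj_eq, rhoj, div_le_iff₀ (by positivity), inv_pow, ← pow_add]
  rw [← div_eq_mul_inv, div_le_iff₀ (by positivity), ← pow_add]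
  exact pow_le_pow_of_le_one hb.le hb1 (by omega)

lemma etaj_eq_rho {p : ℕ} (j : ℕ) : etaj p j ≤ rhoj p j ^ 2 := by
  rw [etaj_eq, rhoj, ← pow_mul]
  exact pow_le_pow_of_le_one (bj_pos j).le (bj_le_one j) (by omega)

lemma etaj_lt_rho (h : P.Ok) (hp : 512 ≤ P.p) {j : ℕ} (hj : P.j0 ≤ j) :
    etaj P.p j ≤ rhoj P.p j / 401 := by
  refine (etaj_eq_rho j).trans ?_
  have h1 := rhoj_le hp j
  have hb := bj_pos j
  have h2 : bj j ^ 200 ≤ 1 / 401 := by
    calc bj j ^ 200 ≤ bj j ^ 1 := pow_le_pow_of_le_one hb.le (bj_le_one j) (by norm_num)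
      _ ≤ _ := by rw [pow_one]; exact bj_le h hj
  have h3 := rhoj_pos P.p j
  nlinarith

/-! ### the sheets -/

open Fuel in
lemma phij_eq (h : P.Ok) (j : ℕ) (t : ℝ) (x : P2) (v : R3) :
    R68.phij P j t x v = ENNReal.ofReal (phs P j t x v) := by
  rw [phs_transport]
  unfold R68.phij
  congr 1
  unfold phs
  by_cases h1 : P.j0 ≤ j
  · rw [if_pos h1, if_pos h1]
    set y := x - t • bar v with hy
    unfold phi0j
    have h2 : (y.1 ∈ lane j ∧ |y.2| < P.Y * rr y.1 ∧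
        ∀ i : Fin 3, |v i - uvec P (wj j) 0 y i| < etaj P.p j) ↔ v ∈ lset P j 0 y := by
      have e0 : uvec P (wj j) 0 y 0 = P.kap * y.1 := by
        show P.c * y.1 / (P.dl + P.c * 0) = P.kap * y.1
        unfold Par.kap
        rw [mul_zero, add_zero]; ring
      have e1 : uvec P (wj j) 0 y 1 = y.2 / rr y.1 := by
        show y.2 / (0 + rr (P.dl * y.1 / (P.dl + P.c * 0))) = y.2 / rr y.1
        rw [mul_zero, add_zero, zero_add]
        rw [mul_div_cancel_left₀ _ (Ok.dlp h).ne']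
      have e2 : uvec P (wj j) 0 y 2 = wj j := rfl
      rw [mem_lset, Fin.forall_fin_succ, Fin.forall_fin_succ, Fin.forall_fin_succ]
      simp only [zero_mul, sub_zero, Fin.succ_zero_eq_one, Fin.succ_one_eq_two,
        IsEmpty.forall_iff, and_true, e0, e1, e2]
      tauto
    by_cases h3 : v ∈ lset P j 0 y
    · rw [if_pos (h2.2 h3), phij_of_mem h3]
      simp
    · rw [if_neg (fun h => h3 (h2.1 h)), phij_of_notMem h3]
  · rw [if_neg h1, if_neg h1]

/-- the velocity support of a sheet -/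
lemma mem_of_phij_ne (h : P.Ok) {j : ℕ} {t : ℝ} {x : P2} {v : R3}
    (h0 : R68.phij P j t x v ≠ 0) : P.j0 ≤ j ∧ v ∈ Fuel.lset P j t x := by
  rw [phij_eq h] at h0
  apply Fuel.mem_of_phs_ne
  intro h1
  rw [h1] at h0
  simp at h0

lemma lane_inv_rr {j : ℕ} {a : ℝ} (ha : a ∈ lane j) : 1 / rr a ≤ 1 / bj j + 1 := by
  have h1 := ha.2.2
  unfold rr bj
  rw [one_div_one_div]
  linarith

/-- **(P0)** -/
theorem phij_le_gaussj (h : P.Ok) (j : ℕ) {t : ℝ} (ht : 0 ≤ t) (x : P2) (v : R3) :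
    R68.phij P j t x v ≤ gaussj P j t x v := by
  by_cases h0 : R68.phij P j t x v = 0
  · rw [h0]; exact bot_le
  obtain ⟨hj, hv⟩ := mem_of_phij_ne h h0
  rw [phij_eq h, Fuel.phs_of_le hj, Fuel.phij_of_mem hv]
  have hc := close_of_mem hv
  have hu := hc.norm_sub_uvec h hj ht
  set a := x.1 - t * v 0
  have hr := hc.rr_pos'
  have hη := Fuel.etaj_pos P.p j
  have hb := bj_pos j
  have hK := h.K0
  unfold gaussj
  apply ENNReal.ofReal_le_ofReal
  have h1 := lane_inv_rr hc.al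
  have h2 : 1 / rr a ≤ 2 / bj j := by
    refine h1.trans ?_
    have : 1 ≤ 1 / bj j := by
      rw [le_div_iff₀ hb, one_mul]; exact bj_le_one j
    have e : 2 / bj j = 1 / bj j + 1 / bj j := by ring
    linarith
  have h3 : Real.exp (-1) ≤ Real.exp (-‖v - uvec P (wj j) t x‖ ^ 2 / (4 * etaj P.p j ^ 2)) := by
    apply Real.exp_le_exp.2
    rw [neg_div, neg_le_neg_iff, div_le_one (by positivity)]
    calc ‖v - uvec P (wj j) t x‖ ^ 2 ≤ (2 * etaj P.p j) ^ 2 := by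
          have := norm_nonneg (v - uvec P (wj j) t x)
          gcongr
      _ = _ := by ring
  have h4 : (1 : ℝ) / 4 ≤ Real.exp (-1) := by
    have := Real.exp_one_lt_d9
    rw [Real.exp_neg, one_div]
    apply inv_anti₀ (Real.exp_pos _)
    linarith
  have h5 : 0 ≤ chij j a * ky P ((x.2 - t * v 1) / rr a) :=
    mul_nonneg (Fuel.chij_nonneg _ _) (Fuel.ky_nonneg _ _)
  have h6 : chij j a * ky P ((x.2 - t * v 1) / rr a) ≤ 1 :=
    mul_le_one₀ (Fuel.chij_le_one _ _) (Fuel.ky_nonneg _ _) (Fuel.ky_le_one _ _)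
  calc P.K * chij j a * ky P ((x.2 - t * v 1) / rr a) / (8 * rr a * etaj P.p j ^ 3)
      = P.K / (8 * etaj P.p j ^ 3) * (chij j a * ky P ((x.2 - t * v 1) / rr a)) * (1 / rr a) := by
        field_simp
    _ ≤ P.K / (8 * etaj P.p j ^ 3) * 1 * (2 / bj j) := by gcongr
    _ = P.K / (bj j * etaj P.p j ^ 3) * (1 / 4) := by field_simp; ring
    _ ≤ _ := by gcongr; exact h4.trans h3

/-- **(P1)** -/
theorem Ztj_of_phij (h : P.Ok) (hp : 512 ≤ P.p) {j : ℕ} {t : ℝ} (ht : 0 ≤ t) {x : P2} {v : R3}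
    (h0 : R68.phij P j t x v ≠ 0) : Ztj P j t x v := by
  obtain ⟨hj, hv⟩ := mem_of_phij_ne h h0
  have hc := close_of_mem hv
  set a := x.1 - t * v 0 with ha
  have hη := Fuel.etaj_pos P.p j
  have hη1 := Fuel.etaj_le_one P.p j
  have hb := bj_pos j
  have hb1 := bj_le_one j
  have hρ := rhoj_pos P.p j
  have hτ := one_le_tauj P.p j
  have hηρ := etaj_lt_rho h hp hj
  have hY := h.Y0
  have hd := Fuel.Ok.dlp h
  have hd20 := Fuel.Ok.dl20 h
  have hbd := bj_le_dl_sq h hj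
  have hYs := h.Ysm
  refine ⟨hj, ⟨a, hc.al, ?_⟩, ?_, ?_⟩
  · refine (hc.abs_lab_sub_eta h ht).trans ?_
    rw [le_div_iff₀ hb]
    nlinarith [mul_le_mul hηρ hb1 hb.le (by positivity)]
  · have h1 := hc.abs_X2 h ht
    have h2 := hc.abs_lab_sub_t h ht
    have h3 := hc.abs_lab_sub_eta h ht
    have hal := Fuel.lane_lt_dl (Fuel.Ok.j1 h) hj hc.al
    set A := lab P t x
    have h4 : rr a ≤ rr A + etaj P.p j * t := by
      unfold rr
      have e : a ^ 2 - A ^ 2 = -((A - a) * (A + a)) := by ring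
      have h5 : |A + a| ≤ 1 := by
        have h6 : A + a = (A - a) + 2 * a := by ring
        rw [h6]
        refine (abs_add_le _ _).trans ?_
        rw [abs_mul, abs_two]
        have : etaj P.p j ≤ 1 / 401 := by
          have h7 : rhoj P.p j ≤ 1 := pow_le_one₀ hb.le hb1
          linarith
        linarith
      have h6 : a ^ 2 - A ^ 2 ≤ |A - a| * |A + a| := by
        rw [e, ← abs_mul]
        exact neg_le_abs _
      have h7 : |A - a| * |A + a| ≤ etaj P.p j * t * 1 := by gcongr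
      linarith
    have hrA : 0 ≤ rr A := Fuel.rr_nonneg A
    have h5 : t + rr a ≤ (1 + etaj P.p j) * (t + rr A) := by nlinarith
    have h6 : (P.Y + etaj P.p j) * (1 + etaj P.p j) ≤ P.Y + rhoj P.p j * tauj P.p j / bj j ^ 2 := by
      have h7 : etaj P.p j * (P.Y + 2) ≤ rhoj P.p j * tauj P.p j / bj j ^ 2 := by
        have h8 : (P.Y + 2) * bj j ≤ 1 := by nlinarith
        have h9 : etaj P.p j ≤ rhoj P.p j := by linarith
        rw [le_div_iff₀ (by positivity)]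
        calc etaj P.p j * (P.Y + 2) * bj j ^ 2 = etaj P.p j * ((P.Y + 2) * bj j) * bj j := by ring
          _ ≤ rhoj P.p j * 1 * 1 := by gcongr
          _ ≤ rhoj P.p j * tauj P.p j := by nlinarith
      nlinarith
    calc |x.2| ≤ (P.Y + etaj P.p j) * (t + rr a) := h1
      _ ≤ (P.Y + etaj P.p j) * ((1 + etaj P.p j) * (t + rr A)) := by gcongr
      _ = ((P.Y + etaj P.p j) * (1 + etaj P.p j)) * (t + rr A) := by ring
      _ ≤ _ := by gcongr
  · have := hc.norm_sub_uvec h hj ht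
    linarith

/-- tight zone of positions -/
def zt (P : Par) (j : ℕ) (t : ℝ) (x : P2) : Prop :=
  P.j0 ≤ j ∧ (∃ a ∈ lane j, |lab P t x - a| ≤ rhoj P.p j * tauj P.p j / bj j) ∧
    |x.2| ≤ (P.Y + rhoj P.p j * tauj P.p j / bj j ^ 2) * (t + rr (lab P t x))

lemma Ztj_iff {j : ℕ} {t : ℝ} {x : P2} {v : R3} :
    Ztj P j t x v ↔ zt P j t x ∧ ‖v - uvec P (wj j) t x‖ < 2 * rhoj P.p j := by
  unfold Ztj zt
  tauto

/-- the tight zone lies in the enlarged lane -/
theorem zt_lane (h : P.Ok) (hp : 512 ≤ P.p) {j : ℕ} {t : ℝ} {x : P2} (hz : zt P j t x) :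
    P.j0 ≤ j ∧ lab P t x ∈ laneE j := by
  obtain ⟨hj, ⟨a, ha, h1⟩, -⟩ := hz
  refine ⟨hj, ?_⟩
  have hb := bj_pos j
  have hb1 := bj_le_one j
  have hb4 := bj_le h hj
  have h2 := rho_tau_le hp j (m := 1) (by norm_num)
  rw [pow_one] at h2
  have h3 := h1.trans h2
  set A := lab P t x
  have hr : 0 < a ^ 2 := by have := ha.1; positivity
  have hlow : bj j / 2 ≤ a ^ 2 := by
    have h4 := lane_inv_rr ha
    unfold rr at h4
    have h5 : 1 / a ^ 2 ≤ 2 / bj j := by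
      refine h4.trans ?_
      have : 1 ≤ 1 / bj j := by
        rw [le_div_iff₀ hb, one_mul]; exact hb1
      have e : 2 / bj j = 1 / bj j + 1 / bj j := by ring
      linarith
    rw [div_le_div_iff₀ hr hb] at h5
    linarith
  have habs : |a| ≤ 1 := by
    have := Fuel.lane_lt_dl (Fuel.Ok.j1 h) hj ha
    have := Fuel.Ok.dl20 h
    linarith
  have hb100 : bj j ^ 100 ≤ bj j ^ 4 / 4000 := by
    have h4 : bj j ^ 100 = bj j ^ 4 * bj j ^ 96 := by rw [← pow_add]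
    have h5 : bj j ^ 96 ≤ bj j ^ 2 := pow_le_pow_of_le_one hb.le hb1 (by norm_num)
    have h6 : bj j ^ 2 ≤ 1 / 4000 := by nlinarith
    rw [h4]
    have : 0 < bj j ^ 4 := by positivity
    nlinarith
  have hdiff : |a ^ 2 - A ^ 2| ≤ 3 * (bj j ^ 4 / 4000) := by
    have e : a ^ 2 - A ^ 2 = -((A - a) * (A + a)) := by ring
    have h5 : |A + a| ≤ 3 := by
      have h6 : A + a = (A - a) + 2 * a := by ring
      rw [h6]
      refine (abs_add_le _ _).trans ?_
      rw [abs_mul, abs_two]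
      have : bj j ^ 100 ≤ 1 := pow_le_one₀ hb.le hb1
      linarith
    rw [e, abs_neg, abs_mul]
    have h6 : |A - a| ≤ bj j ^ 4 / 4000 := h3.trans hb100
    calc |A - a| * |A + a| ≤ bj j ^ 4 / 4000 * 3 := by gcongr
      _ = _ := by ring
  have hb2 : bj j ^ 4 ≤ bj j ^ 2 := pow_le_pow_of_le_one hb.le hb1 (by norm_num)
  have hb3 : bj j ^ 4 ≤ bj j := by
    calc bj j ^ 4 ≤ bj j ^ 1 := pow_le_pow_of_le_one hb.le hb1 (by norm_num)
      _ = _ := pow_one _
  have hA2 : bj j / 4 ≤ A ^ 2 := by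
    have := (abs_le.1 hdiff).2
    linarith
  have hA0 : 0 < A ^ 2 := by linarith
  have hinv : |1 / A ^ 2 - 1 / a ^ 2| ≤ 1 / 200 - 1 / 1000 := by
    have e : 1 / A ^ 2 - 1 / a ^ 2 = (a ^ 2 - A ^ 2) / (A ^ 2 * a ^ 2) := by
      rw [div_sub_div _ _ hA0.ne' hr.ne']; ring
    rw [e, abs_div, abs_of_pos (by positivity : 0 < A ^ 2 * a ^ 2), div_le_iff₀ (by positivity)]
    have h7 : bj j ^ 2 / 8 ≤ A ^ 2 * a ^ 2 := by nlinarith
    nlinarith
  obtain ⟨ha0, ha1, ha2⟩ := ha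
  have h8 := abs_le.1 hinv
  refine ⟨?_, ?_, ?_⟩
  · intro h9; rw [h9] at hA0; norm_num at hA0
  · linarith
  · linarith

/-- the tight zone lies in my `zone` -/
theorem zt_zone (h : P.Ok) (hp : 512 ≤ P.p) (hY : 1 ≤ P.Y) {j : ℕ} {t : ℝ} (ht : 0 ≤ t) {x : P2}
    (hz : zt P j t x) :
    |lab P t x| < P.dl ∧ |x.2| < 2 * P.Y * (t + rr (lab P t x)) ∧ x ∈ W.zone P t := by
  obtain ⟨hj, hl⟩ := zt_lane h hp hz
  have h1 := Fuel.laneE_lt_dl (Fuel.Ok.j1 h) hj hl
  have h2 := hz.2.2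
  have h3 := rho_tau_le hp j (m := 2) (by norm_num)
  have hb := bj_pos j
  have hb4 := bj_le h hj
  have h4 : bj j ^ 100 ≤ 1 / 401 := by
    calc bj j ^ 100 ≤ bj j ^ 1 := pow_le_pow_of_le_one hb.le (bj_le_one j) (by norm_num)
      _ ≤ _ := by rw [pow_one]; exact hb4
  have h5 : 0 < rr (lab P t x) := Fuel.rr_pos hl.1
  have h6 : |x.2| < 2 * P.Y * (t + rr (lab P t x)) := by
    refine h2.trans_lt ?_
    apply mul_lt_mul_of_pos_right _ (by positivity)
    linarith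
  exact ⟨h1, h6, h1.le, h6.le⟩

end Crest.Agent.R68.ColdW
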