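import Crest.Agent.R68.ColdPic
import Crest.Agent.R68.CSize4
import Crest.Agent.R68.ColdMeas

/-!
# Row 68, PART C (helper819): C3 on `[0,T1]`

`coldL_le_T1`, `coldR_le_T1` (refined upper bound), `phi_le_coldR_of` (lower bound, from the
exponential form), `coldR_le_all` (all times).
-/

set_option autoImplicit false
open MeasureTheory Set Filter
open scoped ENNReal Topology
open Crest.AnalysisR.VecCalc3 Crest.AnalysisR.PDE.Boltzmann

noncomputable section

namespace Crest.Agent.R68.ColdT1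

open Crest.Agent.R68.A (Meas3 en measurable_en)
open Crest.Agent.R68.C (C0 LZ LZ_of_Ztj lab_sq_ge lab_le_distG bj_small0 bj_pos bj_le_one bj_pow_anti
  warmj_eq_zero coldS_cases LZ_unique coldS_mass K_mul_bj rhoj_pos Ztj_of_lset)

variable {P : Par}

/-- the fuel as a sum of sheets -/
theorem phiE_eq_tsum (h : P.Ok) (t : ℝ) (x : P2) (v : R3) :
    phiE P t x v = ∑' k : ℤ × ℤ, ∑' j : ℕ, R68.phij P j t (x + latt k) v := by
  unfold phiE
  rw [Fuel.ofReal_phi h]
  refine tsum_congr fun k => tsum_congr fun j => ?_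
  rw [ColdW.phij_eq h]

theorem bj_le_distG (h : ColdPar C0 P) {j : ℕ} {t : ℝ} (ht : 0 ≤ t)
    (htT : t ≤ P.dl ^ (3 / 8 : ℝ)) {x : P2} {k : ℤ × ℤ} (hz : LZ P j t (x + latt k)) :
    bj j ≤ distG x := by
  refine le_trans ?_ (lab_le_distG h ht htT hz)
  have h5 := lab_sq_ge h hz
  have h6 := bj_small0 h hz.1
  have hb := bj_pos j
  have h7 : bj j ^ 2 ≤ |lab P t (x + latt k)| ^ 2 := by
    rw [sq_abs]; nlinarith
  exact le_of_sq_le_sq h7 (abs_nonneg _)

/-- every cold component with a full rate, all times -/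
theorem coldL_le_all (hA : ColdPar Cold.C0 P) (hok : P.Ok) (Λ : ℝ → P2 → R3 → ℝ≥0∞) {t : ℝ}
    (ht : 0 ≤ t) (x : P2) (v : R3) :
    coldL P Λ t x v ≤ phiE P t x v + ENNReal.ofReal (min t 1) * warm P t x v := by
  unfold coldL warm
  rw [phiE_eq_tsum hok, ← ENNReal.tsum_mul_left, ← ENNReal.tsum_add]
  refine ENNReal.tsum_le_tsum fun k => ?_
  rw [← ENNReal.tsum_mul_left, ← ENNReal.tsum_add]
  exact ENNReal.tsum_le_tsum fun j => Cold.coldj_le hA Λ ht (x + latt k) v

/-- every cold component with a full rate, on `[0,T1]` -/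
theorem coldL_le_T1 (hA : ColdPar Cold.C0 P) (h : ColdPar C0 P) (hok : P.Ok) (Λ : ℝ → P2 → R3 → ℝ≥0∞) {t : ℝ}
    (ht : 0 ≤ t) (htT : t ≤ P.dl ^ (3 / 8 : ℝ)) (x : P2) (v : R3) :
    coldL P Λ t x v ≤ phiE P t x v +
      ENNReal.ofReal (t * distG x ^ (P.p / 32)) * warm P t x v := by
  unfold coldL warm
  rw [phiE_eq_tsum hok, ← ENNReal.tsum_mul_left, ← ENNReal.tsum_add]
  refine ENNReal.tsum_le_tsum fun k => ?_
  rw [← ENNReal.tsum_mul_left, ← ENNReal.tsum_add]
  refine ENNReal.tsum_le_tsum fun j => ?_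
  refine (Cold.coldj_le' hA Λ ht (x + latt k) v).trans (add_le_add le_rfl ?_)
  refine (Cold.wj'_le hA ht (x + latt k) v).trans ?_
  by_cases hz : LZ P j t (x + latt k)
  · rw [← mul_assoc, ← ENNReal.ofReal_mul (le_min ht zero_le_one)]
    refine mul_le_mul_left (ENNReal.ofReal_le_ofReal ?_) _
    have hb := bj_pos j
    have hb1 := bj_le_one j
    have h1 := bj_le_distG h ht htT hz
    have h2 : bj j ^ (4 + P.p / 32) ≤ distG x ^ (P.p / 32) :=
      (bj_pow_anti j (by omega)).trans (pow_le_pow_left₀ hb.le h1 _)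
    exact mul_le_mul (min_le_left _ _) h2 (by positivity) ht
  · rw [warmj_eq_zero hz, mul_zero, mul_zero, mul_zero]

theorem coldR_le_of {lam : ℝ → P2 → R3 → ℝ≥0∞} {t : ℝ} {x : P2} {v : R3} {B : ℝ≥0∞}
    (hB : ∀ Λ : ℝ → P2 → R3 → ℝ≥0∞, coldL P Λ t x v ≤ B) : coldR P lam t x v ≤ B := by
  unfold coldR
  refine Filter.limsup_le_of_le (h := Eventually.of_forall fun n => ?_)
  cases n with
  | zero => exact zero_le
  | succ n => exact hB _

/-- **(C1) upper bound, all times** -/
theorem coldR_le_all (hA : ColdPar Cold.C0 P) (hok : P.Ok) (lam : ℝ → P2 → R3 → ℝ≥0∞) {t : ℝ}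
    (ht : 0 ≤ t) (x : P2) (v : R3) :
    coldR P lam t x v ≤ phiE P t x v + ENNReal.ofReal (min t 1) * warm P t x v :=
  coldR_le_of fun Λ => coldL_le_all hA hok Λ ht x v

theorem coldR_le_coldS (hA : ColdPar Cold.C0 P) (hok : P.Ok) (lam : ℝ → P2 → R3 → ℝ≥0∞) {t : ℝ}
    (ht : 0 ≤ t) (x : P2) (v : R3) : coldR P lam t x v ≤ coldS P t x v := by
  refine (coldR_le_all hA hok lam ht x v).trans ?_
  unfold coldS
  refine add_le_add le_rfl ?_
  calc ENNReal.ofReal (min t 1) * warm P t x v ≤ 1 * warm P t x v := by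
        gcongr
        rw [← ENNReal.ofReal_one]
        exact ENNReal.ofReal_le_ofReal (min_le_right _ _)
    _ = _ := one_mul _

/-- **(C3) refined upper bound on `[0,T1]`** -/
theorem coldR_le_T1 (hA : ColdPar Cold.C0 P) (h : ColdPar C0 P) (hok : P.Ok) (lam : ℝ → P2 → R3 → ℝ≥0∞) {t : ℝ}
    (ht : 0 ≤ t) (htT : t ≤ P.dl ^ (3 / 8 : ℝ)) (x : P2) (v : R3) :
    coldR P lam t x v ≤ phiE P t x v +
      ENNReal.ofReal (t * distG x ^ (P.p / 32)) * warm P t x v :=
  coldR_le_of fun Λ => coldL_le_T1 hA h hok Λ ht htT x v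

/-- self-interaction on the tight zone of lane `j` (779's proof, in terms of `b_j`) -/
theorem Lc_coldS_le_bj (h : ColdPar C0 P) (hey : 0 < P.ey) {t : ℝ} (ht : 0 ≤ t)
    (htT : t ≤ P.dl ^ (3 / 8 : ℝ)) {x : P2} {v : R3} {k : ℤ × ℤ} {j : ℕ}
    (hz : Ztj P j t (x + latt k) v) :
    Lc (coldS P t x) v ≤ ENNReal.ofReal (bj j ^ (P.p / 32)) := by
  have hok := C.CP.ok h hey
  have hLZ := LZ_of_Ztj hz
  have hj := hz.1
  have hb := bj_pos j
  have hb1 := bj_le_one j
  have hK := h.K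
  have hp := h.p
  have hρ := rhoj_pos P.p j
  have h1 : ∀ v' : R3, ENNReal.ofReal (2 * Real.pi * ‖v - v'‖) * coldS P t x v' ≤
      ENNReal.ofReal (26 * rhoj P.p j) * coldS P t x v' := by
    intro v'
    by_cases h2 : coldS P t x v' = 0
    · rw [h2, mul_zero, mul_zero]
    · obtain ⟨k', j', hz'⟩ := coldS_cases h hey ht h2
      obtain ⟨e1, e2⟩ := LZ_unique h ht htT hLZ (LZ_of_Ztj hz')
      subst e1 e2
      refine mul_le_mul_left (ENNReal.ofReal_le_ofReal ?_) _
      have h3 := hz.2.2.2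
      have h4 := hz'.2.2.2
      have h5 : ‖v - v'‖ ≤ ‖v - uvec P (wj j) t (x + latt k)‖ +
          ‖v' - uvec P (wj j) t (x + latt k)‖ := by
        have : v - v' = (v - uvec P (wj j) t (x + latt k)) -
          (v' - uvec P (wj j) t (x + latt k)) := by abel
        rw [this]; exact norm_sub_le _ _
      have h6 := Real.pi_lt_d2
      have h7 := Real.pi_pos
      nlinarith
  rw [C.Lc_eq]
  refine (lintegral_mono h1).trans ?_
  rw [lintegral_const_mul' _ _ ENNReal.ofReal_ne_top]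
  have h2 := coldS_mass h hok hey ht htT hLZ
  calc _ ≤ ENNReal.ofReal (26 * rhoj P.p j) * ENNReal.ofReal (9 * P.K / bj j) := by gcongr
    _ ≤ ENNReal.ofReal (bj j ^ (P.p / 32)) := by
      rw [← ENNReal.ofReal_mul (by positivity)]
      refine ENNReal.ofReal_le_ofReal ?_
      have h4 := K_mul_bj h hj
      calc 26 * rhoj P.p j * (9 * P.K / bj j)
          = 26 * bj j ^ (P.p / 2) * (9 * P.K / bj j) := rfl
        _ ≤ 26 * bj j ^ (P.p / 32 + 2) * (9 * P.K / bj j) := by
            gcongr 26 * ?_ * _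
            exact bj_pow_anti j (by omega)
        _ = 234 * (P.K * bj j) * bj j ^ (P.p / 32) := by
            rw [pow_add]; field_simp; ring
        _ ≤ 1 * bj j ^ (P.p / 32) := by
            refine mul_le_mul_of_nonneg_right ?_ (by positivity)
            linarith
        _ = _ := one_mul _

/-- transport of the fuel set along flights -/
theorem mem_lset_flight {j : ℕ} {t : ℝ} {x : P2} {v : R3} (hv : v ∈ Fuel.lset P j t x) (s : ℝ) :
    v ∈ Fuel.lset P j s (x - (t - s) • bar v) := by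
  rw [Fuel.mem_lset_iff_zero] at hv ⊢
  have : x - (t - s) • bar v - s • bar v = x - t • bar v := by
    rw [sub_smul]; abel
  rwa [this]

/-- **(C3) lower bound on `[0,T1]`**, from the exponential form at the point `(t,x,v)` -/
theorem phi_le_coldR_of (hA : ColdPar Cold.C0 P) (h : ColdPar C0 P) (hey : 0 < P.ey) {lam : ℝ → P2 → R3 → ℝ≥0∞}
    (hlam : Meas3 lam) {t : ℝ} (ht : 0 ≤ t) (htT : t ≤ P.dl ^ (3 / 8 : ℝ)) {x : P2} {v : R3}
    (heq : coldR P lam t x v =
      phiE P t x v * damp (rateC P lam) 0 t x v + DuhD (rateC P lam) (coldGain P lam) t x v) :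
    phiE P t x v ≤ coldR P lam t x v +
      (ENNReal.ofReal (t * distG x ^ (P.p / 32)) +
        ∫⁻ s in Ioo 0 t, lam s (x - (t - s) • bar v) v) * phiE P t x v := by
  have hok := C.CP.ok h hey
  by_cases h0 : phiE P t x v = 0
  · rw [h0]; exact zero_le
  have h0' : phi P t x v ≠ 0 := by
    intro h1; apply h0; unfold phiE; rw [h1, ENNReal.ofReal_zero]
  obtain ⟨k, j, hj, hv⟩ := Fuel.exists_of_phi_ne hok h0'
  set a : ℝ≥0∞ := ∫⁻ s in Ioo 0 t, rateC P lam s (x - (t - s) • bar v) v with ha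
  have hflow : Measurable (fun s : ℝ => lam s (x - (t - s) • bar v) v) := by
    have h1 : Measurable (fun s : ℝ => ((s, x - (t - s) • bar v, v) : ℝ × P2 × R3)) := by fun_prop
    have h2 : Measurable ((fun z : ℝ × P2 × R3 => lam z.1 z.2.1 z.2.2) ∘
      fun s : ℝ => ((s, x - (t - s) • bar v, v) : ℝ × P2 × R3)) := Measurable.comp hlam h1
    exact h2
  have hLZt : LZ P j t (x + latt k) := LZ_of_Ztj (Ztj_of_lset h hok hj ht hv)
  have hbd : bj j ^ (P.p / 32) ≤ distG x ^ (P.p / 32) :=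
    pow_le_pow_left₀ (bj_pos j).le (bj_le_distG h ht htT hLZt) _
  have hLc : ∀ s ∈ Ioo (0 : ℝ) t, Lc (coldR P lam s (x - (t - s) • bar v)) v ≤
      ENNReal.ofReal (distG x ^ (P.p / 32)) := by
    intro s hs
    have hs0 := hs.1.le
    have hsT := hs.2.le.trans htT
    have h1 : v ∈ Fuel.lset P j s (x - (t - s) • bar v + latt k) := by
      have h2 := mem_lset_flight hv s
      have h3 : x + latt k - (t - s) • bar v = x - (t - s) • bar v + latt k := by abel
      rwa [h3] at h2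
    have h2 := Ztj_of_lset h hok hj hs0 h1
    refine le_trans (C.Lc_mono (fun z => coldR_le_coldS hA hok lam hs0 _ z) v) ?_
    exact (Lc_coldS_le_bj h hey hs0 hsT h2).trans (ENNReal.ofReal_le_ofReal hbd)
  have hale : a ≤ ENNReal.ofReal (t * distG x ^ (P.p / 32)) +
      ∫⁻ s in Ioo 0 t, lam s (x - (t - s) • bar v) v := by
    calc a ≤ ∫⁻ s in Ioo 0 t, (ENNReal.ofReal (distG x ^ (P.p / 32)) +
          lam s (x - (t - s) • bar v) v) := by
          refine setLIntegral_mono' measurableSet_Ioo fun s hs => ?_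
          exact add_le_add (hLc s hs) le_rfl
      _ = _ := by
          rw [lintegral_add_right _ hflow, lintegral_const, Measure.restrict_apply_univ,
            Real.volume_Ioo, sub_zero, mul_comm, ← ENNReal.ofReal_mul ht]
  have hdamp : damp (rateC P lam) 0 t x v = en a := rfl
  have h1 : phiE P t x v ≤ phiE P t x v * en a + a * phiE P t x v := by
    calc phiE P t x v = 1 * phiE P t x v := (one_mul _).symm
      _ ≤ (en a + a) * phiE P t x v := mul_le_mul_left (A.one_le_en_add a) _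
      _ = _ := by ring
  refine h1.trans (add_le_add ?_ (mul_le_mul_left hale _))
  rw [heq, hdamp]
  exact le_self_add

end Crest.Agent.R68.ColdT1
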