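import Crest.Agent.R68.CSize2

/-!
# Row 68, PART C (helper779): the warm majorant on `[0,T1]`: one sheet, support, mass, Newton
-/

set_option autoImplicit false
open MeasureTheory Set
open scoped ENNReal
open Crest.AnalysisR.VecCalc3 Crest.AnalysisR.PDE.Boltzmann

noncomputable section

namespace Crest.Agent.R68.C

open Crest.Agent.R68.Fuel

variable {P : Par}

theorem mem_laneE_of {j : ℕ} {A : ℝ} (h0 : 0 < A ^ 2) (h1 : A ^ 2 * (2 * j + 1 / 200) < 1)
    (h2 : 1 < A ^ 2 * (2 * j + 399 / 200)) : A ∈ laneE j := by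
  refine ⟨fun h => by simp [h] at h0, ?_, ?_⟩
  · rw [lt_div_iff₀ h0]; linarith
  · rw [div_lt_iff₀ h0]; linarith

/-- a label close to lane `j` is in the enlarged lane -/
theorem mem_laneE_of_close (h : ColdPar C0 P) {j : ℕ} (hj : P.j0 ≤ j) {a A : ℝ} (ha : a ∈ lane j)
    (hA : |A - a| ≤ bj j ^ 2 / 10 ^ 6) : A ∈ laneE j := by
  have hj1 : 1 ≤ j := by
    have h1 := CP.j0_ge h
    have h2 : (P.j0 : ℝ) ≤ j := by exact_mod_cast hj
    have : (1 : ℝ) ≤ j := by linarith
    exact_mod_cast this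
  have ha1 := lane_abs_le_one hj1 ha
  have hb := bj_pos j
  have hb1 := bj_le_one j
  have hsq := lane_sq hj1 ha
  have hu := lane_upper ha
  have hl := lane_lower ha
  have hJ : bj j * (2 * j + 1) = 1 := by unfold bj; field_simp
  set e := bj j ^ 2 / 10 ^ 6 with he
  have he0 : 0 < e := by positivity
  have he1 : e ≤ 1 := by rw [he, div_le_one (by norm_num)]; nlinarith
  have hA1 : |A| ≤ 2 := by
    have := abs_sub_abs_le_abs_sub A a
    linarith
  have hd : |A ^ 2 - a ^ 2| ≤ 3 * e := by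
    have : A ^ 2 - a ^ 2 = (A - a) * (A + a) := by ring
    rw [this, abs_mul]
    have k3 : |A + a| ≤ 3 := (abs_add_le _ _).trans (by linarith)
    calc |A - a| * |A + a| ≤ e * 3 := mul_le_mul hA k3 (abs_nonneg _) he0.le
      _ = 3 * e := by ring
  have hd' := abs_le.1 hd
  have hj' : (0 : ℝ) ≤ j := Nat.cast_nonneg j
  have heJ : e * (2 * j + 1) = bj j / 10 ^ 6 := by
    have : e * (2 * j + 1) = bj j * (bj j * (2 * j + 1)) / 10 ^ 6 := by rw [he]; ring
    rw [this, hJ, mul_one]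
  refine mem_laneE_of ?_ ?_ ?_
  · have : 3 * e ≤ bj j / 4 := by rw [he]; nlinarith
    linarith [hd'.1, hsq.1]
  · have k1 : A ^ 2 * (2 * j + 1 / 200) ≤ (a ^ 2 + 3 * e) * (2 * j + 1 / 200) :=
      mul_le_mul_of_nonneg_right (by linarith [hd'.2]) (by positivity)
    have k2 : (a ^ 2 + 3 * e) * (2 * j + 1 / 200) =
        a ^ 2 * (2 * j + 1 / 100) - a ^ 2 / 200 + 3 * (e * (2 * j + 1)) - 3 * e * (199 / 200) := by
      ring
    rw [k2, heJ] at k1
    linarith [hsq.1]
  · have k1 : (a ^ 2 - 3 * e) * (2 * j + 399 / 200) ≤ A ^ 2 * (2 * j + 399 / 200) :=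
      mul_le_mul_of_nonneg_right (by linarith [hd'.1]) (by positivity)
    have k2 : (a ^ 2 - 3 * e) * (2 * j + 399 / 200) =
        a ^ 2 * (2 * j + 199 / 100) + a ^ 2 / 200 - 3 * (e * (2 * j + 1)) - 3 * e * (199 / 200) := by
      ring
    rw [k2, heJ] at k1
    have k3 : e ≤ bj j / 10 ^ 6 := by rw [he]; nlinarith
    linarith [hsq.1]

theorem slack_small2 (h : ColdPar C0 P) {j : ℕ} (hj : P.j0 ≤ j) {n : ℕ} (hn : n ≤ 100) :
    rhoj P.p j * tauj P.p j / bj j ^ n ≤ bj j ^ 2 / 10 ^ 6 := by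
  refine (slack_small h j hn).trans ?_
  have h1 := bj_small0 h hj
  have hb := bj_pos j
  have h2 : bj j ^ 50 ≤ bj j ^ 3 := bj_pow_anti j (by norm_num)
  have h3 : bj j ^ 3 = bj j ^ 2 * bj j := by ring
  rw [le_div_iff₀ (by norm_num)]
  have h4 : 0 < bj j ^ 2 := by positivity
  nlinarith

theorem lab_mem_laneE (h : ColdPar C0 P) {j : ℕ} {t : ℝ} {x : P2} (hz : LZ P j t x) :
    lab P t x ∈ laneE j := by
  obtain ⟨hj, ⟨a, ha, hA⟩, -⟩ := hz
  refine mem_laneE_of_close h hj ha (hA.trans ?_)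
  have := slack_small2 h hj (n := 1) (by norm_num)
  rwa [pow_one] at this

theorem LZ_lane_unique (h : ColdPar C0 P) {i j : ℕ} {t : ℝ} {x : P2} (hi : LZ P i t x)
    (hj : LZ P j t x) : i = j :=
  laneE_unique (lab_mem_laneE h hi) (lab_mem_laneE h hj)

/-- size of the position in the tight zone -/
theorem LZ_norm (h : ColdPar C0 P) {j : ℕ} {t : ℝ} (ht : 0 ≤ t) {x : P2} (hz : LZ P j t x) :
    ‖x‖ ≤ (P.Y + 3) * (t + P.dl) := by
  have hE := lab_mem_laneE h hz
  obtain ⟨hj, -, hx2⟩ := hz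
  have hj1 : 1 ≤ P.j0 := by
    have h1 := CP.j0_ge h
    have : (1 : ℝ) ≤ P.j0 := by linarith
    exact_mod_cast this
  have h1 := laneE_lt_dl hj1 hj hE
  have hdl := CP.dl_pos h
  have hdl1 := CP.dl_small h
  have hY := h.Y
  have hc := h.c1
  have hc0 : 0 ≤ P.c := hdl.le.trans h.c
  have hs : rhoj P.p j * tauj P.p j / bj j ^ 2 ≤ 1 :=
    (slack_small h j (by norm_num)).trans (pow_le_one₀ (bj_pos j).le (bj_le_one j))
  have hr : rr (lab P t x) ≤ P.dl := by
    unfold rr
    rw [← sq_abs]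
    nlinarith [abs_nonneg (lab P t x)]
  have hr0 : 0 ≤ rr (lab P t x) := sq_nonneg _
  have e1 : x.1 = lab P t x * (P.dl + P.c * t) / P.dl := by
    unfold lab
    have : 0 < P.dl + P.c * t := by positivity
    field_simp
  rw [Prod.norm_def, max_le_iff, Real.norm_eq_abs, Real.norm_eq_abs]
  constructor
  · rw [e1, abs_div, abs_mul, abs_of_pos hdl, abs_of_nonneg (show 0 ≤ P.dl + P.c * t by positivity),
      div_le_iff₀ hdl]
    have k1 : |lab P t x| * (P.dl + P.c * t) ≤ P.dl * (P.dl + P.c * t) :=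
      mul_le_mul_of_nonneg_right h1.le (by positivity)
    have k2 : P.dl + P.c * t ≤ (P.Y + 3) * (t + P.dl) := by nlinarith [mul_nonneg (by linarith : (0:ℝ) ≤ 1 - P.c) ht]
    nlinarith
  · refine hx2.trans ?_
    have k1 : (P.Y + rhoj P.p j * tauj P.p j / bj j ^ 2) * (t + rr (lab P t x)) ≤
        (P.Y + 1) * (t + P.dl) :=
      mul_le_mul (by linarith) (by linarith) (by positivity) (by linarith)
    have k2 : 0 ≤ t + P.dl := by positivity
    nlinarith

theorem LZ_norm_lt (h : ColdPar C0 P) {j : ℕ} {t : ℝ} (ht : 0 ≤ t) (htT : t ≤ P.dl ^ (3 / 8 : ℝ))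
    {x : P2} (hz : LZ P j t x) : ‖x‖ < 7 / 20 := by
  refine (LZ_norm h ht hz).trans_lt ?_
  have h1 := CP.T1_le h
  have hK := h.K
  have hY := h.Y
  have hL : 0 < P.K + P.Y := by linarith
  have h2 : P.dl ≤ 1 / (40 * (P.K + P.Y)) := by
    refine (CP.dl_le h).trans ?_
    have : (1 / (40 * (P.K + P.Y))) ^ 4 ≤ (1 / (40 * (P.K + P.Y))) ^ 1 :=
      pow_le_pow_of_le_one (by positivity) (by
        rw [div_le_one (by positivity)]; linarith) (by norm_num)
    rwa [pow_one] at this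
  have h3 : (P.Y + 3) * (t + P.dl) ≤ (P.Y + 3) * (2 * (1 / (40 * (P.K + P.Y)))) :=
    mul_le_mul_of_nonneg_left (by linarith [htT.trans h1]) (by linarith)
  have h4 : (P.Y + 3) * (2 * (1 / (40 * (P.K + P.Y)))) ≤ 1 / 5 := by
    rw [mul_one_div, mul_div_assoc', div_le_div_iff₀ (by positivity) (by norm_num)]
    nlinarith
  linarith

/-- at most one sheet on `[0,T1]` -/
theorem LZ_unique (h : ColdPar C0 P) {i j : ℕ} {t : ℝ} (ht : 0 ≤ t) (htT : t ≤ P.dl ^ (3 / 8 : ℝ))
    {x : P2} {k l : ℤ × ℤ} (hi : LZ P i t (x + latt k)) (hj : LZ P j t (x + latt l)) :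
    k = l ∧ i = j := by
  have h1 := latt_unique (LZ_norm_lt h ht htT hi) (LZ_norm_lt h ht htT hj)
  subst h1
  exact ⟨rfl, LZ_lane_unique h hi hj⟩

theorem warmj_eq_zero {j : ℕ} {t : ℝ} {x : P2} (hz : ¬ LZ P j t x) (v : R3) :
    warmj P j t x v = 0 := by
  unfold warmj
  rw [if_neg fun h => hz (LZ_of_Ztj h)]

/-- on `[0,T1]` the warm majorant is a single sheet -/
theorem warm_cases (h : ColdPar C0 P) {t : ℝ} (ht : 0 ≤ t) (htT : t ≤ P.dl ^ (3 / 8 : ℝ)) (x : P2) :
    (∀ v, warm P t x v = 0) ∨ ∃ (k : ℤ × ℤ) (j : ℕ), LZ P j t (x + latt k) ∧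
      ∀ v, warm P t x v = warmj P j t (x + latt k) v := by
  by_cases hex : ∃ (k : ℤ × ℤ) (j : ℕ), LZ P j t (x + latt k)
  · obtain ⟨k, j, hz⟩ := hex
    refine Or.inr ⟨k, j, hz, fun v => ?_⟩
    unfold warm
    rw [tsum_eq_single k, tsum_eq_single j]
    · intro i hi
      exact warmj_eq_zero (fun h' => hi (LZ_unique h ht htT h' hz).2) v
    · intro l hl
      rw [ENNReal.tsum_eq_zero]
      intro i
      exact warmj_eq_zero (fun h' => hl (LZ_unique h ht htT h' hz).1) v
  · left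
    intro v
    unfold warm
    rw [ENNReal.tsum_eq_zero]
    intro k
    rw [ENNReal.tsum_eq_zero]
    intro j
    exact warmj_eq_zero (fun h' => hex ⟨k, j, h'⟩) v

/-- velocity of the stream on the tight zone -/
theorem norm_uvec_le (h : ColdPar C0 P) {j : ℕ} {t : ℝ} (ht : 0 ≤ t) {x : P2} (hz : LZ P j t x) :
    ‖uvec P (wj j) t x‖ ≤ P.Y + 2 + 1 / 10 ^ 6 := by
  have hE := lab_mem_laneE h hz
  obtain ⟨hj, -, hx2⟩ := hz
  have hj1 : 1 ≤ P.j0 := by
    have h1 := CP.j0_ge h
    have : (1 : ℝ) ≤ P.j0 := by linarith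
    exact_mod_cast this
  have h1 := laneE_lt_dl hj1 hj hE
  have hdl := CP.dl_pos h
  have hc := h.c1
  have hc0 : 0 ≤ P.c := hdl.le.trans h.c
  have hs : rhoj P.p j * tauj P.p j / bj j ^ 2 ≤ 1 / 10 ^ 6 := by
    refine (slack_small2 h hj (by norm_num)).trans ?_
    have := pow_le_one₀ (n := 2) (bj_pos j).le (bj_le_one j)
    gcongr
  have hr0 : 0 ≤ rr (lab P t x) := sq_nonneg _
  refine (Pole.norm_le_sum3 _).trans ?_
  have e0 : |uvec P (wj j) t x 0| ≤ 1 := by
    have : uvec P (wj j) t x 0 = P.c * (lab P t x / P.dl) := by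
      show P.c * x.1 / (P.dl + P.c * t) = _
      unfold lab
      have : 0 < P.dl + P.c * t := by positivity
      field_simp
    rw [this, abs_mul, abs_of_nonneg hc0, abs_div, abs_of_pos hdl]
    have k1 : |lab P t x| / P.dl ≤ 1 := by rw [div_le_one hdl]; exact h1.le
    have k2 : 0 ≤ |lab P t x| / P.dl := by positivity
    nlinarith
  have e1 : |uvec P (wj j) t x 1| ≤ P.Y + 1 / 10 ^ 6 := by
    show |x.2 / (t + rr (lab P t x))| ≤ _
    have hY := h.Y
    rcases (add_nonneg ht hr0).eq_or_lt with h0 | h0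
    · rw [← h0]; simp; positivity
    · rw [abs_div, abs_of_pos h0, div_le_iff₀ h0]
      exact hx2.trans (mul_le_mul_of_nonneg_right (by linarith) h0.le)
  have e2 : |uvec P (wj j) t x 2| ≤ 1 := by
    show |wj j| ≤ 1
    unfold wj; rw [abs_pow]; simp
  linarith

theorem rhoj_small (h : ColdPar C0 P) {j : ℕ} (hj : P.j0 ≤ j) : rhoj P.p j ≤ 1 / 10 ^ 6 := by
  have h1 : rhoj P.p j ≤ bj j ^ 1 := bj_pow_anti j (by have := h.p; omega)
  have h2 := bj_small0 h hj
  rw [pow_one] at h1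
  rw [le_div_iff₀ (by norm_num)]
  have := bj_pos j
  linarith

/-- support of the warm majorant -/
theorem norm_lt_of_warmj (h : ColdPar C0 P) {j : ℕ} {t : ℝ} (ht : 0 ≤ t) {x : P2} {v : R3}
    (hw : warmj P j t x v ≠ 0) : ‖v‖ < P.Y + 3 := by
  have hz : Ztj P j t x v := by
    by_contra h1
    exact hw (by unfold warmj; rw [if_neg h1])
  have h1 := norm_uvec_le h ht (LZ_of_Ztj hz)
  have h2 := rhoj_small h hz.1
  have h3 := hz.2.2.2
  have h4 := norm_sub_norm_le v (uvec P (wj j) t x)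
  linarith

/-! ### size of one sheet -/

theorem kapj_le (h : ColdPar C0 P) (j : ℕ) : kapj P.p j ≤ bj j ^ 100 := by
  rw [kapj_eq h.p]
  exact bj_pow_anti j (by have := h.p; omega)

theorem lintegral_warmj (h : ColdPar C0 P) {j : ℕ} (hj : P.j0 ≤ j) (t : ℝ) (x : P2) :
    ∫⁻ v, warmj P j t x v ≤ ENNReal.ofReal (bj j ^ (3 * P.p / 128 + 1)) := by
  have hb := bj_pos j
  have hK := h.K
  have h1 : ∫⁻ v, warmj P j t x v ≤ ∫⁻ v, ENNReal.ofReal (kapj P.p j) * gaussj P j t x v := by
    refine lintegral_mono fun v => ?_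
    unfold warmj
    split_ifs
    · exact le_rfl
    · exact zero_le
  refine h1.trans ?_
  rw [lintegral_const_mul' _ _ ENNReal.ofReal_ne_top]
  refine (mul_le_mul_right (lintegral_gaussj (by linarith) j t x) _).trans ?_
  rw [← ENNReal.ofReal_mul (kapj_pos _ _).le]
  refine ENNReal.ofReal_le_ofReal ?_
  have h3 := K_mul_bj h hj
  have hp := h.p
  have h2 : kapj P.p j ≤ bj j ^ (3 * P.p / 128 + 1 + 2) := by
    rw [kapj_eq hp]
    exact bj_pow_anti j (by omega)
  calc kapj P.p j * (64 * P.K / bj j) ≤ bj j ^ (3 * P.p / 128 + 1 + 2) * (64 * P.K / bj j) := by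
        gcongr
    _ = 64 * (P.K * bj j) * bj j ^ (3 * P.p / 128 + 1) := by
        rw [pow_add (bj j) (3 * P.p / 128 + 1) 2]; field_simp
    _ ≤ 1 * bj j ^ (3 * P.p / 128 + 1) := by
        refine mul_le_mul_of_nonneg_right ?_ (by positivity)
        nlinarith
    _ = _ := one_mul _

/-- **(N2), one sheet**: Newton potential against `D^{-3/2}` -/
theorem newt_warmj (h : ColdPar C0 P) {j : ℕ} {t : ℝ} (ht : 0 ≤ t) {x : P2} {k : ℤ × ℤ}
    (hz : LZ P j t (x + latt k)) (v : R3) :
    newt (fun v' => warmj P j t (x + latt k) v') v ≤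
      ENNReal.ofReal (bj j ^ (3 * P.p / 128 + 1)) * Dm P t x v := by
  have hj := hz.1
  have hb := bj_pos j
  have hb1 := bj_le_one j
  have hK := h.K
  have hp := h.p
  have hD := Dw_le_of_LZ h ht hz v
  set X := x + latt k with hX
  set u := uvec P (wj j) t X with hu
  set S := rhoj P.p j * tauj P.p j with hS
  have hρ := rhoj_pos P.p j
  have hτ := tauj_pos P.p j
  have hS0 : 0 < S := mul_pos hρ hτ
  have hsm := bj_small0 h hj
  have hKb := K_mul_bj h hj
  -- `8 ≤ τ / b⁵`
  have hτb : 8 ≤ tauj P.p j / bj j ^ 5 := by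
    have h1 : 1 ≤ tauj P.p j := by
      rw [tauj_eq]
      exact one_le_inv_iff₀.2 ⟨by positivity, pow_le_one₀ hb.le hb1⟩
    rw [le_div_iff₀ (by positivity)]
    have h2 : bj j ^ 5 ≤ bj j ^ 1 := bj_pow_anti j (by norm_num)
    rw [pow_one] at h2
    linarith
  have hS5 : S / bj j ^ 5 = rhoj P.p j * (tauj P.p j / bj j ^ 5) := by rw [hS]; ring
  have hgm : Measurable fun v' : R3 => warmj P j t X v' := measurable_warmj P j t X
  by_cases hfar : 4 * rhoj P.p j ≤ ‖v - u‖
  · -- far from the sheet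
    have hvu : 0 < ‖v - u‖ := lt_of_lt_of_le (by positivity) hfar
    have h1 : newt (fun v' => warmj P j t X v') v ≤
        ∫⁻ v', warmj P j t X v' * ENNReal.ofReal (2 / ‖v - u‖) := by
      refine lintegral_mono fun v' => ?_
      by_cases hw : warmj P j t X v' = 0
      · simp only [hw, zero_mul]; exact le_rfl
      · have hz' : Ztj P j t X v' := by
          by_contra h1
          exact hw (by unfold warmj; rw [if_neg h1])
        refine mul_le_mul_right (ENNReal.ofReal_le_ofReal ?_) _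
        have h2 : ‖v - u‖ / 2 ≤ ‖v - v'‖ := by
          have h3 := hz'.2.2.2
          have h4 : ‖v - u‖ ≤ ‖v - v'‖ + ‖v' - u‖ := by
            have : v - u = (v - v') + (v' - u) := by abel
            rw [this]; exact norm_add_le _ _
          linarith
        have h3 := inv_anti₀ (by positivity) h2
        rwa [inv_div] at h3
    refine h1.trans ?_
    rw [lintegral_mul_const' _ _ ENNReal.ofReal_ne_top]
    rcases (Dw_nonneg' (P := P) ht x v).eq_or_lt with hD0 | hD0
    · have : Dm P t x v = ⊤ := by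
        unfold Dm
        rw [← hD0]; simp
      rw [this, ENNReal.mul_top (by rw [Ne, ENNReal.ofReal_eq_zero, not_le]; positivity)]
      exact le_top
    · have h2 : 2 / ‖v - u‖ ≤ 2 * (tauj P.p j / bj j ^ 5) * (Dw P t x v)⁻¹ := by
        rw [div_eq_mul_inv, mul_assoc]
        refine mul_le_mul_of_nonneg_left ?_ (by norm_num)
        rw [inv_le_iff_one_le_mul₀ hvu]
        have h3 : Dw P t x v ≤ (tauj P.p j / bj j ^ 5) * ‖v - u‖ := by
          rw [hS5] at hD
          have h4 : rhoj P.p j * (tauj P.p j / bj j ^ 5) ≤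
              (‖v - u‖ / 4) * (tauj P.p j / bj j ^ 5) :=
            mul_le_mul_of_nonneg_right (by linarith) (by positivity)
          nlinarith
        have h5 : 1 = Dw P t x v * (Dw P t x v)⁻¹ := (mul_inv_cancel₀ hD0.ne').symm
        calc 1 = Dw P t x v * (Dw P t x v)⁻¹ := h5
          _ ≤ (tauj P.p j / bj j ^ 5) * ‖v - u‖ * (Dw P t x v)⁻¹ := by gcongr
          _ = _ := by ring
      have h3 : ∫⁻ v', warmj P j t X v' ≤ ENNReal.ofReal (kapj P.p j * (64 * P.K / bj j)) := by
        have h1 : ∫⁻ v, warmj P j t X v ≤ ∫⁻ v, ENNReal.ofReal (kapj P.p j) * gaussj P j t X v := by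
          refine lintegral_mono fun v => ?_
          unfold warmj
          split_ifs
          · exact le_rfl
          · exact zero_le
        refine h1.trans ?_
        rw [lintegral_const_mul' _ _ ENNReal.ofReal_ne_top]
        refine (mul_le_mul_right (lintegral_gaussj (by linarith) j t X) _).trans ?_
        rw [← ENNReal.ofReal_mul (kapj_pos _ _).le]
      calc (∫⁻ v', warmj P j t X v') * ENNReal.ofReal (2 / ‖v - u‖)
          ≤ ENNReal.ofReal (kapj P.p j * (64 * P.K / bj j)) *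
            ENNReal.ofReal (2 * (tauj P.p j / bj j ^ 5) * (Dw P t x v)⁻¹) :=
            mul_le_mul' h3 (ENNReal.ofReal_le_ofReal h2)
        _ = ENNReal.ofReal (kapj P.p j * (64 * P.K / bj j) * (2 * (tauj P.p j / bj j ^ 5))) *
            ENNReal.ofReal (Dw P t x v)⁻¹ := by
            have hk := kapj_pos P.p j
            rw [← ENNReal.ofReal_mul (by positivity), ← ENNReal.ofReal_mul (by positivity)]
            congr 1; ring
        _ ≤ ENNReal.ofReal (bj j ^ (3 * P.p / 128 + 1)) * Dm P t x v := by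
            refine mul_le_mul' (ENNReal.ofReal_le_ofReal ?_) (inv_le_Dm hD0)
            have h6 : kapj P.p j * tauj P.p j ≤ bj j ^ (3 * P.p / 128 + 1 + 7) := by
              rw [kapj_eq hp, tauj_eq, ← div_eq_mul_inv, div_le_iff₀ (by positivity), ← pow_add]
              exact bj_pow_anti j (by omega)
            calc kapj P.p j * (64 * P.K / bj j) * (2 * (tauj P.p j / bj j ^ 5))
                = (kapj P.p j * tauj P.p j) * (128 * P.K / bj j ^ 6) := by field_simp; ring
              _ ≤ bj j ^ (3 * P.p / 128 + 1 + 7) * (128 * P.K / bj j ^ 6) := by gcongr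
              _ = 128 * (P.K * bj j) * bj j ^ (3 * P.p / 128 + 1) := by
                  rw [pow_add (bj j) (3 * P.p / 128 + 1) 7]; field_simp
              _ ≤ 1 * bj j ^ (3 * P.p / 128 + 1) := by
                  refine mul_le_mul_of_nonneg_right ?_ (by positivity)
                  nlinarith
              _ = bj j ^ (3 * P.p / 128 + 1) := by ring
  · -- close to the sheet
    push Not at hfar
    have hθ : Dw P t x v ≤ 2 * (S / bj j ^ 5) := by
      rw [hS5] at hD ⊢
      have : rhoj P.p j * 8 ≤ rhoj P.p j * (tauj P.p j / bj j ^ 5) :=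
        mul_le_mul_of_nonneg_left hτb hρ.le
      linarith
    set θ := 2 * (S / bj j ^ 5) with hθdef
    have hθ0 : 0 < θ := by positivity
    have h2 := le_Dm (P := P) (t := t) (x := x) (v := v) hθ0 hθ
    refine le_trans ?_ (mul_le_mul_right h2 _)
    have h1 : newt (fun v' => warmj P j t X v') v ≤
        ENNReal.ofReal (kapj P.p j * (71 * P.K / (bj j * etaj P.p j))) := by
      have h3 : newt (fun v' => warmj P j t X v') v ≤
          newt (fun v' => ENNReal.ofReal (kapj P.p j) * gaussj P j t X v') v := by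
        refine newt_mono (fun v' => ?_) v
        unfold warmj
        split_ifs
        · exact le_rfl
        · exact zero_le
      refine h3.trans ?_
      rw [newt_const_mul _ (measurable_gaussj P j t X)]
      refine (mul_le_mul_right (newt_gaussj (by linarith) j t X v) _).trans ?_
      rw [← ENNReal.ofReal_mul (kapj_pos _ _).le]
    refine h1.trans ?_
    set n := 3 * P.p / 128 + 1 with hn
    rw [← ENNReal.ofReal_mul (pow_nonneg hb.le n)]
    refine ENNReal.ofReal_le_ofReal ?_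
    have hη := etaj_pos P.p j
    have hk := kapj_pos P.p j
    -- `M ≤ bⁿ θ^{-3/2}` from `(M/bⁿ)² θ³ ≤ 1`
    set M := kapj P.p j * (71 * P.K / (bj j * etaj P.p j)) with hM
    have hM0 : 0 < M := by positivity
    have key : (M / bj j ^ n) ^ 2 * θ ^ 3 ≤ 1 := by
      have e1 : S = bj j ^ (P.p / 2 - P.p / 16) := rhoj_mul_tauj j
      have e2 : kapj P.p j = bj j ^ (P.p / 2 - P.p / 16 - (6 + P.p / 32)) := kapj_eq hp j
      have e3 : (M / bj j ^ n) ^ 2 * θ ^ 3 = 40328 * P.K ^ 2 *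
          (bj j ^ (2 * (P.p / 2 - P.p / 16 - (6 + P.p / 32)) + 3 * (P.p / 2 - P.p / 16))) /
            bj j ^ (17 + 2 * P.p + 2 * n) := by
        rw [hM, hθdef, e1, e2, etaj_eq]
        rw [show (17 + 2 * P.p + 2 * n) = 2 + 15 + P.p * 2 + n * 2 by ring,
          pow_add (bj j) (2 + 15 + P.p * 2), pow_mul (bj j) n 2,
          pow_add (bj j) (2 + 15), pow_mul (bj j) P.p 2,
          pow_add (bj j) (2 * (P.p / 2 - P.p / 16 - (6 + P.p / 32))),
          mul_comm 2 (P.p / 2 - P.p / 16 - (6 + P.p / 32)), mul_comm 3 (P.p / 2 - P.p / 16),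
          pow_mul (bj j) (P.p / 2 - P.p / 16 - (6 + P.p / 32)) 2,
          pow_mul (bj j) (P.p / 2 - P.p / 16) 3]
        have hbn : bj j ≠ 0 := hb.ne'
        field_simp
        ring
      rw [e3, div_le_one (by positivity)]
      have e4 : bj j ^ (2 * (P.p / 2 - P.p / 16 - (6 + P.p / 32)) + 3 * (P.p / 2 - P.p / 16)) ≤
          bj j ^ (2 + (17 + 2 * P.p + 2 * n)) := bj_pow_anti j (by omega)
      calc 40328 * P.K ^ 2 * bj j ^ (2 * (P.p / 2 - P.p / 16 - (6 + P.p / 32)) +
            3 * (P.p / 2 - P.p / 16)) ≤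
            40328 * P.K ^ 2 * bj j ^ (2 + (17 + 2 * P.p + 2 * n)) := by gcongr
        _ = 40328 * (P.K * bj j) ^ 2 * bj j ^ (17 + 2 * P.p + 2 * n) := by
            rw [pow_add (bj j) 2]; ring
        _ ≤ 1 * bj j ^ (17 + 2 * P.p + 2 * n) := by
            refine mul_le_mul_of_nonneg_right ?_ (by positivity)
            have h5 : P.K * bj j ≤ 1 / 10 ^ 13 := by
              rw [le_div_iff₀ (by norm_num)]; linarith
            have h6 : (P.K * bj j) ^ 2 ≤ (1 / 10 ^ 13) ^ 2 := by gcongr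
            calc 40328 * (P.K * bj j) ^ 2 ≤ 40328 * (1 / 10 ^ 13) ^ 2 := by gcongr
              _ ≤ 1 := by norm_num
        _ = _ := one_mul _
    have h7 : (M / bj j ^ n) * θ ^ (3 / 2 : ℝ) ≤ 1 := by
      have h8 : ((M / bj j ^ n) * θ ^ (3 / 2 : ℝ)) ^ 2 ≤ 1 := by
        rw [mul_pow]
        have : (θ ^ (3 / 2 : ℝ)) ^ 2 = θ ^ 3 := by
          rw [← Real.rpow_natCast (θ ^ (3 / 2 : ℝ)) 2, ← Real.rpow_mul hθ0.le,
            ← Real.rpow_natCast θ 3]
          norm_num
        rw [this]; exact key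
      exact (pow_le_one_iff_of_nonneg (by positivity) (by norm_num)).1 h8
    rw [Real.rpow_neg hθ0.le, ← div_eq_mul_inv, le_div_iff₀ (by positivity)]
    have h9 : M * θ ^ (3 / 2 : ℝ) = bj j ^ n * ((M / bj j ^ n) * θ ^ (3 / 2 : ℝ)) := by field_simp
    rw [h9]
    calc bj j ^ n * (M / bj j ^ n * θ ^ (3 / 2 : ℝ)) ≤ bj j ^ n * 1 := by gcongr
      _ = bj j ^ n := mul_one _

end Crest.Agent.R68.C
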