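import Crest.Agent.R68.ColdW3
import Crest.Agent.R68.CSize3

/-!
# Row 68, part W (helper827): Newton potential of the cold majorant, all times
-/

set_option autoImplicit false
open MeasureTheory Set
open scoped ENNReal NNReal
open Crest.AnalysisR.VecCalc3 Crest.AnalysisR.PDE.Boltzmann

noncomputable section

namespace Crest.Agent.R68.ColdW

open Crest.Agent.R68

variable {P : Par}

/-- the parameters of part C are good for all the statements for all times -/
theorem Big.of (h : ColdPar C.C0 P) (hey : 0 < P.ey) : Big P where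
  ok := C.CP.ok h hey
  p := h.p
  Y1 := h.Y
  K := by
    have h1 := C.CP.j0R h
    have hK := h.K
    have hY := h.Y
    have h2 : 1 ≤ P.K + P.Y := by linarith
    have h3 : P.K + P.Y ≤ (P.K + P.Y) ^ 8 := le_self_pow₀ h2 (by norm_num)
    linarith

/-- Newton potential of the warm majorant, all times -/
theorem newt_warm (h : Big P) (hC : ColdPar C.C0 P) {t : ℝ} (ht : 0 ≤ t) (x : P2) (v : R3) :
    C.newt (warm P t x) v ≤
      ENNReal.ofReal ((3 * ((2 * P.Y + 1) * (t + P.dl)) + 1) ^ 2 * P.dl ^ 2) * Dm P t x v := by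
  have hg : Measurable fun u : R3 => ENNReal.ofReal ‖v - u‖⁻¹ := by fun_prop
  have h1 := lint_warm_le h ht x hg (B := ENNReal.ofReal (P.dl ^ 2) * Dm P t x v) fun k j hz => by
    have h2 := C.newt_warmj hC ht (k := k) (show C.LZ P j t (x + latt k) from hz) v
    refine h2.trans ?_
    have h3 : bj j ^ (3 * P.p / 128 + 1) ≤ P.dl ^ 2 :=
      (pow_le_of_le_one (bj_pos j).le (bj_le_one j) (Nat.succ_ne_zero _)).trans
        (bj_le_dl_sq h.ok hz.1)
    gcongr
  refine h1.trans ?_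
  rw [ENNReal.ofReal_mul (by positivity), ← mul_assoc]
  gcongr
  rw [← ENNReal.ofReal_natCast]
  exact ENNReal.ofReal_le_ofReal (W.card_seen_le h.pole ht x)

/-- bound of the Newton potential of the cold majorant -/
def NB (P : Par) (t : ℝ) : ℝ :=
  144 * (1 + t) * ((4 + 3 * (P.Y + 2) * t) ^ 2 * (P.K / (t * (1 + P.kap * t)))) +
    (3 * ((2 * P.Y + 1) * (t + P.dl)) + 1) ^ 2 * P.dl ^ 2

/-- **Newton potential of the cold majorant, all times** -/
theorem newt_coldS (h : Big P) (hC : ColdPar C.C0 P) {t : ℝ} (ht : 0 < t) (x : P2) (v : R3) :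
    C.newt (coldS P t x) v ≤ ENNReal.ofReal (NB P t) * Dm P t x v := by
  have hK := h.ok.K0
  have hκ := Fuel.Ok.kap0 h.ok
  have hd := Fuel.Ok.dlp h.ok
  have e : coldS P t x = fun v => phiE P t x v + warm P t x v := rfl
  rw [e, C.newt_add (measurable_phiE_v h.ok t x)]
  unfold NB
  rw [ENNReal.ofReal_add (by positivity) (by positivity), add_mul]
  refine add_le_add ?_ (newt_warm h hC ht.le x v)
  refine (C.newt_phi_le h.ok ht.le x v).trans ?_
  rw [ENNReal.ofReal_mul (p := 144 * (1 + t)) (by positivity)]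
  gcongr
  exact C.rho_le h.ok ht x

lemma massB_nonneg (h : Big P) {t : ℝ} (ht : 0 ≤ t) : 0 ≤ massB P t := by
  have hK := h.ok.K0
  have hκ := Fuel.Ok.kap0 h.ok
  have hd := Fuel.Ok.dlp h.ok
  unfold massB; positivity

lemma NB_nonneg (h : Big P) {t : ℝ} (ht : 0 ≤ t) : 0 ≤ NB P t := by
  have hK := h.ok.K0
  have hκ := Fuel.Ok.kap0 h.ok
  have hd := Fuel.Ok.dlp h.ok
  unfold NB; positivity

/-- **475's hypothesis `hbd`** -/
theorem cold_bd (h : Big P) (hC : ColdPar C.C0 P) {T1 : ℝ} (hT1 : 0 < T1) (T : ℝ) :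
    ∃ B1 : ℝ≥0, ∀ t, T1 ≤ t → t ≤ T → ∀ x, ∫⁻ u, coldS P t x u ≤ B1 ∧
      ∀ v, C.newt (coldS P t x) v ≤ B1 * Dm P t x v := by
  have hK := h.ok.K0
  have hY := h.ok.Y0
  have hκ := Fuel.Ok.kap0 h.ok
  have hd := Fuel.Ok.dlp h.ok
  set M : ℝ := 144 * (1 + T) * ((4 + 3 * (P.Y + 2) * T) ^ 2 * (P.K / T1)) +
    (3 * ((2 * P.Y + 1) * (T + P.dl)) + 1) ^ 2 with hM
  have hd1 : P.dl ≤ 1 := by have := Fuel.Ok.dl20 h.ok; linarith
  have key : ∀ t, T1 ≤ t → t ≤ T → massB P t ≤ M ∧ NB P t ≤ M := by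
    intro t ht htT
    have ht0 : 0 < t := hT1.trans_le ht
    have hT0 : 0 < T := ht0.trans_le htT
    have k1 : P.K / (t * (1 + P.kap * t)) ≤ P.K / T1 := by
      apply div_le_div_of_nonneg_left hK hT1
      nlinarith [mul_nonneg hκ (mul_self_nonneg t)]
    have k2 : (4 + 3 * (P.Y + 2) * t) ^ 2 * (P.K / (t * (1 + P.kap * t))) ≤
        (4 + 3 * (P.Y + 2) * T) ^ 2 * (P.K / T1) := by gcongr
    have k2' : 0 ≤ (4 + 3 * (P.Y + 2) * t) ^ 2 * (P.K / (t * (1 + P.kap * t))) := by positivity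
    have k3 : (3 * ((2 * P.Y + 1) * (t + P.dl)) + 1) ^ 2 ≤
        (3 * ((2 * P.Y + 1) * (T + P.dl)) + 1) ^ 2 := by gcongr
    have k4 : P.dl ^ 100 ≤ 1 := pow_le_one₀ hd.le hd1
    have k5 : P.dl ^ 2 ≤ 1 := pow_le_one₀ hd.le hd1
    have k6 : 0 ≤ (3 * ((2 * P.Y + 1) * (t + P.dl)) + 1) ^ 2 := by positivity
    constructor
    · unfold massB
      have : (3 * ((2 * P.Y + 1) * (t + P.dl)) + 1) ^ 2 * P.dl ^ 100 ≤
        (3 * ((2 * P.Y + 1) * (T + P.dl)) + 1) ^ 2 * 1 := by gcongr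
      have : 1 * ((4 + 3 * (P.Y + 2) * T) ^ 2 * (P.K / T1)) ≤
        144 * (1 + T) * ((4 + 3 * (P.Y + 2) * T) ^ 2 * (P.K / T1)) := by
        apply mul_le_mul_of_nonneg_right _ (by positivity)
        linarith
      linarith
    · unfold NB
      have : (3 * ((2 * P.Y + 1) * (t + P.dl)) + 1) ^ 2 * P.dl ^ 2 ≤
        (3 * ((2 * P.Y + 1) * (T + P.dl)) + 1) ^ 2 * 1 := by gcongr
      have : 144 * (1 + t) * ((4 + 3 * (P.Y + 2) * t) ^ 2 * (P.K / (t * (1 + P.kap * t)))) ≤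
        144 * (1 + T) * ((4 + 3 * (P.Y + 2) * T) ^ 2 * (P.K / T1)) := by gcongr
      linarith
  refine ⟨M.toNNReal, fun t ht htT x => ⟨?_, fun v => ?_⟩⟩
  · refine (mass_coldS h (hT1.trans_le ht) x).trans ?_
    exact ENNReal.ofReal_le_ofReal (key t ht htT).1
  · refine (newt_coldS h hC (hT1.trans_le ht) x v).trans ?_
    gcongr
    exact ENNReal.ofReal_le_ofReal (key t ht htT).2

end Crest.Agent.R68.ColdW
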