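import Crest.Agent.R68.IKOut
import Crest.Agent.R68.CSize4

/-!
# R68 / KWs (helper819): `WarmSize` from 779's CSize4
-/

set_option autoImplicit false
open MeasureTheory Set Filter
open scoped ENNReal Topology Real
open Crest.AnalysisR.VecCalc3 Crest.AnalysisR.PDE.Boltzmann

noncomputable section

namespace Crest.Agent.R68.KC

theorem distG_rpow_le_pow {p : ℕ} (hp : 32 ≤ p) (x : P2) :
    ENNReal.ofReal (distG x ^ ((p : ℝ) / 32)) ≤ ENNReal.ofReal (distG x ^ (p / 32)) := by
  apply ENNReal.ofReal_le_ofReal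
  have hd0 := distG_nonneg x
  have hd1 := distG_le_one x
  have hp0 : (0 : ℝ) < (p : ℝ) / 32 := by
    have : (32 : ℝ) ≤ p := by exact_mod_cast hp
    positivity
  rcases hd0.eq_or_lt with h | h
  · rw [← h, Real.zero_rpow hp0.ne', zero_pow (by omega)]
  · rw [← Real.rpow_natCast]
    apply Real.rpow_le_rpow_of_exponent_ge h hd1
    rw [le_div_iff₀ (by norm_num)]
    have : (p / 32) * 32 ≤ p := Nat.div_mul_le_self p 32
    exact_mod_cast this

/-- **`WarmSize`** -/
theorem warmSize_holds : WarmSize := by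
  refine ⟨C.C0, fun P h t x ht htT => ⟨fun v => C.norm_lt_of_warm h ht, ?_, fun v => ?_⟩⟩
  · exact (C.warm_mass h ht htT x).trans (distG_rpow_le_pow (by have := h.p; omega) x)
  · rw [C.newt_div_ae]
    exact (C.newt_warm h ht htT x v).trans
      (mul_le_mul_left (distG_rpow_le_pow (by have := h.p; omega) x) _)

end Crest.Agent.R68.KC
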