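import Crest.Agent.R68.ColdLip2
import Crest.Agent.R68.ColdSpill2
import Crest.Agent.R68.ColdCpl2
import Crest.Agent.R68.ColdT1
import Crest.Agent.R68.ColdW4
import Crest.Agent.R68.CKOut
import Crest.Agent.R68.KWs

/-!
# Row 68, PART C (helper819): assembly of `N.ColdOut` for the final parameters, `CKOut`
-/

set_option autoImplicit false
open MeasureTheory Set Filter
open scoped ENNReal Topology
open Crest.AnalysisR.VecCalc3 Crest.AnalysisR.PDE.Boltzmann

noncomputable section

namespace Crest.Agent.R68.KC

open Crest.Agent.R68.N (Fld ColdOut)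
open Crest.Agent.R68.ColdW (Big)

variable {P : Par}

theorem exp_half_le_two : Real.exp (1 / 2) ≤ 2 := by
  have h1 := Real.exp_one_lt_d9
  have h2 : Real.exp (1 / 2) * Real.exp (1 / 2) = Real.exp 1 := by
    rw [← Real.exp_add]; norm_num
  have h3 := Real.exp_pos (1 / 2)
  nlinarith

/-- the coupled cold component is a solution in the sense of 475 -/
theorem sol_coldR (hA : ColdPar Cold.C0 P) (hB : Big P) (hK : 0 < P.K) (T : ℝ)
    {lam : Fld} (hl : A.Meas3 lam) : ColdL.Sol P T (coldR P lam) lam where
  m := ColdM.meas3_coldR P hl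
  ml := hl
  eq := fun _ x v ht _ => ColdC.coldR_eq_coldL hA hB hK hl ht x v

/-- **Part C for one set of parameters** -/
theorem coldOut_of (hA : ColdPar Cold.C0 P) (h : ColdPar C.C0 P) (hey : 0 < P.ey)
    (hT1 : P.dl ^ (3 / 8 : ℝ) ≤ 1 / 2) : ColdOut P := by
  have hB : Big P := ColdW.Big.of h hey
  have hok : P.Ok := hB.ok
  have hK : 0 < P.K := lt_of_lt_of_le one_pos h.K
  exact
  { meas := fun lam hl _ => ColdM.meas3_coldR P hl
    measS := fun lam hl _ => ColdM.meas3_coldSpill P hl
    measW := ColdM.meas3_warm P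
    per := fun lam _ _ t v => ColdM.perG_coldR P lam t v
    le := fun lam hl _ t x v ht => ColdC.coldR_le hA hB hK hl ht x v
    supp := fun t x v ht hv => by
      by_contra h0
      have h1 : coldS P t x v ≠ 0 := by
        unfold coldS
        intro h2
        rw [add_eq_zero] at h2
        exact h0 h2.2
      have := ColdW.norm_lt_of_coldS_ne hB ht h1
      linarith
    le_T1 := fun lam _ _ t x v ht htT => ColdT1.coldR_le_T1 hA h hok lam ht htT x v
    phi_le := fun lam hl hp t x v ht htT =>
      ColdT1.phi_le_coldR_of hA h hey hl ht htT (ColdC.coldR_duh hA hB hK hl hp ht x v)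
    lip := fun lam lam' g hl hp hl' hp' T Δ hT hd hint hmono t x v ht htT => by
      have hLc : ∀ t x v, 0 < t → t ≤ T → coldS P t x v ≠ 0 →
          Lc (coldS P t x) v ≤ ENNReal.ofReal 1 := by
        intro t x v ht htT hne
        obtain ⟨k, j, hz⟩ := ColdW.exists_of_coldS_ne hB ht.le hne
        refine (ColdT1.Lc_coldS_le_bj h hey ht.le (htT.trans hT) hz).trans ?_
        exact ENNReal.ofReal_le_ofReal (pow_le_one₀ (C.bj_pos j).le (C.bj_le_one j))
      have hmain := ColdL.cmp_main hA hB (sol_coldR hA hB hK T hl) (sol_coldR hA hB hK T hl')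
        one_pos hLc (g := g) (Δ := Δ) ⟨hp, hp', hd, hint, hmono⟩ ht.le htT x v
      have he : ENNReal.ofReal (Real.exp (1 * t)) ≤ 2 := by
        rw [one_mul]
        have h1 : Real.exp t ≤ 2 :=
          (Real.exp_le_exp.2 (htT.trans (hT.trans hT1))).trans exp_half_le_two
        calc ENNReal.ofReal (Real.exp t) ≤ ENNReal.ofReal 2 := ENNReal.ofReal_le_ofReal h1
          _ = 2 := by norm_num
      constructor
      · refine hmain.1.1.trans ?_
        gcongr
        exact ColdL.Maj_le_coldS P t x v
      · refine ColdSp.coldSpill_lip' h hA hey lam lam' hl' ht.le (htT.trans hT) x (Δ t x)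
          (fun i w => ?_) v
        have h1 := (ColdL.cmp_main hA hB (sol_coldR hA hB hK T hl) (sol_coldR hA hB hK T hl')
          one_pos hLc (g := g) (Δ := Δ) ⟨hp, hp', hd, hint, hmono⟩ ht.le htT x w).2 i.2 i.1
        refine h1.trans ?_
        gcongr
        · exact le_rfl
        · refine (ColdL.Wj_le hA ht.le _ w).trans ?_
          unfold ColdSp.cS
          refine add_le_add le_rfl (mul_le_of_le_one_left' ?_)
          rw [← ENNReal.ofReal_one]
          exact ENNReal.ofReal_le_ofReal (min_le_right _ _) }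

/-- **Part C for the final parameters** -/
theorem ColdOutAll_holds {Y : ℝ} (hY : 1 ≤ Y) : ColdOutAll Y := by
  intro K ey hK hey _
  filter_upwards [eventually_ge_atTop 512] with p hp
  filter_upwards [ev_ColdPar K Y ey p Cold.C0 hK hY hp, ev_ColdPar K Y ey p C.C0 hK hY hp,
    ev_T1_le (show (0 : ℝ) < 1 / 2 by norm_num)] with j0 hA h hT1
  exact coldOut_of hA h hey hT1

/-- **the cold input of Part N with its size** -/
theorem CKOut_holds : Main0.CKOut 10 :=
  CKOut_of (by norm_num) (ColdOutAll_holds (by norm_num)) warmSize_holds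

end Crest.Agent.R68.KC
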