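import Crest.Agent.R68.AOut
import Crest.Agent.R68.ColdOutAll
import Crest.Agent.R68.ColdSpill2

/-!
# Row 68 (helper819, from 418's `AOut_of`): Part A for the final parameters
-/

set_option autoImplicit false

namespace Crest.Agent.R68.A

/-- **Part A** -/
theorem AOut_holds : Main0.AOut 10 :=
  AOut_of (by norm_num) (KC.ColdOutAll_holds (by norm_num)) KC.warmSize_holds
    (ColdSp.SpillOutAll_holds (by norm_num))

end Crest.Agent.R68.A
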