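import Crest.Agent.R68.WGlue1

/-!
# Row 68, PART W (helper153): mild form of the sum of the cold and the glued hot component
-/

set_option autoImplicit false
open MeasureTheory Set
open scoped ENNReal NNReal
open Crest.AnalysisR.VecCalc3 Crest.AnalysisR.PDE.Boltzmann

noncomputable section

namespace Crest.Agent.R68.WGl

open Crest.Agent.R68.A (Meas3 en meas3_Qp meas3_Lc Lc_add Qp_add_left Qp_add_right)
open Crest.Agent.R68.N
open Crest.Agent.R68.WA (w1 w1_ne_top one_le_w1)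

variable {P : Par} {T1 T : ℝ} {H0 : P2 → R3 → ℝ≥0∞} {H Hh Hg c sp : Fld}

/-- almost every position is not a lattice point -/
theorem ae_distG_pos : ∀ᵐ p : P2 × R3, 0 < distG p.1 := by
  have h1 : (Set.range fun k : ℤ × ℤ => -latt k).Countable := Set.countable_range _
  have h2 : ∀ᵐ x : P2, 0 < distG x := by
    have h3 : ∀ᵐ x : P2, x ∉ Set.range fun k : ℤ × ℤ => -latt k :=
      (h1.ae_notMem (μ := (volume : Measure P2)))
    filter_upwards [h3] with x hx
    rcases (distG_nonneg x).eq_or_lt with h | h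
    · exfalso
      apply hx
      obtain ⟨k, hk⟩ := exists_distG_eq x
      rw [hk] at h
      refine ⟨k, ?_⟩
      have h4 : x + latt k = 0 := norm_eq_zero.1 h.symm
      simp only
      exact (eq_neg_of_add_eq_zero_left h4).symm
    · exact h
  have h4 : (volume : Measure (P2 × R3)) = (volume : Measure P2).prod (volume : Measure R3) :=
    Measure.volume_eq_prod _ _
  rw [h4]
  exact (Measure.quasiMeasurePreserving_fst (μ := (volume : Measure P2))
    (ν := (volume : Measure R3))).ae h2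

/-- the distance along a flight -/
theorem kap_le {x : P2} {v : R3} {s : ℝ} (hs : 0 ≤ s) :
    distG x / (1 + ‖bar v‖) ≤ s + distG (x + s • bar v) := by
  have h1 : distG x ≤ distG (x + s • bar v) + s * ‖bar v‖ := by
    have h := distG_le_add (x + s • bar v) (-(s • bar v))
    rw [add_neg_cancel_right, norm_neg, norm_smul, Real.norm_eq_abs, abs_of_nonneg hs] at h
    exact h
  rw [div_le_iff₀ (by positivity)]
  have h2 := distG_nonneg (x + s • bar v)
  nlinarith [norm_nonneg (bar v), mul_nonneg h2 (norm_nonneg (bar v))]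

/-- finiteness along almost every flight -/
theorem fin_ae (hY : 0 < P.Y) (hP : DPole.ParD P) (hT1 : 0 < T1) (hT : T1 ≤ T) {nu : Fld}
    {C1 C2 A2 : ℝ≥0∞} (hC1 : C1 ≠ ⊤) (hC2 : C2 ≠ ⊤) (hA2 : A2 ≠ ⊤)
    (n1 : ∀ t x v, 0 < t → t < T1 → ENNReal.ofReal ((t + distG x) ^ 2) * nu t x v ≤ C1 * w1 v)
    (n2 : ∀ t x v, T1 ≤ t → t < T → nu t x v ≤ C2 * w1 v)
    (n3 : ∀ t x v, 0 < t → t < T → Hg t x v ≤ A2 * Dm P t x v) :
    ∀ᵐ p : P2 × R3, ∫⁻ s in Ioo 0 T, nu s (p.1 + s • bar p.2) p.2 *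
      (1 + Hg s (p.1 + s • bar p.2) p.2) ≠ ⊤ := by
  have hT0 : 0 < T := hT1.trans_le hT
  have hD : ∀ᵐ p : P2 × R3, Dm P T p.1 p.2 ≠ ⊤ := by
    have hm : MeasurableSet {p : P2 × R3 | Dm P T p.1 p.2 ≠ ⊤} := by
      have h := DPole.measurable_Dm_t hY hT0.le
      exact (h (measurableSet_singleton ⊤)).compl
    rw [Measure.volume_eq_prod P2 R3, Measure.ae_prod_iff_ae_ae hm]
    refine Filter.Eventually.of_forall fun x => ?_
    filter_upwards [WA.ae_EW_ne_top hP (lam := 1) (T1 := 0) one_pos le_rfl zero_le_one hT0.le x]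
      with v hv
    intro h
    apply hv
    rw [WA.EW_of_nonneg hT0.le, h]
    have h2 : ENNReal.ofReal (Real.exp (-(1 * (T - 0)))) ≠ 0 := by
      rw [Ne, ENNReal.ofReal_eq_zero, not_le]; exact Real.exp_pos _
    rw [ENNReal.mul_top h2, add_top, ENNReal.top_mul]
    unfold WA.We
    rw [Ne, ENNReal.ofReal_eq_zero, not_le]; exact Real.exp_pos _
  filter_upwards [I.ae_at (Q := fun x v => Dm P T x v ≠ ⊤) T hD, ae_distG_pos] with p hp1 hp2
  obtain ⟨x, v⟩ := p
  simp only at hp1 hp2 ⊢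
  set κ : ℝ := distG x / (1 + ‖bar v‖) with hκ
  have hκ0 : 0 < κ := by positivity
  set M : ℝ≥0∞ := C1 * w1 v / ENNReal.ofReal (κ ^ 2) + C2 * w1 v with hM
  have hMt : M ≠ ⊤ := by
    rw [hM]
    refine ENNReal.add_ne_top.2 ⟨?_, ENNReal.mul_ne_top hC2 (w1_ne_top v)⟩
    refine (ENNReal.div_lt_top (ENNReal.mul_ne_top hC1 (w1_ne_top v)) ?_).ne
    rw [Ne, ENNReal.ofReal_eq_zero, not_le]
    positivity
  set B : ℝ≥0∞ := M * (1 + A2 * Dm P T (x + T • bar v) v) with hB
  have hBt : B ≠ ⊤ := by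
    rw [hB]
    exact ENNReal.mul_ne_top hMt (ENNReal.add_ne_top.2 ⟨ENNReal.one_ne_top,
      ENNReal.mul_ne_top hA2 hp1⟩)
  have key : ∀ s ∈ Ioo 0 T, nu s (x + s • bar v) v * (1 + Hg s (x + s • bar v) v) ≤ B := by
    intro s hs
    have e1 : nu s (x + s • bar v) v ≤ M := by
      rcases lt_or_ge s T1 with h | h
      · have h1 := n1 s (x + s • bar v) v hs.1 h
        have h2 : ENNReal.ofReal (κ ^ 2) * nu s (x + s • bar v) v ≤ C1 * w1 v := by
          refine le_trans ?_ h1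
          gcongr
          exact kap_le hs.1.le
        rw [hM]
        refine le_trans ?_ le_self_add
        rw [ENNReal.le_div_iff_mul_le (Or.inl ?_) (Or.inl ENNReal.ofReal_ne_top), mul_comm]
        · exact h2
        · rw [Ne, ENNReal.ofReal_eq_zero, not_le]
          positivity
      · rw [hM]
        exact (n2 s _ v h hs.2).trans le_add_self
    have e2 : Hg s (x + s • bar v) v ≤ A2 * Dm P T (x + T • bar v) v := by
      refine (n3 s _ v hs.1 hs.2).trans ?_
      gcongr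
      have h := DPole.Dm_flight hY hs.1.le hs.2.le (x + T • bar v) v
      rwa [I.pos_back] at h
    rw [hB]
    gcongr
  refine ne_top_of_le_ne_top ?_ (setLIntegral_mono' measurableSet_Ioo key)
  rw [setLIntegral_const, Real.volume_Ioo]
  exact ENNReal.mul_ne_top hBt ENNReal.ofReal_ne_top

/-- **mild form of the sum** -/
theorem mild_sum (hY : 0 < P.Y) (hP : DPole.ParD P) (hT1 : 0 < T1) (hT : T1 ≤ T)
    (mH0 : Measurable fun p : P2 × R3 => H0 p.1 p.2)
    (mc : Meas3 c) (msp : Meas3 sp) (mH : Meas3 Hg)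
    (hexp : ∀ t ∈ Icc 0 T, ∀ x v, Dm P t x v ≠ ⊤ → Hg t x v =
      expf (lossH c Hg) (gainH c sp Hg) 0 H0 t x v)
    {C1 C2 A2 : ℝ≥0∞} (hC1 : C1 ≠ ⊤) (hC2 : C2 ≠ ⊤) (hA2 : A2 ≠ ⊤)
    (n1 : ∀ t x v, 0 < t → t < T1 →
      ENNReal.ofReal ((t + distG x) ^ 2) * lossH c Hg t x v ≤ C1 * w1 v)
    (n2 : ∀ t x v, T1 ≤ t → t < T → lossH c Hg t x v ≤ C2 * w1 v)
    (n3 : ∀ t x v, 0 < t → t ≤ T → Hg t x v ≤ A2 * Dm P t x v)
    (hcold : ∀ t x v, 0 ≤ t → (∫⁻ s in Ioo 0 t, LcF Hg s (x + s • bar v) v) ≠ ⊤ →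
      c t (x + t • bar v) v +
        (∫⁻ s in Ioo 0 t, lossH c Hg s (x + s • bar v) v * c s (x + s • bar v) v) +
        (∫⁻ s in Ioo 0 t, sp s (x + s • bar v) v) =
      phiE P 0 x v +
        ∫⁻ s in Ioo 0 t, Qp (c s (x + s • bar v)) (c s (x + s • bar v)) v) :
    ∀ t ∈ Icc 0 T, ∀ᵐ p : P2 × R3,
      (c t (p.1 + t • bar p.2) p.2 + Hg t (p.1 + t • bar p.2) p.2) +
        ∫⁻ s in Ioo 0 t, Lc (fun z => c s (p.1 + s • bar p.2) z + Hg s (p.1 + s • bar p.2) z) p.2 *
          (c s (p.1 + s • bar p.2) p.2 + Hg s (p.1 + s • bar p.2) p.2) =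
      (phiE P 0 p.1 p.2 + H0 p.1 p.2) +
        ∫⁻ s in Ioo 0 t, Qp (fun z => c s (p.1 + s • bar p.2) z + Hg s (p.1 + s • bar p.2) z)
          (fun z => c s (p.1 + s • bar p.2) z + Hg s (p.1 + s • bar p.2) z) p.2 := by
  have hfin := fin_ae hY hP hT1 hT hC1 hC2 hA2 n1 n2 (fun t x v h1 h2 => n3 t x v h1 h2.le)
  have mL : Meas3 (lossH c Hg) := meas3_Lc (F := fun t x v => c t x v + Hg t x v) (mc.add mH)
  have mG : Meas3 (gainH c sp Hg) :=
    ((msp.add (meas3_Qp mc mH)).add (meas3_Qp mH mc)).add (meas3_Qp mH mH)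
  set W : Fld := fun t x v => if 0 ≤ t then Dm P t x v else 1 with hW
  have hWe : ∀ {t : ℝ} (x : P2) (v : R3), 0 ≤ t → W t x v = Dm P t x v := by
    intro t x v ht
    rw [hW]; simp only; rw [if_pos ht]
  have hWae : ∀ t ∈ Icc 0 T, ∀ᵐ p : P2 × R3, W t p.1 p.2 ≠ ⊤ := by
    intro t ht
    have hm : MeasurableSet {p : P2 × R3 | Dm P t p.1 p.2 ≠ ⊤} := by
      have h := DPole.measurable_Dm_t hY ht.1
      exact (h (measurableSet_singleton ⊤)).compl
    have h2 : ∀ᵐ p : P2 × R3, Dm P t p.1 p.2 ≠ ⊤ := by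
      rw [Measure.volume_eq_prod P2 R3, Measure.ae_prod_iff_ae_ae hm]
      refine Filter.Eventually.of_forall fun x => ?_
      filter_upwards [WA.ae_EW_ne_top hP (lam := 1) (T1 := 0) one_pos le_rfl zero_le_one ht.1 x]
        with v hv
      intro h
      apply hv
      rw [WA.EW_of_nonneg ht.1, h]
      have h2 : ENNReal.ofReal (Real.exp (-(1 * (t - 0)))) ≠ 0 := by
        rw [Ne, ENNReal.ofReal_eq_zero, not_le]; exact Real.exp_pos _
      rw [ENNReal.mul_top h2, add_top, ENNReal.top_mul]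
      unfold WA.We
      rw [Ne, ENNReal.ofReal_eq_zero, not_le]; exact Real.exp_pos _
    filter_upwards [h2] with p hp
    rw [hWe _ _ ht.1]
    exact hp
  have hmild := I.mild_of_expo (T := T) (nu := lossH c Hg) (L := lossH c Hg)
    (q := gainH c sp Hg) (H := Hg) (W := W) (H0 := H0) mL mL mG mH (DPole.measurable_Dm hY)
    (fun _ _ _ _ => le_rfl) hWae (fun t ht x v hWt => by
      rw [hWe _ _ ht.1] at hWt
      rw [hexp t ht x v hWt]
      unfold expf ac
      rw [sub_zero]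
      congr 1
      refine lintegral_congr fun s => ?_
      rw [tsub_self, zero_mul, add_zero]) hfin
  intro t ht
  have hWt := I.ae_at (Q := fun x v => W t x v ≠ ⊤) t (hWae t ht)
  filter_upwards [hmild t ht, hfin, hWt] with p hp1 hp2 hp3
  obtain ⟨x, v⟩ := p
  simp only at hp1 hp2 hp3 ⊢
  rw [hWe _ _ ht.1] at hp3
  have hmono : ∀ f : ℝ → ℝ≥0∞, ∫⁻ s in Ioo 0 t, f s ≤ ∫⁻ s in Ioo 0 T, f s := fun f =>
    lintegral_mono_set (Ioo_subset_Ioo_right ht.2)
  -- measurability along the flight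
  have mm : ∀ {F : Fld}, Meas3 F → Measurable fun s : ℝ => F s (x + s • bar v) v := by
    intro F hF
    exact hF.comp (by fun_prop) (by fun_prop) (by fun_prop)
  -- finiteness
  have f1 : ∫⁻ s in Ioo 0 t, lossH c Hg s (x + s • bar v) v ≠ ⊤ := by
    refine ne_top_of_le_ne_top hp2 ((hmono _).trans (lintegral_mono fun s => ?_))
    calc lossH c Hg s (x + s • bar v) v = lossH c Hg s (x + s • bar v) v * 1 := (mul_one _).symm
      _ ≤ _ := by gcongr; exact le_self_add
  have f2 : ∫⁻ s in Ioo 0 t, lossH c Hg s (x + s • bar v) v * Hg s (x + s • bar v) v ≠ ⊤ := by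
    refine ne_top_of_le_ne_top hp2 ((hmono _).trans (lintegral_mono fun s => ?_))
    gcongr
    exact le_add_self
  have eLc : ∀ s, lossH c Hg s (x + s • bar v) v =
      Lc (c s (x + s • bar v)) v + Lc (Hg s (x + s • bar v)) v :=
    fun s => Lc_add (mc.slice s _) v
  have f3 : ∫⁻ s in Ioo 0 t, LcF Hg s (x + s • bar v) v ≠ ⊤ := by
    refine ne_top_of_le_ne_top f1 (lintegral_mono fun s => ?_)
    rw [eLc s]
    exact le_add_self
  have hC := hcold t x v ht.1 f3
  have f6 : ∫⁻ s in Ioo 0 t, sp s (x + s • bar v) v ≠ ⊤ := by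
    rcases ht.1.eq_or_lt with h0 | h0
    · rw [← h0]; simp
    have f4 : Hg t (x + t • bar v) v ≠ ⊤ :=
      ne_top_of_le_ne_top (ENNReal.mul_ne_top hA2 hp3) (n3 t _ v h0 ht.2)
    have f5 : ∫⁻ s in Ioo 0 t, gainH c sp Hg s (x + s • bar v) v ≠ ⊤ := by
      have h1 : H0 x v + ∫⁻ s in Ioo 0 t, gainH c sp Hg s (x + s • bar v) v ≠ ⊤ := by
        rw [← hp1]
        exact ENNReal.add_ne_top.2 ⟨f4, f2⟩
      exact (ENNReal.add_ne_top.1 h1).2
    refine ne_top_of_le_ne_top f5 (lintegral_mono fun s => ?_)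
    unfold gainH
    exact le_self_add.trans (le_self_add.trans le_self_add)
  -- integrands
  have e1 : ∫⁻ s in Ioo 0 t, Lc (fun z => c s (x + s • bar v) z + Hg s (x + s • bar v) z) v *
      (c s (x + s • bar v) v + Hg s (x + s • bar v) v) =
      (∫⁻ s in Ioo 0 t, lossH c Hg s (x + s • bar v) v * c s (x + s • bar v) v) +
      ∫⁻ s in Ioo 0 t, lossH c Hg s (x + s • bar v) v * Hg s (x + s • bar v) v := by
    have m1 : Measurable fun s : ℝ => lossH c Hg s (x + s • bar v) v * c s (x + s • bar v) v :=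
      (mm mL).mul (mm mc)
    rw [← lintegral_add_left m1]
    refine lintegral_congr fun s => ?_
    rw [← mul_add]
    rfl
  have e2 : (∫⁻ s in Ioo 0 t, Qp (fun z => c s (x + s • bar v) z + Hg s (x + s • bar v) z)
        (fun z => c s (x + s • bar v) z + Hg s (x + s • bar v) z) v) +
        ∫⁻ s in Ioo 0 t, sp s (x + s • bar v) v =
      (∫⁻ s in Ioo 0 t, Qp (c s (x + s • bar v)) (c s (x + s • bar v)) v) +
        ∫⁻ s in Ioo 0 t, gainH c sp Hg s (x + s • bar v) v := by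
    have m1 : Measurable fun s : ℝ => sp s (x + s • bar v) v := mm msp
    have m2 : Measurable fun s : ℝ => gainH c sp Hg s (x + s • bar v) v := mm mG
    rw [← lintegral_add_right _ m1, ← lintegral_add_right _ m2]
    refine lintegral_congr fun s => ?_
    have k1 := mc.slice s (x + s • bar v)
    have k2 := mH.slice s (x + s • bar v)
    have k3 : Measurable fun z => c s (x + s • bar v) z + Hg s (x + s • bar v) z := k1.add k2
    rw [Qp_add_left k1 k3, Qp_add_right k1 k1, Qp_add_right k2 k1]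
    unfold gainH
    ring
  -- sum
  have hsum : ((c t (x + t • bar v) v + Hg t (x + t • bar v) v) +
      ((∫⁻ s in Ioo 0 t, lossH c Hg s (x + s • bar v) v * c s (x + s • bar v) v) +
      ∫⁻ s in Ioo 0 t, lossH c Hg s (x + s • bar v) v * Hg s (x + s • bar v) v)) +
      ∫⁻ s in Ioo 0 t, sp s (x + s • bar v) v =
      ((phiE P 0 x v + H0 x v) +
        ∫⁻ s in Ioo 0 t, Qp (fun z => c s (x + s • bar v) z + Hg s (x + s • bar v) z)
        (fun z => c s (x + s • bar v) z + Hg s (x + s • bar v) z) v) +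
      ∫⁻ s in Ioo 0 t, sp s (x + s • bar v) v := by
    calc _ = (c t (x + t • bar v) v +
        (∫⁻ s in Ioo 0 t, lossH c Hg s (x + s • bar v) v * c s (x + s • bar v) v) +
        (∫⁻ s in Ioo 0 t, sp s (x + s • bar v) v)) + (Hg t (x + t • bar v) v +
        ∫⁻ s in Ioo 0 t, lossH c Hg s (x + s • bar v) v * Hg s (x + s • bar v) v) := by ring
      _ = (phiE P 0 x v +
        ∫⁻ s in Ioo 0 t, Qp (c s (x + s • bar v)) (c s (x + s • bar v)) v) +
        (H0 x v + ∫⁻ s in Ioo 0 t, gainH c sp Hg s (x + s • bar v) v) := by rw [hC, hp1]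
      _ = (phiE P 0 x v + H0 x v) +
        ((∫⁻ s in Ioo 0 t, Qp (c s (x + s • bar v)) (c s (x + s • bar v)) v) +
        ∫⁻ s in Ioo 0 t, gainH c sp Hg s (x + s • bar v) v) := by ring
      _ = _ := by rw [← e2]; ring
  rw [e1]
  exact (ENNReal.add_left_inj f6).1 hsum

end Crest.Agent.R68.WGl
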