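import Crest.Agent.R68.WProps
import Crest.Agent.R68.WGlue2

/-!
# Row 68, PART W (helper153): `MildOut` from the facts on the cold component
-/

set_option autoImplicit false
open MeasureTheory Set Filter
open scoped ENNReal NNReal Topology
open Crest.AnalysisR.VecCalc3 Crest.AnalysisR.PDE.Boltzmann

noncomputable section

namespace Crest.Agent.R68.WP

open Crest.Agent.R68.A (en Meas3 meas3_Lc Lc_add)
open Crest.Agent.R68.N
open Crest.Agent.R68.Main0 (H0f Hot)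
open Crest.Agent.R68.W (Om damped THyp opt)
open Crest.Agent.R68.WA (We w1 Mx EW one_le_w1 w1_ne_top)

/-- (819/906) integral form of the cold equation (C7) -/
def ColdMildOut (Y : ℝ) : Prop :=
  ∀ K ey : ℝ, 1 ≤ K → 0 < ey → ey ≤ 1 / 100 → ∀ᶠ p : ℕ in atTop, ∀ᶠ j0 : ℕ in atTop,
    ∀ lam : Fld, Meas3 lam → PerF lam → ∀ (t : ℝ) (x : P2) (v : R3), 0 ≤ t →
      (∫⁻ s in Ioo 0 t, lam s (x + s • bar v) v) ≠ ⊤ →
      coldR (par K Y ey p j0) lam t (x + t • bar v) v +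
        (∫⁻ s in Ioo 0 t, rateC (par K Y ey p j0) lam s (x + s • bar v) v *
          coldR (par K Y ey p j0) lam s (x + s • bar v) v) +
        (∫⁻ s in Ioo 0 t, coldSpill (par K Y ey p j0) lam s (x + s • bar v) v) =
      phiE (par K Y ey p j0) 0 x v +
        ∫⁻ s in Ioo 0 t, Qp (coldR (par K Y ey p j0) lam s (x + s • bar v))
          (coldR (par K Y ey p j0) lam s (x + s • bar v)) v

/-- (819/827/475) loss rate of the cold majorant -/
def SizeOut (Y : ℝ) : Prop :=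
  ∀ K ey : ℝ, 1 ≤ K → 0 < ey → ey ≤ 1 / 100 → ∀ᶠ p : ℕ in atTop, ∀ᶠ j0 : ℕ in atTop,
    (∃ C : ℝ≥0∞, C ≠ ⊤ ∧ ∀ t ∈ Ioc 0 (T1j j0), ∀ (x : P2) (v : R3),
      ENNReal.ofReal ((t + distG x) ^ 2) * Lc (coldS (par K Y ey p j0) t x) v ≤ C * w1 v) ∧
    (∀ T : ℝ, ∃ B : ℝ≥0∞, B ≠ ⊤ ∧ ∀ t, T1j j0 ≤ t → t ≤ T → ∀ (x : P2) (v : R3),
      Lc (coldS (par K Y ey p j0) t x) v ≤ B * w1 v)

/-- (858) integrability: a mild solution in the class is a `MildGOn` -/
def IntOut (Y : ℝ) : Prop :=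
  ∀ K ey : ℝ, 1 ≤ K → 0 < ey → ey ≤ 1 / 100 → ∀ᶠ p : ℕ in atTop, ∀ᶠ j0 : ℕ in atTop,
    ∀ (F : Fld) (G0 : P2 → R3 → ℝ) (R T : ℝ), 0 ≤ T → Meas3 F → PerF F → DatumG G0 R →
      (∀ x v, F 0 x v = ENNReal.ofReal (G0 x v)) →
      (∃ A : ℝ≥0∞, A ≠ ⊤ ∧ ∀ t ∈ Ioc 0 T, ∀ x v, F t x v ≤ coldS (par K Y ey p j0) t x v +
        A * (Dm (par K Y ey p j0) t x v * ENNReal.ofReal (Real.exp (-‖v‖)))) →
      (∀ t ∈ Icc 0 T, ∀ᵐ q : P2 × R3, F t (q.1 + t • bar q.2) q.2 +
        ∫⁻ s in Ioo 0 t, Lc (F s (q.1 + s • bar q.2)) q.2 * F s (q.1 + s • bar q.2) q.2 =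
        ENNReal.ofReal (G0 q.1 q.2) +
          ∫⁻ s in Ioo 0 t, Qp (F s (q.1 + s • bar q.2)) (F s (q.1 + s • bar q.2)) q.2) →
      MildGOn (fun t x v => (F t x v).toReal) G0 R T

/-! ### elementary bounds -/

theorem gau_le_exp {t : ℝ} (ht1 : t ≤ 1) (v : R3) :
    gau (1 / 50) t v ≤ Real.exp 25 * Real.exp (-‖v‖) := by
  unfold gau
  rw [← Real.exp_add]
  refine Real.exp_le_exp.2 ?_
  have h1 : √t ≤ 1 := by rw [Real.sqrt_le_one]; exact ht1
  nlinarith [sq_nonneg (‖v‖ / 10 - 5), mul_nonneg (sub_nonneg.2 h1) (sq_nonneg ‖v‖)]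

theorem Zg_le_exp {P : Par} {t : ℝ} (ht1 : t ≤ 1) (x : P2) (v : R3) :
    Zg P (1 / 50) t x v ≤ ENNReal.ofReal (Real.exp 25) * (Dm P t x v * We v) := by
  unfold Zg We
  calc ENNReal.ofReal (gau (1 / 50) t v) * Dm P t x v
      ≤ ENNReal.ofReal (Real.exp 25 * Real.exp (-‖v‖)) * Dm P t x v := by
        gcongr; exact gau_le_exp ht1 v
    _ = _ := by rw [ENNReal.ofReal_mul (Real.exp_pos _).le]; ring

theorem EW_le_Dm {P : Par} {lam T1 t : ℝ} (hlam : 0 ≤ lam) (h0 : 0 ≤ T1) (ht : T1 ≤ t) (x : P2)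
    (v : R3) : EW P lam T1 t x v ≤ 2 * (Dm P t x v * We v) := by
  rw [WA.EW_of_nonneg (h0.trans ht)]
  have h1 : ENNReal.ofReal (Real.exp (-(lam * (t - T1)))) ≤ 1 := by
    rw [← ENNReal.ofReal_one]
    refine ENNReal.ofReal_le_ofReal ?_
    rw [Real.exp_le_one_iff]
    have : 0 ≤ lam * (t - T1) := mul_nonneg hlam (by linarith)
    linarith
  calc (1 + ENNReal.ofReal (Real.exp (-(lam * (t - T1)))) * Dm P t x v) * We v
      ≤ (Dm P t x v + 1 * Dm P t x v) * We v := by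
        gcongr
        exact DPole.one_le_Dm P t x v
    _ = _ := by ring

theorem We_le_one' (v : R3) : We v ≤ 1 := by
  unfold We
  rw [← ENNReal.ofReal_one]
  refine ENNReal.ofReal_le_ofReal ?_
  rw [Real.exp_le_one_iff]
  linarith [norm_nonneg v]

theorem Dm_We_le_EW {P : Par} {lam T1 t : ℝ} (h0 : 0 ≤ t) (ht : t ≤ T1) (hlam : 0 ≤ lam) (x : P2)
    (v : R3) : Dm P t x v * We v ≤ EW P lam T1 t x v := by
  rw [WA.EW_of_nonneg h0]
  gcongr ?_ * _
  have h1 : 1 ≤ ENNReal.ofReal (Real.exp (-(lam * (t - T1)))) := by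
    rw [← ENNReal.ofReal_one]
    refine ENNReal.ofReal_le_ofReal ?_
    rw [Real.one_le_exp_iff]
    have : 0 ≤ lam * (T1 - t) := mul_nonneg hlam (by linarith)
    linarith
  calc Dm P t x v = 1 * Dm P t x v := (one_mul _).symm
    _ ≤ ENNReal.ofReal (Real.exp (-(lam * (t - T1)))) * Dm P t x v := by gcongr
    _ ≤ _ := le_add_self

/-- **`MildOut`** -/
theorem MildOut_of {Y : ℝ} (hY1 : 1 ≤ Y) (hCa : CausOut Y) (hCm : ColdMildOut Y) (hSz : SizeOut Y)
    (hIn : IntOut Y) : MildOut Y := by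
  intro K ey hK hey hey1
  filter_upwards [hCa K ey hK hey hey1, hCm K ey hK hey hey1, hSz K ey hK hey hey1,
    hIn K ey hK hey hey1, eventually_ge_atTop 3] with p hCa hCm hSz hIn hp3
  intro R hR
  have hY : 0 < Y := by linarith
  filter_upwards [hCa, hCm, hSz, hIn, ev_pos, ev_T1_le one_pos,
    ev_ParD K Y ey p hY,
    ev_Ok K Y ey p (by linarith) hY hey hp3,
    ev_hole K Y ey p]
    with j0 hCa hCm hSz hIn hpos hT11 hPD hOk hhole
  intro H A hot hA hbd b Hh T hT mHh pHh hHhb heqn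
  obtain ⟨hdl, hrh, hT1⟩ := hpos
  set P := par K Y ey p j0 with hP
  set T1 := T1j j0 with hT1def
  obtain ⟨⟨Cn, hCn, near⟩, far⟩ := hSz
  obtain ⟨Bf, hBf, far⟩ := far T
  have hPY : 0 < P.Y := hY
  have mH0 : Measurable fun q : P2 × R3 => H0f j0 R q.1 q.2 :=
    ENNReal.measurable_ofReal.comp (Fuel.measurable_bg _ _)
  have pH0 : ∀ v, PerG fun x => H0f j0 R x v := by
    intro v x k
    show H0f j0 R (x + latt k) v = H0f j0 R x v
    unfold H0f
    have : Fuel.bg (rhj j0) R (x + latt k) v = Fuel.bg (rhj j0) R x v := Fuel.perG_bg _ _ v x k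
    rw [this]
  obtain ⟨Hg, hHg⟩ : ∃ Hg : Fld, Hg = WGl.Hgl (H0f j0 R) T1 H Hh := ⟨_, rfl⟩
  have hHg' : Hgl (H0f j0 R) T1 H Hh = Hg := hHg.symm
  rw [hHg'] at heqn ⊢
  have mHg : Meas3 Hg := by rw [hHg]; exact WGl.meas3_Hgl mH0 hot.meas mHh
  have pHg : PerF Hg := by rw [hHg]; exact WGl.perF_Hgl pH0 hot.per pHh
  have perLc : ∀ {G : Fld}, PerF G → PerF (LcF G) := by
    intro G hG t v x k
    have e : G t (x + latt k) = G t x := funext fun z => hG t z x k
    show Lc (G t (x + latt k)) v = Lc (G t x) v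
    rw [e]
  have mlam : Meas3 (LcF Hg) := meas3_Lc mHg
  have plam : PerF (LcF Hg) := perLc pHg
  set c : Fld := coldR P (LcF Hg) with hc
  set sp : Fld := coldSpill P (LcF Hg) with hsp
  obtain ⟨mc, pc, msp, psp, cle, cfin⟩ := hCa.1 (LcF Hg) mlam plam
  have hmid : ∀ {t : ℝ}, 0 < t → t < T1 → Hg t = H t := by
    intro t h0 h1
    rw [hHg]; exact WGl.Hgl_mid h0 h1
  have hge : ∀ {t : ℝ}, T1 ≤ t → Hg t = Hh t := by
    intro t h1
    rw [hHg]; exact WGl.Hgl_ge hT1 h1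
  have hcaus := hCa.2 (LcF Hg) (LcF H) mlam plam (meas3_Lc hot.meas) (perLc hot.per) T1
    (fun t x v h0 h1 => by
      show Lc (Hg t x) v = Lc (H t x) v
      rw [hmid h0 h1])
  -- bounds
  have hLE : ∀ t x v, T1 ≤ t → Lc (Hh t x) v ≤ b * (WA.C2E P.Y (1 / 8) * w1 v) := by
    intro t x v ht
    calc Lc (Hh t x) v ≤ Lc (fun z => b * EW P (1 / 8) T1 t x z) v :=
          WA.Lc_mono (fun z => hHhb t x z ht) v
      _ = b * Lc (EW P (1 / 8) T1 t x) v := Crest.Agent.R68.A.Lc_const_mul ENNReal.coe_ne_top _ _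
      _ ≤ _ := by
          gcongr
          exact WA.Lc_w1EW hPD (by norm_num) hT1.le hT11 ht x
            (fun z => le_mul_of_one_le_left' (one_le_w1 z)) v
  have hHE : ∀ t x v, 0 < t → t < T1 →
      H t x v ≤ A * ENNReal.ofReal (Real.exp 25) * (Dm P t x v * We v) := by
    intro t x v h0 h1
    rw [mul_assoc]
    refine (hbd t ⟨h0, h1.le⟩ x v).trans ?_
    gcongr
    exact Zg_le_exp (h1.le.trans hT11) x v
  have hAe : A * ENNReal.ofReal (Real.exp 25) ≠ ⊤ := ENNReal.mul_ne_top hA ENNReal.ofReal_ne_top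
  have hLH : ∀ t x v, 0 < t → t < T1 → Lc (H t x) v ≤
      A * ENNReal.ofReal (Real.exp 25) * (Real.exp (1 / 8) |> ENNReal.ofReal) *
        (WA.C2E P.Y (1 / 8) * w1 v) := by
    intro t x v h0 h1
    have h2 : ∀ z, H t x z ≤ A * ENNReal.ofReal (Real.exp 25) * ENNReal.ofReal (Real.exp (1 / 8)) *
        EW P (1 / 8) 0 t x z := by
      intro z
      refine (hHE t x z h0 h1).trans ?_
      rw [mul_assoc (A * ENNReal.ofReal (Real.exp 25))]
      refine mul_le_mul' le_rfl ?_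
      rw [WA.EW_of_nonneg h0.le, ← mul_assoc]
      refine mul_le_mul' ?_ le_rfl
      have h3 : 1 ≤ ENNReal.ofReal (Real.exp (1 / 8)) * ENNReal.ofReal (Real.exp (-(1 / 8 * (t - 0)))) := by
        rw [← ENNReal.ofReal_mul (Real.exp_pos _).le, ← Real.exp_add, ← ENNReal.ofReal_one]
        refine ENNReal.ofReal_le_ofReal ?_
        rw [Real.one_le_exp_iff]
        have := h1.le.trans hT11
        linarith
      calc Dm P t x z = 1 * Dm P t x z := (one_mul _).symm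
        _ ≤ (ENNReal.ofReal (Real.exp (1 / 8)) * ENNReal.ofReal (Real.exp (-(1 / 8 * (t - 0))))) *
            Dm P t x z := by gcongr
        _ = ENNReal.ofReal (Real.exp (1 / 8)) * (ENNReal.ofReal (Real.exp (-(1 / 8 * (t - 0)))) *
            Dm P t x z) := by ring
        _ ≤ _ := by gcongr; exact le_add_self
    calc Lc (H t x) v ≤ Lc (fun z => A * ENNReal.ofReal (Real.exp 25) *
          ENNReal.ofReal (Real.exp (1 / 8)) * EW P (1 / 8) 0 t x z) v := WA.Lc_mono h2 v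
      _ = A * ENNReal.ofReal (Real.exp 25) * ENNReal.ofReal (Real.exp (1 / 8)) *
          Lc (EW P (1 / 8) 0 t x) v :=
          Crest.Agent.R68.A.Lc_const_mul (ENNReal.mul_ne_top hAe ENNReal.ofReal_ne_top) _ _
      _ ≤ _ := by
          gcongr
          exact WA.Lc_w1EW hPD (by norm_num) le_rfl zero_le_one h0.le x
            (fun z => le_mul_of_one_le_left' (one_le_w1 z)) v
  have eL : ∀ t x v, lossH c Hg t x v = Lc (c t x) v + Lc (Hg t x) v :=
    fun t x v => Lc_add (mc.slice t x) v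
  set C1 : ℝ≥0∞ := Cn + 4 * (A * ENNReal.ofReal (Real.exp 25) * ENNReal.ofReal (Real.exp (1 / 8)) *
    WA.C2E P.Y (1 / 8)) with hC1
  have hC1t : C1 ≠ ⊤ := by
    rw [hC1]
    refine ENNReal.add_ne_top.2 ⟨hCn, ENNReal.mul_ne_top (by norm_num) ?_⟩
    exact ENNReal.mul_ne_top (ENNReal.mul_ne_top hAe ENNReal.ofReal_ne_top) ENNReal.coe_ne_top
  set C2 : ℝ≥0∞ := Bf + b * WA.C2E P.Y (1 / 8) with hC2
  have hC2t : C2 ≠ ⊤ :=
    ENNReal.add_ne_top.2 ⟨hBf, ENNReal.mul_ne_top ENNReal.coe_ne_top ENNReal.coe_ne_top⟩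
  set A2 : ℝ≥0∞ := A * ENNReal.ofReal (Real.exp 25) + 2 * b with hA2
  have hA2t : A2 ≠ ⊤ :=
    ENNReal.add_ne_top.2 ⟨hAe, ENNReal.mul_ne_top (by norm_num) ENNReal.coe_ne_top⟩
  have n1 : ∀ t x v, 0 < t → t < T1 →
      ENNReal.ofReal ((t + distG x) ^ 2) * lossH c Hg t x v ≤ C1 * w1 v := by
    intro t x v h0 h1
    rw [eL, mul_add, hC1, add_mul]
    refine add_le_add ?_ ?_
    · refine le_trans ?_ (near t ⟨h0, h1.le⟩ x v)
      gcongr
      exact WA.Lc_mono (fun z => cle t x z h0.le) v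
    · rw [hmid h0 h1]
      calc ENNReal.ofReal ((t + distG x) ^ 2) * Lc (H t x) v
          ≤ 4 * (A * ENNReal.ofReal (Real.exp 25) * ENNReal.ofReal (Real.exp (1 / 8)) *
            (WA.C2E P.Y (1 / 8) * w1 v)) := by
            refine mul_le_mul' ?_ (hLH t x v h0 h1)
            have h3 : (4 : ℝ≥0∞) = ENNReal.ofReal 4 := by simp
            rw [h3]
            refine ENNReal.ofReal_le_ofReal ?_
            have h4 := distG_le_one x
            have h5 := distG_nonneg x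
            have h6 := h1.le.trans hT11
            nlinarith
        _ = _ := by ring
  have n2' : ∀ t x v, T1 ≤ t → t ≤ T → lossH c Hh t x v ≤ C2 * w1 v := by
    intro t x v h0 h1
    have e : lossH c Hh t x v = Lc (c t x) v + Lc (Hh t x) v := Lc_add (mc.slice t x) v
    rw [e, hC2, add_mul]
    refine add_le_add ?_ ?_
    · refine le_trans ?_ (far t h0 h1 x v)
      exact WA.Lc_mono (fun z => cle t x z (hT1.le.trans h0)) v
    · refine (hLE t x v h0).trans (le_of_eq (by ring))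
  have n2 : ∀ t x v, T1 ≤ t → t < T → lossH c Hg t x v ≤ C2 * w1 v := by
    intro t x v h0 h1
    have e : lossH c Hg t x v = lossH c Hh t x v :=
      WGl.loss_congr (fun _ => rfl) (fun z => by rw [hge h0]) v
    rw [e]
    exact n2' t x v h0 h1.le
  have hbig : ∀ t x v, 0 < t → t ≤ T → Hg t x v ≤ A2 * (Dm P t x v * We v) := by
    intro t x v h0 h1
    rcases lt_or_ge t T1 with h2 | h2
    · rw [hmid h0 h2, hA2, add_mul]
      exact (hHE t x v h0 h2).trans le_self_add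
    · rw [hge h2, hA2, add_mul]
      refine (hHhb t x v h2).trans (le_trans ?_ le_add_self)
      calc (b : ℝ≥0∞) * EWj K Y ey p j0 t x v ≤ b * (2 * (Dm P t x v * We v)) := by
            gcongr
            exact EW_le_Dm (by norm_num) hT1.le h2 x v
        _ = _ := by ring
  have n3 : ∀ t x v, 0 < t → t ≤ T → Hg t x v ≤ A2 * Dm P t x v := by
    intro t x v h0 h1
    refine (hbig t x v h0 h1).trans ?_
    gcongr
    calc Dm P t x v * We v ≤ Dm P t x v * 1 := by gcongr; exact We_le_one' v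
      _ = _ := mul_one _
  -- exponential form
  have hexp := WGl.expo (P := P) (T1 := T1) (T := T) (H0 := H0f j0 R) (H := H) (Hh := Hh) (c := c)
    (sp := sp) hPY hT1 hot (fun t x v h0 h1 => (hcaus t x v h0 h1).1)
    (fun t x v h0 h1 => (hcaus t x v h0 h1).2)
    (fun t x v h0 h1 hD => heqn t x v h0 h1 (by
      have h2 := EW_le_Dm (P := P) (lam := 1 / 8) (by norm_num) hT1.le h0 x v
      refine ne_top_of_le_ne_top ?_ h2
      refine ENNReal.mul_ne_top (by norm_num) (ENNReal.mul_ne_top hD ?_)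
      exact (WA.We_ne_top v)))
    (fun t x v h0 h1 => by
      have h2 : ∀ r ∈ Ioo T1 t, lossH c Hh r (x - (t - r) • bar v) v ≤ C2 * w1 v :=
        fun r hr => n2' r _ v hr.1.le (hr.2.le.trans h1)
      refine ne_top_of_le_ne_top ?_ (setLIntegral_mono' measurableSet_Ioo h2)
      rw [setLIntegral_const, Real.volume_Ioo]
      exact ENNReal.mul_ne_top (ENNReal.mul_ne_top hC2t (w1_ne_top v)) ENNReal.ofReal_ne_top)
  rw [← hHg] at hexp
  -- mild form
  have hcold : ∀ t x v, 0 ≤ t → (∫⁻ s in Ioo 0 t, LcF Hg s (x + s • bar v) v) ≠ ⊤ →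
      c t (x + t • bar v) v +
        (∫⁻ s in Ioo 0 t, lossH c Hg s (x + s • bar v) v * c s (x + s • bar v) v) +
        (∫⁻ s in Ioo 0 t, sp s (x + s • bar v) v) =
      phiE P 0 x v +
        ∫⁻ s in Ioo 0 t, Qp (c s (x + s • bar v)) (c s (x + s • bar v)) v := by
    intro t x v h0 hf
    have h := hCm (LcF Hg) mlam plam t x v h0 hf
    have e : ∀ s, rateC P (LcF Hg) s (x + s • bar v) v = lossH c Hg s (x + s • bar v) v := by
      intro s
      rw [eL]
      rfl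
    simp only [e] at h
    exact h
  have hms := WGl.mild_sum hPY hPD hT1 hT mH0 mc msp mHg hexp hC1t hC2t hA2t n1 n2 n3 hcold
  have hc0 : ∀ x v, c 0 x v = phiE P 0 x v := by
    intro x v
    have h := hcold 0 x v le_rfl (by simp)
    simpa using h
  have hG0 : ∀ x v, phiE P 0 x v + H0f j0 R x v = ENNReal.ofReal (Fuel.F0 P (rhj j0) R x v) := by
    intro x v
    unfold phiE H0f Fuel.F0
    rw [ENNReal.ofReal_add (Fuel.phi_nonneg hOk 0 x v) (Fuel.bg_nonneg _ _ _ _)]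
  have hHg0 : Hg 0 = H0f j0 R := by rw [hHg]; exact WGl.Hgl_le le_rfl
  refine hIn (Ftot P Hg) (Fuel.F0 P (rhj j0) R) R T (hT1.le.trans hT) (mc.add mHg) ?_
    (Fuel.datumG_F0 hOk hhole hR) ?_ ⟨A2, hA2t, ?_⟩ ?_
  · intro t v x k
    have e1 : c t (x + latt k) v = c t x v := pc t v x k
    have e2 : Hg t (x + latt k) v = Hg t x v := pHg t v x k
    show c t (x + latt k) v + Hg t (x + latt k) v = c t x v + Hg t x v
    rw [e1, e2]
  · intro x v
    show c 0 x v + Hg 0 x v = _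
    rw [hc0, hHg0, hG0]
  · intro t ht x v
    exact add_le_add (cle t x v ht.1.le) (hbig t x v ht.1 ht.2)
  · intro t ht
    filter_upwards [hms t ht] with q hq
    rw [← hG0]
    exact hq

end Crest.Agent.R68.WP
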