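import Crest.Agent.R68.KWs
import Crest.Agent.R68.KWarm
import Crest.Agent.R68.WGlue3
import Crest.Agent.R68.ColdW4

/-!
# Row 68, PART W (helper418): `WP.SizeOut` (loss rate of the cold majorant)
-/

set_option autoImplicit false
open MeasureTheory Set Filter
open scoped ENNReal NNReal Topology
open Crest.AnalysisR.VecCalc3 Crest.AnalysisR.PDE.Boltzmann

noncomputable section

namespace Crest.Agent.R68.WP

open Crest.Agent.R68.N
open Crest.Agent.R68.WA (w1)

theorem ev_eq_w1 (v : R3) : ev v = w1 v := by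
  unfold ev w1
  rw [ENNReal.ofReal_add zero_le_one (norm_nonneg v), ENNReal.ofReal_one]

/-- **`SizeOut`** -/
theorem SizeOut_holds {Y : ℝ} (hY : 1 ≤ Y) : SizeOut Y := by
  intro K ey hK hey hey1
  filter_upwards [KC.kOut hY hey KC.warmSize_holds KC.measurable_warm_v K 0 hK le_rfl,
    eventually_ge_atTop 512] with p hk hp
  filter_upwards [hk, ev_ColdPar K Y ey p C.C0 hK hY hp, ev_pos] with j0 hk hCP hpos
  obtain ⟨CK, hk, -⟩ := hk
  obtain ⟨-, -, hT1⟩ := hpos
  refine ⟨⟨CK, hk.ne, fun t ht x v => ?_⟩, fun T => ?_⟩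
  · have h1 := hk.lM2 t ht x v
    rw [ev_eq_w1] at h1
    refine le_trans ?_ h1
    gcongr
    refine WA.Lc_mono (fun z => ?_) v
    calc coldS (par K Y ey p j0) t x z = 1 * coldS (par K Y ey p j0) t x z := (one_mul _).symm
      _ ≤ 2 * coldS (par K Y ey p j0) t x z := by gcongr; exact one_le_two
  · have hB := ColdW.Big.of hCP (by exact hey)
    obtain ⟨B1, hB1⟩ := ColdW.cold_bd hB hCP hT1 T
    refine ⟨ENNReal.ofReal (4 * Real.pi) * (ENNReal.ofReal (Y + 3) * B1),
      ENNReal.mul_ne_top ENNReal.ofReal_ne_top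
        (ENNReal.mul_ne_top ENNReal.ofReal_ne_top ENNReal.coe_ne_top), fun t ht htT x v => ?_⟩
    have ht0 : 0 ≤ t := hT1.le.trans ht
    refine (WA.Lc_le _ v).trans ?_
    have h2 : ∫⁻ z, w1 z * coldS (par K Y ey p j0) t x z ≤ ENNReal.ofReal (Y + 3) * B1 := by
      calc ∫⁻ z, w1 z * coldS (par K Y ey p j0) t x z
          ≤ ∫⁻ z, ENNReal.ofReal (Y + 3) * coldS (par K Y ey p j0) t x z := by
            refine lintegral_mono fun z => ?_
            by_cases h0 : coldS (par K Y ey p j0) t x z = 0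
            · rw [h0, mul_zero, mul_zero]
            · have h3 := ColdW.norm_lt_of_coldS_ne hB ht0 h0
              have h4 : (par K Y ey p j0).Y = Y := rfl
              rw [h4] at h3
              refine mul_le_mul' ?_ le_rfl
              unfold w1
              exact ENNReal.ofReal_le_ofReal (by linarith)
        _ = ENNReal.ofReal (Y + 3) * ∫⁻ z, coldS (par K Y ey p j0) t x z := by
            rw [lintegral_const_mul' _ _ ENNReal.ofReal_ne_top]
        _ ≤ _ := by gcongr; exact (hB1 t ht htT x).1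
    calc ENNReal.ofReal (4 * Real.pi) * w1 v * ∫⁻ z, w1 z * coldS (par K Y ey p j0) t x z
        ≤ ENNReal.ofReal (4 * Real.pi) * w1 v * (ENNReal.ofReal (Y + 3) * B1) := by gcongr
      _ = _ := by ring

end Crest.Agent.R68.WP
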