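import Mathlib
import Crest.Agent.R68.Sph3

/-!
R68 / Sph4: Archimedes' theorem in every direction, moments of the sphere measure, total
collision rate, means over the collision sphere (helper779).
-/

set_option autoImplicit false
open MeasureTheory Set Metric Submodule
open scoped ENNReal Real
open Crest.AnalysisR.VecCalc3 Crest.AnalysisR.PDE.Boltzmann

namespace Crest.Agent.R68

theorem volume_Ioo_pi : volume (Ioo (-π) π) = ENNReal.ofReal (2 * π) := by
  rw [Real.volume_Ioo]; congr 1; ring

/-- **Archimedes** for the third coordinate -/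
theorem lintegral_sphere_ez {f : ℝ → ℝ≥0∞} (hf : Measurable f) :
    ∫⁻ w, f (inner ℝ ez w) ∂sphereMeasure = ENNReal.ofReal (2 * π) * ∫⁻ t in Ioo (-1 : ℝ) 1, f t := by
  have hm : Measurable fun w : R3 => f (inner ℝ ez w) := hf.comp (by fun_prop)
  rw [lintegral_sphere_cyl hm, ← lintegral_const_mul _ hf]
  refine setLIntegral_congr_fun measurableSet_Ioo fun t _ => ?_
  simp_rw [inner_ez, cyl_two]
  rw [lintegral_const, Measure.restrict_apply_univ, volume_Ioo_pi, mul_comm]

/-- **Archimedes**: every component of a uniform point of the sphere is uniform on `(-1,1)` -/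
theorem lintegral_sphere_inner {e : R3} (he : ‖e‖ = 1) {f : ℝ → ℝ≥0∞} (hf : Measurable f) :
    ∫⁻ w, f (inner ℝ e w) ∂sphereMeasure = ENNReal.ofReal (2 * π) * ∫⁻ t in Ioo (-1 : ℝ) 1, f t := by
  have hm : Measurable fun w : R3 => f (inner ℝ e w) := hf.comp (by fun_prop)
  rw [← lintegral_sphere_isometry (rot e) hm, ← lintegral_sphere_ez hf]
  refine lintegral_congr fun w => ?_
  congr 1
  have h := inner_rot e ez w
  rwa [rot_ez he] at h

theorem integral_sphere_inner {e : R3} (he : ‖e‖ = 1) {E : Type*} [NormedAddCommGroup E]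
    [NormedSpace ℝ E] (f : ℝ → E) (hf : StronglyMeasurable f) :
    ∫ w, f (inner ℝ e w) ∂sphereMeasure = (2 * π) • ∫ t in Ioo (-1 : ℝ) 1, f t := by
  have hmp : sphereMeasure.map (fun w : R3 => (inner ℝ e w : ℝ))
      = (ENNReal.ofReal (2 * π)) • (volume.restrict (Ioo (-1 : ℝ) 1)) := by
    ext s hs
    rw [Measure.map_apply (by fun_prop) hs, Measure.smul_apply, smul_eq_mul]
    have h := lintegral_sphere_inner he (f := s.indicator 1) (measurable_one.indicator hs)
    rw [lintegral_indicator_one hs] at h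
    rw [← h, ← lintegral_indicator_one (by exact (show Measurable fun w : R3 => (inner ℝ e w : ℝ) by fun_prop) hs)]
    rfl
  have h1 : ∫ w, f (inner ℝ e w) ∂sphereMeasure
      = ∫ t, f t ∂(sphereMeasure.map (fun w : R3 => (inner ℝ e w : ℝ))) := by
    rw [integral_map (by fun_prop) hf.aestronglyMeasurable]
  rw [h1, hmp, integral_smul_measure, ENNReal.toReal_ofReal (by positivity)]

/-- bounded measurable functions are integrable on the sphere -/
theorem integrable_sphere_of_bounded {f : R3 → ℝ} (hf : Measurable f) {C : ℝ}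
    (hC : ∀ w : R3, ‖w‖ = 1 → |f w| ≤ C) : Integrable f sphereMeasure := by
  refine Integrable.mono' (integrable_const C) hf.aestronglyMeasurable ?_
  filter_upwards [ae_sphereMeasure] with w hw
  rw [Real.norm_eq_abs]; exact hC w hw

theorem abs_inner_le_of_unit {w : R3} (hw : ‖w‖ = 1) (a : R3) : |(inner ℝ a w : ℝ)| ≤ ‖a‖ := by
  have := abs_real_inner_le_norm a w
  rwa [hw, mul_one] at this

theorem integrable_inner_sphere (a : R3) :
    Integrable (fun w : R3 => (inner ℝ a w : ℝ)) sphereMeasure :=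
  integrable_sphere_of_bounded (by fun_prop) fun _ hw => abs_inner_le_of_unit hw a

theorem integrable_inner_mul_sphere (a b : R3) :
    Integrable (fun w : R3 => (inner ℝ a w : ℝ) * inner ℝ b w) sphereMeasure := by
  refine integrable_sphere_of_bounded (C := ‖a‖ * ‖b‖) (by fun_prop) fun w hw => ?_
  rw [abs_mul]
  exact mul_le_mul (abs_inner_le_of_unit hw a) (abs_inner_le_of_unit hw b) (abs_nonneg _)
    (norm_nonneg _)

theorem sphereMeasure_real_univ : sphereMeasure.real (univ : Set R3) = 4 * π := by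
  rw [Measure.real, sphereMeasure_univ, ENNReal.toReal_ofReal (by positivity)]

theorem integral_one_sphere (c : ℝ) : ∫ _, c ∂sphereMeasure = 4 * π * c := by
  rw [integral_const, sphereMeasure_real_univ, smul_eq_mul]

/-- first moments vanish -/
theorem integral_inner_sphere (a : R3) : ∫ w, (inner ℝ a w : ℝ) ∂sphereMeasure = 0 := by
  have hmp := measurePreserving_sphere_isometry (LinearIsometryEquiv.neg ℝ)
  have h : ∫ w, (inner ℝ a w : ℝ) ∂sphereMeasure = ∫ w, (inner ℝ a (-w) : ℝ) ∂sphereMeasure :=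
    (hmp.integral_comp (LinearIsometryEquiv.neg ℝ (E := R3)).toHomeomorph.measurableEmbedding
      (fun w => (inner ℝ a w : ℝ))).symm
  simp only [inner_neg_right] at h
  rw [integral_neg] at h
  linarith

theorem integral_sq_Ioo : ∫ t in Ioo (-1 : ℝ) 1, t ^ 2 = 2 / 3 := by
  rw [← integral_Ioc_eq_integral_Ioo, ← intervalIntegral.integral_of_le (by norm_num), integral_pow]
  norm_num

theorem integral_inner_sq_unit {e : R3} (he : ‖e‖ = 1) :
    ∫ w, (inner ℝ e w : ℝ) ^ 2 ∂sphereMeasure = 4 * π / 3 := by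
  rw [integral_sphere_inner he (fun t : ℝ => t ^ 2) (by fun_prop), integral_sq_Ioo, smul_eq_mul]
  ring

theorem integral_inner_sq_sphere (a : R3) :
    ∫ w, (inner ℝ a w : ℝ) ^ 2 ∂sphereMeasure = 4 * π / 3 * ‖a‖ ^ 2 := by
  by_cases ha : a = 0
  · subst ha; simp
  have hn : ‖a‖ ≠ 0 := norm_ne_zero_iff.2 ha
  have h1 : ∀ w : R3, (inner ℝ a w : ℝ) ^ 2 = ‖a‖ ^ 2 * (inner ℝ (‖a‖⁻¹ • a) w : ℝ) ^ 2 := by
    intro w
    rw [real_inner_smul_left]
    field_simp
  simp_rw [h1]
  rw [integral_const_mul, integral_inner_sq_unit]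
  · ring
  · rw [norm_smul, norm_inv, norm_norm, inv_mul_cancel₀ hn]

/-- second moments -/
theorem integral_inner_mul_sphere (a b : R3) :
    ∫ w, (inner ℝ a w : ℝ) * inner ℝ b w ∂sphereMeasure = 4 * π / 3 * inner ℝ a b := by
  have h1 := integral_inner_sq_sphere (a + b)
  have h2 : ∀ w : R3, (inner ℝ (a + b) w : ℝ) ^ 2
      = (inner ℝ a w : ℝ) ^ 2 + 2 * ((inner ℝ a w : ℝ) * inner ℝ b w) + (inner ℝ b w : ℝ) ^ 2 := by
    intro w; rw [inner_add_left]; ring
  simp_rw [h2] at h1
  have ia : Integrable (fun w : R3 => (inner ℝ a w : ℝ) ^ 2) sphereMeasure := by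
    simpa [pow_two] using integrable_inner_mul_sphere a a
  have ib : Integrable (fun w : R3 => (inner ℝ b w : ℝ) ^ 2) sphereMeasure := by
    simpa [pow_two] using integrable_inner_mul_sphere b b
  have iab := integrable_inner_mul_sphere a b
  have h3 : ∫ w, ((inner ℝ a w : ℝ) ^ 2 + 2 * ((inner ℝ a w : ℝ) * inner ℝ b w)
      + (inner ℝ b w : ℝ) ^ 2) ∂sphereMeasure
      = ∫ w, (inner ℝ a w : ℝ) ^ 2 ∂sphereMeasure
        + 2 * ∫ w, (inner ℝ a w : ℝ) * inner ℝ b w ∂sphereMeasure
        + ∫ w, (inner ℝ b w : ℝ) ^ 2 ∂sphereMeasure := by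
    have e1 := integral_add (ia.add (iab.const_mul 2)) ib
    have e2 := integral_add ia (iab.const_mul 2)
    have e3 := integral_const_mul (μ := sphereMeasure) (2 : ℝ)
      (fun w : R3 => (inner ℝ a w : ℝ) * inner ℝ b w)
    simp only [Pi.add_apply] at e1 e2
    rw [e1, e2, e3]
  rw [h3, integral_inner_sq_sphere, integral_inner_sq_sphere, norm_add_sq_real] at h1
  linarith

/-- total hard sphere rate -/
theorem lintegral_abs_inner (g : R3) :
    ∫⁻ w, ENNReal.ofReal |inner ℝ g w| ∂sphereMeasure = ENNReal.ofReal (2 * π * ‖g‖) := by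
  have h := lintegral_sigma g (F := fun _ => 1) measurable_const
  simp only [mul_one, lintegral_const, one_mul] at h
  rw [h, sphereMeasure_univ, ← ENNReal.ofReal_mul (by positivity)]
  congr 1; ring

theorem lintegral_abs_inner_mul (g : R3) (c : ℝ≥0∞) :
    ∫⁻ w, ENNReal.ofReal |inner ℝ g w| * c ∂sphereMeasure = ENNReal.ofReal (2 * π * ‖g‖) * c := by
  rw [lintegral_mul_const _ (by fun_prop), lintegral_abs_inner]

/-- σ form, Bochner version -/
theorem integral_sigma (g : R3) (f : R3 → ℝ) (hf : Measurable f) :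
    ∫ w, |(inner ℝ g w : ℝ)| * f ((inner ℝ g w : ℝ) • w) ∂sphereMeasure
      = ‖g‖ / 2 * ∫ s, f ((1 / 2 : ℝ) • (g + ‖g‖ • s)) ∂sphereMeasure := by
  have hmw : Measurable fun w : R3 => ENNReal.ofReal |(inner ℝ g w : ℝ)| := by fun_prop
  have hT : Measurable fun w : R3 => (inner ℝ g w : ℝ) • w := by fun_prop
  have hS : Measurable fun s : R3 => (1 / 2 : ℝ) • (g + ‖g‖ • s) := by fun_prop
  have hmap : (sphereMeasure.withDensity fun w : R3 => ENNReal.ofReal |(inner ℝ g w : ℝ)|).map
      (fun w : R3 => (inner ℝ g w : ℝ) • w)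
      = ENNReal.ofReal (‖g‖ / 2) • sphereMeasure.map (fun s : R3 => (1 / 2 : ℝ) • (g + ‖g‖ • s)) := by
    ext A hA
    rw [Measure.map_apply hT hA, withDensity_apply _ (hT hA), Measure.smul_apply,
      Measure.map_apply hS hA, smul_eq_mul]
    have h := lintegral_sigma g (F := A.indicator 1) (measurable_one.indicator hA)
    rw [← lintegral_indicator (hT hA), ← lintegral_indicator_one (hS hA)]
    refine Eq.trans (lintegral_congr fun w => ?_) h
    by_cases hw : (inner ℝ g w : ℝ) • w ∈ A
    · rw [indicator_of_mem (by exact hw), indicator_of_mem hw]; simp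
    · rw [indicator_of_notMem (by exact hw), indicator_of_notMem hw]; simp
  have hL : ∫ w, |(inner ℝ g w : ℝ)| * f ((inner ℝ g w : ℝ) • w) ∂sphereMeasure
      = ∫ w, f ((inner ℝ g w : ℝ) • w)
        ∂(sphereMeasure.withDensity fun w : R3 => ENNReal.ofReal |(inner ℝ g w : ℝ)|) := by
    rw [integral_withDensity_eq_integral_toReal_smul hmw
      (Filter.Eventually.of_forall fun w => ENNReal.ofReal_lt_top)]
    refine integral_congr_ae (Filter.Eventually.of_forall fun w => ?_)
    simp [abs_nonneg]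
  rw [hL, ← integral_map hT.aemeasurable hf.aestronglyMeasurable, hmap, integral_smul_measure,
    integral_map hS.aemeasurable hf.aestronglyMeasurable, ENNReal.toReal_ofReal (by positivity),
    smul_eq_mul]

end Crest.Agent.R68
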