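import Mathlib
import Crest.Agent.R68.Defs
import Crest.Agent.R68.Sph4

/-!
R68 / CGauss: collisions of isotropic Gaussian profiles (helper475), for part C (cold component).
-/

set_option autoImplicit false
open MeasureTheory Set
open scoped ENNReal
open Crest.AnalysisR.VecCalc3 Crest.AnalysisR.PDE.Boltzmann

noncomputable section

namespace Crest.Agent.R68.C

/-! ### monotonicity and homogeneity of `Qp`, `Lc` -/

theorem Qp_mono {f f' g g' : R3 → ℝ≥0∞} (hf : ∀ v, f v ≤ f' v) (hg : ∀ v, g v ≤ g' v) (v : R3) :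
    Qp f g v ≤ Qp f' g' v := by
  unfold Qp
  gcongr with vs w
  · exact hf _
  · exact hg _

theorem Lc_mono {g g' : R3 → ℝ≥0∞} (hg : ∀ v, g v ≤ g' v) (v : R3) : Lc g v ≤ Lc g' v := by
  unfold Lc
  gcongr with vs w
  exact hg _

theorem Qp_const_mul {a b : ℝ≥0∞} (ha : a ≠ ⊤) (hb : b ≠ ⊤) (f g : R3 → ℝ≥0∞) (v : R3) :
    Qp (fun v => a * f v) (fun v => b * g v) v = a * b * Qp f g v := by
  unfold Qp
  rw [← lintegral_const_mul' _ _ (ENNReal.mul_ne_top ha hb)]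
  refine lintegral_congr fun vs => ?_
  rw [← lintegral_const_mul' _ _ (ENNReal.mul_ne_top ha hb)]
  refine lintegral_congr fun w => ?_
  ring

theorem Lc_const_mul {b : ℝ≥0∞} (hb : b ≠ ⊤) (g : R3 → ℝ≥0∞) (v : R3) :
    Lc (fun v => b * g v) v = b * Lc g v := by
  unfold Lc
  rw [← lintegral_const_mul' _ _ hb]
  refine lintegral_congr fun vs => ?_
  rw [← lintegral_const_mul' _ _ hb]
  refine lintegral_congr fun w => ?_
  ring

theorem Lc_eq (g : R3 → ℝ≥0∞) (v : R3) :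
    Lc g v = ∫⁻ vs, ENNReal.ofReal (2 * Real.pi * ‖v - vs‖) * g vs := by
  unfold Lc
  exact lintegral_congr fun vs => lintegral_abs_inner_mul _ _

/-! ### Gaussian profiles -/

/-- Gaussian of height `A`, width `η`, centre `u` -/
def gs (A η : ℝ) (u v : R3) : ℝ≥0∞ := ENNReal.ofReal (A * Real.exp (-‖v - u‖ ^ 2 / (2 * η ^ 2)))

theorem measurable_gs (A η : ℝ) (u : R3) : Measurable (gs A η u) := by
  unfold gs; fun_prop

theorem gs_ne_top (A η : ℝ) (u v : R3) : gs A η u v ≠ ⊤ := ENNReal.ofReal_ne_top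

theorem gs_mul_gs {A : ℝ} (hA : 0 ≤ A) (η : ℝ) (u v vs w : R3) (hw : ‖w‖ = 1) :
    gs A η u (postVel v vs w) * gs A η u (postVelStar v vs w) = gs A η u v * gs A η u vs := by
  unfold gs
  rw [← ENNReal.ofReal_mul (by positivity), ← ENNReal.ofReal_mul (by positivity)]
  congr 1
  have h1 : ‖postVel v vs w - u‖ ^ 2 + ‖postVelStar v vs w - u‖ ^ 2 =
      ‖v - u‖ ^ 2 + ‖vs - u‖ ^ 2 := by
    have e1 : postVel v vs w - u = (v - u) - (inner ℝ (v - vs) w : ℝ) • w := by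
      unfold postVel; abel
    have e2 : postVelStar v vs w - u = (vs - u) + (inner ℝ (v - vs) w : ℝ) • w := by
      unfold postVelStar; abel
    have e3 : v - vs = (v - u) - (vs - u) := by abel
    rw [e1, e2, norm_sub_sq_real, norm_add_sq_real, real_inner_smul_right, real_inner_smul_right,
      norm_smul, hw]
    simp only [Real.norm_eq_abs, mul_one, sq_abs]
    rw [e3, inner_sub_left]
    ring
  have h2 : ∀ a b : ℝ, A * Real.exp (-a / (2 * η ^ 2)) * (A * Real.exp (-b / (2 * η ^ 2))) =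
      A * A * Real.exp (-(a + b) / (2 * η ^ 2)) := by
    intro a b
    have : -(a + b) / (2 * η ^ 2) = -a / (2 * η ^ 2) + -b / (2 * η ^ 2) := by ring
    rw [this, Real.exp_add]; ring
  rw [h2, h2, h1]

/-- a Gaussian is a Maxwellian: gain = loss -/
theorem Qp_gs {A : ℝ} (hA : 0 ≤ A) (η : ℝ) (u v : R3) :
    Qp (gs A η u) (gs A η u) v = gs A η u v * Lc (gs A η u) v := by
  unfold Qp Lc
  rw [← lintegral_const_mul' _ _ (gs_ne_top A η u v)]
  refine lintegral_congr fun vs => ?_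
  rw [← lintegral_const_mul' _ _ (gs_ne_top A η u v)]
  refine lintegral_congr_ae ?_
  filter_upwards [ae_sphereMeasure] with w hw
  rw [mul_assoc, gs_mul_gs hA η u v vs w hw]
  ring

theorem lintegral_gauss {b : ℝ} (hb : 0 < b) :
    ∫⁻ y : R3, ENNReal.ofReal (Real.exp (-b * ‖y‖ ^ 2)) = ENNReal.ofReal ((Real.pi / b) ^ (3 / 2 : ℝ)) := by
  have h0 : ∫ y : R3, Real.exp (-b * ‖y‖ ^ 2) = (Real.pi / b) ^ (3 / 2 : ℝ) := by
    rw [GaussianFourier.integral_rexp_neg_mul_sq_norm hb]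
    have : Module.finrank ℝ R3 = 3 := by simp
    rw [this]; norm_num
  rw [← h0, ← ofReal_integral_eq_lintegral_ofReal]
  · by_contra h
    have := integral_undef h
    rw [h0] at this
    have h3 : 0 < (Real.pi / b) ^ (3 / 2 : ℝ) := by positivity
    exact h3.ne' this
  · exact ae_of_all _ fun v => (Real.exp_pos _).le

theorem le_exp_quarter (s : ℝ) : s ≤ Real.exp (s ^ 2 / 4) := by
  have h := Real.add_one_le_exp (s ^ 2 / 4)
  nlinarith [sq_nonneg (s / 2 - 1)]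

/-- the constant of the collision bounds of Gaussians -/
def CG : ℝ := 2 * Real.pi * (4 * Real.pi) ^ (3 / 2 : ℝ)

theorem CG_pos : 0 < CG := by unfold CG; positivity

/-- collision frequency of a Gaussian -/
theorem Lc_gs_le {A η : ℝ} (hA : 0 ≤ A) (hη : 0 < η) (u v : R3) :
    Lc (gs A η u) v ≤ ENNReal.ofReal (CG * A * η ^ 3 * (‖v - u‖ + η)) := by
  rw [Lc_eq]
  have hb : 0 < 1 / (4 * η ^ 2) := by positivity
  have h1 : ∀ vs : R3, ENNReal.ofReal (2 * Real.pi * ‖v - vs‖) * gs A η u vs ≤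
      ENNReal.ofReal (2 * Real.pi * A * (‖v - u‖ + η)) *
        ENNReal.ofReal (Real.exp (-(1 / (4 * η ^ 2)) * ‖vs - u‖ ^ 2)) := by
    intro vs
    unfold gs
    rw [← ENNReal.ofReal_mul (by positivity), ← ENNReal.ofReal_mul (by positivity)]
    apply ENNReal.ofReal_le_ofReal
    have h2 : ‖v - vs‖ ≤ ‖v - u‖ + ‖vs - u‖ := by
      have : v - vs = (v - u) - (vs - u) := by abel
      rw [this]; exact norm_sub_le _ _
    have h3 : ‖vs - u‖ ≤ η * Real.exp (‖vs - u‖ ^ 2 / (4 * η ^ 2)) := by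
      have h := le_exp_quarter (‖vs - u‖ / η)
      rw [div_le_iff₀ hη] at h
      have e : (‖vs - u‖ / η) ^ 2 / 4 = ‖vs - u‖ ^ 2 / (4 * η ^ 2) := by
        field_simp
      rw [e] at h
      linarith
    have h4 : (1 : ℝ) ≤ Real.exp (‖vs - u‖ ^ 2 / (4 * η ^ 2)) := Real.one_le_exp (by positivity)
    have h5 : ‖v - vs‖ ≤ (‖v - u‖ + η) * Real.exp (‖vs - u‖ ^ 2 / (4 * η ^ 2)) := by
      have := mul_le_mul_of_nonneg_left h4 (norm_nonneg (v - u))
      nlinarith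
    have h6 : Real.exp (-‖vs - u‖ ^ 2 / (2 * η ^ 2)) =
        Real.exp (-(1 / (4 * η ^ 2)) * ‖vs - u‖ ^ 2) * Real.exp (-(‖vs - u‖ ^ 2 / (4 * η ^ 2))) := by
      rw [← Real.exp_add]; congr 1; field_simp; ring
    have h7 : Real.exp (‖vs - u‖ ^ 2 / (4 * η ^ 2)) * Real.exp (-(‖vs - u‖ ^ 2 / (4 * η ^ 2))) = 1 := by
      rw [← Real.exp_add]; simp
    rw [h6]
    set E1 := Real.exp (‖vs - u‖ ^ 2 / (4 * η ^ 2))
    set E2 := Real.exp (-(‖vs - u‖ ^ 2 / (4 * η ^ 2)))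
    set E3 := Real.exp (-(1 / (4 * η ^ 2)) * ‖vs - u‖ ^ 2)
    have hE2 : 0 < E2 := Real.exp_pos _
    have hE3 : 0 < E3 := Real.exp_pos _
    calc 2 * Real.pi * ‖v - vs‖ * (A * (E3 * E2))
        ≤ 2 * Real.pi * ((‖v - u‖ + η) * E1) * (A * (E3 * E2)) := by gcongr
      _ = 2 * Real.pi * A * (‖v - u‖ + η) * E3 * (E1 * E2) := by ring
      _ = 2 * Real.pi * A * (‖v - u‖ + η) * E3 := by rw [h7, mul_one]
  refine (lintegral_mono h1).trans ?_
  rw [lintegral_const_mul' _ _ ENNReal.ofReal_ne_top]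
  have h8 : ∫⁻ vs : R3, ENNReal.ofReal (Real.exp (-(1 / (4 * η ^ 2)) * ‖vs - u‖ ^ 2)) =
      ENNReal.ofReal ((4 * Real.pi) ^ (3 / 2 : ℝ) * η ^ 3) := by
    rw [lintegral_sub_right_eq_self (fun y : R3 =>
      ENNReal.ofReal (Real.exp (-(1 / (4 * η ^ 2)) * ‖y‖ ^ 2))) u, lintegral_gauss hb]
    congr 1
    have e : Real.pi / (1 / (4 * η ^ 2)) = (4 * Real.pi) * η ^ 2 := by field_simp
    rw [e, Real.mul_rpow (by positivity) (by positivity)]
    congr 1
    rw [← Real.rpow_natCast, ← Real.rpow_mul hη.le]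
    norm_num
  rw [h8, ← ENNReal.ofReal_mul (by positivity)]
  apply ENNReal.ofReal_le_ofReal
  unfold CG
  apply le_of_eq; ring

/-- the gain of two profiles dominated by multiples of the same Gaussian -/
theorem Qp_le_gs {A η : ℝ} (hA : 0 ≤ A) (hη : 0 < η) (u : R3) {f g : R3 → ℝ≥0∞} {a b : ℝ≥0∞}
    (ha : a ≠ ⊤) (hb : b ≠ ⊤) (hf : ∀ v, f v ≤ a * gs A η u v) (hg : ∀ v, g v ≤ b * gs A η u v)
    (v : R3) :
    Qp f g v ≤ a * b * (ENNReal.ofReal (CG * A * η ^ 3 * (‖v - u‖ + η)) * gs A η u v) := by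
  calc Qp f g v ≤ Qp (fun v => a * gs A η u v) (fun v => b * gs A η u v) v := Qp_mono hf hg v
    _ = a * b * Qp (gs A η u) (gs A η u) v := Qp_const_mul ha hb _ _ v
    _ ≤ _ := by
      rw [Qp_gs hA, mul_comm (gs A η u v)]
      gcongr
      exact Lc_gs_le hA hη u v

end Crest.Agent.R68.C
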