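import Crest.Agent.R68.Sph4

/-!
R68 / K2a (helper616): two-dimensional integrals and the plane estimate (K2.1).
-/

set_option autoImplicit false
open MeasureTheory Set Metric
open scoped ENNReal Real
open Crest.AnalysisR.VecCalc3 Crest.AnalysisR.PDE.Boltzmann

namespace Crest.Agent.R68.K2

/-- `x ↦ x^{-3/2}` on `[0,∞)`, with value `⊤` at `0` -/
noncomputable def pk (x : ℝ) : ℝ≥0∞ := ENNReal.ofReal x ^ (-(3 / 2) : ℝ)

theorem measurable_pk : Measurable pk := by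
  unfold pk; fun_prop

theorem pk_anti {x y : ℝ} (h : x ≤ y) : pk y ≤ pk x := by
  unfold pk
  rw [ENNReal.rpow_neg, ENNReal.rpow_neg]
  exact ENNReal.inv_le_inv.2 (ENNReal.rpow_le_rpow (ENNReal.ofReal_le_ofReal h) (by norm_num))

theorem pk_le_one {x : ℝ} (h : 1 ≤ x) : pk x ≤ 1 := by
  refine (pk_anti h).trans ?_
  simp [pk]

theorem pk_eq {x : ℝ} (h : 0 < x) : pk x = ENNReal.ofReal (x ^ (-(3 / 2) : ℝ)) := by
  unfold pk
  rw [ENNReal.ofReal_rpow_of_pos h]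

/-- one-dimensional Gaussian -/
theorem lintegral_gauss1 {α : ℝ} (hα : 0 < α) :
    ∫⁻ x : ℝ, ENNReal.ofReal (Real.exp (-α * x ^ 2)) = ENNReal.ofReal (√(π / α)) := by
  rw [← integral_gaussian α, ofReal_integral_eq_lintegral_ofReal (integrable_exp_neg_mul_sq hα)
    (Filter.Eventually.of_forall fun x => (Real.exp_pos _).le)]

/-- two-dimensional Gaussian -/
theorem lintegral_gauss2 {α : ℝ} (hα : 0 < α) :
    ∫⁻ p : ℝ × ℝ, ENNReal.ofReal (Real.exp (-α * (p.1 ^ 2 + p.2 ^ 2))) = ENNReal.ofReal (π / α) := by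
  have h1 : ∀ p : ℝ × ℝ, ENNReal.ofReal (Real.exp (-α * (p.1 ^ 2 + p.2 ^ 2))) =
      ENNReal.ofReal (Real.exp (-α * p.1 ^ 2)) * ENNReal.ofReal (Real.exp (-α * p.2 ^ 2)) := by
    intro p
    rw [← ENNReal.ofReal_mul (Real.exp_pos _).le, ← Real.exp_add]
    congr 2; ring
  simp_rw [h1]
  rw [show (volume : Measure (ℝ × ℝ)) = volume.prod volume from rfl]
  have h2 := lintegral_prod_mul (μ := (volume : Measure ℝ)) (ν := (volume : Measure ℝ))
    (f := fun x : ℝ => ENNReal.ofReal (Real.exp (-α * x ^ 2)))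
    (g := fun x : ℝ => ENNReal.ofReal (Real.exp (-α * x ^ 2))) (by fun_prop) (by fun_prop)
  rw [h2, lintegral_gauss1 hα,
    ← ENNReal.ofReal_mul (Real.sqrt_nonneg _), Real.mul_self_sqrt (by positivity)]

/-- shifted two-dimensional Gaussian -/
theorem lintegral_gauss2_shift {α : ℝ} (hα : 0 < α) (c d : ℝ) :
    ∫⁻ p : ℝ × ℝ, ENNReal.ofReal (Real.exp (-α * ((p.1 + c) ^ 2 + (p.2 + d) ^ 2)))
      = ENNReal.ofReal (π / α) := by
  rw [← lintegral_gauss2 hα,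
    ← lintegral_add_right_eq_self (μ := (volume : Measure (ℝ × ℝ)))
      (fun p : ℝ × ℝ => ENNReal.ofReal (Real.exp (-α * (p.1 ^ 2 + p.2 ^ 2)))) (c, d)]
  rfl

theorem lintegral_rpow_Ioo {s : ℝ} (hs : -1 < s) :
    ∫⁻ r in Ioo (0 : ℝ) 1, ENNReal.ofReal (r ^ s) = ENNReal.ofReal (1 / (s + 1)) := by
  have h1 : IntervalIntegrable (fun r : ℝ => r ^ s) volume 0 1 :=
    intervalIntegral.intervalIntegrable_rpow' hs
  have h2 : ∫ r in (0 : ℝ)..1, r ^ s = 1 / (s + 1) := by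
    rw [integral_rpow (Or.inl hs)]
    rw [Real.one_rpow, Real.zero_rpow (by linarith)]
    ring
  rw [← h2, intervalIntegral.integral_of_le zero_le_one,
    ofReal_integral_eq_lintegral_ofReal]
  · exact setLIntegral_congr Ioo_ae_eq_Ioc
  · exact (intervalIntegrable_iff_integrableOn_Ioc_of_le zero_le_one).1 h1
  · refine (ae_restrict_mem measurableSet_Ioc).mono fun x hx => ?_
    exact Real.rpow_nonneg hx.1.le _

/-- `∫_{|p|<1} |p|^{-3/2} dp = 4π` -/
theorem lintegral_pk2 :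
    ∫⁻ p : ℝ × ℝ in {p : ℝ × ℝ | √(p.1 ^ 2 + p.2 ^ 2) < 1}, pk (√(p.1 ^ 2 + p.2 ^ 2))
      = ENNReal.ofReal (4 * π) := by
  have hS : MeasurableSet {p : ℝ × ℝ | √(p.1 ^ 2 + p.2 ^ 2) < 1} :=
    measurableSet_lt (by fun_prop) (by fun_prop)
  have hf : Measurable fun p : ℝ × ℝ => pk (√(p.1 ^ 2 + p.2 ^ 2)) :=
    measurable_pk.comp (by fun_prop)
  rw [← lintegral_indicator hS, lintegral_polar2 (hf.indicator hS)]
  have h1 : ∀ r ∈ Ioi (0 : ℝ), ∫⁻ φ in Ioo (-π) π, ENNReal.ofReal r *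
      {p : ℝ × ℝ | √(p.1 ^ 2 + p.2 ^ 2) < 1}.indicator
        (fun p : ℝ × ℝ => pk (√(p.1 ^ 2 + p.2 ^ 2))) (r * Real.cos φ, r * Real.sin φ)
      = (Ioo (0 : ℝ) 1).indicator (fun r => ENNReal.ofReal (2 * π) *
          ENNReal.ofReal (r ^ (-(1 / 2) : ℝ))) r := by
    intro r hr
    have hr' : (0 : ℝ) < r := hr
    have h2 : ∀ φ : ℝ, √((r * Real.cos φ) ^ 2 + (r * Real.sin φ) ^ 2) = r := by
      intro φ
      have : (r * Real.cos φ) ^ 2 + (r * Real.sin φ) ^ 2 = r ^ 2 := by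
        have := Real.sin_sq_add_cos_sq φ
        calc _ = r ^ 2 * (Real.sin φ ^ 2 + Real.cos φ ^ 2) := by ring
          _ = r ^ 2 := by rw [this, mul_one]
      rw [this, Real.sqrt_sq hr'.le]
    by_cases h3 : r < 1
    · rw [indicator_of_mem (show r ∈ Ioo (0 : ℝ) 1 from ⟨hr, h3⟩)]
      have h4 : ∀ φ : ℝ, {p : ℝ × ℝ | √(p.1 ^ 2 + p.2 ^ 2) < 1}.indicator
          (fun p : ℝ × ℝ => pk (√(p.1 ^ 2 + p.2 ^ 2))) (r * Real.cos φ, r * Real.sin φ) = pk r := by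
        intro φ
        rw [indicator_of_mem]
        · simp only [h2]
        · simp only [mem_ofPred_eq, h2]; exact h3
      simp_rw [h4]
      rw [lintegral_const, Measure.restrict_apply_univ, volume_Ioo_pi, pk_eq hr', mul_comm,
        ← ENNReal.ofReal_mul hr'.le]
      congr 2
      rw [← Real.rpow_one_add' hr'.le (by norm_num)]
      norm_num
    · rw [indicator_of_notMem (show r ∉ Ioo (0 : ℝ) 1 from fun h => h3 h.2)]
      have h4 : ∀ φ : ℝ, {p : ℝ × ℝ | √(p.1 ^ 2 + p.2 ^ 2) < 1}.indicator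
          (fun p : ℝ × ℝ => pk (√(p.1 ^ 2 + p.2 ^ 2))) (r * Real.cos φ, r * Real.sin φ) = 0 := by
        intro φ
        rw [indicator_of_notMem]
        simp only [mem_ofPred_eq, h2]; exact h3
      simp_rw [h4]
      simp
  rw [setLIntegral_congr_fun measurableSet_Ioi h1, lintegral_indicator measurableSet_Ioo,
    Measure.restrict_restrict measurableSet_Ioo, inter_eq_left.2 Ioo_subset_Ioi_self,
    lintegral_const_mul _ (by fun_prop), lintegral_rpow_Ioo (by norm_num),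
    ← ENNReal.ofReal_mul (by positivity)]
  congr 1
  ring

/-- the singular Gaussian integral in the plane -/
theorem lintegral_pk_gauss2 {α : ℝ} (hα : 0 < α) (c d c' d' : ℝ) :
    ∫⁻ p : ℝ × ℝ, pk (√((p.1 + c) ^ 2 + (p.2 + d) ^ 2)) *
        ENNReal.ofReal (Real.exp (-α * ((p.1 + c') ^ 2 + (p.2 + d') ^ 2)))
      ≤ ENNReal.ofReal (4 * π) + ENNReal.ofReal (π / α) := by
  set S : Set (ℝ × ℝ) := {p : ℝ × ℝ | √((p.1 + c) ^ 2 + (p.2 + d) ^ 2) < 1} with hSdef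
  have hS : MeasurableSet S := measurableSet_lt (by fun_prop) (by fun_prop)
  have hle : ∀ p : ℝ × ℝ, pk (√((p.1 + c) ^ 2 + (p.2 + d) ^ 2)) *
        ENNReal.ofReal (Real.exp (-α * ((p.1 + c') ^ 2 + (p.2 + d') ^ 2)))
      ≤ S.indicator (fun p : ℝ × ℝ => pk (√((p.1 + c) ^ 2 + (p.2 + d) ^ 2))) p +
        ENNReal.ofReal (Real.exp (-α * ((p.1 + c') ^ 2 + (p.2 + d') ^ 2))) := by
    intro p
    by_cases hp : p ∈ S
    · rw [indicator_of_mem hp]
      refine le_trans ?_ le_self_add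
      calc _ ≤ pk (√((p.1 + c) ^ 2 + (p.2 + d) ^ 2)) * 1 := by
            gcongr
            rw [ENNReal.ofReal_le_one]
            apply Real.exp_le_one_iff.2
            have : 0 ≤ (p.1 + c') ^ 2 + (p.2 + d') ^ 2 := by positivity
            nlinarith
        _ = _ := mul_one _
    · rw [indicator_of_notMem hp, zero_add]
      calc _ ≤ 1 * ENNReal.ofReal (Real.exp (-α * ((p.1 + c') ^ 2 + (p.2 + d') ^ 2))) := by
            gcongr
            exact pk_le_one (not_lt.1 hp)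
        _ = _ := one_mul _
  refine (lintegral_mono hle).trans ?_
  rw [lintegral_add_right _ (by fun_prop), lintegral_indicator hS, lintegral_gauss2_shift hα]
  gcongr
  apply le_of_eq
  rw [← lintegral_pk2, ← lintegral_indicator hS, ← lintegral_indicator
    (measurableSet_lt (by fun_prop) (by fun_prop))]
  rw [← lintegral_add_right_eq_self (μ := (volume : Measure (ℝ × ℝ)))
      ({p : ℝ × ℝ | √(p.1 ^ 2 + p.2 ^ 2) < 1}.indicator
        fun p : ℝ × ℝ => pk (√(p.1 ^ 2 + p.2 ^ 2))) (c, d)]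
  rfl

/-- pole weight -/
noncomputable def Sw {ι : Type*} [Fintype ι] (u : ι → R3) (v : R3) : ℝ≥0∞ :=
  1 + ∑ i, pk ‖v - u i‖

theorem measurable_Sw {ι : Type*} [Fintype ι] (u : ι → R3) : Measurable (Sw u) := by
  unfold Sw
  apply Measurable.const_add
  apply Finset.measurable_sum
  intro i _
  exact measurable_pk.comp (by fun_prop)

/-- constant of the plane estimate -/
noncomputable def Cpl (α : ℝ) (m : ℕ) : ℝ≥0∞ :=
  ENNReal.ofReal (π / α) + m * (ENNReal.ofReal (4 * π) + ENNReal.ofReal (π / α))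

theorem Cpl_lt_top (α : ℝ) (m : ℕ) : Cpl α m < ⊤ := by
  unfold Cpl
  exact ENNReal.add_lt_top.2 ⟨ENNReal.ofReal_lt_top, ENNReal.mul_lt_top (ENNReal.natCast_lt_top m)
    (ENNReal.add_lt_top.2 ⟨ENNReal.ofReal_lt_top, ENNReal.ofReal_lt_top⟩)⟩

/-- Bessel for an orthonormal pair -/
theorem sq_le_norm_sq_pair {b1 b2 : R3} (h1 : ‖b1‖ = 1) (h2 : ‖b2‖ = 1)
    (h12 : (inner ℝ b1 b2 : ℝ) = 0) (w : R3) :
    (inner ℝ w b1 : ℝ) ^ 2 + (inner ℝ w b2 : ℝ) ^ 2 ≤ ‖w‖ ^ 2 := by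
  have h := real_inner_self_nonneg (x := w - (inner ℝ w b1 : ℝ) • b1 - (inner ℝ w b2 : ℝ) • b2)
  have e1 : (inner ℝ b1 b1 : ℝ) = 1 := by rw [real_inner_self_eq_norm_sq, h1]; norm_num
  have e2 : (inner ℝ b2 b2 : ℝ) = 1 := by rw [real_inner_self_eq_norm_sq, h2]; norm_num
  have e3 : (inner ℝ b2 b1 : ℝ) = 0 := by rw [real_inner_comm, h12]
  simp only [inner_sub_left, inner_sub_right, real_inner_smul_left, real_inner_smul_right,
    real_inner_comm w b1, real_inner_comm w b2, e1, e2, e3, h12, real_inner_self_eq_norm_sq w] at h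
  nlinarith

/-- Bessel for an orthonormal triple -/
theorem sq_le_norm_sq_triple {n b1 b2 : R3} (hn : ‖n‖ = 1) (h1 : ‖b1‖ = 1) (h2 : ‖b2‖ = 1)
    (hn1 : (inner ℝ n b1 : ℝ) = 0) (hn2 : (inner ℝ n b2 : ℝ) = 0)
    (h12 : (inner ℝ b1 b2 : ℝ) = 0) (w : R3) :
    (inner ℝ w n : ℝ) ^ 2 + ((inner ℝ w b1 : ℝ) ^ 2 + (inner ℝ w b2 : ℝ) ^ 2) ≤ ‖w‖ ^ 2 := by
  set w' := w - (inner ℝ w n : ℝ) • n with hw'
  have e0 : (inner ℝ n n : ℝ) = 1 := by rw [real_inner_self_eq_norm_sq, hn]; norm_num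
  have e1 : (inner ℝ w' b1 : ℝ) = inner ℝ w b1 := by
    rw [hw', inner_sub_left, real_inner_smul_left, hn1]; ring
  have e2 : (inner ℝ w' b2 : ℝ) = inner ℝ w b2 := by
    rw [hw', inner_sub_left, real_inner_smul_left, hn2]; ring
  have e3 : ‖w'‖ ^ 2 = ‖w‖ ^ 2 - (inner ℝ w n : ℝ) ^ 2 := by
    rw [← real_inner_self_eq_norm_sq, hw', inner_sub_left, inner_sub_right, inner_sub_right,
      real_inner_smul_left, real_inner_smul_right, real_inner_smul_left, real_inner_smul_right, e0,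
      real_inner_self_eq_norm_sq, real_inner_comm w n]
    ring
  have := sq_le_norm_sq_pair h1 h2 h12 w'
  rw [e1, e2, e3] at this
  linarith

/-- **(K2.1)** plane estimate -/
theorem plane_est {ι : Type*} [Fintype ι] {α : ℝ} (hα : 0 < α) (u : ι → R3) {n b1 b2 : R3}
    (hn : ‖n‖ = 1) (h1 : ‖b1‖ = 1) (h2 : ‖b2‖ = 1)
    (hn1 : (inner ℝ n b1 : ℝ) = 0) (hn2 : (inner ℝ n b2 : ℝ) = 0)
    (h12 : (inner ℝ b1 b2 : ℝ) = 0) (v w : R3) :
    ∫⁻ p : ℝ × ℝ, Sw u (v + (p.1 • b1 + p.2 • b2)) *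
        ENNReal.ofReal (Real.exp (-α * ‖w + (p.1 • b1 + p.2 • b2)‖ ^ 2))
      ≤ Cpl α (Fintype.card ι) * ENNReal.ofReal (Real.exp (-α * (inner ℝ w n : ℝ) ^ 2)) := by
  have e11 : (inner ℝ b1 b1 : ℝ) = 1 := by rw [real_inner_self_eq_norm_sq, h1]; norm_num
  have e22 : (inner ℝ b2 b2 : ℝ) = 1 := by rw [real_inner_self_eq_norm_sq, h2]; norm_num
  have e21 : (inner ℝ b2 b1 : ℝ) = 0 := by rw [real_inner_comm, h12]
  have e1n : (inner ℝ b1 n : ℝ) = 0 := by rw [real_inner_comm, hn1]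
  have e2n : (inner ℝ b2 n : ℝ) = 0 := by rw [real_inner_comm, hn2]
  have i1 : ∀ (y : R3) (p : ℝ × ℝ), (inner ℝ (y + (p.1 • b1 + p.2 • b2)) b1 : ℝ)
      = p.1 + inner ℝ y b1 := by
    intro y p
    simp only [inner_add_left, real_inner_smul_left, e11, e21]; ring
  have i2 : ∀ (y : R3) (p : ℝ × ℝ), (inner ℝ (y + (p.1 • b1 + p.2 • b2)) b2 : ℝ)
      = p.2 + inner ℝ y b2 := by
    intro y p
    simp only [inner_add_left, real_inner_smul_left, e22, h12]; ring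
  have i3 : ∀ (y : R3) (p : ℝ × ℝ), (inner ℝ (y + (p.1 • b1 + p.2 • b2)) n : ℝ)
      = inner ℝ y n := by
    intro y p
    simp only [inner_add_left, real_inner_smul_left, e1n, e2n]; ring
  set G : ℝ × ℝ → ℝ≥0∞ := fun p => ENNReal.ofReal (Real.exp (-α *
    ((p.1 + inner ℝ w b1) ^ 2 + (p.2 + inner ℝ w b2) ^ 2))) with hG
  set E : ℝ≥0∞ := ENNReal.ofReal (Real.exp (-α * (inner ℝ w n : ℝ) ^ 2)) with hE
  have hexp : ∀ p : ℝ × ℝ, ENNReal.ofReal (Real.exp (-α * ‖w + (p.1 • b1 + p.2 • b2)‖ ^ 2))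
      ≤ G p * E := by
    intro p
    rw [hG, hE, ← ENNReal.ofReal_mul (Real.exp_pos _).le, ← Real.exp_add]
    apply ENNReal.ofReal_le_ofReal
    apply Real.exp_le_exp.2
    have h := sq_le_norm_sq_triple hn h1 h2 hn1 hn2 h12 (w + (p.1 • b1 + p.2 • b2))
    rw [i1, i2, i3] at h
    nlinarith
  have hsw : ∀ p : ℝ × ℝ, Sw u (v + (p.1 • b1 + p.2 • b2)) ≤ 1 + ∑ i,
      pk (√((p.1 + inner ℝ (v - u i) b1) ^ 2 + (p.2 + inner ℝ (v - u i) b2) ^ 2)) := by
    intro p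
    unfold Sw
    gcongr with i _
    apply pk_anti
    have h := sq_le_norm_sq_pair h1 h2 h12 (v - u i + (p.1 • b1 + p.2 • b2))
    rw [i1, i2] at h
    have h5 : v + (p.1 • b1 + p.2 • b2) - u i = v - u i + (p.1 • b1 + p.2 • b2) := by abel
    rw [h5]
    calc _ ≤ √(‖v - u i + (p.1 • b1 + p.2 • b2)‖ ^ 2) := Real.sqrt_le_sqrt h
      _ = _ := Real.sqrt_sq (norm_nonneg _)
  have hGm : Measurable G := by rw [hG]; fun_prop
  calc _ ≤ ∫⁻ p : ℝ × ℝ, ((1 + ∑ i,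
      pk (√((p.1 + inner ℝ (v - u i) b1) ^ 2 + (p.2 + inner ℝ (v - u i) b2) ^ 2))) * G p) * E := by
        apply lintegral_mono
        intro p
        beta_reduce
        calc _ ≤ (1 + ∑ i, pk (√((p.1 + inner ℝ (v - u i) b1) ^ 2 +
                (p.2 + inner ℝ (v - u i) b2) ^ 2))) * (G p * E) := by
              gcongr
              · exact hsw p
              · exact hexp p
          _ = _ := by ring
    _ = (∫⁻ p : ℝ × ℝ, (G p + ∑ i,
      pk (√((p.1 + inner ℝ (v - u i) b1) ^ 2 + (p.2 + inner ℝ (v - u i) b2) ^ 2)) * G p)) * E := by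
        rw [lintegral_mul_const' _ _ ENNReal.ofReal_ne_top]
        congr 1
        apply lintegral_congr
        intro p
        rw [add_mul, one_mul, Finset.sum_mul]
    _ = ((∫⁻ p : ℝ × ℝ, G p) + ∑ i, ∫⁻ p : ℝ × ℝ,
      pk (√((p.1 + inner ℝ (v - u i) b1) ^ 2 + (p.2 + inner ℝ (v - u i) b2) ^ 2)) * G p) * E := by
        rw [lintegral_add_left hGm, lintegral_finsetSum]
        intro i _
        exact (measurable_pk.comp (by fun_prop)).mul hGm
    _ ≤ (ENNReal.ofReal (π / α) + ∑ i : ι, (ENNReal.ofReal (4 * π) + ENNReal.ofReal (π / α))) * E := by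
        gcongr with i _
        · rw [hG]; exact (lintegral_gauss2_shift hα _ _).le
        · rw [hG]; exact lintegral_pk_gauss2 hα _ _ _ _
    _ = _ := by
        rw [Finset.sum_const, Finset.card_univ, nsmul_eq_mul]; rfl

end Crest.Agent.R68.K2
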