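import Crest.Agent.R68.FStream
import Crest.Agent.R68.K2a

/-!
# Row 68, PART C/K (helper779): Newton potentials of cold streams

`newt c v = ∫ c(u) / |v-u| du`.  General stream `strm` of helper195.
-/

set_option autoImplicit false
open MeasureTheory Set
open scoped ENNReal
open Crest.AnalysisR.VecCalc3 Crest.AnalysisR.PDE.Boltzmann

noncomputable section

namespace Crest.Agent.R68.C

open Crest.Agent.R68.Fuel

/-- Newton potential in velocity space -/
def newt (c : R3 → ℝ≥0∞) (v : R3) : ℝ≥0∞ := ∫⁻ u, c u * ENNReal.ofReal ‖v - u‖⁻¹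

theorem newt_eq (c : R3 → ℝ≥0∞) (v : R3) :
    newt c v = ∫⁻ z, ENNReal.ofReal ‖z‖⁻¹ * c (v + z) := by
  unfold newt
  rw [← lintegral_add_left_eq_self _ v]
  refine lintegral_congr fun z => ?_
  rw [mul_comm, sub_add_cancel_left, norm_neg]

theorem newt_mono {c c' : R3 → ℝ≥0∞} (h : ∀ u, c u ≤ c' u) (v : R3) : newt c v ≤ newt c' v :=
  lintegral_mono fun u => mul_le_mul_left (h u) _

theorem newt_add {c c' : R3 → ℝ≥0∞} (h : Measurable c) (v : R3) :
    newt (fun u => c u + c' u) v = newt c v + newt c' v := by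
  unfold newt
  rw [← lintegral_add_left (by fun_prop)]
  exact lintegral_congr fun u => add_mul _ _ _

theorem newt_const_mul {c : R3 → ℝ≥0∞} (a : ℝ≥0∞) (h : Measurable c) (v : R3) :
    newt (fun u => a * c u) v = a * newt c v := by
  unfold newt
  rw [← lintegral_const_mul _ (by fun_prop)]
  exact lintegral_congr fun u => mul_assoc _ _ _

/-- `|α - β s|^{-1/2}` integrated over `(-1,1)` -/
theorem lint_half {α β : ℝ} (hβ : 0 < β) :
    ∫⁻ s in Ioo (-1 : ℝ) 1, ENNReal.ofReal |α - β * s| ^ (-(1 / 2) : ℝ) ≤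
      ENNReal.ofReal (6 * β ^ (-(1 / 2) : ℝ)) := by
  have h1 : ∀ s : ℝ, ENNReal.ofReal |α - β * s| ^ (-(1 / 2) : ℝ) =
      ENNReal.ofReal (β ^ (-(1 / 2) : ℝ)) * ENNReal.ofReal |s - α / β| ^ (-(1 / 2) : ℝ) := by
    intro s
    have e : |α - β * s| = β * |s - α / β| := by
      have : α - β * s = β * (α / β - s) := by field_simp
      rw [this, abs_mul, abs_of_pos hβ, abs_sub_comm]
    rw [e, ENNReal.ofReal_mul hβ.le, ENNReal.mul_rpow_of_ne_top ENNReal.ofReal_ne_top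
      ENNReal.ofReal_ne_top, ENNReal.ofReal_rpow_of_pos hβ]
  simp_rw [h1]
  rw [lintegral_const_mul' _ _ ENNReal.ofReal_ne_top]
  have h2 : ∀ s : ℝ, ENNReal.ofReal |s - α / β| ^ (-(1 / 2) : ℝ) ≤
      1 + (Ioo (-1 : ℝ) 1).indicator (fun r => ENNReal.ofReal |r| ^ (-(1 / 2) : ℝ)) (s - α / β) := by
    intro s
    by_cases h : s - α / β ∈ Ioo (-1 : ℝ) 1
    · rw [indicator_of_mem h]; exact le_add_self
    · refine le_add_right ?_
      have h3 : 1 ≤ |s - α / β| := by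
        by_contra h4
        exact h (abs_lt.1 (not_le.1 h4))
      rw [ENNReal.rpow_neg]
      refine ENNReal.inv_le_one.2 ?_
      refine ENNReal.one_le_rpow ?_ (by norm_num)
      rw [← ENNReal.ofReal_one]
      exact ENNReal.ofReal_le_ofReal h3
  have h4 : ∫⁻ s in Ioo (-1 : ℝ) 1, ENNReal.ofReal |s - α / β| ^ (-(1 / 2) : ℝ) ≤ 6 := by
    calc _ ≤ ∫⁻ s in Ioo (-1 : ℝ) 1, (1 + (Ioo (-1 : ℝ) 1).indicator
          (fun r => ENNReal.ofReal |r| ^ (-(1 / 2) : ℝ)) (s - α / β)) := lintegral_mono fun s => h2 s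
      _ = 2 + ∫⁻ s in Ioo (-1 : ℝ) 1, (Ioo (-1 : ℝ) 1).indicator
          (fun r => ENNReal.ofReal |r| ^ (-(1 / 2) : ℝ)) (s - α / β) := by
          rw [lintegral_add_left measurable_const]
          congr 1
          simp only [lintegral_const, one_mul, Measure.restrict_apply_univ, Real.volume_Ioo]
          norm_num
      _ ≤ 2 + ∫⁻ s, (Ioo (-1 : ℝ) 1).indicator
          (fun r => ENNReal.ofReal |r| ^ (-(1 / 2) : ℝ)) (s - α / β) := by
          gcongr
          exact Measure.restrict_le_self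
      _ = 2 + ∫⁻ s in Ioo (-1 : ℝ) 1, ENNReal.ofReal |s| ^ (-(1 / 2) : ℝ) := by
          rw [lintegral_sub_right_eq_self (fun s => (Ioo (-1 : ℝ) 1).indicator
            (fun r => ENNReal.ofReal |r| ^ (-(1 / 2) : ℝ)) s) (α / β),
            lintegral_indicator measurableSet_Ioo]
      _ ≤ 2 + (2 + 2) := by
          gcongr
          have h5 : Ioo (-1 : ℝ) 1 ⊆ Ioc (-1 : ℝ) 0 ∪ Ioo (0 : ℝ) 1 := by
            intro s hs
            rcases le_or_gt s 0 with h | h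
            · exact Or.inl ⟨hs.1, h⟩
            · exact Or.inr ⟨h, hs.2⟩
          refine (lintegral_mono_set h5).trans ((lintegral_union_le _ _ _).trans ?_)
          have h6 : ∫⁻ s in Ioo (0 : ℝ) 1, ENNReal.ofReal |s| ^ (-(1 / 2) : ℝ) ≤ 2 := by
            have h7 := K2.lintegral_rpow_Ioo (s := -(1 / 2)) (by norm_num)
            rw [show (1 / (-(1 / 2) + 1) : ℝ) = 2 by norm_num, ENNReal.ofReal_ofNat] at h7
            rw [← h7]
            refine le_of_eq (setLIntegral_congr_fun measurableSet_Ioo fun s hs => ?_)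
            show ENNReal.ofReal |s| ^ (-(1 / 2) : ℝ) = ENNReal.ofReal (s ^ (-(1 / 2) : ℝ))
            rw [abs_of_pos hs.1, ENNReal.ofReal_rpow_of_pos hs.1]
          have h8 : ∫⁻ s in Ioc (-1 : ℝ) 0, ENNReal.ofReal |s| ^ (-(1 / 2) : ℝ) ≤ 2 := by
            have h9 : ∫⁻ s in Ioc (-1 : ℝ) 0, ENNReal.ofReal |s| ^ (-(1 / 2) : ℝ) =
                ∫⁻ s in Ico (0 : ℝ) 1, ENNReal.ofReal |s| ^ (-(1 / 2) : ℝ) := by
              rw [← lintegral_indicator measurableSet_Ioc, ← lintegral_indicator measurableSet_Ico,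
                ← lintegral_neg_eq_self]
              refine lintegral_congr fun s => ?_
              by_cases h : s ∈ Ico (0 : ℝ) 1
              · rw [indicator_of_mem h, indicator_of_mem (show -s ∈ Ioc (-1 : ℝ) 0 from
                  ⟨by linarith [h.2], by linarith [h.1]⟩), abs_neg]
              · rw [indicator_of_notMem h, indicator_of_notMem fun h' => h
                  ⟨by linarith [h'.2], by linarith [h'.1]⟩]
            rw [h9, setLIntegral_congr Ioo_ae_eq_Ico.symm]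
            exact h6
          exact add_le_add h8 h6
      _ = 6 := by norm_num
  calc _ ≤ ENNReal.ofReal (β ^ (-(1 / 2) : ℝ)) * 6 := mul_le_mul_right h4 _
    _ = _ := by
      rw [mul_comm, ENNReal.ofReal_mul (by norm_num)]
      norm_num

theorem inv_norm_le (v u : R3) : ENNReal.ofReal ‖v - u‖⁻¹ ≤
    ENNReal.ofReal |v 0 - u 0| ^ (-(1 / 2) : ℝ) * ENNReal.ofReal |v 2 - u 2| ^ (-(1 / 2) : ℝ) := by
  have h0 : |v 0 - u 0| ≤ ‖v - u‖ := by
    have := PiLp.norm_apply_le (v - u) 0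
    simpa [Real.norm_eq_abs] using this
  have h2 : |v 2 - u 2| ≤ ‖v - u‖ := by
    have := PiLp.norm_apply_le (v - u) 2
    simpa [Real.norm_eq_abs] using this
  have h3 : ENNReal.ofReal ‖v - u‖⁻¹ ≤ ENNReal.ofReal ‖v - u‖ ^ (-(1 : ℝ)) := by
    rw [ENNReal.rpow_neg_one]
    rcases (norm_nonneg (v - u)).eq_or_lt with h | h
    · rw [← h]; simp
    · rw [ENNReal.ofReal_inv_of_pos h]
  refine h3.trans ?_
  have h4 : ENNReal.ofReal ‖v - u‖ ^ (-(1 : ℝ)) =
      ENNReal.ofReal ‖v - u‖ ^ (-(1 / 2) : ℝ) * ENNReal.ofReal ‖v - u‖ ^ (-(1 / 2) : ℝ) := by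
    rcases (norm_nonneg (v - u)).eq_or_lt with h | h
    · rw [← h]; simp
    · rw [← ENNReal.rpow_add _ _ (by simpa using h) ENNReal.ofReal_ne_top]
      norm_num
  rw [h4]
  gcongr ?_ * ?_
  · rw [ENNReal.rpow_neg, ENNReal.rpow_neg]
    exact ENNReal.inv_le_inv.2 (ENNReal.rpow_le_rpow (ENNReal.ofReal_le_ofReal h0) (by norm_num))
  · rw [ENNReal.rpow_neg, ENNReal.rpow_neg]
    exact ENNReal.inv_le_inv.2 (ENNReal.rpow_le_rpow (ENNReal.ofReal_le_ofReal h2) (by norm_num))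

/-- **pancake bound**: sup of the Newton potential of a stream of thickness `η` -/
theorem newt_strm_le {κ η w : ℝ} {r : ℝ → ℝ} {q : ℝ → ℝ → ℝ} (hκ : 0 ≤ κ) (hη : 0 < η)
    (hr0 : ∀ a, 0 ≤ r a) (hr : Measurable r)
    (hq : Measurable fun p : ℝ × ℝ => q p.1 p.2) (hq0 : ∀ a z, r a = 0 → q a z = 0)
    {t : ℝ} (ht : 0 ≤ t) (x : P2) {n : ℝ} (hn0 : 0 ≤ n)
    (hn : ∀ s ∈ Ioo (-1 : ℝ) 1, ∀ z, q (sa κ η t x s) z /
      ((t + r (sa κ η t x s)) * (1 + κ * t)) ≤ n) (v : R3) :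
    newt (fun u => ENNReal.ofReal (strm κ η w r q t x u)) v ≤
      ENNReal.ofReal (9 * n * (1 + κ * t) ^ (1 / 2 : ℝ) / η) := by
  have h0 : 0 < 1 + κ * t := by positivity
  unfold newt
  have hg : Measurable fun u : R3 => ENNReal.ofReal ‖v - u‖⁻¹ := by fun_prop
  rw [lint_strm hκ hη hr0 hr hq hq0 ht x hg]
  have h1 : ∀ s1 ∈ Ioo (-1 : ℝ) 1, ∀ s2 s3 : ℝ,
      ENNReal.ofReal (q (sa κ η t x s1) (sz κ η r t x s1 s2) /
        (8 * (t + r (sa κ η t x s1)) * (1 + κ * t))) *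
        ENNReal.ofReal ‖v - sU κ η w r t x s1 s2 s3‖⁻¹ ≤
      (ENNReal.ofReal (n / 8) *
        ENNReal.ofReal |(v 0 - κ * x.1 / (1 + κ * t)) - η / (1 + κ * t) * s1| ^ (-(1 / 2) : ℝ)) *
        ENNReal.ofReal |(v 2 - w) - η * s3| ^ (-(1 / 2) : ℝ) := by
    intro s1 hs1 s2 s3
    rw [mul_assoc (ENNReal.ofReal (n / 8))]
    refine mul_le_mul' (ENNReal.ofReal_le_ofReal ?_) ?_
    · have := hn s1 hs1 (sz κ η r t x s1 s2)
      have e : q (sa κ η t x s1) (sz κ η r t x s1 s2) /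
          (8 * (t + r (sa κ η t x s1)) * (1 + κ * t)) =
          q (sa κ η t x s1) (sz κ η r t x s1 s2) /
          ((t + r (sa κ η t x s1)) * (1 + κ * t)) / 8 := by
        rw [div_div]; congr 1; ring
      rw [e]
      linarith
    · refine (inv_norm_le v _).trans (le_of_eq ?_)
      have e0 : v 0 - (sU κ η w r t x s1 s2 s3) 0 =
          (v 0 - κ * x.1 / (1 + κ * t)) - η / (1 + κ * t) * s1 := by
        rw [sU, vec_zero]; field_simp; ring
      have e2 : v 2 - (sU κ η w r t x s1 s2 s3) 2 = (v 2 - w) - η * s3 := by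
        rw [sU, vec_two]; ring
      rw [e0, e2]
  calc _ ≤ ∫⁻ s1 in Ioo (-1 : ℝ) 1, ∫⁻ s2 in Ioo (-1 : ℝ) 1, ∫⁻ s3 in Ioo (-1 : ℝ) 1,
        (ENNReal.ofReal (n / 8) *
        ENNReal.ofReal |(v 0 - κ * x.1 / (1 + κ * t)) - η / (1 + κ * t) * s1| ^ (-(1 / 2) : ℝ)) *
        ENNReal.ofReal |(v 2 - w) - η * s3| ^ (-(1 / 2) : ℝ) := by
        refine setLIntegral_mono' measurableSet_Ioo fun s1 hs1 => ?_
        exact lintegral_mono fun s2 => lintegral_mono fun s3 => h1 s1 hs1 s2 s3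
    _ ≤ ENNReal.ofReal (n / 8) * (ENNReal.ofReal (6 * (η / (1 + κ * t)) ^ (-(1 / 2) : ℝ)) * (2 *
          ENNReal.ofReal (6 * η ^ (-(1 / 2) : ℝ)))) := by
        have m1 : Measurable fun s1 : ℝ =>
            ENNReal.ofReal |(v 0 - κ * x.1 / (1 + κ * t)) - η / (1 + κ * t) * s1| ^ (-(1 / 2) : ℝ) := by
          fun_prop
        have m3 : Measurable fun s3 : ℝ =>
            ENNReal.ofReal |(v 2 - w) - η * s3| ^ (-(1 / 2) : ℝ) := by fun_prop
        have k3 : ∀ s1 : ℝ, ∫⁻ s2 in Ioo (-1 : ℝ) 1, ∫⁻ s3 in Ioo (-1 : ℝ) 1,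
            (ENNReal.ofReal (n / 8) *
            ENNReal.ofReal |(v 0 - κ * x.1 / (1 + κ * t)) - η / (1 + κ * t) * s1| ^ (-(1 / 2) : ℝ)) *
            ENNReal.ofReal |(v 2 - w) - η * s3| ^ (-(1 / 2) : ℝ) =
            (∫⁻ s3 in Ioo (-1 : ℝ) 1, ENNReal.ofReal |(v 2 - w) - η * s3| ^ (-(1 / 2) : ℝ)) * 2 *
            (ENNReal.ofReal (n / 8) *
            ENNReal.ofReal |(v 0 - κ * x.1 / (1 + κ * t)) - η / (1 + κ * t) * s1| ^
              (-(1 / 2) : ℝ)) := by
          intro s1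
          rw [lintegral_const, Measure.restrict_apply_univ, Real.volume_Ioo,
            lintegral_const_mul _ m3]
          rw [show ENNReal.ofReal (1 - -1) = 2 by norm_num]
          ring
        simp_rw [k3]
        rw [lintegral_const_mul _ (m1.const_mul _), lintegral_const_mul _ m1]
        have k1 := lint_half (α := v 0 - κ * x.1 / (1 + κ * t)) (div_pos hη h0)
        have k2 := lint_half (α := v 2 - w) hη
        calc _ = ENNReal.ofReal (n / 8) * ((∫⁻ s in Ioo (-1 : ℝ) 1,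
              ENNReal.ofReal |v 0 - κ * x.1 / (1 + κ * t) - η / (1 + κ * t) * s| ^ (-(1 / 2) : ℝ)) *
              (2 * ∫⁻ s in Ioo (-1 : ℝ) 1, ENNReal.ofReal |v 2 - w - η * s| ^ (-(1 / 2) : ℝ))) := by
              ring
          _ ≤ _ := by gcongr
    _ = ENNReal.ofReal (9 * n * (1 + κ * t) ^ (1 / 2 : ℝ) / η) := by
        rw [show (2 : ℝ≥0∞) = ENNReal.ofReal 2 by norm_num, ← ENNReal.ofReal_mul (by norm_num),
          ← ENNReal.ofReal_mul (by positivity), ← ENNReal.ofReal_mul (by positivity)]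
        congr 1
        have e1 : (η / (1 + κ * t)) ^ (-(1 / 2) : ℝ) =
            η ^ (-(1 / 2) : ℝ) * (1 + κ * t) ^ (1 / 2 : ℝ) := by
          rw [Real.div_rpow hη.le h0.le, Real.rpow_neg h0.le, div_inv_eq_mul]
        have e2 : η ^ (-(1 / 2) : ℝ) * η ^ (-(1 / 2) : ℝ) = η⁻¹ := by
          rw [← Real.rpow_add hη, ← Real.rpow_neg_one]; norm_num
        rw [e1, div_eq_mul_inv (9 * n * (1 + κ * t) ^ (1 / 2 : ℝ)), ← e2]
        ring

end Crest.Agent.R68.C
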