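import Crest.Agent.R68.CNewt2
import Crest.Agent.R68.ColdDefs

/-!
# Row 68, PART C (helper779): one-image form of the size of the fuel (for 418)
-/

set_option autoImplicit false
open MeasureTheory Set
open scoped ENNReal
open Crest.AnalysisR.VecCalc3 Crest.AnalysisR.PDE.Boltzmann

noncomputable section

namespace Crest.Agent.R68.C

open Crest.Agent.R68.Fuel

variable {P : Par}

theorem dens_le_div (h : P.Ok) {t : ℝ} (ht : 0 ≤ t) (a : ℝ) :
    dens P t a ≤ P.K / (t + rr a) := by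
  have h1 : 0 ≤ t + rr a := add_nonneg ht (rr_nonneg a)
  have h2 := Ok.kap0 h
  have h3 := h.K0
  unfold dens
  rw [one_add_kap]
  rcases h1.eq_or_lt with h4 | h4
  · rw [← h4]; simp
  · rw [div_le_div_iff₀ (by positivity) h4]
    have h5 : t + rr a ≤ (t + rr a) * (1 + P.kap * t) := by
      have : 0 ≤ (t + rr a) * (P.kap * t) := by positivity
      linarith
    exact mul_le_mul_of_nonneg_left h5 h3

/-- no visible image: no fuel -/
theorem phi_zero_of_vis_empty (h : P.Ok) {t : ℝ} {x : P2} (hv : vis P t x = ∅) (v : R3) :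
    phi P t x v = 0 := by
  by_contra h1
  obtain ⟨k, j, hj, hk⟩ := exists_of_phi_ne h h1
  have : k ∈ vis P t x := ⟨j, hj, v, hk⟩
  rw [hv] at this
  exact this

/-- **(N1), one image** -/
theorem phi_one_image (h : P.Ok) (hY : 1 ≤ P.Y) {t : ℝ} (ht : 0 ≤ t) (ht1 : t ≤ 1) {x : P2}
    (hs : (vis P t x).Subsingleton) :
    (∀ v, phi P t x v = 0) ∨ ∃ k : ℤ × ℤ, k ∈ vis P t x ∧
      |lab P t (x + latt k)| ≤ 2 * P.dl ∧
      |(x + latt k).2| ≤ 2 * P.Y * (t + rr (lab P t (x + latt k))) ∧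
      (∫⁻ u, ENNReal.ofReal (phi P t x u)) ≤
        ENNReal.ofReal (288 * P.K / (t + rr (lab P t (x + latt k)))) ∧
      ∀ v, newt (fun u => ENNReal.ofReal (phi P t x u)) v ≤
        ENNReal.ofReal (288 * P.K / (t + rr (lab P t (x + latt k)))) * Dm P t x v := by
  rcases hs.eq_empty_or_singleton with he | ⟨k, hk⟩
  · exact Or.inl fun v => phi_zero_of_vis_empty h he v
  · right
    have hkm : k ∈ vis P t x := by rw [hk]; exact mem_singleton k
    have hz := vis_zone h hY ht hkm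
    have hr : rho P t x ≤ ENNReal.ofReal (P.K / (t + rr (lab P t (x + latt k)))) := by
      refine rho_le_of_zone hs fun l hl => ?_
      rw [hs hl hkm]
      exact dens_le_div h ht _
    have hK := h.K0
    have hn : 0 ≤ t + rr (lab P t (x + latt k)) := add_nonneg ht (rr_nonneg _)
    refine ⟨k, hkm, hz.1, hz.2, ?_, fun v => ?_⟩
    · refine (density_phi h ht x).trans ((mul_le_mul_right hr 2).trans ?_)
      rw [show (2 : ℝ≥0∞) = ENNReal.ofReal 2 by norm_num, ← ENNReal.ofReal_mul (by norm_num)]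
      refine ENNReal.ofReal_le_ofReal ?_
      rw [mul_div_assoc]
      have : 0 ≤ P.K / (t + rr (lab P t (x + latt k))) := by positivity
      linarith
    · refine (newt_phi_le h ht x v).trans (mul_le_mul_left ?_ _)
      refine (mul_le_mul_right hr _).trans ?_
      rw [← ENNReal.ofReal_mul (by positivity)]
      refine ENNReal.ofReal_le_ofReal ?_
      rw [mul_div_assoc]
      have : 0 ≤ P.K / (t + rr (lab P t (x + latt k))) := by positivity
      nlinarith

/-- far velocities, one image -/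
theorem newt_phi_far_one (h : P.Ok) {t : ℝ} (ht : 0 ≤ t) {x : P2}
    (hs : (vis P t x).Subsingleton) {k : ℤ × ℤ} (hk : k ∈ vis P t x) {v : R3}
    (hv : 2 * (P.Y + 5) ≤ ‖v‖) :
    newt (fun u => ENNReal.ofReal (phi P t x u)) v ≤
      ENNReal.ofReal (4 / ‖v‖ * (P.K / (t + rr (lab P t (x + latt k))))) := by
  have hr : rho P t x ≤ ENNReal.ofReal (P.K / (t + rr (lab P t (x + latt k)))) := by
    refine rho_le_of_zone hs fun l hl => ?_
    rw [hs hl hk]
    exact dens_le_div h ht _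
  refine (newt_phi_far h ht x hv).trans ((mul_le_mul_right hr _).trans ?_)
  rw [← ENNReal.ofReal_mul (by positivity)]

/-! ### parameters of part C -/

/-- explicit constant of `ColdPar` -/
def C0 : ℝ := 10 ^ 13

theorem CP.j0R (h : ColdPar C0 P) : 10 ^ 13 * (P.K + P.Y) ^ 8 ≤ P.j0 := h.j0

theorem CP.j0_ge (h : ColdPar C0 P) : (10 : ℝ) ^ 13 ≤ P.j0 := by
  have h1 := CP.j0R h
  have h2 : 1 ≤ (P.K + P.Y) ^ 8 := one_le_pow₀ (by linarith [h.K, h.Y])
  linarith

theorem CP.dl_pos (h : ColdPar C0 P) : 0 < P.dl := by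
  have h1 := CP.j0_ge h
  unfold Par.dl
  have : (0 : ℝ) < P.j0 := by linarith
  positivity

/-- `δ ≤ (40 (K+Y))⁻⁴` -/
theorem CP.dl_le (h : ColdPar C0 P) : P.dl ≤ (1 / (40 * (P.K + P.Y))) ^ 4 := by
  have hL : 0 < P.K + P.Y := by linarith [h.K, h.Y]
  have h1 := CP.j0R h
  refine le_of_sq_le_sq ?_ (by positivity)
  rw [dl_sq, ← pow_mul, div_pow, one_pow]
  apply one_div_le_one_div_of_le (by positivity)
  rw [mul_pow]
  have h2 : (40 : ℝ) ^ (4 * 2) * (P.K + P.Y) ^ (4 * 2) ≤ 10 ^ 13 * (P.K + P.Y) ^ 8 := by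
    have : (40 : ℝ) ^ (4 * 2) ≤ 10 ^ 13 := by norm_num
    exact mul_le_mul_of_nonneg_right this (by positivity)
  linarith

theorem CP.dl_small (h : ColdPar C0 P) : P.dl ≤ 1 / 10 ^ 6 := by
  refine (CP.dl_le h).trans ?_
  have h1 : 80 ≤ 40 * (P.K + P.Y) := by linarith [h.K, h.Y]
  calc (1 / (40 * (P.K + P.Y))) ^ 4 ≤ (1 / 80) ^ 4 := by gcongr
    _ ≤ 1 / 10 ^ 6 := by norm_num

/-- `T1 = δ^(3/8) ≤ 1 / (40 (K+Y))` -/
theorem CP.T1_le (h : ColdPar C0 P) : P.dl ^ (3 / 8 : ℝ) ≤ 1 / (40 * (P.K + P.Y)) := by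
  have hL : 0 < P.K + P.Y := by linarith [h.K, h.Y]
  have h1 : 1 ≤ 40 * (P.K + P.Y) := by linarith [h.K, h.Y]
  have h0 : (0 : ℝ) < 1 / (40 * (P.K + P.Y)) := by positivity
  have h2 : 1 / (40 * (P.K + P.Y)) ≤ 1 := by rw [div_le_one (by positivity)]; exact h1
  calc P.dl ^ (3 / 8 : ℝ) ≤ ((1 / (40 * (P.K + P.Y))) ^ 4) ^ (3 / 8 : ℝ) :=
        Real.rpow_le_rpow (CP.dl_pos h).le (CP.dl_le h) (by norm_num)
    _ = (1 / (40 * (P.K + P.Y))) ^ (3 / 2 : ℝ) := by
        rw [← Real.rpow_natCast, ← Real.rpow_mul h0.le]; norm_num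
    _ ≤ (1 / (40 * (P.K + P.Y))) ^ (1 : ℝ) :=
        Real.rpow_le_rpow_of_exponent_ge h0 h2 (by norm_num)
    _ = _ := Real.rpow_one _

/-- `195`'s standing assumptions -/
theorem CP.ok (h : ColdPar C0 P) (hey : 0 < P.ey) : P.Ok where
  K0 := by linarith [h.K]
  Y0 := by linarith [h.Y]
  c0 := lt_of_lt_of_le (CP.dl_pos h) h.c
  c1 := h.c1
  j0 := by
    have h1 := CP.j0_ge h
    have : (200 : ℝ) ≤ P.j0 := by linarith
    exact_mod_cast this
  p3 := by have := h.p; omega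
  ey0 := hey
  kap1 := by
    unfold Par.kap
    rw [le_div_iff₀ (CP.dl_pos h), one_mul]
    exact h.c
  Ysm := by
    have hL : 0 < P.K + P.Y := by linarith [h.K, h.Y]
    have h1 := CP.dl_le h
    have h2 : (1 / (40 * (P.K + P.Y))) ^ 4 ≤ (1 / (40 * (P.K + P.Y))) ^ 1 :=
      pow_le_pow_of_le_one (by positivity) (by
        rw [div_le_one (by positivity)]; linarith [h.K, h.Y]) (by norm_num)
    rw [pow_one] at h2
    have h3 : P.Y * P.dl ≤ P.Y * (1 / (40 * (P.K + P.Y))) :=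
      mul_le_mul_of_nonneg_left (h1.trans h2) (by linarith [h.Y])
    refine h3.trans ?_
    rw [mul_one_div, div_le_div_iff₀ (by positivity) (by norm_num)]
    linarith [h.K, h.Y]

/-- at most one visible image on `[0, T1]` -/
theorem CP.vis_subsingleton (h : ColdPar C0 P) (hey : 0 < P.ey) {t : ℝ} (ht : 0 ≤ t)
    (htT : t ≤ P.dl ^ (3 / 8 : ℝ)) (x : P2) : (vis P t x).Subsingleton := by
  refine Fuel.vis_subsingleton (CP.ok h hey) ht ?_ x
  have h1 := CP.T1_le h
  have h2 := (CP.ok h hey).Ysm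
  have h3 := CP.dl_small h
  have hη := etaj_le_one P.p P.j0
  have hη0 := etaj_pos P.p P.j0
  have hL : 0 < P.K + P.Y := by linarith [h.K, h.Y]
  have hK := h.K
  have hY := h.Y
  have hc := h.c1
  have h4 : (P.c + P.Y + etaj P.p P.j0) * t ≤ (2 + P.Y) * (1 / (40 * (P.K + P.Y))) := by
    have h5 : t ≤ 1 / (40 * (P.K + P.Y)) := htT.trans h1
    have h6 : 0 ≤ 1 / (40 * (P.K + P.Y)) := by positivity
    nlinarith
  have h5 : (2 + P.Y) * (1 / (40 * (P.K + P.Y))) ≤ 3 / 40 := by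
    rw [mul_one_div, div_le_div_iff₀ (by positivity) (by norm_num)]
    nlinarith
  linarith

end Crest.Agent.R68.C
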