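import Crest.Agent.R68.CNewt3

/-!
# Row 68, PART C (helper779): arithmetic of the scales of a lane, `Dw` on the tight zone (P3)
-/

set_option autoImplicit false
open MeasureTheory Set
open scoped ENNReal
open Crest.AnalysisR.VecCalc3 Crest.AnalysisR.PDE.Boltzmann

noncomputable section

namespace Crest.Agent.R68.C

open Crest.Agent.R68.Fuel

variable {P : Par}

/-! ### scales -/

theorem bj_pos (j : ℕ) : 0 < bj j := by unfold bj; positivity

theorem bj_le_one (j : ℕ) : bj j ≤ 1 := inv_le_one' j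

theorem bj_inv (j : ℕ) : (bj j)⁻¹ = 2 * (j : ℝ) + 1 := by unfold bj; simp

theorem etaj_eq (p j : ℕ) : etaj p j = bj j ^ p := rfl

theorem rhoj_pos (p j : ℕ) : 0 < rhoj p j := pow_pos (bj_pos j) _

theorem tauj_eq (p j : ℕ) : tauj p j = (bj j ^ (p / 16))⁻¹ := by
  unfold tauj; rw [← inv_pow, bj_inv]

theorem tauj_pos (p j : ℕ) : 0 < tauj p j := by unfold tauj; positivity

theorem rhoj_mul_tauj {p : ℕ} (j : ℕ) : rhoj p j * tauj p j = bj j ^ (p / 2 - p / 16) := by
  rw [tauj_eq, rhoj]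
  have h : p / 2 = (p / 2 - p / 16) + p / 16 := by omega
  have hb : bj j ^ (p / 16) ≠ 0 := (pow_pos (bj_pos j) _).ne'
  conv_lhs => rw [h, pow_add]
  field_simp

theorem rhoj_mul_tauj_div {p : ℕ} (j n : ℕ) (hn : n + p / 16 ≤ p / 2) :
    rhoj p j * tauj p j / bj j ^ n = bj j ^ (p / 2 - p / 16 - n) := by
  rw [rhoj_mul_tauj, div_eq_iff (pow_pos (bj_pos j) _).ne', ← pow_add]
  congr 1
  omega

theorem kapj_eq {p : ℕ} (hp : 512 ≤ p) (j : ℕ) :
    kapj p j = bj j ^ (p / 2 - p / 16 - (6 + p / 32)) := by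
  unfold kapj
  rw [rhoj_mul_tauj_div j _ (by omega)]

theorem kapj_pos (p j : ℕ) : 0 < kapj p j := by
  unfold kapj
  have := rhoj_pos p j
  have := tauj_pos p j
  have := bj_pos j
  positivity

/-- `10¹³ (K+Y)⁸ b ≤ 1/2` -/
theorem bj_small (h : ColdPar C0 P) {j : ℕ} (hj : P.j0 ≤ j) :
    2 * (10 ^ 13 * (P.K + P.Y) ^ 8) * bj j ≤ 1 := by
  have h1 := CP.j0R h
  have h2 : (P.j0 : ℝ) ≤ j := by exact_mod_cast hj
  unfold bj
  rw [mul_one_div, div_le_one (by positivity)]
  linarith

theorem L_le_pow (h : ColdPar C0 P) {n : ℕ} (hn : n ≤ 8) :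
    (P.K + P.Y) ^ n ≤ (P.K + P.Y) ^ 8 := pow_le_pow_right₀ (by linarith [h.K, h.Y]) hn

theorem bj_small' (h : ColdPar C0 P) {j : ℕ} (hj : P.j0 ≤ j) {n : ℕ} (hn : n ≤ 8) :
    10 ^ 13 * (P.K + P.Y) ^ n * bj j ≤ 1 := by
  have h1 := bj_small h hj
  have h2 := L_le_pow h hn
  have h3 := bj_pos j
  have h4 : 0 ≤ (P.K + P.Y) ^ 8 := by have := h.K; have := h.Y; positivity
  nlinarith

theorem bj_small0 (h : ColdPar C0 P) {j : ℕ} (hj : P.j0 ≤ j) : 10 ^ 13 * bj j ≤ 1 := by
  have := bj_small' h hj (n := 0) (by norm_num)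
  simpa using this

theorem K_mul_bj (h : ColdPar C0 P) {j : ℕ} (hj : P.j0 ≤ j) : 10 ^ 13 * P.K * bj j ≤ 1 := by
  have h1 := bj_small' h hj (n := 1) (by norm_num)
  rw [pow_one] at h1
  have h2 := mul_nonneg (by linarith [h.Y] : (0:ℝ) ≤ P.Y) (bj_pos j).le
  nlinarith

theorem Y_mul_bj (h : ColdPar C0 P) {j : ℕ} (hj : P.j0 ≤ j) : 10 ^ 13 * P.Y * bj j ≤ 1 := by
  have h1 := bj_small' h hj (n := 1) (by norm_num)
  rw [pow_one] at h1
  have h2 := mul_nonneg (by linarith [h.K] : (0:ℝ) ≤ P.K) (bj_pos j).le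
  nlinarith

theorem bj_pow_anti (j : ℕ) {m n : ℕ} (h : m ≤ n) : bj j ^ n ≤ bj j ^ m :=
  pow_le_pow_of_le_one (bj_pos j).le (bj_le_one j) h

/-- labels of lane `j` -/
theorem lane_sq {j : ℕ} (hj : 1 ≤ j) {a : ℝ} (ha : a ∈ lane j) :
    bj j / 2 ≤ a ^ 2 ∧ a ^ 2 ≤ 2 * bj j := by
  have h1 := lane_lower ha
  have h2 := lane_upper ha
  have h3 : (1 : ℝ) ≤ j := by exact_mod_cast hj
  unfold bj
  constructor
  · rw [div_div, div_le_iff₀ (by positivity)]
    nlinarith [sq_nonneg a]
  · rw [mul_one_div, le_div_iff₀ (by positivity)]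
    nlinarith [sq_nonneg a]

/-- the tight label zone of lane `j` (no velocities) -/
def LZ (P : Par) (j : ℕ) (t : ℝ) (x : P2) : Prop :=
  P.j0 ≤ j ∧ (∃ a ∈ lane j, |lab P t x - a| ≤ rhoj P.p j * tauj P.p j / bj j) ∧
    |x.2| ≤ (P.Y + rhoj P.p j * tauj P.p j / bj j ^ 2) * (t + rr (lab P t x))

theorem LZ_of_Ztj {j : ℕ} {t : ℝ} {x : P2} {v : R3} (h : Ztj P j t x v) : LZ P j t x :=
  ⟨h.1, h.2.1, h.2.2.1⟩

/-- the label slack is tiny -/
theorem slack_small (h : ColdPar C0 P) (j : ℕ) {n : ℕ} (hn : n ≤ 100) :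
    rhoj P.p j * tauj P.p j / bj j ^ n ≤ bj j ^ 50 := by
  have hp := h.p
  rw [rhoj_mul_tauj_div j n (by omega)]
  exact bj_pow_anti j (by omega)

theorem slack_pos (p j n : ℕ) : 0 < rhoj p j * tauj p j / bj j ^ n := by
  have := rhoj_pos p j
  have := tauj_pos p j
  have := bj_pos j
  positivity

set_option maxHeartbeats 1000000 in
/-- **(P3)** the weight on the tight label zone -/
theorem Dw_le_of_LZ (h : ColdPar C0 P) {j : ℕ} {t : ℝ} (ht : 0 ≤ t) {x : P2} {k : ℤ × ℤ}
    (hz : LZ P j t (x + latt k)) (v : R3) :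
    Dw P t x v ≤ 2 * ‖v - uvec P (wj j) t (x + latt k)‖ + rhoj P.p j * tauj P.p j / bj j ^ 5 := by
  obtain ⟨hj, ⟨a, ha, hA⟩, hx2⟩ := hz
  set X := x + latt k with hX
  set A := lab P t X with hAdef
  set S := rhoj P.p j * tauj P.p j with hS
  have hb := bj_pos j
  have hj1 : 1 ≤ j := by
    have h1 := CP.j0_ge h
    have h2 : (P.j0 : ℝ) ≤ j := by exact_mod_cast hj
    have : (1 : ℝ) ≤ j := by linarith
    exact_mod_cast this
  have hSpos : 0 < S := mul_pos (rhoj_pos _ _) (tauj_pos _ _)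
  have hsq := lane_sq hj1 ha
  have hdl := CP.dl_pos h
  have hY := h.Y
  set s := S / bj j ^ 2 with hs
  have hs0 : 0 < s := by positivity
  have hs1 : s ≤ 1 := (slack_small h j (by norm_num)).trans
    (pow_le_one₀ hb.le (bj_le_one j))
  have hS1 : S / bj j ≤ 1 := by
    have := slack_small h j (n := 1) (by norm_num)
    rw [pow_one] at this
    exact this.trans (pow_le_one₀ hb.le (bj_le_one j))
  have ha1 : |a| ≤ 1 := lane_abs_le_one hj1 ha
  have hrA0 : 0 ≤ rr A := sq_nonneg A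
  have hra : 0 < rr a := rr_pos ha.1
  -- `κ ≤ 1/b`
  have hκ0 : 0 ≤ P.kap := by
    unfold Par.kap
    exact div_nonneg (hdl.le.trans h.c) hdl.le
  have hκ : P.kap * (S / bj j) ≤ s := by
    have h1 : P.kap ≤ 1 / bj j := by
      unfold Par.kap
      rw [div_le_div_iff₀ hdl hb]
      have h2 : bj j ≤ P.dl := by
        have h3 : bj j ≤ P.dl ^ 2 := by
          rw [dl_sq]; unfold bj
          have h4 : (P.j0 : ℝ) ≤ j := by exact_mod_cast hj
          have h5 := CP.j0_ge h
          rw [div_le_div_iff₀ (by positivity) (by linarith)]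
          linarith
        have h4 := CP.dl_small h
        nlinarith
      have := h.c1
      nlinarith [h.c]
    calc P.kap * (S / bj j) ≤ 1 / bj j * (S / bj j) := by gcongr
      _ = s := by rw [hs]; field_simp
  -- the case of the origin of the fan
  rcases hrA0.eq_or_lt with hrA | hrA
  · -- `A = 0` is impossible
    exfalso
    have hA0 : A = 0 := by
      have : A ^ 2 = 0 := hrA.symm
      exact pow_eq_zero_iff (by norm_num) |>.1 this
    rw [hA0, zero_sub, abs_neg] at hA
    have h1 := slack_small h j (n := 1) (by norm_num)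
    rw [pow_one] at h1
    have h2 : |a| ≤ bj j ^ 50 := hA.trans h1
    have h3 : a ^ 2 ≤ (bj j ^ 50) ^ 2 := by rw [← sq_abs]; gcongr
    have h4 : (bj j ^ 50) ^ 2 ≤ bj j ^ 2 := by
      rw [← pow_mul]; exact bj_pow_anti j (by norm_num)
    have h5 := bj_small0 h hj
    nlinarith
  have htA : 0 < t + rr A := by positivity
  set y0 := X.2 / (t + rr A) with hy0
  have hy0' : |y0| ≤ P.Y + s := by
    rw [hy0, abs_div, abs_of_pos htA, div_le_iff₀ htA]; exact hx2
  set y := y0 * (P.Y / (P.Y + 2 * s)) with hy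
  have hY2 : 0 < P.Y + 2 * s := by linarith
  have hyY : |y| < P.Y := by
    rw [hy, abs_mul, abs_of_pos (show 0 < P.Y / (P.Y + 2 * s) by positivity), ← mul_div_assoc,
      div_lt_iff₀ hY2]
    nlinarith
  have hyy : |y0 - y| ≤ 2 * s := by
    have e : y0 - y = y0 * (2 * s / (P.Y + 2 * s)) := by rw [hy]; field_simp; ring
    rw [e, abs_mul, abs_of_pos (show 0 < 2 * s / (P.Y + 2 * s) by positivity), ← mul_div_assoc,
      div_le_iff₀ hY2]
    nlinarith
  have hw : wj j = 1 ∨ wj j = -1 := by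
    unfold wj
    rcases Nat.even_or_odd j with h | h
    · left; exact h.neg_one_pow
    · right; exact h.neg_one_pow
  have hd := Pole.Dw_le_of_mem (P := P) (t := t) ht (x := x) (v := v)
    (d := ‖v - !₂[P.c * a / P.dl, y, wj j]‖ + ‖x + latt k - t • bar v - (a, y * rr a)‖ / (t + rr a))
    ⟨k, j, a, y, wj j, hj, ha, hyY, hw, rfl⟩
  refine hd.trans ?_
  -- coordinates of `u`
  set u := uvec P (wj j) t X with hu
  have hb1 : 0 < 1 + P.kap * t := by positivity
  have hlabeq : A = X.1 / (1 + P.kap * t) := by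
    rw [hAdef]
    unfold lab Par.kap
    rw [show P.dl + P.c * t = P.dl * (1 + P.c / P.dl * t) by field_simp,
      mul_div_mul_left _ _ hdl.ne']
  have u0 : u 0 = P.kap * A := by
    have : u 0 = P.c * X.1 / (P.dl + P.c * t) := rfl
    rw [this, hlabeq]
    unfold Par.kap
    rw [show P.dl + P.c * t = P.dl * (1 + P.c / P.dl * t) by field_simp]
    have : (0 : ℝ) < 1 + P.c / P.dl * t := hb1
    field_simp
  have u1 : u 1 = y0 := rfl
  have u2 : u 2 = wj j := rfl
  have hX1 : X.1 = A * (1 + P.kap * t) := by rw [hlabeq]; field_simp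
  have hX2 : X.2 = y0 * (t + rr A) := by rw [hy0]; field_simp
  have e1 : ‖v - !₂[P.c * a / P.dl, y, wj j]‖ ≤ ‖v - u‖ + 3 * s := by
    have e : v - !₂[P.c * a / P.dl, y, wj j] = (v - u) + (u - !₂[P.c * a / P.dl, y, wj j]) := by
      abel
    rw [e]
    refine (norm_add_le _ _).trans (add_le_add le_rfl ?_)
    refine (Pole.norm_le_sum3 _).trans ?_
    have c0 : (u - !₂[P.c * a / P.dl, y, wj j]) 0 = P.kap * (A - a) := by
      show u 0 - P.c * a / P.dl = _
      rw [u0]; unfold Par.kap; ring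
    have c1 : (u - !₂[P.c * a / P.dl, y, wj j]) 1 = y0 - y := rfl
    have c2 : (u - !₂[P.c * a / P.dl, y, wj j]) 2 = 0 := by
      show wj j - wj j = 0
      ring
    rw [c0, c1, c2, abs_mul, abs_of_nonneg hκ0, abs_zero]
    have : P.kap * |A - a| ≤ P.kap * (S / bj j) := mul_le_mul_of_nonneg_left hA hκ0
    linarith
  have e2 : ‖x + latt k - t • bar v - (a, y * rr a)‖ / (t + rr a) ≤
      ‖v - u‖ + (4 + 6 * (P.Y + 1)) * s := by
    rw [div_le_iff₀ (by positivity), ← hX]
    have e : X - t • bar v - (a, y * rr a) = (A - a, y0 * rr A - y * rr a) - t • bar (v - u) := by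
      ext
      · simp only [bar, Prod.fst_sub, Prod.smul_fst, smul_eq_mul, PiLp.sub_apply]
        rw [u0, hX1]; ring
      · simp only [bar, Prod.snd_sub, Prod.smul_snd, smul_eq_mul, PiLp.sub_apply]
        rw [u1, hX2]; ring
    rw [e]
    have h1 : ‖((A - a, y0 * rr A - y * rr a) : P2)‖ ≤ (4 + 6 * (P.Y + 1)) * s * rr a := by
      have hbra : bj j ≤ 2 * rr a := by unfold rr; linarith [hsq.1]
      rw [Prod.norm_def, max_le_iff]
      simp only [Real.norm_eq_abs]
      have k1 : |A - a| ≤ 2 * s * rr a := by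
        refine hA.trans ?_
        have : S / bj j = s * bj j := by rw [hs]; field_simp
        rw [this]
        nlinarith
      constructor
      · refine k1.trans ?_
        have : 2 * s * rr a ≤ (4 + 6 * (P.Y + 1)) * (s * rr a) := by
          rw [mul_assoc]
          exact mul_le_mul_of_nonneg_right (by linarith) (mul_pos hs0 hra).le
        linarith
      · have k2 : |rr A - rr a| ≤ 3 * (2 * s * rr a) := by
          have : rr A - rr a = (A - a) * (A + a) := by unfold rr; ring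
          rw [this, abs_mul]
          have k3 : |A + a| ≤ 3 := by
            have k4 : |A| ≤ 2 := by
              have := abs_sub_abs_le_abs_sub A a
              linarith
            exact (abs_add_le _ _).trans (by linarith)
          calc |A - a| * |A + a| ≤ (2 * s * rr a) * 3 :=
                mul_le_mul k1 k3 (abs_nonneg _) (by positivity)
            _ = 3 * (2 * s * rr a) := by ring
        have e : y0 * rr A - y * rr a = (y0 - y) * rr a + y0 * (rr A - rr a) := by ring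
        rw [e]
        refine (abs_add_le _ _).trans ?_
        rw [abs_mul, abs_mul, abs_of_pos hra]
        have k5 : |y0 - y| * rr a ≤ 2 * s * rr a := mul_le_mul_of_nonneg_right hyy hra.le
        have k6 : |y0| * |rr A - rr a| ≤ (P.Y + 1) * (3 * (2 * s * rr a)) :=
          mul_le_mul (hy0'.trans (by linarith)) k2 (abs_nonneg _) (by linarith)
        have k7 : 0 < s * rr a := mul_pos hs0 hra
        have k8 : 2 * s * rr a + (P.Y + 1) * (3 * (2 * s * rr a)) ≤
            (4 + 6 * (P.Y + 1)) * s * rr a := by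
          have : (4 + 6 * (P.Y + 1)) * s * rr a =
            (2 * s * rr a + (P.Y + 1) * (3 * (2 * s * rr a))) + 2 * (s * rr a) := by ring
          rw [this]; linarith
        linarith
    have h2 := norm_sub_le ((A - a, y0 * rr A - y * rr a) : P2) (t • bar (v - u))
    rw [norm_smul t, Real.norm_of_nonneg ht] at h2
    have h3 := norm_bar_le (v - u)
    have h4 := mul_le_mul_of_nonneg_left h3 ht
    have h5 : 0 ≤ (4 + 6 * (P.Y + 1)) * s * t := by positivity
    have h6 : 0 ≤ ‖v - u‖ * rr a := by positivity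
    have h7 : (‖v - u‖ + (4 + 6 * (P.Y + 1)) * s) * (t + rr a) =
        t * ‖v - u‖ + (4 + 6 * (P.Y + 1)) * s * rr a + ‖v - u‖ * rr a +
          (4 + 6 * (P.Y + 1)) * s * t := by ring
    rw [h7]; linarith
  have h7 : (7 + 6 * (P.Y + 1)) * s ≤ S / bj j ^ 5 := by
    have e : S / bj j ^ 5 = s * (1 / bj j ^ 3) := by rw [hs]; field_simp
    rw [e, mul_comm]
    refine mul_le_mul_of_nonneg_left ?_ hs0.le
    rw [le_div_iff₀ (by positivity)]
    have h8 := Y_mul_bj h hj
    have h9 := bj_small0 h hj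
    have h10 : bj j ^ 3 ≤ bj j ^ 1 := bj_pow_anti j (by norm_num)
    rw [pow_one] at h10
    have h11 : 0 < bj j ^ 3 := by positivity
    nlinarith
  linarith

end Crest.Agent.R68.C
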