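import Crest.Agent.R68.CSize1
import Crest.Agent.R68.CGauss

/-!
# Row 68, PART C (helper779): size of the warm majorant on `[0,T1]` (C5)
-/

set_option autoImplicit false
open MeasureTheory Set
open scoped ENNReal
open Crest.AnalysisR.VecCalc3 Crest.AnalysisR.PDE.Boltzmann

noncomputable section

namespace Crest.Agent.R68.C

open Crest.Agent.R68.Fuel

variable {P : Par}

/-! ### Gaussians -/

theorem rpow_four_pi : (4 * Real.pi) ^ (3 / 2 : ℝ) ≤ 64 := by
  have h : 4 * Real.pi ≤ 16 := by linarith [Real.pi_le_four]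
  calc (4 * Real.pi) ^ (3 / 2 : ℝ) ≤ (16 : ℝ) ^ (3 / 2 : ℝ) :=
        Real.rpow_le_rpow (by positivity) h (by norm_num)
    _ = 64 := by
        rw [show (16 : ℝ) = 4 ^ (2 : ℝ) by norm_num, ← Real.rpow_mul (by norm_num)]
        norm_num

theorem lintegral_gauss4 {η : ℝ} (hη : 0 < η) (u : R3) :
    ∫⁻ v : R3, ENNReal.ofReal (Real.exp (-‖v - u‖ ^ 2 / (4 * η ^ 2))) ≤
      ENNReal.ofReal (64 * η ^ 3) := by
  have h1 := lintegral_gauss (b := 1 / (4 * η ^ 2)) (by positivity)
  have h2 : ∫⁻ v : R3, ENNReal.ofReal (Real.exp (-‖v - u‖ ^ 2 / (4 * η ^ 2))) =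
      ∫⁻ v : R3, ENNReal.ofReal (Real.exp (-(1 / (4 * η ^ 2)) * ‖v‖ ^ 2)) := by
    rw [← lintegral_sub_right_eq_self (fun v : R3 =>
      ENNReal.ofReal (Real.exp (-(1 / (4 * η ^ 2)) * ‖v‖ ^ 2))) u]
    refine lintegral_congr fun v => ?_
    congr 2
    ring
  rw [h2, h1]
  refine ENNReal.ofReal_le_ofReal ?_
  rw [show Real.pi / (1 / (4 * η ^ 2)) = (4 * Real.pi) * η ^ 2 by field_simp,
    Real.mul_rpow (by positivity) (by positivity)]
  have h3 : (η ^ 2) ^ (3 / 2 : ℝ) = η ^ 3 := by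
    rw [← Real.rpow_natCast η 2, ← Real.rpow_mul hη.le, ← Real.rpow_natCast η 3]
    norm_num
  rw [h3]
  exact mul_le_mul_of_nonneg_right rpow_four_pi (by positivity)

/-- `∫_{|z|<η} |z|⁻¹ dz = 2πη²` -/
theorem lintegral_ball_inv {η : ℝ} (hη : 0 < η) :
    ∫⁻ z : R3, (Metric.ball (0 : R3) η).indicator (fun z => ENNReal.ofReal ‖z‖⁻¹) z ≤
      ENNReal.ofReal (7 * η ^ 2) := by
  have hm : Measurable ((Metric.ball (0 : R3) η).indicator
      (fun z : R3 => ENNReal.ofReal ‖z‖⁻¹)) :=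
    Measurable.indicator (by fun_prop) Metric.isOpen_ball.measurableSet
  rw [lintegral_polar hm]
  have h1 : ∀ r ∈ Ioi (0 : ℝ), ENNReal.ofReal (r ^ 2) * ∫⁻ w, (Metric.ball (0 : R3) η).indicator
      (fun z : R3 => ENNReal.ofReal ‖z‖⁻¹) (r • w) ∂sphereMeasure
      = (Ioo (0 : ℝ) η).indicator (fun r => ENNReal.ofReal (4 * Real.pi) *
          ENNReal.ofReal r) r := by
    intro r hr
    have hr' : (0 : ℝ) < r := hr
    by_cases h3 : r < η
    · rw [indicator_of_mem (show r ∈ Ioo (0 : ℝ) η from ⟨hr, h3⟩)]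
      have h4 : ∫⁻ w, (Metric.ball (0 : R3) η).indicator
          (fun z : R3 => ENNReal.ofReal ‖z‖⁻¹) (r • w) ∂sphereMeasure
          = ∫⁻ w, ENNReal.ofReal r⁻¹ ∂sphereMeasure := by
        refine lintegral_congr_ae ?_
        filter_upwards [ae_sphereMeasure] with w hw
        have h5 : ‖r • w‖ = r := by rw [norm_smul, hw, mul_one, Real.norm_of_nonneg hr'.le]
        rw [indicator_of_mem (by rw [mem_ball_zero_iff, h5]; exact h3), h5]
      rw [h4, lintegral_const, sphereMeasure_univ, mul_comm (ENNReal.ofReal r⁻¹), ← mul_assoc,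
        mul_comm (ENNReal.ofReal (r ^ 2)), mul_assoc, ← ENNReal.ofReal_mul (by positivity)]
      congr 2
      field_simp
    · rw [indicator_of_notMem (show r ∉ Ioo (0 : ℝ) η from fun h => h3 h.2)]
      have h4 : ∫⁻ w, (Metric.ball (0 : R3) η).indicator
          (fun z : R3 => ENNReal.ofReal ‖z‖⁻¹) (r • w) ∂sphereMeasure
          = ∫⁻ w, 0 ∂sphereMeasure := by
        refine lintegral_congr_ae ?_
        filter_upwards [ae_sphereMeasure] with w hw
        have h5 : ‖r • w‖ = r := by rw [norm_smul, hw, mul_one, Real.norm_of_nonneg hr'.le]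
        rw [indicator_of_notMem (by rw [mem_ball_zero_iff, h5]; exact h3)]
      rw [h4]; simp
  rw [setLIntegral_congr_fun measurableSet_Ioi h1, lintegral_indicator measurableSet_Ioo,
    Measure.restrict_restrict measurableSet_Ioo, inter_eq_left.2 Ioo_subset_Ioi_self,
    lintegral_const_mul _ (by fun_prop)]
  have h6 : ∫⁻ r in Ioo (0 : ℝ) η, ENNReal.ofReal r = ENNReal.ofReal (η ^ 2 / 2) := by
    have h7 : ∫ r in (0 : ℝ)..η, r = η ^ 2 / 2 := by
      rw [integral_id]; ring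
    rw [← h7, intervalIntegral.integral_of_le hη.le, ofReal_integral_eq_lintegral_ofReal]
    · exact setLIntegral_congr Ioo_ae_eq_Ioc
    · exact (continuous_id.integrableOn_Icc).mono_set Ioc_subset_Icc_self
    · refine (ae_restrict_mem measurableSet_Ioc).mono fun x hx => hx.1.le
  rw [h6, ← ENNReal.ofReal_mul (by positivity)]
  refine ENNReal.ofReal_le_ofReal ?_
  have := Real.pi_lt_d2
  nlinarith [sq_nonneg η]

/-- Newton potential of a Gaussian, sup bound -/
theorem newt_gauss4 {η : ℝ} (hη : 0 < η) (u v : R3) :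
    newt (fun v' => ENNReal.ofReal (Real.exp (-‖v' - u‖ ^ 2 / (4 * η ^ 2)))) v ≤
      ENNReal.ofReal (71 * η ^ 2) := by
  unfold newt
  have h1 : ∀ v' : R3, ENNReal.ofReal (Real.exp (-‖v' - u‖ ^ 2 / (4 * η ^ 2))) *
      ENNReal.ofReal ‖v - v'‖⁻¹ ≤
      ENNReal.ofReal η⁻¹ * ENNReal.ofReal (Real.exp (-‖v' - u‖ ^ 2 / (4 * η ^ 2))) +
        (Metric.ball (0 : R3) η).indicator (fun z => ENNReal.ofReal ‖z‖⁻¹) (v - v') := by
    intro v'
    by_cases h : v - v' ∈ Metric.ball (0 : R3) η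
    · rw [indicator_of_mem h]
      refine le_add_left ?_
      have h2 : ENNReal.ofReal (Real.exp (-‖v' - u‖ ^ 2 / (4 * η ^ 2))) ≤ 1 := by
        rw [ENNReal.ofReal_le_one, Real.exp_le_one_iff]
        have : 0 ≤ ‖v' - u‖ ^ 2 / (4 * η ^ 2) := by positivity
        rw [neg_div]; linarith
      calc _ ≤ 1 * ENNReal.ofReal ‖v - v'‖⁻¹ := mul_le_mul_left h2 _
        _ = _ := one_mul _
    · rw [indicator_of_notMem h, add_zero, mul_comm]
      refine mul_le_mul_left (ENNReal.ofReal_le_ofReal ?_) _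
      rw [mem_ball_zero_iff, not_lt] at h
      exact inv_anti₀ hη h
  refine (lintegral_mono h1).trans ?_
  rw [lintegral_add_left (by fun_prop), lintegral_const_mul _ (by fun_prop),
    lintegral_sub_left_eq_self (fun z => (Metric.ball (0 : R3) η).indicator
      (fun z => ENNReal.ofReal ‖z‖⁻¹) z) v]
  calc _ ≤ ENNReal.ofReal η⁻¹ * ENNReal.ofReal (64 * η ^ 3) + ENNReal.ofReal (7 * η ^ 2) := by
        gcongr
        · exact lintegral_gauss4 hη u
        · exact lintegral_ball_inv hη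
    _ = ENNReal.ofReal (71 * η ^ 2) := by
        rw [← ENNReal.ofReal_mul (by positivity), ← ENNReal.ofReal_add (by positivity) (by positivity)]
        congr 1
        field_simp
        ring

theorem measurable_gaussj (P : Par) (j : ℕ) (t : ℝ) (x : P2) :
    Measurable fun v => gaussj P j t x v := by
  unfold gaussj
  fun_prop

theorem measurableSet_Ztj (P : Par) (j : ℕ) (t : ℝ) (x : P2) : MeasurableSet {v | Ztj P j t x v} := by
  by_cases h : LZ P j t x
  · have : {v | Ztj P j t x v} = {v | ‖v - uvec P (wj j) t x‖ < 2 * rhoj P.p j} := by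
      ext v
      exact ⟨fun hv => hv.2.2.2, fun hv => ⟨h.1, h.2.1, h.2.2, hv⟩⟩
    rw [this]
    exact measurableSet_lt (by fun_prop) measurable_const
  · have : {v | Ztj P j t x v} = ∅ := by
      ext v
      exact ⟨fun hv => h (LZ_of_Ztj hv), fun hv => hv.elim⟩
    rw [this]
    exact MeasurableSet.empty

theorem measurable_warmj (P : Par) (j : ℕ) (t : ℝ) (x : P2) :
    Measurable fun v => warmj P j t x v := by
  unfold warmj
  exact Measurable.ite (measurableSet_Ztj P j t x) ((measurable_gaussj P j t x).const_mul _)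
    measurable_const

/-- mass of the Gaussian majorant -/
theorem lintegral_gaussj (hK : 0 ≤ P.K) (j : ℕ) (t : ℝ) (x : P2) :
    ∫⁻ v, gaussj P j t x v ≤ ENNReal.ofReal (64 * P.K / bj j) := by
  have hη := etaj_pos P.p j
  have hb := bj_pos j
  unfold gaussj
  have h1 : ∀ v : R3, ENNReal.ofReal (P.K / (bj j * etaj P.p j ^ 3) *
      Real.exp (-‖v - uvec P (wj j) t x‖ ^ 2 / (4 * etaj P.p j ^ 2))) =
      ENNReal.ofReal (P.K / (bj j * etaj P.p j ^ 3)) *
        ENNReal.ofReal (Real.exp (-‖v - uvec P (wj j) t x‖ ^ 2 / (4 * etaj P.p j ^ 2))) := fun v =>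
    ENNReal.ofReal_mul (by positivity)
  simp_rw [h1]
  rw [lintegral_const_mul' _ _ ENNReal.ofReal_ne_top]
  refine (mul_le_mul_right (lintegral_gauss4 hη _) _).trans ?_
  rw [← ENNReal.ofReal_mul (by positivity)]
  refine ENNReal.ofReal_le_ofReal (le_of_eq ?_)
  field_simp

/-- Newton potential of the Gaussian majorant -/
theorem newt_gaussj (hK : 0 ≤ P.K) (j : ℕ) (t : ℝ) (x : P2) (v : R3) :
    newt (fun v => gaussj P j t x v) v ≤ ENNReal.ofReal (71 * P.K / (bj j * etaj P.p j)) := by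
  have hη := etaj_pos P.p j
  have hb := bj_pos j
  unfold gaussj
  have h1 : ∀ v : R3, ENNReal.ofReal (P.K / (bj j * etaj P.p j ^ 3) *
      Real.exp (-‖v - uvec P (wj j) t x‖ ^ 2 / (4 * etaj P.p j ^ 2))) =
      ENNReal.ofReal (P.K / (bj j * etaj P.p j ^ 3)) *
        ENNReal.ofReal (Real.exp (-‖v - uvec P (wj j) t x‖ ^ 2 / (4 * etaj P.p j ^ 2))) := fun v =>
    ENNReal.ofReal_mul (by positivity)
  simp_rw [h1]
  rw [newt_const_mul _ (by fun_prop)]
  refine (mul_le_mul_right (newt_gauss4 hη _ v) _).trans ?_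
  rw [← ENNReal.ofReal_mul (by positivity)]
  refine ENNReal.ofReal_le_ofReal (le_of_eq ?_)
  field_simp

end Crest.Agent.R68.C
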