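import Crest.Agent.R68.FSum
import Crest.Agent.R68.ColdDefs
import Crest.Agent.R68.DPoles
import Crest.Agent.R68.Pole

/-!
# Row 68: the final parameter family (helper195)

`par K Y ey p j0` with `c = (log (1/δ))⁻³`, `rhj j0 = δ^(1/8)`, `T1j j0 = δ^(3/8)`.
All thresholds are stated as `∀ᶠ j0 in atTop`.
-/

set_option autoImplicit false

namespace Crest.Agent.R68

open Filter Set
open scoped Topology

noncomputable section

/-- `δ` as a function of `j0` -/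
def dlj (j0 : ℕ) : ℝ := 1 / √(2 * (j0 : ℝ))

/-- `log (1/δ)` -/
def ellj (j0 : ℕ) : ℝ := Real.log (1 / dlj j0)

/-- the final parameters -/
def par (K Y ey : ℝ) (p j0 : ℕ) : Par where
  K := K
  Y := Y
  c := (ellj j0)⁻¹ ^ 3
  p := p
  j0 := j0
  ey := ey

/-- radius of the hole -/
def rhj (j0 : ℕ) : ℝ := dlj j0 ^ (1 / 8 : ℝ)

/-- end of the nonlinear construction -/
def T1j (j0 : ℕ) : ℝ := dlj j0 ^ (3 / 8 : ℝ)

@[simp] theorem par_K (K Y ey : ℝ) (p j0 : ℕ) : (par K Y ey p j0).K = K := rfl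
@[simp] theorem par_Y (K Y ey : ℝ) (p j0 : ℕ) : (par K Y ey p j0).Y = Y := rfl
@[simp] theorem par_ey (K Y ey : ℝ) (p j0 : ℕ) : (par K Y ey p j0).ey = ey := rfl
@[simp] theorem par_p (K Y ey : ℝ) (p j0 : ℕ) : (par K Y ey p j0).p = p := rfl
@[simp] theorem par_j0 (K Y ey : ℝ) (p j0 : ℕ) : (par K Y ey p j0).j0 = j0 := rfl
theorem par_dl (K Y ey : ℝ) (p j0 : ℕ) : (par K Y ey p j0).dl = dlj j0 := rfl
theorem par_c (K Y ey : ℝ) (p j0 : ℕ) : (par K Y ey p j0).c = (ellj j0)⁻¹ ^ 3 := rfl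

theorem dlj_pos {j0 : ℕ} (h : 1 ≤ j0) : 0 < dlj j0 := by
  have : (1 : ℝ) ≤ j0 := by exact_mod_cast h
  unfold dlj
  positivity

theorem tendsto_sqrt2 : Tendsto (fun j0 : ℕ => √(2 * (j0 : ℝ))) atTop atTop :=
  Real.tendsto_sqrt_atTop.comp (tendsto_natCast_atTop_atTop.const_mul_atTop (by norm_num))

theorem tendsto_dlj : Tendsto dlj atTop (𝓝 0) := by
  unfold dlj
  simp_rw [one_div]
  exact tendsto_inv_atTop_zero.comp tendsto_sqrt2

theorem tendsto_dlj' : Tendsto dlj atTop (𝓝[>] 0) := by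
  refine tendsto_nhdsWithin_iff.2 ⟨tendsto_dlj, ?_⟩
  filter_upwards [eventually_ge_atTop 1] with j0 hj
  exact dlj_pos hj

theorem tendsto_ellj : Tendsto ellj atTop atTop := by
  unfold ellj dlj
  simp_rw [one_div_one_div]
  exact Real.tendsto_log_atTop.comp tendsto_sqrt2

theorem dlj_eq_exp {j0 : ℕ} (h : 1 ≤ j0) : dlj j0 = Real.exp (-ellj j0) := by
  unfold ellj
  rw [Real.log_div one_ne_zero (dlj_pos h).ne', Real.log_one, zero_sub, neg_neg,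
    Real.exp_log (dlj_pos h)]

/-- every power of `δ` beats every power of `log (1/δ)` -/
theorem tendsto_rpow_mul_ell {s : ℝ} (hs : 0 < s) (m : ℕ) :
    Tendsto (fun j0 : ℕ => dlj j0 ^ s * ellj j0 ^ m) atTop (𝓝 0) := by
  have h1 := (Real.tendsto_pow_mul_exp_neg_atTop_nhds_zero m).comp
    (tendsto_ellj.const_mul_atTop hs)
  have h2 := h1.const_mul ((s ^ m)⁻¹)
  rw [mul_zero] at h2
  refine h2.congr' ?_
  filter_upwards [eventually_ge_atTop 1] with j0 hj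
  simp only [Function.comp]
  rw [dlj_eq_exp hj, ← Real.exp_mul, mul_pow]
  have hsm : s ^ m ≠ 0 := (pow_pos hs m).ne'
  field_simp

theorem tendsto_rpow {s : ℝ} (hs : 0 < s) : Tendsto (fun j0 : ℕ => dlj j0 ^ s) atTop (𝓝 0) := by
  have h := tendsto_rpow_mul_ell hs 0
  simpa using h

theorem ev_rpow_mul_ell_le {s : ℝ} (hs : 0 < s) (m : ℕ) {ε : ℝ} (hε : 0 < ε) :
    ∀ᶠ j0 : ℕ in atTop, dlj j0 ^ s * ellj j0 ^ m ≤ ε :=
  (tendsto_rpow_mul_ell hs m).eventually (ge_mem_nhds hε)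

theorem ev_rpow_le {s : ℝ} (hs : 0 < s) {ε : ℝ} (hε : 0 < ε) :
    ∀ᶠ j0 : ℕ in atTop, dlj j0 ^ s ≤ ε :=
  (tendsto_rpow hs).eventually (ge_mem_nhds hε)

theorem ev_dl_le {ε : ℝ} (hε : 0 < ε) : ∀ᶠ j0 : ℕ in atTop, dlj j0 ≤ ε :=
  tendsto_dlj.eventually (ge_mem_nhds hε)

theorem ev_dl_pos : ∀ᶠ j0 : ℕ in atTop, 0 < dlj j0 := by
  filter_upwards [eventually_ge_atTop 1] with j0 hj
  exact dlj_pos hj

theorem ev_ell_ge (L : ℝ) : ∀ᶠ j0 : ℕ in atTop, L ≤ ellj j0 := tendsto_ellj.eventually_ge_atTop L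

variable (K Y ey : ℝ) (p : ℕ)

theorem ev_c_pos : ∀ᶠ j0 : ℕ in atTop, 0 < (par K Y ey p j0).c := by
  filter_upwards [ev_ell_ge 1] with j0 hj
  rw [par_c]
  positivity

theorem tendsto_c : Tendsto (fun j0 : ℕ => (par K Y ey p j0).c) atTop (𝓝 0) := by
  have h := (tendsto_inv_atTop_zero.comp tendsto_ellj).pow 3
  simpa [Function.comp_def, par_c] using h

theorem ev_c_le {ε : ℝ} (hε : 0 < ε) : ∀ᶠ j0 : ℕ in atTop, (par K Y ey p j0).c ≤ ε :=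
  (tendsto_c K Y ey p).eventually (ge_mem_nhds hε)

/-- every power of `δ` is much smaller than `c` -/
theorem ev_rpow_le_c {s : ℝ} (hs : 0 < s) {ε : ℝ} (hε : 0 < ε) :
    ∀ᶠ j0 : ℕ in atTop, dlj j0 ^ s ≤ ε * (par K Y ey p j0).c := by
  filter_upwards [ev_rpow_mul_ell_le hs 3 hε, ev_ell_ge 1] with j0 h1 h2
  rw [par_c, inv_pow, ← div_eq_mul_inv, le_div_iff₀ (by positivity)]
  exact h1

theorem ev_dl_le_c {ε : ℝ} (hε : 0 < ε) :
    ∀ᶠ j0 : ℕ in atTop, (par K Y ey p j0).dl ≤ ε * (par K Y ey p j0).c := by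
  filter_upwards [ev_rpow_le_c K Y ey p one_pos hε] with j0 h1
  rw [Real.rpow_one] at h1
  exact h1

/-- the strain is large -/
theorem ev_kap_ge (A : ℝ) : ∀ᶠ j0 : ℕ in atTop, A ≤ (par K Y ey p j0).kap := by
  have hA : 0 < 1 / (|A| + 1) := by positivity
  filter_upwards [ev_dl_le_c K Y ey p hA, ev_dl_pos] with j0 h1 h2
  unfold Par.kap
  have h3 : 0 < (par K Y ey p j0).dl := h2
  rw [le_div_iff₀ h3]
  rw [div_mul_eq_mul_div, one_mul, le_div_iff₀ (by positivity)] at h1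
  have h4 := le_abs_self A
  nlinarith

theorem ev_Ok (hK : 0 ≤ K) (hY : 0 < Y) (hey : 0 < ey) (hp : 3 ≤ p) :
    ∀ᶠ j0 : ℕ in atTop, (par K Y ey p j0).Ok := by
  filter_upwards [eventually_ge_atTop 200, ev_c_pos K Y ey p, ev_c_le K Y ey p one_pos,
    ev_kap_ge K Y ey p 1, ev_dl_le (show 0 < 1 / (20 * Y) by positivity)] with j0 h1 h2 h3 h4 h5
  refine ⟨hK, hY, h2, h3, h1, hp, hey, h4, ?_⟩
  rw [par_Y, par_dl]
  calc Y * dlj j0 ≤ Y * (1 / (20 * Y)) := by gcongr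
    _ = 1 / 20 := by field_simp

theorem ev_ParD (hY : 0 < Y) : ∀ᶠ j0 : ℕ in atTop, DPole.ParD (par K Y ey p j0) := by
  filter_upwards [eventually_ge_atTop 32, ev_c_pos K Y ey p, ev_c_le K Y ey p one_pos,
    ev_dl_le_c K Y ey p one_pos] with j0 h1 h2 h3 h4
  rw [one_mul] at h4
  exact ⟨hY, h2, h3, h4, h1⟩

theorem ev_PoleOk (hY : 0 < Y) : ∀ᶠ j0 : ℕ in atTop, Pole.Ok (par K Y ey p j0) := by
  filter_upwards [eventually_ge_atTop 32, ev_c_pos K Y ey p, ev_c_le K Y ey p one_pos,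
    ev_dl_le_c K Y ey p one_pos] with j0 h1 h2 h3 h4
  rw [one_mul] at h4
  exact ⟨h1, h2, h3, h4, hY⟩

theorem ev_ColdPar (C : ℝ) (hK : 1 ≤ K) (hY : 1 ≤ Y) (hp : 512 ≤ p) :
    ∀ᶠ j0 : ℕ in atTop, ColdPar C (par K Y ey p j0) := by
  filter_upwards [tendsto_natCast_atTop_atTop.eventually_ge_atTop (C * (K + Y) ^ 8),
    ev_c_le K Y ey p one_pos, ev_dl_le_c K Y ey p one_pos] with j0 h1 h2 h3
  rw [one_mul] at h3
  exact ⟨hK, hY, hp, h3, h2, h1⟩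

/-! ### Hole radius and final time -/

theorem rhj_pos {j0 : ℕ} (h : 1 ≤ j0) : 0 < rhj j0 := Real.rpow_pos_of_pos (dlj_pos h) _
theorem T1j_pos {j0 : ℕ} (h : 1 ≤ j0) : 0 < T1j j0 := Real.rpow_pos_of_pos (dlj_pos h) _

theorem T1j_eq {j0 : ℕ} (h : 1 ≤ j0) : T1j j0 = rhj j0 ^ 3 := by
  unfold T1j rhj
  rw [← Real.rpow_natCast, ← Real.rpow_mul (dlj_pos h).le]
  norm_num

theorem dlj_eq_rhj {j0 : ℕ} (h : 1 ≤ j0) : dlj j0 = rhj j0 ^ 8 := by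
  unfold rhj
  rw [← Real.rpow_natCast, ← Real.rpow_mul (dlj_pos h).le]
  norm_num

theorem ev_pos : ∀ᶠ j0 : ℕ in atTop, 0 < dlj j0 ∧ 0 < rhj j0 ∧ 0 < T1j j0 := by
  filter_upwards [eventually_ge_atTop 1] with j0 hj
  exact ⟨dlj_pos hj, rhj_pos hj, T1j_pos hj⟩

theorem ev_rh_le {ε : ℝ} (hε : 0 < ε) : ∀ᶠ j0 : ℕ in atTop, rhj j0 ≤ ε :=
  ev_rpow_le (by norm_num) hε

theorem ev_T1_le {ε : ℝ} (hε : 0 < ε) : ∀ᶠ j0 : ℕ in atTop, T1j j0 ≤ ε :=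
  ev_rpow_le (by norm_num) hε

/-- `T1 / rh² → 0` -/
theorem ev_T1_rh2 {ε : ℝ} (hε : 0 < ε) : ∀ᶠ j0 : ℕ in atTop, T1j j0 ≤ ε * rhj j0 ^ 2 := by
  filter_upwards [ev_rh_le hε, eventually_ge_atTop 1] with j0 h1 h2
  have h3 := rhj_pos h2
  rw [T1j_eq h2]
  calc rhj j0 ^ 3 = rhj j0 * rhj j0 ^ 2 := by ring
    _ ≤ ε * rhj j0 ^ 2 := by gcongr

/-- `T1 R / rh → 0` -/
theorem ev_T1_R (R : ℝ) {ε : ℝ} (hε : 0 < ε) : ∀ᶠ j0 : ℕ in atTop, T1j j0 * R ≤ ε * rhj j0 := by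
  have hR : 0 < ε / (|R| + 1) := by positivity
  filter_upwards [ev_T1_rh2 hR, ev_rh_le one_pos, eventually_ge_atTop 1] with j0 h1 h2 h3
  have h4 := rhj_pos h3
  have h5 := T1j_pos h3
  have h6 : T1j j0 * R ≤ T1j j0 * (|R| + 1) := by
    have := le_abs_self R
    gcongr
    linarith
  have h7 : T1j j0 * (|R| + 1) ≤ ε * rhj j0 ^ 2 := by
    calc T1j j0 * (|R| + 1) ≤ ε / (|R| + 1) * rhj j0 ^ 2 * (|R| + 1) := by gcongr
      _ = _ := by field_simp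
  have h8 : rhj j0 ^ 2 ≤ rhj j0 := by nlinarith
  calc T1j j0 * R ≤ ε * rhj j0 ^ 2 := h6.trans h7
    _ ≤ ε * rhj j0 := by gcongr

/-- `A δ ≤ ε rh` (e.g. `(1 + Y) δ ≤ rh`) -/
theorem ev_dl_rh (A : ℝ) {ε : ℝ} (hε : 0 < ε) : ∀ᶠ j0 : ℕ in atTop, A * dlj j0 ≤ ε * rhj j0 := by
  have hA : 0 < ε / (|A| + 1) := by positivity
  filter_upwards [ev_rh_le hA, ev_rh_le one_pos, eventually_ge_atTop 1] with j0 h1 h2 h3
  have h4 := rhj_pos h3
  have h5 := dlj_pos h3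
  have h6 : A * dlj j0 ≤ (|A| + 1) * dlj j0 := by
    have := le_abs_self A
    gcongr
    linarith
  have h7 : dlj j0 ≤ rhj j0 * rhj j0 := by
    rw [dlj_eq_rhj h3]
    calc rhj j0 ^ 8 = rhj j0 ^ 6 * (rhj j0 * rhj j0) := by ring
      _ ≤ 1 * (rhj j0 * rhj j0) := by
        have : rhj j0 ^ 6 ≤ 1 := pow_le_one₀ h4.le h2
        gcongr
      _ = _ := one_mul _
  calc A * dlj j0 ≤ (|A| + 1) * (rhj j0 * rhj j0) := h6.trans (by gcongr)
    _ ≤ (|A| + 1) * (ε / (|A| + 1) * rhj j0) := by gcongr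
    _ = _ := by field_simp

/-- the fuel is inside the hole -/
theorem ev_hole : ∀ᶠ j0 : ℕ in atTop,
    (1 + (par K Y ey p j0).Y) * (par K Y ey p j0).dl ≤ rhj j0 := by
  filter_upwards [ev_dl_rh (1 + Y) one_pos] with j0 h
  rw [one_mul] at h
  exact h

/-- only one image is visible on `[0, T1]` -/
theorem ev_one_image (hY : 0 ≤ Y) : ∀ᶠ j0 : ℕ in atTop, ∀ t, 0 ≤ t → t ≤ T1j j0 →
    (1 + (par K Y ey p j0).Y) * (par K Y ey p j0).dl +
      ((par K Y ey p j0).c + (par K Y ey p j0).Y +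
        etaj (par K Y ey p j0).p (par K Y ey p j0).j0) * t < 7 / 20 := by
  have h1 : 0 < 1 / (10 * (1 + Y)) := by positivity
  have h2 : 0 < 1 / (10 * (2 + Y)) := by positivity
  filter_upwards [ev_dl_le h1, ev_T1_le h2, ev_c_le K Y ey p one_pos, ev_c_pos K Y ey p]
    with j0 a1 a2 a3 a4
  intro t ht htT
  have hη := Fuel.etaj_le_one p j0
  have hη0 := Fuel.etaj_pos p j0
  simp only [par_Y, par_dl, par_p, par_j0]
  have b1 : (1 + Y) * dlj j0 ≤ 1 / 10 := by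
    calc (1 + Y) * dlj j0 ≤ (1 + Y) * (1 / (10 * (1 + Y))) := by gcongr
      _ = 1 / 10 := by field_simp
  have b2 : ((par K Y ey p j0).c + Y + etaj p j0) * t ≤ 1 / 10 := by
    have b3 : (par K Y ey p j0).c + Y + etaj p j0 ≤ 2 + Y := by linarith
    calc ((par K Y ey p j0).c + Y + etaj p j0) * t ≤ (2 + Y) * (1 / (10 * (2 + Y))) := by
          have : t ≤ 1 / (10 * (2 + Y)) := htT.trans a2
          gcongr
      _ = 1 / 10 := by field_simp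
  linarith

/-- only one image is visible on `[0, T1]` -/
theorem ev_vis (hK : 0 ≤ K) (hY : 0 < Y) (hey : 0 < ey) (hp : 3 ≤ p) :
    ∀ᶠ j0 : ℕ in atTop, ∀ t, 0 ≤ t → t ≤ T1j j0 → ∀ x,
      (Fuel.vis (par K Y ey p j0) t x).Subsingleton := by
  filter_upwards [ev_Ok K Y ey p hK hY hey hp, ev_one_image K Y ey p hY.le] with j0 h1 h2
  intro t ht htT x
  exact Fuel.vis_subsingleton h1 ht (h2 t ht htT) x

/-- the density of the fuel at `T1` is small: `δ^s / (c T1²) → 0` for `s > 3/4` -/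
theorem ev_dens_T1 {s : ℝ} (hs : 3 / 4 < s) {ε : ℝ} (hε : 0 < ε) :
    ∀ᶠ j0 : ℕ in atTop, dlj j0 ^ s ≤ ε * ((par K Y ey p j0).c * T1j j0 ^ 2) := by
  filter_upwards [ev_rpow_le_c K Y ey p (show 0 < s - 3 / 4 by linarith) hε,
    eventually_ge_atTop 1] with j0 h1 h2
  have h3 := dlj_pos h2
  have h4 : T1j j0 ^ 2 = dlj j0 ^ (3 / 4 : ℝ) := by
    unfold T1j
    rw [← Real.rpow_natCast, ← Real.rpow_mul h3.le]
    norm_num
  have h5 : dlj j0 ^ s = dlj j0 ^ (s - 3 / 4) * dlj j0 ^ (3 / 4 : ℝ) := by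
    rw [← Real.rpow_add h3]
    congr 1
    ring
  rw [h4, h5, ← mul_assoc]
  gcongr

/-- combination of countably... finitely many thresholds: `∀ᶠ` gives one `j0` -/
theorem exists_of_ev {Q : ℕ → Prop} (h : ∀ᶠ j0 : ℕ in atTop, Q j0) : ∃ j0, Q j0 := h.exists

end

end Crest.Agent.R68
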