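import Crest.Agent.R68.IKInpA
import Crest.Agent.R68.Params

/-!
# R68 / IKOut (helper819): `KInp` for the final parameters (input of `Main0.CKOut`)
-/

set_option autoImplicit false
open MeasureTheory Set Filter
open scoped ENNReal Topology Real
open Crest.AnalysisR.VecCalc3 Crest.AnalysisR.PDE.Boltzmann

noncomputable section

namespace Crest.Agent.R68.KC

open Crest.Agent.R68.N (Fld tx Zg EE ev ez2 KInp)

/-- `KInp` is monotone in the constant -/
theorem KInp_mono {P : Par} {T : ℝ} {Mc Wm : Fld} {q g g1 g2 : ℝ} {CK CK' : ℝ≥0∞}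
    (h : KInp P T Mc Wm q g g1 g2 CK) (hC : CK ≤ CK') (hne : CK' ≠ ⊤) :
    KInp P T Mc Wm q g g1 g2 CK' where
  ne := hne
  qME t ht x v := (h.qME t ht x v).trans (by gcongr)
  qMZ t ht x v := (h.qMZ t ht x v).trans (by gcongr)
  lM t ht x v := (h.lM t ht x v).trans (by gcongr)
  lM2 t ht x v := (h.lM2 t ht x v).trans (by gcongr)
  qZE t ht x v := (h.qZE t ht x v).trans (by gcongr)
  lE t ht x v := (h.lE t ht x v).trans (by gcongr)
  lZ t ht x v := (h.lZ t ht x v).trans (by gcongr)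
  qWE t ht x v := (h.qWE t ht x v).trans (by gcongr)
  lW t ht x v := (h.lW t ht x v).trans (by gcongr)

/-- `|x|^n ≤ (t+|x|)^q` for `q ≤ n` -/
theorem distG_pow_le_tx {t q : ℝ} (ht : 0 ≤ t) (hq : 0 ≤ q) {n : ℕ} (hn : q ≤ n) (hn0 : n ≠ 0)
    (x : P2) : ENNReal.ofReal (distG x ^ n) ≤ tx q t x := by
  unfold tx
  apply ENNReal.ofReal_le_ofReal
  have hd0 := distG_nonneg x
  have hd1 := distG_le_one x
  rcases hd0.eq_or_lt with h | h
  · rw [← h, zero_pow hn0]; positivity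
  · calc distG x ^ n = distG x ^ (n : ℝ) := (Real.rpow_natCast _ _).symm
      _ ≤ distG x ^ q := Real.rpow_le_rpow_of_exponent_ge h hd1 hn
      _ ≤ (t + distG x) ^ q := Real.rpow_le_rpow hd0 (by linarith) hq

theorem distG_pow_le_one (n : ℕ) (x : P2) : ENNReal.ofReal (distG x ^ n) ≤ 1 := by
  rw [← ENNReal.ofReal_one]
  exact ENNReal.ofReal_le_ofReal (pow_le_one₀ (distG_nonneg x) (distG_le_one x))

/-- the size statement for the warm majorant (906's interface `warm_size`, proved by 779) -/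
def WarmSize : Prop :=
  ∃ C : ℝ, ∀ P : Par, ColdPar C P → ∀ t x, 0 ≤ t → t ≤ P.dl ^ (3 / 8 : ℝ) →
    (∀ v, warm P t x v ≠ 0 → ‖v‖ < P.Y + 3) ∧
    (∫⁻ v, warm P t x v) ≤ ENNReal.ofReal (distG x ^ (P.p / 32)) ∧
    (∀ v, (∫⁻ v', warm P t x v' / ENNReal.ofReal ‖v - v'‖) ≤
      ENNReal.ofReal (distG x ^ (P.p / 32)) * Dm P t x v)

/-- **`KInp` for the final parameters.** -/
theorem kOut {Y ey : ℝ} (hY : 1 ≤ Y) (hey : 0 < ey) (hws : WarmSize)
    (hwm : ∀ (P : Par) (t : ℝ) (x : P2), Measurable (warm P t x)) (K q : ℝ) (hK : 1 ≤ K)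
    (hq : 0 ≤ q) :
    ∀ᶠ p : ℕ in atTop, ∀ᶠ j0 : ℕ in atTop, ∃ CK : ℝ≥0∞,
      KInp (par K Y ey p j0) (T1j j0) (fun t x v => 2 * coldS (par K Y ey p j0) t x v)
        (warm (par K Y ey p j0)) q (1 / 10) (1 / 25) (1 / 25) CK ∧
      KInp (par K Y ey p j0) (T1j j0) (fun t x v => 2 * coldS (par K Y ey p j0) t x v)
        (warm (par K Y ey p j0)) q (1 / 50 + 1 / 50) (1 / 50) (1 / 50) CK := by
  obtain ⟨C, hC⟩ := hws
  obtain ⟨n, hn⟩ := exists_nat_ge q
  filter_upwards [eventually_ge_atTop (32 * (n + 1) + 512)] with p hp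
  have hp1 : 512 ≤ p := by omega
  have hp2 : n + 1 ≤ p / 32 := by omega
  filter_upwards [ev_Ok K Y ey p (by linarith) (by linarith) hey (by omega),
    ev_ColdPar K Y ey p C hK hY hp1, ev_T1_le one_pos] with j0 hOk hCP hT1
  set P := par K Y ey p j0 with hP
  have hqn : q ≤ ((P.p / 32 : ℕ) : ℝ) := by
    have : ((n + 1 : ℕ) : ℝ) ≤ ((P.p / 32 : ℕ) : ℝ) := by exact_mod_cast hp2
    push_cast at this ⊢
    linarith
  have hn0 : P.p / 32 ≠ 0 := by
    have : n + 1 ≤ P.p / 32 := hp2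
    omega
  have hsz := hC P hCP
  have hTd : ∀ t, t ≤ T1j j0 → t ≤ P.dl ^ (3 / 8 : ℝ) := fun t ht => ht
  have hW : WSz P (T1j j0) := WSz.of fun t x ht hT => by
    obtain ⟨h1, h2, h3⟩ := hsz t x ht (hTd t hT)
    refine ⟨h1, h2.trans (distG_pow_le_one _ x), fun v => (h3 v).trans ?_⟩
    calc _ ≤ 1 * Dm P t x v := mul_le_mul_left (distG_pow_le_one _ x) _
      _ = _ := one_mul _
  have hWq : WSq P (T1j j0) q := by
    refine ⟨fun t ht x => ?_, fun t ht x v => ?_⟩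
    · exact (hsz t x ht.1.le (hTd t ht.2)).2.1.trans (distG_pow_le_tx ht.1.le hq hqn hn0 x)
    · exact ((hsz t x ht.1.le (hTd t ht.2)).2.2 v).trans
        (mul_le_mul_left (distG_pow_le_tx ht.1.le hq hqn hn0 x) _)
  have k1 := kInp hOk hY hT1 hW hWq (hwm P) (g := 1 / 10) (g1 := 1 / 25) (g2 := 1 / 25)
    (by norm_num) (by norm_num) (by norm_num)
  have k2 := kInp hOk hY hT1 hW hWq (hwm P) (g := 1 / 50 + 1 / 50) (g1 := 1 / 50) (g2 := 1 / 50)
    (by norm_num) (by norm_num) (by norm_num)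
  refine ⟨ENNReal.ofReal (CKi P (1 / 10) (1 / 25) (1 / 25)) +
    ENNReal.ofReal (CKi P (1 / 50 + 1 / 50) (1 / 50) (1 / 50)),
    KInp_mono k1 le_self_add (by simp), KInp_mono k2 le_add_self (by simp)⟩

end Crest.Agent.R68.KC
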