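import Crest.Agent.R68.CSize4
import Crest.Agent.R68.IKOut
import Crest.Agent.R68.ColdMeas

/-!
# Row 68, PART C (helper779): `WarmSize` of 819's `IKOut`
-/

set_option autoImplicit false
open MeasureTheory Set
open scoped ENNReal
open Crest.AnalysisR.VecCalc3 Crest.AnalysisR.PDE.Boltzmann

noncomputable section

namespace Crest.Agent.R68.C

theorem distG_rpow_le_pow (x : P2) (p : ℕ) :
    distG x ^ ((p : ℝ) / 32) ≤ distG x ^ (p / 32) := by
  have h0 := distG_nonneg x
  have h1 := distG_le_one x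
  rw [← Real.rpow_natCast]
  have h2 : ((p / 32 : ℕ) : ℝ) ≤ (p : ℝ) / 32 := Nat.cast_div_le
  rcases Nat.eq_zero_or_pos p with hp | hp
  · subst hp; simp
  · rcases h0.eq_or_lt with h3 | h3
    · rw [← h3, Real.zero_rpow (by positivity)]
      exact Real.rpow_nonneg le_rfl _
    · exact Real.rpow_le_rpow_of_exponent_ge h3 h1 h2

theorem warmSize_holds : KC.WarmSize := by
  refine ⟨C0, fun P h t x ht htT => ⟨fun v => norm_lt_of_warm h ht, ?_, fun v => ?_⟩⟩
  · exact (warm_mass h ht htT x).trans (ENNReal.ofReal_le_ofReal (distG_rpow_le_pow x P.p))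
  · rw [newt_div_ae]
    exact (newt_warm h ht htT x v).trans (mul_le_mul_left
      (ENNReal.ofReal_le_ofReal (distG_rpow_le_pow x P.p)) _)

end Crest.Agent.R68.C
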