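import Mathlib
import Crest.Agent.R68.Sph4

/-!
R68 / Carl1: plane integrals and the Carleman representation of the hard sphere gain term
(helper779).
-/

set_option autoImplicit false
open MeasureTheory Set Metric Submodule
open scoped ENNReal Real
open Crest.AnalysisR.VecCalc3 Crest.AnalysisR.PDE.Boltzmann

namespace Crest.Agent.R68

attribute [local irreducible] rot vec3

/-- Lebesgue integral in an orthonormal frame, third coordinate outside -/
theorem lintegral_frame (L : R3 ≃ₗᵢ[ℝ] R3) (v : R3) {F : R3 → ℝ≥0∞} (hF : Measurable F) :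
    ∫⁻ x, F x = ∫⁻ s : ℝ, ∫⁻ p : ℝ × ℝ, F (v + L (vec3 p.1 p.2 s)) := by
  have hFv : Measurable fun x => F (v + x) := hF.comp (measurable_const_add v)
  have h1 : ∫⁻ x, F x = ∫⁻ x, F (v + L x) := by
    rw [L.measurePreserving.lintegral_comp hFv]
    exact (lintegral_add_left_eq_self F v).symm
  rw [h1]
  exact lintegral_R3' (hFv.comp L.continuous.measurable)

/-- integral of `g` over the plane through `v` orthogonal to `w` -/
noncomputable def planeInt (g : R3 → ℝ≥0∞) (v w : R3) : ℝ≥0∞ :=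
  ∫⁻ p : ℝ × ℝ, g (v + rot w (vec3 p.1 p.2 0))

theorem measurable_planeInt {g : R3 → ℝ≥0∞} (hg : Measurable g) :
    Measurable fun q : R3 × R3 => planeInt g q.1 q.2 := by
  have hA : Measurable fun q : (R3 × R3) × (ℝ × ℝ) => (q.1.2, vec3 q.2.1 q.2.2 0) := by fun_prop
  have hB : Measurable fun q : (R3 × R3) × (ℝ × ℝ) => rot q.1.2 (vec3 q.2.1 q.2.2 0) :=
    measurable_rot.comp hA
  have h1 : Measurable fun q : (R3 × R3) × (ℝ × ℝ) =>
      g (q.1.1 + rot q.1.2 (vec3 q.2.1 q.2.2 0)) := by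
    have hC : Measurable fun q : (R3 × R3) × (ℝ × ℝ) =>
        q.1.1 + rot q.1.2 (vec3 q.2.1 q.2.2 0) := Measurable.add (by fun_prop) hB
    exact hg.comp hC
  have h2 := h1.lintegral_prod_right' (ν := (volume : Measure (ℝ × ℝ)))
  exact h2

/-- the function used in the slab trick -/
noncomputable def slabF (G : R3 → ℝ≥0∞) (e : R3) : R3 → ℝ≥0∞ :=
  fun x => (Ioo (-1 : ℝ) 1).indicator (fun _ => (1 : ℝ≥0∞)) (inner ℝ e x) *
    G (x - (inner ℝ e x : ℝ) • e)

theorem slabF_neg (G : R3 → ℝ≥0∞) (e : R3) : slabF G (-e) = slabF G e := by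
  funext x
  unfold slabF
  rw [inner_neg_left]
  congr 1
  · by_cases h : (inner ℝ e x : ℝ) ∈ Ioo (-1 : ℝ) 1
    · rw [indicator_of_mem h, indicator_of_mem]
      exact ⟨by linarith [h.2], by linarith [h.1]⟩
    · rw [indicator_of_notMem h, indicator_of_notMem]
      intro h'
      exact h ⟨by linarith [h'.2], by linarith [h'.1]⟩
  · congr 1
    simp

theorem lintegral_slabF (M : R3 ≃ₗᵢ[ℝ] R3) {G : R3 → ℝ≥0∞} (hG : Measurable G) :
    ∫⁻ x, slabF G (M ez) x = 2 * ∫⁻ p : ℝ × ℝ, G (M (vec3 p.1 p.2 0)) := by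
  have hm : Measurable (slabF G (M ez)) := by
    unfold slabF
    apply Measurable.mul
    · exact (measurable_const.indicator measurableSet_Ioo).comp (by fun_prop)
    · exact hG.comp (by fun_prop)
  rw [lintegral_frame M 0 hm]
  have hin : ∀ a b c : ℝ, (inner ℝ (M ez) (0 + M (vec3 a b c)) : ℝ) = c := by
    intro a b c
    rw [zero_add, M.inner_map_map, inner_ez, vec3_two]
  have h0 : ∀ s : ℝ, ∀ p : ℝ × ℝ, slabF G (M ez) (0 + M (vec3 p.1 p.2 s))
      = (Ioo (-1 : ℝ) 1).indicator (fun _ => (1 : ℝ≥0∞)) s * G (M (vec3 p.1 p.2 0)) := by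
    intro s p
    unfold slabF
    rw [hin, zero_add, ← map_smul, ← map_sub]
    congr 3
    apply vec3_ext <;> simp [ez]
  have hmp : Measurable fun p : ℝ × ℝ => G (M (vec3 p.1 p.2 0)) := by
    have : Measurable fun p : ℝ × ℝ => M (vec3 p.1 p.2 0) :=
      M.continuous.measurable.comp (by fun_prop)
    exact hG.comp this
  have h1 : ∀ s : ℝ, (∫⁻ p : ℝ × ℝ, slabF G (M ez) (0 + M (vec3 p.1 p.2 s)))
      = (Ioo (-1 : ℝ) 1).indicator (fun _ => (1 : ℝ≥0∞)) s *
        ∫⁻ p : ℝ × ℝ, G (M (vec3 p.1 p.2 0)) := by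
    intro s
    simp_rw [h0]
    rw [lintegral_const_mul _ hmp]
  simp_rw [h1]
  rw [lintegral_mul_const _ (measurable_const.indicator measurableSet_Ioo),
    lintegral_indicator measurableSet_Ioo, setLIntegral_const, Real.volume_Ioo]
  congr 1
  norm_num

/-- plane integrals do not depend on the orthonormal frame -/
theorem plane_indep (L L' : R3 ≃ₗᵢ[ℝ] R3) (h : L' ez = L ez ∨ L' ez = - L ez)
    {G : R3 → ℝ≥0∞} (hG : Measurable G) :
    ∫⁻ p : ℝ × ℝ, G (L (vec3 p.1 p.2 0)) = ∫⁻ p : ℝ × ℝ, G (L' (vec3 p.1 p.2 0)) := by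
  have h1 := lintegral_slabF L hG
  have h2 := lintegral_slabF L' hG
  have h3 : slabF G (L' ez) = slabF G (L ez) := by
    rcases h with h | h
    · rw [h]
    · rw [h, slabF_neg]
  rw [h3, h1] at h2
  exact (ENNReal.mul_right_inj (by norm_num) (by norm_num)).1 h2

theorem planeInt_eq_frame {g : R3 → ℝ≥0∞} (hg : Measurable g) (v : R3) {w : R3} (hw : ‖w‖ = 1)
    (L : R3 ≃ₗᵢ[ℝ] R3) (h : L ez = w ∨ L ez = -w) :
    planeInt g v w = ∫⁻ p : ℝ × ℝ, g (v + L (vec3 p.1 p.2 0)) := by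
  have hG : Measurable fun x => g (v + x) := hg.comp (measurable_const_add v)
  refine plane_indep (rot w) L ?_ hG
  rw [rot_ez hw]; exact h

theorem planeInt_neg {g : R3 → ℝ≥0∞} (hg : Measurable g) (v : R3) {w : R3} (hw : ‖w‖ = 1) :
    planeInt g v (-w) = planeInt g v w := by
  rw [planeInt_eq_frame hg v hw (rot (-w)) (Or.inr (rot_ez (by rwa [norm_neg])))]
  rfl

/-- Fubini with respect to the planes orthogonal to a fixed direction -/
theorem lintegral_planeInt {g : R3 → ℝ≥0∞} (hg : Measurable g) (v : R3) {w : R3} (hw : ‖w‖ = 1) :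
    ∫⁻ x, g x = ∫⁻ s : ℝ, planeInt g (v + s • w) w := by
  rw [lintegral_frame (rot w) v hg]
  refine lintegral_congr fun s => ?_
  unfold planeInt
  refine lintegral_congr fun p => ?_
  congr 1
  rw [add_assoc]
  congr 1
  have h : s • w = rot w (s • ez) := by rw [map_smul, rot_ez hw]
  rw [h, ← map_add]
  congr 1
  apply vec3_ext <;> simp [ez]

end Crest.Agent.R68
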