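import Mathlib
import Crest.Agent.R68.Carl1

/-!
R68 / Carl2: the Carleman representation of the hard sphere gain term (helper779).
-/

set_option autoImplicit false
open MeasureTheory Set Metric Submodule
open scoped ENNReal Real
open Crest.AnalysisR.VecCalc3 Crest.AnalysisR.PDE.Boltzmann

namespace Crest.Agent.R68

attribute [local irreducible] rot vec3

theorem setLIntegral_Iio_neg {h : ℝ → ℝ≥0∞} :
    ∫⁻ s in Iio (0 : ℝ), h s = ∫⁻ s in Ioi (0 : ℝ), h (-s) := by
  have hmp : MeasurePreserving (fun s : ℝ => -s) volume volume := Measure.measurePreserving_neg _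
  have h1 := hmp.setLIntegral_comp_preimage_emb (MeasurableEquiv.neg ℝ).measurableEmbedding h (Iio 0)
  rw [← h1]
  congr 2
  ext s
  simp

theorem lintegral_line_split {h : ℝ → ℝ≥0∞} :
    ∫⁻ s : ℝ, h s = (∫⁻ s in Ioi (0 : ℝ), h s) + (∫⁻ s in Ioi (0 : ℝ), h (-s)) := by
  rw [← setLIntegral_Iio_neg, ← lintegral_add_compl h (measurableSet_Ioi (a := (0 : ℝ)))]
  congr 1
  rw [compl_Ioi]
  exact setLIntegral_congr (Iio_ae_eq_Iic (μ := (volume : Measure ℝ)) (a := (0 : ℝ))).symm

/-- the gain integrand at fixed impact direction, in the frame of the direction -/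
theorem lintegral_gain_dir {f g : R3 → ℝ≥0∞} (hf : Measurable f) (hg : Measurable g) (v : R3)
    {w : R3} (hw : ‖w‖ = 1) :
    ∫⁻ vs, ENNReal.ofReal |inner ℝ (v - vs) w| * f (postVel v vs w) * g (postVelStar v vs w)
      = ∫⁻ s : ℝ, ENNReal.ofReal |s| * f (v + s • w) * planeInt g v w := by
  have hm : Measurable fun vs : R3 =>
      ENNReal.ofReal |inner ℝ (v - vs) w| * f (postVel v vs w) * g (postVelStar v vs w) := by
    unfold postVel postVelStar
    apply Measurable.mul
    · apply Measurable.mul (by fun_prop)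
      exact hf.comp (by fun_prop)
    · exact hg.comp (by fun_prop)
  rw [lintegral_frame (rot w) v hm]
  refine lintegral_congr fun s => ?_
  have hin : ∀ p : ℝ × ℝ, (inner ℝ (v - (v + rot w (vec3 p.1 p.2 s))) w : ℝ) = -s := by
    intro p
    have h1 : v - (v + rot w (vec3 p.1 p.2 s)) = - rot w (vec3 p.1 p.2 s) := by abel
    have h2 : (inner ℝ (rot w (vec3 p.1 p.2 s)) w : ℝ) = s := by
      conv_lhs => rw [← rot_ez hw]
      rw [rot_ez hw]
      have h3 := inner_rot w (vec3 p.1 p.2 s) ez
      rw [rot_ez hw] at h3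
      rw [h3, real_inner_comm, inner_ez, vec3_two]
    rw [h1, inner_neg_left, h2]
  have hp : ∀ p : ℝ × ℝ, v + rot w (vec3 p.1 p.2 s) + (-s) • w = v + rot w (vec3 p.1 p.2 0) := by
    intro p
    have h : (-s) • w = rot w ((-s) • ez) := by rw [map_smul, rot_ez hw]
    rw [add_assoc, h, ← map_add]
    congr 2
    apply vec3_ext <;> simp [ez]
  have hval : ∀ p : ℝ × ℝ, ENNReal.ofReal |inner ℝ (v - (v + rot w (vec3 p.1 p.2 s))) w| *
      f (postVel v (v + rot w (vec3 p.1 p.2 s)) w) * g (postVelStar v (v + rot w (vec3 p.1 p.2 s)) w)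
      = ENNReal.ofReal |s| * f (v + s • w) * g (v + rot w (vec3 p.1 p.2 0)) := by
    intro p
    rw [postVel, postVelStar, hin, abs_neg, hp, neg_smul, sub_neg_eq_add]
  simp_rw [hval]
  rw [lintegral_const_mul, planeInt]
  have hB : Measurable fun p : ℝ × ℝ => rot w (vec3 p.1 p.2 0) :=
    (rot w).continuous.measurable.comp (by fun_prop)
  exact hg.comp (measurable_const.add hB)

/-- **Carleman representation** of the (bilinear) hard sphere gain term -/
theorem carleman {f g : R3 → ℝ≥0∞} (hf : Measurable f) (hg : Measurable g) (v : R3) :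
    ∫⁻ vs, ∫⁻ w, ENNReal.ofReal |inner ℝ (v - vs) w| * f (postVel v vs w) *
        g (postVelStar v vs w) ∂sphereMeasure
      = 2 * ∫⁻ z, ENNReal.ofReal ‖z‖⁻¹ * f (v + z) * planeInt g v (‖z‖⁻¹ • z) := by
  have hm : Measurable fun q : R3 × R3 =>
      ENNReal.ofReal |inner ℝ (v - q.1) q.2| * f (postVel v q.1 q.2) * g (postVelStar v q.1 q.2) := by
    unfold postVel postVelStar
    apply Measurable.mul
    · apply Measurable.mul (by fun_prop)
      exact hf.comp (by fun_prop)
    · exact hg.comp (by fun_prop)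
  rw [lintegral_lintegral_swap hm.aemeasurable]
  have h1 : ∫⁻ w, (∫⁻ vs, ENNReal.ofReal |inner ℝ (v - vs) w| * f (postVel v vs w) *
        g (postVelStar v vs w)) ∂sphereMeasure
      = ∫⁻ w, (∫⁻ s : ℝ, ENNReal.ofReal |s| * f (v + s • w) * planeInt g v w) ∂sphereMeasure := by
    refine lintegral_congr_ae ?_
    filter_upwards [ae_sphereMeasure] with w hw
    exact lintegral_gain_dir hf hg v hw
  rw [h1]
  have hP : Measurable fun w : R3 => planeInt g v w :=
    (measurable_planeInt hg).comp measurable_prodMk_left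
  have hmp : Measurable fun q : R3 × ℝ =>
      ENNReal.ofReal q.2 * f (v + q.2 • q.1) * planeInt g v q.1 := by
    apply Measurable.mul
    · exact Measurable.mul (by fun_prop) (hf.comp (by fun_prop))
    · exact hP.comp measurable_fst
  set A : R3 → ℝ≥0∞ := fun w =>
    ∫⁻ s in Ioi (0 : ℝ), ENNReal.ofReal s * f (v + s • w) * planeInt g v w with hA
  have hAm : Measurable A := by
    rw [hA]; exact hmp.lintegral_prod_right'
  have h2 : ∫⁻ w, (∫⁻ s : ℝ, ENNReal.ofReal |s| * f (v + s • w) * planeInt g v w) ∂sphereMeasure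
      = ∫⁻ w, (A w + A (-w)) ∂sphereMeasure := by
    refine lintegral_congr_ae ?_
    filter_upwards [ae_sphereMeasure] with w hw
    have e1 : ∫⁻ s in Ioi (0 : ℝ), ENNReal.ofReal |s| * f (v + s • w) * planeInt g v w = A w := by
      rw [hA]
      refine setLIntegral_congr_fun (measurableSet_Ioi (a := (0 : ℝ))) fun s hs => ?_
      beta_reduce
      rw [abs_of_pos hs]
    have e2 : ∫⁻ s in Ioi (0 : ℝ), ENNReal.ofReal |(-s)| * f (v + (-s) • w) * planeInt g v w
        = A (-w) := by
      rw [hA]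
      refine setLIntegral_congr_fun (measurableSet_Ioi (a := (0 : ℝ))) fun s hs => ?_
      beta_reduce
      rw [abs_neg, abs_of_pos hs, planeInt_neg hg v hw, neg_smul, smul_neg]
    rw [lintegral_line_split, e1, e2]
  rw [h2, lintegral_add_left hAm, lintegral_sphere_neg hAm, ← two_mul]
  congr 1
  have hmz : Measurable fun z : R3 => ENNReal.ofReal ‖z‖⁻¹ * f (v + z) * planeInt g v (‖z‖⁻¹ • z) := by
    apply Measurable.mul
    · exact Measurable.mul (by fun_prop) (hf.comp (by fun_prop))
    · exact hP.comp (by fun_prop)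
  rw [lintegral_polar' hmz]
  refine lintegral_congr_ae ?_
  filter_upwards [ae_sphereMeasure] with w hw
  refine setLIntegral_congr_fun measurableSet_Ioi fun r hr => ?_
  beta_reduce
  have hr0 : (0 : ℝ) < r := hr
  have hn : ‖r • w‖ = r := by rw [norm_smul, hw, Real.norm_of_nonneg hr0.le, mul_one]
  rw [hn, smul_smul, inv_mul_cancel₀ hr0.ne', one_smul, ← mul_assoc, ← mul_assoc,
    ← ENNReal.ofReal_mul (by positivity)]
  congr 3
  field_simp

end Crest.Agent.R68
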