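import Mathlib
import Crest.Agent.R68.Carl2

/-!
R68 / Carl3: graph form of plane integrals (helper779).
-/

set_option autoImplicit false
open MeasureTheory Set Metric Submodule
open scoped ENNReal Real
open Crest.AnalysisR.VecCalc3 Crest.AnalysisR.PDE.Boltzmann

namespace Crest.Agent.R68

attribute [local irreducible] rot vec3

theorem eq_vec3_sub_smul (n : R3) (a b s : ℝ) (h : n 2 ≠ 0) :
    vec3 a b s - (s / n 2) • n = vec3 (a - s / n 2 * n 0) (b - s / n 2 * n 1) 0 := by
  apply vec3_ext
  · simp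
  · simp
  · simp only [PiLp.sub_apply, PiLp.smul_apply, vec3_two, smul_eq_mul]
    field_simp
    ring

/-- third coordinate of the point of the plane through `v` orthogonal to `n` over `(a,b)` -/
noncomputable def graphZ (v n : R3) (a b : ℝ) : ℝ :=
  v 2 - (n 0 * (a - v 0) + n 1 * (b - v 1)) / n 2

theorem measurable_graphZ (v n : R3) : Measurable fun p : ℝ × ℝ => graphZ v n p.1 p.2 := by
  unfold graphZ; fun_prop

/-- planes as graphs over the first two coordinates -/
theorem planeInt_graph {g : R3 → ℝ≥0∞} (hg : Measurable g) (v : R3) {n : R3} (hn : ‖n‖ = 1)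
    (hn2 : n 2 ≠ 0) :
    planeInt g v n = ENNReal.ofReal |n 2|⁻¹ *
      ∫⁻ p : ℝ × ℝ, g (vec3 p.1 p.2 (graphZ v n p.1 p.2)) := by
  set H : R3 → ℝ≥0∞ := fun x =>
    (Ioo (0 : ℝ) 1).indicator (fun _ => (1 : ℝ≥0∞)) (inner ℝ n (x - v)) *
      g (x - ((inner ℝ n (x - v) : ℝ) / n 2) • ez) with hH
  have hHm : Measurable H := by
    rw [hH]
    apply Measurable.mul
    · exact (measurable_const.indicator measurableSet_Ioo).comp (by fun_prop)
    · exact hg.comp (by fun_prop)
  -- frame side
  have h1 : ∫⁻ x, H x = planeInt g v n := by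
    rw [lintegral_frame (rot n) v hHm]
    have hin : ∀ p : ℝ × ℝ, ∀ s : ℝ, (inner ℝ n (v + rot n (vec3 p.1 p.2 s) - v) : ℝ) = s := by
      intro p s
      rw [add_sub_cancel_left]
      have h := inner_rot n ez (vec3 p.1 p.2 s)
      rw [rot_ez hn] at h
      rw [h, inner_ez, vec3_two]
    have hez : ez = rot n n := (rot_self hn).symm
    have hval : ∀ s : ℝ, ∀ p : ℝ × ℝ, H (v + rot n (vec3 p.1 p.2 s))
        = (Ioo (0 : ℝ) 1).indicator (fun _ => (1 : ℝ≥0∞)) s *
          g (v + rot n (vec3 (p.1 - s / n 2 * n 0) (p.2 - s / n 2 * n 1) 0)) := by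
      intro s p
      rw [hH]
      beta_reduce
      rw [hin]
      congr 2
      rw [← eq_vec3_sub_smul n p.1 p.2 s hn2, map_sub, map_smul, rot_self hn]
      abel
    simp_rw [hval]
    have hB : Measurable fun p : ℝ × ℝ => rot n (vec3 p.1 p.2 0) :=
      (rot n).continuous.measurable.comp (by fun_prop)
    have hgB : Measurable fun p : ℝ × ℝ => g (v + rot n (vec3 p.1 p.2 0)) :=
      hg.comp (measurable_const.add hB)
    have h2 : ∀ s : ℝ, (∫⁻ p : ℝ × ℝ, (Ioo (0 : ℝ) 1).indicator (fun _ => (1 : ℝ≥0∞)) s *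
          g (v + rot n (vec3 (p.1 - s / n 2 * n 0) (p.2 - s / n 2 * n 1) 0)))
        = (Ioo (0 : ℝ) 1).indicator (fun _ => (1 : ℝ≥0∞)) s * planeInt g v n := by
      intro s
      have hmp : MeasurePreserving (fun p : ℝ × ℝ => p + (-(s / n 2 * n 0), -(s / n 2 * n 1)))
          volume volume := measurePreserving_add_right volume _
      have h3 := hmp.lintegral_comp hgB
      have hsh : Measurable fun p : ℝ × ℝ =>
          g (v + rot n (vec3 (p.1 - s / n 2 * n 0) (p.2 - s / n 2 * n 1) 0)) := by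
        have hC : Measurable fun p : ℝ × ℝ =>
            rot n (vec3 (p.1 - s / n 2 * n 0) (p.2 - s / n 2 * n 1) 0) :=
          (rot n).continuous.measurable.comp (by fun_prop)
        exact hg.comp (measurable_const.add hC)
      rw [lintegral_const_mul _ hsh]
      exact congrArg _ h3
    simp_rw [h2]
    rw [lintegral_mul_const _ (measurable_const.indicator measurableSet_Ioo),
      lintegral_indicator measurableSet_Ioo, setLIntegral_const, Real.volume_Ioo]
    simp
  -- Cartesian side
  have hm4 : Measurable fun q : (ℝ × ℝ) × ℝ => H (vec3 q.1.1 q.1.2 q.2) := hHm.comp (by fun_prop)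
  have h4 : ∫⁻ x, H x = ∫⁻ p : ℝ × ℝ, ∫⁻ c : ℝ, H (vec3 p.1 p.2 c) := by
    have h5 : MeasurePreserving (fun p : (ℝ × ℝ) × ℝ => vec3 p.1.1 p.1.2 p.2)
        (volume : Measure ((ℝ × ℝ) × ℝ)) (volume : Measure R3) :=
      mp_vec3.comp (volume_preserving_prodAssoc (α₁ := ℝ) (β₁ := ℝ) (γ₁ := ℝ))
    rw [← h5.lintegral_comp hHm]
    rw [show (volume : Measure ((ℝ × ℝ) × ℝ)) = (volume : Measure (ℝ × ℝ)).prod volume from rfl,
      lintegral_prod _ hm4.aemeasurable]
  rw [← h1, h4, ← lintegral_const_mul]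
  · refine lintegral_congr fun p => ?_
    have hz : ∀ c : ℝ, (inner ℝ n (vec3 p.1 p.2 c - v) : ℝ) = n 2 * (c - graphZ v n p.1 p.2) := by
      intro c
      have hx : vec3 p.1 p.2 c - v = vec3 (p.1 - v 0) (p.2 - v 1) (c - v 2) := by
        apply vec3_ext <;> simp
      rw [hx, ← vec3_eta n, inner_vec3, vec3_eta, graphZ]
      field_simp
      ring
    have hval2 : ∀ c : ℝ, H (vec3 p.1 p.2 c)
        = ({c : ℝ | n 2 * (c - graphZ v n p.1 p.2) ∈ Ioo (0 : ℝ) 1}).indicator
          (fun _ => g (vec3 p.1 p.2 (graphZ v n p.1 p.2))) c := by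
      intro c
      rw [hH]
      beta_reduce
      rw [hz]
      have hpt : vec3 p.1 p.2 c - ((n 2 * (c - graphZ v n p.1 p.2)) / n 2) • ez
          = vec3 p.1 p.2 (graphZ v n p.1 p.2) := by
        apply vec3_ext
        · simp [ez]
        · simp [ez]
        · simp only [ez, PiLp.sub_apply, PiLp.smul_apply, vec3_two, smul_eq_mul]
          field_simp
          ring
      rw [hpt]
      by_cases hc : n 2 * (c - graphZ v n p.1 p.2) ∈ Ioo (0 : ℝ) 1
      · rw [indicator_of_mem hc, indicator_of_mem (by exact hc), one_mul]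
      · rw [indicator_of_notMem hc, indicator_of_notMem (by exact hc), zero_mul]
    simp_rw [hval2]
    have hS : MeasurableSet {c : ℝ | n 2 * (c - graphZ v n p.1 p.2) ∈ Ioo (0 : ℝ) 1} := by
      have : Measurable fun c : ℝ => n 2 * (c - graphZ v n p.1 p.2) := by fun_prop
      exact this measurableSet_Ioo
    rw [lintegral_indicator hS, setLIntegral_const, mul_comm]
    congr 1
    have hset : {c : ℝ | n 2 * (c - graphZ v n p.1 p.2) ∈ Ioo (0 : ℝ) 1}
        = (fun c => c - graphZ v n p.1 p.2) ⁻¹' ((fun c => n 2 * c) ⁻¹' Ioo (0 : ℝ) 1) := rfl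
    rw [hset]
    have hmp : MeasurePreserving (fun c : ℝ => c - graphZ v n p.1 p.2) volume volume :=
      measurePreserving_sub_right volume _
    have hms : MeasurableSet ((fun c : ℝ => n 2 * c) ⁻¹' Ioo (0 : ℝ) 1) :=
      (measurable_const_mul (n 2)) measurableSet_Ioo
    rw [hmp.measure_preimage hms.nullMeasurableSet]
    rw [Real.volume_preimage_mul_left hn2, Real.volume_Ioo]
    simp [abs_inv]
  · exact hg.comp ((Measurable.vec3 measurable_fst measurable_snd (measurable_graphZ v n)))

end Crest.Agent.R68
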