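import Mathlib
import Crest.Prelude.Def_HardSphereBoltzmann

/-!
Row 68, part E, module 1: the collision involution and the sphere measure.
-/

set_option autoImplicit false
open MeasureTheory
open scoped ENNReal
open Crest.AnalysisR.VecCalc3 Crest.AnalysisR.PDE.Boltzmann

namespace Crest.Agent.R68E

/-! ### sphere measure -/

instance finite_sphereMeasure : IsFiniteMeasure sphereMeasure := by
  unfold sphereMeasure
  infer_instance

/-! short-cut instances (the default synthesis terms exceed `synthInstance.maxSize`). -/

instance sfin_sphere : SFinite sphereMeasure := inferInstance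
instance sigf_sphere : SigmaFinite sphereMeasure := inferInstance
instance sfin_R3 : SFinite (volume : Measure R3) := inferInstance
instance sigf_R3 : SigmaFinite (volume : Measure R3) := inferInstance
instance sfin_R33 : SFinite (volume : Measure (R3 × R3)) := inferInstance
instance sigf_R33 : SigmaFinite (volume : Measure (R3 × R3)) := inferInstance
instance sfin_R3s : SFinite ((volume : Measure R3).prod sphereMeasure) := inferInstance
instance sigf_R3s : SigmaFinite ((volume : Measure R3).prod sphereMeasure) := inferInstance

lemma ae_norm_eq_one : ∀ᵐ w ∂sphereMeasure, ‖w‖ = 1 := by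
  unfold sphereMeasure
  rw [ae_map_iff measurable_subtype_coe.aemeasurable]
  · exact Filter.Eventually.of_forall fun w => by simp
  · exact measurableSet_eq_fun measurable_norm measurable_const

/-! ### algebra of the collision map -/

lemma postVel_add (v vs w : R3) : postVel v vs w + postVelStar v vs w = v + vs := by
  simp [postVel, postVelStar]

lemma inner_post (v vs w : R3) (hw : ‖w‖ = 1) :
    inner ℝ (postVel v vs w - postVelStar v vs w) w = - inner ℝ (v - vs) w := by
  have h1 : postVel v vs w - postVelStar v vs w = (v - vs) - (2 * inner ℝ (v - vs) w) • w := by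
    simp only [postVel, postVelStar]
    module
  rw [h1, inner_sub_left, inner_smul_left, real_inner_self_eq_norm_sq, hw]
  simp
  ring

lemma post_post (v vs w : R3) (hw : ‖w‖ = 1) :
    postVel (postVel v vs w) (postVelStar v vs w) w = v := by
  unfold postVel at *
  have := inner_post v vs w hw
  unfold postVel at this
  rw [this]
  simp

lemma postStar_post (v vs w : R3) (hw : ‖w‖ = 1) :
    postVelStar (postVel v vs w) (postVelStar v vs w) w = vs := by
  unfold postVelStar at *
  have := inner_post v vs w hw
  unfold postVelStar at this
  rw [this]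
  simp

lemma energy_post (v vs w : R3) (hw : ‖w‖ = 1) :
    ‖postVel v vs w‖ ^ 2 + ‖postVelStar v vs w‖ ^ 2 = ‖v‖ ^ 2 + ‖vs‖ ^ 2 := by
  unfold postVel postVelStar
  rw [norm_sub_sq_real, norm_add_sq_real, norm_smul, hw, inner_smul_right, inner_smul_right,
    inner_sub_left]
  simp only [Real.norm_eq_abs, mul_one, sq_abs]
  ring

lemma postVel_swap (v vs w : R3) : postVel vs v w = postVelStar v vs w := by
  unfold postVel postVelStar
  rw [inner_sub_left, inner_sub_left]
  module

lemma postVelStar_swap (v vs w : R3) : postVelStar vs v w = postVel v vs w := by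
  unfold postVel postVelStar
  rw [inner_sub_left, inner_sub_left]
  module

lemma maxwellian_pos (v : R3) : 0 < maxwellian v := by
  unfold maxwellian
  positivity

lemma maxwellian_post (v vs w : R3) (hw : ‖w‖ = 1) :
    maxwellian (postVel v vs w) * maxwellian (postVelStar v vs w) = maxwellian v * maxwellian vs := by
  unfold maxwellian
  have := energy_post v vs w hw
  rw [mul_mul_mul_comm, mul_mul_mul_comm _ (Real.exp _), ← Real.exp_add, ← Real.exp_add]
  congr 2
  linarith

lemma continuous_maxwellian : Continuous maxwellian := by
  unfold maxwellian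
  fun_prop

lemma measurable_maxwellian : Measurable maxwellian := continuous_maxwellian.measurable

lemma continuous_postVel : Continuous fun z : (R3 × R3) × R3 => postVel z.1.1 z.1.2 z.2 := by
  unfold postVel
  fun_prop

lemma continuous_postVelStar : Continuous fun z : (R3 × R3) × R3 => postVelStar z.1.1 z.1.2 z.2 := by
  unfold postVelStar
  fun_prop

/-! ### the collision involution -/

/-- `T w (v, vs) = (v', vs')` as a linear map. -/
noncomputable def T (w : R3) : (R3 × R3) →ₗ[ℝ] (R3 × R3) where
  toFun p := (postVel p.1 p.2 w, postVelStar p.1 p.2 w)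
  map_add' p q := by
    simp only [postVel, postVelStar, Prod.fst_add, Prod.snd_add, Prod.mk_add_mk, Prod.mk.injEq]
    constructor
    · rw [show p.1 + q.1 - (p.2 + q.2) = (p.1 - p.2) + (q.1 - q.2) by abel, inner_add_left]; module
    · rw [show p.1 + q.1 - (p.2 + q.2) = (p.1 - p.2) + (q.1 - q.2) by abel, inner_add_left]; module
  map_smul' c p := by
    simp only [postVel, postVelStar, Prod.smul_fst, Prod.smul_snd, RingHom.id_apply, Prod.smul_mk,
      Prod.mk.injEq]
    constructor
    · rw [← smul_sub, inner_smul_left]; simp; module
    · rw [← smul_sub, inner_smul_left]; simp; module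

lemma T_apply (w : R3) (p : R3 × R3) : T w p = (postVel p.1 p.2 w, postVelStar p.1 p.2 w) := rfl

lemma T_T (w : R3) (hw : ‖w‖ = 1) (p : R3 × R3) : T w (T w p) = p := by
  simp only [T_apply]
  rw [post_post _ _ _ hw, postStar_post _ _ _ hw]

lemma T_det (w : R3) (hw : ‖w‖ = 1) : |LinearMap.det (T w)| = 1 := by
  have h : (T w) * (T w) = 1 := by
    refine LinearMap.ext fun p => ?_
    exact T_T w hw p
  have h2 : LinearMap.det (T w) * LinearMap.det (T w) = 1 := by
    rw [← map_mul, h, map_one]
  have h3 : |LinearMap.det (T w)| * |LinearMap.det (T w)| = 1 := by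
    rw [← abs_mul, h2, abs_one]
  nlinarith [abs_nonneg (LinearMap.det (T w))]

instance haar_prod : (volume : Measure (R3 × R3)).IsAddHaarMeasure := by
  rw [Measure.volume_eq_prod]; infer_instance

lemma measurePreserving_T (w : R3) (hw : ‖w‖ = 1) :
    MeasurePreserving (T w) (volume : Measure (R3 × R3)) volume := by
  have hd := T_det w hw
  have hne : LinearMap.det (T w) ≠ 0 := by
    intro h; rw [h] at hd; simp at hd
  refine ⟨?_, ?_⟩
  · have : Continuous (T w) := LinearMap.continuous_of_finiteDimensional _
    exact this.measurable
  · rw [Measure.map_linearMap_addHaar_eq_smul_addHaar _ hne, abs_inv, hd]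
    simp

end Crest.Agent.R68E
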