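import Crest.Agent.R68.Defs
import Crest.Agent.R68.Sph1
import Crest.Agent.R68.E1

/-!
# Row 68, PART W (helper153): elementary facts on `Qp`, `Lc`, abstract kernel hypotheses
-/

set_option autoImplicit false
open MeasureTheory Set
open scoped ENNReal NNReal
open Crest.AnalysisR.VecCalc3 Crest.AnalysisR.PDE.Boltzmann

noncomputable section

namespace Crest.Agent.R68.WA

/-- the velocity weight `e^{-|v|}` -/
def We (v : R3) : ℝ≥0∞ := ENNReal.ofReal (Real.exp (-‖v‖))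
/-- the Maxwellian as an extended number -/
def Mx (v : R3) : ℝ≥0∞ := ENNReal.ofReal (maxwellian v)
/-- `1 + |v|` -/
def w1 (v : R3) : ℝ≥0∞ := ENNReal.ofReal (1 + ‖v‖)

theorem measurable_We : Measurable We := by unfold We; fun_prop
theorem measurable_Mx : Measurable Mx := by
  unfold Mx maxwellian; fun_prop
theorem measurable_w1 : Measurable w1 := by unfold w1; fun_prop

theorem one_le_w1 (v : R3) : 1 ≤ w1 v := by
  unfold w1
  rw [← ENNReal.ofReal_one]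
  exact ENNReal.ofReal_le_ofReal (by linarith [norm_nonneg v])

theorem w1_ne_top (v : R3) : w1 v ≠ ⊤ := ENNReal.ofReal_ne_top
theorem We_ne_top (v : R3) : We v ≠ ⊤ := ENNReal.ofReal_ne_top
theorem We_le_one (v : R3) : We v ≤ 1 := by
  unfold We
  rw [← ENNReal.ofReal_one]
  exact ENNReal.ofReal_le_ofReal (Real.exp_le_one_iff.2 (by linarith [norm_nonneg v]))

theorem Qp_mono {f f' g g' : R3 → ℝ≥0∞} (hf : ∀ v, f v ≤ f' v) (hg : ∀ v, g v ≤ g' v) (v : R3) :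
    Qp f g v ≤ Qp f' g' v := by
  unfold Qp
  refine lintegral_mono fun vs => lintegral_mono fun w => ?_
  exact mul_le_mul' (mul_le_mul' le_rfl (hf _)) (hg _)

theorem Lc_mono {g g' : R3 → ℝ≥0∞} (hg : ∀ v, g v ≤ g' v) (v : R3) : Lc g v ≤ Lc g' v := by
  unfold Lc
  exact lintegral_mono fun vs => lintegral_mono fun w => mul_le_mul' le_rfl (hg _)

theorem Qp_smul_left {c : ℝ≥0∞} (hc : c ≠ ⊤) (f g : R3 → ℝ≥0∞) (v : R3) :
    Qp (fun z => c * f z) g v = c * Qp f g v := by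
  unfold Qp
  rw [← lintegral_const_mul' _ _ hc]
  refine lintegral_congr fun vs => ?_
  rw [← lintegral_const_mul' _ _ hc]
  exact lintegral_congr fun w => by ring

theorem Qp_smul_right {c : ℝ≥0∞} (hc : c ≠ ⊤) (f g : R3 → ℝ≥0∞) (v : R3) :
    Qp f (fun z => c * g z) v = c * Qp f g v := by
  unfold Qp
  rw [← lintegral_const_mul' _ _ hc]
  refine lintegral_congr fun vs => ?_
  rw [← lintegral_const_mul' _ _ hc]
  exact lintegral_congr fun w => by ring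

/-- crude bound of the collision frequency -/
theorem Lc_le (g : R3 → ℝ≥0∞) (v : R3) :
    Lc g v ≤ ENNReal.ofReal (4 * Real.pi) * w1 v * ∫⁻ z, w1 z * g z := by
  unfold Lc
  have h1 : ∀ vs : R3, (∫⁻ w, ENNReal.ofReal |inner ℝ (v - vs) w| * g vs ∂sphereMeasure) ≤
      ENNReal.ofReal (4 * Real.pi) * w1 v * (w1 vs * g vs) := by
    intro vs
    have h2 : (∫⁻ w, ENNReal.ofReal |inner ℝ (v - vs) w| * g vs ∂sphereMeasure) ≤
        ∫⁻ _w : R3, w1 v * w1 vs * g vs ∂sphereMeasure := by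
      refine lintegral_mono_ae ?_
      filter_upwards [Crest.Agent.R68E.ae_norm_eq_one] with w hw
      refine mul_le_mul' ?_ le_rfl
      unfold w1
      rw [← ENNReal.ofReal_mul (by positivity)]
      refine ENNReal.ofReal_le_ofReal ?_
      have h3 : |inner ℝ (v - vs) w| ≤ ‖v - vs‖ * ‖w‖ := abs_real_inner_le_norm _ _
      rw [hw, mul_one] at h3
      have h4 : ‖v - vs‖ ≤ ‖v‖ + ‖vs‖ := norm_sub_le _ _
      nlinarith [norm_nonneg v, norm_nonneg vs]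
    refine h2.trans ?_
    rw [lintegral_const, sphereMeasure_univ]
    exact le_of_eq (by ring)
  refine (lintegral_mono h1).trans ?_
  rw [lintegral_const_mul' _ _ (ENNReal.mul_ne_top ENNReal.ofReal_ne_top (w1_ne_top v))]

/-- abstract kernel hypotheses on the hot envelope `E` for `t ≥ T1`, with constants `C1`, `Cf` -/
structure KHyp (T1 lam : ℝ) (C1 : ℝ≥0) (Cf : ℝ≥0 → ℝ≥0) (E : ℝ → P2 → R3 → ℝ≥0∞) : Prop where
  meas : Measurable fun p : ℝ × P2 × R3 => E p.1 p.2.1 p.2.2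
  We_le : ∀ t x v, T1 ≤ t → We v ≤ E t x v
  gain : ∀ t x v, T1 ≤ t → Qp (E t x) (E t x) v ≤ C1 * We v
  gsm1 : ∀ ε : ℝ≥0, 0 < ε → ∀ t x v, T1 ≤ t → ∀ f : R3 → ℝ≥0∞, Measurable f → (∀ z, f z ≤ E t x z) →
    Qp f (E t x) v ≤ ε + Cf ε * ∫⁻ z, f z
  gsm2 : ∀ ε : ℝ≥0, 0 < ε → ∀ t x v, T1 ≤ t → ∀ f : R3 → ℝ≥0∞, Measurable f → (∀ z, f z ≤ E t x z) →
    Qp (E t x) f v ≤ ε + Cf ε * ∫⁻ z, f z
  msm : ∀ ε : ℝ≥0, 0 < ε → ∀ t x, T1 ≤ t → ∀ f : R3 → ℝ≥0∞, Measurable f → (∀ z, f z ≤ E t x z) →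
    ∫⁻ z, w1 z * f z ≤ ε + Cf ε * ∫⁻ z, f z
  mom : ∀ t x, T1 ≤ t → ∫⁻ z, w1 z * E t x z ≤ C1
  flight : ∀ s t x v, T1 ≤ s → s ≤ t →
    E s (x - (t - s) • bar v) v ≤ ENNReal.ofReal (Real.exp (lam * (t - s))) * E t x v

/-- averaging of a periodic function over a ball of velocities -/
def Trans (C8 : ℝ≥0 → ℝ≥0) : Prop :=
  ∀ (r : ℝ≥0) (τ : ℝ), 0 < τ → ∀ h : P2 → ℝ≥0∞, Measurable h → PerG h → ∀ x : P2,
    ∫⁻ v in {v : R3 | ‖v‖ ≤ r}, h (x - τ • bar v) ≤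
      C8 r * (1 + ENNReal.ofReal (1 / τ ^ 2)) * ∫⁻ y in cellG, h y

/-- Gaussian versus exponential -/
theorem exists_CM : ∃ CM : ℝ≥0, 1 ≤ CM ∧ ∀ v : R3, Mx v ≤ CM * We v ∧ w1 v * Mx v ≤ CM * We v := by
  refine ⟨Real.toNNReal (Real.exp 2), ?_, fun v => ?_⟩
  · rw [← Real.toNNReal_one]
    exact Real.toNNReal_le_toNNReal (Real.one_le_exp (by norm_num))
  have hpi : (2 * Real.pi) ^ (-(3 / 2 : ℝ)) ≤ 1 := by
    apply Real.rpow_le_one_of_one_le_of_nonpos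
    · nlinarith [Real.pi_gt_three]
    · norm_num
  have key : (1 + ‖v‖) * maxwellian v ≤ Real.exp 2 * Real.exp (-‖v‖) := by
    unfold maxwellian
    have h1 : 1 + ‖v‖ ≤ Real.exp ‖v‖ := by linarith [Real.add_one_le_exp ‖v‖]
    have h2 : (0 : ℝ) < (2 * Real.pi) ^ (-(3 / 2 : ℝ)) := by positivity
    have h3 : Real.exp ‖v‖ * Real.exp (-‖v‖ ^ 2 / 2) ≤ Real.exp 2 * Real.exp (-‖v‖) := by
      rw [← Real.exp_add, ← Real.exp_add]
      exact Real.exp_le_exp.2 (by nlinarith [sq_nonneg (‖v‖ - 2)])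
    calc (1 + ‖v‖) * ((2 * Real.pi) ^ (-(3 / 2 : ℝ)) * Real.exp (-‖v‖ ^ 2 / 2))
        ≤ Real.exp ‖v‖ * (1 * Real.exp (-‖v‖ ^ 2 / 2)) := by gcongr
      _ ≤ _ := by rw [one_mul]; exact h3
  have h0 : 0 ≤ maxwellian v := by unfold maxwellian; positivity
  have key' : w1 v * Mx v ≤ ENNReal.ofReal (Real.exp 2) * We v := by
    unfold w1 Mx We
    rw [← ENNReal.ofReal_mul (by positivity), ← ENNReal.ofReal_mul (by positivity)]
    exact ENNReal.ofReal_le_ofReal key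
  change _ ≤ ENNReal.ofReal (Real.exp 2) * We v ∧ _ ≤ ENNReal.ofReal (Real.exp 2) * We v
  exact ⟨(le_mul_of_one_le_left' (one_le_w1 v)).trans key', key'⟩

end Crest.Agent.R68.WA
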