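import Mathlib

/-!
R68 / WB0: a superexponential time weight absorbing all rates (helper475, part W).
-/

set_option autoImplicit false
open MeasureTheory Set
open scoped ENNReal

namespace Crest.Agent.R68.W

/-- existence of the time weight -/
theorem exists_time_weight (T1 lam : ℝ) (hlam : 0 ≤ lam) {b : ℝ → ℝ} (hb : Continuous b)
    (hb0 : ∀ t, 0 ≤ b t) {a : ℝ} (ha : 0 ≤ a) :
    ∃ kap : ℝ → ℝ, Continuous kap ∧ (∀ t, T1 ≤ t → 1 ≤ kap t) ∧ MonotoneOn kap (Ici T1) ∧
      (∀ t, T1 ≤ t → Real.exp (lam * (t - T1)) * (a + 1 + ∫ s in T1..t, b s) ≤ kap t) ∧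
      ∀ t, T1 ≤ t → (∫ s in T1..t, b s * kap s) *
        (Real.exp (lam * (t - T1)) * (a + 1 + ∫ s in T1..t, b s)) ≤ kap t / 2 := by
  set g : ℝ → ℝ := fun t => Real.exp (lam * (t - T1)) * (a + 1 + ∫ s in T1..t, b s) with hg
  have hIc : Continuous fun t => ∫ s in T1..t, b s :=
    continuous_iff_continuousAt.2 fun t =>
      (intervalIntegral.integral_hasDerivAt_right (hb.intervalIntegrable _ _)
        hb.stronglyMeasurable.stronglyMeasurableAtFilter hb.continuousAt).continuousAt
  have hgc : Continuous g := by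
    rw [hg]; fun_prop
  have hI0 : ∀ t, T1 ≤ t → 0 ≤ ∫ s in T1..t, b s := fun t ht =>
    intervalIntegral.integral_nonneg ht fun s _ => hb0 s
  have hImono : MonotoneOn (fun t => ∫ s in T1..t, b s) (Ici T1) := by
    intro t ht t' ht' htt
    have : (∫ s in T1..t', b s) = (∫ s in T1..t, b s) + ∫ s in t..t', b s :=
      (intervalIntegral.integral_add_adjacent_intervals (hb.intervalIntegrable _ _)
        (hb.intervalIntegrable _ _)).symm
    simp only
    rw [this]
    have h : 0 ≤ ∫ s in t..t', b s := intervalIntegral.integral_nonneg htt fun s _ => hb0 s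
    linarith
  have hemono : ∀ t t', t ≤ t' → Real.exp (lam * (t - T1)) ≤ Real.exp (lam * (t' - T1)) := by
    intro t t' h
    apply Real.exp_le_exp.2
    exact mul_le_mul_of_nonneg_left (by linarith) hlam
  have hgmono : MonotoneOn g (Ici T1) := by
    intro t ht t' ht' htt
    have h1 := hImono ht ht' htt
    have h0 := hI0 t ht
    simp only [hg] at h1 ⊢
    exact mul_le_mul (hemono t t' htt) (by linarith) (by linarith) (Real.exp_pos _).le
  have hg1 : ∀ t, T1 ≤ t → 1 ≤ g t := by
    intro t ht
    have h0 := hI0 t ht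
    have h1 : 1 ≤ Real.exp (lam * (t - T1)) := Real.one_le_exp (mul_nonneg hlam (by linarith))
    have h2 : (1 : ℝ) ≤ a + 1 + ∫ s in T1..t, b s := by linarith
    simp only [hg]
    nlinarith
  have hbg : Continuous fun s => b s * g s := hb.mul hgc
  set J : ℝ → ℝ := fun t => ∫ s in T1..t, b s * g s with hJ
  have hJd : ∀ t, HasDerivAt J (b t * g t) t := fun t =>
    intervalIntegral.integral_hasDerivAt_right (hbg.intervalIntegrable _ _)
      hbg.stronglyMeasurable.stronglyMeasurableAtFilter hbg.continuousAt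
  have hJc : Continuous J := continuous_iff_continuousAt.2 fun t => (hJd t).continuousAt
  have hJ0 : ∀ t, T1 ≤ t → 0 ≤ J t := fun t ht =>
    intervalIntegral.integral_nonneg ht fun s hs => mul_nonneg (hb0 s)
      (zero_le_one.trans (hg1 s hs.1))
  have hJmono : MonotoneOn J (Ici T1) := by
    intro t ht t' ht' htt
    have : J t' = J t + ∫ s in t..t', b s * g s :=
      (intervalIntegral.integral_add_adjacent_intervals (hbg.intervalIntegrable _ _)
        (hbg.intervalIntegrable _ _)).symm
    rw [this]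
    have h : 0 ≤ ∫ s in t..t', b s * g s :=
      intervalIntegral.integral_nonneg htt fun s hs => mul_nonneg (hb0 s)
        (zero_le_one.trans (hg1 s (le_trans ht hs.1)))
    linarith
  set kap : ℝ → ℝ := fun t => g t * Real.exp (2 * J t) with hkap
  have hE1 : ∀ t, T1 ≤ t → 1 ≤ Real.exp (2 * J t) := fun t ht =>
    Real.one_le_exp (by have := hJ0 t ht; positivity)
  have hkg : ∀ t, T1 ≤ t → g t ≤ kap t := by
    intro t ht
    simp only [hkap]
    nlinarith [hE1 t ht, hg1 t ht]
  have hint : ∀ t, ∫ s in T1..t, b s * kap s = (Real.exp (2 * J t) - 1) / 2 := by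
    intro t
    have hd : ∀ s ∈ uIcc T1 t, HasDerivAt (fun s => Real.exp (2 * J s) / 2) (b s * kap s) s := by
      intro s _
      have h1 := (((hJd s).const_mul 2).exp).div_const 2
      refine h1.congr_deriv ?_
      show _ = b s * (g s * Real.exp (2 * J s))
      ring
    rw [intervalIntegral.integral_eq_sub_of_hasDerivAt hd]
    · have : J T1 = 0 := by simp [hJ]
      rw [this]; simp; ring
    · apply Continuous.intervalIntegrable
      exact hb.mul (hgc.mul (by fun_prop))
  refine ⟨kap, hgc.mul (by fun_prop), fun t ht => (hg1 t ht).trans (hkg t ht), ?_,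
    fun t ht => hkg t ht, fun t ht => ?_⟩
  · intro t ht t' ht' htt
    show g t * Real.exp (2 * J t) ≤ g t' * Real.exp (2 * J t')
    refine mul_le_mul (hgmono ht ht' htt) (Real.exp_le_exp.2 ?_) (Real.exp_pos _).le
      (zero_le_one.trans (hg1 t' ht'))
    have := hJmono ht ht' htt
    linarith
  · rw [hint t]
    show (Real.exp (2 * J t) - 1) / 2 * g t ≤ g t * Real.exp (2 * J t) / 2
    nlinarith [hg1 t ht]

end Crest.Agent.R68.W
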