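import Mathlib
import Crest.Agent.R68.Defs

/-!
R68 / WDefs: flights and damping for part W (helper475).
-/

set_option autoImplicit false
open MeasureTheory Set
open scoped ENNReal
open Crest.AnalysisR.VecCalc3 Crest.AnalysisR.PDE.Boltzmann

noncomputable section

namespace Crest.Agent.R68.W

/-- space-time-velocity points `(t, x, v)` -/
abbrev Om : Type := ℝ × P2 × R3

/-- the point at time `s` of the free flight through `z = (t, x, v)` -/
def fl (z : Om) (s : ℝ) : Om := (s, z.2.1 - (z.1 - s) • bar z.2.2, z.2.2)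

@[simp] theorem fl_fst (z : Om) (s : ℝ) : (fl z s).1 = s := rfl

@[simp] theorem fl_vel (z : Om) (s : ℝ) : (fl z s).2.2 = z.2.2 := rfl

theorem fl_fl (z : Om) (s r : ℝ) : fl (fl z s) r = fl z r := by
  unfold fl
  simp only [Prod.mk.injEq, and_true, true_and]
  rw [sub_sub, ← add_smul]
  congr 2
  ring

@[simp] theorem fl_self (z : Om) : fl z z.1 = z := by
  unfold fl
  simp

theorem continuous_bar : Continuous bar := by
  unfold bar
  fun_prop

theorem continuous_fl : Continuous fun p : Om × ℝ => fl p.1 p.2 := by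
  unfold fl
  have := continuous_bar
  fun_prop

theorem measurable_fl : Measurable fun p : Om × ℝ => fl p.1 p.2 := continuous_fl.measurable

/-- optical depth between times `s` and `z.1` along the flight through `z` -/
def opt (L : Om → ℝ≥0∞) (z : Om) (s : ℝ) : ℝ≥0∞ := ∫⁻ r in Ioo s z.1, L (fl z r)

/-- damping factor `exp (-∫_s^t L)` along the flight through `z` -/
def dmp (L : Om → ℝ≥0∞) (z : Om) (s : ℝ) : ℝ≥0∞ :=
  ENNReal.ofReal (Real.exp (-(opt L z s).toReal))

theorem dmp_le_one (L : Om → ℝ≥0∞) (z : Om) (s : ℝ) : dmp L z s ≤ 1 := by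
  unfold dmp
  rw [← ENNReal.ofReal_one]
  apply ENNReal.ofReal_le_ofReal
  rw [← Real.exp_zero]
  apply Real.exp_le_exp.2
  simp

/-- the damped Duhamel formula with data `h1` at time `T1`, loss rate `L`, gain `P` -/
def damped (T1 : ℝ) (h1 : P2 → R3 → ℝ≥0∞) (L P : Om → ℝ≥0∞) (z : Om) : ℝ≥0∞ :=
  dmp L z T1 * h1 (fl z T1).2.1 (fl z T1).2.2 + ∫⁻ s in Ioo T1 z.1, dmp L z s * P (fl z s)

end Crest.Agent.R68.W
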