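import Mathlib

/-!
Row 68 (copy of the first version of DFix by helper813, used by part W): abstract fixed point theorems.

* `wfix` : Picard iteration with a pointwise weight, almost-everywhere semantics
  (take `μ = Measure.count` or any measure for which a.e. means everywhere if wanted).
* `SNorm`, `SNorm.fixedPoint` : the same for a countably subadditive norm.
-/

set_option autoImplicit false
open MeasureTheory Filter
open scoped ENNReal NNReal Topology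

namespace Crest.Agent.R68.WF

variable {Ω : Type*} [MeasurableSpace Ω] {μ : Measure Ω}

/-- a countably subadditive norm on nonnegative measurable functions, with a.e. semantics -/
structure SNorm (μ : Measure Ω) (N : (Ω → ℝ≥0∞) → ℝ≥0∞) : Prop where
  mono : ∀ f g : Ω → ℝ≥0∞, f ≤ᵐ[μ] g → N f ≤ N g
  tsum_le : ∀ f : ℕ → Ω → ℝ≥0∞, (∀ n, Measurable (f n)) →
    N (fun x => ∑' n, f n x) ≤ ∑' n, N (f n)
  lt_top : ∀ f : Ω → ℝ≥0∞, Measurable f → N f < ⊤ → ∀ᵐ x ∂μ, f x < ⊤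
  zero : ∀ f : Ω → ℝ≥0∞, Measurable f → N f = 0 → f =ᵐ[μ] 0
  map_zero : N (fun _ => 0) = 0

namespace SNorm

variable {N : (Ω → ℝ≥0∞) → ℝ≥0∞}

theorem add_le (hN : SNorm μ N) {f g : Ω → ℝ≥0∞} (hf : Measurable f) (hg : Measurable g) :
    N (fun x => f x + g x) ≤ N f + N g := by
  have h := hN.tsum_le (fun n => if n = 0 then f else if n = 1 then g else fun _ => 0) (by
    intro n
    by_cases h0 : n = 0
    · simp [h0, hf]
    · by_cases h1 : n = 1
      · simp [h1, hg]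
      · simp [h0, h1])
  have h1 : (fun x => ∑' n : ℕ, (if n = 0 then f else if n = 1 then g else fun _ => 0) x)
      = fun x => f x + g x := by
    funext x
    rw [tsum_eq_sum (s := Finset.range 2)]
    · simp [Finset.sum_range_succ]
    · intro b hb
      simp only [Finset.mem_range, not_lt] at hb
      have h0 : b ≠ 0 := by omega
      have h1 : b ≠ 1 := by omega
      simp [h0, h1]
  rw [h1] at h
  refine h.trans (le_of_eq ?_)
  rw [tsum_eq_sum (s := Finset.range 2)]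
  · simp [Finset.sum_range_succ]
  · intro b hb
    simp only [Finset.mem_range, not_lt] at hb
    have h0 : b ≠ 0 := by omega
    have h1 : b ≠ 1 := by omega
    simp [h0, h1, hN.map_zero]

/-- Picard iteration in a countably subadditive norm. -/
theorem fixedPoint (hN : SNorm μ N) {S : Set (Ω → ℝ)} (hSm : ∀ u ∈ S, Measurable u)
    (hclosed : ∀ u : ℕ → Ω → ℝ, (∀ n, u n ∈ S) → ∀ v : Ω → ℝ, Measurable v →
      (∀ᵐ x ∂μ, Tendsto (fun n => u n x) atTop (𝓝 (v x))) →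
      Tendsto (fun n => N (fun x => ‖u n x - v x‖ₑ)) atTop (𝓝 0) → v ∈ S)
    {Ψ : (Ω → ℝ) → (Ω → ℝ)} (hΨ : ∀ u ∈ S, Ψ u ∈ S) {θ : ℝ≥0} (hθ : θ < 1)
    (hlip : ∀ u ∈ S, ∀ v ∈ S, N (fun x => ‖u x - v x‖ₑ) < ⊤ →
      N (fun x => ‖Ψ u x - Ψ v x‖ₑ) ≤ θ * N (fun x => ‖u x - v x‖ₑ))
    {u0 : Ω → ℝ} (h0 : u0 ∈ S) (hfin : N (fun x => ‖Ψ u0 x - u0 x‖ₑ) < ⊤) :
    ∃ u ∈ S, Ψ u =ᵐ[μ] u ∧
      N (fun x => ‖u x - u0 x‖ₑ) ≤ (1 - (θ : ℝ≥0∞))⁻¹ * N (fun x => ‖Ψ u0 x - u0 x‖ₑ) := by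
  classical
  set c := N (fun x => ‖Ψ u0 x - u0 x‖ₑ) with hc
  let u : ℕ → Ω → ℝ := fun n => Ψ^[n] u0
  have huS : ∀ n, u n ∈ S := by
    intro n
    induction n with
    | zero => exact h0
    | succ n ih =>
      simp only [u, Function.iterate_succ_apply'] at ih ⊢
      exact hΨ _ ih
  have hum : ∀ n, Measurable (u n) := fun n => hSm _ (huS n)
  have hsucc : ∀ n, u (n + 1) = Ψ (u n) := fun n => by
    simp only [u, Function.iterate_succ_apply']
  have hd : ∀ n, N (fun x => ‖u (n + 1) x - u n x‖ₑ) ≤ (θ : ℝ≥0∞) ^ n * c := by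
    intro n
    induction n with
    | zero => simp [u, hc]
    | succ n ih =>
      have h1 := hlip (u (n + 1)) (huS _) (u n) (huS n)
        (lt_of_le_of_lt ih (ENNReal.mul_lt_top (ENNReal.pow_lt_top ENNReal.coe_lt_top) hfin))
      rw [hsucc (n + 1), hsucc n] at *
      refine h1.trans ?_
      rw [pow_succ', mul_assoc]
      gcongr
  have hθ1 : (θ : ℝ≥0∞) < 1 := by exact_mod_cast hθ
  have hgeo : ∀ m : ℕ, ∑' n : ℕ, (θ : ℝ≥0∞) ^ (n + m) * c = (θ : ℝ≥0∞) ^ m * ((1 - (θ : ℝ≥0∞))⁻¹ * c) := by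
    intro m
    have : ∀ n : ℕ, (θ : ℝ≥0∞) ^ (n + m) * c = (θ : ℝ≥0∞) ^ n * ((θ : ℝ≥0∞) ^ m * c) := by
      intro n; rw [pow_add]; ring
    simp_rw [this]
    rw [ENNReal.tsum_mul_right, ENNReal.tsum_geometric]
    ring
  -- the dominating function
  let dd : ℕ → Ω → ℝ≥0∞ := fun n x => ‖u (n + 1) x - u n x‖ₑ
  have hddm : ∀ n, Measurable (dd n) := fun n => ((hum (n + 1)).sub (hum n)).enorm
  have htail : ∀ m, N (fun x => ∑' n, dd (n + m) x) ≤ (θ : ℝ≥0∞) ^ m * ((1 - (θ : ℝ≥0∞))⁻¹ * c) := by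
    intro m
    refine (hN.tsum_le (fun n => dd (n + m)) (fun n => hddm _)).trans ?_
    rw [← hgeo m]
    exact ENNReal.tsum_le_tsum fun n => hd (n + m)
  have hcfin : (1 - (θ : ℝ≥0∞))⁻¹ * c < ⊤ := by
    refine ENNReal.mul_lt_top ?_ hfin
    rw [ENNReal.inv_lt_top]
    exact tsub_pos_of_lt hθ1
  have hsumfin : ∀ᵐ x ∂μ, ∑' n, dd n x < ⊤ := by
    have h1 := htail 0
    simp only [add_zero, pow_zero, one_mul] at h1
    exact hN.lt_top _ (Measurable.tsum hddm) (lt_of_le_of_lt h1 hcfin)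
  -- the limit
  let v : Ω → ℝ := fun x => if ∑' n, dd n x < ⊤ then limUnder atTop (fun n => u n x) else 0
  have hconv : ∀ x, ∑' n, dd n x < ⊤ → Tendsto (fun n => u n x) atTop (𝓝 (v x)) := by
    intro x hx
    have hcs : CauchySeq (fun n => u n x) := by
      refine cauchySeq_of_edist_le_of_tsum_ne_top (fun n => dd n x) ?_ hx.ne
      intro n
      rw [edist_comm, edist_eq_enorm_sub]
    have : v x = limUnder atTop (fun n => u n x) := by simp [v, hx]
    rw [this]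
    exact hcs.tendsto_limUnder
  have hset : MeasurableSet {x | ∑' n, dd n x < ⊤} :=
    measurableSet_lt (Measurable.tsum hddm) measurable_const
  have hvm : Measurable v := by
    -- v is the pointwise limit of indicator-truncated u n
    refine measurable_of_tendsto_metrizable
      (f := fun n x => if ∑' n, dd n x < ⊤ then u n x else 0) (fun n => ?_) ?_
    · exact Measurable.ite hset (hum n) measurable_const
    · rw [tendsto_pi_nhds]
      intro x
      by_cases hx : ∑' n, dd n x < ⊤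
      · simp only [hx, if_true]
        exact hconv x hx
      · simp only [hx, if_false, v]
        exact tendsto_const_nhds
  have hbound : ∀ m, ∀ x, ∑' n, dd n x < ⊤ → ‖u m x - v x‖ₑ ≤ ∑' n, dd (n + m) x := by
    intro m x hx
    have h1 : ∀ k, ‖u m x - u (k + m) x‖ₑ ≤ ∑' n, dd (n + m) x := by
      intro k
      have h2 : ‖u m x - u (k + m) x‖ₑ ≤ ∑ n ∈ Finset.range k, dd (n + m) x := by
        induction k with
        | zero => simp
        | succ k ih =>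
          rw [Finset.sum_range_succ]
          have h3 : u m x - u (k + 1 + m) x
              = (u m x - u (k + m) x) - (u (k + m + 1) x - u (k + m) x) := by
            have : k + 1 + m = k + m + 1 := by omega
            rw [this]; ring
          rw [h3]
          exact (enorm_sub_le).trans (add_le_add ih le_rfl)
      exact h2.trans (ENNReal.sum_le_tsum _)
    have h4 : Tendsto (fun k => ‖u m x - u (k + m) x‖ₑ) atTop (𝓝 ‖u m x - v x‖ₑ) := by
      have h5 := (tendsto_add_atTop_iff_nat m).2 (hconv x hx)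
      exact (tendsto_const_nhds.sub h5).enorm
    exact le_of_tendsto' h4 h1
  have hNb : ∀ m, N (fun x => ‖u m x - v x‖ₑ) ≤ (θ : ℝ≥0∞) ^ m * ((1 - (θ : ℝ≥0∞))⁻¹ * c) := by
    intro m
    refine le_trans (hN.mono _ _ ?_) (htail m)
    filter_upwards [hsumfin] with x hx
    exact hbound m x hx
  have hlim0 : Tendsto (fun m : ℕ => (θ : ℝ≥0∞) ^ m * ((1 - (θ : ℝ≥0∞))⁻¹ * c)) atTop (𝓝 0) := by
    have h1 : Tendsto (fun m : ℕ => (θ : ℝ≥0∞) ^ m) atTop (𝓝 0) :=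
      ENNReal.tendsto_pow_atTop_nhds_zero_of_lt_one hθ1
    have h2 := ENNReal.Tendsto.mul_const (b := (1 - (θ : ℝ≥0∞))⁻¹ * c) h1 (Or.inr hcfin.ne)
    simpa using h2
  have hNlim : Tendsto (fun n => N (fun x => ‖u n x - v x‖ₑ)) atTop (𝓝 0) :=
    tendsto_of_tendsto_of_tendsto_of_le_of_le tendsto_const_nhds hlim0 (fun _ => zero_le) hNb
  have hvS : v ∈ S := by
    refine hclosed u huS v hvm ?_ hNlim
    filter_upwards [hsumfin] with x hx
    exact hconv x hx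
  refine ⟨v, hvS, ?_, ?_⟩
  · -- Ψ v = v
    have hle : ∀ m : ℕ, N (fun x => ‖Ψ v x - v x‖ₑ) ≤
        (θ : ℝ≥0∞) * N (fun x => ‖u m x - v x‖ₑ) + N (fun x => ‖u (m + 1) x - v x‖ₑ) := by
      intro m
      have hΨv := hSm _ (hΨ v hvS)
      calc N (fun x => ‖Ψ v x - v x‖ₑ)
          ≤ N (fun x => ‖Ψ (u m) x - Ψ v x‖ₑ + ‖u (m + 1) x - v x‖ₑ) := by
            refine hN.mono _ _ (Eventually.of_forall fun x => ?_)
            have h3 : Ψ v x - v x = (u (m + 1) x - v x) - (Ψ (u m) x - Ψ v x) := by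
              rw [hsucc m]; ring
            simp only
            rw [h3, add_comm (‖Ψ (u m) x - Ψ v x‖ₑ)]
            exact enorm_sub_le
        _ ≤ N (fun x => ‖Ψ (u m) x - Ψ v x‖ₑ) + N (fun x => ‖u (m + 1) x - v x‖ₑ) := by
            refine hN.add_le ?_ ?_
            · exact ((hSm _ (hΨ _ (huS m))).sub hΨv).enorm
            · exact ((hum (m + 1)).sub hvm).enorm
        _ ≤ _ := by
            gcongr
            refine hlip _ (huS m) _ hvS (lt_of_le_of_lt (hNb m) ?_)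
            exact ENNReal.mul_lt_top (ENNReal.pow_lt_top ENNReal.coe_lt_top) hcfin
    have hlim : Tendsto (fun m : ℕ => (θ : ℝ≥0∞) * N (fun x => ‖u m x - v x‖ₑ)
        + N (fun x => ‖u (m + 1) x - v x‖ₑ)) atTop (𝓝 0) := by
      have h1 := ENNReal.Tendsto.const_mul (a := (θ : ℝ≥0∞)) hNlim (Or.inr ENNReal.coe_ne_top)
      have h2 := (tendsto_add_atTop_iff_nat 1).2 hNlim
      have h3 := h1.add h2
      simpa using h3
    have hz : N (fun x => ‖Ψ v x - v x‖ₑ) = 0 :=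
      le_antisymm (ge_of_tendsto' hlim hle) zero_le
    have hz2 := hN.zero _ ((hSm _ (hΨ v hvS)).sub hvm).enorm hz
    filter_upwards [hz2] with x hx
    simp only [Pi.zero_apply, enorm_eq_zero, Pi.sub_apply] at hx
    linarith
  · have h1 := hNb 0
    simp only [pow_zero, one_mul] at h1
    refine le_trans (le_of_eq ?_) h1
    congr 1
    funext x
    simp only [u, Function.iterate_zero, id_eq]
    rw [← enorm_neg]
    congr 1
    ring

/-- uniqueness of the fixed point within finite distance -/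
theorem fixedPoint_unique (hN : SNorm μ N) {S : Set (Ω → ℝ)} (hSm : ∀ u ∈ S, Measurable u)
    {Ψ : (Ω → ℝ) → (Ω → ℝ)} {θ : ℝ≥0} (hθ : θ < 1)
    (hlip : ∀ u ∈ S, ∀ v ∈ S, N (fun x => ‖u x - v x‖ₑ) < ⊤ →
      N (fun x => ‖Ψ u x - Ψ v x‖ₑ) ≤ θ * N (fun x => ‖u x - v x‖ₑ))
    {u v : Ω → ℝ} (hu : u ∈ S) (hv : v ∈ S) (hfin : N (fun x => ‖u x - v x‖ₑ) < ⊤)
    (hΨu : Ψ u =ᵐ[μ] u) (hΨv : Ψ v =ᵐ[μ] v) : u =ᵐ[μ] v := by
  have h1 : N (fun x => ‖u x - v x‖ₑ) ≤ θ * N (fun x => ‖u x - v x‖ₑ) := by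
    refine le_trans (hN.mono _ _ ?_) (hlip u hu v hv hfin)
    filter_upwards [hΨu, hΨv] with x h1 h2
    rw [h1, h2]
  have hz : N (fun x => ‖u x - v x‖ₑ) = 0 := by
    by_contra hne
    have hpos : 0 < N (fun x => ‖u x - v x‖ₑ) := pos_iff_ne_zero.2 hne
    have h2 : (θ : ℝ≥0∞) * N (fun x => ‖u x - v x‖ₑ) < 1 * N (fun x => ‖u x - v x‖ₑ) := by
      refine ENNReal.mul_lt_mul_left hne hfin.ne ?_
      exact_mod_cast hθ
    rw [one_mul] at h2
    exact absurd (lt_of_le_of_lt h1 h2) (lt_irrefl _)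
  have hz2 := hN.zero _ ((hSm _ hu).sub (hSm _ hv)).enorm hz
  filter_upwards [hz2] with x hx
  simp only [Pi.zero_apply, enorm_eq_zero, Pi.sub_apply] at hx
  linarith

/-- weighted essential sup as an `SNorm` -/
theorem ess {W : Ω → ℝ≥0∞} (hWt : ∀ᵐ x ∂μ, W x < ⊤) : SNorm μ (fun f => essSup (fun x => f x / W x) μ) where
  mono f g h := by
    refine essSup_mono_ae ?_
    filter_upwards [h] with x hx
    exact ENNReal.div_le_div_right hx _
  tsum_le f hf := by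
    refine essSup_le_of_ae_le _ ?_
    have h : ∀ᵐ x ∂μ, ∀ n, f n x / W x ≤ essSup (fun x => f n x / W x) μ :=
      ae_all_iff.2 fun n => ENNReal.ae_le_essSup _
    filter_upwards [h] with x hx
    simp only [div_eq_mul_inv] at hx ⊢
    rw [← ENNReal.tsum_mul_right]
    exact ENNReal.tsum_le_tsum hx
  lt_top f hf h := by
    have h1 := ENNReal.ae_le_essSup (μ := μ) (fun x => f x / W x)
    filter_upwards [h1, hWt] with x hx hx2
    have h3 : f x / W x < ⊤ := lt_of_le_of_lt hx h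
    by_contra hcon
    have h4 : f x = ⊤ := by simpa using hcon
    rw [h4, ENNReal.top_div_of_ne_top hx2.ne] at h3
    exact lt_irrefl _ h3
  zero f hf h := by
    have h1 := ENNReal.ae_le_essSup (μ := μ) (fun x => f x / W x)
    filter_upwards [h1, hWt] with x hx hx2
    rw [h] at hx
    have h3 : f x / W x = 0 := le_antisymm hx zero_le
    rw [ENNReal.div_eq_zero_iff] at h3
    rcases h3 with h3 | h3
    · exact h3
    · exact absurd h3 hx2.ne
  map_zero := by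
    refine le_antisymm (essSup_le_of_ae_le _ ?_) zero_le
    exact Eventually.of_forall fun x => by simp

theorem essSup_div_le_iff {W f : Ω → ℝ≥0∞} (hWt : ∀ᵐ x ∂μ, W x < ⊤) {c : ℝ≥0∞} (hc : c < ⊤) :
    essSup (fun x => f x / W x) μ ≤ c ↔ ∀ᵐ x ∂μ, f x ≤ c * W x := by
  constructor
  · intro h
    have h1 := ENNReal.ae_le_essSup (μ := μ) (fun x => f x / W x)
    filter_upwards [h1, hWt] with x hx hx2
    have h3 := hx.trans h
    rw [ENNReal.div_le_iff_le_mul (Or.inr hc.ne) (Or.inl hx2.ne)] at h3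
    exact h3
  · intro h
    refine essSup_le_of_ae_le _ ?_
    filter_upwards [h, hWt] with x hx hx2
    show f x / W x ≤ c
    rw [ENNReal.div_le_iff_le_mul (Or.inr hc.ne) (Or.inl hx2.ne)]
    exact hx

end SNorm

/-- Picard iteration with a pointwise weight `W`, almost-everywhere semantics. -/
theorem wfix {W : Ω → ℝ≥0∞} (hWt : ∀ᵐ x ∂μ, W x < ⊤) {S : Set (Ω → ℝ)}
    (hSm : ∀ u ∈ S, Measurable u)
    (hclosed : ∀ u : ℕ → Ω → ℝ, (∀ n, u n ∈ S) → ∀ v : Ω → ℝ, Measurable v →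
      (∀ᵐ x ∂μ, Tendsto (fun n => u n x) atTop (𝓝 (v x))) →
      (∃ c : ℕ → ℝ≥0∞, Tendsto c atTop (𝓝 0) ∧ ∀ n, ∀ᵐ x ∂μ, ‖u n x - v x‖ₑ ≤ c n * W x) → v ∈ S)
    {Ψ : (Ω → ℝ) → (Ω → ℝ)} (hΨ : ∀ u ∈ S, Ψ u ∈ S) {θ : ℝ≥0} (hθ : θ < 1)
    (hlip : ∀ u ∈ S, ∀ v ∈ S, ∀ c : ℝ≥0∞, c < ⊤ → (∀ᵐ x ∂μ, ‖u x - v x‖ₑ ≤ c * W x) →
      ∀ᵐ x ∂μ, ‖Ψ u x - Ψ v x‖ₑ ≤ θ * c * W x)
    {u0 : Ω → ℝ} (h0 : u0 ∈ S) {C : ℝ≥0∞} (hC : C < ⊤)
    (hfin : ∀ᵐ x ∂μ, ‖Ψ u0 x - u0 x‖ₑ ≤ C * W x) :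
    ∃ u ∈ S, Ψ u =ᵐ[μ] u ∧ ∀ᵐ x ∂μ, ‖u x - u0 x‖ₑ ≤ (1 - (θ : ℝ≥0∞))⁻¹ * C * W x := by
  have hN := SNorm.ess (μ := μ) hWt
  have hθ1 : (θ : ℝ≥0∞) < 1 := by exact_mod_cast hθ
  have hinv : (1 - (θ : ℝ≥0∞))⁻¹ < ⊤ := by
    rw [ENNReal.inv_lt_top]
    exact tsub_pos_of_lt hθ1
  have hfin' := (SNorm.essSup_div_le_iff hWt hC).2 hfin
  have hcl : ∀ u : ℕ → Ω → ℝ, (∀ n, u n ∈ S) → ∀ v : Ω → ℝ, Measurable v →
      (∀ᵐ x ∂μ, Tendsto (fun n => u n x) atTop (𝓝 (v x))) →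
      Tendsto (fun n => essSup (fun x => ‖u n x - v x‖ₑ / W x) μ) atTop (𝓝 0) → v ∈ S := by
    intro u huS v hv hlim hNlim
    have hev : ∀ᶠ n in atTop, essSup (fun x => ‖u n x - v x‖ₑ / W x) μ < ⊤ :=
      hNlim.eventually (gt_mem_nhds (by simp))
    obtain ⟨m, hm⟩ := eventually_atTop.1 hev
    refine hclosed (fun n => u (n + m)) (fun n => huS _) v hv ?_
      ⟨fun n => essSup (fun x => ‖u (n + m) x - v x‖ₑ / W x) μ,
        (tendsto_add_atTop_iff_nat m).2 hNlim,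
        fun n => (SNorm.essSup_div_le_iff hWt (hm _ (Nat.le_add_left _ _))).1 le_rfl⟩
    filter_upwards [hlim] with x hx
    exact (tendsto_add_atTop_iff_nat m).2 hx
  have hlip' : ∀ u ∈ S, ∀ v ∈ S, essSup (fun x => ‖u x - v x‖ₑ / W x) μ < ⊤ →
      essSup (fun x => ‖Ψ u x - Ψ v x‖ₑ / W x) μ ≤
        θ * essSup (fun x => ‖u x - v x‖ₑ / W x) μ := by
    intro u hu v hv hfinuv
    have h3 := (SNorm.essSup_div_le_iff hWt hfinuv).1 le_rfl
    have h4 := hlip u hu v hv _ hfinuv h3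
    exact (SNorm.essSup_div_le_iff hWt (ENNReal.mul_lt_top ENNReal.coe_lt_top hfinuv)).2 h4
  obtain ⟨u, huS, h1, h2⟩ := hN.fixedPoint hSm hcl hΨ hθ hlip' h0 (lt_of_le_of_lt hfin' hC)
  refine ⟨u, huS, h1, ?_⟩
  have h3 := h2.trans (mul_le_mul_right hfin' _)
  exact (SNorm.essSup_div_le_iff hWt (ENNReal.mul_lt_top hinv hC)).1 h3

end Crest.Agent.R68.WF
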