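import Mathlib
import Crest.Agent.R68.WDefs
import Crest.Agent.R68.WB0
import Crest.Agent.R68.WFix

/-!
R68 / WB1: the damped Duhamel fixed point, global in time (helper475, part W).
-/

set_option autoImplicit false
open MeasureTheory Set
open scoped ENNReal NNReal
open Crest.AnalysisR.VecCalc3 Crest.AnalysisR.PDE.Boltzmann

noncomputable section

namespace Crest.Agent.R68.W

/-! ### damping factors -/

theorem dmp_le_add {L L' : Om → ℝ≥0∞} {z : Om} {s : ℝ} {δ : ℝ≥0∞} (hL : opt L z s ≠ ⊤)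
    (h : opt L' z s ≤ opt L z s + δ) : dmp L z s ≤ dmp L' z s + δ := by
  by_cases hδ : δ = ⊤
  · simp [hδ]
  have hL' : opt L' z s ≠ ⊤ := ne_top_of_le_ne_top (ENNReal.add_ne_top.2 ⟨hL, hδ⟩) h
  have h1 : (opt L' z s).toReal ≤ (opt L z s).toReal + δ.toReal := by
    rw [← ENNReal.toReal_add hL hδ]
    exact ENNReal.toReal_mono (ENNReal.add_ne_top.2 ⟨hL, hδ⟩) h
  unfold dmp
  rw [← ENNReal.ofReal_toReal hδ, ← ENNReal.ofReal_add (Real.exp_pos _).le ENNReal.toReal_nonneg]
  apply ENNReal.ofReal_le_ofReal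
  set a := (opt L z s).toReal with ha
  set b := (opt L' z s).toReal
  set d := δ.toReal
  have ha0 : 0 ≤ a := ENNReal.toReal_nonneg
  have hd0 : 0 ≤ d := ENNReal.toReal_nonneg
  have h2 : Real.exp (-a) * Real.exp (-d) ≤ Real.exp (-b) := by
    rw [← Real.exp_add]; apply Real.exp_le_exp.2; linarith
  have h3 : 1 - d ≤ Real.exp (-d) := by
    have := Real.add_one_le_exp (-d); linarith
  have h4 : Real.exp (-a) ≤ 1 := by
    rw [← Real.exp_zero]; apply Real.exp_le_exp.2; linarith
  have h5 : 0 < Real.exp (-a) := Real.exp_pos _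
  nlinarith

theorem measurable_opt {L : Om → ℝ≥0∞} (hL : Measurable L) :
    Measurable fun p : Om × ℝ => opt L p.1 p.2 := by
  have h : (fun p : Om × ℝ => opt L p.1 p.2) = fun p : Om × ℝ => ∫⁻ r,
      ({q : (Om × ℝ) × ℝ | q.1.2 < q.2 ∧ q.2 < q.1.1.1}.indicator
        (fun q : (Om × ℝ) × ℝ => L (fl q.1.1 q.2))) (p, r) := by
    funext p
    unfold opt
    rw [← lintegral_indicator measurableSet_Ioo]
    rfl
  rw [h]
  have m1 : Measurable fun q : (Om × ℝ) × ℝ => q.1.2 := measurable_fst.snd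
  have m2 : Measurable fun q : (Om × ℝ) × ℝ => q.2 := measurable_snd
  have m3 : Measurable fun q : (Om × ℝ) × ℝ => q.1.1.1 := measurable_fst.fst.fst
  have m4 : Measurable fun q : (Om × ℝ) × ℝ => (q.1.1, q.2) := measurable_fst.fst.prodMk measurable_snd
  have hs : MeasurableSet {q : (Om × ℝ) × ℝ | q.1.2 < q.2 ∧ q.2 < q.1.1.1} :=
    (measurableSet_lt m1 m2).inter (measurableSet_lt m2 m3)
  have hF : Measurable fun q : (Om × ℝ) × ℝ => L (fl q.1.1 q.2) := hL.comp (measurable_fl.comp m4)
  exact Measurable.lintegral_prod_right' (hF.indicator hs)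

theorem measurable_dmp {L : Om → ℝ≥0∞} (hL : Measurable L) :
    Measurable fun p : Om × ℝ => dmp L p.1 p.2 := by
  unfold dmp
  exact (Real.measurable_exp.comp (measurable_opt hL).ennreal_toReal.neg).ennreal_ofReal

theorem measurable_dmp_fl {L P : Om → ℝ≥0∞} (hL : Measurable L) (hP : Measurable P) :
    Measurable fun p : Om × ℝ => dmp L p.1 p.2 * P (fl p.1 p.2) :=
  (measurable_dmp hL).mul (hP.comp measurable_fl)

theorem measurable_damped {T1 : ℝ} {h1 : P2 → R3 → ℝ≥0∞}
    (hh1 : Measurable fun q : P2 × R3 => h1 q.1 q.2) {L P : Om → ℝ≥0∞} (hL : Measurable L)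
    (hP : Measurable P) : Measurable (damped T1 h1 L P) := by
  have mc : Measurable fun _ : Om => T1 := measurable_const
  have m0 := (measurable_id : Measurable (fun z : Om => z)).prodMk mc
  have m1 : Measurable fun z : Om => dmp L z T1 := by
    have := (measurable_dmp hL).comp m0
    exact this
  have m2 : Measurable fun z : Om => fl z T1 := by
    have := measurable_fl.comp m0
    exact this
  have m3 : Measurable fun z : Om => h1 (fl z T1).2.1 (fl z T1).2.2 := by
    have := hh1.comp m2.snd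
    exact this
  have n1 : Measurable fun q : Om × ℝ => q.2 := measurable_snd
  have n2 : Measurable fun q : Om × ℝ => q.1.1 := measurable_fst.fst
  have hs : MeasurableSet {q : Om × ℝ | T1 < q.2 ∧ q.2 < q.1.1} :=
    (measurableSet_lt measurable_const n1).inter (measurableSet_lt n1 n2)
  have m4 : Measurable fun z : Om => ∫⁻ s in Ioo T1 z.1, dmp L z s * P (fl z s) := by
    have h : (fun z : Om => ∫⁻ s in Ioo T1 z.1, dmp L z s * P (fl z s)) = fun z : Om => ∫⁻ s,
        ({q : Om × ℝ | T1 < q.2 ∧ q.2 < q.1.1}.indicator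
          (fun q : Om × ℝ => dmp L q.1 q.2 * P (fl q.1 q.2))) (z, s) := by
      funext z
      rw [← lintegral_indicator measurableSet_Ioo]
      rfl
    rw [h]
    exact Measurable.lintegral_prod_right' ((measurable_dmp_fl hL hP).indicator hs)
  exact (m1.mul m3).add m4

/-! ### the basic estimate -/

theorem damped_le_add {T1 lam : ℝ} (hlam : 0 ≤ lam) {E : Om → ℝ≥0∞}
    {h1 : P2 → R3 → ℝ≥0∞} {A : ℝ≥0∞}
    (hh1 : ∀ x v, h1 x v ≤ A * E (T1, x, v)) {L P L' P' : Om → ℝ≥0∞}
    {z : Om} (hz : T1 ≤ z.1)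
    (hfl : ∀ s, T1 ≤ s → s ≤ z.1 → E (fl z s) ≤ ENNReal.ofReal (Real.exp (lam * (z.1 - s))) * E z)
    {b kap : ℝ → ℝ} (hb : Measurable b) (hkap : Measurable kap) {c w : ℝ≥0∞}
    (hfin : opt L z T1 ≠ ⊤)
    (hLL : ∀ s, T1 < s → s < z.1 → L' (fl z s) ≤ L (fl z s) + c * w * ENNReal.ofReal (b s * kap s))
    (hPP : ∀ s, T1 < s → s < z.1 → P (fl z s) ≤ P' (fl z s) +
      c * w * ENNReal.ofReal (b s * kap s) * E (fl z s))
    (hPb : ∀ s, T1 < s → s < z.1 → P' (fl z s) ≤ ENNReal.ofReal (b s) * E (fl z s)) :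
    damped T1 h1 L P z ≤ damped T1 h1 L' P' z + c * w * E z *
      ((∫⁻ s in Ioo T1 z.1, ENNReal.ofReal (b s * kap s)) *
        (ENNReal.ofReal (Real.exp (lam * (z.1 - T1))) *
          (A + 1 + ∫⁻ s in Ioo T1 z.1, ENNReal.ofReal (b s)))) := by
  set J := ∫⁻ s in Ioo T1 z.1, ENNReal.ofReal (b s * kap s) with hJ
  set I := ∫⁻ s in Ioo T1 z.1, ENNReal.ofReal (b s) with hI
  set e := ENNReal.ofReal (Real.exp (lam * (z.1 - T1))) with he
  -- flights stay in the class
  have hEs : ∀ s, T1 ≤ s → s ≤ z.1 → E (fl z s) ≤ e * E z := by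
    intro s h2 h3
    refine (hfl s h2 h3).trans ?_
    gcongr
    rw [he]
    apply ENNReal.ofReal_le_ofReal
    apply Real.exp_le_exp.2
    exact mul_le_mul_of_nonneg_left (by linarith) hlam
  -- damping
  have hopt : ∀ s, T1 ≤ s → opt L' z s ≤ opt L z s + c * w * J := by
    intro s hs
    unfold opt
    have hm : Measurable fun r => c * w * ENNReal.ofReal (b r * kap r) := by fun_prop
    calc ∫⁻ r in Ioo s z.1, L' (fl z r)
        ≤ ∫⁻ r in Ioo s z.1, (L (fl z r) + c * w * ENNReal.ofReal (b r * kap r)) :=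
          setLIntegral_mono' measurableSet_Ioo fun r hr => hLL r (lt_of_le_of_lt hs hr.1) hr.2
      _ = (∫⁻ r in Ioo s z.1, L (fl z r)) + ∫⁻ r in Ioo s z.1, c * w * ENNReal.ofReal (b r * kap r) :=
          lintegral_add_right _ hm
      _ ≤ _ := by
          gcongr
          rw [hJ]
          rw [← lintegral_const_mul _ (by fun_prop)]
          exact lintegral_mono_set (Ioo_subset_Ioo_left hs)
  have hfins : ∀ s, T1 ≤ s → opt L z s ≠ ⊤ := by
    intro s hs
    refine ne_top_of_le_ne_top hfin ?_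
    unfold opt
    exact lintegral_mono_set (Ioo_subset_Ioo_left hs)
  have hdmp : ∀ s, T1 ≤ s → dmp L z s ≤ dmp L' z s + c * w * J := fun s hs =>
    dmp_le_add (hfins s hs) (hopt s hs)
  -- data part
  have hdata : dmp L z T1 * h1 (fl z T1).2.1 (fl z T1).2.2 ≤
      dmp L' z T1 * h1 (fl z T1).2.1 (fl z T1).2.2 + c * w * J * (A * (e * E z)) := by
    have h3 : h1 (fl z T1).2.1 (fl z T1).2.2 ≤ A * (e * E z) := by
      refine (hh1 _ _).trans ?_
      gcongr
      exact hEs T1 le_rfl hz
    calc dmp L z T1 * h1 (fl z T1).2.1 (fl z T1).2.2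
        ≤ (dmp L' z T1 + c * w * J) * h1 (fl z T1).2.1 (fl z T1).2.2 := by
          gcongr
          exact hdmp T1 le_rfl
      _ = dmp L' z T1 * h1 (fl z T1).2.1 (fl z T1).2.2 +
          c * w * J * h1 (fl z T1).2.1 (fl z T1).2.2 := by ring
      _ ≤ _ := by gcongr
  -- source part
  have hsrc : ∫⁻ s in Ioo T1 z.1, dmp L z s * P (fl z s) ≤
      (∫⁻ s in Ioo T1 z.1, dmp L' z s * P' (fl z s)) + c * w * (e * E z) * (J * I + J) := by
    have hpt : ∀ s ∈ Ioo T1 z.1, dmp L z s * P (fl z s) ≤ dmp L' z s * P' (fl z s) +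
        c * w * (e * E z) * (J * ENNReal.ofReal (b s) + ENNReal.ofReal (b s * kap s)) := by
      intro s hs
      have hE' := hEs s hs.1.le hs.2.le
      calc dmp L z s * P (fl z s)
          ≤ dmp L z s * (P' (fl z s) + c * w * ENNReal.ofReal (b s * kap s) * E (fl z s)) := by
            gcongr
            exact hPP s hs.1 hs.2
        _ = dmp L z s * P' (fl z s) + dmp L z s * (c * w * ENNReal.ofReal (b s * kap s) * E (fl z s)) := by
            ring
        _ ≤ (dmp L' z s + c * w * J) * P' (fl z s) +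
            1 * (c * w * ENNReal.ofReal (b s * kap s) * (e * E z)) := by
            gcongr
            · exact hdmp s hs.1.le
            · exact dmp_le_one _ _ _
        _ = dmp L' z s * P' (fl z s) + (c * w * J * P' (fl z s) +
            c * w * ENNReal.ofReal (b s * kap s) * (e * E z)) := by ring
        _ ≤ dmp L' z s * P' (fl z s) + (c * w * J * (ENNReal.ofReal (b s) * (e * E z)) +
            c * w * ENNReal.ofReal (b s * kap s) * (e * E z)) := by
            gcongr
            refine (hPb s hs.1 hs.2).trans ?_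
            gcongr
        _ = _ := by ring
    calc ∫⁻ s in Ioo T1 z.1, dmp L z s * P (fl z s)
        ≤ ∫⁻ s in Ioo T1 z.1, (dmp L' z s * P' (fl z s) +
          c * w * (e * E z) * (J * ENNReal.ofReal (b s) + ENNReal.ofReal (b s * kap s))) :=
          setLIntegral_mono' measurableSet_Ioo hpt
      _ = (∫⁻ s in Ioo T1 z.1, dmp L' z s * P' (fl z s)) + ∫⁻ s in Ioo T1 z.1,
          c * w * (e * E z) * (J * ENNReal.ofReal (b s) + ENNReal.ofReal (b s * kap s)) :=
          lintegral_add_right _ (by fun_prop)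
      _ = _ := by
          congr 1
          rw [lintegral_const_mul _ (by fun_prop), lintegral_add_left (by fun_prop),
            lintegral_const_mul _ (by fun_prop)]
  unfold damped
  calc _ ≤ (dmp L' z T1 * h1 (fl z T1).2.1 (fl z T1).2.2 + c * w * J * (A * (e * E z))) +
        ((∫⁻ s in Ioo T1 z.1, dmp L' z s * P' (fl z s)) + c * w * (e * E z) * (J * I + J)) :=
        add_le_add hdata hsrc
    _ = _ := by ring

end Crest.Agent.R68.W
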