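import Mathlib
import Crest.Agent.R68.WB1

/-!
R68 / WB2: the damped Duhamel fixed point, global in time (helper475, part W).
-/

set_option autoImplicit false
open MeasureTheory Set
open scoped ENNReal NNReal
open Crest.AnalysisR.VecCalc3 Crest.AnalysisR.PDE.Boltzmann

noncomputable section

namespace Crest.Agent.R68.W

theorem enorm_toReal_sub_le {a b δ : ℝ≥0∞} (ha : a ≠ ⊤) (hb : b ≠ ⊤) (h1 : a ≤ b + δ)
    (h2 : b ≤ a + δ) : ‖a.toReal - b.toReal‖ₑ ≤ δ := by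
  by_cases hδ : δ = ⊤
  · simp [hδ]
  rw [← ofReal_norm, Real.norm_eq_abs, ← ENNReal.ofReal_toReal hδ]
  apply ENNReal.ofReal_le_ofReal
  rw [abs_sub_le_iff]
  have e1 := ENNReal.toReal_mono (ENNReal.add_ne_top.2 ⟨hb, hδ⟩) h1
  have e2 := ENNReal.toReal_mono (ENNReal.add_ne_top.2 ⟨ha, hδ⟩) h2
  rw [ENNReal.toReal_add hb hδ] at e1
  rw [ENNReal.toReal_add ha hδ] at e2
  constructor <;> linarith

theorem lint_Ioo_eq {f : ℝ → ℝ} (hf : Continuous f) {a t : ℝ} (hat : a ≤ t)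
    (h0 : ∀ s, a ≤ s → s ≤ t → 0 ≤ f s) :
    ∫⁻ s in Ioo a t, ENNReal.ofReal (f s) = ENNReal.ofReal (∫ s in a..t, f s) := by
  rw [intervalIntegral.integral_of_le hat, setLIntegral_congr Ioo_ae_eq_Ioc,
    ← ofReal_integral_eq_lintegral_ofReal]
  · exact (hf.integrableOn_Icc).mono_set Ioc_subset_Icc_self
  · rw [Filter.EventuallyLE, ae_restrict_iff' measurableSet_Ioc]
    exact ae_of_all _ fun s hs => h0 s hs.1.le hs.2

/-- hypotheses of the damped fixed point theorem -/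
structure FixHyp (T1 lam A : ℝ) (E : Om → ℝ≥0∞) (h1 : P2 → R3 → ℝ≥0∞) (b : ℝ → ℝ)
    (L P : (Om → ℝ) → Om → ℝ≥0∞) : Prop where
  lam0 : 0 ≤ lam
  A0 : 0 ≤ A
  Em : Measurable E
  flE : ∀ z s, T1 ≤ s → s ≤ z.1 → E (fl z s) ≤ ENNReal.ofReal (Real.exp (lam * (z.1 - s))) * E z
  h1m : Measurable fun q : P2 × R3 => h1 q.1 q.2
  h1E : ∀ x v, h1 x v ≤ ENNReal.ofReal A * E (T1, x, v)
  bc : Continuous b
  b0 : ∀ t, 0 ≤ b t
  Lm : ∀ u, Measurable u → Measurable (L u)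
  Pm : ∀ u, Measurable u → Measurable (P u)
  Lb : ∀ u, Measurable u → ∀ z : Om, T1 ≤ z.1 → E z < ⊤ →
    L u z ≤ ENNReal.ofReal (b z.1) * ENNReal.ofReal (1 + ‖z.2.2‖)
  Pb : ∀ u, Measurable u → ∀ z : Om, T1 ≤ z.1 → E z < ⊤ → P u z ≤ ENNReal.ofReal (b z.1) * E z
  Ll : ∀ u u', Measurable u → Measurable u' → ∀ kap : ℝ → ℝ, Continuous kap →
    MonotoneOn kap (Ici T1) → (∀ t, T1 ≤ t → 1 ≤ kap t) → ∀ c : ℝ≥0∞, c < ⊤ →
    (∀ z : Om, T1 ≤ z.1 → E z < ⊤ →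
      ‖u z - u' z‖ₑ ≤ c * (ENNReal.ofReal (kap z.1) * ENNReal.ofReal (1 + ‖z.2.2‖) * E z)) →
    ∀ z : Om, T1 ≤ z.1 → E z < ⊤ →
      L u z ≤ L u' z + c * ENNReal.ofReal (1 + ‖z.2.2‖) * ENNReal.ofReal (b z.1 * kap z.1)
  Pl : ∀ u u', Measurable u → Measurable u' → ∀ kap : ℝ → ℝ, Continuous kap →
    MonotoneOn kap (Ici T1) → (∀ t, T1 ≤ t → 1 ≤ kap t) → ∀ c : ℝ≥0∞, c < ⊤ →
    (∀ z : Om, T1 ≤ z.1 → E z < ⊤ →
      ‖u z - u' z‖ₑ ≤ c * (ENNReal.ofReal (kap z.1) * ENNReal.ofReal (1 + ‖z.2.2‖) * E z)) →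
    ∀ z : Om, T1 ≤ z.1 → E z < ⊤ →
      P u z ≤ P u' z + c * ENNReal.ofReal (1 + ‖z.2.2‖) * ENNReal.ofReal (b z.1 * kap z.1) * E z

namespace FixHyp

variable {T1 lam A : ℝ} {E : Om → ℝ≥0∞} {h1 : P2 → R3 → ℝ≥0∞} {b : ℝ → ℝ}
  {L P : (Om → ℝ) → Om → ℝ≥0∞}

theorem E_fl (H : FixHyp T1 lam A E h1 b L P) {z : Om} {s : ℝ} (hE : E z < ⊤) (h2 : T1 ≤ s)
    (h3 : s ≤ z.1) : E (fl z s) < ⊤ :=
  (H.flE z s h2 h3).trans_lt (ENNReal.mul_lt_top ENNReal.ofReal_lt_top hE)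

theorem E_fl_le (H : FixHyp T1 lam A E h1 b L P) {z : Om} {s : ℝ} (h2 : T1 ≤ s)
    (h3 : s ≤ z.1) : E (fl z s) ≤ ENNReal.ofReal (Real.exp (lam * (z.1 - T1))) * E z := by
  refine (H.flE z s h2 h3).trans ?_
  refine mul_le_mul_left (ENNReal.ofReal_le_ofReal (Real.exp_le_exp.2 ?_)) _
  exact mul_le_mul_of_nonneg_left (by linarith) H.lam0

theorem opt_ne_top (H : FixHyp T1 lam A E h1 b L P) {u : Om → ℝ} (hu : Measurable u) {z : Om}
    (hz : T1 ≤ z.1) (hE : E z < ⊤) : opt (L u) z T1 ≠ ⊤ := by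
  refine ne_top_of_le_ne_top (b := (∫⁻ s in Ioo T1 z.1, ENNReal.ofReal (b s)) *
    ENNReal.ofReal (1 + ‖z.2.2‖)) ?_ ?_
  · rw [lint_Ioo_eq H.bc hz fun s _ _ => H.b0 s]
    exact ENNReal.mul_ne_top ENNReal.ofReal_ne_top ENNReal.ofReal_ne_top
  · unfold opt
    rw [← lintegral_mul_const' _ _ ENNReal.ofReal_ne_top]
    exact setLIntegral_mono' measurableSet_Ioo fun s hs =>
      H.Lb u hu (fl z s) hs.1.le (H.E_fl hE hs.1.le hs.2.le)

theorem damped_le (H : FixHyp T1 lam A E h1 b L P) {u : Om → ℝ} (hu : Measurable u) {z : Om}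
    (hz : T1 ≤ z.1) (hE : E z < ⊤) : damped T1 h1 (L u) (P u) z ≤
      ENNReal.ofReal (Real.exp (lam * (z.1 - T1)) * (A + 1 + ∫ s in T1..z.1, b s)) * E z := by
  have hI0 : 0 ≤ ∫ s in T1..z.1, b s := intervalIntegral.integral_nonneg hz fun s _ => H.b0 s
  set e := ENNReal.ofReal (Real.exp (lam * (z.1 - T1))) with he
  have h2 : dmp (L u) z T1 * h1 (fl z T1).2.1 (fl z T1).2.2 ≤ ENNReal.ofReal A * (e * E z) := by
    calc _ ≤ 1 * (ENNReal.ofReal A * (e * E z)) := by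
          gcongr
          · exact dmp_le_one _ _ _
          · exact (H.h1E _ _).trans (mul_le_mul_right (H.E_fl_le le_rfl hz) _)
      _ = _ := one_mul _
  have h3 : ∫⁻ s in Ioo T1 z.1, dmp (L u) z s * P u (fl z s) ≤
      ENNReal.ofReal (∫ s in T1..z.1, b s) * (e * E z) := by
    rw [← lint_Ioo_eq H.bc hz fun s _ _ => H.b0 s,
      ← lintegral_mul_const' _ _ (ENNReal.mul_ne_top ENNReal.ofReal_ne_top hE.ne)]
    refine setLIntegral_mono' measurableSet_Ioo fun s hs => ?_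
    calc dmp (L u) z s * P u (fl z s) ≤ 1 * (ENNReal.ofReal (b s) * (e * E z)) := by
          gcongr
          · exact dmp_le_one _ _ _
          · refine (H.Pb u hu (fl z s) hs.1.le (H.E_fl hE hs.1.le hs.2.le)).trans ?_
            exact mul_le_mul_right (H.E_fl_le hs.1.le hs.2.le) _
      _ = _ := one_mul _
  unfold damped
  calc _ ≤ ENNReal.ofReal A * (e * E z) + ENNReal.ofReal (∫ s in T1..z.1, b s) * (e * E z) :=
        add_le_add h2 h3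
    _ = e * (ENNReal.ofReal A + ENNReal.ofReal (∫ s in T1..z.1, b s)) * E z := by ring
    _ ≤ _ := by
        gcongr
        rw [← ENNReal.ofReal_add H.A0 hI0, he, ← ENNReal.ofReal_mul (Real.exp_pos _).le]
        apply ENNReal.ofReal_le_ofReal
        have := Real.exp_pos (lam * (z.1 - T1))
        nlinarith

theorem damped_ne_top (H : FixHyp T1 lam A E h1 b L P) {u : Om → ℝ} (hu : Measurable u) {z : Om}
    (hz : T1 ≤ z.1) (hE : E z < ⊤) : damped T1 h1 (L u) (P u) z ≠ ⊤ :=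
  ne_top_of_le_ne_top (ENNReal.mul_ne_top ENNReal.ofReal_ne_top hE.ne) (H.damped_le hu hz hE)

/-- the Lipschitz estimate -/
theorem lip (H : FixHyp T1 lam A E h1 b L P) {kap : ℝ → ℝ} (hkc : Continuous kap)
    (hkm : MonotoneOn kap (Ici T1)) (hk1 : ∀ t, T1 ≤ t → 1 ≤ kap t)
    (hkJ : ∀ t, T1 ≤ t → (∫ s in T1..t, b s * kap s) *
        (Real.exp (lam * (t - T1)) * (A + 1 + ∫ s in T1..t, b s)) ≤ kap t / 2)
    {u u' : Om → ℝ} (hu : Measurable u) (hu' : Measurable u') {c : ℝ≥0∞} (hc : c < ⊤)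
    (h : ∀ z : Om, T1 ≤ z.1 → E z < ⊤ →
      ‖u z - u' z‖ₑ ≤ c * (ENNReal.ofReal (kap z.1) * ENNReal.ofReal (1 + ‖z.2.2‖) * E z))
    {z : Om} (hz : T1 ≤ z.1) (hE : E z < ⊤) :
    damped T1 h1 (L u) (P u) z ≤ damped T1 h1 (L u') (P u') z +
      ((1 / 2 : ℝ≥0) : ℝ≥0∞) * c * (ENNReal.ofReal (kap z.1) * ENNReal.ofReal (1 + ‖z.2.2‖) * E z) := by
  have hI0 : 0 ≤ ∫ s in T1..z.1, b s := intervalIntegral.integral_nonneg hz fun s _ => H.b0 s
  have h' : ∀ z : Om, T1 ≤ z.1 → E z < ⊤ →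
      ‖u' z - u z‖ₑ ≤ c * (ENNReal.ofReal (kap z.1) * ENNReal.ofReal (1 + ‖z.2.2‖) * E z) := by
    intro z hz hE
    have := h z hz hE
    rwa [← enorm_neg, neg_sub] at this
  have key := damped_le_add (T1 := T1) (lam := lam) H.lam0 (E := E) (h1 := h1)
    (A := ENNReal.ofReal A) H.h1E (L := L u) (P := P u) (L' := L u') (P' := P u') (z := z) hz
    (fun s h2 h3 => H.flE z s h2 h3) H.bc.measurable hkc.measurable (c := c)
    (w := ENNReal.ofReal (1 + ‖z.2.2‖)) (H.opt_ne_top hu hz hE)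
    (fun s h2 h3 => H.Ll u' u hu' hu kap hkc hkm hk1 c hc h' (fl z s) h2.le (H.E_fl hE h2.le h3.le))
    (fun s h2 h3 => H.Pl u u' hu hu' kap hkc hkm hk1 c hc h (fl z s) h2.le (H.E_fl hE h2.le h3.le))
    (fun s h2 h3 => H.Pb u' hu' (fl z s) h2.le (H.E_fl hE h2.le h3.le))
  refine key.trans (add_le_add le_rfl ?_)
  have e1 : (∫⁻ s in Ioo T1 z.1, ENNReal.ofReal (b s * kap s)) =
      ENNReal.ofReal (∫ s in T1..z.1, b s * kap s) :=
    lint_Ioo_eq (H.bc.mul hkc) hz fun s hs _ => mul_nonneg (H.b0 s) (zero_le_one.trans (hk1 s hs))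
  have e2 : (∫⁻ s in Ioo T1 z.1, ENNReal.ofReal (b s)) = ENNReal.ofReal (∫ s in T1..z.1, b s) :=
    lint_Ioo_eq H.bc hz fun s _ _ => H.b0 s
  have hJ0 : 0 ≤ ∫ s in T1..z.1, b s * kap s :=
    intervalIntegral.integral_nonneg hz fun s hs =>
      mul_nonneg (H.b0 s) (zero_le_one.trans (hk1 s hs.1))
  have e3 : (∫⁻ s in Ioo T1 z.1, ENNReal.ofReal (b s * kap s)) *
        (ENNReal.ofReal (Real.exp (lam * (z.1 - T1))) *
          (ENNReal.ofReal A + 1 + ∫⁻ s in Ioo T1 z.1, ENNReal.ofReal (b s))) ≤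
      ((1 / 2 : ℝ≥0) : ℝ≥0∞) * ENNReal.ofReal (kap z.1) := by
    rw [e1, e2, ← ENNReal.ofReal_one, ← ENNReal.ofReal_add H.A0 zero_le_one,
      ← ENNReal.ofReal_add (by have := H.A0; positivity) hI0,
      ← ENNReal.ofReal_mul (Real.exp_pos _).le, ← ENNReal.ofReal_mul hJ0]
    have e4 : ((1 / 2 : ℝ≥0) : ℝ≥0∞) = ENNReal.ofReal (1 / 2) := by
      rw [ENNReal.ofReal]
      congr 1
      ext
      simp
    rw [e4, ← ENNReal.ofReal_mul (by norm_num)]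
    apply ENNReal.ofReal_le_ofReal
    have := hkJ z.1 hz
    linarith
  calc c * ENNReal.ofReal (1 + ‖z.2.2‖) * E z * _
      ≤ c * ENNReal.ofReal (1 + ‖z.2.2‖) * E z * (((1 / 2 : ℝ≥0) : ℝ≥0∞) * ENNReal.ofReal (kap z.1)) := by
        gcongr
    _ = _ := by ring

end FixHyp

open FixHyp in
/-- **global fixed point of the damped Duhamel equation** -/
theorem dampFix {T1 lam A : ℝ} {E : Om → ℝ≥0∞} {h1 : P2 → R3 → ℝ≥0∞} {b : ℝ → ℝ}
    {L P : (Om → ℝ) → Om → ℝ≥0∞} (H : FixHyp T1 lam A E h1 b L P) :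
    ∃ u : Om → ℝ, Measurable u ∧ (∀ z, 0 ≤ u z) ∧
      ∀ z : Om, T1 ≤ z.1 → E z < ⊤ →
        damped T1 h1 (L u) (P u) z ≠ ⊤ ∧ ENNReal.ofReal (u z) = damped T1 h1 (L u) (P u) z := by
  obtain ⟨kap, hkc, hk1, hkm, hkg, hkJ⟩ := exists_time_weight T1 lam H.lam0 H.bc H.b0 H.A0
  set S : Set Om := {z | T1 ≤ z.1 ∧ E z < ⊤} with hSdef
  have hS : MeasurableSet S :=
    (measurableSet_le measurable_const measurable_fst).inter (measurableSet_lt H.Em measurable_const)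
  set μ : Measure Om := Measure.count.restrict S with hμ
  have hae : ∀ p : Om → Prop, (∀ᵐ z ∂μ, p z) ↔ ∀ z ∈ S, p z := by
    intro p
    rw [hμ, ae_restrict_iff' hS, Measure.ae_count_iff]
  classical
  set Ψ : (Om → ℝ) → (Om → ℝ) := fun u => S.indicator fun z => (damped T1 h1 (L u) (P u) z).toReal
    with hΨ
  have hΨS : ∀ u, ∀ z ∈ S, Ψ u z = (damped T1 h1 (L u) (P u) z).toReal := fun u z hz => by
    simp only [hΨ]; exact indicator_of_mem hz _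
  have hΨm : ∀ u, Measurable u → Measurable (Ψ u) := fun u hu =>
    (measurable_damped H.h1m (H.Lm u hu) (H.Pm u hu)).ennreal_toReal.indicator hS
  set W : Om → ℝ≥0∞ := fun z => ENNReal.ofReal (kap z.1) * ENNReal.ofReal (1 + ‖z.2.2‖) * E z with hW
  have hWt : ∀ᵐ z ∂μ, W z < ⊤ := by
    rw [hae]
    intro z hz
    exact ENNReal.mul_lt_top (ENNReal.mul_lt_top ENNReal.ofReal_lt_top ENNReal.ofReal_lt_top) hz.2
  have hneg : ∀ u u' : Om → ℝ, ∀ c : ℝ≥0∞, (∀ z : Om, T1 ≤ z.1 → E z < ⊤ →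
      ‖u z - u' z‖ₑ ≤ c * W z) → (∀ z : Om, T1 ≤ z.1 → E z < ⊤ → ‖u' z - u z‖ₑ ≤ c * W z) := by
    intro u u' c h z hz hE
    have := h z hz hE
    rwa [← enorm_neg, neg_sub] at this
  obtain ⟨u, hu, hfix, -⟩ := WF.wfix (μ := μ) (W := W) hWt (S := {u : Om → ℝ | Measurable u})
    (fun u hu => hu) (fun u _ v hv _ _ => hv) (Ψ := Ψ) (fun u hu => hΨm u hu)
    (θ := (1 / 2 : ℝ≥0)) (by rw [← NNReal.coe_lt_coe]; norm_num) (fun u hu v hv c hc h => by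
      rw [hae] at h ⊢
      intro z hz
      have h' : ∀ z : Om, T1 ≤ z.1 → E z < ⊤ → ‖u z - v z‖ₑ ≤ c * W z := fun z h1 h2 => h z ⟨h1, h2⟩
      rw [hΨS u z hz, hΨS v z hz]
      exact enorm_toReal_sub_le (H.damped_ne_top hu hz.1 hz.2) (H.damped_ne_top hv hz.1 hz.2)
        (H.lip hkc hkm hk1 hkJ hu hv hc h' hz.1 hz.2)
        (H.lip hkc hkm hk1 hkJ hv hu hc (hneg u v c h') hz.1 hz.2))
    (u0 := fun _ => 0) measurable_const (C := 1) (by simp) (by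
      rw [hae]
      intro z hz
      rw [hΨS _ z hz]
      have h2 := H.damped_le (u := fun _ => 0) measurable_const hz.1 hz.2
      rw [sub_zero, one_mul, ← ofReal_norm, Real.norm_of_nonneg ENNReal.toReal_nonneg,
        ENNReal.ofReal_toReal (H.damped_ne_top measurable_const hz.1 hz.2)]
      refine h2.trans ?_
      simp only [hW]
      calc _ ≤ ENNReal.ofReal (kap z.1) * 1 * E z := by
            rw [mul_one]
            gcongr
            exact hkg z.1 hz.1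
        _ ≤ _ := by
            gcongr
            rw [← ENNReal.ofReal_one]
            exact ENNReal.ofReal_le_ofReal (by linarith [norm_nonneg z.2.2]))
  have hfix' : ∀ z ∈ S, Ψ u z = u z := (hae _).1 hfix
  -- the final function
  have hΨu := hΨm u hu
  have hz0 : ∀ z : Om, T1 ≤ z.1 → E z < ⊤ → ‖Ψ u z - u z‖ₑ ≤ 0 * W z := by
    intro z h1 h2
    rw [hfix' z ⟨h1, h2⟩]; simp
  refine ⟨Ψ u, hΨu, fun z => ?_, fun z hz hE => ⟨H.damped_ne_top hΨu hz hE, ?_⟩⟩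
  · exact indicator_nonneg (fun _ _ => ENNReal.toReal_nonneg) z
  · rw [hΨS u z ⟨hz, hE⟩, ENNReal.ofReal_toReal (H.damped_ne_top hu hz hE)]
    apply le_antisymm
    · have := H.lip hkc hkm hk1 hkJ hu hΨu (c := 0) (by simp) (hneg _ _ 0 hz0) hz hE
      simpa using this
    · have := H.lip hkc hkm hk1 hkJ hΨu hu (c := 0) (by simp) hz0 hz hE
      simpa using this

end Crest.Agent.R68.W
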