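import Mathlib
import Crest.Agent.R68.WB4
import Crest.Agent.R68.A2
import Crest.Agent.R68.WA0

/-!
R68 / WB5: hypotheses and elementary estimates for the truncated problem (helper475, part W).
-/

set_option autoImplicit false
open MeasureTheory Set
open scoped ENNReal NNReal Topology
open Crest.AnalysisR.VecCalc3 Crest.AnalysisR.PDE.Boltzmann

noncomputable section

namespace Crest.Agent.R68.W

open Crest.Agent.R68.A (Meas3)
open Crest.Agent.R68.WA (We w1 measurable_We measurable_w1 one_le_w1 w1_ne_top We_ne_top)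

/-- locally bounded monotone families of bounds have continuous constants -/
theorem exists_cont_majorant {T1 : ℝ} {p : ℝ → ℝ≥0∞ → Prop}
    (hmono : ∀ t B B', B ≤ B' → p t B → p t B')
    (hloc : ∀ T, ∃ B : ℝ≥0, ∀ t, T1 ≤ t → t ≤ T → p t B) :
    ∃ b : ℝ → ℝ, Continuous b ∧ (∀ t, 0 ≤ b t) ∧ ∀ t, T1 ≤ t → p t (ENNReal.ofReal (b t)) := by
  let S : ℝ → Set ℝ := fun t => {r | 0 ≤ r ∧ (T1 ≤ t → p t (ENNReal.ofReal r))}
  have hup : ∀ t r r', r ≤ r' → r ∈ S t → r' ∈ S t := fun t r r' h hr =>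
    ⟨hr.1.trans h, fun ht => hmono t _ _ (ENNReal.ofReal_le_ofReal h) (hr.2 ht)⟩
  obtain ⟨g, hg⟩ := exists_continuous_forall_mem_convex_of_local_const (t := S) (fun t => by
    intro x hx y hy a b ha hb hab
    have h1 : min x y ≤ a • x + b • y := by
      have e1 : a * min x y ≤ a * x := mul_le_mul_of_nonneg_left (min_le_left _ _) ha
      have e2 : b * min x y ≤ b * y := mul_le_mul_of_nonneg_left (min_le_right _ _) hb
      have e3 : (a + b) * min x y = min x y := by rw [hab, one_mul]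
      simp only [smul_eq_mul]
      linarith
    rcases min_choice x y with h | h
    · rw [h] at h1; exact hup t _ _ h1 hx
    · rw [h] at h1; exact hup t _ _ h1 hy) (fun t => by
    obtain ⟨B, hB⟩ := hloc (t + 1)
    refine ⟨B, ?_⟩
    filter_upwards [gt_mem_nhds (show t < t + 1 by linarith)] with s hs
    refine ⟨B.2, fun h1 => ?_⟩
    rw [ENNReal.ofReal_coe_nnreal]
    exact hB s h1 hs.le)
  exact ⟨g, g.continuous, fun t => (hg t).1, fun t ht => (hg t).2 ht⟩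

/-- the bounds of the hot weight `E` and the cold majorant `N0` at time `t` with constant `B` -/
structure KB (E N0 : ℝ → P2 → R3 → ℝ≥0∞) (t : ℝ) (B : ℝ≥0∞) : Prop where
  EE : ∀ x v, Qp (E t x) (E t x) v ≤ B * E t x v
  wEE : ∀ x v, Qp (fun z => w1 z * E t x z) (E t x) v ≤ B * (w1 v * E t x v)
  EwE : ∀ x v, Qp (E t x) (fun z => w1 z * E t x z) v ≤ B * (w1 v * E t x v)
  LwE : ∀ x v, Lc (fun z => w1 z * E t x z) v ≤ B * w1 v
  NE : ∀ x v, Qp (N0 t x) (E t x) v ≤ B * E t x v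
  EN : ∀ x v, Qp (E t x) (N0 t x) v ≤ B * E t x v
  NwE : ∀ x v, Qp (N0 t x) (fun z => w1 z * E t x z) v ≤ B * (w1 v * E t x v)
  wEN : ∀ x v, Qp (fun z => w1 z * E t x z) (N0 t x) v ≤ B * (w1 v * E t x v)
  LN : ∀ x v, Lc (N0 t x) v ≤ B * w1 v

/-- the bounds of the cold functional `cf` and the spill functional `sp` at time `t` -/
structure CB (T1 Y : ℝ) (E N0 : ℝ → P2 → R3 → ℝ≥0∞)
    (cf sp : (ℝ → P2 → R3 → ℝ≥0∞) → ℝ → P2 → R3 → ℝ≥0∞) (t : ℝ) (B : ℝ≥0∞) : Prop where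
  sp_le : ∀ lam, Meas3 lam → (∀ t v, PerG fun x => lam t x v) → ∀ x v, sp lam t x v ≤ B * E t x v
  cf_lip : ∀ lam lam', Meas3 lam → (∀ t v, PerG fun x => lam t x v) → Meas3 lam' →
    (∀ t v, PerG fun x => lam' t x v) → (∀ s x v, s < T1 → lam s x v = lam' s x v) →
    ∀ g : ℝ → ℝ≥0∞, Measurable g → (∀ s x v, T1 ≤ s → ‖v‖ < Y + 3 →
      lam s x v ≤ lam' s x v + g s ∧ lam' s x v ≤ lam s x v + g s) →
    ∀ x v, cf lam t x v ≤ cf lam' t x v + B * (∫⁻ s in Ioo T1 t, g s) * N0 t x v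
  sp_lip : ∀ lam lam', Meas3 lam → (∀ t v, PerG fun x => lam t x v) → Meas3 lam' →
    (∀ t v, PerG fun x => lam' t x v) → (∀ s x v, s < T1 → lam s x v = lam' s x v) →
    ∀ g : ℝ → ℝ≥0∞, Measurable g → (∀ s x v, T1 ≤ s → ‖v‖ < Y + 3 →
      lam s x v ≤ lam' s x v + g s ∧ lam' s x v ≤ lam s x v + g s) →
    ∀ x v, sp lam t x v ≤ sp lam' t x v + B * (∫⁻ s in Ioo T1 t, g s) * E t x v

theorem KB.mono {E N0 : ℝ → P2 → R3 → ℝ≥0∞} {t : ℝ} {B B' : ℝ≥0∞} (h : B ≤ B')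
    (H : KB E N0 t B) : KB E N0 t B' where
  EE x v := (H.EE x v).trans (by gcongr)
  wEE x v := (H.wEE x v).trans (by gcongr)
  EwE x v := (H.EwE x v).trans (by gcongr)
  LwE x v := (H.LwE x v).trans (by gcongr)
  NE x v := (H.NE x v).trans (by gcongr)
  EN x v := (H.EN x v).trans (by gcongr)
  NwE x v := (H.NwE x v).trans (by gcongr)
  wEN x v := (H.wEN x v).trans (by gcongr)
  LN x v := (H.LN x v).trans (by gcongr)

theorem CB.mono {T1 Y : ℝ} {E N0 : ℝ → P2 → R3 → ℝ≥0∞}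
    {cf sp : (ℝ → P2 → R3 → ℝ≥0∞) → ℝ → P2 → R3 → ℝ≥0∞} {t : ℝ} {B B' : ℝ≥0∞} (h : B ≤ B')
    (H : CB T1 Y E N0 cf sp t B) : CB T1 Y E N0 cf sp t B' where
  sp_le lam h1 h2 x v := (H.sp_le lam h1 h2 x v).trans (by gcongr)
  cf_lip lam lam' h1 h2 h3 h4 h5 g h6 h7 x v :=
    (H.cf_lip lam lam' h1 h2 h3 h4 h5 g h6 h7 x v).trans (by gcongr)
  sp_lip lam lam' h1 h2 h3 h4 h5 g h6 h7 x v :=
    (H.sp_lip lam lam' h1 h2 h3 h4 h5 g h6 h7 x v).trans (by gcongr)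

/-- hypotheses of the truncated problem -/
structure THyp (T1 lam Y A : ℝ) (E N0 : ℝ → P2 → R3 → ℝ≥0∞) (h1 : P2 → R3 → ℝ≥0∞)
    (lamA : ℝ → P2 → R3 → ℝ≥0∞)
    (cf sp : (ℝ → P2 → R3 → ℝ≥0∞) → ℝ → P2 → R3 → ℝ≥0∞) : Prop where
  lam0 : 0 ≤ lam
  A0 : 0 ≤ A
  Y0 : 0 ≤ Y
  Em : Meas3 E
  Eper : ∀ t v, PerG fun x => E t x v
  flight : ∀ s t x v, T1 ≤ s → s ≤ t →
    E s (x - (t - s) • bar v) v ≤ ENNReal.ofReal (Real.exp (lam * (t - s))) * E t x v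
  We_le : ∀ t x v, T1 ≤ t → We v ≤ E t x v
  N0m : Meas3 N0
  h1m : Measurable fun q : P2 × R3 => h1 q.1 q.2
  h1per : ∀ v, PerG fun x => h1 x v
  h1E : ∀ x v, h1 x v ≤ ENNReal.ofReal A * E T1 x v
  lamAm : Meas3 lamA
  lamAper : ∀ t v, PerG fun x => lamA t x v
  cfm : ∀ lam, Meas3 lam → (∀ t v, PerG fun x => lam t x v) → Meas3 (cf lam)
  spm : ∀ lam, Meas3 lam → (∀ t v, PerG fun x => lam t x v) → Meas3 (sp lam)
  cfper : ∀ lam, Meas3 lam → (∀ t v, PerG fun x => lam t x v) → ∀ t v, PerG fun x => cf lam t x v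
  spper : ∀ lam, Meas3 lam → (∀ t v, PerG fun x => lam t x v) → ∀ t v, PerG fun x => sp lam t x v
  cf_le : ∀ lam, Meas3 lam → (∀ t v, PerG fun x => lam t x v) → ∀ t x v, T1 ≤ t →
    cf lam t x v ≤ N0 t x v
  kb : ∀ T, ∃ B : ℝ≥0, ∀ t, T1 ≤ t → t ≤ T → KB E N0 t B
  cb : ∀ T, ∃ B : ℝ≥0, ∀ t, T1 ≤ t → t ≤ T → CB T1 Y E N0 cf sp t B

open scoped Classical in
/-- truncated hot component -/
def hc (T1 : ℝ) (E : ℝ → P2 → R3 → ℝ≥0∞) (B0 : ℝ≥0) (u : Om → ℝ) (t : ℝ) (x : P2) (v : R3) :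
    ℝ≥0∞ :=
  if T1 ≤ t ∧ E t x v < ⊤ then min (ENNReal.ofReal (u (t, x, v))) (B0 * E t x v) else 0

open scoped Classical in
/-- external loss rate of the cold component -/
def lamu (T1 : ℝ) (E : ℝ → P2 → R3 → ℝ≥0∞) (B0 : ℝ≥0) (lamA : ℝ → P2 → R3 → ℝ≥0∞) (u : Om → ℝ)
    (t : ℝ) (x : P2) (v : R3) : ℝ≥0∞ :=
  if T1 ≤ t then Lc (hc T1 E B0 u t x) v else lamA t x v

/-- total loss rate -/
def Lu (T1 : ℝ) (E : ℝ → P2 → R3 → ℝ≥0∞) (B0 : ℝ≥0) (lamA : ℝ → P2 → R3 → ℝ≥0∞)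
    (cf : (ℝ → P2 → R3 → ℝ≥0∞) → ℝ → P2 → R3 → ℝ≥0∞) (u : Om → ℝ) (z : Om) : ℝ≥0∞ :=
  Lc (cf (lamu T1 E B0 lamA u) z.1 z.2.1) z.2.2 + Lc (hc T1 E B0 u z.1 z.2.1) z.2.2

/-- total source of the hot component -/
def Pu (T1 : ℝ) (E : ℝ → P2 → R3 → ℝ≥0∞) (B0 : ℝ≥0) (lamA : ℝ → P2 → R3 → ℝ≥0∞)
    (cf sp : (ℝ → P2 → R3 → ℝ≥0∞) → ℝ → P2 → R3 → ℝ≥0∞) (u : Om → ℝ) (z : Om) : ℝ≥0∞ :=
  Qp (hc T1 E B0 u z.1 z.2.1) (hc T1 E B0 u z.1 z.2.1) z.2.2 +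
    Qp (cf (lamu T1 E B0 lamA u) z.1 z.2.1) (hc T1 E B0 u z.1 z.2.1) z.2.2 +
    Qp (hc T1 E B0 u z.1 z.2.1) (cf (lamu T1 E B0 lamA u) z.1 z.2.1) z.2.2 +
    sp (lamu T1 E B0 lamA u) z.1 z.2.1 z.2.2

section basic

variable {T1 : ℝ} {E : ℝ → P2 → R3 → ℝ≥0∞} {B0 : ℝ≥0} {u u' : Om → ℝ}

theorem hc_le (t : ℝ) (x : P2) (v : R3) : hc T1 E B0 u t x v ≤ B0 * E t x v := by
  unfold hc
  split_ifs
  · exact min_le_right _ _
  · exact bot_le

theorem meas3_hc (hE : Meas3 E) (hu : Measurable u) : Meas3 (hc T1 E B0 u) := by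
  classical
  have h1 : MeasurableSet {p : ℝ × P2 × R3 | T1 ≤ p.1 ∧ E p.1 p.2.1 p.2.2 < ⊤} :=
    (measurableSet_le measurable_const measurable_fst).inter (measurableSet_lt hE measurable_const)
  have h2 : Measurable fun p : ℝ × P2 × R3 =>
      min (ENNReal.ofReal (u (p.1, p.2.1, p.2.2))) (B0 * E p.1 p.2.1 p.2.2) := by
    apply Measurable.min
    · exact hu.ennreal_ofReal
    · exact Measurable.const_mul hE _
  exact Measurable.ite h1 h2 measurable_const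

theorem hc_per (hE : ∀ t v, PerG fun x => E t x v)
    (hu : ∀ z : Om, T1 ≤ z.1 → E z.1 z.2.1 z.2.2 < ⊤ → ∀ k, u (z.1, z.2.1 + latt k, z.2.2) = u z)
    (t : ℝ) (v : R3) : PerG fun x => hc T1 E B0 u t x v := by
  intro x k
  have h1 : E t (x + latt k) v = E t x v := hE t v x k
  simp only [hc, h1]
  by_cases h : T1 ≤ t ∧ E t x v < ⊤
  · rw [if_pos h, if_pos h]
    have := hu (t, x, v) h.1 h.2 k
    simp only at this
    rw [this]
  · rw [if_neg h, if_neg h]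

theorem min_le_min_add {a a' M δ : ℝ≥0∞} (h : a ≤ a' + δ) : min a M ≤ min a' M + δ := by
  rcases le_total a' M with h1 | h1
  · rw [min_eq_left h1]; exact (min_le_left _ _).trans h
  · rw [min_eq_right h1]; exact (min_le_right _ _).trans le_self_add

theorem ofReal_le_add_enorm (a b : ℝ) : ENNReal.ofReal a ≤ ENNReal.ofReal b + ‖a - b‖ₑ := by
  rw [← ofReal_norm, Real.norm_eq_abs]
  refine le_trans (ENNReal.ofReal_le_ofReal ?_) (ENNReal.ofReal_add_le)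
  linarith [le_abs_self (a - b)]

/-- Lipschitz bound of the truncated component -/
theorem hc_lip {κ c : ℝ≥0∞} {t : ℝ} {x : P2}
    (h : ∀ v, T1 ≤ t → E t x v < ⊤ →
      ‖u (t, x, v) - u' (t, x, v)‖ₑ ≤ c * (κ * w1 v * E t x v)) (v : R3) :
    hc T1 E B0 u t x v ≤ hc T1 E B0 u' t x v + c * κ * (w1 v * E t x v) := by
  unfold hc
  split_ifs with h1
  · refine min_le_min_add ((ofReal_le_add_enorm _ (u' (t, x, v))).trans ?_)
    refine add_le_add le_rfl ?_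
    refine (h v h1.1 h1.2).trans (le_of_eq (by ring))
  · exact bot_le

end basic

end Crest.Agent.R68.W
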