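import Mathlib
import Crest.Agent.R68.WB5

/-!
R68 / WB6: existence for the truncated problem, global in time (helper475, part W).
-/

set_option autoImplicit false
open MeasureTheory Set
open scoped ENNReal NNReal Topology
open Crest.AnalysisR.VecCalc3 Crest.AnalysisR.PDE.Boltzmann

noncomputable section

namespace Crest.Agent.R68.W

open Crest.Agent.R68.A (Meas3 meas3_Qp meas3_Lc Lc_mono Lc_add Lc_const_mul Qp_mono Qp_add_left
  Qp_add_right Qp_const_mul_left Qp_const_mul_right)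
open Crest.Agent.R68.WA (We w1 measurable_We measurable_w1 one_le_w1 w1_ne_top We_ne_top)

/-! ### translations by the lattice -/

/-- translation by a lattice vector -/
def sh (k : ℤ × ℤ) (z : Om) : Om := (z.1, z.2.1 + latt k, z.2.2)

theorem fl_sh (k : ℤ × ℤ) (z : Om) (s : ℝ) : fl (sh k z) s = sh k (fl z s) := by
  unfold fl sh
  simp only [Prod.mk.injEq, and_true, true_and]
  abel

theorem opt_sh {L : Om → ℝ≥0∞} (hL : ∀ k z, L (sh k z) = L z) (k : ℤ × ℤ) (z : Om) (s : ℝ) :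
    opt L (sh k z) s = opt L z s := by
  unfold opt
  show ∫⁻ r in Ioo s z.1, L (fl (sh k z) r) = _
  simp only [fl_sh, hL]

theorem damped_sh {T1 : ℝ} {h1 : P2 → R3 → ℝ≥0∞} {L P : Om → ℝ≥0∞}
    (hh : ∀ v, PerG fun x => h1 x v) (hL : ∀ k z, L (sh k z) = L z)
    (hP : ∀ k z, P (sh k z) = P z) (k : ℤ × ℤ) (z : Om) :
    damped T1 h1 L P (sh k z) = damped T1 h1 L P z := by
  unfold damped dmp
  simp only [opt_sh hL, fl_sh, hP]
  congr 1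
  congr 1
  exact hh _ _ k

section main

variable {T1 lam Y A : ℝ} {E N0 : ℝ → P2 → R3 → ℝ≥0∞} {h1 : P2 → R3 → ℝ≥0∞}
  {lamA : ℝ → P2 → R3 → ℝ≥0∞} {cf sp : (ℝ → P2 → R3 → ℝ≥0∞) → ℝ → P2 → R3 → ℝ≥0∞} {B0 : ℝ≥0}

/-- the hot weight as a function on `Om` -/
def Eo (E : ℝ → P2 → R3 → ℝ≥0∞) (z : Om) : ℝ≥0∞ := E z.1 z.2.1 z.2.2

/-- measurable functions which are periodic where the weight is finite -/
def Cl (T1 : ℝ) (E : ℝ → P2 → R3 → ℝ≥0∞) : Set (Om → ℝ) :=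
  {u | Measurable u ∧ ∀ z : Om, T1 ≤ z.1 → Eo E z < ⊤ → ∀ k, u (sh k z) = u z}

theorem meas3_lamu (H : THyp T1 lam Y A E N0 h1 lamA cf sp) {u : Om → ℝ} (hu : u ∈ Cl T1 E) :
    Meas3 (lamu T1 E B0 lamA u) := by
  classical
  have h2 : MeasurableSet {p : ℝ × P2 × R3 | T1 ≤ p.1} :=
    measurableSet_le measurable_const measurable_fst
  exact Measurable.ite h2 (meas3_Lc (meas3_hc H.Em hu.1)) H.lamAm

theorem per_hc (H : THyp T1 lam Y A E N0 h1 lamA cf sp) {u : Om → ℝ} (hu : u ∈ Cl T1 E)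
    (t : ℝ) (v : R3) : PerG fun x => hc T1 E B0 u t x v :=
  hc_per H.Eper (fun z h2 h3 k => hu.2 z h2 h3 k) t v

theorem hc_shift (H : THyp T1 lam Y A E N0 h1 lamA cf sp) {u : Om → ℝ} (hu : u ∈ Cl T1 E)
    (t : ℝ) (x : P2) (k : ℤ × ℤ) : hc T1 E B0 u t (x + latt k) = hc T1 E B0 u t x := by
  funext v
  exact per_hc H hu t v x k

theorem per_lamu (H : THyp T1 lam Y A E N0 h1 lamA cf sp) {u : Om → ℝ} (hu : u ∈ Cl T1 E)
    (t : ℝ) (v : R3) : PerG fun x => lamu T1 E B0 lamA u t x v := by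
  intro x k
  unfold lamu
  simp only [hc_shift H hu]
  split_ifs
  · rfl
  · exact H.lamAper t v x k

theorem meas_Lu (H : THyp T1 lam Y A E N0 h1 lamA cf sp) {u : Om → ℝ} (hu : u ∈ Cl T1 E) :
    Measurable (Lu T1 E B0 lamA cf u) :=
  Measurable.add (meas3_Lc (H.cfm _ (meas3_lamu H hu) (per_lamu H hu)))
    (meas3_Lc (meas3_hc H.Em hu.1))

theorem meas_Pu (H : THyp T1 lam Y A E N0 h1 lamA cf sp) {u : Om → ℝ} (hu : u ∈ Cl T1 E) :
    Measurable (Pu T1 E B0 lamA cf sp u) := by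
  have m1 := meas3_hc (T1 := T1) (B0 := B0) H.Em hu.1
  have m2 := H.cfm _ (meas3_lamu (B0 := B0) H hu) (per_lamu H hu)
  have m3 := H.spm _ (meas3_lamu (B0 := B0) H hu) (per_lamu H hu)
  exact (((meas3_Qp m1 m1).add (meas3_Qp m2 m1)).add (meas3_Qp m1 m2)).add m3

theorem Lu_sh (H : THyp T1 lam Y A E N0 h1 lamA cf sp) {u : Om → ℝ} (hu : u ∈ Cl T1 E)
    (k : ℤ × ℤ) (z : Om) : Lu T1 E B0 lamA cf u (sh k z) = Lu T1 E B0 lamA cf u z := by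
  have h2 : cf (lamu T1 E B0 lamA u) z.1 (z.2.1 + latt k) = cf (lamu T1 E B0 lamA u) z.1 z.2.1 := by
    funext v
    exact H.cfper _ (meas3_lamu H hu) (per_lamu H hu) z.1 v z.2.1 k
  unfold Lu sh
  simp only [hc_shift H hu, h2]

theorem Pu_sh (H : THyp T1 lam Y A E N0 h1 lamA cf sp) {u : Om → ℝ} (hu : u ∈ Cl T1 E)
    (k : ℤ × ℤ) (z : Om) : Pu T1 E B0 lamA cf sp u (sh k z) = Pu T1 E B0 lamA cf sp u z := by
  have h2 : cf (lamu T1 E B0 lamA u) z.1 (z.2.1 + latt k) = cf (lamu T1 E B0 lamA u) z.1 z.2.1 := by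
    funext v
    exact H.cfper _ (meas3_lamu H hu) (per_lamu H hu) z.1 v z.2.1 k
  have h3 : sp (lamu T1 E B0 lamA u) z.1 (z.2.1 + latt k) z.2.2 =
      sp (lamu T1 E B0 lamA u) z.1 z.2.1 z.2.2 :=
    H.spper _ (meas3_lamu H hu) (per_lamu H hu) z.1 z.2.2 z.2.1 k
  unfold Pu sh
  simp only [hc_shift H hu, h2, h3]

/-! ### bounds -/

theorem E_le_w1E (t : ℝ) (x : P2) (v : R3) : E t x v ≤ w1 v * E t x v :=
  le_mul_of_one_le_left' (one_le_w1 v)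

theorem cf_le_N0 (H : THyp T1 lam Y A E N0 h1 lamA cf sp) {u : Om → ℝ} (hu : u ∈ Cl T1 E) {t : ℝ}
    (ht : T1 ≤ t) (x : P2) (v : R3) : cf (lamu T1 E B0 lamA u) t x v ≤ N0 t x v :=
  H.cf_le _ (meas3_lamu H hu) (per_lamu H hu) t x v ht

theorem Lu_le (H : THyp T1 lam Y A E N0 h1 lamA cf sp) {u : Om → ℝ} (hu : u ∈ Cl T1 E) {β : ℝ≥0∞}
    {z : Om} (hz : T1 ≤ z.1) (hK : KB E N0 z.1 β) :
    Lu T1 E B0 lamA cf u z ≤ (β + B0 * β) * w1 z.2.2 := by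
  unfold Lu
  have e1 : Lc (cf (lamu T1 E B0 lamA u) z.1 z.2.1) z.2.2 ≤ β * w1 z.2.2 :=
    (Lc_mono (fun v => cf_le_N0 H hu hz _ v) _).trans (hK.LN _ _)
  have e2 : Lc (hc T1 E B0 u z.1 z.2.1) z.2.2 ≤ B0 * (β * w1 z.2.2) := by
    calc _ ≤ Lc (fun v => B0 * (w1 v * E z.1 z.2.1 v)) z.2.2 :=
          Lc_mono (fun v => (hc_le _ _ v).trans (mul_le_mul_right (E_le_w1E _ _ v) _)) _
      _ = B0 * Lc (fun v => w1 v * E z.1 z.2.1 v) z.2.2 := Lc_const_mul ENNReal.coe_ne_top _ _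
      _ ≤ _ := by gcongr; exact hK.LwE _ _
  calc _ ≤ β * w1 z.2.2 + B0 * (β * w1 z.2.2) := add_le_add e1 e2
    _ = _ := by ring

theorem Pu_le (H : THyp T1 lam Y A E N0 h1 lamA cf sp) {u : Om → ℝ} (hu : u ∈ Cl T1 E) {β : ℝ≥0∞}
    {z : Om} (hz : T1 ≤ z.1) (hK : KB E N0 z.1 β) (hC : CB T1 Y E N0 cf sp z.1 β) :
    Pu T1 E B0 lamA cf sp u z ≤ (B0 * B0 * β + B0 * β + B0 * β + β) * Eo E z := by
  unfold Pu Eo
  have e1 : Qp (hc T1 E B0 u z.1 z.2.1) (hc T1 E B0 u z.1 z.2.1) z.2.2 ≤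
      B0 * (B0 * (β * E z.1 z.2.1 z.2.2)) := by
    calc _ ≤ Qp (fun v => B0 * E z.1 z.2.1 v) (fun v => B0 * E z.1 z.2.1 v) z.2.2 :=
          Qp_mono (fun v => hc_le _ _ v) (fun v => hc_le _ _ v) _
      _ = B0 * (B0 * Qp (E z.1 z.2.1) (E z.1 z.2.1) z.2.2) := by
          rw [Qp_const_mul_left ENNReal.coe_ne_top, Qp_const_mul_right ENNReal.coe_ne_top]
      _ ≤ _ := by gcongr; exact hK.EE _ _
  have e2 : Qp (cf (lamu T1 E B0 lamA u) z.1 z.2.1) (hc T1 E B0 u z.1 z.2.1) z.2.2 ≤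
      B0 * (β * E z.1 z.2.1 z.2.2) := by
    calc _ ≤ Qp (N0 z.1 z.2.1) (fun v => B0 * E z.1 z.2.1 v) z.2.2 :=
          Qp_mono (fun v => cf_le_N0 H hu hz _ v) (fun v => hc_le _ _ v) _
      _ = B0 * Qp (N0 z.1 z.2.1) (E z.1 z.2.1) z.2.2 := by
          rw [Qp_const_mul_right ENNReal.coe_ne_top]
      _ ≤ _ := by gcongr; exact hK.NE _ _
  have e3 : Qp (hc T1 E B0 u z.1 z.2.1) (cf (lamu T1 E B0 lamA u) z.1 z.2.1) z.2.2 ≤
      B0 * (β * E z.1 z.2.1 z.2.2) := by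
    calc _ ≤ Qp (fun v => B0 * E z.1 z.2.1 v) (N0 z.1 z.2.1) z.2.2 :=
          Qp_mono (fun v => hc_le _ _ v) (fun v => cf_le_N0 H hu hz _ v) _
      _ = B0 * Qp (E z.1 z.2.1) (N0 z.1 z.2.1) z.2.2 := by
          rw [Qp_const_mul_left ENNReal.coe_ne_top]
      _ ≤ _ := by gcongr; exact hK.EN _ _
  have e4 : sp (lamu T1 E B0 lamA u) z.1 z.2.1 z.2.2 ≤ β * E z.1 z.2.1 z.2.2 :=
    hC.sp_le _ (meas3_lamu H hu) (per_lamu H hu) _ _
  calc _ ≤ B0 * (B0 * (β * E z.1 z.2.1 z.2.2)) + B0 * (β * E z.1 z.2.1 z.2.2) +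
        B0 * (β * E z.1 z.2.1 z.2.2) + β * E z.1 z.2.1 z.2.2 :=
        add_le_add (add_le_add (add_le_add e1 e2) e3) e4
    _ = _ := by ring

/-! ### Lipschitz estimates -/

/-- Lipschitz estimate of the external rate -/
theorem lamu_lip (H : THyp T1 lam Y A E N0 h1 lamA cf sp) {u u' : Om → ℝ} (hu : u ∈ Cl T1 E)
    (hu' : u' ∈ Cl T1 E) {c κ β : ℝ≥0∞} (hc1 : c ≠ ⊤) (hκ : κ ≠ ⊤) {t : ℝ} (ht : T1 ≤ t)
    (hK : KB E N0 t β)
    (h : ∀ x v, E t x v < ⊤ → ‖u (t, x, v) - u' (t, x, v)‖ₑ ≤ c * (κ * w1 v * E t x v))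
    (x : P2) (v : R3) :
    lamu T1 E B0 lamA u t x v ≤ lamu T1 E B0 lamA u' t x v + c * κ * (β * w1 v) := by
  unfold lamu
  rw [if_pos ht, if_pos ht]
  have m1 := (meas3_hc (T1 := T1) (B0 := B0) H.Em hu'.1).slice t x
  calc Lc (hc T1 E B0 u t x) v
      ≤ Lc (fun z => hc T1 E B0 u' t x z + c * κ * (w1 z * E t x z)) v :=
        Lc_mono (fun z => hc_lip (fun v _ hv => h x v hv) z) _
    _ = Lc (hc T1 E B0 u' t x) v + Lc (fun z => c * κ * (w1 z * E t x z)) v := Lc_add m1 _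
    _ = Lc (hc T1 E B0 u' t x) v + c * κ * Lc (fun z => w1 z * E t x z) v := by
        rw [Lc_const_mul (ENNReal.mul_ne_top hc1 hκ)]
    _ ≤ _ := by gcongr; exact hK.LwE _ _

/-- common hypotheses of the Lipschitz estimates at time `t`: closeness of the hot parts and of the
cold functionals -/
structure Lp (T1 : ℝ) (E N0 : ℝ → P2 → R3 → ℝ≥0∞) (B0 : ℝ≥0) (lamA : ℝ → P2 → R3 → ℝ≥0∞)
    (cf sp : (ℝ → P2 → R3 → ℝ≥0∞) → ℝ → P2 → R3 → ℝ≥0∞) (u u' : Om → ℝ) (t : ℝ)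
    (a G : ℝ≥0∞) : Prop where
  hot : ∀ x v, hc T1 E B0 u t x v ≤ hc T1 E B0 u' t x v + a * (w1 v * E t x v)
  cold : ∀ x v, cf (lamu T1 E B0 lamA u) t x v ≤ cf (lamu T1 E B0 lamA u') t x v + G * N0 t x v
  spill : ∀ x v, sp (lamu T1 E B0 lamA u) t x v ≤
    sp (lamu T1 E B0 lamA u') t x v + G * E t x v

theorem Lu_lip (H : THyp T1 lam Y A E N0 h1 lamA cf sp) {u u' : Om → ℝ} (hu : u ∈ Cl T1 E)
    (hu' : u' ∈ Cl T1 E) {a G β : ℝ≥0∞} (ha : a ≠ ⊤) (hG : G ≠ ⊤) {z : Om}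
    (hK : KB E N0 z.1 β) (h : Lp T1 E N0 B0 lamA cf sp u u' z.1 a G) :
    Lu T1 E B0 lamA cf u z ≤ Lu T1 E B0 lamA cf u' z + (G * β + a * β) * w1 z.2.2 := by
  have m1 := (meas3_hc (T1 := T1) (B0 := B0) H.Em hu'.1).slice z.1 z.2.1
  have m2 := (H.cfm _ (meas3_lamu (B0 := B0) H hu') (per_lamu H hu')).slice z.1 z.2.1
  unfold Lu
  have e1 : Lc (cf (lamu T1 E B0 lamA u) z.1 z.2.1) z.2.2 ≤
      Lc (cf (lamu T1 E B0 lamA u') z.1 z.2.1) z.2.2 + G * (β * w1 z.2.2) := by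
    calc _ ≤ Lc (fun v => cf (lamu T1 E B0 lamA u') z.1 z.2.1 v + G * N0 z.1 z.2.1 v) z.2.2 :=
          Lc_mono (fun v => h.cold _ v) _
      _ = Lc (cf (lamu T1 E B0 lamA u') z.1 z.2.1) z.2.2 + G * Lc (N0 z.1 z.2.1) z.2.2 := by
          rw [Lc_add m2, Lc_const_mul hG]
      _ ≤ _ := by gcongr; exact hK.LN _ _
  have e2 : Lc (hc T1 E B0 u z.1 z.2.1) z.2.2 ≤
      Lc (hc T1 E B0 u' z.1 z.2.1) z.2.2 + a * (β * w1 z.2.2) := by
    calc _ ≤ Lc (fun v => hc T1 E B0 u' z.1 z.2.1 v + a * (w1 v * E z.1 z.2.1 v)) z.2.2 :=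
          Lc_mono (fun v => h.hot _ v) _
      _ = Lc (hc T1 E B0 u' z.1 z.2.1) z.2.2 + a * Lc (fun v => w1 v * E z.1 z.2.1 v) z.2.2 := by
          rw [Lc_add m1, Lc_const_mul ha]
      _ ≤ _ := by gcongr; exact hK.LwE _ _
  calc _ ≤ _ := add_le_add e1 e2
    _ = _ := by ring

theorem Pu_lip (H : THyp T1 lam Y A E N0 h1 lamA cf sp) {u u' : Om → ℝ} (hu : u ∈ Cl T1 E)
    (hu' : u' ∈ Cl T1 E) {a G β : ℝ≥0∞} (ha : a ≠ ⊤) (hG : G ≠ ⊤) {z : Om} (hz : T1 ≤ z.1)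
    (hK : KB E N0 z.1 β) (h : Lp T1 E N0 B0 lamA cf sp u u' z.1 a G) :
    Pu T1 E B0 lamA cf sp u z ≤ Pu T1 E B0 lamA cf sp u' z +
      (a * (2 * B0 * β + 2 * β) + G * (2 * B0 * β + 1)) * (w1 z.2.2 * Eo E z) := by
  have m0 := (meas3_hc (T1 := T1) (B0 := B0) H.Em hu.1).slice z.1 z.2.1
  have m1 := (meas3_hc (T1 := T1) (B0 := B0) H.Em hu'.1).slice z.1 z.2.1
  have m2 := (H.cfm _ (meas3_lamu (B0 := B0) H hu') (per_lamu H hu')).slice z.1 z.2.1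
  have m3 := (H.cfm _ (meas3_lamu (B0 := B0) H hu) (per_lamu H hu)).slice z.1 z.2.1
  have mE := H.Em.slice z.1 z.2.1
  set W := w1 z.2.2 * Eo E z with hW
  have hEW : E z.1 z.2.1 z.2.2 ≤ W := E_le_w1E _ _ _
  unfold Pu
  set f := hc T1 E B0 u z.1 z.2.1 with hf
  set f' := hc T1 E B0 u' z.1 z.2.1 with hf'
  set c := cf (lamu T1 E B0 lamA u) z.1 z.2.1 with hc'
  set c' := cf (lamu T1 E B0 lamA u') z.1 z.2.1 with hc''
  have hff : ∀ v, f v ≤ f' v + a * (w1 v * E z.1 z.2.1 v) := fun v => h.hot _ v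
  have hcc : ∀ v, c v ≤ c' v + G * N0 z.1 z.2.1 v := fun v => h.cold _ v
  have hfB : ∀ v, f v ≤ B0 * E z.1 z.2.1 v := fun v => hc_le _ _ v
  have hfB' : ∀ v, f' v ≤ B0 * E z.1 z.2.1 v := fun v => hc_le _ _ v
  have hcN : ∀ v, c v ≤ N0 z.1 z.2.1 v := fun v => cf_le_N0 H hu hz _ v
  have hcN' : ∀ v, c' v ≤ N0 z.1 z.2.1 v := fun v => cf_le_N0 H hu' hz _ v
  have mwE : Measurable fun v => w1 v * E z.1 z.2.1 v := measurable_w1.mul mE
  -- hot x hot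
  have e1 : Qp f f z.2.2 ≤ Qp f' f' z.2.2 + a * (2 * B0 * β) * W := by
    have s1 : Qp f f z.2.2 ≤ Qp f' f z.2.2 + a * (B0 * (β * W)) := by
      calc Qp f f z.2.2 ≤ Qp (fun v => f' v + a * (w1 v * E z.1 z.2.1 v)) f z.2.2 :=
            Qp_mono hff (fun _ => le_rfl) _
        _ = Qp f' f z.2.2 + a * Qp (fun v => w1 v * E z.1 z.2.1 v) f z.2.2 := by
            rw [Qp_add_left m1 m0, Qp_const_mul_left ha]
        _ ≤ Qp f' f z.2.2 + a * Qp (fun v => w1 v * E z.1 z.2.1 v)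
              (fun v => B0 * E z.1 z.2.1 v) z.2.2 := by
            gcongr
            exact Qp_mono (fun _ => le_rfl) hfB _
        _ = Qp f' f z.2.2 + a * (B0 * Qp (fun v => w1 v * E z.1 z.2.1 v) (E z.1 z.2.1) z.2.2) := by
            rw [Qp_const_mul_right ENNReal.coe_ne_top]
        _ ≤ _ := by gcongr; exact hK.wEE _ _
    have s2 : Qp f' f z.2.2 ≤ Qp f' f' z.2.2 + a * (B0 * (β * W)) := by
      calc Qp f' f z.2.2 ≤ Qp f' (fun v => f' v + a * (w1 v * E z.1 z.2.1 v)) z.2.2 :=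
            Qp_mono (fun _ => le_rfl) hff _
        _ = Qp f' f' z.2.2 + a * Qp f' (fun v => w1 v * E z.1 z.2.1 v) z.2.2 := by
            rw [Qp_add_right m1 m1, Qp_const_mul_right ha]
        _ ≤ Qp f' f' z.2.2 + a * Qp (fun v => B0 * E z.1 z.2.1 v)
              (fun v => w1 v * E z.1 z.2.1 v) z.2.2 := by
            gcongr
            exact Qp_mono hfB' (fun _ => le_rfl) _
        _ = Qp f' f' z.2.2 + a * (B0 * Qp (E z.1 z.2.1) (fun v => w1 v * E z.1 z.2.1 v) z.2.2) := by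
            rw [Qp_const_mul_left ENNReal.coe_ne_top]
        _ ≤ _ := by gcongr; exact hK.EwE _ _
    calc Qp f f z.2.2 ≤ Qp f' f' z.2.2 + a * (B0 * (β * W)) + a * (B0 * (β * W)) :=
          s1.trans (add_le_add_left s2 _)
      _ = _ := by ring
  -- cold x hot
  have e2 : Qp c f z.2.2 ≤ Qp c' f' z.2.2 + (a * β + G * (B0 * β)) * W := by
    have s1 : Qp c f z.2.2 ≤ Qp c' f z.2.2 + G * (B0 * (β * W)) := by
      calc Qp c f z.2.2 ≤ Qp (fun v => c' v + G * N0 z.1 z.2.1 v) f z.2.2 :=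
            Qp_mono hcc (fun _ => le_rfl) _
        _ = Qp c' f z.2.2 + G * Qp (N0 z.1 z.2.1) f z.2.2 := by
            rw [Qp_add_left m2 m0, Qp_const_mul_left hG]
        _ ≤ Qp c' f z.2.2 + G * Qp (N0 z.1 z.2.1) (fun v => B0 * E z.1 z.2.1 v) z.2.2 := by
            gcongr
            exact Qp_mono (fun _ => le_rfl) hfB _
        _ = Qp c' f z.2.2 + G * (B0 * Qp (N0 z.1 z.2.1) (E z.1 z.2.1) z.2.2) := by
            rw [Qp_const_mul_right ENNReal.coe_ne_top]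
        _ ≤ _ := by gcongr; exact (hK.NE _ _).trans (mul_le_mul_right hEW _)
    have s2 : Qp c' f z.2.2 ≤ Qp c' f' z.2.2 + a * (β * W) := by
      calc Qp c' f z.2.2 ≤ Qp c' (fun v => f' v + a * (w1 v * E z.1 z.2.1 v)) z.2.2 :=
            Qp_mono (fun _ => le_rfl) hff _
        _ = Qp c' f' z.2.2 + a * Qp c' (fun v => w1 v * E z.1 z.2.1 v) z.2.2 := by
            rw [Qp_add_right m2 m1, Qp_const_mul_right ha]
        _ ≤ Qp c' f' z.2.2 + a * Qp (N0 z.1 z.2.1) (fun v => w1 v * E z.1 z.2.1 v) z.2.2 := by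
            gcongr
            exact Qp_mono hcN' (fun _ => le_rfl) _
        _ ≤ _ := by gcongr; exact hK.NwE _ _
    calc Qp c f z.2.2 ≤ Qp c' f' z.2.2 + a * (β * W) + G * (B0 * (β * W)) :=
          s1.trans (add_le_add_left s2 _)
      _ = _ := by ring
  -- hot x cold
  have e3 : Qp f c z.2.2 ≤ Qp f' c' z.2.2 + (a * β + G * (B0 * β)) * W := by
    have s1 : Qp f c z.2.2 ≤ Qp f c' z.2.2 + G * (B0 * (β * W)) := by
      calc Qp f c z.2.2 ≤ Qp f (fun v => c' v + G * N0 z.1 z.2.1 v) z.2.2 :=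
            Qp_mono (fun _ => le_rfl) hcc _
        _ = Qp f c' z.2.2 + G * Qp f (N0 z.1 z.2.1) z.2.2 := by
            rw [Qp_add_right m0 m2, Qp_const_mul_right hG]
        _ ≤ Qp f c' z.2.2 + G * Qp (fun v => B0 * E z.1 z.2.1 v) (N0 z.1 z.2.1) z.2.2 := by
            gcongr
            exact Qp_mono hfB (fun _ => le_rfl) _
        _ = Qp f c' z.2.2 + G * (B0 * Qp (E z.1 z.2.1) (N0 z.1 z.2.1) z.2.2) := by
            rw [Qp_const_mul_left ENNReal.coe_ne_top]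
        _ ≤ _ := by gcongr; exact (hK.EN _ _).trans (mul_le_mul_right hEW _)
    have s2 : Qp f c' z.2.2 ≤ Qp f' c' z.2.2 + a * (β * W) := by
      calc Qp f c' z.2.2 ≤ Qp (fun v => f' v + a * (w1 v * E z.1 z.2.1 v)) c' z.2.2 :=
            Qp_mono hff (fun _ => le_rfl) _
        _ = Qp f' c' z.2.2 + a * Qp (fun v => w1 v * E z.1 z.2.1 v) c' z.2.2 := by
            rw [Qp_add_left m1 m2, Qp_const_mul_left ha]
        _ ≤ Qp f' c' z.2.2 + a * Qp (fun v => w1 v * E z.1 z.2.1 v) (N0 z.1 z.2.1) z.2.2 := by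
            gcongr
            exact Qp_mono (fun _ => le_rfl) hcN' _
        _ ≤ _ := by gcongr; exact hK.wEN _ _
    calc Qp f c z.2.2 ≤ Qp f' c' z.2.2 + a * (β * W) + G * (B0 * (β * W)) :=
          s1.trans (add_le_add_left s2 _)
      _ = _ := by ring
  have e4 : sp (lamu T1 E B0 lamA u) z.1 z.2.1 z.2.2 ≤
      sp (lamu T1 E B0 lamA u') z.1 z.2.1 z.2.2 + G * W :=
    (h.spill _ _).trans (add_le_add_right (mul_le_mul_right hEW _) _)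
  calc _ ≤ _ := add_le_add (add_le_add (add_le_add e1 e2) e3) e4
    _ = _ := by ring

end main

end Crest.Agent.R68.W
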