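import Mathlib
import Crest.Agent.R68.WB6

/-!
R68 / WB7: THE TRUNCATED PROBLEM HAS A GLOBAL SOLUTION (helper475, part W).
-/

set_option autoImplicit false
open MeasureTheory Set
open scoped ENNReal NNReal Topology
open Crest.AnalysisR.VecCalc3 Crest.AnalysisR.PDE.Boltzmann

noncomputable section

namespace Crest.Agent.R68.W

open Crest.Agent.R68.A (Meas3 meas3_Qp meas3_Lc Lc_mono Lc_add Lc_const_mul Qp_mono Qp_add_left
  Qp_add_right Qp_const_mul_left Qp_const_mul_right)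
open Crest.Agent.R68.WA (We w1 measurable_We measurable_w1 one_le_w1 w1_ne_top We_ne_top)

variable {T1 lam Y A : ℝ} {E N0 : ℝ → P2 → R3 → ℝ≥0∞} {h1 : P2 → R3 → ℝ≥0∞}
  {lamA : ℝ → P2 → R3 → ℝ≥0∞} {cf sp : (ℝ → P2 → R3 → ℝ≥0∞) → ℝ → P2 → R3 → ℝ≥0∞} {B0 : ℝ≥0}

/-- continuous primitive, frozen before `T1` -/
def Ib (T1 : ℝ) (b : ℝ → ℝ) (t : ℝ) : ℝ := ∫ s in T1..(max t T1), b s

theorem continuous_Ib (T1 : ℝ) {b : ℝ → ℝ} (hb : Continuous b) : Continuous (Ib T1 b) := by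
  have h : Continuous fun t => ∫ s in T1..t, b s :=
    continuous_iff_continuousAt.2 fun t =>
      (intervalIntegral.integral_hasDerivAt_right (hb.intervalIntegrable _ _)
        hb.stronglyMeasurable.stronglyMeasurableAtFilter hb.continuousAt).continuousAt
  exact h.comp (continuous_id.max continuous_const)

theorem Ib_nonneg (T1 : ℝ) {b : ℝ → ℝ} (hb0 : ∀ t, 0 ≤ b t) (t : ℝ) : 0 ≤ Ib T1 b t :=
  intervalIntegral.integral_nonneg (le_max_right _ _) fun s _ => hb0 s

/-- the rate of the fixed point theorem -/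
def bb (T1 Y : ℝ) (B0 : ℝ≥0) (b : ℝ → ℝ) (t : ℝ) : ℝ :=
  (b t + B0 * b t) + (B0 * B0 * b t + B0 * b t + B0 * b t + b t) +
    (b t * ((Y + 4) * Ib T1 b t) * b t + b t) +
    ((2 * B0 * b t + 2 * b t) + b t * ((Y + 4) * Ib T1 b t) * (2 * B0 * b t + 1))

section bbfacts

variable {b : ℝ → ℝ}

theorem continuous_bb (T1 Y : ℝ) (B0 : ℝ≥0) (hb : Continuous b) : Continuous (bb T1 Y B0 b) := by
  have := continuous_Ib T1 hb
  unfold bb
  fun_prop

theorem bb_parts (hY : 0 ≤ Y) (hb0 : ∀ t, 0 ≤ b t) (t : ℝ) :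
    0 ≤ bb T1 Y B0 b t ∧
    ENNReal.ofReal (b t) + B0 * ENNReal.ofReal (b t) ≤ ENNReal.ofReal (bb T1 Y B0 b t) ∧
    B0 * B0 * ENNReal.ofReal (b t) + B0 * ENNReal.ofReal (b t) + B0 * ENNReal.ofReal (b t) +
      ENNReal.ofReal (b t) ≤ ENNReal.ofReal (bb T1 Y B0 b t) ∧
    ENNReal.ofReal (b t) * (ENNReal.ofReal (Y + 4) * ENNReal.ofReal (Ib T1 b t)) *
      ENNReal.ofReal (b t) + ENNReal.ofReal (b t) ≤ ENNReal.ofReal (bb T1 Y B0 b t) ∧
    (2 * B0 * ENNReal.ofReal (b t) + 2 * ENNReal.ofReal (b t)) +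
      ENNReal.ofReal (b t) * (ENNReal.ofReal (Y + 4) * ENNReal.ofReal (Ib T1 b t)) *
        (2 * B0 * ENNReal.ofReal (b t) + 1) ≤ ENNReal.ofReal (bb T1 Y B0 b t) := by
  have h0 := hb0 t
  have hI := Ib_nonneg T1 hb0 t
  have hB : (0 : ℝ) ≤ B0 := B0.2
  have hY4 : 0 ≤ Y + 4 := by linarith
  set x := b t
  set I := Ib T1 b t
  have p1 : 0 ≤ x + B0 * x := by positivity
  have p2 : 0 ≤ B0 * B0 * x + B0 * x + B0 * x + x := by positivity
  have p3 : 0 ≤ x * ((Y + 4) * I) * x + x := by positivity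
  have p4 : 0 ≤ (2 * B0 * x + 2 * x) + x * ((Y + 4) * I) * (2 * B0 * x + 1) := by positivity
  have hbb : bb T1 Y B0 b t = (x + B0 * x) + (B0 * B0 * x + B0 * x + B0 * x + x) +
    (x * ((Y + 4) * I) * x + x) +
    ((2 * B0 * x + 2 * x) + x * ((Y + 4) * I) * (2 * B0 * x + 1)) := rfl
  have e0 : (B0 : ℝ≥0∞) = ENNReal.ofReal B0 := (ENNReal.ofReal_coe_nnreal).symm
  have e2 : (2 : ℝ≥0∞) = ENNReal.ofReal 2 := by simp
  have e1 : (1 : ℝ≥0∞) = ENNReal.ofReal 1 := by simp
  refine ⟨by rw [hbb]; linarith, ?_, ?_, ?_, ?_⟩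
  · rw [e0, ← ENNReal.ofReal_mul hB, ← ENNReal.ofReal_add h0 (by positivity)]
    apply ENNReal.ofReal_le_ofReal
    rw [hbb]; linarith
  · rw [e0, ← ENNReal.ofReal_mul hB, ← ENNReal.ofReal_mul (by positivity),
      ← ENNReal.ofReal_mul hB, ← ENNReal.ofReal_add (by positivity) (by positivity),
      ← ENNReal.ofReal_add (by positivity) (by positivity),
      ← ENNReal.ofReal_add (by positivity) (by positivity)]
    apply ENNReal.ofReal_le_ofReal
    rw [hbb]; linarith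
  · rw [← ENNReal.ofReal_mul hY4, ← ENNReal.ofReal_mul h0, ← ENNReal.ofReal_mul (by positivity),
      ← ENNReal.ofReal_add (by positivity) h0]
    apply ENNReal.ofReal_le_ofReal
    rw [hbb]; linarith
  · rw [e0, e2, e1, ← ENNReal.ofReal_mul (by norm_num), ← ENNReal.ofReal_mul (by positivity),
      ← ENNReal.ofReal_mul (by norm_num), ← ENNReal.ofReal_add (by positivity) (by positivity),
      ← ENNReal.ofReal_mul hY4, ← ENNReal.ofReal_mul h0,
      ← ENNReal.ofReal_add (by positivity) (by norm_num), ← ENNReal.ofReal_mul (by positivity),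
      ← ENNReal.ofReal_add (by positivity) (by positivity)]
    apply ENNReal.ofReal_le_ofReal
    rw [hbb]; linarith

end bbfacts

/-- the hypotheses of the fixed point theorem hold -/
theorem fixHypC (H : THyp T1 lam Y A E N0 h1 lamA cf sp) (B0 : ℝ≥0) {b : ℝ → ℝ}
    (hbc : Continuous b) (hb0 : ∀ t, 0 ≤ b t)
    (hb : ∀ t, T1 ≤ t → KB E N0 t (ENNReal.ofReal (b t)) ∧
      CB T1 Y E N0 cf sp t (ENNReal.ofReal (b t))) :
    FixHypC T1 lam A (Eo E) h1 (bb T1 Y B0 b) (Lu T1 E B0 lamA cf) (Pu T1 E B0 lamA cf sp)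
      (Cl T1 E) := by
  have hEsh : ∀ k (z : Om), Eo E (sh k z) = Eo E z := fun k z => H.Eper z.1 z.2.2 z.2.1 k
  have hnn : ∀ t, 0 ≤ bb T1 Y B0 b t := fun t => (bb_parts (T1 := T1) (B0 := B0) H.Y0 hb0 t).1
  -- closeness package
  have hLp : ∀ u u', u ∈ Cl T1 E → u' ∈ Cl T1 E → ∀ kap : ℝ → ℝ, Continuous kap →
      MonotoneOn kap (Ici T1) → (∀ t, T1 ≤ t → 1 ≤ kap t) → ∀ c : ℝ≥0∞, c < ⊤ →
      (∀ z : Om, T1 ≤ z.1 → Eo E z < ⊤ →
        ‖u z - u' z‖ₑ ≤ c * (ENNReal.ofReal (kap z.1) * ENNReal.ofReal (1 + ‖z.2.2‖) * Eo E z)) →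
      ∀ t, T1 ≤ t → Lp T1 E N0 B0 lamA cf sp u u' t (c * ENNReal.ofReal (kap t))
        (ENNReal.ofReal (b t) * (c * ENNReal.ofReal (Y + 4) *
          (ENNReal.ofReal (kap t) * ENNReal.ofReal (Ib T1 b t)))) := by
    intro u u' hu hu' kap hkc hkm hk1 c hc h t ht
    have h' : ∀ z : Om, T1 ≤ z.1 → Eo E z < ⊤ →
        ‖u' z - u z‖ₑ ≤ c * (ENNReal.ofReal (kap z.1) * ENNReal.ofReal (1 + ‖z.2.2‖) * Eo E z) := by
      intro z hz hE
      have := h z hz hE
      rwa [← enorm_neg, neg_sub] at this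
    set g : ℝ → ℝ≥0∞ := fun s => c * ENNReal.ofReal (b s * kap s) * ENNReal.ofReal (Y + 4) with hg
    have hgm : Measurable g := by
      have := hbc.measurable
      have := hkc.measurable
      fun_prop
    have hlam : ∀ w w' : Om → ℝ, w ∈ Cl T1 E → w' ∈ Cl T1 E → (∀ z : Om, T1 ≤ z.1 → Eo E z < ⊤ →
        ‖w z - w' z‖ₑ ≤ c * (ENNReal.ofReal (kap z.1) * ENNReal.ofReal (1 + ‖z.2.2‖) * Eo E z)) →
        ∀ s x (v : R3), T1 ≤ s → ‖v‖ < Y + 3 →
        lamu T1 E B0 lamA w s x v ≤ lamu T1 E B0 lamA w' s x v + g s := by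
      intro w w' hw hw' hww s x v hs hv
      refine (lamu_lip H hw hw' hc.ne ENNReal.ofReal_ne_top (κ := ENNReal.ofReal (kap s)) hs
        (hb s hs).1 (fun x v hv => hww (s, x, v) hs hv) x v).trans ?_
      gcongr
      have e1 : w1 v ≤ ENNReal.ofReal (Y + 4) := by
        unfold w1
        exact ENNReal.ofReal_le_ofReal (by linarith)
      rw [hg]
      simp only
      rw [ENNReal.ofReal_mul (hb0 s)]
      calc c * ENNReal.ofReal (kap s) * (ENNReal.ofReal (b s) * w1 v)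
          ≤ c * ENNReal.ofReal (kap s) * (ENNReal.ofReal (b s) * ENNReal.ofReal (Y + 4)) := by
            gcongr
        _ = _ := by ring
    have hgint : ∫⁻ s in Ioo T1 t, g s ≤ c * ENNReal.ofReal (Y + 4) *
        (ENNReal.ofReal (kap t) * ENNReal.ofReal (Ib T1 b t)) := by
      have e1 : ENNReal.ofReal (Ib T1 b t) = ∫⁻ s in Ioo T1 t, ENNReal.ofReal (b s) := by
        rw [lint_Ioo_eq hbc ht fun s _ _ => hb0 s, Ib, max_eq_left ht]
      rw [e1, ← lintegral_const_mul' _ _ ENNReal.ofReal_ne_top,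
        ← lintegral_const_mul' _ _ (ENNReal.mul_ne_top hc.ne ENNReal.ofReal_ne_top)]
      refine setLIntegral_mono' measurableSet_Ioo fun s hs => ?_
      have e2 : ENNReal.ofReal (b s * kap s) ≤ ENNReal.ofReal (kap t) * ENNReal.ofReal (b s) := by
        rw [ENNReal.ofReal_mul (hb0 s), mul_comm]
        gcongr
        exact hkm hs.1.le ht hs.2.le
      calc g s = c * ENNReal.ofReal (Y + 4) * ENNReal.ofReal (b s * kap s) := by
            rw [hg]; ring
        _ ≤ _ := by gcongr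
    have heq : ∀ s x (v : R3), s < T1 →
        lamu T1 E B0 lamA u s x v = lamu T1 E B0 lamA u' s x v := by
      intro s x v hs
      unfold lamu
      rw [if_neg (not_le.2 hs), if_neg (not_le.2 hs)]
    have hC := (hb t ht).2
    refine ⟨fun x v => ?_, fun x v => ?_, fun x v => ?_⟩
    · exact hc_lip (fun v _ hv => h (t, x, v) ht hv) v
    · refine (hC.cf_lip _ _ (meas3_lamu H hu) (per_lamu H hu) (meas3_lamu H hu') (per_lamu H hu')
        heq g hgm (fun s x v hs hv => ⟨hlam u u' hu hu' h s x v hs hv,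
          hlam u' u hu' hu h' s x v hs hv⟩) x v).trans ?_
      gcongr
    · refine (hC.sp_lip _ _ (meas3_lamu H hu) (per_lamu H hu) (meas3_lamu H hu') (per_lamu H hu')
        heq g hgm (fun s x v hs hv => ⟨hlam u u' hu hu' h s x v hs hv,
          hlam u' u hu' hu h' s x v hs hv⟩) x v).trans ?_
      gcongr
  exact
    { ClM := fun u hu => hu.1
      Cl0 := ⟨measurable_const, fun _ _ _ _ => rfl⟩
      ClLim := by
        intro u hu v hv hlim
        refine ⟨hv, fun z hz hE k => ?_⟩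
        have e1 := hlim z hz hE
        have e2 := hlim (sh k z) hz (by rw [hEsh]; exact hE)
        have e3 : (fun n => u n (sh k z)) = fun n => u n z := funext fun n => (hu n).2 z hz hE k
        rw [e3] at e2
        exact tendsto_nhds_unique e2 e1
      ClPsi := by
        intro u hu
        have hS : MeasurableSet {z : Om | T1 ≤ z.1 ∧ Eo E z < ⊤} :=
          (measurableSet_le measurable_const measurable_fst).inter
            (measurableSet_lt H.Em measurable_const)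
        refine ⟨(measurable_damped H.h1m (meas_Lu H hu) (meas_Pu H hu)).ennreal_toReal.indicator hS,
          fun z hz hE k => ?_⟩
        have h2 : sh k z ∈ {z : Om | T1 ≤ z.1 ∧ Eo E z < ⊤} := ⟨hz, by rw [hEsh]; exact hE⟩
        have h3 : z ∈ {z : Om | T1 ≤ z.1 ∧ Eo E z < ⊤} := ⟨hz, hE⟩
        rw [indicator_of_mem h2, indicator_of_mem h3,
          damped_sh H.h1per (Lu_sh H hu) (Pu_sh H hu)]
      lam0 := H.lam0
      A0 := H.A0
      Em := H.Em
      flE := fun z s h2 h3 => H.flight s z.1 z.2.1 z.2.2 h2 h3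
      h1m := H.h1m
      h1E := H.h1E
      bc := continuous_bb T1 Y B0 hbc
      b0 := hnn
      Lm := fun u hu => meas_Lu H hu
      Pm := fun u hu => meas_Pu H hu
      Lb := by
        intro u hu z hz hE
        refine (Lu_le H hu hz (hb z.1 hz).1).trans ?_
        exact mul_le_mul_left (bb_parts (T1 := T1) (B0 := B0) H.Y0 hb0 z.1).2.1 _
      Pb := by
        intro u hu z hz hE
        refine (Pu_le H hu hz (hb z.1 hz).1 (hb z.1 hz).2).trans ?_
        exact mul_le_mul_left (bb_parts (T1 := T1) (B0 := B0) H.Y0 hb0 z.1).2.2.1 _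
      Ll := by
        intro u u' hu hu' kap hkc hkm hk1 c hc h z hz hE
        have e1 := hLp u u' hu hu' kap hkc hkm hk1 c hc h z.1 hz
        have e2 := Lu_lip H hu hu' (ENNReal.mul_ne_top hc.ne ENNReal.ofReal_ne_top)
          (ENNReal.mul_ne_top ENNReal.ofReal_ne_top (ENNReal.mul_ne_top
            (ENNReal.mul_ne_top hc.ne ENNReal.ofReal_ne_top)
            (ENNReal.mul_ne_top ENNReal.ofReal_ne_top ENNReal.ofReal_ne_top))) (hb z.1 hz).1 e1
        refine e2.trans (add_le_add le_rfl ?_)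
        rw [ENNReal.ofReal_mul (hnn z.1)]
        have e3 := (bb_parts (T1 := T1) (B0 := B0) H.Y0 hb0 z.1).2.2.2.1
        show _ * ENNReal.ofReal (1 + ‖z.2.2‖) ≤ _
        calc _ = c * ENNReal.ofReal (1 + ‖z.2.2‖) * ((ENNReal.ofReal (b z.1) *
              (ENNReal.ofReal (Y + 4) * ENNReal.ofReal (Ib T1 b z.1)) * ENNReal.ofReal (b z.1) +
              ENNReal.ofReal (b z.1)) * ENNReal.ofReal (kap z.1)) := by ring
          _ ≤ _ := by gcongr
      Pl := by
        intro u u' hu hu' kap hkc hkm hk1 c hc h z hz hE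
        have e1 := hLp u u' hu hu' kap hkc hkm hk1 c hc h z.1 hz
        have e2 := Pu_lip H hu hu' (ENNReal.mul_ne_top hc.ne ENNReal.ofReal_ne_top)
          (ENNReal.mul_ne_top ENNReal.ofReal_ne_top (ENNReal.mul_ne_top
            (ENNReal.mul_ne_top hc.ne ENNReal.ofReal_ne_top)
            (ENNReal.mul_ne_top ENNReal.ofReal_ne_top ENNReal.ofReal_ne_top))) hz (hb z.1 hz).1 e1
        refine e2.trans (add_le_add le_rfl ?_)
        rw [ENNReal.ofReal_mul (hnn z.1)]
        have e3 := (bb_parts (T1 := T1) (B0 := B0) H.Y0 hb0 z.1).2.2.2.2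
        show _ * (ENNReal.ofReal (1 + ‖z.2.2‖) * Eo E z) ≤ _
        calc _ = c * ENNReal.ofReal (1 + ‖z.2.2‖) *
              ((2 * B0 * ENNReal.ofReal (b z.1) + 2 * ENNReal.ofReal (b z.1) +
              ENNReal.ofReal (b z.1) * (ENNReal.ofReal (Y + 4) * ENNReal.ofReal (Ib T1 b z.1)) *
                (2 * B0 * ENNReal.ofReal (b z.1) + 1)) * ENNReal.ofReal (kap z.1)) * Eo E z := by
              ring
          _ ≤ _ := by gcongr }

/-- functions agreeing where the weight is finite have the same truncation -/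
theorem hc_congr {u u' : Om → ℝ} (h : ∀ z : Om, T1 ≤ z.1 → Eo E z < ⊤ → u z = u' z) :
    hc T1 E B0 u = hc T1 E B0 u' := by
  funext t x v
  unfold hc
  split_ifs with h2
  · rw [h (t, x, v) h2.1 h2.2]
  · rfl

/-- **the truncated problem has a global solution** -/
theorem truncFix (H : THyp T1 lam Y A E N0 h1 lamA cf sp) (B0 : ℝ≥0) :
    ∃ u : Om → ℝ, Measurable u ∧ (∀ z, 0 ≤ u z) ∧ (∀ k z, u (sh k z) = u z) ∧
      (∀ z, ¬ (T1 ≤ z.1 ∧ Eo E z < ⊤) → u z = 0) ∧
      ∀ z : Om, T1 ≤ z.1 → Eo E z < ⊤ →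
        damped T1 h1 (Lu T1 E B0 lamA cf u) (Pu T1 E B0 lamA cf sp u) z ≠ ⊤ ∧
        ENNReal.ofReal (u z) =
          damped T1 h1 (Lu T1 E B0 lamA cf u) (Pu T1 E B0 lamA cf sp u) z := by
  classical
  obtain ⟨b, hbc, hb0, hb⟩ := exists_cont_majorant (T1 := T1)
    (p := fun t B => KB E N0 t B ∧ CB T1 Y E N0 cf sp t B)
    (fun t B B' h hp => ⟨hp.1.mono h, hp.2.mono h⟩) (fun T => by
      obtain ⟨B1, hB1⟩ := H.kb T
      obtain ⟨B2, hB2⟩ := H.cb T
      refine ⟨max B1 B2, fun t h2 h3 => ⟨(hB1 t h2 h3).mono ?_, (hB2 t h2 h3).mono ?_⟩⟩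
      · exact_mod_cast le_max_left B1 B2
      · exact_mod_cast le_max_right B1 B2)
  obtain ⟨u, hu, hu0, hfix⟩ := dampFixC (fixHypC H B0 hbc hb0 hb)
  set S : Set Om := {z : Om | T1 ≤ z.1 ∧ Eo E z < ⊤} with hSdef
  have hS : MeasurableSet S :=
    (measurableSet_le measurable_const measurable_fst).inter (measurableSet_lt H.Em measurable_const)
  have hEsh : ∀ k (z : Om), Eo E (sh k z) = Eo E z := fun k z => H.Eper z.1 z.2.2 z.2.1 k
  have hSsh : ∀ k (z : Om), sh k z ∈ S ↔ z ∈ S := by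
    intro k z
    show (T1 ≤ z.1 ∧ Eo E (sh k z) < ⊤) ↔ _
    rw [hEsh]; rfl
  have hag : ∀ z : Om, T1 ≤ z.1 → Eo E z < ⊤ → S.indicator u z = u z := fun z h2 h3 =>
    indicator_of_mem (show z ∈ S from ⟨h2, h3⟩) _
  have hcc : hc T1 E B0 (S.indicator u) = hc T1 E B0 u := hc_congr hag
  have hll : lamu T1 E B0 lamA (S.indicator u) = lamu T1 E B0 lamA u := by
    funext t x v
    unfold lamu
    rw [hcc]
  have hL : Lu T1 E B0 lamA cf (S.indicator u) = Lu T1 E B0 lamA cf u := by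
    funext z
    unfold Lu
    rw [hcc, hll]
  have hP : Pu T1 E B0 lamA cf sp (S.indicator u) = Pu T1 E B0 lamA cf sp u := by
    funext z
    unfold Pu
    rw [hcc, hll]
  refine ⟨S.indicator u, hu.1.indicator hS, fun z => indicator_nonneg (fun z _ => hu0 z) z,
    fun k z => ?_, fun z hz => indicator_of_notMem (show z ∉ S from hz) _, fun z hz hE => ?_⟩
  · by_cases h2 : z ∈ S
    · rw [indicator_of_mem h2, indicator_of_mem ((hSsh k z).2 h2)]
      exact hu.2 z h2.1 h2.2 k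
    · rw [indicator_of_notMem h2, indicator_of_notMem (fun h => h2 ((hSsh k z).1 h))]
  · rw [hL, hP, hag z hz hE]
    exact hfix z hz hE

end Crest.Agent.R68.W
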