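import Mathlib
import Crest.Agent.R68.DPoles2

/-!
Row 68 (S0091): `D^{-3/2}` is bounded by a finite sum over the poles; further facts on `Dw`
(helper835).
-/

set_option autoImplicit false
open MeasureTheory Set Filter Topology
open scoped ENNReal
open Crest.AnalysisR.VecCalc3 Crest.AnalysisR.PDE.Boltzmann

noncomputable section

namespace Crest.Agent.R68.DPole

/-- the sum over the poles -/
def Spole (P : Par) (t : ℝ) (x : P2) (v : R3) : ℝ≥0∞ :=
  1 + ∑ k ∈ KKf P t x, (ENNReal.ofReal ‖v - uvec P 1 t (x + latt k)‖ ^ (-(3 / 2) : ℝ) +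
    ENNReal.ofReal ‖v - uvec P (-1) t (x + latt k)‖ ^ (-(3 / 2) : ℝ))

lemma one_le_Spole (P : Par) (t : ℝ) (x : P2) (v : R3) : 1 ≤ Spole P t x v := le_self_add

lemma pole_le_Spole {P : Par} {t : ℝ} {x : P2} {v : R3} {k : ℤ × ℤ} (hk : k ∈ KKf P t x) {s : ℝ}
    (hs : s = 1 ∨ s = -1) :
    ENNReal.ofReal ‖v - uvec P s t (x + latt k)‖ ^ (-(3 / 2) : ℝ) ≤ Spole P t x v := by
  unfold Spole
  refine le_trans ?_ le_add_self
  refine le_trans ?_ (Finset.single_le_sum (f := fun k =>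
    ENNReal.ofReal ‖v - uvec P 1 t (x + latt k)‖ ^ (-(3 / 2) : ℝ) +
    ENNReal.ofReal ‖v - uvec P (-1) t (x + latt k)‖ ^ (-(3 / 2) : ℝ)) (fun _ _ => by simp) hk)
  rcases hs with rfl | rfl
  · exact le_self_add
  · exact le_add_self

/-- the pole statement for `Dw` itself (poles are attained up to the factor `2`) -/
theorem exists_pole {P : Par} (hP : ParD P) {t : ℝ} (ht : 0 ≤ t) {x : P2} {v : R3} {b : ℝ}
    (hb : b ≤ 1 / 4) (hD : Dw P t x v < b) :
    ∃ k ∈ KKf P t x, ∃ s : ℝ, (s = 1 ∨ s = -1) ∧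
      ‖v - uvec P s t (x + latt k)‖ ≤ (8 + 6 * P.Y) * b := by
  rcases (Dw_lt_iff hP.Y ht x v).1 hD with h | ⟨k, j, a, y, s, hj, ha, hy, hs, hd⟩
  · linarith
  · obtain ⟨h1, h2⟩ := pole_of_dval (s := s) hP ht hj ha hy (hd.le.trans hb)
    have hY := hP.Y
    refine ⟨k, h1, s, hs, h2.trans ?_⟩
    gcongr

/-- **`D^{-3/2}` is bounded by the sum over the poles.** -/
theorem Dm_le_Spole {P : Par} (hP : ParD P) {t : ℝ} (ht : 0 ≤ t) (x : P2) (v : R3) :
    Dm P t x v ≤ ENNReal.ofReal ((8 + 6 * P.Y) ^ 2) * Spole P t x v := by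
  have hY := hP.Y
  set C : ℝ := 8 + 6 * P.Y with hC
  have hC8 : 8 ≤ C := by linarith
  have hC0 : 0 < C := by linarith
  have hCne : ENNReal.ofReal C ≠ 0 := by simpa using hC0
  -- the main estimate for each admissible `b`
  have key : ∀ b : ℝ, 0 < b → Dw P t x v < b →
      ENNReal.ofReal b ^ (-(3 / 2) : ℝ) ≤ ENNReal.ofReal (C ^ 2) * Spole P t x v := by
    intro b hb hD
    rcases le_or_gt b (1 / 4) with h4 | h4
    · obtain ⟨k, hk, s, hs, hn⟩ := exists_pole hP ht h4 hD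
      have h1 := pole_le_Spole (v := v) hk hs
      have h2 : ENNReal.ofReal ‖v - uvec P s t (x + latt k)‖ ≤ ENNReal.ofReal C * ENNReal.ofReal b := by
        rw [← ENNReal.ofReal_mul hC0.le]
        exact ENNReal.ofReal_le_ofReal hn
      have h3 : (ENNReal.ofReal C * ENNReal.ofReal b) ^ (-(3 / 2) : ℝ) ≤
          ENNReal.ofReal ‖v - uvec P s t (x + latt k)‖ ^ (-(3 / 2) : ℝ) := by
        rw [ENNReal.rpow_neg, ENNReal.rpow_neg]
        gcongr
      have h4 : ENNReal.ofReal b ^ (-(3 / 2) : ℝ) = ENNReal.ofReal C ^ (3 / 2 : ℝ) *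
          (ENNReal.ofReal C * ENNReal.ofReal b) ^ (-(3 / 2) : ℝ) := by
        rw [ENNReal.mul_rpow_of_ne_top ENNReal.ofReal_ne_top ENNReal.ofReal_ne_top, ← mul_assoc,
          ← ENNReal.rpow_add _ _ hCne ENNReal.ofReal_ne_top]
        norm_num
      rw [h4]
      refine mul_le_mul' ?_ (h3.trans h1)
      rw [ENNReal.ofReal_rpow_of_pos hC0]
      apply ENNReal.ofReal_le_ofReal
      calc C ^ (3 / 2 : ℝ) ≤ C ^ (2 : ℝ) :=
            Real.rpow_le_rpow_of_exponent_le (by linarith) (by norm_num)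
        _ = C ^ 2 := by norm_cast
    · have h1 : ENNReal.ofReal b ^ (-(3 / 2) : ℝ) ≤ ENNReal.ofReal (C ^ 2) := by
        rw [ENNReal.ofReal_rpow_of_pos hb]
        apply ENNReal.ofReal_le_ofReal
        calc b ^ (-(3 / 2) : ℝ) ≤ (1 / 4 : ℝ) ^ (-(3 / 2) : ℝ) :=
              Real.rpow_le_rpow_of_nonpos (by norm_num) h4.le (by norm_num)
          _ = 8 := by
              rw [show (1 / 4 : ℝ) = (2 : ℝ) ^ (-2 : ℝ) by norm_num, ← Real.rpow_mul (by norm_num)]
              norm_num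
          _ ≤ C ^ 2 := by nlinarith
      calc ENNReal.ofReal b ^ (-(3 / 2) : ℝ) ≤ ENNReal.ofReal (C ^ 2) * 1 := by rwa [mul_one]
        _ ≤ _ := by gcongr; exact one_le_Spole _ _ _ _
  -- pass to the limit `b ↓ Dw`
  have hD0 := Dw_nonneg (P := P) ht x v
  have hlim : Tendsto (fun b : ℝ => ENNReal.ofReal b ^ (-(3 / 2) : ℝ))
      (𝓝[>] (Dw P t x v)) (𝓝 (Dm P t x v)) := by
    have hc : Continuous (fun b : ℝ => ENNReal.ofReal b ^ (-(3 / 2) : ℝ)) :=
      (ENNReal.continuous_rpow_const).comp ENNReal.continuous_ofReal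
    exact (hc.tendsto _).mono_left nhdsWithin_le_nhds
  refine le_of_tendsto hlim ?_
  filter_upwards [self_mem_nhdsWithin] with b hb
  exact key b (hD0.trans_lt hb) hb

/-- number of poles -/
theorem card_poles {P : Par} (hP : ParD P) {t : ℝ} (ht : 0 ≤ t) (x : P2) :
    ((KKf P t x).card : ℝ) ≤ (3 * (P.Y + 2) + 1) ^ 2 * (1 + t) ^ 2 := by
  have hY := hP.Y
  have hdl := hP.dl_pos
  have hdl2 := hP.dl_le
  refine (card_KKf hP ht x).trans ?_
  rw [← mul_pow]
  gcongr
  nlinarith [mul_nonneg hY.le ht]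

/-- for small times at most one image matters -/
theorem card_KKf_le_one {P : Par} {t : ℝ} (hs : (P.Y + 2) * (t + P.dl) < 7 / 20) (x : P2) :
    (KKf P t x).card ≤ 1 := by
  rw [Finset.card_le_one]
  intro k hk l hl
  rw [mem_KKf] at hk hl
  exact latt_unique (hk.trans_lt hs) (hl.trans_lt hs)

/-- far from the lattice there is no pole -/
theorem Dw_ge_of_far {P : Par} (hP : ParD P) {t : ℝ} (ht : 0 ≤ t) {x : P2}
    (hx : (P.Y + 2) * (t + P.dl) < distG x) (v : R3) : 1 / 4 ≤ Dw P t x v := by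
  by_contra h
  push Not at h
  obtain ⟨k, hk, -⟩ := exists_pole hP ht le_rfl h
  rw [mem_KKf] at hk
  exact absurd (distG_le x k) (by linarith)

/-- fast velocities are not seen by `Dw` -/
theorem Dw_eq_one_of_norm {P : Par} (hP : ParD P) {t : ℝ} (ht : 0 ≤ t) (x : P2) {v : R3}
    (hv : P.Y + 3 ≤ ‖v‖) : Dw P t x v = 1 := by
  refine le_antisymm (Dw_le_one _ _ _ _) (le_Dw hP.Y le_rfl ?_)
  intro k j a y s hj ha hy hs
  have hla := hP.abs_lane hj ha
  have hdl := hP.dl_pos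
  have hY := hP.Y
  have h1 : ‖(!₂[P.c * a / P.dl, y, s] : R3)‖ ≤ P.Y + 2 := by
    refine (norm_le_abs3 _).trans ?_
    have e0 : |(!₂[P.c * a / P.dl, y, s] : R3) 0| ≤ 1 := by
      simp only [Matrix.cons_val_zero]
      rw [abs_div, abs_mul, abs_of_pos hP.c, abs_of_pos hdl, div_le_one hdl]
      calc P.c * |a| ≤ 1 * P.dl := by
            have := hP.c1; have := hla.2; gcongr
        _ = P.dl := one_mul _
    have e1 : |(!₂[P.c * a / P.dl, y, s] : R3) 1| ≤ P.Y := by
      simpa using hy.le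
    have e2 : |(!₂[P.c * a / P.dl, y, s] : R3) 2| ≤ 1 := by
      rcases hs with rfl | rfl <;> simp
    linarith
  have h2 : ‖v‖ - ‖(!₂[P.c * a / P.dl, y, s] : R3)‖ ≤ ‖v - !₂[P.c * a / P.dl, y, s]‖ :=
    norm_sub_norm_le _ _
  have h3 : 0 ≤ ‖x + latt k - t • bar v - (a, y * rr a)‖ / (t + rr a) := by
    have := rr_nonneg a
    positivity
  unfold dval
  linarith

/-- on the fuel `Dw` is at most twice the distance to the fuel velocity -/
theorem Dw_le_two_mul {P : Par} (hP : ParD P) {t : ℝ} (ht : 0 ≤ t) {x : P2} {k : ℤ × ℤ} {j : ℕ}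
    (hj : P.j0 ≤ j) (ha : lab P t (x + latt k) ∈ lane j)
    (hy : |(x + latt k).2| < P.Y * (t + rr (lab P t (x + latt k)))) {s : ℝ} (hs : s = 1 ∨ s = -1)
    (v : R3) : Dw P t x v ≤ 2 * ‖v - uvec P s t (x + latt k)‖ := by
  set X := x + latt k with hX
  set a := lab P t X with hadef
  have hra : 0 < rr a := rr_pos_of_lane ha
  have hdl := hP.dl_pos
  have hpos : 0 < t + rr a := by positivity
  set y := X.2 / (t + rr a) with hydef
  have hy' : |y| < P.Y := by
    rw [hydef, abs_div, abs_of_pos hpos, div_lt_iff₀ hpos]; exact hy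
  refine (Dw_le_dval ht x v k hj ha hy' hs).trans ?_
  have hden : 0 < P.dl + P.c * t := by have := hP.c; positivity
  have hX1 : X.1 = a * (P.dl + P.c * t) / P.dl := by
    rw [hadef]; unfold lab; field_simp
  have hu : (!₂[P.c * a / P.dl, y, s] : R3) = uvec P s t X := by
    unfold uvec
    rw [← hadef, ← hydef]
    have : P.c * a / P.dl = P.c * X.1 / (P.dl + P.c * t) := by
      rw [hX1]; field_simp
    rw [this]
  unfold dval
  rw [hu, ← hX]
  set w := v - uvec P s t X with hw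
  have hpos2 : X - t • bar v - (a, y * rr a) = -(t • bar w) := by
    have hw0 : w 0 = v 0 - P.c * X.1 / (P.dl + P.c * t) := by simp [hw, uvec]
    have hw1 : w 1 = v 1 - y := by simp [hw, uvec, hydef, hadef]
    ext
    · simp only [bar, Prod.fst_sub, Prod.smul_fst, Prod.fst_neg, smul_eq_mul, hw0]
      have h1 : X.1 = a + t * (P.c * X.1 / (P.dl + P.c * t)) := by
        rw [hX1]; field_simp
      linarith
    · simp only [bar, Prod.snd_sub, Prod.smul_snd, Prod.snd_neg, smul_eq_mul, hw1]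
      have h2 : X.2 = y * (t + rr a) := by rw [hydef]; field_simp
      linarith
  rw [hpos2, norm_neg, norm_smul, Real.norm_eq_abs, abs_of_nonneg ht]
  have hbar : ‖bar w‖ ≤ ‖w‖ := by
    unfold bar
    rw [Prod.norm_def]
    exact max_le (by simpa using abs_apply_le_norm w 0) (by simpa using abs_apply_le_norm w 1)
  have : t * ‖bar w‖ / (t + rr a) ≤ ‖w‖ := by
    rw [div_le_iff₀ hpos]
    nlinarith [norm_nonneg w, norm_nonneg (bar w), mul_le_mul_of_nonneg_left hbar ht,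
      mul_nonneg (norm_nonneg w) hra.le]
  linarith

end Crest.Agent.R68.DPole
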