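import Mathlib
import Crest.Agent.R68.Carl2
import Crest.Agent.R68.Defs

/-!
R68 / WK1 (helper330, Part W): Carleman representation for coupled products, exchange symmetry of
the hard-sphere gain integral.
-/

set_option autoImplicit false
open MeasureTheory Set Metric Submodule
open scoped ENNReal Real
open Crest.AnalysisR.VecCalc3 Crest.AnalysisR.PDE.Boltzmann

namespace Crest.Agent.R68.WK

attribute [local irreducible] rot vec3

/-- general gain integral of a function of the two incoming velocities -/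
noncomputable def Qg (Φ : R3 → R3 → ℝ≥0∞) (v : R3) : ℝ≥0∞ :=
  ∫⁻ vs, ∫⁻ w, ENNReal.ofReal |inner ℝ (v - vs) w| * Φ (postVel v vs w) (postVelStar v vs w)
    ∂sphereMeasure

theorem measurable_Qg_integrand {Φ : R3 → R3 → ℝ≥0∞}
    (hΦ : Measurable fun q : R3 × R3 => Φ q.1 q.2) (v : R3) :
    Measurable fun q : R3 × R3 =>
      ENNReal.ofReal |inner ℝ (v - q.1) q.2| * Φ (postVel v q.1 q.2) (postVelStar v q.1 q.2) := by
  have h1 : Measurable fun q : R3 × R3 => (postVel v q.1 q.2, postVelStar v q.1 q.2) := by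
    unfold postVel postVelStar
    fun_prop
  exact Measurable.mul (by fun_prop) (hΦ.comp h1)

theorem measurable_Qg_slice {Φ : R3 → R3 → ℝ≥0∞}
    (hΦ : Measurable fun q : R3 × R3 => Φ q.1 q.2) (v w : R3) :
    Measurable fun vs : R3 =>
      ENNReal.ofReal |inner ℝ (v - vs) w| * Φ (postVel v vs w) (postVelStar v vs w) := by
  have h1 : Measurable fun vs : R3 => (postVel v vs w, postVelStar v vs w) := by
    unfold postVel postVelStar
    fun_prop
  have h2 := hΦ.comp h1
  exact Measurable.mul (by fun_prop) h2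

theorem measurable_Qg_slice' {Φ : R3 → R3 → ℝ≥0∞}
    (hΦ : Measurable fun q : R3 × R3 => Φ q.1 q.2) (v vs : R3) :
    Measurable fun w : R3 =>
      ENNReal.ofReal |inner ℝ (v - vs) w| * Φ (postVel v vs w) (postVelStar v vs w) := by
  have h1 : Measurable fun w : R3 => (postVel v vs w, postVelStar v vs w) := by
    unfold postVel postVelStar
    fun_prop
  have h2 := hΦ.comp h1
  exact Measurable.mul (by fun_prop) h2

theorem Qg_gain_dir {Φ : R3 → R3 → ℝ≥0∞} (hΦ : Measurable fun q : R3 × R3 => Φ q.1 q.2) (v : R3)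
    {w : R3} (hw : ‖w‖ = 1) :
    ∫⁻ vs, ENNReal.ofReal |inner ℝ (v - vs) w| * Φ (postVel v vs w) (postVelStar v vs w)
      = ∫⁻ s : ℝ, ENNReal.ofReal |s| * planeInt (Φ (v + s • w)) v w := by
  have hm : Measurable fun vs : R3 =>
      ENNReal.ofReal |inner ℝ (v - vs) w| * Φ (postVel v vs w) (postVelStar v vs w) :=
    measurable_Qg_slice hΦ v w
  rw [lintegral_frame (rot w) v hm]
  refine lintegral_congr fun s => ?_
  have hin : ∀ p : ℝ × ℝ, (inner ℝ (v - (v + rot w (vec3 p.1 p.2 s))) w : ℝ) = -s := by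
    intro p
    have h1 : v - (v + rot w (vec3 p.1 p.2 s)) = - rot w (vec3 p.1 p.2 s) := by abel
    have h2 : (inner ℝ (rot w (vec3 p.1 p.2 s)) w : ℝ) = s := by
      have h3 := inner_rot w (vec3 p.1 p.2 s) ez
      rw [rot_ez hw] at h3
      rw [h3, real_inner_comm, inner_ez, vec3_two]
    rw [h1, inner_neg_left, h2]
  have hp : ∀ p : ℝ × ℝ, v + rot w (vec3 p.1 p.2 s) + (-s) • w = v + rot w (vec3 p.1 p.2 0) := by
    intro p
    have h : (-s) • w = rot w ((-s) • ez) := by rw [map_smul, rot_ez hw]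
    rw [add_assoc, h, ← map_add]
    congr 2
    apply vec3_ext <;> simp [ez]
  have hval : ∀ p : ℝ × ℝ, ENNReal.ofReal |inner ℝ (v - (v + rot w (vec3 p.1 p.2 s))) w| *
      Φ (postVel v (v + rot w (vec3 p.1 p.2 s)) w) (postVelStar v (v + rot w (vec3 p.1 p.2 s)) w)
      = ENNReal.ofReal |s| * Φ (v + s • w) (v + rot w (vec3 p.1 p.2 0)) := by
    intro p
    rw [postVel, postVelStar, hin, abs_neg, hp, neg_smul, sub_neg_eq_add]
  simp_rw [hval]
  rw [lintegral_const_mul, planeInt]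
  have hB : Measurable fun p : ℝ × ℝ => (v + s • w, v + rot w (vec3 p.1 p.2 0)) := by
    refine measurable_const.prodMk (measurable_const.add ?_)
    exact (rot w).continuous.measurable.comp (by fun_prop)
  exact hΦ.comp hB

/-- **Carleman representation**, general function of the incoming pair -/
theorem Qg_carleman {Φ : R3 → R3 → ℝ≥0∞} (hΦ : Measurable fun q : R3 × R3 => Φ q.1 q.2) (v : R3) :
    Qg Φ v = 2 * ∫⁻ z, ENNReal.ofReal ‖z‖⁻¹ * planeInt (Φ (v + z)) v (‖z‖⁻¹ • z) := by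
  have hm := measurable_Qg_integrand hΦ v
  unfold Qg
  rw [lintegral_lintegral_swap hm.aemeasurable]
  have h1 : ∫⁻ w, (∫⁻ vs, ENNReal.ofReal |inner ℝ (v - vs) w| * Φ (postVel v vs w)
        (postVelStar v vs w)) ∂sphereMeasure
      = ∫⁻ w, (∫⁻ s : ℝ, ENNReal.ofReal |s| * planeInt (Φ (v + s • w)) v w) ∂sphereMeasure := by
    refine lintegral_congr_ae ?_
    filter_upwards [ae_sphereMeasure] with w hw
    exact Qg_gain_dir hΦ v hw
  rw [h1]
  -- joint measurability of the plane integral in all parameters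
  have hP3 : Measurable fun q : R3 × R3 => planeInt (Φ (v + q.1)) v q.2 := by
    have hA : Measurable fun q : (R3 × R3) × (ℝ × ℝ) => (q.1.2, vec3 q.2.1 q.2.2 0) := by fun_prop
    have hB : Measurable fun q : (R3 × R3) × (ℝ × ℝ) => rot q.1.2 (vec3 q.2.1 q.2.2 0) :=
      measurable_rot.comp hA
    have hC : Measurable fun q : (R3 × R3) × (ℝ × ℝ) =>
        (v + q.1.1, v + rot q.1.2 (vec3 q.2.1 q.2.2 0)) :=
      Measurable.prodMk (by fun_prop) (measurable_const.add hB)
    have h1 : Measurable fun q : (R3 × R3) × (ℝ × ℝ) =>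
        Φ (v + q.1.1) (v + rot q.1.2 (vec3 q.2.1 q.2.2 0)) := hΦ.comp hC
    exact h1.lintegral_prod_right' (ν := (volume : Measure (ℝ × ℝ)))
  have hslice : ∀ a : R3, Measurable (Φ a) := fun a => hΦ.comp (measurable_const.prodMk measurable_id)
  have hmp : Measurable fun q : R3 × ℝ =>
      ENNReal.ofReal q.2 * planeInt (Φ (v + q.2 • q.1)) v q.1 := by
    apply Measurable.mul (by fun_prop)
    exact hP3.comp (Measurable.prodMk (by fun_prop) measurable_fst)
  set A : R3 → ℝ≥0∞ := fun w =>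
    ∫⁻ s in Ioi (0 : ℝ), ENNReal.ofReal s * planeInt (Φ (v + s • w)) v w with hA
  have hAm : Measurable A := by
    rw [hA]; exact hmp.lintegral_prod_right'
  have h2 : ∫⁻ w, (∫⁻ s : ℝ, ENNReal.ofReal |s| * planeInt (Φ (v + s • w)) v w) ∂sphereMeasure
      = ∫⁻ w, (A w + A (-w)) ∂sphereMeasure := by
    refine lintegral_congr_ae ?_
    filter_upwards [ae_sphereMeasure] with w hw
    have e1 : ∫⁻ s in Ioi (0 : ℝ), ENNReal.ofReal |s| * planeInt (Φ (v + s • w)) v w = A w := by
      rw [hA]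
      refine setLIntegral_congr_fun (measurableSet_Ioi (a := (0 : ℝ))) fun s hs => ?_
      beta_reduce
      rw [abs_of_pos hs]
    have e2 : ∫⁻ s in Ioi (0 : ℝ), ENNReal.ofReal |(-s)| * planeInt (Φ (v + (-s) • w)) v w
        = A (-w) := by
      rw [hA]
      refine setLIntegral_congr_fun (measurableSet_Ioi (a := (0 : ℝ))) fun s hs => ?_
      beta_reduce
      rw [abs_neg, abs_of_pos hs, planeInt_neg (hslice _) v hw, neg_smul, smul_neg]
    rw [lintegral_line_split, e1, e2]
  rw [h2, lintegral_add_left hAm, lintegral_sphere_neg hAm, ← two_mul]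
  congr 1
  have hmz : Measurable fun z : R3 => ENNReal.ofReal ‖z‖⁻¹ * planeInt (Φ (v + z)) v (‖z‖⁻¹ • z) := by
    apply Measurable.mul (by fun_prop)
    exact hP3.comp (Measurable.prodMk measurable_id (by fun_prop))
  rw [lintegral_polar' hmz]
  refine lintegral_congr_ae ?_
  filter_upwards [ae_sphereMeasure] with w hw
  refine setLIntegral_congr_fun measurableSet_Ioi fun r hr => ?_
  beta_reduce
  have hr0 : (0 : ℝ) < r := hr
  have hn : ‖r • w‖ = r := by rw [norm_smul, hw, Real.norm_of_nonneg hr0.le, mul_one]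
  rw [hn, smul_smul, inv_mul_cancel₀ hr0.ne', one_smul, ← mul_assoc, ← ENNReal.ofReal_mul (by positivity)]
  congr 2
  field_simp

/-- exchange symmetry of the gain integral -/
theorem Qg_swap {Φ : R3 → R3 → ℝ≥0∞} (hΦ : Measurable fun q : R3 × R3 => Φ q.1 q.2) (v : R3) :
    Qg (fun a b => Φ b a) v = Qg Φ v := by
  unfold Qg
  refine lintegral_congr fun vs => ?_
  have e1 : ∀ Ψ : R3 → R3 → ℝ≥0∞, Measurable (fun q : R3 × R3 => Ψ q.1 q.2) →
      ∫⁻ w, ENNReal.ofReal |inner ℝ (v - vs) w| * Ψ (postVel v vs w) (postVelStar v vs w)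
        ∂sphereMeasure
      = ENNReal.ofReal (‖v - vs‖ / 2) *
        ∫⁻ s, Ψ (v - (1 / 2 : ℝ) • ((v - vs) + ‖v - vs‖ • s))
          (vs + (1 / 2 : ℝ) • ((v - vs) + ‖v - vs‖ • s)) ∂sphereMeasure := by
    intro Ψ hΨ
    exact lintegral_sigma (v - vs) (F := fun a => Ψ (v - a) (vs + a))
      (hΨ.comp (Measurable.prodMk (by fun_prop) (by fun_prop)))
  have hs : Measurable fun q : R3 × R3 => Φ q.2 q.1 :=
    hΦ.comp (measurable_snd.prodMk measurable_fst)
  rw [e1 (fun a b => Φ b a) hs, e1 _ hΦ]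
  congr 1
  have hm : Measurable fun s : R3 => Φ (v - (1 / 2 : ℝ) • ((v - vs) + ‖v - vs‖ • s))
          (vs + (1 / 2 : ℝ) • ((v - vs) + ‖v - vs‖ • s)) :=
    hΦ.comp (Measurable.prodMk (by fun_prop) (by fun_prop))
  rw [← lintegral_sphere_neg hm]
  refine lintegral_congr fun s => ?_
  congr 1 <;> module

theorem Qp_eq_Qg (f g : R3 → ℝ≥0∞) (v : R3) : Qp f g v = Qg (fun a b => f a * g b) v := by
  unfold Qp Qg
  simp_rw [mul_assoc]

theorem Qp_comm {f g : R3 → ℝ≥0∞} (hf : Measurable f) (hg : Measurable g) (v : R3) :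
    Qp f g v = Qp g f v := by
  rw [Qp_eq_Qg, Qp_eq_Qg]
  rw [← Qg_swap (Φ := fun a b => f a * g b)
    ((hf.comp measurable_fst).mul (hg.comp measurable_snd))]
  simp_rw [mul_comm]

theorem Qg_mono {Φ Ψ : R3 → R3 → ℝ≥0∞} (h : ∀ a b, Φ a b ≤ Ψ a b) (v : R3) : Qg Φ v ≤ Qg Ψ v := by
  unfold Qg
  gcongr with vs w
  exact h _ _

theorem Qg_add {Φ Ψ : R3 → R3 → ℝ≥0∞} (hΦ : Measurable fun q : R3 × R3 => Φ q.1 q.2) (v : R3) :
    Qg (fun a b => Φ a b + Ψ a b) v = Qg Φ v + Qg Ψ v := by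
  unfold Qg
  have hm := measurable_Qg_integrand hΦ v
  rw [← lintegral_add_left]
  · refine lintegral_congr fun vs => ?_
    rw [← lintegral_add_left]
    · refine lintegral_congr fun w => ?_
      rw [mul_add]
    · exact measurable_Qg_slice' hΦ v vs
  · exact hm.lintegral_prod_right'

end Crest.Agent.R68.WK
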