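import Mathlib
import Crest.Agent.R68.WK1

/-!
R68 / WK2 (helper330, Part W): power singularities in velocity space and plane integrals of
`(1+‖b‖)^m e^{-‖b‖}` with poles.
-/

set_option autoImplicit false
open MeasureTheory Set Metric Submodule
open scoped ENNReal Real NNReal
open Crest.AnalysisR.VecCalc3 Crest.AnalysisR.PDE.Boltzmann

namespace Crest.Agent.R68.WK

attribute [local irreducible] rot vec3

/-- `‖x‖^{-a}` in `[0,∞]` (`⊤` at `0` for `a > 0`) -/
noncomputable def kp (a : ℝ) (x : R3) : ℝ≥0∞ := (ENNReal.ofReal ‖x‖) ^ (-a)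

@[fun_prop]
theorem measurable_kp (a : ℝ) : Measurable (kp a) := by
  unfold kp; fun_prop

theorem kp_neg (a : ℝ) (x : R3) : kp a (-x) = kp a x := by
  unfold kp; rw [norm_neg]

theorem kp_sub_comm (a : ℝ) (x y : R3) : kp a (x - y) = kp a (y - x) := by
  unfold kp; rw [norm_sub_rev]

theorem kp_anti {a : ℝ} (ha : 0 ≤ a) {x y : R3} (h : ‖x‖ ≤ ‖y‖) : kp a y ≤ kp a x := by
  unfold kp
  rw [ENNReal.rpow_neg, ENNReal.rpow_neg]
  exact ENNReal.inv_le_inv.2 (ENNReal.rpow_le_rpow (ENNReal.ofReal_le_ofReal h) ha)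

theorem kp_le_kp {a b : ℝ} (hab : a ≤ b) {x : R3} (hx : ‖x‖ ≤ 1) : kp a x ≤ kp b x := by
  unfold kp
  refine ENNReal.rpow_le_rpow_of_exponent_ge ?_ (by linarith)
  exact ENNReal.ofReal_le_one.2 hx

theorem kp_le_one {a : ℝ} (ha : 0 ≤ a) {x : R3} (hx : 1 ≤ ‖x‖) : kp a x ≤ 1 := by
  unfold kp
  calc (ENNReal.ofReal ‖x‖) ^ (-a) ≤ (ENNReal.ofReal ‖x‖) ^ (0 : ℝ) :=
        ENNReal.rpow_le_rpow_of_exponent_le (ENNReal.one_le_ofReal.2 hx) (by linarith)
    _ = 1 := ENNReal.rpow_zero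

theorem kp_mul_self {a b : ℝ} (ha : 0 < a) (hb : 0 < b) (x : R3) :
    kp a x * kp b x = kp (a + b) x := by
  unfold kp
  by_cases hx : x = 0
  · subst hx
    simp only [norm_zero, ENNReal.ofReal_zero]
    rw [ENNReal.zero_rpow_of_neg (by linarith), ENNReal.zero_rpow_of_neg (by linarith),
      ENNReal.zero_rpow_of_neg (by linarith)]
    simp
  · rw [← ENNReal.rpow_add _ _ (by simpa using hx) ENNReal.ofReal_ne_top]
    congr 1
    ring

/-- the standard singularity -/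
noncomputable def sing (x : R3) : ℝ≥0∞ := (ball (0 : R3) 1).indicator (kp (11 / 4)) x

@[fun_prop]
theorem measurable_sing : Measurable sing := (measurable_kp _).indicator measurableSet_ball

theorem kp_le_sing {a : ℝ} (ha : 0 ≤ a) (ha' : a ≤ 11 / 4) (x : R3) : kp a x ≤ 1 + sing x := by
  by_cases hx : ‖x‖ < 1
  · have : sing x = kp (11 / 4) x := by
      unfold sing
      rw [indicator_of_mem]; simpa using hx
    rw [this]
    exact (kp_le_kp ha' hx.le).trans le_add_self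
  · exact (kp_le_one ha (not_lt.1 hx)).trans le_self_add

theorem kp_mul_kp_le {a b : ℝ} (ha : 0 < a) (hb : 0 < b) (hab : a + b ≤ 11 / 4) (x y : R3) :
    kp a x * kp b y ≤ 1 + sing x + sing y := by
  rcases le_total ‖x‖ ‖y‖ with h | h
  · calc kp a x * kp b y ≤ kp a x * kp b x := mul_le_mul_right (kp_anti hb.le h) _
      _ = kp (a + b) x := kp_mul_self ha hb x
      _ ≤ 1 + sing x := kp_le_sing (by linarith) hab x
      _ ≤ _ := le_self_add
  · calc kp a x * kp b y ≤ kp a y * kp b y := mul_le_mul_left (kp_anti ha.le h) _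
      _ = kp (a + b) y := kp_mul_self ha hb y
      _ ≤ 1 + sing y := kp_le_sing (by linarith) hab y
      _ ≤ _ := by rw [add_right_comm]; exact le_self_add

theorem inv_norm_le_kp (x : R3) : ENNReal.ofReal ‖x‖⁻¹ ≤ kp 1 x := by
  unfold kp
  rw [ENNReal.rpow_neg_one]
  by_cases hx : x = 0
  · subst hx; simp
  · rw [ENNReal.ofReal_inv_of_pos (norm_pos_iff.2 hx)]

theorem lintegral_rpow_Ioo {b : ℝ} (hb : -1 < b) :
    ∫⁻ r in Ioo (0 : ℝ) 1, ENNReal.ofReal (r ^ b) = ENNReal.ofReal (1 / (b + 1)) := by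
  rw [← ofReal_integral_eq_lintegral_ofReal]
  · congr 1
    rw [← integral_Ioc_eq_integral_Ioo, ← intervalIntegral.integral_of_le zero_le_one,
      integral_rpow (Or.inl hb)]
    simp [Real.zero_rpow (by linarith : b + 1 ≠ 0)]
  · have := (intervalIntegral.intervalIntegrable_rpow' (a := 0) (b := 1) hb)
    rw [intervalIntegrable_iff_integrableOn_Ioo_of_le zero_le_one] at this
    exact this
  · refine (ae_restrict_iff' measurableSet_Ioo).2 (Filter.Eventually.of_forall fun r hr => ?_)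
    exact Real.rpow_nonneg hr.1.le _

theorem lintegral_sing_lt_top : ∫⁻ x, sing x < ⊤ := by
  rw [lintegral_polar measurable_sing]
  have h : ∀ r ∈ Ioi (0 : ℝ), ENNReal.ofReal (r ^ 2) * ∫⁻ w, sing (r • w) ∂sphereMeasure
      = (Ioo (0 : ℝ) 1).indicator (fun r => ENNReal.ofReal (r ^ (-(3 / 4) : ℝ))) r *
        ENNReal.ofReal (4 * π) := by
    intro r hr
    have hr0 : (0 : ℝ) < r := hr
    by_cases h1 : r < 1
    · rw [indicator_of_mem (show r ∈ Ioo (0 : ℝ) 1 from ⟨hr0, h1⟩)]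
      have e : ∫⁻ w, sing (r • w) ∂sphereMeasure
          = ∫⁻ _, (ENNReal.ofReal r) ^ (-(11 / 4) : ℝ) ∂sphereMeasure := by
        refine lintegral_congr_ae ?_
        filter_upwards [ae_sphereMeasure] with w hw
        have hn : ‖r • w‖ = r := by rw [norm_smul, hw, Real.norm_of_nonneg hr0.le, mul_one]
        unfold sing
        rw [indicator_of_mem (by simpa [hn] using h1)]
        unfold kp
        rw [hn]
      rw [e, lintegral_const, sphereMeasure_univ, ← mul_assoc]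
      congr 1
      rw [ENNReal.ofReal_rpow_of_pos hr0, ← ENNReal.ofReal_mul (by positivity)]
      congr 1
      rw [← Real.rpow_natCast r 2, ← Real.rpow_add hr0]
      norm_num
    · rw [indicator_of_notMem (fun h => h1 h.2), zero_mul]
      have e : ∫⁻ w, sing (r • w) ∂sphereMeasure = ∫⁻ _, 0 ∂sphereMeasure := by
        refine lintegral_congr_ae ?_
        filter_upwards [ae_sphereMeasure] with w hw
        have hn : ‖r • w‖ = r := by rw [norm_smul, hw, Real.norm_of_nonneg hr0.le, mul_one]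
        unfold sing
        rw [indicator_of_notMem]
        simpa [hn] using h1
      rw [e, lintegral_zero, mul_zero]
  rw [setLIntegral_congr_fun measurableSet_Ioi h]
  rw [lintegral_mul_const' _ _ ENNReal.ofReal_ne_top]
  refine ENNReal.mul_lt_top ?_ ENNReal.ofReal_lt_top
  rw [lintegral_indicator measurableSet_Ioo]
  have h2 : ∫⁻ r in Ioo (0 : ℝ) 1, ENNReal.ofReal (r ^ (-(3 / 4) : ℝ)) ∂(volume.restrict (Ioi 0))
      ≤ ∫⁻ r in Ioo (0 : ℝ) 1, ENNReal.ofReal (r ^ (-(3 / 4) : ℝ)) := by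
    refine lintegral_mono' ?_ le_rfl
    exact Measure.restrict_mono_measure Measure.restrict_le_self _
  refine h2.trans_lt ?_
  rw [lintegral_rpow_Ioo (by norm_num)]
  exact ENNReal.ofReal_lt_top

/-! ### plane integrals -/

theorem norm_rot_vec (w : R3) (a b c : ℝ) : ‖rot w (vec3 a b c)‖ = √(a ^ 2 + b ^ 2 + c ^ 2) := by
  rw [norm_rot, norm_vec3]

/-- radial functions on planes -/
theorem planeInt_radial {F : ℝ → ℝ≥0∞} (hF : Measurable F) (v : R3) {w : R3} (hw : ‖w‖ = 1) :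
    planeInt (fun b => F ‖b‖) v w
      = ENNReal.ofReal (2 * π) * ∫⁻ r in Ioi |(inner ℝ v w : ℝ)|, ENNReal.ofReal r * F r := by
  set q : R3 := rot w v with hq
  have hv : v = rot w q := by rw [hq, rot_rot]
  have hd : (inner ℝ v w : ℝ) = q 2 := by
    have h3 := inner_rot w v w
    rw [rot_self hw, ← hq] at h3
    rw [← h3, real_inner_comm, inner_ez]
  set d : ℝ := |(inner ℝ v w : ℝ)| with hdd
  have hd0 : 0 ≤ d := abs_nonneg _
  have hd2 : q 2 ^ 2 = d ^ 2 := by rw [hdd, hd, sq_abs]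
  unfold planeInt
  have h1 : ∀ p : ℝ × ℝ, ‖v + rot w (vec3 p.1 p.2 0)‖
      = √((q 0 + p.1) ^ 2 + (q 1 + p.2) ^ 2 + d ^ 2) := by
    intro p
    conv_lhs => rw [hv, ← map_add]
    rw [norm_rot]
    conv_lhs => rw [← vec3_eta q]
    rw [vec3_add, norm_vec3, add_zero, hd2]
  simp_rw [h1]
  have h2 : ∫⁻ p : ℝ × ℝ, F (√((q 0 + p.1) ^ 2 + (q 1 + p.2) ^ 2 + d ^ 2))
      = ∫⁻ p : ℝ × ℝ, F (√(p.1 ^ 2 + p.2 ^ 2 + d ^ 2)) :=
    lintegral_add_left_eq_self (μ := (volume : Measure (ℝ × ℝ)))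
      (fun p : ℝ × ℝ => F (√(p.1 ^ 2 + p.2 ^ 2 + d ^ 2))) (q 0, q 1)
  rw [h2, lintegral_polar2 (by fun_prop)]
  have h3 : ∀ r ∈ Ioi (0 : ℝ), ∫⁻ φ in Ioo (-π) π, ENNReal.ofReal r *
      F (√((r * Real.cos φ) ^ 2 + (r * Real.sin φ) ^ 2 + d ^ 2))
      = ENNReal.ofReal (2 * π) * (ENNReal.ofReal r * F (√(r ^ 2 + d ^ 2))) := by
    intro r _
    have : ∀ φ : ℝ, (r * Real.cos φ) ^ 2 + (r * Real.sin φ) ^ 2 = r ^ 2 := by
      intro φ
      have := Real.sin_sq_add_cos_sq φ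
      calc _ = r ^ 2 * (Real.sin φ ^ 2 + Real.cos φ ^ 2) := by ring
        _ = r ^ 2 := by rw [this, mul_one]
    simp_rw [this]
    rw [lintegral_const, Measure.restrict_apply_univ, volume_Ioo_pi, mul_comm]
  rw [setLIntegral_congr_fun measurableSet_Ioi h3, lintegral_const_mul _ (by fun_prop)]
  congr 1
  -- substitution `ρ = √(r²+d²)`
  have himg : (fun r : ℝ => √(r ^ 2 + d ^ 2)) '' Ioi 0 = Ioi d := by
    ext ρ
    simp only [mem_image, mem_Ioi]
    constructor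
    · rintro ⟨r, hr, rfl⟩
      rw [Real.lt_sqrt hd0]
      nlinarith
    · intro hρ
      refine ⟨√(ρ ^ 2 - d ^ 2), Real.sqrt_pos.2 (by nlinarith), ?_⟩
      rw [Real.sq_sqrt (by nlinarith), sub_add_cancel, Real.sqrt_sq (by linarith)]
  rw [← himg]
  have hder : ∀ r ∈ Ioi (0 : ℝ), HasDerivWithinAt (fun r : ℝ => √(r ^ 2 + d ^ 2))
      (r / √(r ^ 2 + d ^ 2)) (Ioi 0) r := by
    intro r hr
    have hr0 : (0 : ℝ) < r := hr
    have hpos : 0 < r ^ 2 + d ^ 2 := by positivity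
    have h := ((hasDerivAt_pow 2 r).add_const (d ^ 2)).sqrt hpos.ne'
    refine h.hasDerivWithinAt.congr_deriv ?_
    have h0 : √(r ^ 2 + d ^ 2) ≠ 0 := (Real.sqrt_pos.2 hpos).ne'
    have h2 : (2 * √(r ^ 2 + d ^ 2)) ≠ 0 := mul_ne_zero two_ne_zero h0
    rw [div_eq_div_iff h2 h0]
    push_cast
    ring
  have hinj : InjOn (fun r : ℝ => √(r ^ 2 + d ^ 2)) (Ioi 0) := by
    intro a ha b hb hab
    have ha0 : (0 : ℝ) < a := ha
    have hb0 : (0 : ℝ) < b := hb
    have h : a ^ 2 + d ^ 2 = b ^ 2 + d ^ 2 := by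
      have := congrArg (fun x => x ^ 2) hab
      simp only at this
      rwa [Real.sq_sqrt (by positivity), Real.sq_sqrt (by positivity)] at this
    nlinarith [sq_nonneg (a - b), sq_nonneg (a + b)]
  rw [lintegral_image_eq_lintegral_abs_deriv_mul measurableSet_Ioi hder hinj]
  refine setLIntegral_congr_fun measurableSet_Ioi fun r hr => ?_
  have hr0 : (0 : ℝ) < r := hr
  have hpos : 0 < √(r ^ 2 + d ^ 2) := Real.sqrt_pos.2 (by positivity)
  beta_reduce
  rw [← mul_assoc, ← ENNReal.ofReal_mul (abs_nonneg _), abs_of_pos (by positivity)]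
  congr 2
  field_simp

/-- the plane constant of a `3/2`-pole -/
noncomputable def cpl : ℝ≥0∞ :=
  ∫⁻ p : ℝ × ℝ, {p : ℝ × ℝ | √(p.1 ^ 2 + p.2 ^ 2) < 1}.indicator
    (fun p => (ENNReal.ofReal √(p.1 ^ 2 + p.2 ^ 2)) ^ (-(3 / 2) : ℝ)) p

theorem cpl_lt_top : cpl < ⊤ := by
  unfold cpl
  have hms : MeasurableSet {p : ℝ × ℝ | √(p.1 ^ 2 + p.2 ^ 2) < 1} :=
    measurableSet_lt (by fun_prop) measurable_const
  rw [lintegral_polar2 (by
    apply Measurable.indicator _ hms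
    fun_prop)]
  have h3 : ∀ r ∈ Ioi (0 : ℝ), ∫⁻ φ in Ioo (-π) π, ENNReal.ofReal r *
      {p : ℝ × ℝ | √(p.1 ^ 2 + p.2 ^ 2) < 1}.indicator
      (fun p => (ENNReal.ofReal √(p.1 ^ 2 + p.2 ^ 2)) ^ (-(3 / 2) : ℝ))
        (r * Real.cos φ, r * Real.sin φ)
      = ENNReal.ofReal (2 * π) *
        (Ioo (0 : ℝ) 1).indicator (fun r => ENNReal.ofReal (r ^ (-(1 / 2) : ℝ))) r := by
    intro r hr
    have hr0 : (0 : ℝ) < r := hr
    have hc : ∀ φ : ℝ, √((r * Real.cos φ) ^ 2 + (r * Real.sin φ) ^ 2) = r := by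
      intro φ
      have := Real.sin_sq_add_cos_sq φ
      rw [show (r * Real.cos φ) ^ 2 + (r * Real.sin φ) ^ 2
        = r ^ 2 * (Real.sin φ ^ 2 + Real.cos φ ^ 2) by ring, this, mul_one, Real.sqrt_sq hr0.le]
    by_cases h1 : r < 1
    · have e : ∀ φ : ℝ, ENNReal.ofReal r * {p : ℝ × ℝ | √(p.1 ^ 2 + p.2 ^ 2) < 1}.indicator
          (fun p => (ENNReal.ofReal √(p.1 ^ 2 + p.2 ^ 2)) ^ (-(3 / 2) : ℝ))
          (r * Real.cos φ, r * Real.sin φ) = ENNReal.ofReal (r ^ (-(1 / 2) : ℝ)) := by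
        intro φ
        rw [indicator_of_mem (by simpa [hc φ] using h1)]
        rw [hc φ, ENNReal.ofReal_rpow_of_pos hr0, ← ENNReal.ofReal_mul hr0.le]
        congr 1
        nth_rewrite 1 [← Real.rpow_one r]
        rw [← Real.rpow_add hr0]
        norm_num
      simp_rw [e]
      rw [lintegral_const, Measure.restrict_apply_univ, volume_Ioo_pi, mul_comm,
        indicator_of_mem (show r ∈ Ioo (0 : ℝ) 1 from ⟨hr0, h1⟩)]
    · have e : ∀ φ : ℝ, ENNReal.ofReal r * {p : ℝ × ℝ | √(p.1 ^ 2 + p.2 ^ 2) < 1}.indicator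
          (fun p => (ENNReal.ofReal √(p.1 ^ 2 + p.2 ^ 2)) ^ (-(3 / 2) : ℝ))
          (r * Real.cos φ, r * Real.sin φ) = 0 := by
        intro φ
        rw [indicator_of_notMem (by simpa [hc φ] using h1), mul_zero]
      simp_rw [e]
      rw [lintegral_zero, indicator_of_notMem (fun h => h1 h.2), mul_zero]
  rw [setLIntegral_congr_fun measurableSet_Ioi h3, lintegral_const_mul' _ _ ENNReal.ofReal_ne_top]
  refine ENNReal.mul_lt_top ENNReal.ofReal_lt_top ?_
  rw [lintegral_indicator measurableSet_Ioo]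
  have h2 : ∫⁻ r in Ioo (0 : ℝ) 1, ENNReal.ofReal (r ^ (-(1 / 2) : ℝ)) ∂(volume.restrict (Ioi 0))
      ≤ ∫⁻ r in Ioo (0 : ℝ) 1, ENNReal.ofReal (r ^ (-(1 / 2) : ℝ)) := by
    refine lintegral_mono' ?_ le_rfl
    exact Measure.restrict_mono_measure Measure.restrict_le_self _
  refine h2.trans_lt ?_
  rw [lintegral_rpow_Ioo (by norm_num)]
  exact ENNReal.ofReal_lt_top

/-- local part of a `3/2`-pole at `u` -/
noncomputable def pole (u b : R3) : ℝ≥0∞ := (ball (0 : R3) 1).indicator (kp (3 / 2)) (b - u)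

theorem measurable_pole (u : R3) : Measurable (pole u) :=
  ((measurable_kp _).indicator measurableSet_ball).comp (by fun_prop)

theorem kp_le_pole (u b : R3) : kp (3 / 2) (b - u) ≤ 1 + pole u b := by
  unfold pole
  by_cases hx : ‖b - u‖ < 1
  · rw [indicator_of_mem (by simpa using hx)]; exact le_add_self
  · exact (kp_le_one (by norm_num) (not_lt.1 hx)).trans le_self_add

theorem planeInt_pole_le (u v : R3) (w : R3) : planeInt (pole u) v w ≤ cpl := by
  set q : R3 := rot w (v - u) with hq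
  have hv : v - u = rot w q := by rw [hq, rot_rot]
  have h1 : ∀ p : ℝ × ℝ, pole u (v + rot w (vec3 p.1 p.2 0)) ≤
      {p : ℝ × ℝ | √(p.1 ^ 2 + p.2 ^ 2) < 1}.indicator
      (fun p => (ENNReal.ofReal √(p.1 ^ 2 + p.2 ^ 2)) ^ (-(3 / 2) : ℝ))
        ((q 0, q 1) + p) := by
    intro p
    have e : v + rot w (vec3 p.1 p.2 0) - u = rot w (q + vec3 p.1 p.2 0) := by
      rw [map_add, ← hv]; abel
    have hn : ‖rot w (q + vec3 p.1 p.2 0)‖ = √((q 0 + p.1) ^ 2 + (q 1 + p.2) ^ 2 + q 2 ^ 2) := by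
      rw [norm_rot]
      conv_lhs => rw [← vec3_eta q]
      rw [vec3_add, norm_vec3, add_zero]
    have hle : √((q 0 + p.1) ^ 2 + (q 1 + p.2) ^ 2) ≤ ‖rot w (q + vec3 p.1 p.2 0)‖ := by
      rw [hn]
      exact Real.sqrt_le_sqrt (by nlinarith [sq_nonneg (q 2)])
    unfold pole
    rw [e]
    by_cases hx : ‖rot w (q + vec3 p.1 p.2 0)‖ < 1
    · rw [indicator_of_mem (by simpa using hx), indicator_of_mem]
      · unfold kp
        simp only [Prod.fst_add, Prod.snd_add]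
        rw [ENNReal.rpow_neg, ENNReal.rpow_neg]
        exact ENNReal.inv_le_inv.2 (ENNReal.rpow_le_rpow (ENNReal.ofReal_le_ofReal hle) (by norm_num))
      · show √((q 0 + p.1) ^ 2 + (q 1 + p.2) ^ 2) < 1
        exact hle.trans_lt hx
    · rw [indicator_of_notMem (by simpa using hx)]
      exact bot_le
  unfold planeInt cpl
  refine (lintegral_mono h1).trans ?_
  exact (lintegral_add_left_eq_self (μ := (volume : Measure (ℝ × ℝ))) _ (q 0, q 1)).le

/-- points of the plane through `v` orthogonal to `w` are at distance at least `|⟨v,w⟩|` -/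
theorem plane_norm_ge (v : R3) {w : R3} (hw : ‖w‖ = 1) (p : ℝ × ℝ) :
    |(inner ℝ v w : ℝ)| ≤ ‖v + rot w (vec3 p.1 p.2 0)‖ := by
  have h2 : (inner ℝ (rot w (vec3 p.1 p.2 0)) w : ℝ) = 0 := by
    have h3 := inner_rot w (vec3 p.1 p.2 0) ez
    rw [rot_ez hw] at h3
    rw [h3, real_inner_comm, inner_ez, vec3_two]
  have h4 : (inner ℝ v w : ℝ) = inner ℝ (v + rot w (vec3 p.1 p.2 0)) w := by
    rw [inner_add_left, h2, add_zero]
  rw [h4]
  calc _ ≤ ‖v + rot w (vec3 p.1 p.2 0)‖ * ‖w‖ := abs_real_inner_le_norm _ _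
    _ = _ := by rw [hw, mul_one]

end Crest.Agent.R68.WK
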