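import Mathlib
import Crest.Agent.R68.WK2

/-!
R68 / WK3 (helper330, Part W, (W1)): collisional estimates in the class
`E(v) = (1+‖v‖)^m e^{-‖v‖} (1 + κ ∑_{u∈U} ‖v-u‖^{-3/2})`, `κ · #U ≤ 1`.
-/

set_option autoImplicit false
open MeasureTheory Set Metric Submodule
open scoped ENNReal Real NNReal
open Crest.AnalysisR.VecCalc3 Crest.AnalysisR.PDE.Boltzmann

namespace Crest.Agent.R68.WK

attribute [local irreducible] rot vec3

/-- exponential weight with polynomial factor -/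
noncomputable def ew (m : ℕ) (v : R3) : ℝ≥0∞ := ENNReal.ofReal ((1 + ‖v‖) ^ m * Real.exp (-‖v‖))

/-- the poles -/
noncomputable def Sp (κ : ℝ≥0∞) (U : Finset R3) (v : R3) : ℝ≥0∞ :=
  1 + κ * ∑ u ∈ U, kp (3 / 2) (v - u)

/-- the class -/
noncomputable def Ep (m : ℕ) (κ : ℝ≥0∞) (U : Finset R3) (v : R3) : ℝ≥0∞ := ew m v * Sp κ U v

@[fun_prop]
theorem measurable_ew (m : ℕ) : Measurable (ew m) := by unfold ew; fun_prop

@[fun_prop]
theorem measurable_Sp (κ : ℝ≥0∞) (U : Finset R3) : Measurable (Sp κ U) := by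
  have h : Measurable fun v : R3 => ∑ u ∈ U, kp (3 / 2) (v - u) :=
    Finset.measurable_sum _ fun u _ => (measurable_kp _).comp (by fun_prop)
  exact (h.const_mul κ).const_add 1

@[fun_prop]
theorem measurable_Ep (m : ℕ) (κ : ℝ≥0∞) (U : Finset R3) : Measurable (Ep m κ U) := by
  unfold Ep; fun_prop

/-! ### one-dimensional integrals -/

theorem pow_le_fact_exp (n : ℕ) {x : ℝ} (hx : 0 ≤ x) : x ^ n ≤ n.factorial * Real.exp x := by
  have := Real.pow_div_factorial_le_exp x hx n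
  rwa [div_le_iff₀' (by positivity)] at this

theorem poly_exp_le (n : ℕ) {τ : ℝ} (hτ : 0 ≤ τ) :
    (1 + τ) ^ n * Real.exp (-τ) ≤ n.factorial * Real.exp 1 := by
  have h := pow_le_fact_exp n (x := 1 + τ) (by positivity)
  calc (1 + τ) ^ n * Real.exp (-τ) ≤ (n.factorial * Real.exp (1 + τ)) * Real.exp (-τ) := by
        gcongr
    _ = n.factorial * Real.exp 1 := by
        rw [mul_assoc, ← Real.exp_add]; congr 2; ring

theorem poly_exp_le' (n : ℕ) {x : ℝ} (hx : 0 ≤ x) :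
    (1 + 2 * x) ^ n * Real.exp (-(x / 2)) ≤ (8 ^ n * n.factorial * Real.exp 1) * Real.exp (-(x / 4)) := by
  have h := pow_le_fact_exp n (x := (1 + 2 * x) / 8) (by positivity)
  have h1 : (1 + 2 * x) ^ n = 8 ^ n * ((1 + 2 * x) / 8) ^ n := by
    rw [← mul_pow]; congr 1; ring
  have h2 : Real.exp ((1 + 2 * x) / 8) ≤ Real.exp 1 * Real.exp (x / 4) := by
    rw [← Real.exp_add]; apply Real.exp_le_exp.2; linarith
  calc (1 + 2 * x) ^ n * Real.exp (-(x / 2))
      ≤ (8 ^ n * (n.factorial * (Real.exp 1 * Real.exp (x / 4)))) * Real.exp (-(x / 2)) := by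
        rw [h1]
        gcongr
        exact h.trans (by gcongr)
    _ = _ := by
        rw [show Real.exp (-(x / 4)) = Real.exp (x / 4) * Real.exp (-(x / 2)) by
          rw [← Real.exp_add]; congr 1; ring]
        ring

/-- `∫_0^∞ (1+τ)^n e^{-τ}` -/
noncomputable def JJ (n : ℕ) : ℝ≥0∞ :=
  ∫⁻ τ in Ioi (0 : ℝ), ENNReal.ofReal ((1 + τ) ^ n * Real.exp (-τ))

theorem lintegral_exp_Ioi {β : ℝ} (hβ : 0 < β) :
    ∫⁻ τ in Ioi (0 : ℝ), ENNReal.ofReal (Real.exp (-(β * τ))) < ⊤ := by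
  have h : IntegrableOn (fun τ : ℝ => Real.exp (-(β * τ))) (Ioi 0) := by
    have := integrableOn_exp_mul_Ioi (a := -β) (by linarith) 0
    simpa [neg_mul] using this
  exact h.lintegral_lt_top

theorem JJ_lt_top (n : ℕ) : JJ n < ⊤ := by
  unfold JJ
  have h : ∀ τ ∈ Ioi (0 : ℝ), ENNReal.ofReal ((1 + τ) ^ n * Real.exp (-τ)) ≤
      ENNReal.ofReal (2 ^ n * n.factorial * Real.exp 1) *
        ENNReal.ofReal (Real.exp (-(1 / 2 * τ))) := by
    intro τ hτ
    have hτ0 : (0 : ℝ) < τ := hτ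
    rw [← ENNReal.ofReal_mul (by positivity)]
    apply ENNReal.ofReal_le_ofReal
    have h := pow_le_fact_exp n (x := (1 + τ) / 2) (by positivity)
    have h1 : (1 + τ) ^ n = 2 ^ n * ((1 + τ) / 2) ^ n := by
      rw [← mul_pow]; congr 1; ring
    have h2 : Real.exp ((1 + τ) / 2) ≤ Real.exp 1 * Real.exp (τ / 2) := by
      rw [← Real.exp_add]; apply Real.exp_le_exp.2; linarith
    calc (1 + τ) ^ n * Real.exp (-τ)
        ≤ (2 ^ n * (n.factorial * (Real.exp 1 * Real.exp (τ / 2)))) * Real.exp (-τ) := by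
          rw [h1]
          gcongr
          exact h.trans (by gcongr)
      _ = _ := by
          rw [show Real.exp (-(1 / 2 * τ)) = Real.exp (τ / 2) * Real.exp (-τ) by
            rw [← Real.exp_add]; congr 1; ring]
          ring
  refine (setLIntegral_mono' measurableSet_Ioi h).trans_lt ?_
  rw [lintegral_const_mul' _ _ ENNReal.ofReal_ne_top]
  exact ENNReal.mul_lt_top ENNReal.ofReal_lt_top (lintegral_exp_Ioi (by norm_num))

theorem exp_shift (m : ℕ) {D ρ : ℝ} (hD : 0 ≤ D) (h : D ≤ ρ) :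
    (1 + ρ) ^ m * Real.exp (-ρ) ≤
      ((1 + D) ^ m * Real.exp (-D)) * ((1 + (ρ - D)) ^ m * Real.exp (-(ρ - D))) := by
  have h1 : 1 + ρ ≤ (1 + D) * (1 + (ρ - D)) := by nlinarith
  have h2 : Real.exp (-ρ) = Real.exp (-D) * Real.exp (-(ρ - D)) := by
    rw [← Real.exp_add]; congr 1; ring
  calc (1 + ρ) ^ m * Real.exp (-ρ)
      ≤ ((1 + D) * (1 + (ρ - D))) ^ m * Real.exp (-ρ) := by gcongr; linarith
    _ = _ := by rw [h2, mul_pow]; ring

theorem exp_sup (m : ℕ) {D ρ : ℝ} (hD : 0 ≤ D) (h : D ≤ ρ) :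
    (1 + ρ) ^ m * Real.exp (-ρ) ≤
      ((1 + D) ^ m * Real.exp (-D)) * (m.factorial * Real.exp 1) := by
  refine (exp_shift m hD h).trans ?_
  exact mul_le_mul_of_nonneg_left (poly_exp_le m (by linarith)) (by positivity)

/-- truncated radial integral -/
theorem radial_tail (m : ℕ) {d D' : ℝ} (hd : 0 ≤ d) :
    ∫⁻ r in Ioi d, ENNReal.ofReal r *
        (Ici D').indicator (fun ρ => ENNReal.ofReal ((1 + ρ) ^ m * Real.exp (-ρ))) r
      ≤ ENNReal.ofReal ((1 + max d D') ^ (m + 1) * Real.exp (-(max d D'))) * JJ (m + 1) := by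
  set D := max d D' with hDdef
  have hD0 : 0 ≤ D := hd.trans (le_max_left _ _)
  set G : ℝ → ℝ≥0∞ := fun τ =>
    (Ici (0 : ℝ)).indicator (fun τ => ENNReal.ofReal ((1 + τ) ^ (m + 1) * Real.exp (-τ))) τ with hG
  have h1 : ∀ r ∈ Ioi d, ENNReal.ofReal r *
        (Ici D').indicator (fun ρ => ENNReal.ofReal ((1 + ρ) ^ m * Real.exp (-ρ))) r
      ≤ ENNReal.ofReal ((1 + D) ^ (m + 1) * Real.exp (-D)) * G (r - D) := by
    intro r hr
    have hr' : d < r := hr
    by_cases h : D' ≤ r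
    · have hDr : D ≤ r := max_le hr'.le h
      have hr0 : 0 ≤ r := hD0.trans hDr
      rw [indicator_of_mem (show r ∈ Ici D' from h), hG]
      beta_reduce
      rw [indicator_of_mem (show r - D ∈ Ici (0 : ℝ) from sub_nonneg.2 hDr),
        ← ENNReal.ofReal_mul hr0, ← ENNReal.ofReal_mul (by positivity)]
      apply ENNReal.ofReal_le_ofReal
      refine le_trans ?_ (exp_shift (m + 1) hD0 hDr)
      have : r ≤ 1 + r := by linarith
      calc r * ((1 + r) ^ m * Real.exp (-r)) ≤ (1 + r) * ((1 + r) ^ m * Real.exp (-r)) := by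
            gcongr
        _ = _ := by ring
    · rw [indicator_of_notMem (show r ∉ Ici D' from h), mul_zero]
      exact bot_le
  refine (setLIntegral_mono' measurableSet_Ioi h1).trans ?_
  rw [lintegral_const_mul' _ _ ENNReal.ofReal_ne_top]
  gcongr
  calc ∫⁻ r in Ioi d, G (r - D) ≤ ∫⁻ r : ℝ, G (r - D) := setLIntegral_le_lintegral _ _
    _ = ∫⁻ r : ℝ, G r := lintegral_sub_right_eq_self G D
    _ = JJ (m + 1) := by
        rw [hG]
        rw [lintegral_indicator measurableSet_Ici]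
        unfold JJ
        exact setLIntegral_congr Ioi_ae_eq_Ici.symm

/-! ### plane integrals of the class -/

/-- constant of `planeInt_Ep_le` -/
noncomputable def Cpl (m : ℕ) : ℝ≥0∞ :=
  2 * (ENNReal.ofReal (2 * π) * JJ (m + 1)) + ENNReal.ofReal (m.factorial * Real.exp 1) * cpl

theorem Cpl_lt_top (m : ℕ) : Cpl m < ⊤ := by
  unfold Cpl
  refine ENNReal.add_lt_top.2 ⟨?_, ENNReal.mul_lt_top ENNReal.ofReal_lt_top cpl_lt_top⟩
  exact ENNReal.mul_lt_top (by norm_num) (ENNReal.mul_lt_top ENNReal.ofReal_lt_top (JJ_lt_top _))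

theorem Sp_le {κ : ℝ≥0∞} {U : Finset R3} (hκ : κ * U.card ≤ 1) (b : R3) :
    Sp κ U b ≤ 2 + κ * ∑ u ∈ U, pole u b := by
  unfold Sp
  calc 1 + κ * ∑ u ∈ U, kp (3 / 2) (b - u) ≤ 1 + κ * ∑ u ∈ U, (1 + pole u b) := by
        gcongr with u hu
        exact kp_le_pole u b
    _ = 1 + (κ * U.card + κ * ∑ u ∈ U, pole u b) := by
        rw [Finset.sum_add_distrib, Finset.sum_const, nsmul_eq_mul, mul_one, mul_add]
    _ ≤ 1 + (1 + κ * ∑ u ∈ U, pole u b) := by gcongr
    _ = _ := by rw [← add_assoc, one_add_one_eq_two]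

theorem planeInt_Ep_le (m : ℕ) {κ : ℝ≥0∞} {U : Finset R3} (hκ : κ * U.card ≤ 1) (v : R3) {w : R3}
    (hw : ‖w‖ = 1) (D' : ℝ) :
    planeInt ({b : R3 | D' ≤ ‖b‖}.indicator (Ep m κ U)) v w
      ≤ Cpl m * ENNReal.ofReal ((1 + max |(inner ℝ v w : ℝ)| D') ^ (m + 1) *
        Real.exp (-(max |(inner ℝ v w : ℝ)| D'))) := by
  set d : ℝ := |(inner ℝ v w : ℝ)| with hd
  set D : ℝ := max d D' with hD
  have hd0 : 0 ≤ d := abs_nonneg _
  have hD0 : 0 ≤ D := hd0.trans (le_max_left _ _)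
  set F : ℝ → ℝ≥0∞ := fun r =>
    (Ici D').indicator (fun ρ => ENNReal.ofReal ((1 + ρ) ^ m * Real.exp (-ρ))) r with hF
  have hFm : Measurable F := by
    rw [hF]; exact Measurable.indicator (by fun_prop) measurableSet_Ici
  set K : ℝ≥0∞ := ENNReal.ofReal ((1 + D) ^ m * Real.exp (-D) * (m.factorial * Real.exp 1)) with hK
  -- pointwise bound on the plane
  have h1 : ∀ p : ℝ × ℝ, {b : R3 | D' ≤ ‖b‖}.indicator (Ep m κ U) (v + rot w (vec3 p.1 p.2 0))
      ≤ 2 * F ‖v + rot w (vec3 p.1 p.2 0)‖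
        + K * (κ * ∑ u ∈ U, pole u (v + rot w (vec3 p.1 p.2 0))) := by
    intro p
    set b := v + rot w (vec3 p.1 p.2 0) with hb
    have hdb : d ≤ ‖b‖ := plane_norm_ge v hw p
    by_cases h : D' ≤ ‖b‖
    · rw [indicator_of_mem (show b ∈ {b : R3 | D' ≤ ‖b‖} from h), hF]
      beta_reduce
      rw [indicator_of_mem (show ‖b‖ ∈ Ici D' from h)]
      unfold Ep
      have hDb : D ≤ ‖b‖ := max_le hdb h
      calc ew m b * Sp κ U b ≤ ew m b * (2 + κ * ∑ u ∈ U, pole u b) := by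
            gcongr; exact Sp_le hκ b
        _ = 2 * ew m b + ew m b * (κ * ∑ u ∈ U, pole u b) := by ring
        _ ≤ _ := by
            gcongr
            · rfl
            · unfold ew
              rw [hK]
              exact ENNReal.ofReal_le_ofReal (exp_sup m hD0 hDb)
    · rw [indicator_of_notMem (show b ∉ {b : R3 | D' ≤ ‖b‖} from h)]
      exact bot_le
  have hB : Measurable fun p : ℝ × ℝ => v + rot w (vec3 p.1 p.2 0) :=
    measurable_const.add ((rot w).continuous.measurable.comp (by fun_prop))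
  have hpm : ∀ u, Measurable fun p : ℝ × ℝ => pole u (v + rot w (vec3 p.1 p.2 0)) :=
    fun u => (measurable_pole u).comp hB
  have hFB : Measurable fun p : ℝ × ℝ => F ‖v + rot w (vec3 p.1 p.2 0)‖ :=
    hFm.comp (measurable_norm.comp hB)
  have hsum : Measurable fun p : ℝ × ℝ => ∑ u ∈ U, pole u (v + rot w (vec3 p.1 p.2 0)) :=
    Finset.measurable_sum _ fun u _ => hpm u
  have hlast : K * (κ * ∑ u ∈ U, cpl) ≤ (ENNReal.ofReal ((1 + D) ^ (m + 1) * Real.exp (-D)) *
          ENNReal.ofReal (m.factorial * Real.exp 1)) * cpl := by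
    calc K * (κ * ∑ u ∈ U, cpl) = K * ((κ * U.card) * cpl) := by
          rw [Finset.sum_const, nsmul_eq_mul, mul_assoc]
      _ ≤ K * (1 * cpl) := by gcongr
      _ = K * cpl := by rw [one_mul]
      _ ≤ _ := by
          gcongr
          rw [hK, ← ENNReal.ofReal_mul (by positivity)]
          apply ENNReal.ofReal_le_ofReal
          have : (1 + D) ^ m ≤ (1 + D) ^ (m + 1) := pow_le_pow_right₀ (by linarith) (Nat.le_succ m)
          gcongr
  calc planeInt ({b : R3 | D' ≤ ‖b‖}.indicator (Ep m κ U)) v w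
      ≤ ∫⁻ p : ℝ × ℝ, (2 * F ‖v + rot w (vec3 p.1 p.2 0)‖
        + K * (κ * ∑ u ∈ U, pole u (v + rot w (vec3 p.1 p.2 0)))) := lintegral_mono h1
    _ = 2 * planeInt (fun b => F ‖b‖) v w + K * (κ * ∑ u ∈ U, planeInt (pole u) v w) := by
        rw [lintegral_add_left (hFB.const_mul 2), lintegral_const_mul _ hFB,
          lintegral_const_mul _ (hsum.const_mul κ), lintegral_const_mul _ hsum,
          lintegral_finsetSum _ fun u _ => hpm u]
        rfl
    _ ≤ 2 * (ENNReal.ofReal (2 * π) * (ENNReal.ofReal ((1 + D) ^ (m + 1) * Real.exp (-D)) *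
          JJ (m + 1))) + K * (κ * ∑ u ∈ U, cpl) := by
        gcongr with u hu
        · rw [planeInt_radial hFm v hw]
          gcongr
          exact radial_tail m hd0
        · exact planeInt_pole_le u v w
    _ ≤ 2 * (ENNReal.ofReal (2 * π) * (ENNReal.ofReal ((1 + D) ^ (m + 1) * Real.exp (-D)) *
          JJ (m + 1))) + (ENNReal.ofReal ((1 + D) ^ (m + 1) * Real.exp (-D)) *
          ENNReal.ofReal (m.factorial * Real.exp 1)) * cpl := by
        exact add_le_add le_rfl hlast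
    _ = _ := by
        unfold Cpl
        ring

end Crest.Agent.R68.WK
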