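import Mathlib
import Crest.Agent.R68.WK3

/-!
R68 / WK4 (helper330, Part W, (W1)): gain, loss and interpolation estimates in the class
`Ep m κ U v = (1+‖v‖)^m e^{-‖v‖} (1 + κ ∑_{u∈U} ‖v-u‖^{-3/2})`, `κ · #U ≤ 1`.
-/

set_option autoImplicit false
open MeasureTheory Set Metric Submodule
open scoped ENNReal Real NNReal
open Crest.AnalysisR.VecCalc3 Crest.AnalysisR.PDE.Boltzmann

namespace Crest.Agent.R68.WK

attribute [local irreducible] rot vec3

theorem lintegral_exp_norm_lt_top {β : ℝ} (hβ : 0 < β) :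
    ∫⁻ y : R3, ENNReal.ofReal (Real.exp (-(β * ‖y‖))) < ⊤ := by
  rw [lintegral_polar (by fun_prop)]
  have h : ∀ r ∈ Ioi (0 : ℝ), ENNReal.ofReal (r ^ 2) *
      ∫⁻ w, ENNReal.ofReal (Real.exp (-(β * ‖r • w‖))) ∂sphereMeasure
      ≤ ENNReal.ofReal (4 * π * ((2 / β) ^ 2 * 2)) * ENNReal.ofReal (Real.exp (-(β / 2 * r))) := by
    intro r hr
    have hr0 : (0 : ℝ) < r := hr
    have e : ∫⁻ w, ENNReal.ofReal (Real.exp (-(β * ‖r • w‖))) ∂sphereMeasure
        = ∫⁻ _, ENNReal.ofReal (Real.exp (-(β * r))) ∂sphereMeasure := by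
      refine lintegral_congr_ae ?_
      filter_upwards [ae_sphereMeasure] with w hw
      have hn : ‖r • w‖ = r := by rw [norm_smul, hw, Real.norm_of_nonneg hr0.le, mul_one]
      rw [hn]
    rw [e, lintegral_const, sphereMeasure_univ, ← ENNReal.ofReal_mul (by positivity),
      ← ENNReal.ofReal_mul (by positivity), ← ENNReal.ofReal_mul (by positivity)]
    apply ENNReal.ofReal_le_ofReal
    have h1 := pow_le_fact_exp 2 (x := β / 2 * r) (by positivity)
    have h2 : r ^ 2 = (2 / β) ^ 2 * (β / 2 * r) ^ 2 := by field_simp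
    have h3 : Real.exp (-(β / 2 * r)) = Real.exp (β / 2 * r) * Real.exp (-(β * r)) := by
      rw [← Real.exp_add]; congr 1; ring
    have h4 : ((2 : ℕ).factorial : ℝ) = 2 := by norm_num [Nat.factorial]
    rw [h4] at h1
    calc r ^ 2 * (Real.exp (-(β * r)) * (4 * π))
        = (4 * π) * ((2 / β) ^ 2 * (β / 2 * r) ^ 2) * Real.exp (-(β * r)) := by
          rw [← h2]; ring
      _ ≤ (4 * π) * ((2 / β) ^ 2 * (2 * Real.exp (β / 2 * r))) * Real.exp (-(β * r)) := by gcongr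
      _ = _ := by rw [h3]; ring
  refine (setLIntegral_mono' measurableSet_Ioi h).trans_lt ?_
  rw [lintegral_const_mul' _ _ ENNReal.ofReal_ne_top]
  exact ENNReal.mul_lt_top ENNReal.ofReal_lt_top (lintegral_exp_Ioi (by positivity))

/-- weight of the remaining integral -/
noncomputable def e4 (y : R3) : ℝ≥0∞ := ENNReal.ofReal (Real.exp (-(1 / 4 * ‖y‖)))

@[fun_prop]
theorem measurable_e4 : Measurable e4 := by unfold e4; fun_prop

theorem e4_le_one (y : R3) : e4 y ≤ 1 := by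
  unfold e4
  rw [ENNReal.ofReal_le_one, Real.exp_le_one_iff]
  have := norm_nonneg y
  linarith

/-- the universal integral -/
noncomputable def KI : ℝ≥0∞ := 4 * (∫⁻ y, e4 y) + 4 * (∫⁻ y, sing y)

theorem KI_lt_top : KI < ⊤ := by
  unfold KI
  refine ENNReal.add_lt_top.2 ⟨?_, ENNReal.mul_lt_top (by norm_num) lintegral_sing_lt_top⟩
  exact ENNReal.mul_lt_top (by norm_num) (lintegral_exp_norm_lt_top (by norm_num))

theorem sing_pt {a : ℝ} (ha : 0 < a) (ha' : a ≤ 5 / 4) {κ : ℝ≥0∞} {U : Finset R3}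
    (hκ : κ * U.card ≤ 1) (z y : R3) :
    (1 + kp a z) * Sp κ U y ≤ 4 + 2 * sing z + 2 * (κ * ∑ u ∈ U, sing (y - u)) := by
  unfold Sp
  calc (1 + kp a z) * (1 + κ * ∑ u ∈ U, kp (3 / 2) (y - u))
      = 1 + kp a z + κ * ∑ u ∈ U, (kp (3 / 2) (y - u) + kp a z * kp (3 / 2) (y - u)) := by
        rw [Finset.sum_add_distrib, ← Finset.mul_sum]; ring
    _ ≤ 1 + (1 + sing z) + κ * ∑ u ∈ U, ((1 + sing (y - u)) + (1 + sing z + sing (y - u))) := by
        gcongr with u hu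
        · exact kp_le_sing ha.le (by linarith) z
        · exact kp_le_sing (by norm_num) (by norm_num) _
        · exact kp_mul_kp_le ha (by norm_num) (by linarith) _ _
    _ = 2 + sing z + (κ * U.card) * (2 + sing z) + 2 * (κ * ∑ u ∈ U, sing (y - u)) := by
        have : ∀ u ∈ U, (1 + sing (y - u)) + (1 + sing z + sing (y - u))
            = (2 + sing z) + 2 * sing (y - u) := by
          intro u _; ring
        rw [Finset.sum_congr rfl this, Finset.sum_add_distrib, Finset.sum_const, nsmul_eq_mul,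
          ← Finset.mul_sum]
        ring
    _ ≤ 2 + sing z + 1 * (2 + sing z) + 2 * (κ * ∑ u ∈ U, sing (y - u)) := by gcongr
    _ = _ := by ring

theorem key_int {a : ℝ} (ha : 0 < a) (ha' : a ≤ 5 / 4) {κ : ℝ≥0∞} {U : Finset R3}
    (hκ : κ * U.card ≤ 1) (v : R3) :
    ∫⁻ z, (1 + kp a z) * (e4 (v + z) * Sp κ U (v + z)) ≤ KI := by
  have hs : ∀ u : R3, Measurable fun z : R3 => sing (v + z - u) :=
    fun u => measurable_sing.comp (by fun_prop)
  have hsum : Measurable fun z : R3 => ∑ u ∈ U, sing (v + z - u) :=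
    Finset.measurable_sum _ fun u _ => hs u
  have he : Measurable fun z : R3 => e4 (v + z) := measurable_e4.comp (by fun_prop)
  calc ∫⁻ z, (1 + kp a z) * (e4 (v + z) * Sp κ U (v + z))
      ≤ ∫⁻ z, (4 * e4 (v + z) + (2 * sing z + 2 * (κ * ∑ u ∈ U, sing (v + z - u)))) := by
        refine lintegral_mono fun z => ?_
        calc (1 + kp a z) * (e4 (v + z) * Sp κ U (v + z))
            = e4 (v + z) * ((1 + kp a z) * Sp κ U (v + z)) := by ring
          _ ≤ e4 (v + z) * (4 + 2 * sing z + 2 * (κ * ∑ u ∈ U, sing (v + z - u))) := by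
              gcongr
              exact sing_pt ha ha' hκ z (v + z)
          _ = 4 * e4 (v + z) + e4 (v + z) * (2 * sing z + 2 * (κ * ∑ u ∈ U, sing (v + z - u))) := by
              ring
          _ ≤ 4 * e4 (v + z) + 1 * (2 * sing z + 2 * (κ * ∑ u ∈ U, sing (v + z - u))) := by
              gcongr
              exact e4_le_one _
          _ = _ := by rw [one_mul]
    _ = 4 * (∫⁻ y, e4 y) + (2 * (∫⁻ z, sing z) + 2 * (κ * ∑ u ∈ U, ∫⁻ z, sing z)) := by
        rw [lintegral_add_left (he.const_mul 4), lintegral_const_mul _ he,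
          lintegral_add_left (measurable_sing.const_mul 2), lintegral_const_mul _ measurable_sing,
          lintegral_const_mul _ (hsum.const_mul κ), lintegral_const_mul _ hsum,
          lintegral_finsetSum _ fun u _ => hs u, lintegral_add_left_eq_self e4 v]
        congr 4
        refine Finset.sum_congr rfl fun u (_ : u ∈ U) => ?_
        have : (fun z : R3 => sing (v + z - u)) = fun z => sing ((v - u) + z) := by
          funext z; congr 1; abel
        rw [this]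
        exact lintegral_add_left_eq_self sing (v - u)
    _ ≤ 4 * (∫⁻ y, e4 y) + (2 * (∫⁻ z, sing z) + 2 * (1 * ∫⁻ z, sing z)) := by
        have h : κ * ∑ u ∈ U, ∫⁻ z, sing z ≤ 1 * ∫⁻ z, sing z := by
          rw [Finset.sum_const, nsmul_eq_mul, ← mul_assoc]
          gcongr
        gcongr
    _ = KI := by
        unfold KI
        ring

/-! ### geometry of the Carleman planes -/

theorem norm_le_of_plane {v z w : R3} (hz : z = ‖z‖ • w) :
    ‖v‖ ≤ max |(inner ℝ v w : ℝ)| ‖v + z‖ + ‖v + z‖ / 2 := by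
  set D := max |(inner ℝ v w : ℝ)| ‖v + z‖ with hD
  have hi : (inner ℝ v z : ℝ) = ‖z‖ * inner ℝ v w := by
    conv_lhs => rw [hz]
    rw [real_inner_smul_right]
  have h1 : ‖v + z‖ ^ 2 = ‖v‖ ^ 2 + 2 * (‖z‖ * inner ℝ v w) + ‖z‖ ^ 2 := by
    rw [norm_add_sq_real, hi]
  have h2 : |(inner ℝ v w : ℝ)| ≤ D := le_max_left _ _
  have h3 : ‖v + z‖ ≤ D := le_max_right _ _
  have h4 : (inner ℝ v w : ℝ) ^ 2 ≤ D ^ 2 := by
    rw [← sq_abs]; gcongr
  have h5 : ‖v‖ ^ 2 ≤ D ^ 2 + ‖v + z‖ ^ 2 := by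
    have : ‖v‖ ^ 2 = (inner ℝ v w : ℝ) ^ 2 + ‖v + z‖ ^ 2 - ((inner ℝ v w : ℝ) + ‖z‖) ^ 2 := by
      rw [h1]; ring
    nlinarith [sq_nonneg ((inner ℝ v w : ℝ) + ‖z‖)]
  have h0 : 0 ≤ ‖v + z‖ := norm_nonneg _
  have hD0 : 0 ≤ D := h0.trans h3
  refine (pow_le_pow_iff_left₀ (norm_nonneg v) (by positivity) two_ne_zero).1 ?_
  nlinarith

/-- constant of `geo_bound` -/
noncomputable def cm (m : ℕ) : ℝ := 8 ^ (2 * m + 1) * (2 * m + 1).factorial * Real.exp 1

theorem cm_nonneg (m : ℕ) : 0 ≤ cm m := by unfold cm; positivity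

theorem geo_bound (m : ℕ) {v z w : R3} (hw : ‖w‖ = 1) (hz : z = ‖z‖ • w) (hz0 : 0 < ‖z‖) :
    ‖z‖⁻¹ * ((1 + ‖v + z‖) ^ m * Real.exp (-‖v + z‖)) *
        ((1 + max |(inner ℝ v w : ℝ)| ‖v + z‖) ^ (m + 1) *
          Real.exp (-(max |(inner ℝ v w : ℝ)| ‖v + z‖)))
      ≤ ((1 + ‖v‖) ^ m * Real.exp (-‖v‖)) * ((1 + ‖z‖⁻¹) *
        (cm m * Real.exp (-(1 / 4 * ‖v + z‖)))) := by
  have ha := norm_le_of_plane (v := v) hz
  set D := max |(inner ℝ v w : ℝ)| ‖v + z‖ with hD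
  set y := ‖v + z‖ with hy
  have hy0 : 0 ≤ y := norm_nonneg _
  have hv0 : 0 ≤ ‖v‖ := norm_nonneg _
  have hD0 : 0 ≤ D := hy0.trans (le_max_right _ _)
  have hb : D ≤ ‖v‖ + y := by
    refine max_le ?_ (by linarith)
    calc |(inner ℝ v w : ℝ)| ≤ ‖v‖ * ‖w‖ := abs_real_inner_le_norm _ _
      _ ≤ ‖v‖ + y := by rw [hw, mul_one]; linarith
  have hvz : ‖v‖ ≤ y + ‖z‖ := by
    calc ‖v‖ = ‖(v + z) - z‖ := by congr 1; abel
      _ ≤ _ := norm_sub_le _ _
  have hi0 : 0 < ‖z‖⁻¹ := inv_pos.2 hz0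
  have h1 : (1 + D) ^ m ≤ ((1 + ‖v‖) * (1 + 2 * y)) ^ m := by
    gcongr
    nlinarith
  have h2 : ‖z‖⁻¹ * (1 + D) ≤ (1 + 2 * y) * (1 + ‖z‖⁻¹) := by
    have : 1 + D ≤ (1 + 2 * y) + ‖z‖ := by linarith
    calc ‖z‖⁻¹ * (1 + D) ≤ ‖z‖⁻¹ * ((1 + 2 * y) + ‖z‖) := by gcongr
      _ = ‖z‖⁻¹ * (1 + 2 * y) + 1 := by rw [mul_add, inv_mul_cancel₀ hz0.ne']
      _ ≤ _ := by nlinarith
  have h3 : (1 + y) ^ m ≤ (1 + 2 * y) ^ m := by
    gcongr; linarith
  have h4 : Real.exp (-y) * Real.exp (-D) ≤ Real.exp (-‖v‖) * Real.exp (-(y / 2)) := by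
    rw [← Real.exp_add, ← Real.exp_add]
    apply Real.exp_le_exp.2; linarith
  have h5 := poly_exp_le' (2 * m + 1) hy0
  calc ‖z‖⁻¹ * ((1 + y) ^ m * Real.exp (-y)) * ((1 + D) ^ (m + 1) * Real.exp (-D))
      = ((1 + y) ^ m * (1 + D) ^ m) * (‖z‖⁻¹ * (1 + D)) * (Real.exp (-y) * Real.exp (-D)) := by
        rw [pow_succ]; ring
    _ ≤ ((1 + 2 * y) ^ m * ((1 + ‖v‖) * (1 + 2 * y)) ^ m) * ((1 + 2 * y) * (1 + ‖z‖⁻¹)) *
        (Real.exp (-‖v‖) * Real.exp (-(y / 2))) := by gcongr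
    _ = ((1 + ‖v‖) ^ m * Real.exp (-‖v‖)) * ((1 + ‖z‖⁻¹) *
        ((1 + 2 * y) ^ (2 * m + 1) * Real.exp (-(y / 2)))) := by
        rw [mul_pow, pow_succ, two_mul m, pow_add]; ring
    _ ≤ ((1 + ‖v‖) ^ m * Real.exp (-‖v‖)) * ((1 + ‖z‖⁻¹) *
        ((8 ^ (2 * m + 1) * (2 * m + 1).factorial * Real.exp 1) * Real.exp (-(y / 4)))) := by
        gcongr
    _ = _ := by
        unfold cm
        congr 4; ring_nf

theorem norm_inv_smul_self {z : R3} (hz : z ≠ 0) : ‖‖z‖⁻¹ • z‖ = 1 := by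
  rw [norm_smul, norm_inv, norm_norm, inv_mul_cancel₀ (norm_ne_zero_iff.2 hz)]

theorem eq_norm_smul {z : R3} (hz : z ≠ 0) : z = ‖z‖ • (‖z‖⁻¹ • z) := by
  rw [smul_smul, mul_inv_cancel₀ (norm_ne_zero_iff.2 hz), one_smul]

theorem planeInt_const_mul {g : R3 → ℝ≥0∞} (hg : Measurable g) (c : ℝ≥0∞) (v w : R3) :
    planeInt (fun b => c * g b) v w = c * planeInt g v w := by
  unfold planeInt
  refine lintegral_const_mul _ (hg.comp ?_)
  exact measurable_const.add ((rot w).continuous.measurable.comp (by fun_prop))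

/-- constant of the gain estimate -/
noncomputable def CQ (m : ℕ) : ℝ≥0∞ := 4 * (Cpl m * ENNReal.ofReal (cm m) * KI)

theorem CQ_lt_top (m : ℕ) : CQ m < ⊤ := by
  unfold CQ
  exact ENNReal.mul_lt_top (by norm_num)
    (ENNReal.mul_lt_top (ENNReal.mul_lt_top (Cpl_lt_top m) ENNReal.ofReal_lt_top) KI_lt_top)

/-- **(W1a)** gain of the class: no growth factor -/
theorem Qp_Ep_le (m : ℕ) {κ : ℝ≥0∞} {U : Finset R3} (hκ : κ * U.card ≤ 1) (v : R3) :
    Qp (Ep m κ U) (Ep m κ U) v ≤ CQ m * ew m v := by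
  classical
  set E := Ep m κ U with hE
  have hEm : Measurable E := measurable_Ep m κ U
  set Φ : R3 → R3 → ℝ≥0∞ := fun a b => E a * {b : R3 | ‖a‖ ≤ ‖b‖}.indicator E b with hΦ
  have hΦm : Measurable fun q : R3 × R3 => Φ q.1 q.2 := by
    have h1 : Measurable fun q : R3 × R3 =>
        {q : R3 × R3 | ‖q.1‖ ≤ ‖q.2‖}.indicator (fun q => E q.2) q :=
      (hEm.comp measurable_snd).indicator (measurableSet_le (by fun_prop) (by fun_prop))
    exact (hEm.comp measurable_fst).mul h1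
  have hle : ∀ a b, E a * E b ≤ Φ a b + Φ b a := by
    intro a b
    rcases le_total ‖a‖ ‖b‖ with h | h
    · have : Φ a b = E a * E b := by
        rw [hΦ]; beta_reduce; rw [indicator_of_mem (show b ∈ {b : R3 | ‖a‖ ≤ ‖b‖} from h)]
      rw [this]; exact le_self_add
    · have : Φ b a = E a * E b := by
        rw [hΦ]; beta_reduce; rw [indicator_of_mem (show a ∈ {a : R3 | ‖b‖ ≤ ‖a‖} from h), mul_comm]
      rw [this]; exact le_add_self
  have h1 : Qp E E v ≤ 2 * Qg Φ v := by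
    rw [Qp_eq_Qg]
    calc Qg (fun a b => E a * E b) v ≤ Qg (fun a b => Φ a b + Φ b a) v := Qg_mono hle v
      _ = Qg Φ v + Qg (fun a b => Φ b a) v := Qg_add hΦm v
      _ = 2 * Qg Φ v := by rw [Qg_swap hΦm]; ring
  refine h1.trans ?_
  rw [Qg_carleman hΦm]
  have h2 : ∀ᵐ z : R3, ENNReal.ofReal ‖z‖⁻¹ * planeInt (Φ (v + z)) v (‖z‖⁻¹ • z) ≤
      (Cpl m * ENNReal.ofReal (cm m) * ew m v) *
        ((1 + kp 1 z) * (e4 (v + z) * Sp κ U (v + z))) := by
    filter_upwards [compl_mem_ae_iff.2 (measure_singleton (0 : R3))] with z hz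
    have hz' : z ≠ 0 := hz
    have hz0 : 0 < ‖z‖ := norm_pos_iff.2 hz'
    set w : R3 := ‖z‖⁻¹ • z with hw
    have hw1 : ‖w‖ = 1 := norm_inv_smul_self hz'
    have hzw : z = ‖z‖ • w := eq_norm_smul hz'
    have e1 : planeInt (Φ (v + z)) v w
        = E (v + z) * planeInt ({b : R3 | ‖v + z‖ ≤ ‖b‖}.indicator E) v w := by
      rw [← planeInt_const_mul]
      exact hEm.indicator (measurableSet_le measurable_const measurable_norm)
    rw [e1]
    have e2 := planeInt_Ep_le m hκ v hw1 ‖v + z‖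
    set D := max |(inner ℝ v w : ℝ)| ‖v + z‖ with hD
    have hg := geo_bound m hw1 hzw hz0 (v := v)
    rw [← hD] at hg
    calc ENNReal.ofReal ‖z‖⁻¹ * (E (v + z) *
          planeInt ({b : R3 | ‖v + z‖ ≤ ‖b‖}.indicator E) v w)
        ≤ ENNReal.ofReal ‖z‖⁻¹ * (E (v + z) * (Cpl m *
          ENNReal.ofReal ((1 + D) ^ (m + 1) * Real.exp (-D)))) := by gcongr
      _ = Cpl m * Sp κ U (v + z) * (ENNReal.ofReal ‖z‖⁻¹ * ew m (v + z) *
          ENNReal.ofReal ((1 + D) ^ (m + 1) * Real.exp (-D))) := by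
          rw [hE]; unfold Ep; ring
      _ ≤ Cpl m * Sp κ U (v + z) * (ew m v * ((1 + kp 1 z) *
          (ENNReal.ofReal (cm m) * e4 (v + z)))) := by
          refine mul_le_mul_right ?_ _
          unfold ew e4
          have hcm := cm_nonneg m
          rw [← ENNReal.ofReal_mul (by positivity), ← ENNReal.ofReal_mul (by positivity),
            ← ENNReal.ofReal_mul hcm]
          refine (ENNReal.ofReal_le_ofReal hg).trans ?_
          rw [ENNReal.ofReal_mul (by positivity)]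
          gcongr
          rw [ENNReal.ofReal_mul (by positivity : (0 : ℝ) ≤ 1 + ‖z‖⁻¹)]
          gcongr
          rw [ENNReal.ofReal_add zero_le_one (by positivity), ENNReal.ofReal_one]
          gcongr
          exact inv_norm_le_kp z
      _ = _ := by ring
  calc 2 * (2 * ∫⁻ z, ENNReal.ofReal ‖z‖⁻¹ * planeInt (Φ (v + z)) v (‖z‖⁻¹ • z))
      ≤ 2 * (2 * ∫⁻ z, (Cpl m * ENNReal.ofReal (cm m) * ew m v) *
        ((1 + kp 1 z) * (e4 (v + z) * Sp κ U (v + z)))) := by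
        gcongr 2 * (2 * ?_)
        exact lintegral_mono_ae h2
    _ = 2 * (2 * ((Cpl m * ENNReal.ofReal (cm m) * ew m v) *
        ∫⁻ z, ((1 + kp 1 z) * (e4 (v + z) * Sp κ U (v + z))))) := by
        rw [lintegral_const_mul]
        exact ((measurable_kp 1).const_add 1).mul
          ((measurable_e4.comp (by fun_prop)).mul ((measurable_Sp κ U).comp (by fun_prop)))
    _ ≤ 2 * (2 * ((Cpl m * ENNReal.ofReal (cm m) * ew m v) * KI)) := by
        gcongr
        exact key_int one_pos (by norm_num) hκ v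
    _ = _ := by unfold CQ; ring

end Crest.Agent.R68.WK
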