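import Mathlib
import Crest.Agent.R68.WK4

/-!
R68 / WK5 (helper330, Part W, (W1)): loss, moments, interpolation with `∫ f`, cold gain, Maxwellian.
-/

set_option autoImplicit false
open MeasureTheory Set Metric Submodule
open scoped ENNReal Real NNReal
open Crest.AnalysisR.VecCalc3 Crest.AnalysisR.PDE.Boltzmann

namespace Crest.Agent.R68.WK

attribute [local irreducible] rot vec3

/-! ### monotonicity, constants -/

theorem Qp_mono {f f' g g' : R3 → ℝ≥0∞} (hf : ∀ a, f a ≤ f' a) (hg : ∀ a, g a ≤ g' a) (v : R3) :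
    Qp f g v ≤ Qp f' g' v := by
  rw [Qp_eq_Qg, Qp_eq_Qg]
  exact Qg_mono (fun a b => mul_le_mul' (hf a) (hg b)) v

theorem Qp_const_mul_left (c : ℝ≥0∞) {f g : R3 → ℝ≥0∞} (hf : Measurable f) (hg : Measurable g)
    (v : R3) : Qp (fun a => c * f a) g v = c * Qp f g v := by
  have hm := measurable_Qg_integrand (Φ := fun a b => f a * g b)
    ((hf.comp measurable_fst).mul (hg.comp measurable_snd)) v
  rw [Qp_eq_Qg, Qp_eq_Qg]
  unfold Qg
  rw [← lintegral_const_mul _ hm.lintegral_prod_right']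
  refine lintegral_congr fun vs => ?_
  rw [← lintegral_const_mul _ (measurable_Qg_slice' (Φ := fun a b => f a * g b)
    ((hf.comp measurable_fst).mul (hg.comp measurable_snd)) v vs)]
  refine lintegral_congr fun w => ?_
  ring

theorem Qp_const_mul_right (c : ℝ≥0∞) {f g : R3 → ℝ≥0∞} (hf : Measurable f) (hg : Measurable g)
    (v : R3) : Qp f (fun a => c * g a) v = c * Qp f g v := by
  rw [Qp_comm hf (hg.const_mul c), Qp_const_mul_left c hg hf, Qp_comm hg hf]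

theorem Lc_eq (g : R3 → ℝ≥0∞) (v : R3) :
    Lc g v = ∫⁻ vs, ENNReal.ofReal (2 * π * ‖v - vs‖) * g vs := by
  unfold Lc
  refine lintegral_congr fun vs => ?_
  exact lintegral_abs_inner_mul _ _

/-- loss frequency through the first moment -/
theorem Lc_le_moment {g : R3 → ℝ≥0∞} (hg : Measurable g) (v : R3) :
    Lc g v ≤ ENNReal.ofReal (2 * π) * (ENNReal.ofReal (1 + ‖v‖) *
      ∫⁻ y, ENNReal.ofReal (1 + ‖y‖) * g y) := by
  rw [Lc_eq, ← lintegral_const_mul _ (by fun_prop), ← lintegral_const_mul _ (by fun_prop)]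
  refine lintegral_mono fun y => ?_
  rw [← mul_assoc, ← mul_assoc, ← ENNReal.ofReal_mul (by positivity),
    ← ENNReal.ofReal_mul (by positivity)]
  refine mul_le_mul' (ENNReal.ofReal_le_ofReal ?_) le_rfl
  have h := norm_sub_le v y
  have h1 := norm_nonneg v
  have h2 := norm_nonneg y
  have h3 : ‖v - y‖ ≤ (1 + ‖v‖) * (1 + ‖y‖) := by nlinarith
  calc 2 * π * ‖v - y‖ ≤ 2 * π * ((1 + ‖v‖) * (1 + ‖y‖)) := by gcongr
    _ = _ := by ring

/-! ### pointwise absorption -/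

theorem ew_absorb (k m : ℕ) (y : R3) :
    ENNReal.ofReal ((1 + ‖y‖) ^ k) * ew m y ≤
      ENNReal.ofReal (8 ^ (k + m) * (k + m).factorial * Real.exp 1) * (e4 y * e4 y) := by
  unfold ew e4
  rw [← ENNReal.ofReal_mul (by positivity), ← ENNReal.ofReal_mul (by positivity),
    ← ENNReal.ofReal_mul (by positivity)]
  apply ENNReal.ofReal_le_ofReal
  have hy : 0 ≤ ‖y‖ := norm_nonneg y
  have h := poly_exp_le' (k + m) hy
  have h1 : (1 + ‖y‖) ^ (k + m) ≤ (1 + 2 * ‖y‖) ^ (k + m) := by gcongr; linarith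
  have e1 : Real.exp (-‖y‖) = Real.exp (-(‖y‖ / 2)) * Real.exp (-(‖y‖ / 2)) := by
    rw [← Real.exp_add]; congr 1; ring
  have e2 : Real.exp (-(1 / 4 * ‖y‖)) * Real.exp (-(1 / 4 * ‖y‖)) = Real.exp (-(‖y‖ / 2)) := by
    rw [← Real.exp_add]; congr 1; ring
  have e3 : Real.exp (-(‖y‖ / 4)) ≤ 1 := by
    rw [Real.exp_le_one_iff]; linarith
  rw [e2]
  calc (1 + ‖y‖) ^ k * ((1 + ‖y‖) ^ m * Real.exp (-‖y‖))
      = ((1 + ‖y‖) ^ (k + m) * Real.exp (-(‖y‖ / 2))) * Real.exp (-(‖y‖ / 2)) := by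
        rw [e1, pow_add]; ring
    _ ≤ ((8 ^ (k + m) * (k + m).factorial * Real.exp 1) * Real.exp (-(‖y‖ / 4))) *
        Real.exp (-(‖y‖ / 2)) := by
        have h2 : (1 + ‖y‖) ^ (k + m) * Real.exp (-(‖y‖ / 2)) ≤
            (1 + 2 * ‖y‖) ^ (k + m) * Real.exp (-(‖y‖ / 2)) := by gcongr
        exact mul_le_mul_of_nonneg_right (h2.trans h) (Real.exp_pos _).le
    _ ≤ ((8 ^ (k + m) * (k + m).factorial * Real.exp 1) * 1) * Real.exp (-(‖y‖ / 2)) := by
        gcongr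
    _ = _ := by ring

/-- constant of `ew_absorb` -/
noncomputable def ca (n : ℕ) : ℝ≥0∞ := ENNReal.ofReal (8 ^ n * n.factorial * Real.exp 1)

theorem ca_lt_top (n : ℕ) : ca n < ⊤ := ENNReal.ofReal_lt_top

theorem Ep_absorb (k m : ℕ) (κ : ℝ≥0∞) (U : Finset R3) (y : R3) :
    ENNReal.ofReal ((1 + ‖y‖) ^ k) * Ep m κ U y ≤ ca (k + m) * (e4 y * (e4 y * Sp κ U y)) := by
  unfold Ep
  calc ENNReal.ofReal ((1 + ‖y‖) ^ k) * (ew m y * Sp κ U y)
      = (ENNReal.ofReal ((1 + ‖y‖) ^ k) * ew m y) * Sp κ U y := by ring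
    _ ≤ (ca (k + m) * (e4 y * e4 y)) * Sp κ U y := mul_le_mul' (ew_absorb k m y) le_rfl
    _ = _ := by ring

theorem key_int_one {κ : ℝ≥0∞} {U : Finset R3} (hκ : κ * U.card ≤ 1) :
    ∫⁻ y, e4 y * Sp κ U y ≤ KI := by
  refine le_trans ?_ (key_int one_pos (by norm_num) hκ (0 : R3))
  refine lintegral_mono fun y => ?_
  simp only [zero_add]
  exact le_mul_of_one_le_left' le_self_add

/-! ### moments of the class, loss -/

/-- polynomial moments of the class -/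
theorem moment_Ep_le (k m : ℕ) {κ : ℝ≥0∞} {U : Finset R3} (hκ : κ * U.card ≤ 1) :
    ∫⁻ y, ENNReal.ofReal ((1 + ‖y‖) ^ k) * Ep m κ U y ≤ ca (k + m) * KI := by
  calc ∫⁻ y, ENNReal.ofReal ((1 + ‖y‖) ^ k) * Ep m κ U y
      ≤ ∫⁻ y, ca (k + m) * (e4 y * Sp κ U y) := by
        refine lintegral_mono fun y => (Ep_absorb k m κ U y).trans ?_
        exact mul_le_mul' le_rfl (mul_le_of_le_one_left' (e4_le_one y))
    _ = ca (k + m) * ∫⁻ y, e4 y * Sp κ U y := lintegral_const_mul _ (by fun_prop)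
    _ ≤ _ := by gcongr; exact key_int_one hκ

/-- **(W1b)** loss frequency of the class -/
theorem Lc_Ep_le (m : ℕ) {κ : ℝ≥0∞} {U : Finset R3} (hκ : κ * U.card ≤ 1) (v : R3) :
    Lc (Ep m κ U) v ≤ ENNReal.ofReal (2 * π) * (ca (1 + m) * KI) * ENNReal.ofReal (1 + ‖v‖) := by
  refine (Lc_le_moment (measurable_Ep m κ U) v).trans ?_
  have h := moment_Ep_le 1 m hκ
  simp only [pow_one] at h
  calc _ ≤ ENNReal.ofReal (2 * π) * (ENNReal.ofReal (1 + ‖v‖) * (ca (1 + m) * KI)) := by gcongr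
    _ = _ := by ring

/-- moment interpolation: high velocities are exponentially small, uniformly in the class -/
theorem moment_interp (k m : ℕ) {κ : ℝ≥0∞} {U : Finset R3} (hκ : κ * U.card ≤ 1)
    {f : R3 → ℝ≥0∞} (hf : Measurable f) (hfE : ∀ y, f y ≤ Ep m κ U y) (R : ℝ) :
    ∫⁻ y, ENNReal.ofReal ((1 + ‖y‖) ^ k) * f y ≤
      ENNReal.ofReal ((1 + R) ^ k) * (∫⁻ y, f y) +
        ENNReal.ofReal (Real.exp (-(1 / 4 * R))) * (ca (k + m) * KI) := by
  have hpt : ∀ y, ENNReal.ofReal ((1 + ‖y‖) ^ k) * f y ≤ ENNReal.ofReal ((1 + R) ^ k) * f y +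
      ENNReal.ofReal (Real.exp (-(1 / 4 * R))) * (ca (k + m) * (e4 y * Sp κ U y)) := by
    intro y
    rcases le_or_gt ‖y‖ R with h | h
    · refine le_trans ?_ le_self_add
      gcongr
    · refine le_trans ?_ le_add_self
      calc ENNReal.ofReal ((1 + ‖y‖) ^ k) * f y ≤ ENNReal.ofReal ((1 + ‖y‖) ^ k) * Ep m κ U y := by
            gcongr; exact hfE y
        _ ≤ ca (k + m) * (e4 y * (e4 y * Sp κ U y)) := Ep_absorb k m κ U y
        _ ≤ ca (k + m) * (ENNReal.ofReal (Real.exp (-(1 / 4 * R))) * (e4 y * Sp κ U y)) := by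
            gcongr
            unfold e4
            apply ENNReal.ofReal_le_ofReal
            apply Real.exp_le_exp.2
            linarith
        _ = _ := by ring
  calc ∫⁻ y, ENNReal.ofReal ((1 + ‖y‖) ^ k) * f y
      ≤ ∫⁻ y, (ENNReal.ofReal ((1 + R) ^ k) * f y +
        ENNReal.ofReal (Real.exp (-(1 / 4 * R))) * (ca (k + m) * (e4 y * Sp κ U y))) :=
        lintegral_mono hpt
    _ = ENNReal.ofReal ((1 + R) ^ k) * (∫⁻ y, f y) +
        ENNReal.ofReal (Real.exp (-(1 / 4 * R))) * (ca (k + m) * ∫⁻ y, e4 y * Sp κ U y) := by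
        rw [lintegral_add_left (hf.const_mul _), lintegral_const_mul _ hf,
          lintegral_const_mul _ (by fun_prop), lintegral_const_mul _ (by fun_prop)]
    _ ≤ _ := by gcongr; exact key_int_one hκ

/-! ### gain against the class, in kernel form -/

/-- plane integrals of the class are bounded -/
theorem planeInt_Ep_le_const (m : ℕ) {κ : ℝ≥0∞} {U : Finset R3} (hκ : κ * U.card ≤ 1) (v : R3)
    {w : R3} (hw : ‖w‖ = 1) :
    planeInt (Ep m κ U) v w ≤ Cpl m * ENNReal.ofReal ((m + 1).factorial * Real.exp 1) := by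
  have h := planeInt_Ep_le m hκ v hw 0
  have e : {b : R3 | (0 : ℝ) ≤ ‖b‖}.indicator (Ep m κ U) = Ep m κ U := by
    funext b
    rw [indicator_of_mem (show b ∈ {b : R3 | (0 : ℝ) ≤ ‖b‖} from norm_nonneg b)]
  rw [e] at h
  refine h.trans (mul_le_mul' le_rfl (ENNReal.ofReal_le_ofReal ?_))
  exact poly_exp_le (m + 1) (le_max_right _ _)

/-- constant of `Qp_le_potential` -/
noncomputable def CP (m : ℕ) : ℝ≥0∞ :=
  2 * (Cpl m * ENNReal.ofReal ((m + 1).factorial * Real.exp 1))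

theorem CP_lt_top (m : ℕ) : CP m < ⊤ := by
  unfold CP
  exact ENNReal.mul_lt_top (by norm_num) (ENNReal.mul_lt_top (Cpl_lt_top m) ENNReal.ofReal_lt_top)

/-- gain of an arbitrary profile against the class: Newton potential -/
theorem Qp_le_potential (m : ℕ) {κ : ℝ≥0∞} {U : Finset R3} (hκ : κ * U.card ≤ 1)
    {f : R3 → ℝ≥0∞} (hf : Measurable f) (v : R3) :
    Qp f (Ep m κ U) v ≤ CP m * ∫⁻ z, kp 1 z * f (v + z) := by
  have hEm := measurable_Ep m κ U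
  rw [Qp_eq_Qg, Qg_carleman ((hf.comp measurable_fst).mul (hEm.comp measurable_snd))]
  unfold CP
  rw [mul_assoc]
  refine mul_le_mul' le_rfl ?_
  have hkf : Measurable fun z => kp 1 z * f (v + z) :=
    (measurable_kp 1).mul (hf.comp (by fun_prop))
  rw [← lintegral_const_mul _ hkf]
  refine lintegral_mono_ae ?_
  filter_upwards [compl_mem_ae_iff.2 (measure_singleton (0 : R3))] with z hz
  have hz' : z ≠ 0 := hz
  rw [planeInt_const_mul hEm]
  calc ENNReal.ofReal ‖z‖⁻¹ * (f (v + z) * planeInt (Ep m κ U) v (‖z‖⁻¹ • z))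
      ≤ kp 1 z * (f (v + z) * (Cpl m * ENNReal.ofReal ((m + 1).factorial * Real.exp 1))) := by
        gcongr
        · exact inv_norm_le_kp z
        · exact planeInt_Ep_le_const m hκ v (norm_inv_smul_self hz')
    _ = _ := by ring

theorem kp_one_split {δ : ℝ} (hδ : 0 < δ) (z : R3) :
    kp 1 z ≤ ENNReal.ofReal δ⁻¹ + ENNReal.ofReal (δ ^ (1 / 4 : ℝ)) * kp (5 / 4) z := by
  rcases le_or_gt δ ‖z‖ with h | h
  · refine le_trans ?_ le_self_add
    unfold kp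
    rw [ENNReal.rpow_neg_one, ENNReal.ofReal_inv_of_pos hδ]
    exact ENNReal.inv_le_inv.2 (ENNReal.ofReal_le_ofReal h)
  · refine le_trans ?_ le_add_self
    unfold kp
    by_cases hz : z = 0
    · subst hz
      simp only [norm_zero, ENNReal.ofReal_zero]
      rw [ENNReal.zero_rpow_of_neg (by norm_num), ENNReal.zero_rpow_of_neg (by norm_num),
        ENNReal.mul_top]
      exact (ENNReal.ofReal_pos.2 (by positivity)).ne'
    · have hz0 : 0 < ‖z‖ := norm_pos_iff.2 hz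
      have e : (ENNReal.ofReal ‖z‖) ^ (-1 : ℝ)
          = (ENNReal.ofReal ‖z‖) ^ (1 / 4 : ℝ) * (ENNReal.ofReal ‖z‖) ^ (-(5 / 4) : ℝ) := by
        rw [← ENNReal.rpow_add _ _ (by simpa using hz) ENNReal.ofReal_ne_top]
        norm_num
      rw [e]
      gcongr
      rw [← ENNReal.ofReal_rpow_of_nonneg hδ.le (by norm_num)]
      gcongr

/-- Newton potential of a function of the class: interpolation with its integral -/
theorem potential_interp (m : ℕ) {κ : ℝ≥0∞} {U : Finset R3} (hκ : κ * U.card ≤ 1)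
    {f : R3 → ℝ≥0∞} (hf : Measurable f) (hfE : ∀ y, f y ≤ Ep m κ U y) {δ : ℝ} (hδ : 0 < δ)
    (v : R3) :
    ∫⁻ z, kp 1 z * f (v + z) ≤
      ENNReal.ofReal δ⁻¹ * (∫⁻ y, f y) + ENNReal.ofReal (δ ^ (1 / 4 : ℝ)) * (ca m * KI) := by
  have hfv : Measurable fun z => f (v + z) := by fun_prop
  have hEv : Measurable fun z : R3 => e4 (v + z) * Sp κ U (v + z) := by
    exact (measurable_e4.comp (by fun_prop)).mul ((measurable_Sp κ U).comp (by fun_prop))
  have hk : Measurable fun z : R3 => (1 + kp (5 / 4) z) * (e4 (v + z) * Sp κ U (v + z)) :=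
    ((measurable_kp _).const_add 1).mul hEv
  have hpt : ∀ z, kp 1 z * f (v + z) ≤ ENNReal.ofReal δ⁻¹ * f (v + z) +
      ENNReal.ofReal (δ ^ (1 / 4 : ℝ)) *
        (ca m * ((1 + kp (5 / 4) z) * (e4 (v + z) * Sp κ U (v + z)))) := by
    intro z
    have hE := Ep_absorb 0 m κ U (v + z)
    simp only [pow_zero, ENNReal.ofReal_one, one_mul, zero_add] at hE
    have hf' : f (v + z) ≤ ca m * (e4 (v + z) * Sp κ U (v + z)) := by
      refine (hfE _).trans (hE.trans ?_)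
      exact mul_le_mul' le_rfl (mul_le_of_le_one_left' (e4_le_one _))
    calc kp 1 z * f (v + z)
        ≤ (ENNReal.ofReal δ⁻¹ + ENNReal.ofReal (δ ^ (1 / 4 : ℝ)) * kp (5 / 4) z) * f (v + z) := by
          gcongr; exact kp_one_split hδ z
      _ = ENNReal.ofReal δ⁻¹ * f (v + z) +
          ENNReal.ofReal (δ ^ (1 / 4 : ℝ)) * (kp (5 / 4) z * f (v + z)) := by ring
      _ ≤ ENNReal.ofReal δ⁻¹ * f (v + z) + ENNReal.ofReal (δ ^ (1 / 4 : ℝ)) *
          ((1 + kp (5 / 4) z) * (ca m * (e4 (v + z) * Sp κ U (v + z)))) := by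
          gcongr
          exact le_add_self
      _ = _ := by ring
  calc ∫⁻ z, kp 1 z * f (v + z)
      ≤ ∫⁻ z, (ENNReal.ofReal δ⁻¹ * f (v + z) + ENNReal.ofReal (δ ^ (1 / 4 : ℝ)) *
        (ca m * ((1 + kp (5 / 4) z) * (e4 (v + z) * Sp κ U (v + z))))) := lintegral_mono hpt
    _ = ENNReal.ofReal δ⁻¹ * (∫⁻ y, f y) + ENNReal.ofReal (δ ^ (1 / 4 : ℝ)) *
        (ca m * ∫⁻ z, ((1 + kp (5 / 4) z) * (e4 (v + z) * Sp κ U (v + z)))) := by
        rw [lintegral_add_left (hfv.const_mul _), lintegral_const_mul _ hfv,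
          lintegral_const_mul _ (hk.const_mul _), lintegral_const_mul _ hk,
          lintegral_add_left_eq_self f v]
    _ ≤ _ := by gcongr; exact key_int (by norm_num) le_rfl hκ v

/-- **(W1c)** gain against the class: interpolation with the mass -/
theorem Qp_interp (m : ℕ) {κ : ℝ≥0∞} {U : Finset R3} (hκ : κ * U.card ≤ 1)
    {f : R3 → ℝ≥0∞} (hf : Measurable f) (hfE : ∀ y, f y ≤ Ep m κ U y) {δ : ℝ} (hδ : 0 < δ)
    (v : R3) :
    Qp f (Ep m κ U) v ≤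
      CP m * (ENNReal.ofReal δ⁻¹ * (∫⁻ y, f y) + ENNReal.ofReal (δ ^ (1 / 4 : ℝ)) * (ca m * KI)) := by
  refine (Qp_le_potential m hκ hf v).trans ?_
  gcongr
  exact potential_interp m hκ hf hfE hδ v

/-! ### cold partner -/

/-- **(W1e)** gain of a cold profile (velocities `≤ R'`) against the class -/
theorem Qp_cold_le (m : ℕ) {κ : ℝ≥0∞} {U : Finset R3} (hκ : κ * U.card ≤ 1)
    {c : R3 → ℝ≥0∞} (hc : Measurable c) {R' : ℝ} (hR' : 0 ≤ R') (hsupp : ∀ y, R' < ‖y‖ → c y = 0)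
    (v : R3) :
    Qp c (Ep m κ U) v ≤
      (2 * Cpl m * ENNReal.ofReal (Real.exp R' * (1 + R'))) * ew m v *
        ∫⁻ z, (1 + kp 1 z) * c (v + z) := by
  have hEm := measurable_Ep m κ U
  rw [Qp_eq_Qg, Qg_carleman ((hc.comp measurable_fst).mul (hEm.comp measurable_snd))]
  have hkf : Measurable fun z => (1 + kp 1 z) * c (v + z) :=
    ((measurable_kp 1).const_add 1).mul (hc.comp (by fun_prop))
  rw [mul_assoc, mul_assoc, mul_assoc]
  refine mul_le_mul' le_rfl ?_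
  rw [← lintegral_const_mul _ hkf, ← lintegral_const_mul _ (hkf.const_mul _),
    ← lintegral_const_mul _ ((hkf.const_mul _).const_mul _)]
  refine lintegral_mono_ae ?_
  filter_upwards [compl_mem_ae_iff.2 (measure_singleton (0 : R3))] with z hz
  have hz' : z ≠ 0 := hz
  have hz0 : 0 < ‖z‖ := norm_pos_iff.2 hz'
  set w : R3 := ‖z‖⁻¹ • z with hw
  have hw1 : ‖w‖ = 1 := norm_inv_smul_self hz'
  have hzw : z = ‖z‖ • w := eq_norm_smul hz'
  rw [planeInt_const_mul hEm]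
  rcases lt_or_ge R' ‖v + z‖ with hbig | hsm
  · rw [hsupp _ hbig]; simp
  have h := planeInt_Ep_le m hκ v hw1 0
  have e : {b : R3 | (0 : ℝ) ≤ ‖b‖}.indicator (Ep m κ U) = Ep m κ U := by
    funext b
    rw [indicator_of_mem (show b ∈ {b : R3 | (0 : ℝ) ≤ ‖b‖} from norm_nonneg b)]
  rw [e, max_eq_left (abs_nonneg _)] at h
  set d := |(inner ℝ v w : ℝ)| with hd
  have hd0 : 0 ≤ d := abs_nonneg _
  have hv0 : 0 ≤ ‖v‖ := norm_nonneg v
  have hdv : d ≤ ‖v‖ := by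
    calc d ≤ ‖v‖ * ‖w‖ := abs_real_inner_le_norm _ _
      _ = ‖v‖ := by rw [hw1, mul_one]
  have hvd : ‖v‖ ≤ d + R' := by
    have hi : (inner ℝ v z : ℝ) = ‖z‖ * inner ℝ v w := by
      conv_lhs => rw [hzw]
      rw [real_inner_smul_right]
    have h1 : ‖v + z‖ ^ 2 = ‖v‖ ^ 2 + 2 * (‖z‖ * inner ℝ v w) + ‖z‖ ^ 2 := by
      rw [norm_add_sq_real, hi]
    have h2 : ‖v‖ ^ 2 = (inner ℝ v w : ℝ) ^ 2 + ‖v + z‖ ^ 2 - ((inner ℝ v w : ℝ) + ‖z‖) ^ 2 := by
      rw [h1]; ring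
    have h3 : (inner ℝ v w : ℝ) ^ 2 = d ^ 2 := by rw [hd, sq_abs]
    have h4 : ‖v + z‖ ^ 2 ≤ R' ^ 2 := by gcongr
    refine (pow_le_pow_iff_left₀ hv0 (by positivity) two_ne_zero).1 ?_
    nlinarith [sq_nonneg ((inner ℝ v w : ℝ) + ‖z‖), mul_nonneg hd0 hR']
  have hvz : ‖v‖ ≤ R' + ‖z‖ := by
    calc ‖v‖ = ‖(v + z) - z‖ := by congr 1; abel
      _ ≤ ‖v + z‖ + ‖z‖ := norm_sub_le _ _
      _ ≤ _ := by linarith
  have hi0 : 0 < ‖z‖⁻¹ := inv_pos.2 hz0
  have hreal : ‖z‖⁻¹ * ((1 + d) ^ (m + 1) * Real.exp (-d)) ≤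
      (Real.exp R' * (1 + R')) * ((1 + ‖v‖) ^ m * Real.exp (-‖v‖)) * (1 + ‖z‖⁻¹) := by
    have h1 : Real.exp (-d) ≤ Real.exp R' * Real.exp (-‖v‖) := by
      rw [← Real.exp_add]; apply Real.exp_le_exp.2; linarith
    have h2 : ‖z‖⁻¹ * (1 + d) ≤ (1 + R') * (1 + ‖z‖⁻¹) := by
      have h0 : 1 + d ≤ (1 + R') + ‖z‖ := by linarith
      calc ‖z‖⁻¹ * (1 + d) ≤ ‖z‖⁻¹ * ((1 + R') + ‖z‖) := by gcongr
        _ = ‖z‖⁻¹ * (1 + R') + 1 := by rw [mul_add, inv_mul_cancel₀ hz0.ne']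
        _ ≤ _ := by nlinarith
    have h3 : (1 + d) ^ m ≤ (1 + ‖v‖) ^ m := by gcongr
    calc ‖z‖⁻¹ * ((1 + d) ^ (m + 1) * Real.exp (-d))
        = (‖z‖⁻¹ * (1 + d)) * (1 + d) ^ m * Real.exp (-d) := by rw [pow_succ]; ring
      _ ≤ ((1 + R') * (1 + ‖z‖⁻¹)) * (1 + ‖v‖) ^ m * (Real.exp R' * Real.exp (-‖v‖)) := by gcongr
      _ = _ := by ring
  calc ENNReal.ofReal ‖z‖⁻¹ * (c (v + z) * planeInt (Ep m κ U) v w)
      ≤ ENNReal.ofReal ‖z‖⁻¹ * (c (v + z) *
        (Cpl m * ENNReal.ofReal ((1 + d) ^ (m + 1) * Real.exp (-d)))) := by gcongr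
    _ = Cpl m * c (v + z) * ENNReal.ofReal (‖z‖⁻¹ * ((1 + d) ^ (m + 1) * Real.exp (-d))) := by
        rw [ENNReal.ofReal_mul hi0.le]; ring
    _ ≤ Cpl m * c (v + z) * ENNReal.ofReal ((Real.exp R' * (1 + R')) *
        ((1 + ‖v‖) ^ m * Real.exp (-‖v‖)) * (1 + ‖z‖⁻¹)) :=
        mul_le_mul' le_rfl (ENNReal.ofReal_le_ofReal hreal)
    _ = Cpl m * c (v + z) * (ENNReal.ofReal (Real.exp R' * (1 + R')) * ew m v *
        (1 + ENNReal.ofReal ‖z‖⁻¹)) := by
        unfold ew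
        rw [← ENNReal.ofReal_one, ← ENNReal.ofReal_add zero_le_one hi0.le,
          ← ENNReal.ofReal_mul (by positivity), ← ENNReal.ofReal_mul (by positivity)]
    _ ≤ Cpl m * c (v + z) * (ENNReal.ofReal (Real.exp R' * (1 + R')) * ew m v *
        (1 + kp 1 z)) := by
        gcongr; exact inv_norm_le_kp z
    _ = _ := by ring

/-! ### the Maxwellian belongs to the class -/

theorem maxwellian_le_ew (v : R3) : ENNReal.ofReal (maxwellian v) ≤ ew 0 v := by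
  unfold ew maxwellian
  apply ENNReal.ofReal_le_ofReal
  rw [pow_zero, one_mul]
  have h1 : Real.exp (-‖v‖ ^ 2 / 2) ≤ Real.exp (1 / 2) * Real.exp (-‖v‖) := by
    rw [← Real.exp_add]; apply Real.exp_le_exp.2
    nlinarith [sq_nonneg (‖v‖ - 1)]
  have h2 : (2 * π) ^ (-(3 / 2 : ℝ)) ≤ 1 / 2 := by
    have hp : (1 : ℝ) ≤ 2 * π := by linarith [Real.pi_gt_three]
    calc (2 * π) ^ (-(3 / 2 : ℝ)) ≤ (2 * π) ^ (-(1 : ℝ)) :=
          Real.rpow_le_rpow_of_exponent_le hp (by norm_num)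
      _ = (2 * π)⁻¹ := Real.rpow_neg_one _
      _ ≤ 2⁻¹ := by
          apply inv_anti₀ (by norm_num)
          linarith [Real.pi_gt_three]
      _ = 1 / 2 := by norm_num
  have h3 : Real.exp (1 / 2) ≤ 2 := by
    have h := Real.exp_one_lt_d9
    have h4 : Real.exp (1 / 2) ^ 2 = Real.exp 1 := by
      rw [← Real.exp_nat_mul]; norm_num
    nlinarith [Real.exp_pos (1 / 2 : ℝ)]
  calc (2 * π) ^ (-(3 / 2 : ℝ)) * Real.exp (-‖v‖ ^ 2 / 2)
      ≤ (1 / 2) * (Real.exp (1 / 2) * Real.exp (-‖v‖)) := by gcongr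
    _ ≤ (1 / 2) * (2 * Real.exp (-‖v‖)) := by gcongr
    _ = _ := by ring

theorem ew_le_Ep (m : ℕ) (κ : ℝ≥0∞) (U : Finset R3) (v : R3) : ew m v ≤ Ep m κ U v := by
  unfold Ep Sp
  exact le_mul_of_one_le_right' le_self_add

theorem ew_mono {m n : ℕ} (h : m ≤ n) (v : R3) : ew m v ≤ ew n v := by
  unfold ew
  apply ENNReal.ofReal_le_ofReal
  have : (1 : ℝ) ≤ 1 + ‖v‖ := by linarith [norm_nonneg v]
  gcongr

theorem Ep_mono {m n : ℕ} (h : m ≤ n) (κ : ℝ≥0∞) (U : Finset R3) (v : R3) :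
    Ep m κ U v ≤ Ep n κ U v := by
  unfold Ep
  exact mul_le_mul' (ew_mono h v) le_rfl

theorem Ep_succ (κ : ℝ≥0∞) (U : Finset R3) (m : ℕ) (v : R3) :
    Ep (m + 1) κ U v = ENNReal.ofReal (1 + ‖v‖) * Ep m κ U v := by
  unfold Ep ew
  rw [← mul_assoc, ← ENNReal.ofReal_mul (by positivity)]
  congr 2
  rw [pow_succ]; ring

end Crest.Agent.R68.WK
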