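import Mathlib
import Crest.Agent.R68.WK5
import Crest.Agent.R68.WA0
import Crest.Agent.R68.DPoles3

/-!
# Row 68, PART W (helper835): the class `E(t,x,v) = (1 + e^{-lam (t-T1)} D^{-3/2}) e^{-|v|}`.
Domination by the pole class `WK.Ep` of helper330.
-/

set_option autoImplicit false
open MeasureTheory Set
open scoped ENNReal NNReal
open Crest.AnalysisR.VecCalc3 Crest.AnalysisR.PDE.Boltzmann

noncomputable section

namespace Crest.Agent.R68.WA

open WK DPole

/-- the weight of part W -/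
def EW (P : Par) (lam T1 t : ℝ) (x : P2) (v : R3) : ℝ≥0∞ :=
  (1 + ENNReal.ofReal (Real.exp (-(lam * (t - T1)))) * (if 0 ≤ t then Dm P t x v else 1)) * We v

theorem EW_of_nonneg {P : Par} {lam T1 t : ℝ} (ht : 0 ≤ t) (x : P2) (v : R3) :
    EW P lam T1 t x v =
      (1 + ENNReal.ofReal (Real.exp (-(lam * (t - T1)))) * Dm P t x v) * We v := by
  unfold EW; rw [if_pos ht]

theorem measurable_EW {P : Par} (hY : 0 < P.Y) (lam T1 : ℝ) :
    Measurable fun p : ℝ × P2 × R3 => EW P lam T1 p.1 p.2.1 p.2.2 := by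
  have h1 := measurable_Dm (P := P) hY
  have h2 := measurable_We
  unfold EW
  fun_prop

theorem We_le_EW (P : Par) (lam T1 t : ℝ) (x : P2) (v : R3) : We v ≤ EW P lam T1 t x v := by
  unfold EW
  calc We v = 1 * We v := (one_mul _).symm
    _ ≤ _ := by gcongr; exact le_self_add

theorem EW_flight {P : Par} (hY : 0 < P.Y) {lam T1 s t : ℝ} (hlam : 0 ≤ lam) (hs : 0 ≤ s)
    (hst : s ≤ t) (x : P2) (v : R3) :
    EW P lam T1 s (x - (t - s) • bar v) v ≤
      ENNReal.ofReal (Real.exp (lam * (t - s))) * EW P lam T1 t x v := by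
  rw [EW_of_nonneg hs, EW_of_nonneg (hs.trans hst), ← mul_assoc]
  gcongr ?_ * _
  rw [mul_add, mul_one, ← mul_assoc, ← ENNReal.ofReal_mul (Real.exp_pos _).le, ← Real.exp_add]
  have h1 : lam * (t - s) + -(lam * (t - T1)) = -(lam * (s - T1)) := by ring
  rw [h1]
  gcongr
  · rw [← ENNReal.ofReal_one]
    apply ENNReal.ofReal_le_ofReal
    exact Real.one_le_exp (mul_nonneg hlam (by linarith))
  · exact Dm_flight hY hs hst x v

theorem EW_per {P : Par} (lam T1 t : ℝ) (v : R3) : PerG (fun x => EW P lam T1 t x v) := by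
  intro x k
  unfold EW Dm
  simp only [Dw_add_latt]

/-! ### poles -/

open scoped Classical in
/-- the set of poles at `(t,x)` -/
def UU (P : Par) (t : ℝ) (x : P2) : Finset R3 :=
  (KKf P t x).image (fun k => uvec P 1 t (x + latt k)) ∪
    (KKf P t x).image (fun k => uvec P (-1) t (x + latt k))

theorem card_UU (P : Par) (t : ℝ) (x : P2) : (UU P t x).card ≤ 2 * (KKf P t x).card := by
  classical
  unfold UU
  refine (Finset.card_union_le _ _).trans ?_
  have h1 := Finset.card_image_le (s := KKf P t x) (f := fun k => uvec P 1 t (x + latt k))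
  have h2 := Finset.card_image_le (s := KKf P t x) (f := fun k => uvec P (-1) t (x + latt k))
  omega

theorem Spole_le (P : Par) (t : ℝ) (x : P2) (v : R3) :
    Spole P t x v ≤ 1 + (2 * (KKf P t x).card : ℕ) * ∑ u ∈ UU P t x, kp (3 / 2) (v - u) := by
  classical
  unfold Spole
  gcongr
  have h1 : ∀ k ∈ KKf P t x,
      ENNReal.ofReal ‖v - uvec P 1 t (x + latt k)‖ ^ (-(3 / 2) : ℝ) +
        ENNReal.ofReal ‖v - uvec P (-1) t (x + latt k)‖ ^ (-(3 / 2) : ℝ) ≤
      2 * ∑ u ∈ UU P t x, kp (3 / 2) (v - u) := by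
    intro k hk
    have h2 : kp (3 / 2) (v - uvec P 1 t (x + latt k)) ≤ ∑ u ∈ UU P t x, kp (3 / 2) (v - u) :=
      Finset.single_le_sum (f := fun u => kp (3 / 2) (v - u)) (fun _ _ => by simp)
        (Finset.mem_union_left _ (Finset.mem_image_of_mem _ hk))
    have h3 : kp (3 / 2) (v - uvec P (-1) t (x + latt k)) ≤ ∑ u ∈ UU P t x, kp (3 / 2) (v - u) :=
      Finset.single_le_sum (f := fun u => kp (3 / 2) (v - u)) (fun _ _ => by simp)
        (Finset.mem_union_right _ (Finset.mem_image_of_mem _ hk))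
    rw [two_mul]
    exact add_le_add h2 h3
  refine (Finset.sum_le_sum h1).trans ?_
  rw [Finset.sum_const, nsmul_eq_mul]
  push_cast
  rw [← mul_assoc, mul_comm ((KKf P t x).card : ℝ≥0∞) 2]

/-- number of poles -/
def NP (Y t : ℝ) : ℝ := (3 * (Y + 2) + 1) ^ 2 * (1 + t) ^ 2

/-- weight of the poles in the class of helper330 -/
def kapW (Y t : ℝ) : ℝ≥0∞ := ENNReal.ofReal (1 / (2 * NP Y t))

theorem NP_pos {Y t : ℝ} (hY : 0 < Y) (ht : 0 ≤ t) : 0 < NP Y t := by unfold NP; positivity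

theorem kapW_mul_card {P : Par} (hP : ParD P) {t : ℝ} (ht : 0 ≤ t) (x : P2) :
    kapW P.Y t * (UU P t x).card ≤ 1 := by
  have h1 := card_poles hP ht x
  have h2 : (((UU P t x).card : ℕ) : ℝ) ≤ 2 * NP P.Y t := by
    have := card_UU P t x
    have h3 : ((UU P t x).card : ℝ) ≤ 2 * (KKf P t x).card := by exact_mod_cast this
    unfold NP; linarith
  have h3 := NP_pos hP.Y ht
  unfold kapW
  rw [← ENNReal.ofReal_natCast, ← ENNReal.ofReal_mul (by positivity), ← ENNReal.ofReal_one]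
  apply ENNReal.ofReal_le_ofReal
  rw [one_div, inv_mul_le_iff₀ (by positivity)]
  linarith

theorem lin_exp_le {lam s : ℝ} (hlam : 0 < lam) (hs : 0 ≤ s) :
    (2 + s) * Real.exp (-(lam * s / 4)) ≤ 2 + 4 / lam := by
  have h1 := Real.add_one_le_exp (lam * s / 4)
  rw [Real.exp_neg, ← div_eq_mul_inv, div_le_iff₀ (Real.exp_pos _)]
  have h2 : (2 + 4 / lam) * (lam * s / 4 + 1) = 2 + s + 4 / lam + lam * s / 2 := by
    field_simp; ring
  have h3 : 0 ≤ 4 / lam + lam * s / 2 := by positivity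
  have h4 : 0 ≤ 2 + 4 / lam := by positivity
  nlinarith [mul_le_mul_of_nonneg_left h1 h4]

/-- the constant of the domination -/
def CW (Y lam : ℝ) : ℝ :=
  1 + (8 + 6 * Y) ^ 2 + 4 * (8 + 6 * Y) ^ 2 * (3 * (Y + 2) + 1) ^ 4 * (2 + 4 / lam) ^ 4

theorem CW_pos {Y lam : ℝ} (hY : 0 < Y) (hlam : 0 < lam) : 0 < CW Y lam := by
  unfold CW; positivity

theorem NP_exp_le {Y lam T1 t : ℝ} (hY : 0 < Y) (hlam : 0 < lam) (h0 : 0 ≤ T1) (h1 : T1 ≤ 1)
    (ht : T1 ≤ t) :
    NP Y t * NP Y t * Real.exp (-(lam * (t - T1))) ≤ (3 * (Y + 2) + 1) ^ 4 * (2 + 4 / lam) ^ 4 := by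
  have hs : 0 ≤ t - T1 := by linarith
  have h2 := lin_exp_le hlam hs
  set e := Real.exp (-(lam * (t - T1) / 4)) with he
  have h3 : Real.exp (-(lam * (t - T1))) = e ^ 4 := by
    rw [he, ← Real.exp_nat_mul]; congr 1; ring
  rw [h3]
  unfold NP
  have h4 : (1 + t) * e ≤ 2 + 4 / lam := by
    refine le_trans ?_ h2
    have := Real.exp_pos (-(lam * (t - T1) / 4))
    rw [← he] at this
    nlinarith
  have h5 : 0 ≤ (1 + t) * e := by
    have := Real.exp_pos (-(lam * (t - T1) / 4))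
    rw [← he] at this
    have : 0 ≤ 1 + t := by linarith
    positivity
  calc (3 * (Y + 2) + 1) ^ 2 * (1 + t) ^ 2 * ((3 * (Y + 2) + 1) ^ 2 * (1 + t) ^ 2) * e ^ 4
      = (3 * (Y + 2) + 1) ^ 4 * ((1 + t) * e) ^ 4 := by ring
    _ ≤ _ := by gcongr

/-- **the class of part W is dominated by the pole class** -/
theorem EW_le_Ep {P : Par} (hP : ParD P) {lam T1 t : ℝ} (hlam : 0 < lam) (h0 : 0 ≤ T1)
    (h1 : T1 ≤ 1) (ht : T1 ≤ t) (x : P2) (v : R3) :
    EW P lam T1 t x v ≤ ENNReal.ofReal (CW P.Y lam) * Ep 0 (kapW P.Y t) (UU P t x) v := by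
  have hY := hP.Y
  have ht0 : 0 ≤ t := h0.trans ht
  rw [EW_of_nonneg ht0]
  have hew : Ep 0 (kapW P.Y t) (UU P t x) v = We v * Sp (kapW P.Y t) (UU P t x) v := by
    unfold Ep ew We; simp
  rw [hew, mul_comm (We v), ← mul_assoc]
  gcongr ?_ * _
  set S := ∑ u ∈ UU P t x, kp (3 / 2) (v - u) with hS
  have hSp : Sp (kapW P.Y t) (UU P t x) v = 1 + kapW P.Y t * S := rfl
  rw [hSp]
  set e := Real.exp (-(lam * (t - T1))) with he
  have he0 : 0 < e := Real.exp_pos _
  have he1 : e ≤ 1 := Real.exp_le_one_iff.2 (by nlinarith)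
  have hN := NP_pos hY ht0
  have hcard : ((2 * (KKf P t x).card : ℕ) : ℝ≥0∞) ≤ ENNReal.ofReal (2 * NP P.Y t) := by
    rw [← ENNReal.ofReal_natCast]
    apply ENNReal.ofReal_le_ofReal
    have := card_poles hP ht0 x
    push_cast
    unfold NP; linarith
  have hDm : Dm P t x v ≤ ENNReal.ofReal ((8 + 6 * P.Y) ^ 2) *
      (1 + ENNReal.ofReal (2 * NP P.Y t) * S) := by
    refine (Dm_le_Spole hP ht0 x v).trans ?_
    gcongr
    refine (Spole_le P t x v).trans ?_
    gcongr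
  calc 1 + ENNReal.ofReal e * Dm P t x v
      ≤ 1 + ENNReal.ofReal e * (ENNReal.ofReal ((8 + 6 * P.Y) ^ 2) *
          (1 + ENNReal.ofReal (2 * NP P.Y t) * S)) := by gcongr
    _ = (1 + ENNReal.ofReal (e * (8 + 6 * P.Y) ^ 2)) +
          ENNReal.ofReal (e * (8 + 6 * P.Y) ^ 2 * (2 * NP P.Y t)) * S := by
        generalize (8 + 6 * P.Y) ^ 2 = c8 at *
        have e1 : ENNReal.ofReal (e * c8 * (2 * NP P.Y t)) =
            ENNReal.ofReal (e * c8) * ENNReal.ofReal (2 * NP P.Y t) := by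
          rw [mul_comm, ENNReal.ofReal_mul (by positivity), mul_comm]
        rw [e1, ENNReal.ofReal_mul he0.le]; ring
    _ ≤ ENNReal.ofReal (CW P.Y lam) + ENNReal.ofReal (CW P.Y lam) * kapW P.Y t * S := by
        gcongr
        · rw [← ENNReal.ofReal_one, ← ENNReal.ofReal_add (by norm_num) (by positivity)]
          apply ENNReal.ofReal_le_ofReal
          unfold CW
          have h2 : 0 ≤ 4 * (8 + 6 * P.Y) ^ 2 * (3 * (P.Y + 2) + 1) ^ 4 * (2 + 4 / lam) ^ 4 := by
            positivity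
          have h3 : e * (8 + 6 * P.Y) ^ 2 ≤ 1 * (8 + 6 * P.Y) ^ 2 := by gcongr
          linarith
        · unfold kapW
          rw [← ENNReal.ofReal_mul (CW_pos hY hlam).le]
          apply ENNReal.ofReal_le_ofReal
          rw [mul_one_div, le_div_iff₀ (by positivity)]
          have h2 := NP_exp_le (Y := P.Y) hY hlam h0 h1 ht
          rw [← he] at h2
          unfold CW
          have h3 : 0 ≤ 4 * (8 + 6 * P.Y) ^ 2 := by positivity
          have h4 := mul_le_mul_of_nonneg_left h2 h3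
          nlinarith [sq_nonneg (8 + 6 * P.Y)]
    _ = ENNReal.ofReal (CW P.Y lam) * (1 + kapW P.Y t * S) := by ring

end Crest.Agent.R68.WA
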