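import Mathlib
import Crest.Agent.R68.WE

/-!
# Row 68, PART W (helper835): `KHyp` for the class `EW`.
-/

set_option autoImplicit false
open MeasureTheory Set
open scoped ENNReal NNReal
open Crest.AnalysisR.VecCalc3 Crest.AnalysisR.PDE.Boltzmann

noncomputable section

namespace Crest.Agent.R68.WA

open WK DPole

theorem ew_zero (v : R3) : ew 0 v = We v := by unfold ew We; simp

section gen

variable {C κ : ℝ≥0∞} {U : Finset R3} {E f : R3 → ℝ≥0∞}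

theorem gain_gen (hC : C ≠ ⊤) (hκ : κ * U.card ≤ 1) (hE : ∀ v, E v ≤ C * Ep 0 κ U v) (v : R3) :
    Qp E E v ≤ C * C * CQ 0 * We v := by
  calc Qp E E v ≤ Qp (fun a => C * Ep 0 κ U a) (fun a => C * Ep 0 κ U a) v :=
        WA.Qp_mono hE hE v
    _ = C * (C * Qp (Ep 0 κ U) (Ep 0 κ U) v) := by
        rw [Qp_smul_left hC, Qp_smul_right hC]
    _ ≤ C * (C * (CQ 0 * ew 0 v)) := by gcongr; exact Qp_Ep_le 0 hκ v
    _ = C * C * CQ 0 * We v := by rw [ew_zero]; ring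

theorem gsm_gen (hC0 : C ≠ 0) (hC : C ≠ ⊤) (hκ : κ * U.card ≤ 1) (hE : ∀ v, E v ≤ C * Ep 0 κ U v)
    (hf : Measurable f) (hfE : ∀ z, f z ≤ E z) {δ : ℝ} (hδ : 0 < δ) (v : R3) :
    Qp f E v ≤ C * CP 0 * ENNReal.ofReal δ⁻¹ * (∫⁻ z, f z) +
      C * C * CP 0 * (ca 0 * KI) * ENNReal.ofReal (δ ^ (1 / 4 : ℝ)) := by
  set f' : R3 → ℝ≥0∞ := fun z => C⁻¹ * f z with hf'
  have hf'm : Measurable f' := hf.const_mul _
  have hff : ∀ z, f z = C * f' z := by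
    intro z
    rw [hf', ← mul_assoc, ENNReal.mul_inv_cancel hC0 hC, one_mul]
  have hf'E : ∀ y, f' y ≤ Ep 0 κ U y := by
    intro y
    calc f' y ≤ C⁻¹ * (C * Ep 0 κ U y) := by
          change C⁻¹ * f y ≤ _
          gcongr; exact (hfE y).trans (hE y)
      _ = Ep 0 κ U y := by rw [← mul_assoc, ENNReal.inv_mul_cancel hC0 hC, one_mul]
  have hint : ∫⁻ y, f' y = C⁻¹ * ∫⁻ y, f y := lintegral_const_mul _ hf
  calc Qp f E v ≤ Qp f (fun a => C * Ep 0 κ U a) v := WA.Qp_mono (fun _ => le_rfl) hE v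
    _ = Qp (fun a => C * f' a) (fun a => C * Ep 0 κ U a) v := by
        congr 1; funext z; exact hff z
    _ = C * (C * Qp f' (Ep 0 κ U) v) := by rw [Qp_smul_left hC, Qp_smul_right hC]
    _ ≤ C * (C * (CP 0 * (ENNReal.ofReal δ⁻¹ * (∫⁻ y, f' y) +
          ENNReal.ofReal (δ ^ (1 / 4 : ℝ)) * (ca 0 * KI)))) := by
        gcongr; exact Qp_interp 0 hκ hf'm hf'E hδ v
    _ = (C * C⁻¹) * (C * CP 0 * ENNReal.ofReal δ⁻¹ * (∫⁻ z, f z)) +
          C * C * CP 0 * (ca 0 * KI) * ENNReal.ofReal (δ ^ (1 / 4 : ℝ)) := by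
        rw [hint]; ring
    _ = _ := by rw [ENNReal.mul_inv_cancel hC0 hC, one_mul]

theorem msm_gen (hC0 : C ≠ 0) (hC : C ≠ ⊤) (hκ : κ * U.card ≤ 1) (hE : ∀ v, E v ≤ C * Ep 0 κ U v)
    (hf : Measurable f) (hfE : ∀ z, f z ≤ E z) (R : ℝ) :
    ∫⁻ z, w1 z * f z ≤ ENNReal.ofReal (1 + R) * (∫⁻ z, f z) +
      C * (ca (1 + 0) * KI) * ENNReal.ofReal (Real.exp (-(1 / 4 * R))) := by
  set f' : R3 → ℝ≥0∞ := fun z => C⁻¹ * f z with hf'
  have hf'm : Measurable f' := hf.const_mul _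
  have hff : ∀ z, f z = C * f' z := by
    intro z
    rw [hf', ← mul_assoc, ENNReal.mul_inv_cancel hC0 hC, one_mul]
  have hf'E : ∀ y, f' y ≤ Ep 0 κ U y := by
    intro y
    calc f' y ≤ C⁻¹ * (C * Ep 0 κ U y) := by
          change C⁻¹ * f y ≤ _
          gcongr; exact (hfE y).trans (hE y)
      _ = Ep 0 κ U y := by rw [← mul_assoc, ENNReal.inv_mul_cancel hC0 hC, one_mul]
  have hint : ∫⁻ y, f' y = C⁻¹ * ∫⁻ y, f y := lintegral_const_mul _ hf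
  have h1 := moment_interp 1 0 hκ hf'm hf'E R
  simp only [pow_one] at h1
  calc ∫⁻ z, w1 z * f z = C * ∫⁻ z, ENNReal.ofReal (1 + ‖z‖) * f' z := by
        rw [← lintegral_const_mul' _ _ hC]
        refine lintegral_congr fun z => ?_
        rw [hff z]; unfold w1; ring
    _ ≤ C * (ENNReal.ofReal (1 + R) * (∫⁻ y, f' y) +
          ENNReal.ofReal (Real.exp (-(1 / 4 * R))) * (ca (1 + 0) * KI)) := by gcongr
    _ = (C * C⁻¹) * (ENNReal.ofReal (1 + R) * (∫⁻ y, f y)) +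
          C * (ca (1 + 0) * KI) * ENNReal.ofReal (Real.exp (-(1 / 4 * R))) := by
        rw [hint]; ring
    _ = _ := by rw [ENNReal.mul_inv_cancel hC0 hC, one_mul]

theorem mom_gen (hC : C ≠ ⊤) (hκ : κ * U.card ≤ 1) (hE : ∀ v, E v ≤ C * Ep 0 κ U v) :
    ∫⁻ z, w1 z * E z ≤ C * (ca (1 + 0) * KI) := by
  have h1 := moment_Ep_le 1 0 hκ
  simp only [pow_one] at h1
  calc ∫⁻ z, w1 z * E z ≤ ∫⁻ z, C * (ENNReal.ofReal (1 + ‖z‖) * Ep 0 κ U z) := by
        refine lintegral_mono fun z => ?_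
        calc w1 z * E z ≤ w1 z * (C * Ep 0 κ U z) := by gcongr; exact hE z
          _ = _ := by unfold w1; ring
    _ = C * ∫⁻ z, ENNReal.ofReal (1 + ‖z‖) * Ep 0 κ U z := lintegral_const_mul' _ _ hC
    _ ≤ _ := by gcongr

end gen

/-- smallness by the choice of `δ` -/
theorem small1 {B : ℝ≥0∞} (hB : B ≠ ⊤) {ε : ℝ} (hε : 0 < ε) :
    B * ENNReal.ofReal (((ε / (B.toReal + 1)) ^ 4) ^ (1 / 4 : ℝ)) ≤ ENNReal.ofReal ε := by
  have hb : 0 ≤ B.toReal := ENNReal.toReal_nonneg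
  have h1 : ((ε / (B.toReal + 1)) ^ 4) ^ (1 / 4 : ℝ) = ε / (B.toReal + 1) := by
    rw [← Real.rpow_natCast, ← Real.rpow_mul (by positivity)]
    norm_num
  rw [h1, ← ENNReal.ofReal_toReal hB, ← ENNReal.ofReal_mul hb, ENNReal.toReal_ofReal hb]
  apply ENNReal.ofReal_le_ofReal
  rw [mul_div_assoc', div_le_iff₀ (by positivity)]
  nlinarith

theorem small2 {B : ℝ≥0∞} (hB : B ≠ ⊤) {ε : ℝ} (hε : 0 < ε) :
    B * ENNReal.ofReal (Real.exp (-(1 / 4 * (4 * (B.toReal / ε))))) ≤ ENNReal.ofReal ε := by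
  have hb : 0 ≤ B.toReal := ENNReal.toReal_nonneg
  rw [← ENNReal.ofReal_toReal hB, ← ENNReal.ofReal_mul hb, ENNReal.toReal_ofReal hb]
  apply ENNReal.ofReal_le_ofReal
  have h1 : 1 / 4 * (4 * (B.toReal / ε)) = B.toReal / ε := by ring
  rw [h1, Real.exp_neg, ← div_eq_mul_inv, div_le_iff₀ (Real.exp_pos _)]
  have h2 := Real.add_one_le_exp (B.toReal / ε)
  calc B.toReal = ε * (B.toReal / ε) := by field_simp
    _ ≤ ε * Real.exp (B.toReal / ε) := by gcongr; linarith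

/-- the domination constant as an extended number -/
def CE (Y lam : ℝ) : ℝ≥0∞ := ENNReal.ofReal (CW Y lam)
/-- first constant of `KHyp` -/
def C1E (Y lam : ℝ) : ℝ≥0 := (CE Y lam * CE Y lam * CQ 0 + CE Y lam * (ca (1 + 0) * KI)).toNNReal
/-- coefficients of the smallness estimates -/
def B1E (Y lam : ℝ) : ℝ≥0∞ := CE Y lam * CE Y lam * CP 0 * (ca 0 * KI)
/-- coefficients of the smallness estimates -/
def B2E (Y lam : ℝ) : ℝ≥0∞ := CE Y lam * (ca (1 + 0) * KI)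
/-- the function of `KHyp` -/
def CfE (Y lam : ℝ) (ε : ℝ≥0) : ℝ≥0 :=
  (CE Y lam * CP 0 * ENNReal.ofReal ((ε / ((B1E Y lam).toReal + 1)) ^ 4)⁻¹ +
    ENNReal.ofReal (1 + 4 * ((B2E Y lam).toReal / ε))).toNNReal

theorem CE_ne_top (Y lam : ℝ) : CE Y lam ≠ ⊤ := ENNReal.ofReal_ne_top

theorem C1E_eq (Y lam : ℝ) :
    (C1E Y lam : ℝ≥0∞) = CE Y lam * CE Y lam * CQ 0 + CE Y lam * (ca (1 + 0) * KI) := by
  unfold C1E
  refine ENNReal.coe_toNNReal (ENNReal.add_ne_top.2 ⟨?_, ?_⟩)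
  · exact ENNReal.mul_ne_top (ENNReal.mul_ne_top (CE_ne_top _ _) (CE_ne_top _ _)) (CQ_lt_top 0).ne
  · exact ENNReal.mul_ne_top (CE_ne_top _ _) (ENNReal.mul_ne_top (ca_lt_top _).ne KI_lt_top.ne)

theorem B1E_ne_top (Y lam : ℝ) : B1E Y lam ≠ ⊤ :=
  ENNReal.mul_ne_top (ENNReal.mul_ne_top (ENNReal.mul_ne_top (CE_ne_top _ _) (CE_ne_top _ _))
    (CP_lt_top 0).ne) (ENNReal.mul_ne_top (ca_lt_top _).ne KI_lt_top.ne)

theorem B2E_ne_top (Y lam : ℝ) : B2E Y lam ≠ ⊤ :=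
  ENNReal.mul_ne_top (CE_ne_top _ _) (ENNReal.mul_ne_top (ca_lt_top _).ne KI_lt_top.ne)

theorem CfE_eq (Y lam : ℝ) (ε : ℝ≥0) :
    (CfE Y lam ε : ℝ≥0∞) =
      CE Y lam * CP 0 * ENNReal.ofReal ((ε / ((B1E Y lam).toReal + 1)) ^ 4)⁻¹ +
        ENNReal.ofReal (1 + 4 * ((B2E Y lam).toReal / ε)) := by
  unfold CfE
  refine ENNReal.coe_toNNReal (ENNReal.add_ne_top.2 ⟨?_, ENNReal.ofReal_ne_top⟩)
  exact ENNReal.mul_ne_top (ENNReal.mul_ne_top (CE_ne_top _ _) (CP_lt_top 0).ne)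
    ENNReal.ofReal_ne_top

/-- **the kernel hypotheses of part W hold for the class `EW`, with constants depending only on
`Y` and `lam`** -/
theorem KHyp_EW {P : Par} (hP : ParD P) {lam T1 : ℝ} (hlam : 0 < lam) (h0 : 0 ≤ T1) (h1 : T1 ≤ 1) :
    KHyp T1 lam (C1E P.Y lam) (CfE P.Y lam) (EW P lam T1) := by
  have hY := hP.Y
  have hC0 : CE P.Y lam ≠ 0 := by
    unfold CE
    simpa using CW_pos hY hlam
  have hC := CE_ne_top P.Y lam
  have hdom : ∀ t x, T1 ≤ t → ∀ v, EW P lam T1 t x v ≤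
      CE P.Y lam * Ep 0 (kapW P.Y t) (UU P t x) v :=
    fun t x ht v => EW_le_Ep hP hlam h0 h1 ht x v
  have hκ : ∀ t x, T1 ≤ t → kapW P.Y t * (UU P t x).card ≤ 1 :=
    fun t x ht => kapW_mul_card hP (h0.trans ht) x
  have hmE : ∀ t x, Measurable (EW P lam T1 t x) := fun t x =>
    (measurable_EW hY lam T1).comp (f := fun v : R3 => (t, x, v)) (by fun_prop)
  have hsm : ∀ ε : ℝ≥0, 0 < ε → ∀ t x v, T1 ≤ t → ∀ f : R3 → ℝ≥0∞, Measurable f →
      (∀ z, f z ≤ EW P lam T1 t x z) → Qp f (EW P lam T1 t x) v ≤ ε + CfE P.Y lam ε * ∫⁻ z, f z := by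
    intro ε hε t x v ht f hf hfE
    have hε' : (0 : ℝ) < ε := by exact_mod_cast hε
    have hδ : 0 < ((ε : ℝ) / ((B1E P.Y lam).toReal + 1)) ^ 4 := by
      have : 0 ≤ (B1E P.Y lam).toReal := ENNReal.toReal_nonneg
      positivity
    refine (gsm_gen hC0 hC (hκ t x ht) (hdom t x ht) hf hfE hδ v).trans ?_
    rw [add_comm]
    have h2 := small1 (B1E_ne_top P.Y lam) hε'
    refine add_le_add ?_ ?_
    · refine h2.trans_eq ?_
      rw [ENNReal.ofReal_coe_nnreal]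
    · rw [CfE_eq]
      gcongr
      exact le_self_add
  refine ⟨measurable_EW hY lam T1, fun t x v _ => We_le_EW P lam T1 t x v, ?_, hsm, ?_, ?_, ?_, ?_⟩
  · intro t x v ht
    refine (gain_gen hC (hκ t x ht) (hdom t x ht) v).trans ?_
    rw [C1E_eq]
    gcongr
    exact le_self_add
  · intro ε hε t x v ht f hf hfE
    rw [WK.Qp_comm (hmE t x) hf]
    exact hsm ε hε t x v ht f hf hfE
  · intro ε hε t x ht f hf hfE
    have hε' : (0 : ℝ) < ε := by exact_mod_cast hε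
    refine (msm_gen hC0 hC (hκ t x ht) (hdom t x ht) hf hfE
      (4 * ((B2E P.Y lam).toReal / ε))).trans ?_
    rw [add_comm]
    have h2 := small2 (B2E_ne_top P.Y lam) hε'
    refine add_le_add ?_ ?_
    · refine h2.trans_eq ?_
      rw [ENNReal.ofReal_coe_nnreal]
    · rw [CfE_eq]
      gcongr
      exact le_add_self
  · intro t x ht
    refine (mom_gen hC (hκ t x ht) (hdom t x ht)).trans ?_
    rw [C1E_eq]
    exact le_add_self
  · intro s t x v hs hst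
    exact EW_flight hY hlam.le (h0.trans hs) hst x v

end Crest.Agent.R68.WA
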