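import Mathlib
import Crest.Agent.R68.CGauss
import Crest.Agent.R68.WA0

/-!
# Row 68, PART W (helper835): the Maxwellian. `Qp M M = M Lc M`, `1 + |v| ≤ Lc M v ≤ 18 (1+|v|)`,
mass one.
-/

set_option autoImplicit false
open MeasureTheory Set
open scoped ENNReal NNReal
open Crest.AnalysisR.VecCalc3 Crest.AnalysisR.PDE.Boltzmann

noncomputable section

namespace Crest.Agent.R68.WA

theorem Mx_eq_gs (v : R3) : Mx v = C.gs ((2 * Real.pi) ^ (-(3 / 2 : ℝ))) 1 0 v := by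
  unfold Mx maxwellian C.gs
  simp

theorem Mx_eq_gs' : Mx = C.gs ((2 * Real.pi) ^ (-(3 / 2 : ℝ))) 1 0 := funext Mx_eq_gs

theorem maxwellian_pos (v : R3) : 0 < maxwellian v := by
  unfold maxwellian; positivity

theorem Mx_ne_top (v : R3) : Mx v ≠ ⊤ := ENNReal.ofReal_ne_top

theorem Mx_neg (v : R3) : Mx (-v) = Mx v := by
  unfold Mx maxwellian; rw [norm_neg]

/-- **the Maxwellian is an equilibrium: gain = loss** -/
theorem Qp_Mx (v : R3) : Qp Mx Mx v = Mx v * Lc Mx v := by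
  rw [Mx_eq_gs']
  exact C.Qp_gs (by positivity) _ _ _

/-- Gaussian integrals of the Maxwellian -/
theorem lintegral_Mx : ∫⁻ v, Mx v = 1 := by
  have h1 : ∀ v : R3, Mx v = ENNReal.ofReal ((2 * Real.pi) ^ (-(3 / 2 : ℝ))) *
      ENNReal.ofReal (Real.exp (-(1 / 2) * ‖v‖ ^ 2)) := by
    intro v
    unfold Mx maxwellian
    rw [← ENNReal.ofReal_mul (by positivity)]
    congr 3
    ring
  simp_rw [h1]
  rw [lintegral_const_mul' _ _ ENNReal.ofReal_ne_top, C.lintegral_gauss (by norm_num),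
    ← ENNReal.ofReal_mul (by positivity)]
  have h2 : Real.pi / (1 / 2) = 2 * Real.pi := by ring
  rw [h2, ← Real.rpow_add (by positivity)]
  norm_num

theorem lintegral_Mx_mul_exp :
    ∫⁻ v : R3, ENNReal.ofReal (Real.exp (-(1 / 2) * ‖v‖ ^ 2)) * Mx v ≤ ENNReal.ofReal (1 / 2) := by
  have h1 : ∀ v : R3, ENNReal.ofReal (Real.exp (-(1 / 2) * ‖v‖ ^ 2)) * Mx v =
      ENNReal.ofReal ((2 * Real.pi) ^ (-(3 / 2 : ℝ))) *
        ENNReal.ofReal (Real.exp (-1 * ‖v‖ ^ 2)) := by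
    intro v
    unfold Mx maxwellian
    rw [← ENNReal.ofReal_mul (by positivity), ← ENNReal.ofReal_mul (by positivity)]
    congr 1
    have : Real.exp (-1 * ‖v‖ ^ 2) = Real.exp (-(1 / 2) * ‖v‖ ^ 2) * Real.exp (-‖v‖ ^ 2 / 2) := by
      rw [← Real.exp_add]; congr 1; ring
    rw [this]; ring
  simp_rw [h1]
  rw [lintegral_const_mul' _ _ ENNReal.ofReal_ne_top, C.lintegral_gauss (by norm_num),
    ← ENNReal.ofReal_mul (by positivity)]
  apply ENNReal.ofReal_le_ofReal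
  rw [div_one, Real.mul_rpow (by norm_num) Real.pi_pos.le, mul_assoc, ← Real.rpow_add Real.pi_pos]
  norm_num
  have h3 : (2 : ℝ) ^ (-(3 / 2) : ℝ) ≤ (2 : ℝ) ^ (-1 : ℝ) :=
    Real.rpow_le_rpow_of_exponent_le (by norm_num) (by norm_num)
  have h4 : (2 : ℝ) ^ (-1 : ℝ) = 1 / 2 := by norm_num
  linarith

/-- first absolute moment of the Maxwellian -/
theorem lintegral_norm_Mx : ENNReal.ofReal (1 / 2) ≤ ∫⁻ v : R3, ENNReal.ofReal ‖v‖ * Mx v := by
  have h1 : ∀ v : R3, Mx v ≤ ENNReal.ofReal ‖v‖ * Mx v +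
      ENNReal.ofReal (Real.exp (-(1 / 2) * ‖v‖ ^ 2)) * Mx v := by
    intro v
    rw [← add_mul, ← ENNReal.ofReal_add (norm_nonneg v) (Real.exp_pos _).le]
    have h2 : (1 : ℝ) ≤ ‖v‖ + Real.exp (-(1 / 2) * ‖v‖ ^ 2) := by
      have h3 := Real.add_one_le_exp (-(1 / 2) * ‖v‖ ^ 2)
      have h4 := (Real.exp_pos (-(1 / 2) * ‖v‖ ^ 2)).le
      have h5 := norm_nonneg v
      rcases le_or_gt 1 ‖v‖ with h | h
      · linarith
      · nlinarith
    calc Mx v = 1 * Mx v := (one_mul _).symm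
      _ ≤ _ := by
        gcongr
        rw [← ENNReal.ofReal_one]
        exact ENNReal.ofReal_le_ofReal h2
  have h2 := lintegral_mono (μ := volume) h1
  rw [lintegral_Mx, lintegral_add_right _ (by
    have := measurable_Mx
    fun_prop)] at h2
  have h3 := h2.trans (add_le_add_right lintegral_Mx_mul_exp _)
  have h4 : (1 : ℝ≥0∞) = ENNReal.ofReal (1 / 2) + ENNReal.ofReal (1 / 2) := by
    rw [← ENNReal.ofReal_add (by norm_num) (by norm_num)]; norm_num
  rw [h4] at h3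
  exact (ENNReal.add_le_add_iff_right ENNReal.ofReal_ne_top).1 h3

/-- symmetrisation: `|v - z| + |v + z| ≥ |v| + |z|` -/
theorem norm_add_norm_le_symm (v z : R3) : ‖v‖ + ‖z‖ ≤ ‖v - z‖ + ‖v + z‖ := by
  have h1 : ‖(2 : ℝ) • v‖ ≤ ‖v - z‖ + ‖v + z‖ := by
    have : (2 : ℝ) • v = (v - z) + (v + z) := by rw [two_smul]; abel
    rw [this]; exact norm_add_le _ _
  have h2 : ‖(2 : ℝ) • z‖ ≤ ‖v + z‖ + ‖v - z‖ := by
    have : (2 : ℝ) • z = (v + z) - (v - z) := by rw [two_smul]; abel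
    rw [this]; exact norm_sub_le _ _
  rw [norm_smul] at h1 h2
  norm_num at h1 h2
  linarith

/-- **lower bound of the collision frequency of the Maxwellian** -/
theorem w1_le_Lc_Mx (v : R3) : w1 v ≤ Lc Mx v := by
  rw [C.Lc_eq]
  have hm := measurable_Mx
  set I := ∫⁻ z : R3, ENNReal.ofReal (2 * Real.pi * ‖v - z‖) * Mx z with hI
  have hneg : I = ∫⁻ z : R3, ENNReal.ofReal (2 * Real.pi * ‖v + z‖) * Mx z := by
    rw [hI, ← lintegral_neg_eq_self]
    refine lintegral_congr fun z => ?_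
    rw [sub_neg_eq_add, Mx_neg]
  have h1 : ENNReal.ofReal (2 * Real.pi * ‖v‖) + ENNReal.ofReal Real.pi ≤ I + I := by
    nth_rw 2 [hneg]
    rw [hI, ← lintegral_add_left (by fun_prop)]
    calc ENNReal.ofReal (2 * Real.pi * ‖v‖) + ENNReal.ofReal Real.pi
        ≤ ∫⁻ z : R3, (ENNReal.ofReal (2 * Real.pi * ‖v‖) * Mx z +
            ENNReal.ofReal (2 * Real.pi) * (ENNReal.ofReal ‖z‖ * Mx z)) := by
          rw [lintegral_add_left (by fun_prop), lintegral_const_mul' _ _ ENNReal.ofReal_ne_top,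
            lintegral_const_mul' _ _ ENNReal.ofReal_ne_top, lintegral_Mx, mul_one]
          gcongr
          calc ENNReal.ofReal Real.pi = ENNReal.ofReal (2 * Real.pi) * ENNReal.ofReal (1 / 2) := by
                rw [← ENNReal.ofReal_mul (by positivity)]; congr 1; ring
            _ ≤ _ := by gcongr; exact lintegral_norm_Mx
      _ ≤ _ := by
          refine lintegral_mono fun z => ?_
          rw [← mul_assoc, ← add_mul, ← add_mul, ← ENNReal.ofReal_mul (by positivity),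
            ← ENNReal.ofReal_add (by positivity) (by positivity),
            ← ENNReal.ofReal_add (by positivity) (by positivity)]
          gcongr ?_ * _
          apply ENNReal.ofReal_le_ofReal
          have := norm_add_norm_le_symm v z
          have hpi := Real.pi_pos
          nlinarith
  have h2 : w1 v + w1 v ≤ ENNReal.ofReal (2 * Real.pi * ‖v‖) + ENNReal.ofReal Real.pi := by
    unfold w1
    rw [← ENNReal.ofReal_add (by positivity) (by positivity),
      ← ENNReal.ofReal_add (by positivity) (by positivity)]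
    apply ENNReal.ofReal_le_ofReal
    have := Real.pi_gt_three
    nlinarith [norm_nonneg v]
  have h3 : 2 * w1 v ≤ 2 * I := by
    rw [two_mul, two_mul]; exact h2.trans h1
  exact (ENNReal.mul_le_mul_iff_right (by norm_num) (by norm_num)).1 h3

/-- upper bound of the collision frequency of the Maxwellian -/
theorem Lc_Mx_le (v : R3) : Lc Mx v ≤ ENNReal.ofReal 18 * w1 v := by
  rw [Mx_eq_gs']
  refine (C.Lc_gs_le (by positivity) one_pos 0 v).trans ?_
  unfold w1 C.CG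
  rw [← ENNReal.ofReal_mul (by norm_num)]
  apply ENNReal.ofReal_le_ofReal
  have h1 : (4 * Real.pi) ^ (3 / 2 : ℝ) * (2 * Real.pi) ^ (-(3 / 2 : ℝ)) = (2 : ℝ) ^ (3 / 2 : ℝ) := by
    have : (4 * Real.pi) = 2 * (2 * Real.pi) := by ring
    rw [this, Real.mul_rpow (by norm_num) (by positivity), mul_assoc,
      ← Real.rpow_add (by positivity)]
    norm_num
  have h2 : (2 : ℝ) ^ (3 / 2 : ℝ) ≤ 2.8285 := by
    rw [show (3 / 2 : ℝ) = 1 + 1 / 2 by norm_num, Real.rpow_add (by norm_num), Real.rpow_one,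
      ← Real.sqrt_eq_rpow]
    have : √2 ≤ 1.41425 := by
      rw [Real.sqrt_le_left (by norm_num)]; norm_num
    linarith
  have h3 : 2 * Real.pi * (4 * Real.pi) ^ (3 / 2 : ℝ) * (2 * Real.pi) ^ (-(3 / 2 : ℝ)) ≤ 18 := by
    rw [mul_assoc, h1]
    have h4 := Real.pi_lt_d2
    have h5 : (0 : ℝ) < (2 : ℝ) ^ (3 / 2 : ℝ) := by positivity
    nlinarith [Real.pi_pos]
  have h6 : 0 ≤ ‖v‖ + 1 := by positivity
  calc 2 * Real.pi * (4 * Real.pi) ^ (3 / 2 : ℝ) * (2 * Real.pi) ^ (-(3 / 2 : ℝ)) * 1 ^ 3 *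
        (‖v - 0‖ + 1)
      = (2 * Real.pi * (4 * Real.pi) ^ (3 / 2 : ℝ) * (2 * Real.pi) ^ (-(3 / 2 : ℝ))) *
        (‖v‖ + 1) := by rw [sub_zero]; ring
    _ ≤ 18 * (‖v‖ + 1) := by gcongr
    _ = 18 * (1 + ‖v‖) := by ring

/-- the Maxwellian is below a constant times `e^{-|v|}` -/
theorem Mx_le_We (v : R3) : Mx v ≤ We v := by
  unfold Mx We maxwellian
  apply ENNReal.ofReal_le_ofReal
  have h1 : (2 * Real.pi) ^ (-(3 / 2 : ℝ)) ≤ Real.exp (-(1 / 2)) := by
    have h2 : (2 * Real.pi) ^ (-(3 / 2 : ℝ)) ≤ (2 * Real.pi) ^ (-(1 : ℝ)) :=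
      Real.rpow_le_rpow_of_exponent_le (by have := Real.pi_gt_three; linarith) (by norm_num)
    have h3 : (2 * Real.pi) ^ (-(1 : ℝ)) ≤ 1 / 6 := by
      rw [Real.rpow_neg (by positivity), Real.rpow_one, ← one_div]
      apply one_div_le_one_div_of_le (by norm_num)
      have := Real.pi_gt_three; linarith
    have h4 := Real.add_one_le_exp (-(1 / 2) : ℝ)
    linarith
  calc (2 * Real.pi) ^ (-(3 / 2 : ℝ)) * Real.exp (-‖v‖ ^ 2 / 2)
      ≤ Real.exp (-(1 / 2)) * Real.exp (-‖v‖ ^ 2 / 2) := by gcongr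
    _ = Real.exp (-(1 / 2) + -‖v‖ ^ 2 / 2) := (Real.exp_add _ _).symm
    _ ≤ Real.exp (-‖v‖) := by
        apply Real.exp_le_exp.2
        nlinarith [sq_nonneg (‖v‖ - 1)]

end Crest.Agent.R68.WA
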