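import Mathlib
import Crest.Agent.R68.WE2
import Crest.Agent.R68.WM

/-!
# Row 68, PART W (helper835): the `w1`-weighted estimates of the class `EW` (for the truncated
problem of helper475).
-/

set_option autoImplicit false
open MeasureTheory Set
open scoped ENNReal NNReal
open Crest.AnalysisR.VecCalc3 Crest.AnalysisR.PDE.Boltzmann

noncomputable section

namespace Crest.Agent.R68.WA

open WK DPole

theorem Ep_one (κ : ℝ≥0∞) (U : Finset R3) (v : R3) : Ep 1 κ U v = w1 v * Ep 0 κ U v :=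
  Ep_succ κ U 0 v

theorem ew_one (v : R3) : ew 1 v = w1 v * We v := by
  unfold ew w1 We
  rw [← ENNReal.ofReal_mul (by positivity)]; simp

/-- constant of the weighted estimates -/
def C2E (Y lam : ℝ) : ℝ≥0 :=
  (CE Y lam * CE Y lam * CQ 1 + CE Y lam * (ENNReal.ofReal (2 * Real.pi) * (ca (1 + 1) * KI))).toNNReal

theorem C2E_eq (Y lam : ℝ) : (C2E Y lam : ℝ≥0∞) =
    CE Y lam * CE Y lam * CQ 1 + CE Y lam * (ENNReal.ofReal (2 * Real.pi) * (ca (1 + 1) * KI)) := by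
  unfold C2E
  refine ENNReal.coe_toNNReal (ENNReal.add_ne_top.2 ⟨?_, ?_⟩)
  · exact ENNReal.mul_ne_top (ENNReal.mul_ne_top (CE_ne_top _ _) (CE_ne_top _ _)) (CQ_lt_top 1).ne
  · exact ENNReal.mul_ne_top (CE_ne_top _ _) (ENNReal.mul_ne_top ENNReal.ofReal_ne_top
      (ENNReal.mul_ne_top (ca_lt_top _).ne KI_lt_top.ne))

section

variable {P : Par} {lam T1 t : ℝ}

theorem w1EW_le (hP : ParD P) (hlam : 0 < lam) (h0 : 0 ≤ T1) (h1 : T1 ≤ 1) (ht : T1 ≤ t)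
    (x : P2) (v : R3) :
    w1 v * EW P lam T1 t x v ≤ CE P.Y lam * Ep 1 (kapW P.Y t) (UU P t x) v := by
  rw [Ep_one]
  calc w1 v * EW P lam T1 t x v ≤ w1 v * (CE P.Y lam * Ep 0 (kapW P.Y t) (UU P t x) v) := by
        gcongr; exact EW_le_Ep hP hlam h0 h1 ht x v
    _ = _ := by ring

theorem EW_le_Ep1 (hP : ParD P) (hlam : 0 < lam) (h0 : 0 ≤ T1) (h1 : T1 ≤ 1) (ht : T1 ≤ t)
    (x : P2) (v : R3) :
    EW P lam T1 t x v ≤ CE P.Y lam * Ep 1 (kapW P.Y t) (UU P t x) v :=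
  (EW_le_Ep hP hlam h0 h1 ht x v).trans (mul_le_mul_right (Ep_mono (Nat.zero_le 1) _ _ v) _)

/-- all four products of `EW` and `w1 * EW` -/
theorem Qp_w1EW (hP : ParD P) (hlam : 0 < lam) (h0 : 0 ≤ T1) (h1 : T1 ≤ 1) (ht : T1 ≤ t)
    (x : P2) {f g : R3 → ℝ≥0∞} (hf : ∀ z, f z ≤ w1 z * EW P lam T1 t x z)
    (hg : ∀ z, g z ≤ w1 z * EW P lam T1 t x z) (v : R3) :
    Qp f g v ≤ C2E P.Y lam * (w1 v * We v) := by
  have hκ := kapW_mul_card hP (h0.trans ht) x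
  calc Qp f g v ≤ Qp (fun a => CE P.Y lam * Ep 1 (kapW P.Y t) (UU P t x) a)
        (fun a => CE P.Y lam * Ep 1 (kapW P.Y t) (UU P t x) a) v :=
        WA.Qp_mono (fun z => (hf z).trans (w1EW_le hP hlam h0 h1 ht x z))
          (fun z => (hg z).trans (w1EW_le hP hlam h0 h1 ht x z)) v
    _ = CE P.Y lam * (CE P.Y lam * Qp (Ep 1 (kapW P.Y t) (UU P t x))
          (Ep 1 (kapW P.Y t) (UU P t x)) v) := by
        rw [Qp_smul_left (CE_ne_top _ _), Qp_smul_right (CE_ne_top _ _)]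
    _ ≤ CE P.Y lam * (CE P.Y lam * (CQ 1 * ew 1 v)) := by gcongr; exact Qp_Ep_le 1 hκ v
    _ = CE P.Y lam * CE P.Y lam * CQ 1 * (w1 v * We v) := by rw [ew_one]; ring
    _ ≤ _ := by
        rw [C2E_eq]
        gcongr
        exact le_self_add

theorem Lc_w1EW (hP : ParD P) (hlam : 0 < lam) (h0 : 0 ≤ T1) (h1 : T1 ≤ 1) (ht : T1 ≤ t)
    (x : P2) {f : R3 → ℝ≥0∞} (hf : ∀ z, f z ≤ w1 z * EW P lam T1 t x z) (v : R3) :
    Lc f v ≤ C2E P.Y lam * w1 v := by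
  have hκ := kapW_mul_card hP (h0.trans ht) x
  calc Lc f v ≤ Lc (fun a => CE P.Y lam * Ep 1 (kapW P.Y t) (UU P t x) a) v :=
        WA.Lc_mono (fun z => (hf z).trans (w1EW_le hP hlam h0 h1 ht x z)) v
    _ = CE P.Y lam * Lc (Ep 1 (kapW P.Y t) (UU P t x)) v := C.Lc_const_mul (CE_ne_top _ _) _ v
    _ ≤ CE P.Y lam * (ENNReal.ofReal (2 * Real.pi) * (ca (1 + 1) * KI) *
          ENNReal.ofReal (1 + ‖v‖)) := by gcongr; exact Lc_Ep_le 1 hκ v
    _ = CE P.Y lam * (ENNReal.ofReal (2 * Real.pi) * (ca (1 + 1) * KI)) * w1 v := by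
        unfold w1; ring
    _ ≤ _ := by
        rw [C2E_eq]
        gcongr
        exact le_add_self

/-- `E` is finite for almost every velocity -/
theorem ae_EW_ne_top (hP : ParD P) (hlam : 0 < lam) (h0 : 0 ≤ T1) (h1 : T1 ≤ 1) (ht : T1 ≤ t)
    (x : P2) : ∀ᵐ v, EW P lam T1 t x v ≠ ⊤ := by
  have hK := KHyp_EW hP hlam h0 h1
  have h2 := hK.mom t x ht
  have hm : Measurable (EW P lam T1 t x) :=
    (measurable_EW hP.Y lam T1).comp (f := fun v : R3 => (t, x, v)) (by fun_prop)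
  have h3 : ∫⁻ v, EW P lam T1 t x v ≠ ⊤ := by
    refine ne_top_of_le_ne_top (b := (C1E P.Y lam : ℝ≥0∞)) ENNReal.coe_ne_top ?_
    refine le_trans (lintegral_mono fun v => ?_) h2
    calc EW P lam T1 t x v = 1 * EW P lam T1 t x v := (one_mul _).symm
      _ ≤ _ := by gcongr; exact one_le_w1 v
  exact (ae_lt_top hm h3).mono fun v hv => hv.ne

end

end Crest.Agent.R68.WA
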