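import Crest.Agent.R68.WG2

/-!
# Row 68, PART W (helper153): continuation of the truncated solution for all times
-/

set_option autoImplicit false
open MeasureTheory Set
open scoped ENNReal NNReal
open Crest.AnalysisR.VecCalc3 Crest.AnalysisR.PDE.Boltzmann

noncomputable section

namespace Crest.Agent.R68.WG

open Crest.Agent.R68.W Crest.Agent.R68.WA

variable {T1 : ℝ} {b : ℝ≥0} {E : ℝ → P2 → R3 → ℝ≥0∞} {u : Om → ℝ} {c Sp : Om → ℝ≥0∞}
    {h1 : P2 → R3 → ℝ≥0∞} {Hc L P : Om → ℝ≥0∞}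

theorem fpi_coe : ((fpi : ℝ≥0) : ℝ≥0∞) = ENNReal.ofReal (4 * Real.pi) := rfl

/-- lower bound of the loss rate from the smallness of the density distance -/
theorem TSys.rate_ge (S : TSys T1 b E u c Sp h1 Hc L P) {T nu0 : ℝ} (hnu : 0 < nu0)
    (hnuM : ∀ v : R3, ENNReal.ofReal (nu0 * (1 + ‖v‖)) ≤ Lc Mx v)
    (hT : ∀ t x v, T1 ≤ t → t ≤ T → ENNReal.ofReal (u (t, x, v)) ≤ b * E t x v) {del : ℝ≥0}
    (hdel : (fpi : ℝ≥0∞) * del ≤ ENNReal.ofReal (nu0 / 2)) {t : ℝ} {x : P2} (ht1 : T1 ≤ t)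
    (ht2 : t ≤ T) (hN : ∫⁻ z, w1 z * ghf u t x z ≤ del) (v : R3) :
    ENNReal.ofReal (nu0 / 2) * w1 v ≤ Lc (fun w => Hc (t, x, w)) v := by
  have hm' : Measurable fun w => ENNReal.ofReal (u (t, x, w)) :=
    (S.um.comp (meas_slice t x)).ennreal_ofReal
  have e1 : Lc Mx v ≤ Lc (fun w => ENNReal.ofReal (u (t, x, w))) v + Lc (ghf u t x) v := by
    rw [← Lc_add hm']
    exact WA.Lc_mono (ghf_le2 u t x) v
  have e2 : Lc (ghf u t x) v ≤ ENNReal.ofReal (nu0 / 2) * w1 v := by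
    refine (Lc_le _ _).trans ?_
    calc ENNReal.ofReal (4 * Real.pi) * w1 v * ∫⁻ z, w1 z * ghf u t x z
        ≤ ENNReal.ofReal (4 * Real.pi) * w1 v * del := by gcongr
      _ = (fpi : ℝ≥0∞) * del * w1 v := by rw [fpi_coe]; ring
      _ ≤ _ := by gcongr
  have e3 : ENNReal.ofReal (nu0 / 2) * w1 v + ENNReal.ofReal (nu0 / 2) * w1 v ≤
      Lc (fun w => ENNReal.ofReal (u (t, x, w))) v + ENNReal.ofReal (nu0 / 2) * w1 v := by
    calc _ = ENNReal.ofReal (nu0 * (1 + ‖v‖)) := by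
          unfold w1
          rw [← ENNReal.ofReal_mul (by positivity), ← ENNReal.ofReal_add (by positivity)
            (by positivity)]
          congr 1; ring
      _ ≤ Lc Mx v := hnuM v
      _ ≤ _ := e1.trans (add_le_add le_rfl e2)
  rw [S.Hcu hT x ht1 ht2]
  refine (ENNReal.add_le_add_iff_right ?_).1 e3
  exact ENNReal.mul_ne_top ENNReal.ofReal_ne_top (w1_ne_top v)

/-- crude growth over one step -/
theorem TSys.step (S : TSys T1 b E u c Sp h1 Hc L P) {lam : ℝ} {C1 : ℝ≥0} {Cf : ℝ≥0 → ℝ≥0}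
    (hE : KHyp T1 lam C1 Cf E) (hlam : 0 ≤ lam) {T τ : ℝ} (hT1 : T1 ≤ T)
    {hs S0 : ℝ≥0} (hb : b ≠ 0)
    (hT : ∀ x v, ENNReal.ofReal (u (T, x, v)) ≤ hs * E T x v)
    {vs : ℝ → ℝ≥0∞} (hvs : Measurable vs) (hvs0 : ∫⁻ t in Ioi T1, vs t ≤ S0)
    (cold : ∀ t x v, T1 ≤ t → t ≤ T + 1 →
      Qp (fun w => c (t, x, w)) (fun w => Hc (t, x, w)) v +
        Qp (fun w => Hc (t, x, w)) (fun w => c (t, x, w)) v + Sp (t, x, v) ≤ vs t * E t x v)
    (hτ1 : τ ≤ 1)
    (hc : ENNReal.ofReal (Real.exp (lam * τ)) * (hs + S0) + b * b * C1 * ENNReal.ofReal τ ≤ b)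
    {t : ℝ} (htT : T ≤ t) (ht : t ≤ T + τ) (x : P2) (v : R3) :
    ENNReal.ofReal (u (t, x, v)) ≤ b * E t x v := by
  by_cases hEt : E t x v = ⊤
  · rw [hEt, ENNReal.mul_top (by exact_mod_cast hb)]
    exact le_top
  have hτ0 : 0 ≤ τ := by linarith
  set z : Om := (t, x, v) with hz
  have hexp : ∀ r, T ≤ r → r ≤ t → E r (x - (t - r) • bar v) v ≤
      ENNReal.ofReal (Real.exp (lam * τ)) * E t x v := by
    intro r hr1 hr2
    refine (hE.flight r t x v (hT1.trans hr1) hr2).trans (mul_le_mul' ?_ le_rfl)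
    refine ENNReal.ofReal_le_ofReal (Real.exp_le_exp.2 ?_)
    exact mul_le_mul_of_nonneg_left (by linarith) hlam
  have hHcE : ∀ r y w, Hc (r, y, w) ≤ b * E r y w := by
    intro r y w
    rw [S.Hc_eq]; exact min_le_right _ _
  have e0 := S.restart hE (z := z) hT1 htT hEt
  have e1 : dmp L z T * ENNReal.ofReal (u (fl z T)) ≤
      ENNReal.ofReal (Real.exp (lam * τ)) * hs * E t x v := by
    calc dmp L z T * ENNReal.ofReal (u (fl z T)) ≤ 1 * (hs * E T (x - (t - T) • bar v) v) :=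
          mul_le_mul' (dmp_le_one _ _ _) (hT _ _)
      _ ≤ 1 * (hs * (ENNReal.ofReal (Real.exp (lam * τ)) * E t x v)) := by
          gcongr; exact hexp T le_rfl htT
      _ = _ := by ring
  have e2 : ∫⁻ r in Ioo T t, dmp L z r * P (fl z r) ≤
      (b * b * C1 * ENNReal.ofReal τ) * E t x v +
        ENNReal.ofReal (Real.exp (lam * τ)) * S0 * E t x v := by
    have e3 : ∀ r ∈ Ioo T t, dmp L z r * P (fl z r) ≤
        b * b * C1 * E t x v + vs r * (ENNReal.ofReal (Real.exp (lam * τ)) * E t x v) := by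
      intro r hr
      have hr1 : T1 ≤ r := hT1.trans hr.1.le
      set y : P2 := x - (t - r) • bar v with hy
      have hP : P (fl z r) ≤ b * b * C1 * We v + vs r * E r y v := by
        rw [S.P_eq]
        change Qp (fun w => Hc (r, y, w)) (fun w => Hc (r, y, w)) v +
          Qp (fun w => c (r, y, w)) (fun w => Hc (r, y, w)) v +
          Qp (fun w => Hc (r, y, w)) (fun w => c (r, y, w)) v + Sp (r, y, v) ≤ _
        have a1 : Qp (fun w => Hc (r, y, w)) (fun w => Hc (r, y, w)) v ≤ b * b * C1 * We v := by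
          calc _ ≤ Qp (fun w => b * E r y w) (fun w => b * E r y w) v :=
                WA.Qp_mono (hHcE r y) (hHcE r y) v
            _ = b * (b * Qp (E r y) (E r y) v) := by
                rw [WA.Qp_smul_left ENNReal.coe_ne_top, WA.Qp_smul_right ENNReal.coe_ne_top]
            _ ≤ b * (b * (C1 * We v)) := by gcongr; exact hE.gain r y v hr1
            _ = _ := by ring
        have a2 := cold r y v hr1 (by linarith [hr.2])
        calc _ = Qp (fun w => Hc (r, y, w)) (fun w => Hc (r, y, w)) v +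
            (Qp (fun w => c (r, y, w)) (fun w => Hc (r, y, w)) v +
              Qp (fun w => Hc (r, y, w)) (fun w => c (r, y, w)) v + Sp (r, y, v)) := by ring
          _ ≤ _ := add_le_add a1 a2
      calc dmp L z r * P (fl z r) ≤ 1 * (b * b * C1 * We v + vs r * E r y v) :=
            mul_le_mul' (dmp_le_one _ _ _) hP
        _ ≤ 1 * (b * b * C1 * E t x v + vs r * (ENNReal.ofReal (Real.exp (lam * τ)) * E t x v)) := by
            gcongr
            · exact hE.We_le t x v (hT1.trans htT)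
            · exact hexp r hr.1.le hr.2.le
        _ = _ := one_mul _
    calc ∫⁻ r in Ioo T t, dmp L z r * P (fl z r)
        ≤ ∫⁻ r in Ioo T t, (b * b * C1 * E t x v +
            vs r * (ENNReal.ofReal (Real.exp (lam * τ)) * E t x v)) :=
          setLIntegral_mono' measurableSet_Ioo e3
      _ = b * b * C1 * E t x v * ENNReal.ofReal (t - T) +
            (∫⁻ r in Ioo T t, vs r) * (ENNReal.ofReal (Real.exp (lam * τ)) * E t x v) := by
          rw [lintegral_add_left measurable_const, setLIntegral_const, Real.volume_Ioo,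
            lintegral_mul_const _ hvs]
      _ ≤ b * b * C1 * E t x v * ENNReal.ofReal τ +
            S0 * (ENNReal.ofReal (Real.exp (lam * τ)) * E t x v) := by
          gcongr
          · linarith
          · refine (lintegral_mono_set ?_).trans hvs0
            intro r hr
            exact lt_of_le_of_lt hT1 hr.1
      _ = _ := by ring
  calc ENNReal.ofReal (u z) = dmp L z T * ENNReal.ofReal (u (fl z T)) +
        ∫⁻ r in Ioo T z.1, dmp L z r * P (fl z r) := e0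
    _ ≤ ENNReal.ofReal (Real.exp (lam * τ)) * hs * E t x v +
        ((b * b * C1 * ENNReal.ofReal τ) * E t x v +
        ENNReal.ofReal (Real.exp (lam * τ)) * S0 * E t x v) := add_le_add e1 e2
    _ = (ENNReal.ofReal (Real.exp (lam * τ)) * (hs + S0) + b * b * C1 * ENNReal.ofReal τ) *
          E t x v := by ring
    _ ≤ _ := by gcongr

/-- **Continuation theorem.** -/
theorem global {nu0 lam : ℝ} (hnu : 0 < nu0) (hlam : 0 ≤ lam) (hln : lam ≤ nu0 / 2)
    (hnuM : ∀ v : R3, ENNReal.ofReal (nu0 * (1 + ‖v‖)) ≤ Lc Mx v)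
    (C1 : ℝ≥0) (Cf C8 : ℝ≥0 → ℝ≥0) (htr : Trans C8) (A : ℝ≥0) :
    ∃ (hs : ℝ≥0) (ell : ℝ) (del e0 d0 S0 : ℝ≥0), 1 ≤ hs ∧ 0 < ell ∧ ell ≤ 1 ∧ 0 < del ∧ 0 < e0 ∧
      0 < d0 ∧ 0 < S0 ∧
      ∀ (T1 : ℝ) (E : ℝ → P2 → R3 → ℝ≥0∞) (u : Om → ℝ) (c Sp : Om → ℝ≥0∞)
        (h1 : P2 → R3 → ℝ≥0∞) (Hc L P : Om → ℝ≥0∞) (vs : ℝ → ℝ≥0∞),
        KHyp T1 lam C1 Cf E → TSys T1 (2 * hs) E u c Sp h1 Hc L P → Measurable vs →
        (∫⁻ t in Ioi T1, vs t ≤ S0) →
        (∀ x v, ghf u T1 x v ≤ A * E T1 x v) →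
        (∀ t x, T1 + ell ≤ t → ENNReal.ofReal (Real.exp (-(nu0 / 2 * (t - (T1 + ell))))) *
          ∫⁻ v, w1 v * ghf u T1 (x - (t - T1) • bar v) v ≤ d0) →
        (∀ T, T1 ≤ T → (∀ t x v, T1 ≤ t → t ≤ T →
            ENNReal.ofReal (u (t, x, v)) ≤ (2 * hs : ℝ≥0) * E t x v) →
          ∀ s, T1 ≤ s → s ≤ T → ∫⁻ y in cellG, ∫⁻ z, ghf u s y z ≤
            e0 + ∫⁻ y in cellG, ∫⁻ z, c (s, y, z)) →
        (∀ T, T1 ≤ T → (∀ t x v, T1 ≤ t → t ≤ T →
            ENNReal.ofReal (u (t, x, v)) ≤ (2 * hs : ℝ≥0) * E t x v) →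
          (∀ t x v, T1 + ell ≤ t → t ≤ T →
            ENNReal.ofReal (nu0 / 2) * w1 v ≤ Lc (fun w => Hc (t, x, w)) v) →
          (∀ t x v, T1 ≤ t → t ≤ T + 1 →
            Qp (fun w => c (t, x, w)) (fun w => Hc (t, x, w)) v +
              Qp (fun w => Hc (t, x, w)) (fun w => c (t, x, w)) v + Sp (t, x, v) ≤ vs t * E t x v ∧
            Mx v * Lc (fun w => c (t, x, w)) v ≤ vs t * E t x v) ∧
          (∀ t, T1 ≤ t → t ≤ T + 1 → ∫⁻ y in cellG, ∫⁻ z, c (t, y, z) ≤ e0)) →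
        (∀ t x v, T1 ≤ t → ENNReal.ofReal (u (t, x, v)) ≤ hs * E t x v) ∧
        (∀ t x v, T1 ≤ t → ghf u t x v ≤ (2 * A + 2 : ℝ≥0) * E t x v) ∧
        (∀ t x, T1 + ell ≤ t → ∫⁻ z, w1 z * ghf u t x z ≤ del) ∧
        (∀ t x v, T1 + ell ≤ t →
            ENNReal.ofReal (nu0 / 2) * w1 v ≤ Lc (fun w => Hc (t, x, w)) v) := by
  obtain ⟨CM, hCM1, hCM⟩ := exists_CM
  set hs : ℝ≥0 := CM + (2 * A + 2) with hhs
  have hs1 : 1 ≤ hs := hCM1.trans le_self_add
  have hs0 : hs ≠ 0 := (lt_of_lt_of_le one_pos hs1).ne'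
  obtain ⟨b, hb⟩ : ∃ b : ℝ≥0, b = 2 * hs := ⟨_, rfl⟩
  have hb0 : b ≠ 0 := by rw [hb]; exact mul_ne_zero two_ne_zero hs0
  obtain ⟨ell, del, e0', d0, S0', hell, hell1, hdel, he0', hd0, hS0', hdelf, key⟩ :=
    apriori2 hnu hlam hln C1 Cf C8 htr A (b + CM) (by positivity)
  obtain ⟨e0, he0, he0e⟩ : ∃ e0 : ℝ≥0, 0 < e0 ∧ e0 + e0 = e0' :=
    ⟨e0' / 2, by positivity, add_halves e0'⟩
  set S0 : ℝ≥0 := min S0' (1 / 8) with hS0
  have hS00 : 0 < S0 := lt_min hS0' (by norm_num)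
  -- the time step
  obtain ⟨τ, hτ, hτ1, hτ2, hτ3⟩ : ∃ τ : ℝ, 0 < τ ∧ τ ≤ 1 ∧ Real.exp (lam * τ) ≤ 5 / 4 ∧
      (b : ℝ) * b * C1 * τ ≤ 1 / 4 := by
    have hB : (0 : ℝ) ≤ (b : ℝ) * b * C1 := by positivity
    refine ⟨1 / (5 * (lam + (b : ℝ) * b * C1 + 1)), by positivity, ?_, ?_, ?_⟩
    · rw [div_le_one (by positivity)]; linarith
    · have h1 : lam * (1 / (5 * (lam + (b : ℝ) * b * C1 + 1))) ≤ 1 / 5 := by
        rw [mul_one_div, div_le_div_iff₀ (by positivity) (by norm_num)]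
        nlinarith
      calc Real.exp (lam * (1 / (5 * (lam + (b : ℝ) * b * C1 + 1)))) ≤ Real.exp (1 / 5) :=
            Real.exp_le_exp.2 h1
        _ ≤ 5 / 4 := by
            have h3 : Real.exp (1 / 5) ^ 5 = Real.exp 1 := by
              rw [← Real.exp_nat_mul]; norm_num
            have h4 := Real.exp_one_lt_d9
            by_contra h
            push Not at h
            have h5 : (5 / 4 : ℝ) ^ 5 < Real.exp (1 / 5) ^ 5 :=
              pow_lt_pow_left₀ h (by norm_num) (by norm_num)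
            rw [h3] at h5
            norm_num at h5
            linarith
    · rw [mul_one_div, div_le_div_iff₀ (by positivity) (by norm_num)]
      nlinarith
  have hcst : ENNReal.ofReal (Real.exp (lam * τ)) * (hs + S0) + b * b * C1 * ENNReal.ofReal τ ≤ b := by
    have a1 : ENNReal.ofReal (Real.exp (lam * τ)) ≤ ENNReal.ofReal (5 / 4) :=
      ENNReal.ofReal_le_ofReal hτ2
    have a2 : (b : ℝ≥0∞) * b * C1 * ENNReal.ofReal τ ≤ ENNReal.ofReal (1 / 4) := by
      have : (b : ℝ≥0∞) * b * C1 = ENNReal.ofReal ((b : ℝ) * b * C1) := by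
        rw [ENNReal.ofReal_mul (by positivity), ENNReal.ofReal_mul (by positivity),
          ENNReal.ofReal_coe_nnreal, ENNReal.ofReal_coe_nnreal]
      rw [this, ← ENNReal.ofReal_mul (by positivity)]
      exact ENNReal.ofReal_le_ofReal hτ3
    have a3 : (hs : ℝ≥0∞) + S0 = ENNReal.ofReal ((hs : ℝ) + S0) := by
      rw [ENNReal.ofReal_add (by positivity) (by positivity), ENNReal.ofReal_coe_nnreal,
        ENNReal.ofReal_coe_nnreal]
    calc _ ≤ ENNReal.ofReal (5 / 4) * ENNReal.ofReal ((hs : ℝ) + S0) + ENNReal.ofReal (1 / 4) := by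
          rw [← a3]; gcongr
      _ = ENNReal.ofReal (5 / 4 * ((hs : ℝ) + S0) + 1 / 4) := by
          rw [← ENNReal.ofReal_mul (by norm_num), ← ENNReal.ofReal_add (by positivity)
            (by norm_num)]
      _ ≤ ENNReal.ofReal (b : ℝ) := by
          refine ENNReal.ofReal_le_ofReal ?_
          have b1 : (S0 : ℝ) ≤ 1 / 8 := by
            have : S0 ≤ 1 / 8 := min_le_right _ _
            exact_mod_cast this
          have b2 : (1 : ℝ) ≤ hs := by exact_mod_cast hs1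
          have b3 : (b : ℝ) = 2 * hs := by rw [hb]; push_cast; ring
          rw [b3]
          linarith
      _ = _ := ENNReal.ofReal_coe_nnreal
  refine ⟨hs, ell, del, e0, d0, S0, hs1, hell, hell1, hdel, he0, hd0, hS00, ?_⟩
  intro T1 E u c Sp h1 Hc L P vs hE S hvs hvs0 hA hD hent hcold
  rw [← hb] at S hent hcold
  -- conclusions on [T1, T] from the crude bound on [T1, T]
  have concl : ∀ T, T1 ≤ T →
      (∀ t x v, T1 ≤ t → t ≤ T → ENNReal.ofReal (u (t, x, v)) ≤ b * E t x v) →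
      (∀ t x v, T1 ≤ t → t ≤ T →
        Qp (fun w => c (t, x, w)) (fun w => Hc (t, x, w)) v +
          Qp (fun w => Hc (t, x, w)) (fun w => c (t, x, w)) v + Sp (t, x, v) ≤ vs t * E t x v ∧
        Mx v * Lc (fun w => c (t, x, w)) v ≤ vs t * E t x v) →
      (∀ t, T1 ≤ t → t ≤ T → ∫⁻ y in cellG, ∫⁻ z, c (t, y, z) ≤ e0) →
      (∀ t x v, T1 ≤ t → t ≤ T → ghf u t x v ≤ (2 * A + 2 : ℝ≥0) * E t x v) ∧
      (∀ t x, T1 + ell ≤ t → t ≤ T → ∫⁻ z, w1 z * ghf u t x z ≤ del) := by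
    intro T hT hu hc hm
    have hP := S.phyp hE hnu hnuM hCM hu hvs hc
    refine key T1 T E (ghf u) _ _ vs hE hP hA (fun t x h1 _ => hD t x h1)
      (fun s h1 h2 => ?_) ?_
    · refine (hent T hT hu s h1 h2).trans ?_
      rw [← he0e]
      push_cast
      exact add_le_add le_rfl (hm s h1 h2)
    refine (lintegral_mono_set (fun r hr => hr.1)).trans (hvs0.trans ?_)
    exact_mod_cast min_le_left _ _
  have hHle : ∀ t x v, T1 ≤ t → ghf u t x v ≤ (2 * A + 2 : ℝ≥0) * E t x v →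
      ENNReal.ofReal (u (t, x, v)) ≤ hs * E t x v := by
    intro t x v ht hg
    calc ENNReal.ofReal (u (t, x, v)) ≤ Mx v + ghf u t x v := ghf_le1 u t x v
      _ ≤ CM * E t x v + (2 * A + 2 : ℝ≥0) * E t x v :=
          add_le_add ((hCM v).1.trans (mul_le_mul' le_rfl (hE.We_le t x v ht))) hg
      _ = _ := by rw [hhs]; push_cast; ring
  have hsb : ∀ t x v, (hs : ℝ≥0∞) * E t x v ≤ b * E t x v := by
    intro t x v
    gcongr
    rw [hb, two_mul]
    exact le_self_add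
  -- induction
  have main : ∀ n : ℕ,
      (∀ t x v, T1 ≤ t → t ≤ T1 + n * τ → ENNReal.ofReal (u (t, x, v)) ≤ hs * E t x v) ∧
      (∀ t x v, T1 ≤ t → t ≤ T1 + n * τ → ghf u t x v ≤ (2 * A + 2 : ℝ≥0) * E t x v) ∧
      (∀ t x, T1 + ell ≤ t → t ≤ T1 + n * τ → ∫⁻ z, w1 z * ghf u t x z ≤ del) := by
    intro n
    induction n with
    | zero =>
      have hz : T1 + ((0 : ℕ) : ℝ) * τ = T1 := by simp
      rw [hz]
      have h2 : ∀ t x v, T1 ≤ t → t ≤ T1 → ghf u t x v ≤ (2 * A + 2 : ℝ≥0) * E t x v := by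
        intro t x v h1 h2
        have : t = T1 := le_antisymm h2 h1
        subst this
        refine (hA x v).trans ?_
        gcongr
        calc A ≤ A + (A + 2) := le_self_add
          _ = 2 * A + 2 := by ring
      refine ⟨fun t x v h1 h3 => hHle t x v h1 (h2 t x v h1 h3), h2, ?_⟩
      intro t x h1 h3
      exact absurd (h1.trans h3) (by linarith)
    | succ n ih =>
      obtain ⟨i1, i2, i3⟩ := ih
      set T : ℝ := T1 + n * τ with hT
      have hT1 : T1 ≤ T := by rw [hT]; have : (0 : ℝ) ≤ n * τ := by positivity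
                              linarith
      have hub : ∀ t x v, T1 ≤ t → t ≤ T → ENNReal.ofReal (u (t, x, v)) ≤ b * E t x v :=
        fun t x v a1 a2 => (i1 t x v a1 a2).trans (hsb t x v)
      have hrate : ∀ t x v, T1 + ell ≤ t → t ≤ T →
            ENNReal.ofReal (nu0 / 2) * w1 v ≤ Lc (fun w => Hc (t, x, w)) v :=
        fun t x v a1 a2 => S.rate_ge hnu hnuM hub hdelf (by linarith) a2 (i3 t x a1 a2) v
      have hcb := hcold T hT1 hub hrate
      have hT' : T1 + ((n + 1 : ℕ) : ℝ) * τ = T + τ := by rw [hT]; push_cast; ring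
      rw [hT']
      have hub' : ∀ t x v, T1 ≤ t → t ≤ T + τ → ENNReal.ofReal (u (t, x, v)) ≤ b * E t x v := by
        intro t x v a1 a2
        rcases le_total t T with a3 | a3
        · exact hub t x v a1 a3
        · exact S.step hE hlam hT1 hb0 (fun x v => i1 T x v hT1 le_rfl) hvs hvs0
            (fun t x v a1 a2 => (hcb.1 t x v a1 a2).1) hτ1 hcst a3 a2 x v
      have hc := concl (T + τ) (by linarith) hub'
        (fun t x v a1 a2 => hcb.1 t x v a1 (by linarith))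
        (fun t a1 a2 => hcb.2 t a1 (by linarith))
      exact ⟨fun t x v a1 a2 => hHle t x v a1 (hc.1 t x v a1 a2), hc.1, hc.2⟩
  have hex : ∀ t : ℝ, ∃ n : ℕ, t ≤ T1 + n * τ := by
    intro t
    obtain ⟨n, hn⟩ := exists_nat_gt ((t - T1) / τ)
    refine ⟨n, ?_⟩
    rw [div_lt_iff₀ hτ] at hn
    linarith
  have r1 : ∀ t x v, T1 ≤ t → ENNReal.ofReal (u (t, x, v)) ≤ hs * E t x v := by
    intro t x v a1
    obtain ⟨n, hn⟩ := hex t
    exact (main n).1 t x v a1 hn
  have r3 : ∀ t x, T1 + ell ≤ t → ∫⁻ z, w1 z * ghf u t x z ≤ del := by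
    intro t x a1
    obtain ⟨n, hn⟩ := hex t
    exact (main n).2.2 t x a1 hn
  refine ⟨r1, ?_, r3, ?_⟩
  · intro t x v a1
    obtain ⟨n, hn⟩ := hex t
    exact (main n).2.1 t x v a1 hn
  · intro t x v a1
    exact S.rate_ge hnu hnuM (fun t x v b1 _ => (r1 t x v b1).trans (hsb t x v)) hdelf
      (by linarith) (le_refl t) (r3 t x a1) v

end Crest.Agent.R68.WG
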