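import Crest.Agent.R68.EOnEnt
import Crest.Agent.R68.WEnt

/-!
R68 / EOnL1: L¹ distance to the Maxwellian for local mild solutions (helper485).
-/

set_option autoImplicit false
open MeasureTheory Filter Topology
open scoped ENNReal
open Crest.AnalysisR.VecCalc3 Crest.AnalysisR.PDE.Boltzmann

namespace Crest.Agent.R68

theorem volume_cell_eq_one : (volume : Measure R3) cell = 1 := by
  have h := EuclideanSpace.volume_preserving_symm_measurableEquiv_toLp (Fin 3)
  have hpre : cell = (MeasurableEquiv.toLp 2 (Fin 3 → ℝ)).symm ⁻¹'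
      (Set.pi Set.univ fun _ : Fin 3 => Set.Ico (0 : ℝ) 1) := by
    ext x
    simp [cell]
  rw [hpre, h.measure_preimage
    (MeasurableSet.univ_pi fun _ => measurableSet_Ico).nullMeasurableSet, volume_pi_Ico_one]
where
  volume_pi_Ico_one : (volume : Measure (Fin 3 → ℝ))
      (Set.pi Set.univ fun _ : Fin 3 => Set.Ico (0 : ℝ) 1) = 1 := by
    rw [Real.volume_pi_Ico]
    simp

theorem lintegral_maxwellian_muC :
    ∫⁻ q, ENNReal.ofReal (maxwellian q.2) ∂muC = 1 := by
  have hm : Measurable (fun q : R3 × R3 => ENNReal.ofReal (maxwellian q.2)) :=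
    (W.measurable_maxwellian.comp measurable_snd).ennreal_ofReal
  rw [lintegral_muC' hm]
  simp only [W.lintegral_maxwellian]
  rw [setLIntegral_const, one_mul, volume_cell_eq_one]

namespace MildSolOn

variable {F : ℝ → R3 → R3 → ℝ} {F0 : R3 → R3 → ℝ} {R TT : ℝ}

/-- conservation of mass -/
theorem mass_eq (h : MildSolOn F F0 R TT) {t : ℝ} (ht : 0 ≤ t) (htT : t ≤ TT) :
    ∫⁻ q, ENNReal.ofReal (F t q.1 q.2) ∂muC = ∫⁻ q, ENNReal.ofReal (F0 q.1 q.2) ∂muC := by
  obtain ⟨hm, hb, hinv⟩ := MildSol.abs_inv_bounds (ψ := fun _ => 1) (Or.inl rfl)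
  obtain ⟨hi, he⟩ := h.total_conserved ht htT hm hb hinv
  have hi0 : Integrable (fun q : R3 × R3 => (1 : ℝ) * F0 q.1 q.2) muC := by
    have := h.integrable_F0 (g := fun _ => (1 : ℝ)) measurable_const (C := 1) (k := 2)
      (Filter.Eventually.of_forall fun q => by rw [one_mul]; exact hb q.2)
    refine this.congr (Filter.Eventually.of_forall fun q => ?_)
    simp only [mul_comm]
  simp only [one_mul] at hi he hi0
  rw [← ofReal_integral_eq_lintegral_ofReal hi, ← ofReal_integral_eq_lintegral_ofReal hi0, he]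
  · exact Filter.Eventually.of_forall fun q => h.F0_nonneg _ _
  · exact Filter.Eventually.of_forall fun q => h.nonneg _ _ _ ht

/-- relative entropy does not increase -/
theorem relEntropy_le (h : MildSolOn F F0 R TT) {t : ℝ} (ht : 0 ≤ t) (htT : t ≤ TT) :
    relEntropy (F t) ≤ relEntropy F0 :=
  le_trans le_self_add (h.entropy_ineq ht htT)

/-- **L¹ distance to the Maxwellian** for all times up to TT -/
theorem l1_le (h : MildSolOn F F0 R TT) {t : ℝ} (ht : 0 ≤ t) (htT : t ≤ TT) {ε A : ℝ}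
    (hε : 0 < ε) (hA : 1 ≤ A) (hH : relEntropy F0 ≤ ENNReal.ofReal (ε ^ 2))
    (hm : ∫⁻ q, ENNReal.ofReal (F0 q.1 q.2) ∂muC ≤ ENNReal.ofReal A) :
    ∫⁻ q, ‖F t q.1 q.2 - maxwellian q.2‖ₑ ∂muC ≤ ENNReal.ofReal ((1 + A) * ε) := by
  refine W.l1_le_of_relEntropy_le (h.measurable_F t) (fun x v => h.nonneg t x v ht) hε
    (by linarith) ((h.relEntropy_le ht htT).trans hH) ?_ ?_
  · change ∫⁻ q, ENNReal.ofReal (F t q.1 q.2) ∂muC ≤ _
    rw [h.mass_eq ht htT]
    exact hm
  · change ∫⁻ q, ENNReal.ofReal (maxwellian q.2) ∂muC ≤ _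
    rw [lintegral_maxwellian_muC, ← ENNReal.ofReal_one]
    exact ENNReal.ofReal_le_ofReal hA

end MildSolOn

end Crest.Agent.R68
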