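import Crest.Agent.R68.ZMain
import Crest.Agent.R68.EOnL1

/-!
R68 / ZOn: local-in-time mild solutions in the rotated planar frame (helper485; port of
helper858's ZRot3/ZMain), entropy and L¹ bounds for `t ≤ TT`.
-/

set_option autoImplicit false
open MeasureTheory Set
open scoped ENNReal
open Crest.AnalysisR.VecCalc3 Crest.AnalysisR.PDE.Boltzmann

noncomputable section

namespace Crest.Agent.R68

/-- mild solution on `[0,TT]` in the planar frame with the integrability of Part E -/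
structure MildGOn (G : ℝ → P2 → R3 → ℝ) (G0 : P2 → R3 → ℝ) (R TT : ℝ) : Prop where
  datum : DatumG G0 R
  meas : Measurable (fun p : ℝ × P2 × R3 => G p.1 p.2.1 p.2.2)
  nonneg : ∀ t x v, 0 ≤ t → 0 ≤ G t x v
  per : ∀ t v, PerG (fun x => G t x v)
  init : ∀ x v, G 0 x v = G0 x v
  mild : ∀ t, 0 ≤ t → t ≤ TT → ∀ᵐ q : P2 × R3,
    G t (q.1 + t • bar q.2) q.2 = G0 q.1 q.2 +
      ∫ s in (0)..t, ((gainG G s (q.1 + s • bar q.2) q.2).toReal -
        (lossG G s (q.1 + s • bar q.2) q.2).toReal)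
  int : ∀ (k : ℕ), (∫⁻ p in Ioo 0 TT ×ˢ (cellG ×ˢ (Set.univ : Set R3)),
      ENNReal.ofReal ((1 + ‖p.2.2‖ ^ 2) ^ (k / 2 : ℝ) + Real.log (1 + G p.1 p.2.1 p.2.2)) *
        (gainG G p.1 p.2.1 p.2.2 + lossG G p.1 p.2.1 p.2.2)) < ⊤

theorem mildG_of_on {G : ℝ → P2 → R3 → ℝ} {G0 : P2 → R3 → ℝ} {R : ℝ}
    (h : ∀ TT, MildGOn G G0 R TT) : MildG G G0 R :=
  ⟨(h 0).datum, (h 0).meas, (h 0).nonneg, (h 0).per, (h 0).init,
    fun t ht => (h t).mild t ht le_rfl, fun T k => (h T).int k⟩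

open Crest.Agent.R68E (gain loss) in
theorem mildSolOn_of_mildGOn {G : ℝ → P2 → R3 → ℝ} {G0 : P2 → R3 → ℝ} {R TT : ℝ}
    (h : MildGOn G G0 R TT) :
    MildSolOn (pull G) (fun x v => G0 (prx x) (rotv v)) R TT := by
  rw [pull_eq]
  have h2 : (fun x v => G0 (prx x) (rotv v)) = Z.toF0 G0 := by
    funext x v
    unfold Z.toF0
    rw [prx_eq, rotv_eq]
  rw [h2]
  have hmeasF : Measurable fun p : ℝ × (R3 × R3) => (p.1, (Z.posZ p.2.1, Z.Rot p.2.2)) :=
    measurable_fst.prodMk ((Z.measurable_posZ.comp (measurable_fst.comp measurable_snd)).prodMk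
      (Z.mp_Rot.measurable.comp (measurable_snd.comp measurable_snd)))
  refine MildSolOn.mk' ?_ (h.meas.comp hmeasF) (fun t x v ht => h.nonneg t _ _ ht)
    (fun t v => Z.per_toF (g := G t) (h.per t) v) (fun x v => h.init _ _) ?_ ?_
  · refine ⟨?_, ?_, ?_, ?_, ?_⟩
    · exact h.datum.meas.comp ((Z.measurable_posZ.comp measurable_fst).prodMk
        (Z.mp_Rot.measurable.comp measurable_snd))
    · intro x v
      exact h.datum.nonneg _ _
    · exact Z.per_toF (g := G0) h.datum.per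
    · intro x v hv
      exact h.datum.supp _ _ (by rw [Z.norm_Rot]; exact hv)
    · have hm : Measurable fun q : P2 × R3 =>
          ENNReal.ofReal (G0 q.1 q.2 * (1 + ‖q.2‖ ^ 2 + |Real.log (G0 q.1 q.2)|)) := by
        refine Measurable.ennreal_ofReal (h.datum.meas.mul ?_)
        exact (measurable_const.add (by fun_prop)).add
          (continuous_abs.measurable.comp (Real.measurable_log.comp h.datum.meas))
      have h' := h.datum.fin
      rw [← Z.mp_phZ.lintegral_comp hm] at h'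
      refine lt_of_le_of_lt (le_of_eq ?_) h'
      refine lintegral_congr fun q => ?_
      simp only [Z.toF0, Z.phZ, Z.norm_Rot]
  · intro t ht htT
    have hq0 := Z.qmp_phZ.ae (h.mild t ht htT)
    filter_upwards [hq0] with q hq
    have e1 : Z.toF G t (q.1 + t • q.2) q.2 =
        G t ((Z.phZ q).1 + t • bar (Z.phZ q).2) (Z.phZ q).2 := by
      unfold Z.toF Z.phZ
      rw [Z.posZ_add_smul]
    rw [e1, hq]
    congr 1
    refine intervalIntegral.integral_congr fun s hs => ?_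
    rw [uIcc_of_le ht] at hs
    have h0 : ∀ v, 0 ≤ G s ((Z.phZ q).1 + s • bar (Z.phZ q).2) v := fun v => h.nonneg s _ v hs.1
    simp only [Qr, shift]
    rw [Z.gain_toF, Z.loss_toF, Z.posZ_add_smul, gainG_eq h0, lossG_eq h0]
    rfl
  · intro k
    have hm : Measurable fun p : ℝ × (P2 × R3) =>
        ENNReal.ofReal ((1 + ‖p.2.2‖ ^ 2) ^ (k / 2 : ℝ) + Real.log (1 + G p.1 p.2.1 p.2.2)) *
        (gain (G p.1 p.2.1) p.2.2 + loss (G p.1 p.2.1) p.2.2) := by
      have h0 : Measurable fun z : (ℝ × P2) × R3 => (z.1.1, (z.1.2, z.2)) := by fun_prop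
      have hg : Measurable (Function.uncurry fun (y : ℝ × P2) (v : R3) => G y.1 y.2 v) := by
        have h00 := h.meas.comp h0
        exact h00
      have h1 := (R68E.measurable_gain hg).add (R68E.measurable_loss hg)
      have h3 : Measurable fun p : ℝ × (P2 × R3) => ((p.1, p.2.1), p.2.2) := by fun_prop
      have h4 := h1.comp h3
      refine Measurable.mul (Measurable.ennreal_ofReal (Measurable.add ?_ ?_)) h4
      · fun_prop
      · exact Real.measurable_log.comp (measurable_const.add h.meas)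
    have h5 := (Z.mp_stZ (Ioo 0 TT)).lintegral_comp hm
    refine lt_of_le_of_lt (le_of_eq ?_) (h.int k)
    have h6 : ∫⁻ p in Ioo 0 TT ×ˢ (cellG ×ˢ (univ : Set R3)),
        ENNReal.ofReal ((1 + ‖p.2.2‖ ^ 2) ^ (k / 2 : ℝ) + Real.log (1 + G p.1 p.2.1 p.2.2)) *
        (gain (G p.1 p.2.1) p.2.2 + loss (G p.1 p.2.1) p.2.2) =
        ∫⁻ p in Ioo 0 TT ×ˢ (cellG ×ˢ (univ : Set R3)),
        ENNReal.ofReal ((1 + ‖p.2.2‖ ^ 2) ^ (k / 2 : ℝ) + Real.log (1 + G p.1 p.2.1 p.2.2)) *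
        (gainG G p.1 p.2.1 p.2.2 + lossG G p.1 p.2.1 p.2.2) := by
      refine setLIntegral_congr_fun
        (measurableSet_Ioo.prod (Z.measurableSet_cellG.prod MeasurableSet.univ)) ?_
      intro p hp
      have h0 : ∀ v, 0 ≤ G p.1 p.2.1 v := fun v => h.nonneg p.1 _ v hp.1.1.le
      simp only [gainG_eq h0, lossG_eq h0]
    rw [← h6]
    refine Eq.trans ?_ h5
    refine lintegral_congr fun p => ?_
    simp only [Z.gain_toF, Z.loss_toF, Z.toF, Z.stZ, Z.phZ, Z.norm_Rot]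

/-- transfer of phase integrals between the two frames -/
theorem lintegral_pull {H : P2 × R3 → ℝ≥0∞} (hH : Measurable H) :
    ∫⁻ q in cell ×ˢ (univ : Set R3), H (prx q.1, rotv q.2) ∂(volume : Measure (R3 × R3)) =
      ∫⁻ q in cellG ×ˢ (univ : Set R3), H q ∂(volume : Measure (P2 × R3)) := by
  rw [← Z.mp_phZ.lintegral_comp hH]
  refine lintegral_congr fun q => ?_
  unfold Z.phZ
  rw [prx_eq, rotv_eq]

theorem norm_rotv (v : R3) : ‖rotv v‖ = ‖v‖ := by rw [rotv_eq, Z.norm_Rot]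

theorem maxwellian_rotv (v : R3) : maxwellian (rotv v) = maxwellian v := by
  unfold maxwellian; rw [norm_rotv]

/-- relative entropy in the planar frame -/
def relEntG (g : P2 → R3 → ℝ) : ℝ≥0∞ :=
  ∫⁻ q in cellG ×ˢ (univ : Set R3), ENNReal.ofReal (g q.1 q.2 *
    Real.log (g q.1 q.2 / maxwellian q.2) - g q.1 q.2 + maxwellian q.2)
    ∂(volume : Measure (P2 × R3))

theorem relEntropy_pull {g : P2 → R3 → ℝ} (hg : Measurable fun q : P2 × R3 => g q.1 q.2) :
    relEntropy (fun x v => g (prx x) (rotv v)) = relEntG g := by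
  unfold relEntropy relEntG
  have hM : Measurable fun q : P2 × R3 => maxwellian q.2 :=
    W.measurable_maxwellian.comp measurable_snd
  have hm : Measurable fun q : P2 × R3 => ENNReal.ofReal (g q.1 q.2 *
      Real.log (g q.1 q.2 / maxwellian q.2) - g q.1 q.2 + maxwellian q.2) :=
    (((hg.mul (Real.measurable_log.comp (hg.div hM))).sub hg).add hM).ennreal_ofReal
  rw [← lintegral_pull hm]
  simp only [maxwellian_rotv]

namespace MildGOn

variable {G : ℝ → P2 → R3 → ℝ} {G0 : P2 → R3 → ℝ} {R TT : ℝ}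

theorem measurable_slice (h : MildGOn G G0 R TT) (t : ℝ) :
    Measurable fun q : P2 × R3 => G t q.1 q.2 :=
  h.meas.comp (measurable_const.prodMk measurable_id)

/-- conservation of mass -/
theorem mass_eq (h : MildGOn G G0 R TT) {t : ℝ} (ht : 0 ≤ t) (htT : t ≤ TT) :
    ∫⁻ q in cellG ×ˢ (univ : Set R3), ENNReal.ofReal (G t q.1 q.2) =
      ∫⁻ q in cellG ×ˢ (univ : Set R3), ENNReal.ofReal (G0 q.1 q.2) := by
  have h1 := (mildSolOn_of_mildGOn h).mass_eq ht htT
  have e1 := lintegral_pull (H := fun q => ENNReal.ofReal (G t q.1 q.2))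
    (h.measurable_slice t).ennreal_ofReal
  have e2 := lintegral_pull (H := fun q => ENNReal.ofReal (G0 q.1 q.2))
    h.datum.meas.ennreal_ofReal
  rw [← e1, ← e2]
  exact h1

/-- conservation of energy -/
theorem energy_eq (h : MildGOn G G0 R TT) {t : ℝ} (ht : 0 ≤ t) (htT : t ≤ TT) :
    ∫⁻ q in cellG ×ˢ (univ : Set R3), ENNReal.ofReal (‖q.2‖ ^ 2 * G t q.1 q.2) =
      ∫⁻ q in cellG ×ˢ (univ : Set R3), ENNReal.ofReal (‖q.2‖ ^ 2 * G0 q.1 q.2) := by
  have h1 := (mildSolOn_of_mildGOn h).energy_eq t ht htT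
  have e1 := lintegral_pull (H := fun q => ENNReal.ofReal (‖q.2‖ ^ 2 * G t q.1 q.2))
    ((by fun_prop : Measurable fun q : P2 × R3 => ‖q.2‖ ^ 2).mul
      (h.measurable_slice t)).ennreal_ofReal
  have e2 := lintegral_pull (H := fun q => ENNReal.ofReal (‖q.2‖ ^ 2 * G0 q.1 q.2))
    ((by fun_prop : Measurable fun q : P2 × R3 => ‖q.2‖ ^ 2).mul h.datum.meas).ennreal_ofReal
  rw [← e1, ← e2]
  simp only [norm_rotv]
  exact h1

/-- the relative entropy does not increase -/
theorem relEntG_le (h : MildGOn G G0 R TT) {t : ℝ} (ht : 0 ≤ t) (htT : t ≤ TT) :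
    relEntG (G t) ≤ relEntG G0 := by
  have h1 := (mildSolOn_of_mildGOn h).relEntropy_le ht htT
  rw [relEntropy_pull h.datum.meas] at h1
  have e : relEntropy (pull G t) = relEntG (G t) := relEntropy_pull (h.measurable_slice t)
  rwa [e] at h1

/-- **L¹ distance to the Maxwellian**, for all `t ≤ TT`. -/
theorem l1_le (h : MildGOn G G0 R TT) {t : ℝ} (ht : 0 ≤ t) (htT : t ≤ TT) {ε A : ℝ}
    (hε : 0 < ε) (hA : 1 ≤ A) (hH : relEntG G0 ≤ ENNReal.ofReal (ε ^ 2))
    (hm : ∫⁻ q in cellG ×ˢ (univ : Set R3), ENNReal.ofReal (G0 q.1 q.2) ≤ ENNReal.ofReal A) :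
    ∫⁻ q in cellG ×ˢ (univ : Set R3), ‖G t q.1 q.2 - maxwellian q.2‖ₑ ≤
      ENNReal.ofReal ((1 + A) * ε) := by
  have hH' : relEntropy (fun x v => G0 (prx x) (rotv v)) ≤ ENNReal.ofReal (ε ^ 2) := by
    rw [relEntropy_pull h.datum.meas]; exact hH
  have hm' : ∫⁻ q, ENNReal.ofReal (G0 (prx q.1) (rotv q.2)) ∂muC ≤ ENNReal.ofReal A := by
    have e2 := lintegral_pull (H := fun q => ENNReal.ofReal (G0 q.1 q.2))
      h.datum.meas.ennreal_ofReal
    rw [← e2] at hm
    exact hm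
  have h1 := (mildSolOn_of_mildGOn h).l1_le ht htT hε hA hH' hm'
  have e1 := lintegral_pull (H := fun q => ‖G t q.1 q.2 - maxwellian q.2‖ₑ)
    ((h.measurable_slice t).sub (W.measurable_maxwellian.comp measurable_snd)).enorm
  rw [← e1]
  refine le_trans (le_of_eq ?_) h1
  refine lintegral_congr fun q => ?_
  simp only [maxwellian_rotv, pull]

end MildGOn

end Crest.Agent.R68
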