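import Crest.Agent.R68.Main0
import Crest.Agent.R68.WE3
import Crest.Agent.R68.WB7
import Crest.Agent.R68.WG3
import Crest.Agent.R68.ZOn

/-!
# Row 68, PART W: the inputs of the assembly of `WOut` (helper153)

`TruncOut` (475), `ColdOut` (827), `DataOut` (835), `MildOut` (858), `CausOut` (906).
-/

set_option autoImplicit false
open MeasureTheory Set Filter
open scoped ENNReal NNReal Topology
open Crest.AnalysisR.VecCalc3 Crest.AnalysisR.PDE.Boltzmann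

noncomputable section

namespace Crest.Agent.R68.WP

open Crest.Agent.R68.A (en Meas3)
open Crest.Agent.R68.N
open Crest.Agent.R68.Main0 (H0f Hot)
open Crest.Agent.R68.W (Om damped THyp)
open Crest.Agent.R68.WA (We w1 Mx EW)

/-- the weight of Part W for the final parameters (`λ = 1/8`) -/
def EWj (K Y ey : ℝ) (p j0 : ℕ) : Fld := EW (par K Y ey p j0) (1 / 8) (T1j j0)

/-- the glued hot component: datum for `t ≤ 0`, Part A/N for `0 < t < T1`, Part W for `t ≥ T1` -/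
def Hgl (H0 : P2 → R3 → ℝ≥0∞) (T1 : ℝ) (H Hh : Fld) : Fld := fun t x v =>
  open scoped Classical in
  if t ≤ 0 then H0 x v else if t < T1 then H t x v else Hh t x v

/-- the total solution with hot component `Hg` -/
def Ftot (P : Par) (Hg : Fld) : Fld := fun t x v => coldR P (LcF Hg) t x v + Hg t x v

/-- (475) hypotheses of the truncated problem -/
def TruncOut (Y : ℝ) : Prop :=
  ∀ K ey : ℝ, 1 ≤ K → 0 < ey → ey ≤ 1 / 100 → ∀ᶠ p : ℕ in atTop, ∀ R : ℝ, ∀ᶠ j0 : ℕ in atTop,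
    ∀ (H : Fld) (A : ℝ≥0∞), Hot (par K Y ey p j0) j0 R H → A ≠ ⊤ →
      (∀ t ∈ Ioc 0 (T1j j0), ∀ x v, H t x v ≤ A * Zg (par K Y ey p j0) (1 / 50) t x v) →
      ∃ A' : ℝ, THyp (T1j j0) (1 / 8) Y A' (EWj K Y ey p j0) (coldS (par K Y ey p j0)) (H (T1j j0))
        (LcF H) (coldR (par K Y ey p j0)) (coldSpill (par K Y ey p j0))

/-- (827) the cold component after `T1` -/
def ColdOut (Y : ℝ) : Prop :=
  ∀ K ey : ℝ, 1 ≤ K → 0 < ey → ey ≤ 1 / 100 → ∀ᶠ p : ℕ in atTop, ∀ ell S : ℝ, 0 < ell → 0 < S →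
    ∀ᶠ j0 : ℕ in atTop, ∃ vs : ℝ → ℝ≥0∞, Measurable vs ∧
      (∫⁻ t in Ioi (T1j j0), vs t) ≤ ENNReal.ofReal S ∧
      ∀ lam : Fld, Meas3 lam → PerF lam → ∀ T : ℝ, T1j j0 ≤ T →
        (∀ t x v, T1j j0 + ell ≤ t → t ≤ T → ENNReal.ofReal (1 / 2) * w1 v ≤ lam t x v) →
        (∀ t x v, T1j j0 ≤ t → t ≤ T + 1 →
          Qp (coldR (par K Y ey p j0) lam t x) (EWj K Y ey p j0 t x) v +
            Qp (EWj K Y ey p j0 t x) (coldR (par K Y ey p j0) lam t x) v +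
            coldSpill (par K Y ey p j0) lam t x v +
            Mx v * Lc (coldR (par K Y ey p j0) lam t x) v ≤ vs t * EWj K Y ey p j0 t x v) ∧
        (∀ t, T1j j0 ≤ t → t ≤ T + 1 →
          ∫⁻ y in cellG, ∫⁻ v, coldR (par K Y ey p j0) lam t y v ≤ ENNReal.ofReal S)

/-- (835) data at `T1`; `A` depends on `Y` only -/
def DataOut (Y : ℝ) : Prop :=
  ∃ A : ℝ≥0, ∀ K ey : ℝ, 1 ≤ K → 0 < ey → ey ≤ 1 / 100 → ∀ᶠ p : ℕ in atTop,
    ∀ ell d0 : ℝ, 0 < ell → 0 < d0 → ∃ R0 : ℝ, ∀ R, R0 ≤ R → ∃ ε : ℝ, 0 < ε ∧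
    ∀ᶠ j0 : ℕ in atTop, ∀ h : P2 → R3 → ℝ≥0∞, Measurable (fun q : P2 × R3 => h q.1 q.2) →
      (∀ x v, dd (h x v) (H0f j0 R (x - T1j j0 • bar v) v) ≤
        ENNReal.ofReal ε * Zg (par K Y ey p j0) (1 / 50) (T1j j0) x v) →
      (∀ x v, dd (h x v) (Mx v) ≤ A * EWj K Y ey p j0 (T1j j0) x v) ∧
      (∀ t x, T1j j0 + ell ≤ t →
        ENNReal.ofReal (Real.exp (-(1 / 2 * (t - (T1j j0 + ell))))) *
          ∫⁻ v, w1 v * dd (h (x - (t - T1j j0) • bar v) v) (Mx v) ≤ ENNReal.ofReal d0)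

/-- (858) the glued function is a mild solution up to time `T` -/
def MildOut (Y : ℝ) : Prop :=
  ∀ K ey : ℝ, 1 ≤ K → 0 < ey → ey ≤ 1 / 100 → ∀ᶠ p : ℕ in atTop, ∀ R : ℝ, Y + 4 ≤ R →
    ∀ᶠ j0 : ℕ in atTop, ∀ (H : Fld) (A : ℝ≥0∞), Hot (par K Y ey p j0) j0 R H → A ≠ ⊤ →
      (∀ t ∈ Ioc 0 (T1j j0), ∀ x v, H t x v ≤ A * Zg (par K Y ey p j0) (1 / 50) t x v) →
      ∀ (b : ℝ≥0) (Hh : Fld) (T : ℝ), T1j j0 ≤ T → Meas3 Hh → PerF Hh →
        (∀ t x v, T1j j0 ≤ t → Hh t x v ≤ b * EWj K Y ey p j0 t x v) →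
        (∀ t x v, T1j j0 ≤ t → t ≤ T → EWj K Y ey p j0 t x v ≠ ⊤ →
          Hh t x v = damped (T1j j0) (H (T1j j0))
            (fun z => lossH (coldR (par K Y ey p j0) (LcF (Hgl (H0f j0 R) (T1j j0) H Hh))) Hh
              z.1 z.2.1 z.2.2)
            (fun z => gainH (coldR (par K Y ey p j0) (LcF (Hgl (H0f j0 R) (T1j j0) H Hh)))
              (coldSpill (par K Y ey p j0) (LcF (Hgl (H0f j0 R) (T1j j0) H Hh))) Hh
              z.1 z.2.1 z.2.2) (t, x, v)) →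
        MildGOn (fun t x v =>
            (Ftot (par K Y ey p j0) (Hgl (H0f j0 R) (T1j j0) H Hh) t x v).toReal)
          (Fuel.F0 (par K Y ey p j0) (rhj j0) R) R T

/-- (906) causality of the cold component and of the spill -/
def CausOut (Y : ℝ) : Prop :=
  ∀ K ey : ℝ, 1 ≤ K → 0 < ey → ey ≤ 1 / 100 → ∀ᶠ p : ℕ in atTop, ∀ᶠ j0 : ℕ in atTop,
    (∀ lam : Fld, Meas3 lam → PerF lam → Meas3 (coldR (par K Y ey p j0) lam) ∧
      PerF (coldR (par K Y ey p j0) lam) ∧ Meas3 (coldSpill (par K Y ey p j0) lam) ∧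
      PerF (coldSpill (par K Y ey p j0) lam) ∧
      (∀ t x v, 0 ≤ t → coldR (par K Y ey p j0) lam t x v ≤ coldS (par K Y ey p j0) t x v) ∧
      (∀ t x v, 0 ≤ t → coldS (par K Y ey p j0) t x v ≠ ⊤)) ∧
    ∀ lam lam' : Fld, Meas3 lam → PerF lam → Meas3 lam' → PerF lam' → ∀ T : ℝ,
      (∀ t x v, 0 < t → t < T → lam t x v = lam' t x v) →
      ∀ t x v, 0 ≤ t → t ≤ T →
        coldR (par K Y ey p j0) lam t x v = coldR (par K Y ey p j0) lam' t x v ∧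
        coldSpill (par K Y ey p j0) lam t x v = coldSpill (par K Y ey p j0) lam' t x v

end Crest.Agent.R68.WP
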