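import Crest.Agent.R68.ColdFin
import Crest.Agent.R68.WProps

/-!
# Row 68, PART C: `CausOut_holds` (helper906)
-/

set_option autoImplicit false
open MeasureTheory Set Filter
open scoped ENNReal
open Crest.AnalysisR.VecCalc3 Crest.AnalysisR.PDE.Boltzmann

noncomputable section

namespace Crest.Agent.R68.WP

open Crest.Agent.R68.A (en Meas3)
open Crest.Agent.R68.N

theorem CausOut_holds (Y : ℝ) (hY : 1 ≤ Y) : CausOut Y := by
  intro K ey hK hey hey1
  filter_upwards [eventually_ge_atTop 512] with p hp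
  filter_upwards [ev_ColdPar K Y ey p Cold.C0 hK hY hp,
    ev_Ok K Y ey p (by linarith) (by linarith) hey (by omega),
    tendsto_natCast_atTop_atTop.eventually_ge_atTop K] with j0 hC hOk hKj
  have hB : ColdW.Big (par K Y ey p j0) := ⟨hOk, hp, hY, hKj⟩
  refine ⟨fun lam hm hp => ⟨ColdM.meas3_coldR _ hm, fun t v => ColdM.perG_coldR _ lam t v,
    ColdM.meas3_coldSpill _ hm, fun t v => Cold.perG_coldSpill _ lam t v,
    fun t x v ht => Cold.coldR_le_coldS hC hOk lam ht x v,
    fun t x v ht => Cold.coldS_ne_top hB ht x v⟩, ?_⟩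
  intro lam lam' _ _ _ _ T hT t x v _ htT
  exact ⟨congrFun (congrFun (Cold.coldR_congr (T := T) (fun s y v hs hsT => hT s y v hs hsT) htT) x) v,
    Cold.coldSpill_congr (T := T) (fun s y v hs hsT => hT s y v hs hsT) htT x v⟩

end Crest.Agent.R68.WP
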