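import Crest.Agent.R68.ColdFl
import Crest.Agent.R68.FSum
import Crest.Agent.R68.A2
import Crest.Agent.R68.CGauss

/-!
# Row 68, PART C: basic facts of one sheet (helper906)
-/

set_option autoImplicit false
open MeasureTheory Set Filter
open scoped ENNReal
open Crest.AnalysisR.VecCalc3 Crest.AnalysisR.PDE.Boltzmann

noncomputable section

namespace Crest.Agent.R68.Cold

/-- the constant of Part C -/
def C0 : ℝ := 10 ^ 12 * (1 + C.CG)

theorem C0_ge : 10 ^ 12 ≤ C0 := by unfold C0; nlinarith [C.CG_pos]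

theorem CG_le : 10 ^ 12 * C.CG ≤ C0 := by unfold C0; nlinarith [C.CG_pos]

/-! ### scales -/

theorem bj_pos (j : ℕ) : 0 < bj j := by unfold bj; positivity

theorem bj_le_one (j : ℕ) : bj j ≤ 1 := by
  unfold bj
  rw [div_le_one (by positivity)]
  have : (0 : ℝ) ≤ j := Nat.cast_nonneg j
  linarith

theorem etaj_eq (p j : ℕ) : etaj p j = bj j ^ p := rfl

section

variable {P : Par} (h : ColdPar C0 P) {j : ℕ} (hj : P.j0 ≤ j)

include h in
theorem KY_ge : 2 ≤ P.K + P.Y := by linarith [h.K, h.Y]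

include h in
theorem j0_big : 10 ^ 14 ≤ (P.j0 : ℝ) := by
  have h1 := h.j0
  have h2 : (2 : ℝ) ^ 8 ≤ (P.K + P.Y) ^ 8 := pow_le_pow_left₀ (by norm_num) (KY_ge h) 8
  have h3 := C0_ge
  nlinarith

include h in
theorem j0_pos : 1 ≤ P.j0 := by
  have := j0_big h
  have h2 : (1 : ℝ) ≤ P.j0 := by linarith
  exact_mod_cast h2

include h in
theorem dl_pos' : 0 < P.dl := Fuel.dl_pos (j0_pos h)

include h in
theorem c_pos' : 0 < P.c := (dl_pos' h).trans_le h.c

include h hj in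
theorem small : C0 * (P.K + P.Y) ^ 8 * bj j ≤ 1 := by
  have h1 : C0 * (P.K + P.Y) ^ 8 ≤ 2 * (j : ℝ) + 1 := by
    have h2 : (P.j0 : ℝ) ≤ j := by exact_mod_cast hj
    have h3 := h.j0
    have h4 : (0 : ℝ) ≤ j := Nat.cast_nonneg j
    linarith
  unfold bj
  rw [mul_one_div, div_le_one (by positivity)]
  exact h1

include h hj in
/-- all small quantities used below -/
theorem small' {A : ℝ} (hA0 : 0 ≤ A) (hA : A ≤ (P.K + P.Y) ^ 8) {D : ℝ} (hD : D ≤ C0) (hD0 : 0 ≤ D) :
    D * A * bj j ≤ 1 := by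
  refine le_trans ?_ (small h hj)
  have := bj_pos j
  gcongr
  · exact C0_ge.trans' (by norm_num)

include h hj in
theorem small_b : 10 ^ 12 * bj j ≤ 1 := by
  have h1 : (1 : ℝ) ≤ (P.K + P.Y) ^ 8 := one_le_pow₀ (by linarith [KY_ge h])
  have := small' h hj zero_le_one h1 C0_ge (by norm_num)
  linarith

include h in
theorem K_le_pow : P.K ≤ (P.K + P.Y) ^ 8 := by
  have h1 : P.K ≤ P.K + P.Y := by linarith [h.Y]
  exact h1.trans (le_self_pow₀ (by linarith [KY_ge h]) (by norm_num))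

include h in
theorem Y_pow_le (n : ℕ) (hn : n ≤ 8) : P.Y ^ n ≤ (P.K + P.Y) ^ 8 := by
  have h1 : P.Y ≤ P.K + P.Y := by linarith [h.K]
  calc P.Y ^ n ≤ (P.K + P.Y) ^ n := pow_le_pow_left₀ (by linarith [h.Y]) h1 n
    _ ≤ (P.K + P.Y) ^ 8 := pow_le_pow_right₀ (by linarith [KY_ge h]) hn

include h hj in
theorem small_K : 10 ^ 12 * P.K * bj j ≤ 1 :=
  small' h hj (by linarith [h.K]) (K_le_pow h) C0_ge (by norm_num)

include h hj in
theorem small_CGK : 10 ^ 12 * C.CG * P.K * bj j ≤ 1 :=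
  small' h hj (by linarith [h.K]) (K_le_pow h) CG_le (by have := C.CG_pos; positivity)

include h hj in
theorem small_Y4 : 10 ^ 12 * P.Y ^ 4 * bj j ≤ 1 :=
  small' h hj (by have := h.Y; positivity) (Y_pow_le h 4 (by norm_num)) C0_ge (by norm_num)

include h hj in
theorem small_Ysqrt : 320 * P.Y ^ 2 * √(bj j) ≤ 1 := by
  have h1 := small_Y4 h hj
  have h2 : (320 * P.Y ^ 2 * √(bj j)) ^ 2 ≤ 1 ^ 2 := by
    have h3 : √(bj j) ^ 2 = bj j := Real.sq_sqrt (bj_pos j).le
    have h4 : (320 * P.Y ^ 2 * √(bj j)) ^ 2 = 102400 * P.Y ^ 4 * bj j := by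
      rw [mul_pow, mul_pow, h3]; ring
    rw [h4]
    have h5 : 0 ≤ P.Y ^ 4 * bj j := by have := bj_pos j; have := h.Y; positivity
    nlinarith
  exact le_of_sq_le_sq h2 zero_le_one

include h hj in
theorem j_pos : 1 ≤ j := (j0_pos h).trans hj

end

/-! ### labels -/

theorem laneE_bounds {j : ℕ} (hj : 1 ≤ j) {a : ℝ} (ha : a ∈ laneE j) :
    bj j * (1 - bj j) ≤ a ^ 2 ∧ a ^ 2 ≤ bj j * (1 + 2 * bj j) := by
  have h1 := Fuel.laneE_lower ha
  have h2 := Fuel.laneE_upper ha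
  have hj1 : (1 : ℝ) ≤ j := by exact_mod_cast hj
  have hb : bj j * (2 * j + 1) = 1 := by unfold bj; field_simp
  have hb0 := bj_pos j
  have ha0 : 0 ≤ a ^ 2 := sq_nonneg a
  constructor
  · -- a² > 1/(2j+2), b(1-b) = 2j/(2j+1)² ≤ 1/(2j+2)
    by_contra hcon
    push Not at hcon
    have h3 : 1 < bj j * (1 - bj j) * (2 * j + 399 / 200) := by
      refine h1.trans_le ?_
      exact mul_le_mul_of_nonneg_right hcon.le (by positivity)
    have h4 : bj j * (1 - bj j) * (2 * j + 399 / 200) =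
        (1 - bj j) * (1 + 199 / 200 * bj j) := by
      have : bj j * (2 * j + 399 / 200) = 1 + 199 / 200 * bj j := by
        calc bj j * (2 * j + 399 / 200) = bj j * (2 * j + 1) + 199 / 200 * bj j := by ring
          _ = _ := by rw [hb]
      calc bj j * (1 - bj j) * (2 * j + 399 / 200) = (1 - bj j) * (bj j * (2 * j + 399 / 200)) := by
            ring
        _ = _ := by rw [this]
    rw [h4] at h3
    nlinarith [sq_nonneg (bj j)]
  · by_contra hcon
    push Not at hcon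
    have h3 : bj j * (1 + 2 * bj j) * (2 * j + 1 / 200) < 1 := by
      refine lt_of_le_of_lt ?_ h2
      exact mul_le_mul_of_nonneg_right hcon.le (by positivity)
    have h4 : bj j * (1 + 2 * bj j) * (2 * j + 1 / 200) =
        (1 + 2 * bj j) * (1 - 199 / 200 * bj j) := by
      have : bj j * (2 * j + 1 / 200) = 1 - 199 / 200 * bj j := by
        calc bj j * (2 * j + 1 / 200) = bj j * (2 * j + 1) - 199 / 200 * bj j := by ring
          _ = _ := by rw [hb]
      calc bj j * (1 + 2 * bj j) * (2 * j + 1 / 200) = (1 + 2 * bj j) * (bj j * (2 * j + 1 / 200)) := by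
            ring
        _ = _ := by rw [this]
    rw [h4] at h3
    have h5 : bj j ≤ 1 / 3 := by
      unfold bj
      rw [div_le_div_iff₀ (by positivity) (by norm_num)]
      linarith
    nlinarith [mul_nonneg hb0.le (by linarith : 0 ≤ 1 / 3 - bj j)]

/-- the square of the peculiar velocity -/
theorem pec_sq {P : Par} (hd : 0 < P.dl) (σ t : ℝ) (x : P2) (v : R3) :
    ‖v - uvec P σ t x‖ ^ 2 = (v 0 - P.c / P.dl * lab P t x) ^ 2 +
      (v 1 - x.2 / (t + lab P t x ^ 2)) ^ 2 + (v 2 - σ) ^ 2 := by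
  rw [EuclideanSpace.real_norm_sq_eq]
  have : P.c * x.1 / (P.dl + P.c * t) = P.c / P.dl * lab P t x := by
    unfold lab; field_simp
  simp [Fin.sum_univ_three, uvec, this, rr]

theorem abs_pec0_le {P : Par} (hd : 0 < P.dl) (σ t : ℝ) (x : P2) (v : R3) :
    |v 0 - P.c / P.dl * lab P t x| ≤ ‖v - uvec P σ t x‖ := by
  apply abs_le_of_sq_le_sq' _ (norm_nonneg _) |> abs_le.2
  rw [pec_sq hd]
  nlinarith [sq_nonneg (v 1 - x.2 / (t + lab P t x ^ 2)), sq_nonneg (v 2 - σ)]

theorem abs_pec1_le {P : Par} (hd : 0 < P.dl) (σ t : ℝ) (x : P2) (v : R3) :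
    |v 1 - x.2 / (t + lab P t x ^ 2)| ≤ ‖v - uvec P σ t x‖ := by
  apply abs_le_of_sq_le_sq' _ (norm_nonneg _) |> abs_le.2
  rw [pec_sq hd]
  nlinarith [sq_nonneg (v 0 - P.c / P.dl * lab P t x), sq_nonneg (v 2 - σ)]

theorem abs_pec2_le {P : Par} (hd : 0 < P.dl) (σ t : ℝ) (x : P2) (v : R3) :
    |v 2 - σ| ≤ ‖v - uvec P σ t x‖ := by
  apply abs_le_of_sq_le_sq' _ (norm_nonneg _) |> abs_le.2
  rw [pec_sq hd]
  nlinarith [sq_nonneg (v 0 - P.c / P.dl * lab P t x), sq_nonneg (v 1 - x.2 / (t + lab P t x ^ 2))]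

/-! ### flights -/

section

variable {P : Par} {s t : ℝ} (x : P2) (v : R3)

theorem lab_mul (hd : 0 < P.dl) (hc : 0 < P.c) {t : ℝ} (ht : 0 ≤ t) (x : P2) :
    (P.dl + P.c * t) * lab P t x = P.dl * x.1 := by
  unfold lab
  field_simp

theorem lab_flight_eq (hd : 0 < P.dl) (hc : 0 < P.c) (hs : 0 ≤ s) (hst : s ≤ t) :
    (P.dl + P.c * t) * (lab P t x - lab P s (x - (t - s) • bar v)) =
      P.dl * (t - s) * (v 0 - P.c / P.dl * lab P s (x - (t - s) • bar v)) := by
  have h1 := lab_mul hd hc (hs.trans hst) x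
  have h2 := lab_mul hd hc hs (x - (t - s) • bar v)
  have h3 : (x - (t - s) • bar v).1 = x.1 - (t - s) * v 0 := by simp [bar]
  rw [h3] at h2
  set A := lab P s (x - (t - s) • bar v)
  set B := lab P t x
  have h4 : P.dl * (P.c / P.dl * A) = P.c * A := by field_simp
  calc (P.dl + P.c * t) * (B - A) = (P.dl + P.c * t) * B - (P.dl + P.c * s) * A -
        P.c * (t - s) * A := by ring
    _ = P.dl * x.1 - P.dl * (x.1 - (t - s) * v 0) - P.c * (t - s) * A := by rw [h1, h2]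
    _ = (t - s) * (P.dl * v 0 - P.c * A) := by ring
    _ = (t - s) * (P.dl * v 0 - P.dl * (P.c / P.dl * A)) := by rw [h4]
    _ = _ := by ring

theorem lab_flight (hd : 0 < P.dl) (hc : P.dl ≤ P.c) (hs : 0 ≤ s) (hst : s ≤ t) :
    |lab P t x - lab P s (x - (t - s) • bar v)| ≤
      (t - s) / (1 + t) * |v 0 - P.c / P.dl * lab P s (x - (t - s) • bar v)| := by
  have hc0 : 0 < P.c := hd.trans_le hc
  have ht : 0 ≤ t := hs.trans hst
  have h1 := lab_flight_eq x v hd hc0 hs hst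
  set A := lab P s (x - (t - s) • bar v)
  set B := lab P t x
  set p1 := v 0 - P.c / P.dl * A
  have hD : 0 < P.dl + P.c * t := by positivity
  have h2 : |B - A| = P.dl * (t - s) * |p1| / (P.dl + P.c * t) := by
    rw [eq_div_iff hD.ne', ← abs_of_pos hD, ← abs_mul, mul_comm (B - A), h1, abs_mul, abs_mul,
      abs_of_pos hd, abs_of_nonneg (by linarith : 0 ≤ t - s)]
  rw [h2, div_mul_eq_mul_div, div_le_div_iff₀ hD (by positivity)]
  have h3 : P.dl * (1 + t) ≤ P.dl + P.c * t := by nlinarith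
  have h4 : 0 ≤ (t - s) * |p1| := mul_nonneg (by linarith) (abs_nonneg _)
  calc P.dl * (t - s) * |p1| * (1 + t) = ((t - s) * |p1|) * (P.dl * (1 + t)) := by ring
    _ ≤ ((t - s) * |p1|) * (P.dl + P.c * t) := mul_le_mul_of_nonneg_left h3 h4

theorem fan_flight_eq (hs : 0 ≤ s) (hst : s ≤ t)
    (hA : lab P s (x - (t - s) • bar v) ≠ 0) (hB : lab P t x ≠ 0) :
    x.2 / (t + lab P t x ^ 2) -
        (x - (t - s) • bar v).2 / (s + lab P s (x - (t - s) • bar v) ^ 2) =
      ((lab P s (x - (t - s) • bar v) ^ 2 - lab P t x ^ 2) *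
        ((x - (t - s) • bar v).2 / (s + lab P s (x - (t - s) • bar v) ^ 2)) +
      (t - s) * (v 1 - (x - (t - s) • bar v).2 / (s + lab P s (x - (t - s) • bar v) ^ 2))) /
      (t + lab P t x ^ 2) := by
  have ht : 0 ≤ t := hs.trans hst
  have h3 : (x - (t - s) • bar v).2 = x.2 - (t - s) * v 1 := by simp [bar]
  set A := lab P s (x - (t - s) • bar v)
  set B := lab P t x
  have hA' : 0 < s + A ^ 2 := by positivity
  have hB' : 0 < t + B ^ 2 := by positivity
  rw [h3]
  field_simp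
  ring

end

end Crest.Agent.R68.Cold
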