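import Crest.Agent.R68.ColdMeas

/-!
# Row 68, PART C: causality of the cold component (helper906)
-/

set_option autoImplicit false
open MeasureTheory Set Filter
open scoped ENNReal
open Crest.AnalysisR.VecCalc3 Crest.AnalysisR.PDE.Boltzmann

noncomputable section

namespace Crest.Agent.R68.Cold

variable {P : Par} {j : ℕ} {T : ℝ}

/-- equality of rates on `(0, T)` -/
def EqOn0 (T : ℝ) (Λ Λ' : ℝ → P2 → R3 → ℝ≥0∞) : Prop :=
  ∀ s y v, 0 < s → s < T → Λ s y v = Λ' s y v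

theorem damp_congr {Λ Λ' : ℝ → P2 → R3 → ℝ≥0∞} (h : EqOn0 T Λ Λ') {s t : ℝ} (hs : 0 ≤ s)
    (ht : t ≤ T) (x : P2) (v : R3) : damp Λ s t x v = damp Λ' s t x v := by
  unfold damp
  congr 1
  apply setLIntegral_congr_fun measurableSet_Ioo
  intro r hr
  exact h r _ v (hs.trans_lt hr.1) (hr.2.trans_le ht)

theorem DuhD_congr {Λ Λ' q q' : ℝ → P2 → R3 → ℝ≥0∞} (h : EqOn0 T Λ Λ') {t : ℝ} (ht : t ≤ T)
    (x : P2) (v : R3) (hq : ∀ s ∈ Ioo 0 t, q s (x - (t - s) • bar v) v = q' s (x - (t - s) • bar v) v) :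
    DuhD Λ q t x v = DuhD Λ' q' t x v := by
  unfold DuhD
  apply setLIntegral_congr_fun measurableSet_Ioo
  intro s hs
  simp only
  rw [damp_congr h hs.1.le ht, hq s hs]

theorem itj_congr {Λ Λ' : ℝ → P2 → R3 → ℝ≥0∞} (h : EqOn0 T Λ Λ') (n : ℕ) {t : ℝ} (ht : t ≤ T) :
    itj P j Λ n t = itj P j Λ' n t := by
  induction n generalizing t with
  | zero => rfl
  | succ n ih =>
    funext x v
    simp only [itj]
    rw [damp_congr h le_rfl ht, DuhD_congr h ht x v]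
    intro s hs
    unfold gainj
    rw [ih (hs.2.le.trans ht)]

theorem coldj_congr {Λ Λ' : ℝ → P2 → R3 → ℝ≥0∞} (h : EqOn0 T Λ Λ') {t : ℝ} (ht : t ≤ T) :
    coldj P j Λ t = coldj P j Λ' t := by
  funext x v
  unfold coldj
  congr 1
  funext n
  rw [itj_congr h n ht]

theorem coldL_congr {Λ Λ' : ℝ → P2 → R3 → ℝ≥0∞} (h : EqOn0 T Λ Λ') {t : ℝ} (ht : t ≤ T) :
    coldL P Λ t = coldL P Λ' t := by
  funext x v
  unfold coldL
  simp_rw [coldj_congr h ht]

theorem itc_congr {lam lam' : ℝ → P2 → R3 → ℝ≥0∞} (h : EqOn0 T lam lam') (n : ℕ) {t : ℝ}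
    (ht : t ≤ T) : itc P lam n t = itc P lam' n t := by
  induction n generalizing t with
  | zero => rfl
  | succ n ih =>
    simp only [itc]
    apply coldL_congr (T := T) _ ht
    intro s y v hs hsT
    simp only
    rw [ih hsT.le, h s y v hs hsT]

theorem coldR_congr {lam lam' : ℝ → P2 → R3 → ℝ≥0∞} (h : EqOn0 T lam lam') {t : ℝ}
    (ht : t ≤ T) : coldR P lam t = coldR P lam' t := by
  funext x v
  unfold coldR
  simp_rw [itc_congr h _ ht]

theorem rateC_congr {lam lam' : ℝ → P2 → R3 → ℝ≥0∞} (h : EqOn0 T lam lam') :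
    EqOn0 T (rateC P lam) (rateC P lam') := by
  intro s y v hs hsT
  unfold rateC
  rw [coldR_congr h hsT.le, h s y v hs hsT]

theorem coldjk_congr {lam lam' : ℝ → P2 → R3 → ℝ≥0∞} (h : EqOn0 T lam lam')
    (i : (ℤ × ℤ) × ℕ) {t : ℝ} (ht : t ≤ T) (x : P2) (v : R3) :
    coldjk P lam i t x v = coldjk P lam' i t x v := by
  unfold coldjk
  rw [coldj_congr (rateC_congr h) ht]

theorem coldGain_congr {lam lam' : ℝ → P2 → R3 → ℝ≥0∞} (h : EqOn0 T lam lam') {t : ℝ}
    (ht : t ≤ T) (x : P2) (v : R3) : coldGain P lam t x v = coldGain P lam' t x v := by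
  unfold coldGain
  have e : ∀ i : (ℤ × ℤ) × ℕ, coldjk P lam i t x = coldjk P lam' i t x := fun i =>
    funext fun u => coldjk_congr h i ht x u
  simp_rw [e]

theorem coldSpill_congr {lam lam' : ℝ → P2 → R3 → ℝ≥0∞} (h : EqOn0 T lam lam') {t : ℝ}
    (ht : t ≤ T) (x : P2) (v : R3) : coldSpill P lam t x v = coldSpill P lam' t x v := by
  unfold coldSpill
  have e : ∀ i : (ℤ × ℤ) × ℕ, coldjk P lam i t x = coldjk P lam' i t x := fun i =>
    funext fun u => coldjk_congr h i ht x u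
  simp_rw [e]

end Crest.Agent.R68.Cold
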