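import Crest.Agent.R68.ColdW2
import Crest.Agent.R68.CGauss
import Crest.Agent.R68.CNewt2

/-!
# Row 68, part C for all times (helper827): masses, velocity support, `Lc_bdd`
-/

set_option autoImplicit false
open MeasureTheory Set
open scoped ENNReal
open Crest.AnalysisR.VecCalc3 Crest.AnalysisR.PDE.Boltzmann

noncomputable section

namespace Crest.Agent.R68.ColdW

open Crest.Agent.R68

variable {P : Par}

/-- the parameters used in part C for all times -/
structure Big (P : Par) : Prop where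
  ok : P.Ok
  p : 512 ≤ P.p
  Y1 : 1 ≤ P.Y
  K : P.K ≤ P.j0

lemma Big.pole (h : Big P) : Pole.Ok P where
  j0 := le_trans (by norm_num) h.ok.j0
  c0 := h.ok.c0
  c1 := h.ok.c1
  dlc := by
    have h1 := h.ok.kap1
    have h2 := Fuel.Ok.dlp h.ok
    unfold Par.kap at h1
    rwa [le_div_iff₀ h2, one_mul] at h1
  Y0 := h.ok.Y0

lemma Big.K_le (h : Big P) {j : ℕ} (hj : P.j0 ≤ j) : P.K ≤ (bj j)⁻¹ := by
  unfold bj
  rw [one_div, inv_inv]
  have h1 := h.K
  have h2 : (P.j0 : ℝ) ≤ j := by exact_mod_cast hj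
  have h3 : (0 : ℝ) ≤ j := by positivity
  linarith

lemma pi_pow_le : (4 * Real.pi) ^ (3 / 2 : ℝ) ≤ 64 := by
  have h1 : 4 * Real.pi ≤ 16 := by linarith [Real.pi_lt_four]
  calc (4 * Real.pi) ^ (3 / 2 : ℝ) ≤ (16 : ℝ) ^ (3 / 2 : ℝ) := by
        apply Real.rpow_le_rpow (by positivity) h1 (by norm_num)
    _ = 64 := by
        rw [show (16 : ℝ) = 4 ^ (2 : ℝ) by norm_num, ← Real.rpow_mul (by norm_num)]
        norm_num

lemma gaussj_eq_gs (P : Par) (j : ℕ) (t : ℝ) (x : P2) :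
    gaussj P j t x = C.gs (P.K / (bj j * etaj P.p j ^ 3)) (√2 * etaj P.p j) (uvec P (wj j) t x) := by
  funext v
  unfold gaussj C.gs
  congr 3
  rw [mul_pow, Real.sq_sqrt (by norm_num)]
  ring

lemma measurable_gaussj (P : Par) (j : ℕ) (t : ℝ) (x : P2) : Measurable (gaussj P j t x) := by
  rw [gaussj_eq_gs]; exact C.measurable_gs _ _ _

lemma lint_gaussj (h : Big P) (j : ℕ) (t : ℝ) (x : P2) :
    ∫⁻ v, gaussj P j t x v ≤ ENNReal.ofReal (64 * P.K / bj j) := by
  have hη := Fuel.etaj_pos P.p j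
  have hb := bj_pos j
  have hK := h.ok.K0
  unfold gaussj
  have hb4 : 0 < 1 / (4 * etaj P.p j ^ 2) := by positivity
  have e1 : ∀ v : R3, ENNReal.ofReal (P.K / (bj j * etaj P.p j ^ 3) *
      Real.exp (-‖v - uvec P (wj j) t x‖ ^ 2 / (4 * etaj P.p j ^ 2))) =
      ENNReal.ofReal (P.K / (bj j * etaj P.p j ^ 3)) * ENNReal.ofReal (Real.exp
        (-(1 / (4 * etaj P.p j ^ 2)) * ‖v - uvec P (wj j) t x‖ ^ 2)) := by
    intro v
    rw [← ENNReal.ofReal_mul (by positivity)]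
    congr 3
    ring
  simp_rw [e1]
  rw [lintegral_const_mul' _ _ ENNReal.ofReal_ne_top,
    lintegral_sub_right_eq_self (fun y : R3 =>
      ENNReal.ofReal (Real.exp (-(1 / (4 * etaj P.p j ^ 2)) * ‖y‖ ^ 2))) _, C.lintegral_gauss hb4,
    ← ENNReal.ofReal_mul (by positivity)]
  apply ENNReal.ofReal_le_ofReal
  have e : Real.pi / (1 / (4 * etaj P.p j ^ 2)) = (4 * Real.pi) * etaj P.p j ^ 2 := by field_simp
  have e2 : ((4 * Real.pi) * etaj P.p j ^ 2) ^ (3 / 2 : ℝ) =
      (4 * Real.pi) ^ (3 / 2 : ℝ) * etaj P.p j ^ 3 := by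
    rw [Real.mul_rpow (by positivity) (by positivity)]
    congr 1
    rw [← Real.rpow_natCast, ← Real.rpow_mul hη.le]
    norm_num
  rw [e, e2]
  calc P.K / (bj j * etaj P.p j ^ 3) * ((4 * Real.pi) ^ (3 / 2 : ℝ) * etaj P.p j ^ 3)
      = (4 * Real.pi) ^ (3 / 2 : ℝ) * P.K / bj j := by field_simp
    _ ≤ 64 * P.K / bj j := by gcongr; exact pi_pow_le

/-! ### warm part -/

lemma warmj_le (P : Par) (j : ℕ) (t : ℝ) (x : P2) (v : R3) :
    warmj P j t x v ≤ ENNReal.ofReal (kapj P.p j) * gaussj P j t x v := by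
  unfold warmj
  split_ifs
  · exact le_rfl
  · exact bot_le

lemma measurable_warmj_v (P : Par) (j : ℕ) (t : ℝ) (x : P2) : Measurable (warmj P j t x) := by
  classical
  by_cases hz : zt P j t x
  · have : warmj P j t x =
        {v | ‖v - uvec P (wj j) t x‖ < 2 * rhoj P.p j}.indicator
          (fun v => ENNReal.ofReal (kapj P.p j) * gaussj P j t x v) := by
      funext v
      unfold warmj
      by_cases hv : ‖v - uvec P (wj j) t x‖ < 2 * rhoj P.p j
      · rw [if_pos (Ztj_iff.2 ⟨hz, hv⟩), Set.indicator_of_mem (by exact hv)]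
      · rw [if_neg (fun h => hv (Ztj_iff.1 h).2), Set.indicator_of_notMem (by exact hv)]
    rw [this]
    refine Measurable.indicator ((measurable_gaussj P j t x).const_mul _) ?_
    have : Measurable fun v : R3 => ‖v - uvec P (wj j) t x‖ := by fun_prop
    exact this measurableSet_Iio
  · have : warmj P j t x = fun _ => 0 := by
      funext v
      unfold warmj
      rw [if_neg (fun h => hz (Ztj_iff.1 h).1)]
    rw [this]
    exact measurable_const

/-- sums over sheets: at most one lane per image, finitely many images -/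
lemma tsum_sheets_le (h : Big P) {t : ℝ} (ht : 0 ≤ t) (x : P2) (F : ℤ × ℤ → ℕ → ℝ≥0∞) {B : ℝ≥0∞}
    (h0 : ∀ k j, ¬ zt P j t (x + latt k) → F k j = 0)
    (hB : ∀ k j, zt P j t (x + latt k) → F k j ≤ B) :
    ∑' k, ∑' j, F k j ≤ (W.seen P t x).card * B := by
  have h1 : ∀ k, ∑' j, F k j ≤ ((W.seen P t x : Finset (ℤ × ℤ)) : Set (ℤ × ℤ)).indicator (fun _ => B) k := by
    intro k
    by_cases hk : ∃ j, zt P j t (x + latt k)
    · obtain ⟨j, hj⟩ := hk
      have hz := zt_zone h.ok h.p h.Y1 ht hj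
      have hs : k ∈ W.seen P t x := W.mem_seen_of_zone h.pole ht hz.2.2
      rw [Set.indicator_of_mem (by exact_mod_cast hs), tsum_eq_single j]
      · exact hB k j hj
      · intro i hi
        apply h0
        intro hi'
        exact hi (Fuel.laneE_unique (zt_lane h.ok h.p hi').2 (zt_lane h.ok h.p hj).2)
    · push Not at hk
      rw [show (∑' j, F k j) = ∑' _ : ℕ, (0 : ℝ≥0∞) from tsum_congr fun j => h0 k j (hk j), tsum_zero]
      exact bot_le
  refine (ENNReal.tsum_le_tsum h1).trans (le_of_eq ?_)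
  rw [tsum_eq_sum (s := W.seen P t x)]
  · rw [← nsmul_eq_mul, ← Finset.sum_const]
    refine Finset.sum_congr rfl fun k hk => Set.indicator_of_mem (by exact_mod_cast hk) _
  · intro k hk
    exact Set.indicator_of_notMem (by exact_mod_cast hk) _

lemma warmj_eq_zero {j : ℕ} {t : ℝ} {x : P2} (hz : ¬ zt P j t x) (v : R3) : warmj P j t x v = 0 := by
  unfold warmj
  rw [if_neg]
  rw [Ztj_iff]
  exact fun h => hz h.1

/-- integrals against the warm majorant, sheet by sheet -/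
theorem lint_warm_le (h : Big P) {t : ℝ} (ht : 0 ≤ t) (x : P2) {g : R3 → ℝ≥0∞} (hg : Measurable g)
    {B : ℝ≥0∞} (hB : ∀ k j, zt P j t (x + latt k) → ∫⁻ v, warmj P j t (x + latt k) v * g v ≤ B) :
    ∫⁻ v, warm P t x v * g v ≤ (W.seen P t x).card * B := by
  have e1 : ∀ v, warm P t x v * g v = ∑' k, ∑' j, warmj P j t (x + latt k) v * g v := by
    intro v
    unfold warm
    rw [← ENNReal.tsum_mul_right]
    refine tsum_congr fun k => ?_
    rw [← ENNReal.tsum_mul_right]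
  simp_rw [e1]
  have hm : ∀ k j, Measurable fun v => warmj P j t (x + latt k) v * g v := fun k j =>
    (measurable_warmj_v P j t _).mul hg
  rw [lintegral_tsum fun k => (Measurable.tsum (hm k)).aemeasurable]
  simp_rw [lintegral_tsum fun j => (hm _ j).aemeasurable]
  refine tsum_sheets_le h ht x _ (fun k j hz => ?_) hB
  simp [warmj_eq_zero hz]

lemma kapj_mass (h : Big P) {j : ℕ} (hj : P.j0 ≤ j) : kapj P.p j * (64 * P.K / bj j) ≤ bj j ^ 90 := by
  have hb := bj_pos j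
  have hb4 := bj_le h.ok hj
  have h1 := kapj_le h.p j
  have hK0 := h.ok.K0
  have hK := h.K_le hj
  calc kapj P.p j * (64 * P.K / bj j) ≤ bj j ^ 100 * (64 * (bj j)⁻¹ / bj j) := by gcongr
    _ = 64 * bj j ^ 98 := by
      have : bj j ^ 100 = bj j ^ 98 * bj j * bj j := by ring
      rw [this]; field_simp
    _ = (64 * bj j ^ 8) * bj j ^ 90 := by ring
    _ ≤ 1 * bj j ^ 90 := by
      have : 64 * bj j ^ 8 ≤ 1 := by
        have h2 : bj j ^ 8 ≤ bj j ^ 1 := pow_le_pow_of_le_one hb.le (bj_le_one j) (by norm_num)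
        rw [pow_one] at h2
        linarith
      gcongr
    _ = _ := one_mul _

lemma pow_bj_le (h : P.Ok) {j : ℕ} (hj : P.j0 ≤ j) (m : ℕ) : bj j ^ m ≤ P.dl ^ (2 * m) := by
  rw [pow_mul]
  exact pow_le_pow_left₀ (bj_pos j).le (bj_le_dl_sq h hj) m

/-- mass of the warm part of one sheet -/
lemma lint_warmj (h : Big P) {j : ℕ} (hj : P.j0 ≤ j) (t : ℝ) (x : P2) :
    ∫⁻ v, warmj P j t x v ≤ ENNReal.ofReal (bj j ^ 90) := by
  refine (lintegral_mono (warmj_le P j t x)).trans ?_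
  rw [lintegral_const_mul' _ _ ENNReal.ofReal_ne_top]
  refine (mul_le_mul_right (lint_gaussj h j t x) _).trans ?_
  rw [← ENNReal.ofReal_mul (kapj_pos _ _).le]
  exact ENNReal.ofReal_le_ofReal (kapj_mass h hj)

/-- mass of the warm part -/
theorem mass_warm (h : Big P) {t : ℝ} (ht : 0 ≤ t) (x : P2) :
    ∫⁻ v, warm P t x v ≤ ENNReal.ofReal ((3 * ((2 * P.Y + 1) * (t + P.dl)) + 1) ^ 2 * P.dl ^ 100) := by
  have h1 := lint_warm_le h ht x (g := fun _ => 1) measurable_const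
    (B := ENNReal.ofReal (P.dl ^ 100)) fun k j hz => by
      simp only [mul_one]
      refine (lint_warmj h hz.1 t _).trans (ENNReal.ofReal_le_ofReal ?_)
      calc bj j ^ 90 ≤ bj j ^ 50 := pow_le_pow_of_le_one (bj_pos j).le (bj_le_one j) (by norm_num)
        _ ≤ _ := pow_bj_le h.ok hz.1 50
  simp only [mul_one] at h1
  refine h1.trans ?_
  rw [ENNReal.ofReal_mul (by positivity)]
  gcongr
  rw [← ENNReal.ofReal_natCast]
  exact ENNReal.ofReal_le_ofReal (W.card_seen_le h.pole ht x)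

/-! ### support in velocity -/

lemma norm_uvec_le (h : Big P) {j : ℕ} {t : ℝ} (ht : 0 ≤ t) {x : P2} (hz : zt P j t x) :
    ‖uvec P (wj j) t x‖ ≤ P.Y + 3 / 2 := by
  have hl := zt_lane h.ok h.p hz
  have hr : 0 < rr (lab P t x) := Fuel.rr_pos hl.2.1
  have hd := Fuel.Ok.dlp h.ok
  have hY1 := h.Y1
  have hb := bj_pos j
  have hlt := (zt_zone h.ok h.p h.Y1 ht hz).1
  have hκ := Fuel.Ok.kap0 h.ok
  have h0 : |uvec P (wj j) t x 0| ≤ 1 := by
    rw [uvec0 h.ok ht, abs_mul, abs_of_nonneg hκ]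
    have : P.kap * P.dl = P.c := by unfold Par.kap; field_simp
    have := h.ok.c1
    nlinarith
  have h1 : |uvec P (wj j) t x 1| ≤ P.Y + bj j ^ 100 := by
    rw [uvec1, abs_div, abs_of_pos (by positivity : 0 < t + rr (lab P t x)),
      div_le_iff₀ (by positivity)]
    refine hz.2.2.trans ?_
    have := rho_tau_le h.p j (m := 2) (by norm_num)
    gcongr
  have h2 : |uvec P (wj j) t x 2| = 1 := by
    rw [uvec2]; unfold wj; rw [abs_pow]; simp
  have h3 : bj j ^ 100 ≤ P.dl ^ 2 := by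
    calc bj j ^ 100 ≤ bj j ^ 1 := pow_le_pow_of_le_one (bj_pos j).le (bj_le_one j) (by norm_num)
      _ ≤ _ := by rw [pow_one]; exact bj_le_dl_sq h.ok hl.1
  have hd20 := Fuel.Ok.dl20 h.ok
  have hYs := h.ok.Ysm
  have h4 : 0 ≤ bj j ^ 100 := by have := bj_pos j; positivity
  have hsq : ‖uvec P (wj j) t x‖ ^ 2 ≤ (P.Y + 3 / 2) ^ 2 := by
    rw [norm_sq_eq]
    have k0 : uvec P (wj j) t x 0 ^ 2 ≤ 1 := by rw [← sq_abs]; nlinarith [abs_nonneg (uvec P (wj j) t x 0)]
    have k1 : uvec P (wj j) t x 1 ^ 2 ≤ (P.Y + bj j ^ 100) ^ 2 := by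
      rw [← sq_abs]; gcongr
    have k2 : uvec P (wj j) t x 2 ^ 2 = 1 := by rw [← sq_abs, h2]; norm_num
    have k3 : P.Y * bj j ^ 100 ≤ 1 / 20 := by
      calc P.Y * bj j ^ 100 ≤ P.Y * P.dl ^ 2 := by gcongr
        _ = (P.Y * P.dl) * P.dl := by ring
        _ ≤ (1 / 20) * 1 := by gcongr; linarith
        _ ≤ _ := by norm_num
    have k4 : bj j ^ 100 ≤ 1 / 20 := by nlinarith
    nlinarith
  exact le_of_sq_le_sq hsq (by positivity)

/-- a nonzero value of the majorant lies in a tight zone -/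
theorem exists_of_coldS_ne (h : Big P) {t : ℝ} (ht : 0 ≤ t) {x : P2} {v : R3}
    (h0 : coldS P t x v ≠ 0) : ∃ k j, Ztj P j t (x + latt k) v := by
  unfold coldS phiE warm at h0
  rw [ne_eq, add_eq_zero, not_and_or] at h0
  rcases h0 with h0 | h0
  · rw [Fuel.ofReal_phi h.ok] at h0
    simp only [ENNReal.tsum_eq_zero, not_forall] at h0
    obtain ⟨k, j, hj⟩ := h0
    refine ⟨k, j, Ztj_of_phij h.ok h.p ht ?_⟩
    rwa [phij_eq h.ok]
  · simp only [ENNReal.tsum_eq_zero, not_forall] at h0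
    obtain ⟨k, j, hj⟩ := h0
    refine ⟨k, j, ?_⟩
    unfold warmj at hj
    by_contra h1
    rw [if_neg h1] at hj
    exact hj rfl

theorem norm_lt_of_coldS_ne (h : Big P) {t : ℝ} (ht : 0 ≤ t) {x : P2} {v : R3}
    (h0 : coldS P t x v ≠ 0) : ‖v‖ < P.Y + 2 := by
  obtain ⟨k, j, hz⟩ := exists_of_coldS_ne h ht h0
  rw [Ztj_iff] at hz
  have h1 := norm_uvec_le h ht hz.1
  have h2 := rhoj_le h.p j
  have hj := hz.1.1
  have h3 : bj j ^ 200 ≤ 1 / 401 := by
    calc bj j ^ 200 ≤ bj j ^ 1 := pow_le_pow_of_le_one (bj_pos j).le (bj_le_one j) (by norm_num)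
      _ ≤ _ := by rw [pow_one]; exact bj_le h.ok hj
  have h4 : ‖v‖ ≤ ‖v - uvec P (wj j) t (x + latt k)‖ + ‖uvec P (wj j) t (x + latt k)‖ := by
    have := norm_add_le (v - uvec P (wj j) t (x + latt k)) (uvec P (wj j) t (x + latt k))
    simpa using this
  linarith [hz.2]

lemma measurable_phiE_v (h : P.Ok) (t : ℝ) (x : P2) : Measurable (phiE P t x) := by
  have h1 : Measurable fun v : R3 => ((t, x, v) : ℝ × P2 × R3) := by fun_prop
  have h2 : Measurable ((fun p : ℝ × P2 × R3 => ENNReal.ofReal (phi P p.1 p.2.1 p.2.2)) ∘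
      fun v : R3 => ((t, x, v) : ℝ × P2 × R3)) := (Fuel.measurable_ofReal_phi h).comp h1
  exact h2

/-- total mass bound of the majorant -/
def massB (P : Par) (t : ℝ) : ℝ :=
  (4 + 3 * (P.Y + 2) * t) ^ 2 * (P.K / (t * (1 + P.kap * t))) +
    (3 * ((2 * P.Y + 1) * (t + P.dl)) + 1) ^ 2 * P.dl ^ 100

theorem mass_coldS (h : Big P) {t : ℝ} (ht : 0 < t) (x : P2) :
    ∫⁻ v, coldS P t x v ≤ ENNReal.ofReal (massB P t) := by
  have hK := h.ok.K0
  have hκ := Fuel.Ok.kap0 h.ok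
  have hm : Measurable fun v => phiE P t x v := measurable_phiE_v h.ok t x
  unfold coldS
  rw [lintegral_add_left hm]
  unfold massB
  rw [ENNReal.ofReal_add (by positivity) (by have := Fuel.Ok.dlp h.ok; positivity)]
  exact add_le_add (Fuel.density_phi_le h.ok ht x) (mass_warm h ht.le x)

/-! ### one image -/

/-- as long as `(2Y+1)(t+δ) < 7/20` all the cold matter at `(t,x)` belongs to one sheet -/
theorem coldS_le_one (h : Big P) {t : ℝ} (ht : 0 ≤ t) (h1 : (2 * P.Y + 1) * (t + P.dl) < 7 / 20)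
    {x : P2} {k : ℤ × ℤ} {j : ℕ} (hz : zt P j t (x + latt k)) (v : R3) :
    coldS P t x v = R68.phij P j t (x + latt k) v + warmj P j t (x + latt k) v := by
  have key : ∀ l i, zt P i t (x + latt l) → l = k ∧ i = j := by
    intro l i hi
    have a1 := W.norm_le_of_mem_zone h.pole ht (zt_zone h.ok h.p h.Y1 ht hi).2.2
    have a2 := W.norm_le_of_mem_zone h.pole ht (zt_zone h.ok h.p h.Y1 ht hz).2.2
    have a3 : l = k := latt_unique (a1.trans_lt h1) (a2.trans_lt h1)
    subst a3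
    exact ⟨rfl, Fuel.laneE_unique (zt_lane h.ok h.p hi).2 (zt_lane h.ok h.p hz).2⟩
  unfold coldS phiE warm
  rw [Fuel.ofReal_phi h.ok]
  congr 1
  · have e : ∀ l i, ENNReal.ofReal (Fuel.phs P i t (x + latt l) v) = R68.phij P i t (x + latt l) v :=
      fun l i => (phij_eq h.ok i t _ v).symm
    simp_rw [e]
    have z : ∀ l i, (l ≠ k ∨ i ≠ j) → R68.phij P i t (x + latt l) v = 0 := by
      intro l i hli
      by_contra h2
      have := Ztj_of_phij h.ok h.p ht h2
      rw [Ztj_iff] at this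
      have := key l i this.1
      tauto
    rw [tsum_eq_single k, tsum_eq_single j]
    · intro i hi; exact z k i (Or.inr hi)
    · intro l hl
      rw [show (∑' i, R68.phij P i t (x + latt l) v) = ∑' _ : ℕ, (0 : ℝ≥0∞) from
        tsum_congr fun i => z l i (Or.inl hl), tsum_zero]
  · have z : ∀ l i, (l ≠ k ∨ i ≠ j) → warmj P i t (x + latt l) v = 0 := by
      intro l i hli
      apply warmj_eq_zero
      intro h2
      have := key l i h2
      tauto
    rw [tsum_eq_single k, tsum_eq_single j]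
    · intro i hi; exact z k i (Or.inr hi)
    · intro l hl
      rw [show (∑' i, warmj P i t (x + latt l) v) = ∑' _ : ℕ, (0 : ℝ≥0∞) from
        tsum_congr fun i => z l i (Or.inl hl), tsum_zero]

lemma sheet_le (h : Big P) {t : ℝ} (ht : 0 ≤ t) (j : ℕ) (x : P2) (v : R3) :
    R68.phij P j t x v + warmj P j t x v ≤ 2 * gaussj P j t x v := by
  have h1 := phij_le_gaussj h.ok j ht x v
  have h2 := warmj_le P j t x v
  have h3 : ENNReal.ofReal (kapj P.p j) ≤ 1 := by
    rw [← ENNReal.ofReal_one]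
    apply ENNReal.ofReal_le_ofReal
    exact (kapj_le h.p j).trans (pow_le_one₀ (bj_pos j).le (bj_le_one j))
  calc R68.phij P j t x v + warmj P j t x v
      ≤ gaussj P j t x v + 1 * gaussj P j t x v := by
        gcongr; exact h2.trans (by gcongr)
    _ = _ := by ring

lemma CG_le : C.CG ≤ 512 := by
  unfold C.CG
  have := pi_pow_le
  have h1 := Real.pi_lt_four
  have h2 := Real.pi_pos
  calc 2 * Real.pi * (4 * Real.pi) ^ (3 / 2 : ℝ) ≤ 2 * 4 * 64 := by gcongr
    _ = 512 := by norm_num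

/-- collision frequency inside one sheet -/
lemma Lc_gaussj (h : Big P) {j : ℕ} (hj : P.j0 ≤ j) (t : ℝ) (x : P2) {v : R3}
    (hv : ‖v - uvec P (wj j) t x‖ < 2 * rhoj P.p j) :
    Lc (fun v => 2 * gaussj P j t x v) v ≤ ENNReal.ofReal (bj j ^ 190) := by
  have hη := Fuel.etaj_pos P.p j
  have hb := bj_pos j
  have hK0 := h.ok.K0
  have hK := h.K_le hj
  rw [C.Lc_const_mul (by norm_num), gaussj_eq_gs]
  have h1 := C.Lc_gs_le (A := P.K / (bj j * etaj P.p j ^ 3)) (η := √2 * etaj P.p j) (by positivity)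
    (by positivity) (uvec P (wj j) t x) v
  refine (mul_le_mul_right h1 2).trans ?_
  have e2 : ∀ y : ℝ, (2 : ℝ≥0∞) * ENNReal.ofReal y = ENNReal.ofReal (2 * y) := by
    intro y; rw [ENNReal.ofReal_mul (by norm_num)]; norm_num
  rw [e2]
  apply ENNReal.ofReal_le_ofReal
  have hs2 : √2 ≤ 2 := by
    rw [show (2 : ℝ) = √(2 ^ 2) by rw [Real.sqrt_sq (by norm_num)]]
    exact Real.sqrt_le_sqrt (by norm_num)
  have hs0 : 0 < √2 := by positivity
  have hηρ := etaj_lt_rho h.ok h.p hj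
  have hρ := rhoj_pos P.p j
  have hρ2 := rhoj_le h.p j
  have hCG := CG_le
  have hCG0 := C.CG_pos
  have e : C.CG * (P.K / (bj j * etaj P.p j ^ 3)) * (√2 * etaj P.p j) ^ 3 =
      C.CG * √2 ^ 3 * P.K / bj j := by
    rw [mul_pow]; field_simp
  rw [e]
  have h2 : ‖v - uvec P (wj j) t x‖ + √2 * etaj P.p j ≤ 3 * rhoj P.p j := by
    have : √2 * etaj P.p j ≤ 2 * (rhoj P.p j / 401) := by gcongr
    linarith
  have hb4 := bj_le h.ok hj
  calc 2 * (C.CG * √2 ^ 3 * P.K / bj j * (‖v - uvec P (wj j) t x‖ + √2 * etaj P.p j))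
      ≤ 2 * (512 * 2 ^ 3 * (bj j)⁻¹ / bj j * (3 * bj j ^ 200)) := by
        gcongr
        exact h2.trans (by gcongr)
    _ = 24576 * bj j ^ 8 * bj j ^ 190 := by
      have : bj j ^ 200 = bj j ^ 190 * bj j ^ 8 * bj j * bj j := by ring
      rw [this]; field_simp; ring
    _ ≤ 1 * bj j ^ 190 := by
      have : 24576 * bj j ^ 8 ≤ 1 := by
        have h3 : bj j ^ 8 ≤ (1 / 401) ^ 8 := by gcongr
        calc 24576 * bj j ^ 8 ≤ 24576 * (1 / 401) ^ 8 := by gcongr
          _ ≤ 1 := by norm_num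
      gcongr
    _ = _ := one_mul _

/-- bound of the loss rate of cold particles due to cold particles, all times -/
def LcB (P : Par) (t : ℝ) : ℝ := 1 + 4 * Real.pi * (P.Y + 2) *
  ((4 + 3 * (P.Y + 2) * t) ^ 2 * (P.K * (5 * (2 * P.Y + 1))) +
    (3 * ((2 * P.Y + 1) * (t + P.dl)) + 1) ^ 2 * P.dl ^ 100)

/-- **`Lc_bdd`, all times** -/
theorem Lc_coldS_all (h : Big P) {t : ℝ} (ht : 0 ≤ t) {x : P2} {v : R3}
    (h0 : coldS P t x v ≠ 0) : Lc (coldS P t x) v ≤ ENNReal.ofReal (LcB P t) := by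
  have hY := h.ok.Y0
  have hK0 := h.ok.K0
  have hd := Fuel.Ok.dlp h.ok
  have hκ := Fuel.Ok.kap0 h.ok
  have hpi := Real.pi_pos
  by_cases h1 : (2 * P.Y + 1) * (t + P.dl) < 7 / 20
  · obtain ⟨k, j, hz⟩ := exists_of_coldS_ne h ht h0
    rw [Ztj_iff] at hz
    have h2 : ∀ v', coldS P t x v' ≤ 2 * gaussj P j t (x + latt k) v' := fun v' => by
      rw [coldS_le_one h ht h1 hz.1]
      exact sheet_le h ht j _ v'
    refine (C.Lc_mono h2 v).trans ((Lc_gaussj h hz.1.1 t _ hz.2).trans ?_)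
    apply ENNReal.ofReal_le_ofReal
    have h3 : bj j ^ 190 ≤ 1 := pow_le_one₀ (bj_pos j).le (bj_le_one j)
    unfold LcB
    have : 0 ≤ 4 * Real.pi * (P.Y + 2) *
      ((4 + 3 * (P.Y + 2) * t) ^ 2 * (P.K * (5 * (2 * P.Y + 1))) +
      (3 * ((2 * P.Y + 1) * (t + P.dl)) + 1) ^ 2 * P.dl ^ 100) := by positivity
    linarith
  · push Not at h1
    have hYd := h.ok.Ysm
    have hd20 := Fuel.Ok.dl20 h.ok
    have ht0 : 1 ≤ t * (5 * (2 * P.Y + 1)) := by nlinarith
    have htp : 0 < t := by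
      by_contra h2
      push Not at h2
      have : t = 0 := le_antisymm h2 ht
      rw [this] at ht0; norm_num at ht0
    have hv := norm_lt_of_coldS_ne h ht h0
    rw [C.Lc_eq]
    have h2 : ∀ vs, ENNReal.ofReal (2 * Real.pi * ‖v - vs‖) * coldS P t x vs ≤
        ENNReal.ofReal (4 * Real.pi * (P.Y + 2)) * coldS P t x vs := by
      intro vs
      by_cases h3 : coldS P t x vs = 0
      · rw [h3]; simp
      · have h4 := norm_lt_of_coldS_ne h ht h3
        have h5 : ‖v - vs‖ ≤ ‖v‖ + ‖vs‖ := norm_sub_le _ _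
        have h6 : ‖v - vs‖ ≤ 2 * (P.Y + 2) := by linarith
        have h7 : 2 * Real.pi * ‖v - vs‖ ≤ 4 * Real.pi * (P.Y + 2) := by
          calc 2 * Real.pi * ‖v - vs‖ ≤ 2 * Real.pi * (2 * (P.Y + 2)) := by gcongr
            _ = _ := by ring
        gcongr
    refine (lintegral_mono h2).trans ?_
    rw [lintegral_const_mul' _ _ ENNReal.ofReal_ne_top]
    refine (mul_le_mul_right (mass_coldS h htp x) _).trans ?_
    rw [← ENNReal.ofReal_mul (by positivity)]
    apply ENNReal.ofReal_le_ofReal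
    unfold LcB massB
    have h3 : P.K / (t * (1 + P.kap * t)) ≤ P.K * (5 * (2 * P.Y + 1)) := by
      rw [div_le_iff₀ (by positivity)]
      have h4 : 1 ≤ (5 * (2 * P.Y + 1)) * (t * (1 + P.kap * t)) := by
        nlinarith [mul_nonneg hκ ht]
      nlinarith
    have h4 : (4 + 3 * (P.Y + 2) * t) ^ 2 * (P.K / (t * (1 + P.kap * t))) ≤
        (4 + 3 * (P.Y + 2) * t) ^ 2 * (P.K * (5 * (2 * P.Y + 1))) := by gcongr
    have h5 : 0 ≤ 4 * Real.pi * (P.Y + 2) := by positivity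
    nlinarith [mul_le_mul_of_nonneg_left h4 h5]

lemma LcB_mono (h : Big P) {t T : ℝ} (ht : 0 ≤ t) (htT : t ≤ T) : LcB P t ≤ LcB P T := by
  have hY := h.ok.Y0
  have hK0 := h.ok.K0
  have hd := Fuel.Ok.dlp h.ok
  have hpi := Real.pi_pos
  unfold LcB
  gcongr

/-- 906's form -/
theorem Lc_bdd (h : Big P) (T : ℝ) : ∃ B : ℝ, ∀ t x v, 0 ≤ t → t ≤ T → coldS P t x v ≠ 0 →
    Lc (coldS P t x) v ≤ ENNReal.ofReal B :=
  ⟨LcB P T, fun _ _ _ ht htT h0 => (Lc_coldS_all h ht h0).trans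
    (ENNReal.ofReal_le_ofReal (LcB_mono h ht htT))⟩

end Crest.Agent.R68.ColdW
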