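import Crest.Agent.R68.ColdPic
import Crest.Agent.R68.ColdW3
import Crest.Agent.R68.ColdLip

/-!
# Row 68, PART C (helper585): the coupled cold component `coldR` for all times

`itc` is a Cauchy sequence relative to the envelope `envC = φ + min(t,1) warm`; the limit solves
`coldR = coldL (Lc coldR + lam)`.  Per-sheet inputs: `Cold.coldj_le` (P2) and the Lipschitz
dependence `ColdL.coldj_lip_time` (helper475).
-/

set_option autoImplicit false
open MeasureTheory Set Filter
open scoped ENNReal Topology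
open Crest.AnalysisR.VecCalc3 Crest.AnalysisR.PDE.Boltzmann

noncomputable section

namespace Crest.Agent.R68.ColdC

open Crest.Agent.R68.A (Meas3)
open Crest.Agent.R68.ColdW (Big)
open Crest.Agent.R68.Cold (C0)

variable {P : Par}

/-- envelope of the cold component -/
def envC (P : Par) (t : ℝ) (x : P2) (v : R3) : ℝ≥0∞ :=
  phiE P t x v + ENNReal.ofReal (min t 1) * warm P t x v

theorem envC_le (P : Par) (t : ℝ) (x : P2) (v : R3) : envC P t x v ≤ coldS P t x v := by
  unfold envC coldS
  calc phiE P t x v + ENNReal.ofReal (min t 1) * warm P t x v ≤ phiE P t x v + 1 * warm P t x v := by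
        gcongr
        rw [← ENNReal.ofReal_one]
        exact ENNReal.ofReal_le_ofReal (min_le_right _ _)
    _ = _ := by rw [one_mul]

theorem phiE_eq (h : P.Ok) (t : ℝ) (x : P2) (v : R3) :
    phiE P t x v = ∑' k : ℤ × ℤ, ∑' j : ℕ, phij P j t (x + latt k) v := by
  unfold phiE
  rw [Fuel.ofReal_phi h]
  refine tsum_congr fun k => tsum_congr fun j => ?_
  rw [ColdW.phij_eq h]

theorem envC_eq (h : P.Ok) (t : ℝ) (x : P2) (v : R3) :
    envC P t x v = ∑' k : ℤ × ℤ, ∑' j : ℕ, (phij P j t (x + latt k) v +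
      ENNReal.ofReal (min t 1) * warmj P j t (x + latt k) v) := by
  unfold envC warm
  rw [phiE_eq h, ← ENNReal.tsum_mul_left, ← ENNReal.tsum_add]
  refine tsum_congr fun k => ?_
  rw [← ENNReal.tsum_mul_left, ← ENNReal.tsum_add]

theorem coldL_le (hC : ColdPar C0 P) (h : P.Ok) (Λ : ℝ → P2 → R3 → ℝ≥0∞) {t : ℝ} (ht : 0 ≤ t)
    (x : P2) (v : R3) : coldL P Λ t x v ≤ envC P t x v := by
  rw [envC_eq h]
  exact ENNReal.tsum_le_tsum fun k => ENNReal.tsum_le_tsum fun j => Cold.coldj_le hC Λ ht _ v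

/-- finiteness of the warm majorant -/
theorem warm_lt_top (h : Big P) {t : ℝ} (ht : 0 ≤ t) (x : P2) (v : R3) : warm P t x v < ⊤ := by
  have h1 : ∀ k : ℤ × ℤ, ∑' j : ℕ, warmj P j t (x + latt k) v ≠ ⊤ := by
    intro k
    by_cases hk : ∃ j, ColdW.zt P j t (x + latt k)
    · obtain ⟨j, hj⟩ := hk
      rw [tsum_eq_single j]
      · refine ((ColdW.warmj_le P j t _ v).trans_lt ?_).ne
        exact ENNReal.mul_lt_top ENNReal.ofReal_lt_top ENNReal.ofReal_lt_top
      · intro i hi
        apply ColdW.warmj_eq_zero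
        intro hi'
        exact hi (Fuel.laneE_unique (ColdW.zt_lane h.ok h.p hi').2 (ColdW.zt_lane h.ok h.p hj).2)
    · push Not at hk
      rw [show (∑' j, warmj P j t (x + latt k) v) = ∑' _ : ℕ, (0 : ℝ≥0∞) from
        tsum_congr fun j => ColdW.warmj_eq_zero (hk j) v, tsum_zero]
      exact ENNReal.zero_ne_top
  have h2 : ∀ k : ℤ × ℤ, k ∉ W.seen P t x → ∑' j : ℕ, warmj P j t (x + latt k) v = 0 := by
    intro k hk
    rw [show (∑' j, warmj P j t (x + latt k) v) = ∑' _ : ℕ, (0 : ℝ≥0∞) from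
      tsum_congr fun j => ?_, tsum_zero]
    apply ColdW.warmj_eq_zero
    intro hz
    exact hk (W.mem_seen_of_zone h.pole ht (ColdW.zt_zone h.ok h.p h.Y1 ht hz).2.2)
  unfold warm
  rw [tsum_eq_sum (s := W.seen P t x) fun k hk => h2 k hk]
  exact ENNReal.sum_lt_top.2 fun k _ => (h1 k).lt_top

theorem coldS_lt_top (h : Big P) {t : ℝ} (ht : 0 ≤ t) (x : P2) (v : R3) : coldS P t x v < ⊤ :=
  ENNReal.add_lt_top.2 ⟨ENNReal.ofReal_lt_top, warm_lt_top h ht x v⟩

theorem envC_lt_top (h : Big P) {t : ℝ} (ht : 0 ≤ t) (x : P2) (v : R3) : envC P t x v < ⊤ :=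
  (envC_le P t x v).trans_lt (coldS_lt_top h ht x v)

/-- cold points of a sheet are cold points -/
theorem coldS_ne_of_Ztj (hK : 0 < P.K) {j : ℕ} {t : ℝ} {x : P2} {v : R3} (hz : Ztj P j t x v) :
    coldS P t x v ≠ 0 := by
  have h1 : warmj P j t (x + latt 0) v ≠ 0 := by
    rw [latt_zero, add_zero]
    unfold warmj
    rw [if_pos hz]
    refine mul_ne_zero ?_ ?_
    · rw [ne_eq, ENNReal.ofReal_eq_zero, not_le]
      exact ColdW.kapj_pos _ _
    · unfold gaussj
      rw [ne_eq, ENNReal.ofReal_eq_zero, not_le]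
      have := ColdW.bj_pos j
      have := Fuel.etaj_pos P.p j
      positivity
  have h2 : warmj P j t (x + latt 0) v ≤ coldS P t x v := by
    unfold coldS warm
    refine le_trans ?_ le_add_self
    exact (ENNReal.le_tsum (f := fun j => warmj P j t (x + latt 0) v) j).trans
      (ENNReal.le_tsum (f := fun k => ∑' j, warmj P j t (x + latt k) v) 0)
  intro h0
  rw [h0] at h2
  exact h1 (le_zero_iff.1 h2)

/-- Lipschitz dependence of `coldL` on the rate -/
theorem coldL_lip (hC : ColdPar C0 P) (h : P.Ok) {Λ Λ' : ℝ → P2 → R3 → ℝ≥0∞} (hΛ : Meas3 Λ)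
    (hΛ' : Meas3 Λ') {m : ℝ → ℝ≥0∞} {T : ℝ}
    (hd : ∀ s y v, 0 < s → s < T → (∃ j, Ztj P j s y v) →
      Λ s y v ≤ Λ' s y v + m s ∧ Λ' s y v ≤ Λ s y v + m s) {t : ℝ} (ht : 0 ≤ t) (htT : t ≤ T)
    (x : P2) (v : R3) :
    coldL P Λ t x v ≤ coldL P Λ' t x v + 2 * (∫⁻ s in Ioo 0 t, m s) * envC P t x v := by
  rw [envC_eq h]
  unfold coldL
  rw [← ENNReal.tsum_mul_left, ← ENNReal.tsum_add]
  refine ENNReal.tsum_le_tsum fun k => ?_
  rw [← ENNReal.tsum_mul_left, ← ENNReal.tsum_add]
  refine ENNReal.tsum_le_tsum fun j => ?_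
  exact ColdL.coldj_lip_time hC hΛ hΛ' (fun s y v h0 hT hz => hd s y v h0 hT ⟨j, hz⟩) ht htT _ v

/-- collision frequencies of close cold fields are close at cold points -/
theorem Lc_close (hB : Big P) (hK : 0 < P.K) {c c' : ℝ → P2 → R3 → ℝ≥0∞} (hc' : Meas3 c') {a : ℝ≥0∞}
    (ha : a ≠ ⊤) {s : ℝ} (hs : 0 ≤ s) {y : P2} (hcc : ∀ z, c s y z ≤ c' s y z + a * envC P s y z)
    {v : R3} (hz : ∃ j, Ztj P j s y v) :
    Lc (c s y) v ≤ Lc (c' s y) v + a * ENNReal.ofReal (ColdW.LcB P s) := by
  obtain ⟨j, hz⟩ := hz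
  have h1 := ColdW.Lc_coldS_all hB hs (coldS_ne_of_Ztj hK hz)
  calc Lc (c s y) v ≤ Lc (fun z => c' s y z + a * coldS P s y z) v :=
        A.Lc_mono (fun z => (hcc z).trans (by gcongr; exact envC_le P s y z)) v
    _ = Lc (c' s y) v + Lc (fun z => a * coldS P s y z) v := A.Lc_add (hc'.slice s y) v
    _ = Lc (c' s y) v + a * Lc (coldS P s y) v := by rw [A.Lc_const_mul ha]
    _ ≤ _ := by gcongr

/-! ### convergence of the iterates -/

theorem lint_pow_fact (B : ℝ) (hB : 0 ≤ B) (n : ℕ) {t : ℝ} (ht : 0 ≤ t) :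
    2 * (∫⁻ s in Ioo 0 t, ENNReal.ofReal ((2 * B * s) ^ n / n.factorial) * ENNReal.ofReal B) =
      ENNReal.ofReal ((2 * B * t) ^ (n + 1) / (n + 1).factorial) := by
  have h1 : ∫⁻ s in Ioo 0 t, ENNReal.ofReal ((2 * B * s) ^ n / n.factorial) * ENNReal.ofReal B =
      ENNReal.ofReal (∫ s in (0 : ℝ)..t, (2 * B * s) ^ n / n.factorial * B) := by
    rw [intervalIntegral.integral_of_le ht, ← integral_Ioc_eq_integral_Ioo.symm,
      ofReal_integral_eq_lintegral_ofReal]
    · refine setLIntegral_congr_fun measurableSet_Ioo fun s hs => ?_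
      rw [← ENNReal.ofReal_mul (by have := hs.1; positivity)]
    · exact (Continuous.integrableOn_Icc (by fun_prop)).mono_set Ioo_subset_Icc_self
    · filter_upwards [ae_restrict_mem measurableSet_Ioo] with s hs
      have := hs.1
      show 0 ≤ (2 * B * s) ^ n / n.factorial * B
      positivity
  have h2 : ∫ s in (0 : ℝ)..t, (2 * B * s) ^ n / n.factorial * B =
      (2 * B * t) ^ (n + 1) / (n + 1).factorial / 2 := by
    have e : ∀ s : ℝ, (2 * B * s) ^ n / n.factorial * B = ((2 * B) ^ n * B / n.factorial) * s ^ n := by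
      intro s; rw [mul_pow]; ring
    simp_rw [e]
    rw [intervalIntegral.integral_const_mul, integral_pow]
    rw [Nat.factorial_succ]
    push_cast
    have : (n.factorial : ℝ) ≠ 0 := by exact_mod_cast n.factorial_ne_zero
    field_simp
    ring
  rw [h1, h2, ← ENNReal.ofReal_ofNat 2, ← ENNReal.ofReal_mul (by norm_num)]
  congr 1
  ring

/-- consecutive iterates -/
theorem itc_step (hC : ColdPar C0 P) (hB : Big P) (hK : 0 < P.K)
    {lam : ℝ → P2 → R3 → ℝ≥0∞} (hl : Meas3 lam) (T : ℝ) (n : ℕ) :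
    ∀ t x v, 0 ≤ t → t ≤ T →
      itc P lam (n + 1) t x v ≤ itc P lam n t x v +
        ENNReal.ofReal ((2 * ColdW.LcB P T * t) ^ n / n.factorial) * envC P t x v ∧
      itc P lam n t x v ≤ itc P lam (n + 1) t x v +
        ENNReal.ofReal ((2 * ColdW.LcB P T * t) ^ n / n.factorial) * envC P t x v := by
  induction n with
  | zero =>
    intro t x v ht _
    simp only [pow_zero, Nat.factorial_zero, Nat.cast_one, div_one, ENNReal.ofReal_one, one_mul]
    refine ⟨?_, ?_⟩
    · show coldL P _ t x v ≤ itc P lam 0 t x v + envC P t x v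
      exact (coldL_le hC hB.ok _ ht x v).trans le_add_self
    · show (0 : ℝ≥0∞) ≤ _
      exact zero_le
  | succ n ih =>
    intro t x v ht htT
    have hT : 0 ≤ T := ht.trans htT
    have hB0 : 0 ≤ ColdW.LcB P T := by
      have hY := hB.ok.Y0
      have hK0 := hB.ok.K0
      unfold ColdW.LcB
      positivity
    set a : ℝ → ℝ≥0∞ := fun s => ENNReal.ofReal ((2 * ColdW.LcB P T * s) ^ n / n.factorial) with ha
    have hM : ∀ i, Meas3 (fun t x v => Lc (itc P lam i t x) v + lam t x v) := fun i =>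
      (A.meas3_Lc (ColdM.meas3_itc P hl i)).add hl
    have hd : ∀ s y w, 0 < s → s < T → (∃ j, Ztj P j s y w) →
        Lc (itc P lam (n + 1) s y) w + lam s y w ≤ (Lc (itc P lam n s y) w + lam s y w) +
          a s * ENNReal.ofReal (ColdW.LcB P T) ∧
        Lc (itc P lam n s y) w + lam s y w ≤ (Lc (itc P lam (n + 1) s y) w + lam s y w) +
          a s * ENNReal.ofReal (ColdW.LcB P T) := by
      intro s y w hs hsT hz
      have hBs : ENNReal.ofReal (ColdW.LcB P s) ≤ ENNReal.ofReal (ColdW.LcB P T) :=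
        ENNReal.ofReal_le_ofReal (ColdW.LcB_mono hB hs.le hsT.le)
      have h1 := Lc_close hB hK (c := itc P lam (n + 1)) (c' := itc P lam n) (a := a s)
        (ColdM.meas3_itc P hl n) ENNReal.ofReal_ne_top hs.le (fun z => (ih s y z hs.le hsT.le).1) hz
      have h2 := Lc_close hB hK (c := itc P lam n) (c' := itc P lam (n + 1)) (a := a s)
        (ColdM.meas3_itc P hl (n + 1)) ENNReal.ofReal_ne_top hs.le
        (fun z => (ih s y z hs.le hsT.le).2) hz
      constructor
      · calc _ ≤ (Lc (itc P lam n s y) w + a s * ENNReal.ofReal (ColdW.LcB P s)) + lam s y w := by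
              gcongr
          _ ≤ (Lc (itc P lam n s y) w + a s * ENNReal.ofReal (ColdW.LcB P T)) + lam s y w := by
              gcongr
          _ = _ := by ring
      · calc _ ≤ (Lc (itc P lam (n + 1) s y) w + a s * ENNReal.ofReal (ColdW.LcB P s)) +
              lam s y w := by gcongr
          _ ≤ (Lc (itc P lam (n + 1) s y) w + a s * ENNReal.ofReal (ColdW.LcB P T)) +
              lam s y w := by gcongr
          _ = _ := by ring
    have h3 := coldL_lip hC hB.ok (hM (n + 1)) (hM n) hd ht htT x v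
    have h4 := coldL_lip hC hB.ok (hM n) (hM (n + 1))
      (fun s y w h0 h1 h2 => (hd s y w h0 h1 h2).symm) ht htT x v
    rw [ha] at h3 h4
    rw [lint_pow_fact _ hB0 n ht] at h3 h4
    exact ⟨h3, h4⟩

/-- tail of the exponential series -/
def tailE (b : ℝ) (n : ℕ) : ℝ≥0∞ := ∑' i : ℕ, ENNReal.ofReal (b ^ (i + n) / (i + n).factorial)

theorem tailE_ne_top {b : ℝ} (hb : 0 ≤ b) : ∑' i : ℕ, ENNReal.ofReal (b ^ i / i.factorial) ≠ ⊤ := by
  have h := Real.summable_pow_div_factorial b
  rw [← ENNReal.ofReal_tsum_of_nonneg (fun n => by positivity) h]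
  exact ENNReal.ofReal_ne_top

theorem tailE_le {b : ℝ} (n : ℕ) : tailE b n ≤ ∑' i : ℕ, ENNReal.ofReal (b ^ i / i.factorial) := by
  unfold tailE
  exact ENNReal.tsum_comp_le_tsum_of_injective (add_left_injective n)
    (fun i => ENNReal.ofReal (b ^ i / i.factorial))

theorem tendsto_tailE {b : ℝ} (hb : 0 ≤ b) : Tendsto (tailE b) atTop (𝓝 0) :=
  ENNReal.tendsto_sum_nat_add (fun i => ENNReal.ofReal (b ^ i / i.factorial)) (tailE_ne_top hb)

theorem tailE_succ (b : ℝ) (n : ℕ) :
    tailE b n = ENNReal.ofReal (b ^ n / n.factorial) + tailE b (n + 1) := by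
  unfold tailE
  rw [tsum_eq_zero_add' ENNReal.summable, zero_add]
  congr 1
  refine tsum_congr fun i => ?_
  rw [show i + 1 + n = i + (n + 1) by ring]

/-- the iterates are Cauchy relative to the envelope -/
theorem itc_cauchy (hC : ColdPar C0 P) (hB : Big P) (hK : 0 < P.K)
    {lam : ℝ → P2 → R3 → ℝ≥0∞} (hl : Meas3 lam) {T : ℝ} {t : ℝ} (ht : 0 ≤ t) (htT : t ≤ T)
    (x : P2) (v : R3) (n i : ℕ) :
    itc P lam (n + i) t x v ≤ itc P lam n t x v +
        tailE (2 * ColdW.LcB P T * T) n * envC P t x v ∧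
      itc P lam n t x v ≤ itc P lam (n + i) t x v +
        tailE (2 * ColdW.LcB P T * T) n * envC P t x v := by
  have hB0 : 0 ≤ ColdW.LcB P T := by
    have hY := hB.ok.Y0
    have hK0 := hB.ok.K0
    have hT := ht.trans htT
    unfold ColdW.LcB
    positivity
  set b : ℝ := 2 * ColdW.LcB P T * T with hb
  have hbt : 2 * ColdW.LcB P T * t ≤ b := by rw [hb]; gcongr
  have hb0 : 0 ≤ 2 * ColdW.LcB P T * t := by positivity
  have hstep : ∀ m, itc P lam (m + 1) t x v ≤ itc P lam m t x v +
        ENNReal.ofReal (b ^ m / m.factorial) * envC P t x v ∧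
      itc P lam m t x v ≤ itc P lam (m + 1) t x v +
        ENNReal.ofReal (b ^ m / m.factorial) * envC P t x v := by
    intro m
    obtain ⟨h1, h2⟩ := itc_step hC hB hK hl T m t x v ht htT
    have h3 : ENNReal.ofReal ((2 * ColdW.LcB P T * t) ^ m / m.factorial) ≤
        ENNReal.ofReal (b ^ m / m.factorial) := by
      apply ENNReal.ofReal_le_ofReal
      gcongr
    exact ⟨h1.trans (by gcongr), h2.trans (by gcongr)⟩
  induction i generalizing n with
  | zero => exact ⟨le_self_add, le_self_add⟩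
  | succ i ih =>
    obtain ⟨h1, h2⟩ := hstep n
    obtain ⟨h3, h4⟩ := ih (n + 1)
    have e : n + (i + 1) = n + 1 + i := by ring
    rw [e, tailE_succ b n]
    constructor
    · calc itc P lam (n + 1 + i) t x v ≤ itc P lam (n + 1) t x v + tailE b (n + 1) * envC P t x v := h3
        _ ≤ (itc P lam n t x v + ENNReal.ofReal (b ^ n / n.factorial) * envC P t x v) +
            tailE b (n + 1) * envC P t x v := by gcongr
        _ = _ := by ring
    · calc itc P lam n t x v ≤ itc P lam (n + 1) t x v +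
            ENNReal.ofReal (b ^ n / n.factorial) * envC P t x v := h2
        _ ≤ (itc P lam (n + 1 + i) t x v + tailE b (n + 1) * envC P t x v) +
            ENNReal.ofReal (b ^ n / n.factorial) * envC P t x v := by gcongr
        _ = _ := by ring

/-- the limit is close to the iterates -/
theorem coldR_itc (hC : ColdPar C0 P) (hB : Big P) (hK : 0 < P.K)
    {lam : ℝ → P2 → R3 → ℝ≥0∞} (hl : Meas3 lam) {T : ℝ} {t : ℝ} (ht : 0 ≤ t) (htT : t ≤ T)
    (x : P2) (v : R3) (n : ℕ) :
    coldR P lam t x v ≤ itc P lam n t x v +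
        tailE (2 * ColdW.LcB P T * T) n * envC P t x v ∧
      itc P lam n t x v ≤ coldR P lam t x v +
        tailE (2 * ColdW.LcB P T * T) n * envC P t x v := by
  set e : ℝ≥0∞ := tailE (2 * ColdW.LcB P T * T) n * envC P t x v with he
  have hc := itc_cauchy hC hB hK hl ht htT x v n
  constructor
  · unfold coldR
    refine limsup_le_of_le (by isBoundedDefault) ?_
    filter_upwards [eventually_ge_atTop n] with m hm
    obtain ⟨i, rfl⟩ := Nat.exists_eq_add_of_le hm
    exact (hc i).1
  · have h1 : itc P lam n t x v - e ≤ coldR P lam t x v := by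
      unfold coldR
      refine le_limsup_of_frequently_le ?_ (by isBoundedDefault)
      refine Eventually.frequently ?_
      filter_upwards [eventually_ge_atTop n] with m hm
      obtain ⟨i, rfl⟩ := Nat.exists_eq_add_of_le hm
      exact tsub_le_iff_right.2 (hc i).2
    exact tsub_le_iff_right.1 h1

/-- **the coupled equation**: `coldR = coldL (Lc coldR + lam)` for all `t ≥ 0` -/
theorem coldR_eq_coldL (hC : ColdPar C0 P) (hB : Big P) (hK : 0 < P.K)
    {lam : ℝ → P2 → R3 → ℝ≥0∞} (hl : Meas3 lam) {t : ℝ} (ht : 0 ≤ t) (x : P2) (v : R3) :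
    coldR P lam t x v = coldL P (rateC P lam) t x v := by
  have hB0 : 0 ≤ ColdW.LcB P t := by
    have hY := hB.ok.Y0
    have hK0 := hB.ok.K0
    unfold ColdW.LcB
    positivity
  set b : ℝ := 2 * ColdW.LcB P t * t with hb
  have hb0 : 0 ≤ b := by positivity
  have hne : ∀ n, tailE b n ≠ ⊤ := fun n => ((tailE_le n).trans_lt (tailE_ne_top hb0).lt_top).ne
  set δ : ℕ → ℝ≥0∞ := fun n => (2 * (tailE b n * ENNReal.ofReal (ColdW.LcB P t) * ENNReal.ofReal t) +
    tailE b (n + 1)) * envC P t x v with hδ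
  have hδ0 : Tendsto δ atTop (𝓝 0) := by
    have h1 := tendsto_tailE hb0
    have h2 : Tendsto (fun n => tailE b (n + 1)) atTop (𝓝 0) := h1.comp (tendsto_add_atTop_nat 1)
    have h3 : Tendsto (fun n => 2 * (tailE b n * ENNReal.ofReal (ColdW.LcB P t) *
        ENNReal.ofReal t)) atTop (𝓝 0) := by
      have h4 := ENNReal.Tendsto.const_mul (a := 2 * (ENNReal.ofReal (ColdW.LcB P t) *
        ENNReal.ofReal t)) h1 (Or.inr (ENNReal.mul_ne_top (by norm_num)
          (ENNReal.mul_ne_top ENNReal.ofReal_ne_top ENNReal.ofReal_ne_top)))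
      rw [mul_zero] at h4
      refine h4.congr fun n => ?_
      ring
    have h5 := h3.add h2
    rw [add_zero] at h5
    have h6 := ENNReal.Tendsto.mul_const h5 (b := envC P t x v) (Or.inr (envC_lt_top hB ht x v).ne)
    rwa [zero_mul] at h6
  have hrate : ∀ n s y w, 0 < s → s < t → (∃ j, Ztj P j s y w) →
      rateC P lam s y w ≤ (Lc (itc P lam n s y) w + lam s y w) +
        tailE b n * ENNReal.ofReal (ColdW.LcB P t) ∧
      Lc (itc P lam n s y) w + lam s y w ≤ rateC P lam s y w +
        tailE b n * ENNReal.ofReal (ColdW.LcB P t) := by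
    intro n s y w hs hst hz
    have hBs : ENNReal.ofReal (ColdW.LcB P s) ≤ ENNReal.ofReal (ColdW.LcB P t) :=
      ENNReal.ofReal_le_ofReal (ColdW.LcB_mono hB hs.le hst.le)
    have h1 := Lc_close hB hK (c := coldR P lam) (c' := itc P lam n) (a := tailE b n)
      (ColdM.meas3_itc P hl n) (hne n) hs.le
      (fun z => (coldR_itc hC hB hK hl hs.le hst.le y z n).1) hz
    have h2 := Lc_close hB hK (c := itc P lam n) (c' := coldR P lam) (a := tailE b n)
      (ColdM.meas3_coldR P hl) (hne n) hs.le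
      (fun z => (coldR_itc hC hB hK hl hs.le hst.le y z n).2) hz
    unfold rateC
    constructor
    · calc _ ≤ (Lc (itc P lam n s y) w + tailE b n * ENNReal.ofReal (ColdW.LcB P s)) +
            lam s y w := by gcongr
        _ ≤ (Lc (itc P lam n s y) w + tailE b n * ENNReal.ofReal (ColdW.LcB P t)) +
            lam s y w := by gcongr
        _ = _ := by ring
    · calc _ ≤ (Lc (coldR P lam s y) w + tailE b n * ENNReal.ofReal (ColdW.LcB P s)) +
            lam s y w := by gcongr
        _ ≤ (Lc (coldR P lam s y) w + tailE b n * ENNReal.ofReal (ColdW.LcB P t)) +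
            lam s y w := by gcongr
        _ = _ := by ring
  have hM : ∀ n, Meas3 (fun t x v => Lc (itc P lam n t x) v + lam t x v) := fun n =>
    (A.meas3_Lc (ColdM.meas3_itc P hl n)).add hl
  have hint : ∀ n, ∫⁻ _ in Ioo 0 t, tailE b n * ENNReal.ofReal (ColdW.LcB P t) =
      tailE b n * ENNReal.ofReal (ColdW.LcB P t) * ENNReal.ofReal t := by
    intro n
    rw [lintegral_const, Measure.restrict_apply_univ, Real.volume_Ioo, sub_zero]
  have h1 : ∀ n, coldL P (rateC P lam) t x v ≤ coldR P lam t x v + δ n := by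
    intro n
    have h2 := coldL_lip hC hB.ok (ColdM.meas3_rateC P hl) (hM n)
      (m := fun _ => tailE b n * ENNReal.ofReal (ColdW.LcB P t))
      (hrate n) ht le_rfl x v
    rw [hint] at h2
    have h3 := (coldR_itc hC hB hK hl ht le_rfl x v (n + 1)).2
    calc coldL P (rateC P lam) t x v
        ≤ itc P lam (n + 1) t x v + 2 * (tailE b n * ENNReal.ofReal (ColdW.LcB P t) *
          ENNReal.ofReal t) * envC P t x v := h2
      _ ≤ (coldR P lam t x v + tailE b (n + 1) * envC P t x v) +
          2 * (tailE b n * ENNReal.ofReal (ColdW.LcB P t) * ENNReal.ofReal t) * envC P t x v := by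
          gcongr
      _ = _ := by rw [hδ]; ring
  have h1' : ∀ n, coldR P lam t x v ≤ coldL P (rateC P lam) t x v + δ n := by
    intro n
    have h2 := coldL_lip hC hB.ok (hM n) (ColdM.meas3_rateC P hl)
      (m := fun _ => tailE b n * ENNReal.ofReal (ColdW.LcB P t))
      (fun s y w a1 a2 a3 => (hrate n s y w a1 a2 a3).symm) ht le_rfl x v
    rw [hint] at h2
    have h3 := (coldR_itc hC hB hK hl ht le_rfl x v (n + 1)).1
    calc coldR P lam t x v
        ≤ itc P lam (n + 1) t x v + tailE b (n + 1) * envC P t x v := h3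
      _ ≤ (coldL P (rateC P lam) t x v + 2 * (tailE b n * ENNReal.ofReal (ColdW.LcB P t) *
          ENNReal.ofReal t) * envC P t x v) + tailE b (n + 1) * envC P t x v := by
          gcongr
          exact h2
      _ = _ := by rw [hδ]; ring
  have lim : ∀ c c' : ℝ≥0∞, (∀ n, c ≤ c' + δ n) → c ≤ c' := by
    intro c c' hcc
    have h4 : Tendsto (fun n => c' + δ n) atTop (𝓝 (c' + 0)) := tendsto_const_nhds.add hδ0
    rw [add_zero] at h4
    exact ge_of_tendsto' h4 hcc
  exact le_antisymm (lim _ _ h1') (lim _ _ h1)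

/-- the coupled cold component is below the envelope -/
theorem coldR_le (hC : ColdPar C0 P) (hB : Big P) (hK : 0 < P.K)
    {lam : ℝ → P2 → R3 → ℝ≥0∞} (hl : Meas3 lam) {t : ℝ} (ht : 0 ≤ t) (x : P2) (v : R3) :
    coldR P lam t x v ≤ phiE P t x v + ENNReal.ofReal (min t 1) * warm P t x v := by
  rw [coldR_eq_coldL hC hB hK hl ht]
  exact coldL_le hC hB.ok _ ht x v

theorem coldR_supp (hC : ColdPar C0 P) (hB : Big P) (hK : 0 < P.K)
    {lam : ℝ → P2 → R3 → ℝ≥0∞} (hl : Meas3 lam) {t : ℝ} (ht : 0 ≤ t) {x : P2} {v : R3}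
    (h0 : coldR P lam t x v ≠ 0) : ‖v‖ < P.Y + 2 := by
  apply ColdW.norm_lt_of_coldS_ne hB ht (x := x)
  intro h1
  have h2 := (coldR_le hC hB hK hl ht x v).trans (envC_le P t x v)
  rw [h1] at h2
  exact h0 (le_zero_iff.1 h2)

/-! ### periodicity of the damping -/

theorem damp_per {Λ : ℝ → P2 → R3 → ℝ≥0∞} (hp : ∀ t v, PerG (fun x => Λ t x v)) (s t : ℝ) (x : P2)
    (v : R3) (k : ℤ × ℤ) : damp Λ s t (x + latt k) v = damp Λ s t x v := by
  unfold damp
  congr 1
  refine lintegral_congr fun r => ?_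
  rw [show x + latt k - (t - r) • bar v = (x - (t - r) • bar v) + latt k by abel]
  exact hp r v _ k

theorem perG_rateC {lam : ℝ → P2 → R3 → ℝ≥0∞} (hp : ∀ t v, PerG (fun x => lam t x v)) (t : ℝ)
    (v : R3) : PerG (fun x => rateC P lam t x v) := by
  intro x k
  show Lc (coldR P lam t (x + latt k)) v + lam t (x + latt k) v = Lc (coldR P lam t x) v + lam t x v
  have h1 : coldR P lam t (x + latt k) = coldR P lam t x := by
    funext z; exact ColdM.perG_coldR P lam t z x k
  rw [h1, show lam t (x + latt k) v = lam t x v from hp t v x k]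

/-- **the integral equation** with the full gain `coldGain` -/
theorem coldR_duh (hC : ColdPar C0 P) (hB : Big P) (hK : 0 < P.K)
    {lam : ℝ → P2 → R3 → ℝ≥0∞} (hl : Meas3 lam) (hp : ∀ t v, PerG (fun x => lam t x v))
    {t : ℝ} (ht : 0 ≤ t) (x : P2) (v : R3) :
    coldR P lam t x v =
      phiE P t x v * damp (rateC P lam) 0 t x v + DuhD (rateC P lam) (coldGain P lam) t x v := by
  have hR := ColdM.meas3_rateC P hl
  have hpR := perG_rateC (P := P) hp
  rw [coldR_eq_coldL hC hB hK hl ht]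
  have h1 : coldL P (rateC P lam) t x v = ∑' k : ℤ × ℤ, ∑' j : ℕ,
      (phij P j t (x + latt k) v * damp (rateC P lam) 0 t x v +
        ∫⁻ s in Ioo 0 t, damp (rateC P lam) s t x v *
          gainj P j (coldj P j (rateC P lam)) s (x - (t - s) • bar v + latt k) v) := by
    unfold coldL
    refine tsum_congr fun k => tsum_congr fun j => ?_
    rw [Cold.coldj_eq hR, damp_per hpR]
    congr 1
    unfold DuhD
    refine lintegral_congr fun s => ?_
    rw [damp_per hpR, show x + latt k - (t - s) • bar v = (x - (t - s) • bar v) + latt k by abel]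
  rw [h1]
  have h2 : phiE P t x v * damp (rateC P lam) 0 t x v = ∑' k : ℤ × ℤ, ∑' j : ℕ,
      phij P j t (x + latt k) v * damp (rateC P lam) 0 t x v := by
    rw [phiE_eq hB.ok, ← ENNReal.tsum_mul_right]
    refine tsum_congr fun k => ?_
    rw [ENNReal.tsum_mul_right]
  have hmeas : ∀ (k : ℤ × ℤ) (j : ℕ), Measurable fun s => damp (rateC P lam) s t x v *
      gainj P j (coldj P j (rateC P lam)) s (x - (t - s) • bar v + latt k) v := by
    intro k j
    refine Measurable.mul ?_ ?_
    · exact ColdM.meas3_damp hR measurable_id measurable_const measurable_const measurable_const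
    · exact (ColdM.meas3_gainj P j (ColdM.meas3_coldj P j hR)).comp measurable_id (by fun_prop)
        measurable_const
  have h3 : DuhD (rateC P lam) (coldGain P lam) t x v = ∑' k : ℤ × ℤ, ∑' j : ℕ,
      ∫⁻ s in Ioo 0 t, damp (rateC P lam) s t x v *
          gainj P j (coldj P j (rateC P lam)) s (x - (t - s) • bar v + latt k) v := by
    unfold DuhD
    have h4 : ∀ s, damp (rateC P lam) s t x v * coldGain P lam s (x - (t - s) • bar v) v =
        ∑' k : ℤ × ℤ, ∑' j : ℕ, damp (rateC P lam) s t x v *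
          gainj P j (coldj P j (rateC P lam)) s (x - (t - s) • bar v + latt k) v := by
      intro s
      unfold coldGain
      rw [ENNReal.tsum_prod', ← ENNReal.tsum_mul_left]
      refine tsum_congr fun k => ?_
      rw [← ENNReal.tsum_mul_left]
      rfl
    simp_rw [h4]
    rw [lintegral_tsum fun k => (Measurable.tsum fun j => hmeas k j).aemeasurable]
    refine tsum_congr fun k => ?_
    rw [lintegral_tsum fun j => (hmeas k j).aemeasurable]
  rw [h2, h3, ← ENNReal.tsum_add]
  refine tsum_congr fun k => ?_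
  rw [← ENNReal.tsum_add]

end Crest.Agent.R68.ColdC
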