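import Crest.Agent.R68.ColdW4
import Crest.Agent.R68.Params

/-!
# Row 68, part W (helper827): the explicit function `vs` of `WP.ColdOut` (definitions)
-/

set_option autoImplicit false

noncomputable section

namespace Crest.Agent.R68.ColdW

open Crest.Agent.R68

/-- bound of the number of images seen at time `t` -/
def cardB (P : Par) (t : ℝ) : ℝ := (3 * ((2 * P.Y + 1) * (t + P.dl)) + 1) ^ 2

open scoped Classical in
/-- pointwise bound of the broad sheet in a crossing of two sheets; no crossing for small times -/
def MS (P : Par) (t : ℝ) : ℝ :=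
  if P.dl < W.sep P t then 0 else (2 / W.sep P t ^ 2) ^ (3 * P.p + 2)

/-- size of all the cold terms at time `t` -/
def VS (P : Par) (C t : ℝ) : ℝ :=
  C * ((massB P t + NB P t) * (1 + cardB P t ^ 2 * MS P t) + cardB P t * P.dl ^ 2)

/-- decay of the cold component, rate `1/2` on `[T1 + ell, T]`, used up to `T + 1` -/
def al (T1 ell t : ℝ) : ℝ := Real.exp (-(1 / 2 * max 0 (t - (T1 + ell + 1))))

/-- the function `vs` -/
def vsR (P : Par) (C T1 ell t : ℝ) : ℝ := al T1 ell t * Real.exp (1 / 8 * (t - T1)) * VS P C t

end Crest.Agent.R68.ColdW
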