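import Crest.Agent.R68.ColdPic
import Crest.Agent.R68.ColdW3
import Crest.Agent.R68.ColdVS
import Crest.Agent.R68.WA0

/-!
# Row 68, part W / cold (helper559): exponential decay of the cold component after `T1`

A full loss rate `≥ lam0 s` gives `coldj ≤ e^{-∫_0^t lam0} (phij + warmj)` for every sheet, hence
`coldR P lam ≤ al T1 ell t * coldS P` on `[0, T+1]` if `lam ≥ (1/2)(1+|v|)` on `[T1+ell, T]`.
-/

set_option autoImplicit false
open MeasureTheory Set Filter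
open scoped ENNReal NNReal
open Crest.AnalysisR.VecCalc3 Crest.AnalysisR.PDE.Boltzmann

noncomputable section

namespace Crest.Agent.R68.ColdW

open Crest.Agent.R68
open Crest.Agent.R68.A (en Meas3)

/-- the damping factor of a rate depending on time only -/
def eD (lam0 : ℝ → ℝ≥0∞) (s t : ℝ) : ℝ≥0∞ := en (∫⁻ r in Ioo s t, lam0 r)

theorem eD_le_one (lam0 : ℝ → ℝ≥0∞) (s t : ℝ) : eD lam0 s t ≤ 1 := A.en_le_one _

theorem eD_ne_top (lam0 : ℝ → ℝ≥0∞) (s t : ℝ) : eD lam0 s t ≠ ⊤ := A.en_ne_top _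

theorem eD_mul {lam0 : ℝ → ℝ≥0∞} {s t : ℝ} (hs : 0 < s) (hst : s ≤ t) :
    eD lam0 s t * eD lam0 0 s = eD lam0 0 t := by
  unfold eD
  rw [← A.en_add]
  congr 1
  have h1 : Ioo 0 s ∪ Ico s t = Ioo 0 t := Ioo_union_Ico_eq_Ioo hs hst
  rw [← h1, lintegral_union measurableSet_Ico, add_comm]
  · congr 1
    exact setLIntegral_congr Ioo_ae_eq_Ico
  · rw [Set.disjoint_left]
    rintro r ⟨_, h2⟩ ⟨h3, _⟩
    linarith

theorem damp_le_eD {Λ : ℝ → P2 → R3 → ℝ≥0∞} {lam0 : ℝ → ℝ≥0∞} {s t : ℝ}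
    (hΛ : ∀ r x v, s < r → r < t → lam0 r ≤ Λ r x v) (x : P2) (v : R3) :
    damp Λ s t x v ≤ eD lam0 s t := by
  unfold damp eD
  refine A.en_antitone (setLIntegral_mono' measurableSet_Ioo fun r hr => ?_)
  exact hΛ r _ v hr.1 hr.2

theorem damp_zero (s t : ℝ) (x : P2) (v : R3) : damp (fun _ _ _ => 0) s t x v = 1 := by
  unfold damp
  simp

open scoped Classical in
theorem gainj_smul (P : Par) (j : ℕ) {e : ℝ≥0∞} (he : e ≠ ⊤) {c c' : ℝ → P2 → R3 → ℝ≥0∞} {t : ℝ}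
    {x : P2} (hc : ∀ z, c t x z ≤ e * c' t x z) (v : R3) :
    gainj P j c t x v ≤ e * (e * gainj P j c' t x v) := by
  unfold gainj
  split_ifs
  · refine (A.Qp_mono hc hc v).trans ?_
    rw [A.Qp_const_mul_left he, A.Qp_const_mul_right he]
  · exact zero_le

/-- decay of the Picard iterates of one sheet -/
theorem itj_dec (P : Par) (j : ℕ) {Λ : ℝ → P2 → R3 → ℝ≥0∞} {lam0 : ℝ → ℝ≥0∞} {T : ℝ}
    (hΛ : ∀ s x v, 0 < s → s < T → lam0 s ≤ Λ s x v) (n : ℕ) :
    ∀ t, 0 ≤ t → t ≤ T → ∀ x v,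
      itj P j Λ n t x v ≤ eD lam0 0 t * itj P j (fun _ _ _ => 0) n t x v := by
  induction n with
  | zero => intro t _ _ x v; exact zero_le
  | succ n ih =>
    intro t ht htT x v
    simp only [itj]
    rw [mul_add]
    apply add_le_add
    · rw [damp_zero, mul_one, mul_comm]
      refine mul_le_mul' ?_ le_rfl
      exact damp_le_eD (fun r y z hr hrt => hΛ r y z hr (hrt.trans_le htT)) x v
    · unfold DuhD
      rw [← lintegral_const_mul' _ _ (eD_ne_top lam0 0 t)]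
      refine setLIntegral_mono' measurableSet_Ioo fun s hs => ?_
      rw [damp_zero, one_mul]
      have h1 := gainj_smul P j (eD_ne_top lam0 0 s) (c := itj P j Λ n)
        (c' := itj P j (fun _ _ _ => 0) n) (t := s) (x := x - (t - s) • bar v)
        (fun z => ih s hs.1.le (hs.2.le.trans htT) _ z) v
      have h2 : damp Λ s t x v ≤ eD lam0 s t :=
        damp_le_eD (fun r y z hr hrt => hΛ r y z (hs.1.trans hr) (hrt.trans_le htT)) x v
      calc damp Λ s t x v * gainj P j (itj P j Λ n) s (x - (t - s) • bar v) v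
          ≤ eD lam0 s t * (eD lam0 0 s * (eD lam0 0 s *
              gainj P j (itj P j (fun _ _ _ => 0) n) s (x - (t - s) • bar v) v)) :=
            mul_le_mul' h2 h1
        _ ≤ eD lam0 s t * (eD lam0 0 s * (1 *
              gainj P j (itj P j (fun _ _ _ => 0) n) s (x - (t - s) • bar v) v)) := by
            gcongr
            exact eD_le_one _ _ _
        _ = (eD lam0 s t * eD lam0 0 s) *
              gainj P j (itj P j (fun _ _ _ => 0) n) s (x - (t - s) • bar v) v := by ring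
        _ = _ := by rw [eD_mul hs.1 hs.2.le]

/-- **decay of one sheet** -/
theorem coldj_dec {P : Par} (hC : ColdPar Cold.C0 P) (j : ℕ) {Λ : ℝ → P2 → R3 → ℝ≥0∞}
    {lam0 : ℝ → ℝ≥0∞} {T : ℝ} (hΛ : ∀ s x v, 0 < s → s < T → lam0 s ≤ Λ s x v) {t : ℝ}
    (ht : 0 ≤ t) (htT : t ≤ T) (x : P2) (v : R3) :
    coldj P j Λ t x v ≤ eD lam0 0 t * (phij P j t x v + warmj P j t x v) := by
  unfold coldj
  refine iSup_le fun n => (itj_dec P j hΛ n t ht htT x v).trans ?_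
  gcongr
  have h1 : itj P j (fun _ _ _ => 0) n t x v ≤ coldj P j (fun _ _ _ => 0) t x v :=
    le_iSup (fun n => itj P j (fun _ _ _ => 0) n t x v) n
  refine (h1.trans (Cold.coldj_le hC _ ht x v)).trans ?_
  gcongr
  refine (mul_le_mul' (ENNReal.ofReal_le_ofReal (q := 1) (min_le_right _ _)) le_rfl).trans ?_
  simp

theorem phiE_eq_tsum {P : Par} (hP : P.Ok) (t : ℝ) (x : P2) (v : R3) :
    phiE P t x v = ∑' k : ℤ × ℤ, ∑' j : ℕ, R68.phij P j t (x + latt k) v := by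
  unfold phiE
  rw [Fuel.ofReal_phi hP]
  refine tsum_congr fun k => tsum_congr fun j => ?_
  exact (phij_eq hP j t _ v).symm

theorem coldL_dec {P : Par} (hP : P.Ok) (hC : ColdPar Cold.C0 P) {Λ : ℝ → P2 → R3 → ℝ≥0∞}
    {lam0 : ℝ → ℝ≥0∞} {T : ℝ} (hΛ : ∀ s x v, 0 < s → s < T → lam0 s ≤ Λ s x v) {t : ℝ}
    (ht : 0 ≤ t) (htT : t ≤ T) (x : P2) (v : R3) :
    coldL P Λ t x v ≤ eD lam0 0 t * coldS P t x v := by
  unfold coldL coldS warm
  rw [phiE_eq_tsum hP, ← ENNReal.tsum_add, ← ENNReal.tsum_mul_left]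
  refine ENNReal.tsum_le_tsum fun k => ?_
  rw [← ENNReal.tsum_add, ← ENNReal.tsum_mul_left]
  exact ENNReal.tsum_le_tsum fun j => coldj_dec hC j hΛ ht htT _ v

theorem itc_dec {P : Par} (hP : P.Ok) (hC : ColdPar Cold.C0 P) {lam : ℝ → P2 → R3 → ℝ≥0∞}
    {lam0 : ℝ → ℝ≥0∞} {T : ℝ} (hlam : ∀ s x v, 0 < s → s < T → lam0 s ≤ lam s x v) (n : ℕ) {t : ℝ}
    (ht : 0 ≤ t) (htT : t ≤ T) (x : P2) (v : R3) :
    itc P lam n t x v ≤ eD lam0 0 t * coldS P t x v := by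
  cases n with
  | zero => exact zero_le
  | succ n =>
    exact coldL_dec hP hC (fun s y z hs hsT => (hlam s y z hs hsT).trans le_add_self) ht htT x v

/-- **decay of the cold component** -/
theorem coldR_dec {P : Par} (hP : P.Ok) (hC : ColdPar Cold.C0 P) {lam : ℝ → P2 → R3 → ℝ≥0∞}
    {lam0 : ℝ → ℝ≥0∞} {T : ℝ} (hlam : ∀ s x v, 0 < s → s < T → lam0 s ≤ lam s x v) {t : ℝ}
    (ht : 0 ≤ t) (htT : t ≤ T) (x : P2) (v : R3) :
    coldR P lam t x v ≤ eD lam0 0 t * coldS P t x v := by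
  unfold coldR
  refine limsup_le_of_le (by isBoundedDefault) ?_
  exact Eventually.of_forall fun n => itc_dec hP hC hlam n ht htT x v

/-- **decay of one image of a sheet** -/
theorem coldjk_dec {P : Par} (hC : ColdPar Cold.C0 P) {lam : ℝ → P2 → R3 → ℝ≥0∞}
    {lam0 : ℝ → ℝ≥0∞} {T : ℝ} (hlam : ∀ s x v, 0 < s → s < T → lam0 s ≤ lam s x v)
    (i : (ℤ × ℤ) × ℕ) {t : ℝ} (ht : 0 ≤ t) (htT : t ≤ T) (x : P2) (v : R3) :
    coldjk P lam i t x v ≤ eD lam0 0 t *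
      (R68.phij P i.2 t (x + latt i.1) v + warmj P i.2 t (x + latt i.1) v) := by
  unfold coldjk
  exact coldj_dec hC i.2 (fun s y z hs hsT => (hlam s y z hs hsT).trans le_add_self) ht htT _ v

/-! ### the final form -/

open scoped Classical in
/-- rate `1/2` on `[T1 + ell, T]` -/
def lamT (T1 ell T : ℝ) (s : ℝ) : ℝ≥0∞ :=
  if T1 + ell ≤ s ∧ s ≤ T then ENNReal.ofReal (1 / 2) else 0

theorem lamT_le {T1 ell T : ℝ} {lam : ℝ → P2 → R3 → ℝ≥0∞}
    (hlam : ∀ t x v, T1 + ell ≤ t → t ≤ T → ENNReal.ofReal (1 / 2) * WA.w1 v ≤ lam t x v) (s : ℝ)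
    (x : P2) (v : R3) : lamT T1 ell T s ≤ lam s x v := by
  unfold lamT
  split_ifs with h
  · refine le_trans ?_ (hlam s x v h.1 h.2)
    calc ENNReal.ofReal (1 / 2) = ENNReal.ofReal (1 / 2) * 1 := by rw [mul_one]
      _ ≤ ENNReal.ofReal (1 / 2) * WA.w1 v := by gcongr; exact WA.one_le_w1 v
  · exact zero_le

theorem eD_lamT_le {T1 ell T t : ℝ} (h0 : 0 < T1 + ell) (htT : t ≤ T + 1) :
    eD (lamT T1 ell T) 0 t ≤ ENNReal.ofReal (al T1 ell t) := by
  unfold eD al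
  rw [← A.en_coe_ofReal (by positivity)]
  refine A.en_antitone ?_
  rcases le_total (t - (T1 + ell + 1)) 0 with h1 | h1
  · rw [max_eq_left h1, mul_zero, ENNReal.ofReal_zero]; exact zero_le
  · rw [max_eq_right h1]
    have h2 : Ico (T1 + ell) (t - 1) ⊆ Ioo 0 t := by
      intro s hs
      exact ⟨h0.trans_le hs.1, by linarith [hs.2]⟩
    calc ENNReal.ofReal (1 / 2 * (t - (T1 + ell + 1)))
        = ENNReal.ofReal (1 / 2) * volume (Ico (T1 + ell) (t - 1)) := by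
          rw [Real.volume_Ico, ← ENNReal.ofReal_mul (by norm_num)]
          congr 1
          ring
      _ = ∫⁻ _ in Ico (T1 + ell) (t - 1), ENNReal.ofReal (1 / 2) := by
          rw [setLIntegral_const]
      _ ≤ ∫⁻ r in Ico (T1 + ell) (t - 1), lamT T1 ell T r := by
          refine setLIntegral_mono' measurableSet_Ico fun r hr => ?_
          unfold lamT
          rw [if_pos ⟨hr.1, by linarith [hr.2]⟩]
      _ ≤ ∫⁻ r in Ioo 0 t, lamT T1 ell T r := lintegral_mono_set h2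

/-- **FINAL FORM, one image of a sheet** -/
theorem coldjk_al {P : Par} (hC : ColdPar Cold.C0 P) {T1 ell T : ℝ} (h0 : 0 < T1 + ell)
    {lam : ℝ → P2 → R3 → ℝ≥0∞}
    (hlam : ∀ t x v, T1 + ell ≤ t → t ≤ T → ENNReal.ofReal (1 / 2) * WA.w1 v ≤ lam t x v)
    (i : (ℤ × ℤ) × ℕ) {t : ℝ} (ht : 0 ≤ t) (htT : t ≤ T + 1) (x : P2) (v : R3) :
    coldjk P lam i t x v ≤ ENNReal.ofReal (al T1 ell t) *
      (R68.phij P i.2 t (x + latt i.1) v + warmj P i.2 t (x + latt i.1) v) := by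
  refine (coldjk_dec hC (lam0 := lamT T1 ell T) (T := t)
    (fun s y z _ _ => lamT_le hlam s y z) i ht le_rfl x v).trans ?_
  gcongr
  exact eD_lamT_le h0 htT

/-- **FINAL FORM, the cold component** -/
theorem coldR_al {P : Par} (hP : P.Ok) (hC : ColdPar Cold.C0 P) {T1 ell T : ℝ}
    (h0 : 0 < T1 + ell) {lam : ℝ → P2 → R3 → ℝ≥0∞}
    (hlam : ∀ t x v, T1 + ell ≤ t → t ≤ T → ENNReal.ofReal (1 / 2) * WA.w1 v ≤ lam t x v)
    {t : ℝ} (ht : 0 ≤ t) (htT : t ≤ T + 1) (x : P2) (v : R3) :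
    coldR P lam t x v ≤ ENNReal.ofReal (al T1 ell t) * coldS P t x v := by
  refine (coldR_dec hP hC (lam0 := lamT T1 ell T) (T := t)
    (fun s y z _ _ => lamT_le hlam s y z) ht le_rfl x v).trans ?_
  gcongr
  exact eD_lamT_le h0 htT

end Crest.Agent.R68.ColdW
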