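import Crest.Agent.R68.ColdMild
import Crest.Agent.R68.ColdT1
import Crest.Agent.R68.IKInp

/-!
# Row 68, PART C (helper819): finite accumulated cold rate on flights not starting at a lattice point
-/

set_option autoImplicit false
open MeasureTheory Set Filter
open scoped ENNReal Topology
open Crest.AnalysisR.VecCalc3 Crest.AnalysisR.PDE.Boltzmann

noncomputable section

namespace Crest.Agent.R68.ColdMild

open Crest.Agent.R68.A (Meas3 en measurable_en)
open Crest.Agent.R68.C (C0 rho)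

variable {P : Par}

/-- the fuel density is bounded on a flight that starts away from the lattice -/
theorem rho_flight_bdd (hok : P.Ok) (hY : 1 ≤ P.Y) {t : ℝ} {x : P2} (hx : 0 < distG x)
    (v : R3) : ∃ B : ℝ, 0 ≤ B ∧ ∀ s ∈ Ioo (0 : ℝ) t, rho P s (x + s • bar v) ≤ ENNReal.ofReal B := by
  set d := distG x with hd
  have hv := norm_nonneg v
  have hK := hok.K0
  have hY0 := hok.Y0
  have hκ := Fuel.Ok.kap0 hok
  set s0 : ℝ := min 1 (d / (2 * (1 + ‖v‖))) with hs0
  have hs0p : 0 < s0 := lt_min one_pos (by positivity)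
  set B1 : ℝ := (2 + 400 * P.Y ^ 2) * KC.Crho P / (d / 2) ^ 2 with hB1
  set B2 : ℝ := (4 + 3 * (P.Y + 2) * t) ^ 2 * (P.K / s0) with hB2
  have hCr := KC.Crho_nonneg hok
  have hB1n : 0 ≤ B1 := by positivity
  have hB2n : 0 ≤ B2 := by positivity
  refine ⟨B1 + B2, by positivity, fun s hs => ?_⟩
  by_cases hc : s ≤ s0
  · have hs1 : s ≤ 1 := hc.trans (min_le_left _ _)
    have hs2 : s ≤ d / (2 * (1 + ‖v‖)) := hc.trans (min_le_right _ _)
    have hdist : d / 2 ≤ distG (x + s • bar v) := by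
      have h1 : distG x ≤ distG (x + s • bar v) + ‖-(s • bar v)‖ := by
        have := distG_le_add (x + s • bar v) (-(s • bar v))
        rwa [add_neg_cancel_right] at this
      rw [norm_neg, norm_smul, Real.norm_of_nonneg hs.1.le] at h1
      have h2 : s * ‖bar v‖ ≤ d / 2 := by
        have h3 := K.norm_bar_le v
        rw [le_div_iff₀ (by positivity)] at hs2
        have h4 : s * ‖bar v‖ ≤ s * (1 + ‖v‖) := mul_le_mul_of_nonneg_left (by linarith) hs.1.le
        linarith
      linarith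
    have h1 := KC.sq_mul_rho hok hY hs.1 hs1 (x + s • bar v)
    have h2 : ENNReal.ofReal ((d / 2) ^ 2) * rho P s (x + s • bar v) ≤
        ENNReal.ofReal ((2 + 400 * P.Y ^ 2) * KC.Crho P) := by
      refine le_trans (mul_le_mul_left (ENNReal.ofReal_le_ofReal ?_) _) h1
      apply pow_le_pow_left₀ (by positivity)
      linarith [hs.1]
    have h3 : rho P s (x + s • bar v) ≤ ENNReal.ofReal B1 := by
      have hpos : 0 < (d / 2) ^ 2 := by positivity
      rw [hB1, ENNReal.ofReal_div_of_pos hpos, ENNReal.le_div_iff_mul_le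
        (Or.inl (ENNReal.ofReal_pos.2 hpos).ne') (Or.inl ENNReal.ofReal_ne_top), mul_comm]
      exact h2
    exact h3.trans (ENNReal.ofReal_le_ofReal (by linarith))
  · push Not at hc
    refine (C.rho_le hok hs.1 _).trans (ENNReal.ofReal_le_ofReal ?_)
    have h1 : (4 + 3 * (P.Y + 2) * s) ^ 2 ≤ (4 + 3 * (P.Y + 2) * t) ^ 2 := by
      have hs1 := hs.1
      have hs2 := hs.2
      apply pow_le_pow_left₀ (by positivity)
      gcongr
    have h2 : P.K / (s * (1 + P.kap * s)) ≤ P.K / s0 := by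
      apply div_le_div_of_nonneg_left hK hs0p
      have hs1 := hs.1
      nlinarith [mul_nonneg hκ hs1.le, mul_nonneg (mul_nonneg hκ hs1.le) hs1.le]
    have h3 : (4 + 3 * (P.Y + 2) * s) ^ 2 * (P.K / (s * (1 + P.kap * s))) ≤ B2 := by
      have hs1 := hs.1
      exact mul_le_mul h1 h2 (by positivity) (by positivity)
    linarith

/-- **finite accumulated rate** -/
theorem rateC_fin (hA : ColdPar Cold.C0 P) (hB : ColdW.Big P) (hY : 1 ≤ P.Y)
    {lam : ℝ → P2 → R3 → ℝ≥0∞} (hlam : Meas3 lam) {t : ℝ} {x : P2} (hx : 0 < distG x) (v : R3)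
    (hfin : (∫⁻ s in Ioo 0 t, lam s (x + s • bar v) v) ≠ ⊤) :
    (∫⁻ s in Ioo 0 t, rateC P lam s (x + s • bar v) v) ≠ ⊤ := by
  have hok := hB.ok
  have hY0 := hok.Y0
  have hd0 := (Fuel.Ok.dlp hok).le
  obtain ⟨B, hB0, hBd⟩ := rho_flight_bdd hok hY (t := t) hx v
  set W : ℝ := (3 * ((2 * P.Y + 1) * (|t| + P.dl)) + 1) ^ 2 * P.dl ^ 100 with hW
  have hmass : ∀ s ∈ Ioo (0 : ℝ) t, ∫⁻ u, coldS P s (x + s • bar v) u ≤
      2 * ENNReal.ofReal B + ENNReal.ofReal W := by
    intro s hs
    unfold coldS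
    rw [lintegral_add_left (KC.measurable_phiE hok s _)]
    refine add_le_add ((C.density_phi hok hs.1.le _).trans ?_)
      ((ColdW.mass_warm hB hs.1.le _).trans (ENNReal.ofReal_le_ofReal ?_))
    · gcongr
      exact hBd s hs
    · rw [hW]
      have h1 : s ≤ |t| := hs.2.le.trans (le_abs_self t)
      have hs1 := hs.1
      gcongr
  set M : ℝ≥0∞ := ENNReal.ofReal (2 * Real.pi * (P.Y + 5)) * N.ev v *
    (2 * ENNReal.ofReal B + ENNReal.ofReal W) with hM
  have hMt : M ≠ ⊤ := by
    rw [hM]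
    refine ENNReal.mul_ne_top (ENNReal.mul_ne_top ENNReal.ofReal_ne_top ?_) ?_
    · unfold N.ev; simp
    · exact ENNReal.add_ne_top.2 ⟨ENNReal.mul_ne_top (by norm_num) ENNReal.ofReal_ne_top,
        ENNReal.ofReal_ne_top⟩
  have hLc : ∀ s ∈ Ioo (0 : ℝ) t, Lc (coldR P lam s (x + s • bar v)) v ≤ M := by
    intro s hs
    refine (C.Lc_mono (fun z => ColdT1.coldR_le_coldS hA hok lam hs.1.le _ z) v).trans ?_
    have hsupp : ∀ y : R3, P.Y + 5 < ‖y‖ → coldS P s (x + s • bar v) y = 0 := by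
      intro y hy
      by_contra h0
      have h1 := ColdW.norm_lt_of_coldS_ne hB hs.1.le h0
      linarith
    refine (KC.Lc_cold' (R := P.Y + 5) (by linarith) hsupp v).trans ?_
    rw [hM]
    gcongr
    exact hmass s hs
  have h1 : (∫⁻ s in Ioo 0 t, rateC P lam s (x + s • bar v) v) ≤
      M * ENNReal.ofReal (t - 0) + ∫⁻ s in Ioo 0 t, lam s (x + s • bar v) v := by
    calc _ ≤ ∫⁻ s in Ioo 0 t, (M + lam s (x + s • bar v) v) := by
          refine setLIntegral_mono' measurableSet_Ioo fun s hs => ?_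
          exact add_le_add (hLc s hs) le_rfl
      _ = _ := by
          rw [lintegral_add_right _ (measurable_flight hlam x v), lintegral_const,
            Measure.restrict_apply_univ, Real.volume_Ioo]
  refine ne_top_of_le_ne_top ?_ h1
  exact ENNReal.add_ne_top.2 ⟨ENNReal.mul_ne_top hMt ENNReal.ofReal_ne_top, hfin⟩

end Crest.Agent.R68.ColdMild
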