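import Crest.Agent.R68.ColdDefs

/-!
# Row 68, PART C: flights of cold particles (helper906)
-/

set_option autoImplicit false
open MeasureTheory Set Filter
open scoped ENNReal
open Crest.AnalysisR.VecCalc3 Crest.AnalysisR.PDE.Boltzmann

noncomputable section

namespace Crest.Agent.R68.Cold

/-! ### the monotone factor -/

/-- increasing, from `0` to `1` -/
def ff (t : ℝ) : ℝ := √t / (1 + √t)

/-- decreasing, from `1` to `1/2` -/
def beta (t : ℝ) : ℝ := 1 - ff t / 2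

theorem ff_nonneg (t : ℝ) : 0 ≤ ff t := by unfold ff; positivity

theorem ff_le_one (t : ℝ) : ff t ≤ 1 := by
  unfold ff
  rw [div_le_one (by positivity)]
  linarith

theorem beta_le_one (t : ℝ) : beta t ≤ 1 := by
  unfold beta; linarith [ff_nonneg t]

theorem half_le_beta (t : ℝ) : 1 / 2 ≤ beta t := by
  unfold beta; linarith [ff_le_one t]

theorem beta_pos (t : ℝ) : 0 < beta t := by linarith [half_le_beta t]

theorem ff_sub {s t : ℝ} (hs : 0 ≤ s) (hst : s ≤ t) :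
    (√t - √s) / (2 * (1 + t)) ≤ ff t - ff s := by
  have ht : 0 ≤ t := hs.trans hst
  have h1 : ff t - ff s = (√t - √s) / ((1 + √t) * (1 + √s)) := by
    unfold ff
    field_simp
    ring
  rw [h1]
  have h2 : √s ≤ √t := Real.sqrt_le_sqrt hst
  have h3 : √t ^ 2 = t := Real.sq_sqrt ht
  have h0 : 0 ≤ √s := Real.sqrt_nonneg s
  apply div_le_div_of_nonneg_left (by linarith) (by positivity)
  nlinarith [sq_nonneg (√t - 1)]

theorem ff_mono {s t : ℝ} (hs : 0 ≤ s) (hst : s ≤ t) : ff s ≤ ff t := by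
  have h := ff_sub hs hst
  have h2 : √s ≤ √t := Real.sqrt_le_sqrt hst
  have ht : 0 ≤ t := hs.trans hst
  have : 0 ≤ (√t - √s) / (2 * (1 + t)) := by
    apply div_nonneg (by linarith) (by positivity)
  linarith

/-- time average: `(t-s)/(t+B²) ≤ (√t-√s)/|B|` -/
theorem lam_le {s t B : ℝ} (hs : 0 ≤ s) (hst : s ≤ t) (hB : 0 < B) :
    (t - s) / (t + B ^ 2) ≤ (√t - √s) / B := by
  have ht : 0 ≤ t := hs.trans hst
  have h2 : √s ≤ √t := Real.sqrt_le_sqrt hst
  have h3 : √t ^ 2 = t := Real.sq_sqrt ht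
  have h4 : √s ^ 2 = s := Real.sq_sqrt hs
  have h0 : 0 ≤ √s := Real.sqrt_nonneg s
  rw [div_le_div_iff₀ (by positivity) hB]
  have h5 : t - s = (√t - √s) * (√t + √s) := by rw [← h3, ← h4]; simp only [Real.sqrt_sq (Real.sqrt_nonneg _)]; ring
  rw [h5]
  have h6 : (√t + √s) * B ≤ t + B ^ 2 := by nlinarith [sq_nonneg (√t - B)]
  nlinarith [mul_le_mul_of_nonneg_left h6 (by linarith : 0 ≤ √t - √s)]

set_option maxHeartbeats 1000000 in
/-- THE FLIGHT LEMMA, real form.  `A`, `B` labels at times `s`, `t`; `p`, `q` peculiar velocities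
at times `s`, `t`; `y` the fan coordinate at time `s`. -/
theorem flight_real {δ c s t v1 v2 x1 x2 A B b Y w : ℝ} (hδ : 0 < δ) (hc : δ ≤ c) (hs : 0 ≤ s)
    (hst : s ≤ t) (hb : 0 < b) (hY : 0 ≤ Y)
    (hA : (δ + c * s) * A = δ * (x1 - (t - s) * v1)) (hB : (δ + c * t) * B = δ * x1)
    (hA2 : A ^ 2 ≤ 2 * b) (hB1 : b / 4 ≤ B ^ 2) (hB2 : B ^ 2 ≤ 3 * b)
    (hA0 : 0 < A ^ 2)
    (hy : |(x2 - (t - s) * v2) / (s + A ^ 2)| ≤ 2 * Y) (hsmall : 320 * Y ^ 2 * √b ≤ 1) :
    beta t * ((v1 - c / δ * B) ^ 2 + (v2 - x2 / (t + B ^ 2)) ^ 2 + w ^ 2) ≤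
      beta s * ((v1 - c / δ * A) ^ 2 + (v2 - (x2 - (t - s) * v2) / (s + A ^ 2)) ^ 2 + w ^ 2) := by
  have ht : 0 ≤ t := hs.trans hst
  have hc0 : 0 < c := hδ.trans_le hc
  set D := δ + c * t with hD
  have hDpos : 0 < D := by positivity
  have hDge : δ * (1 + t) ≤ D := by
    have h1 := mul_le_mul_of_nonneg_right hc ht
    rw [hD]; linarith
  set p1 := v1 - c / δ * A with hp1
  set q1 := v1 - c / δ * B with hq1
  set y := (x2 - (t - s) * v2) / (s + A ^ 2) with hydef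
  set p2 := v2 - y with hp2
  set q2 := v2 - x2 / (t + B ^ 2) with hq2
  have e1 : (B - A) * D = δ * (t - s) * p1 := by
    have h1 : δ * p1 = δ * v1 - c * A := by rw [hp1]; field_simp
    calc (B - A) * D = D * B - (δ + c * s) * A - c * (t - s) * A := by rw [hD]; ring
      _ = δ * x1 - δ * (x1 - (t - s) * v1) - c * (t - s) * A := by rw [hA, hB]
      _ = (t - s) * (δ * v1 - c * A) := by ring
      _ = (t - s) * (δ * p1) := by rw [h1]
      _ = δ * (t - s) * p1 := by ring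
  have e2 : q1 * D = p1 * (δ + c * s) := by
    have h1 : q1 * D = D * v1 - c / δ * (D * B) := by rw [hq1]; ring
    have h2 : p1 * (δ + c * s) = (δ + c * s) * v1 - c / δ * ((δ + c * s) * A) := by rw [hp1]; ring
    rw [h1, h2, hA, hB, hD]
    field_simp
    ring
  have hq1p1 : q1 ^ 2 ≤ p1 ^ 2 := by
    have h1 : (q1 * D) ^ 2 ≤ (p1 * D) ^ 2 := by
      rw [e2, mul_pow, mul_pow]
      have : (δ + c * s) ^ 2 ≤ D ^ 2 := by
        apply pow_le_pow_left₀ (by positivity)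
        have h1 := mul_le_mul_of_nonneg_left hst hc0.le
        rw [hD]; linarith
      exact mul_le_mul_of_nonneg_left this (sq_nonneg _)
    rw [mul_pow, mul_pow] at h1
    exact le_of_mul_le_mul_right h1 (by positivity)
  have hBB : 0 < t + B ^ 2 := by linarith
  have hAA : 0 < s + A ^ 2 := by linarith
  set e := y * (δ * p1 * (B + A) / D) with he
  set lam := (t - s) / (t + B ^ 2) with hlam
  have hlam0 : 0 ≤ lam := div_nonneg (by linarith) hBB.le
  have hlam1 : lam ≤ 1 := by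
    rw [hlam, div_le_one hBB]; linarith [sq_nonneg B]
  have e3 : q2 = (1 - lam) * p2 + lam * e := by
    have h1 : B ^ 2 - A ^ 2 = (t - s) * (δ * p1 * (B + A) / D) := by
      have : B ^ 2 - A ^ 2 = (B - A) * D * (B + A) / D := by field_simp; ring
      rw [this, e1]; ring
    have h2 : x2 = (s + A ^ 2) * y + (t - s) * v2 := by
      rw [hydef]; field_simp; ring
    have h3 : (t + B ^ 2) * q2 = (s + B ^ 2) * p2 + (t - s) * e := by
      calc (t + B ^ 2) * q2 = (t + B ^ 2) * v2 - x2 := by rw [hq2]; field_simp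
        _ = (t + B ^ 2) * v2 - ((s + A ^ 2) * y + (t - s) * v2) := by rw [← h2]
        _ = (s + B ^ 2) * (v2 - y) + y * (B ^ 2 - A ^ 2) := by ring
        _ = (s + B ^ 2) * p2 + (t - s) * e := by rw [h1, he]; ring
    have h4 : (t + B ^ 2) * ((1 - lam) * p2 + lam * e) = (s + B ^ 2) * p2 + (t - s) * e := by
      have h5 : (t + B ^ 2) * lam = t - s := by rw [hlam]; field_simp
      calc (t + B ^ 2) * ((1 - lam) * p2 + lam * e)
          = (t + B ^ 2) * p2 - (t + B ^ 2) * lam * p2 + (t + B ^ 2) * lam * e := by ring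
        _ = _ := by rw [h5]; ring
    exact mul_left_cancel₀ hBB.ne' (h3.trans h4.symm)
  have hq2 : q2 ^ 2 ≤ p2 ^ 2 + lam * e ^ 2 := by
    rw [e3]
    have h1 : p2 ^ 2 + lam * e ^ 2 - ((1 - lam) * p2 + lam * e) ^ 2 =
        lam * (1 - lam) * (p2 - e) ^ 2 + lam * p2 ^ 2 := by ring
    have h2 : 0 ≤ lam * (1 - lam) * (p2 - e) ^ 2 + lam * p2 ^ 2 := by
      have := sub_nonneg.2 hlam1
      positivity
    linarith only [h1, h2]
  have hD1 : (δ / D) ^ 2 ≤ (1 / (1 + t)) ^ 2 := by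
    apply pow_le_pow_left₀ (by positivity)
    rw [div_le_div_iff₀ hDpos (by positivity)]
    linarith
  have he2 : e ^ 2 ≤ 40 * Y ^ 2 * b * p1 ^ 2 / (1 + t) ^ 2 := by
    have h1 : e ^ 2 = y ^ 2 * (B + A) ^ 2 * p1 ^ 2 * (δ / D) ^ 2 := by
      rw [he]; field_simp
    have h2 : y ^ 2 ≤ 4 * Y ^ 2 := by
      have := pow_le_pow_left₀ (abs_nonneg _) hy 2
      rw [sq_abs] at this
      linarith
    have h3 : (B + A) ^ 2 ≤ 10 * b := by
      have : (B + A) ^ 2 = 2 * A ^ 2 + 2 * B ^ 2 - (B - A) ^ 2 := by ring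
      linarith [sq_nonneg (B - A)]
    rw [h1]
    calc y ^ 2 * (B + A) ^ 2 * p1 ^ 2 * (δ / D) ^ 2
        ≤ (4 * Y ^ 2) * (10 * b) * p1 ^ 2 * (1 / (1 + t)) ^ 2 := by gcongr
      _ = _ := by rw [one_div, inv_pow]; ring
  have hBabs : √b / 2 ≤ |B| := by
    rw [← Real.sqrt_sq_eq_abs]
    have : √b / 2 = √(b / 4) := by
      rw [Real.sqrt_div hb.le, show (4:ℝ) = 2 ^ 2 by norm_num, Real.sqrt_sq (by norm_num)]
    rw [this]
    exact Real.sqrt_le_sqrt hB1
  have hsb : 0 < √b := Real.sqrt_pos.2 hb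
  have hBpos : 0 < |B| := by linarith
  have hsq : √s ≤ √t := Real.sqrt_le_sqrt hst
  have hlam2 : lam ≤ (√t - √s) * (2 / √b) := by
    have h1 := lam_le hs hst hBpos
    rw [sq_abs] at h1
    refine h1.trans ?_
    rw [div_eq_mul_inv]
    apply mul_le_mul_of_nonneg_left _ (by linarith)
    rw [inv_le_comm₀ hBpos (by positivity)]
    rw [inv_div]; exact hBabs
  have hf0 : 0 ≤ ff t - ff s := by linarith [ff_mono hs hst]
  have hmain : lam * e ^ 2 ≤ (1 / 2) * (ff t - ff s) * p1 ^ 2 := by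
    have h1 : lam * e ^ 2 ≤ ((√t - √s) * (2 / √b)) * (40 * Y ^ 2 * b * p1 ^ 2 / (1 + t) ^ 2) := by
      gcongr
    have h2 : ((√t - √s) * (2 / √b)) * (40 * Y ^ 2 * b * p1 ^ 2 / (1 + t) ^ 2) =
        (√t - √s) / (2 * (1 + t)) * (160 * Y ^ 2 * √b) * p1 ^ 2 * (1 / (1 + t)) := by
      have : b = √b * √b := (Real.mul_self_sqrt hb.le).symm
      nth_rewrite 2 [this]
      field_simp
      ring
    rw [h2] at h1
    have h3 := ff_sub hs hst
    have h4 : 0 ≤ (√t - √s) / (2 * (1 + t)) := div_nonneg (by linarith) (by positivity)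
    have h5 : 1 / (1 + t) ≤ 1 := by
      rw [div_le_one (by positivity)]; linarith
    have h6 : 160 * Y ^ 2 * √b ≤ 1 / 2 := by linarith
    calc lam * e ^ 2 ≤ _ := h1
      _ ≤ (ff t - ff s) * (1 / 2) * p1 ^ 2 * 1 := by
        apply mul_le_mul _ h5 (by positivity) (by positivity)
        apply mul_le_mul_of_nonneg_right _ (sq_nonneg _)
        exact mul_le_mul h3 h6 (by positivity) hf0
      _ = _ := by ring
  set p := p1 ^ 2 + p2 ^ 2 + w ^ 2 with hp
  have hp0 : 0 ≤ p := by positivity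
  have hqp : q1 ^ 2 + q2 ^ 2 + w ^ 2 ≤ (1 + (ff t - ff s) / 2) * p := by
    have h1 : (ff t - ff s) / 2 * p1 ^ 2 ≤ (ff t - ff s) / 2 * p := by
      apply mul_le_mul_of_nonneg_left _ (by linarith)
      rw [hp]; linarith [sq_nonneg p2, sq_nonneg w]
    have h2 : (1 + (ff t - ff s) / 2) * p = p + (ff t - ff s) / 2 * p := by ring
    have h3 : (1 / 2) * (ff t - ff s) * p1 ^ 2 = (ff t - ff s) / 2 * p1 ^ 2 := by ring
    rw [h2]
    rw [h3] at hmain
    have h4 : p = p1 ^ 2 + p2 ^ 2 + w ^ 2 := hp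
    linarith only [h1, hmain, hq2, hq1p1, h4]
  have hβ : beta t * (1 + (ff t - ff s) / 2) ≤ beta s := by
    have h1 : beta s - beta t * (1 + (ff t - ff s) / 2) = ff t * (ff t - ff s) / 4 := by
      unfold beta; ring
    have h2 : 0 ≤ ff t * (ff t - ff s) / 4 := by
      have := mul_nonneg (ff_nonneg t) hf0
      linarith
    linarith
  calc beta t * (q1 ^ 2 + q2 ^ 2 + w ^ 2) ≤ beta t * ((1 + (ff t - ff s) / 2) * p) :=
        mul_le_mul_of_nonneg_left hqp (beta_pos t).le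
    _ = beta t * (1 + (ff t - ff s) / 2) * p := by ring
    _ ≤ beta s * p := mul_le_mul_of_nonneg_right hβ hp0

end Crest.Agent.R68.Cold
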