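import Crest.Agent.R68.ColdSrc

/-!
# Row 68, PART C: the monotone Gaussian majorant, zones (helper906)
-/

set_option autoImplicit false
open MeasureTheory Set Filter
open scoped ENNReal
open Crest.AnalysisR.VecCalc3 Crest.AnalysisR.PDE.Boltzmann

noncomputable section

namespace Crest.Agent.R68.Cold

variable {P : Par} (h : ColdPar C0 P) {j : ℕ}

/-! ### scales again -/

theorem tauj_eq (p j : ℕ) : tauj p j = (1 / bj j) ^ (p / 16) := by
  unfold tauj bj; simp

theorem one_le_tauj (p j : ℕ) : 1 ≤ tauj p j := by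
  unfold tauj
  exact one_le_pow₀ (by have : (0 : ℝ) ≤ j := Nat.cast_nonneg j; linarith)

theorem tauj_pos (p j : ℕ) : 0 < tauj p j := zero_lt_one.trans_le (one_le_tauj p j)

include h in
/-- `ρ τ` is smaller than `b ^ m` -/
theorem rt_le (m : ℕ) (hm : m ≤ 200) : rhoj P.p j * tauj P.p j ≤ bj j ^ m := by
  have hb := bj_pos j
  rw [tauj_eq, rhoj, one_div, inv_pow, ← div_eq_mul_inv, div_le_iff₀ (pow_pos hb _), ← pow_add]
  apply pow_le_pow_of_le_one hb.le (bj_le_one j)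
  have := h.p
  omega

theorem etaj_pos (p j : ℕ) : 0 < etaj p j := Fuel.etaj_pos p j

include h in
theorem etaj_le (m : ℕ) (hm : m ≤ 512) : etaj P.p j ≤ bj j ^ m := by
  rw [etaj_eq]
  apply pow_le_pow_of_le_one (bj_pos j).le (bj_le_one j)
  exact hm.trans h.p

include h in
/-- `η ≤ b^m ρ` -/
theorem eta_rho (m : ℕ) (hm : m ≤ 256) : etaj P.p j ≤ bj j ^ m * rhoj P.p j := by
  rw [etaj_eq, rhoj, ← pow_add]
  apply pow_le_pow_of_le_one (bj_pos j).le (bj_le_one j)
  have := h.p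
  omega

/-! ### the Gaussian majorant -/

/-- monotone Gaussian majorant of lane `j` -/
def Mj (P : Par) (j : ℕ) (t : ℝ) (x : P2) (v : R3) : ℝ≥0∞ :=
  C.gs (P.K / (bj j * etaj P.p j ^ 3)) (etaj P.p j / √(beta t)) (uvec P (wj j) t x) v

include h in
theorem amp_nonneg : 0 ≤ P.K / (bj j * etaj P.p j ^ 3) := by
  have := h.K; have := bj_pos j; have := etaj_pos P.p j; positivity

theorem Mj_eq (P : Par) (j : ℕ) (t : ℝ) (x : P2) (v : R3) :
    Mj P j t x v = ENNReal.ofReal (P.K / (bj j * etaj P.p j ^ 3) *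
      Real.exp (-(beta t * ‖v - uvec P (wj j) t x‖ ^ 2) / (2 * etaj P.p j ^ 2))) := by
  unfold Mj C.gs
  congr 3
  have h1 : √(beta t) ^ 2 = beta t := Real.sq_sqrt (beta_pos t).le
  have h2 := etaj_pos P.p j
  have h3 := beta_pos t
  rw [div_pow, h1]
  field_simp

include h in
theorem Mj_le_gaussj (t : ℝ) (x : P2) (v : R3) : Mj P j t x v ≤ gaussj P j t x v := by
  rw [Mj_eq]
  unfold gaussj
  apply ENNReal.ofReal_le_ofReal
  apply mul_le_mul_of_nonneg_left _ (amp_nonneg h)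
  apply Real.exp_le_exp.2
  have h2 := etaj_pos P.p j
  rw [div_le_div_iff₀ (by positivity) (by positivity)]
  have h3 := half_le_beta t
  have h4 : 0 ≤ (beta t - 1 / 2) * ‖v - uvec P (wj j) t x‖ ^ 2 * etaj P.p j ^ 2 := by
    have : 0 ≤ beta t - 1 / 2 := by linarith
    positivity
  nlinarith

include h in
theorem Mj_flight {s t : ℝ} {x : P2} {v : R3} (S : Src P j s (x - (t - s) • bar v) v)
    (hst : s ≤ t) : Mj P j s (x - (t - s) • bar v) v ≤ Mj P j t x v := by
  rw [Mj_eq, Mj_eq]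
  apply ENNReal.ofReal_le_ofReal
  apply mul_le_mul_of_nonneg_left _ (amp_nonneg h)
  apply Real.exp_le_exp.2
  have h2 := etaj_pos P.p j
  apply div_le_div_of_nonneg_right _ (by positivity)
  linarith [S.beta_le h hst]

theorem Mj_ne_top (t : ℝ) (x : P2) (v : R3) : Mj P j t x v ≠ ⊤ := C.gs_ne_top _ _ _ _

/-! ### the fuel of the lane -/

theorem phij_ne {t : ℝ} {x : P2} {v : R3} (h0 : phij P j t x v ≠ 0) :
    P.j0 ≤ j ∧ (x - t • bar v).1 ∈ lane j ∧ |(x - t • bar v).2| < P.Y * rr (x - t • bar v).1 ∧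
      ∀ i : Fin 3, |v i - uvec P (wj j) 0 (x - t • bar v) i| < etaj P.p j := by
  unfold phij at h0
  by_cases hj : P.j0 ≤ j
  · rw [if_pos hj] at h0
    unfold phi0j at h0
    by_cases h1 : (x - t • bar v).1 ∈ lane j ∧ |(x - t • bar v).2| < P.Y * rr (x - t • bar v).1 ∧
      ∀ i : Fin 3, |v i - uvec P (wj j) 0 (x - t • bar v) i| < etaj P.p j
    · exact ⟨hj, h1⟩
    · rw [if_neg h1] at h0
      simp at h0
  · rw [if_neg hj] at h0
    simp at h0

include h in
theorem lab_zero (x : P2) : lab P 0 x = x.1 := by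
  have := dl_pos' h
  unfold lab
  rw [mul_zero, add_zero, mul_div_assoc, mul_comm, div_mul_cancel₀ _ this.ne']

theorem norm_lt_of_box {x : P2} {v : R3}
    (h1 : ∀ i : Fin 3, |v i - uvec P (wj j) 0 x i| < etaj P.p j) :
    ‖v - uvec P (wj j) 0 x‖ ^ 2 ≤ 3 * etaj P.p j ^ 2 := by
  rw [EuclideanSpace.real_norm_sq_eq, Fin.sum_univ_three]
  have h2 : ∀ i : Fin 3, (v - uvec P (wj j) 0 x) i ^ 2 ≤ etaj P.p j ^ 2 := by
    intro i
    rw [← sq_abs]
    exact pow_le_pow_left₀ (abs_nonneg _) (h1 i).le 2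
  linarith [h2 0, h2 1, h2 2]

include h in
theorem src_of_phij {t : ℝ} {x : P2} {v : R3} (h0 : phij P j t x v ≠ 0) :
    Src P j 0 (x - t • bar v) v := by
  obtain ⟨hj, h1, h2, h3⟩ := phij_ne h0
  have hl := lab_zero h (x - t • bar v)
  refine ⟨le_rfl, hj, ?_, ?_, ?_⟩
  · rw [hl]; exact Fuel.lane_subset_laneE j h1
  · rw [hl]
    have : 0 ≤ P.Y * rr (x - t • bar v).1 := by
      have := h.Y
      have := Fuel.rr_nonneg (x - t • bar v).1
      positivity
    linarith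
  · have h4 := norm_lt_of_box h3
    have h5 := eta_rho h (j := j) 1 (by norm_num)
    have h6 := rhoj_pos P.p j
    have h7 := small_b h hj
    have h8 := etaj_pos P.p j
    have h9 : 2 * etaj P.p j < rhoj P.p j := by nlinarith
    have h10 : ‖v - uvec P (wj j) 0 (x - t • bar v)‖ ^ 2 < (2 * etaj P.p j) ^ 2 := by nlinarith
    have h11 := abs_lt_of_sq_lt_sq h10 (by positivity)
    exact ((le_abs_self _).trans_lt h11).trans h9

include h in
theorem phij_le_Mj0 {t : ℝ} {x : P2} {v : R3} (h0 : phij P j t x v ≠ 0) :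
    phij P j t x v ≤ Mj P j 0 (x - t • bar v) v := by
  obtain ⟨hj, h1, h2, h3⟩ := phij_ne h0
  rw [Mj_eq]
  unfold phij
  apply ENNReal.ofReal_le_ofReal
  rw [if_pos hj]
  unfold phi0j
  rw [if_pos ⟨h1, h2, h3⟩]
  have h4 := norm_lt_of_box h3
  have hη := etaj_pos P.p j
  have hb := bj_pos j
  have hK := h.K
  have hlo := (laneE_bounds (j_pos h hj) (Fuel.lane_subset_laneE j h1)).1
  have hsb := small_b h hj
  set X := x - t • bar v
  have hr : 99 / 100 * bj j ≤ rr X.1 := by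
    unfold rr
    refine le_trans ?_ hlo
    nlinarith
  have hr0 : 0 < rr X.1 := by nlinarith
  have hnum : P.K * chij j X.1 * ky P (X.2 / rr X.1) ≤ P.K := by
    have e1 := Fuel.chij_le_one j X.1
    have e2 := Fuel.ky_le_one P (X.2 / rr X.1)
    have e3 := Fuel.chij_nonneg j X.1
    have e4 := Fuel.ky_nonneg P (X.2 / rr X.1)
    calc P.K * chij j X.1 * ky P (X.2 / rr X.1) ≤ P.K * 1 * 1 := by gcongr
      _ = P.K := by ring
  have hexp : (1 : ℝ) / 5 ≤ Real.exp (-(beta 0 * ‖v - uvec P (wj j) 0 X‖ ^ 2) / (2 * etaj P.p j ^ 2)) := by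
    have e1 : -(3 / 2 : ℝ) ≤ -(beta 0 * ‖v - uvec P (wj j) 0 X‖ ^ 2) / (2 * etaj P.p j ^ 2) := by
      rw [le_div_iff₀ (by positivity)]
      have := beta_le_one 0
      have := beta_pos 0
      nlinarith [sq_nonneg ‖v - uvec P (wj j) 0 X‖]
    refine le_trans ?_ (Real.exp_le_exp.2 e1)
    rw [Real.exp_neg, one_div]
    apply inv_anti₀ (Real.exp_pos _)
    have e2 : Real.exp (3 / 2 : ℝ) ^ 2 = Real.exp 1 ^ 3 := by
      rw [← Real.exp_nat_mul, ← Real.exp_nat_mul]; norm_num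
    have e3 : Real.exp 1 ^ 3 ≤ 25 := by
      have := Real.exp_one_lt_d9.le
      calc Real.exp 1 ^ 3 ≤ (2.7182818286 : ℝ) ^ 3 := pow_le_pow_left₀ (Real.exp_pos 1).le this 3
        _ ≤ 25 := by norm_num
    rw [← e2] at e3
    nlinarith [Real.exp_pos (3 / 2 : ℝ)]
  calc P.K * chij j X.1 * ky P (X.2 / rr X.1) / (8 * rr X.1 * etaj P.p j ^ 3)
      ≤ P.K / (8 * (99 / 100 * bj j) * etaj P.p j ^ 3) := by gcongr
    _ = P.K / (bj j * etaj P.p j ^ 3) * (100 / 792) := by field_simp; norm_num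
    _ ≤ P.K / (bj j * etaj P.p j ^ 3) * (1 / 5) := by
        apply mul_le_mul_of_nonneg_left (by norm_num) (amp_nonneg h)
    _ ≤ _ := mul_le_mul_of_nonneg_left hexp (amp_nonneg h)

include h in
theorem phij_le_Mj {t : ℝ} (ht : 0 ≤ t) (x : P2) (v : R3) : phij P j t x v ≤ Mj P j t x v := by
  by_cases h0 : phij P j t x v = 0
  · rw [h0]; exact zero_le
  · have S := src_of_phij h h0
    have S' : Src P j 0 (x - (t - 0) • bar v) v := by rw [sub_zero]; exact S
    have h1 := Mj_flight h S' ht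
    rw [sub_zero] at h1
    exact (phij_le_Mj0 h h0).trans h1

end Crest.Agent.R68.Cold
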