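import Crest.Agent.R68.WB8
import Crest.Agent.R68.ColdW4

/-!
# Row 68, part W (helper153): collisions of the cold component with the hot weight
-/

set_option autoImplicit false
open MeasureTheory Set
open scoped ENNReal NNReal
open Crest.AnalysisR.VecCalc3 Crest.AnalysisR.PDE.Boltzmann

noncomputable section

namespace Crest.Agent.R68.ColdW

open Crest.Agent.R68
open Crest.Agent.R68.WA (We w1 Mx EW exists_CM)
open Crest.Agent.R68.W (CN Qp_cold_EW one_Dm_le Lc_cold_le)

/-- **cold against hot** -/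
theorem cold_hot (Y : ℝ) : ∃ Ch : ℝ, 0 ≤ Ch ∧ ∀ P : Par, Big P → ColdPar C.C0 P →
    DPole.ParD P → P.Y = Y → ∀ (T1 t : ℝ) (x : P2) (c : R3 → ℝ≥0∞) (a : ℝ≥0∞), a ≠ ⊤ →
      0 < T1 → T1 ≤ 1 → T1 ≤ t → Measurable c → (∀ v, c v ≤ a * coldS P t x v) → ∀ v,
        Qp c (EW P (1 / 8) T1 t x) v + Qp (EW P (1 / 8) T1 t x) c v + Mx v * Lc c v ≤
          a * ENNReal.ofReal (Ch * (massB P t + NB P t) * Real.exp (1 / 8 * (t - T1))) *
            EW P (1 / 8) T1 t x v := by
  obtain ⟨CM, -, hCM⟩ := exists_CM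
  set Cn : ℝ≥0 := CN Y (1 / 8) (Y + 2) 0 with hCn
  set Cl : ℝ≥0 := Real.toNNReal (2 * Real.pi * (1 + (Y + 2))) with hCl
  refine ⟨2 * Cn + Cl * CM, by positivity, ?_⟩
  intro P hB hC hPD hPY T1 t x c a ha hT1 hT11 ht mc hc v
  have ht0 : 0 < t := hT1.trans_le ht
  have hYp := hPD.Y
  have hsupp : ∀ y, P.Y + 2 < ‖y‖ → c y = 0 := by
    intro y hy
    have h0 : coldS P t x y = 0 := by
      by_contra h
      exact absurd (norm_lt_of_coldS_ne hB ht0.le h) (not_lt.2 hy.le)
    have h1 := hc y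
    rw [h0, mul_zero] at h1
    exact le_antisymm h1 bot_le
  have hmE : Measurable (EW P (1 / 8) T1 t x) :=
    (WA.measurable_EW hYp (1 / 8) T1).comp (f := fun v : R3 => (t, x, v)) (by fun_prop)
  have hmass : ∫⁻ u, c u ≤ a * ENNReal.ofReal (massB P t) := by
    calc ∫⁻ u, c u ≤ ∫⁻ u, a * coldS P t x u := lintegral_mono hc
      _ = a * ∫⁻ u, coldS P t x u := lintegral_const_mul' _ _ ha
      _ ≤ _ := by gcongr; exact mass_coldS hB ht0 x
  have hnewt : C.newt c v ≤ a * (ENNReal.ofReal (NB P t) * Dm P t x v) := by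
    calc C.newt c v ≤ C.newt (fun u => a * coldS P t x u) v := by
          unfold C.newt
          exact lintegral_mono fun u => by gcongr; exact hc _
      _ = a * C.newt (coldS P t x) v := by
          unfold C.newt
          rw [← lintegral_const_mul' _ _ ha]
          exact lintegral_congr fun u => by ring
      _ ≤ _ := by gcongr; exact newt_coldS hB hC ht0 x v
  have hmB := massB_nonneg hB ht0.le
  have hNB := NB_nonneg hB ht0.le
  set X : ℝ≥0∞ := a * ENNReal.ofReal ((massB P t + NB P t) * Real.exp (1 / 8 * (t - T1))) *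
    EW P (1 / 8) T1 t x v with hX
  have hsum : We v * ((∫⁻ u, c u) + C.newt c v) ≤ X := by
    calc We v * ((∫⁻ u, c u) + C.newt c v)
        ≤ We v * (a * ENNReal.ofReal (massB P t + NB P t) +
            a * (ENNReal.ofReal (massB P t + NB P t) * Dm P t x v)) := by
          gcongr
          · refine hmass.trans ?_
            gcongr
            linarith
          · refine hnewt.trans ?_
            gcongr
            linarith
      _ = a * ENNReal.ofReal (massB P t + NB P t) * ((1 + Dm P t x v) * We v) := by ring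
      _ ≤ a * ENNReal.ofReal (massB P t + NB P t) *
          (ENNReal.ofReal (Real.exp (1 / 8 * (t - T1))) * EW P (1 / 8) T1 t x v) := by
          gcongr ?_ * ?_
          · exact le_rfl
          · exact one_Dm_le (by norm_num) hT1.le ht x v
      _ = X := by
          rw [hX, ENNReal.ofReal_mul (p := massB P t + NB P t) (by positivity)]
          ring
  have hWX : We v * ∫⁻ u, c u ≤ X := by
    refine le_trans ?_ hsum
    gcongr
    exact le_self_add
  have q1 : Qp c (EW P (1 / 8) T1 t x) v ≤ Cn * X := by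
    refine (Qp_cold_EW hPD (by norm_num) hT1.le hT11 ht x mc (by linarith) hsupp v).trans ?_
    rw [hPY, ← hCn]
    gcongr
  have q2 : Qp (EW P (1 / 8) T1 t x) c v ≤ Cn * X := by
    rw [WK.Qp_comm hmE mc]
    exact q1
  have q3 : Mx v * Lc c v ≤ Cl * CM * X := by
    calc Mx v * Lc c v
        ≤ Mx v * (ENNReal.ofReal (2 * Real.pi * (1 + (P.Y + 2))) * w1 v * ∫⁻ u, c u) := by
          gcongr
          exact Lc_cold_le mc hsupp v
      _ = ENNReal.ofReal (2 * Real.pi * (1 + (P.Y + 2))) * (w1 v * Mx v) * ∫⁻ u, c u := by ring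
      _ ≤ ENNReal.ofReal (2 * Real.pi * (1 + (P.Y + 2))) * (CM * We v) * ∫⁻ u, c u := by
          gcongr ?_ * ?_ * ?_
          · exact le_rfl
          · exact (hCM v).2
          · exact le_rfl
      _ = Cl * CM * (We v * ∫⁻ u, c u) := by
          rw [hPY, hCl]
          show ENNReal.ofReal (2 * Real.pi * (1 + (Y + 2))) * (CM * We v) * ∫⁻ u, c u =
            ENNReal.ofReal (2 * Real.pi * (1 + (Y + 2))) * CM * (We v * ∫⁻ u, c u)
          ring
      _ ≤ _ := by gcongr
  calc Qp c (EW P (1 / 8) T1 t x) v + Qp (EW P (1 / 8) T1 t x) c v + Mx v * Lc c v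
      ≤ Cn * X + Cn * X + Cl * CM * X := add_le_add (add_le_add q1 q2) q3
    _ = ((2 * Cn + Cl * CM : ℝ≥0) : ℝ≥0∞) * X := by push_cast; ring
    _ = _ := by
        rw [hX, ← ENNReal.ofReal_coe_nnreal]
        have e : (((2 * Cn + Cl * CM : ℝ≥0) : ℝ)) = 2 * Cn + Cl * CM := by push_cast; ring
        rw [e]
        have e2 : (2 * (Cn : ℝ) + Cl * CM) * (massB P t + NB P t) * Real.exp (1 / 8 * (t - T1)) =
            (2 * (Cn : ℝ) + Cl * CM) * ((massB P t + NB P t) * Real.exp (1 / 8 * (t - T1))) := by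
          ring
        rw [e2, ENNReal.ofReal_mul (p := 2 * (Cn : ℝ) + Cl * CM) (by positivity)]
        ring

end Crest.Agent.R68.ColdW
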