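import Crest.Agent.R68.ColdDefs

/-!
# Row 68, PART C (cold component): INTERFACE (sorry; NEVER import in a proof) (helper906)

All statements hold for every `P` with `ColdPar C P` for one constant `C`.
`lam` is an arbitrary measurable `Γ`-periodic rate with values in `[0,∞]`;
for a hot component `H` use `lam = fun t x v => Lc (H t x) v`.
`T1 = dl^(3/8)`.
-/

set_option autoImplicit false
open MeasureTheory Set Filter
open scoped ENNReal
open Crest.AnalysisR.VecCalc3 Crest.AnalysisR.PDE.Boltzmann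

noncomputable section

namespace Crest.Agent.R68.ColdIface

/-! ### per sheet (lane `j`, one image), arbitrary full rate `Λ`, all times -/

/-- (P0) -/
theorem phij_le_gaussj : ∃ C : ℝ, ∀ P : Par, ColdPar C P → ∀ (j : ℕ) t x v, 0 ≤ t →
    phij P j t x v ≤ gaussj P j t x v := by
  sorry

/-- (P1) -/
theorem Ztj_of_phij : ∃ C : ℝ, ∀ P : Par, ColdPar C P → ∀ (j : ℕ) t x v, 0 ≤ t →
    phij P j t x v ≠ 0 → Ztj P j t x v := by
  sorry

/-- (P2) -/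
theorem coldj_le : ∃ C : ℝ, ∀ P : Par, ColdPar C P → ∀ (j : ℕ) (Λ : ℝ → P2 → R3 → ℝ≥0∞),
    Measurable (fun z : ℝ × P2 × R3 => Λ z.1 z.2.1 z.2.2) → ∀ t x v, 0 ≤ t →
    coldj P j Λ t x v = phij P j t x v * damp Λ 0 t x v + DuhD Λ (gainj P j (coldj P j Λ)) t x v ∧
    coldj P j Λ t x v ≤ phij P j t x v + ENNReal.ofReal (min t 1) * warmj P j t x v := by
  sorry

/-- (P3) a function of the label zone only: on the tight zone `D` is comparable with the peculiar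
velocity; used for Newton potentials -/
theorem Dw_le_of_Ztj : ∃ C : ℝ, ∀ P : Par, ColdPar C P → ∀ (j : ℕ) t x v, 0 ≤ t →
    (P.j0 ≤ j ∧ (∃ a ∈ lane j, |lab P t x - a| ≤ rhoj P.p j * tauj P.p j / bj j) ∧
    |x.2| ≤ (P.Y + rhoj P.p j * tauj P.p j / bj j ^ 2) * (t + rr (lab P t x))) →
    Dw P t x v ≤ 4 * ‖v - uvec P (wj j) t x‖ + rhoj P.p j * tauj P.p j / bj j ^ 5 := by
  sorry

/-! ### the total cold component -/

/-- (C1) existence: for every measurable periodic rate, for all times. -/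
theorem coldR_main : ∃ C : ℝ, ∀ P : Par, ColdPar C P → ∀ lam : ℝ → P2 → R3 → ℝ≥0∞,
    Measurable (fun z : ℝ × P2 × R3 => lam z.1 z.2.1 z.2.2) →
    (∀ t v, PerG (fun x => lam t x v)) →
    Measurable (fun z : ℝ × P2 × R3 => coldR P lam z.1 z.2.1 z.2.2) ∧
    (∀ t v, PerG (fun x => coldR P lam t x v)) ∧
    (∀ t x v, 0 ≤ t → coldR P lam t x v = coldL P (rateC P lam) t x v) ∧
    (∀ t x v, 0 ≤ t → coldR P lam t x v =
      phiE P t x v * damp (rateC P lam) 0 t x v + DuhD (rateC P lam) (coldGain P lam) t x v) ∧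
    (∀ t x v, 0 ≤ t → Qp (coldR P lam t x) (coldR P lam t x) v =
      coldGain P lam t x v + coldSpill P lam t x v) ∧
    (∀ t x v, 0 ≤ t → coldR P lam t x v ≤ phiE P t x v + ENNReal.ofReal (min t 1) * warm P t x v) ∧
    (∀ t x v, coldR P lam t x v ≠ 0 → ‖v‖ < P.Y + 3) := by
  sorry

/-- (C1) causality -/
theorem coldR_causal : ∃ C : ℝ, ∀ P : Par, ColdPar C P → ∀ lam lam' : ℝ → P2 → R3 → ℝ≥0∞,
    Measurable (fun z : ℝ × P2 × R3 => lam z.1 z.2.1 z.2.2) →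
    (∀ t v, PerG (fun x => lam t x v)) →
    Measurable (fun z : ℝ × P2 × R3 => lam' z.1 z.2.1 z.2.2) →
    (∀ t v, PerG (fun x => lam' t x v)) →
    ∀ T : ℝ, (∀ t x v, 0 < t → t < T → lam t x v = lam' t x v) →
    ∀ t x v, 0 ≤ t → t ≤ T → coldR P lam t x v = coldR P lam' t x v := by
  sorry

/-- (C3) extra damping: if `lam ≥ lam0 (t)` then the cold part decays accordingly. -/
theorem coldR_decay : ∃ C : ℝ, ∀ P : Par, ColdPar C P → ∀ lam : ℝ → P2 → R3 → ℝ≥0∞,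
    Measurable (fun z : ℝ × P2 × R3 => lam z.1 z.2.1 z.2.2) →
    (∀ t v, PerG (fun x => lam t x v)) →
    ∀ lam0 : ℝ → ℝ≥0∞, Measurable lam0 → ∀ T : ℝ,
    (∀ t x v, 0 < t → t < T → ‖v‖ < P.Y + 3 → lam0 t ≤ lam t x v) →
    ∀ t x v, 0 ≤ t → t ≤ T → coldR P lam t x v ≤ A.en (∫⁻ s in Ioo 0 t, lam0 s) *
      (phiE P t x v + ENNReal.ofReal (min t 1) * warm P t x v) := by
  sorry

/-- (C3) refined upper bound on `[0,T1]` -/
theorem coldR_le_T1 : ∃ C : ℝ, ∀ P : Par, ColdPar C P → ∀ lam : ℝ → P2 → R3 → ℝ≥0∞,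
    Measurable (fun z : ℝ × P2 × R3 => lam z.1 z.2.1 z.2.2) →
    (∀ t v, PerG (fun x => lam t x v)) →
    ∀ t x v, 0 ≤ t → t ≤ P.dl ^ (3 / 8 : ℝ) →
    coldR P lam t x v ≤ phiE P t x v +
      ENNReal.ofReal (t * distG x ^ (P.p / 32)) * warm P t x v := by
  sorry

/-- (C3) lower bound on `[0,T1]` -/
theorem phi_le_coldR : ∃ C : ℝ, ∀ P : Par, ColdPar C P → ∀ lam : ℝ → P2 → R3 → ℝ≥0∞,
    Measurable (fun z : ℝ × P2 × R3 => lam z.1 z.2.1 z.2.2) →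
    (∀ t v, PerG (fun x => lam t x v)) →
    ∀ t x v, 0 ≤ t → t ≤ P.dl ^ (3 / 8 : ℝ) →
    phiE P t x v ≤ coldR P lam t x v +
      (ENNReal.ofReal (t * distG x ^ (P.p / 32)) +
        ∫⁻ s in Ioo 0 t, lam s (x - (t - s) • bar v) v) * phiE P t x v := by
  sorry

/-- (C4) Lipschitz dependence on `[0,T1]`.  `Δ` is non-decreasing along cold flights, e.g.
`Δ t x = A t^(b+1) exp (-g (max (Y+3) (distG x / t))²)`. -/
theorem coldR_lip : ∃ C : ℝ, ∀ P : Par, ColdPar C P →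
    ∀ lam lam' g : ℝ → P2 → R3 → ℝ≥0∞,
    Measurable (fun z : ℝ × P2 × R3 => lam z.1 z.2.1 z.2.2) →
    (∀ t v, PerG (fun x => lam t x v)) →
    Measurable (fun z : ℝ × P2 × R3 => lam' z.1 z.2.1 z.2.2) →
    (∀ t v, PerG (fun x => lam' t x v)) →
    ∀ (T : ℝ) (Δ : ℝ → P2 → ℝ≥0∞), T ≤ P.dl ^ (3 / 8 : ℝ) →
    (∀ t x v, 0 < t → t < T → ‖v‖ < P.Y + 3 → lam t x v ≤ lam' t x v + g t x v ∧
      lam' t x v ≤ lam t x v + g t x v) →
    (∀ t x v, 0 < t → t ≤ T → ‖v‖ < P.Y + 3 →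
      ∫⁻ s in Ioo 0 t, g s (x - (t - s) • bar v) v ≤ Δ t x) →
    (∀ s t x v, 0 < s → s ≤ t → t ≤ T → ‖v‖ < P.Y + 3 → Δ s (x - (t - s) • bar v) ≤ Δ t x) →
    ∀ t x v, 0 < t → t ≤ T →
      coldR P lam t x v ≤ coldR P lam' t x v + 2 * Δ t x * coldS P t x v ∧
      coldSpill P lam t x v ≤ coldSpill P lam' t x v +
        Δ t x * ENNReal.ofReal (Real.exp (-(distG x)⁻¹) * Real.exp (-‖v‖ ^ 2)) := by
  sorry

/-- (C6) spill on `[0,T1]` -/
theorem coldSpill_le : ∃ C : ℝ, ∀ P : Par, ColdPar C P → ∀ lam : ℝ → P2 → R3 → ℝ≥0∞,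
    Measurable (fun z : ℝ × P2 × R3 => lam z.1 z.2.1 z.2.2) →
    (∀ t v, PerG (fun x => lam t x v)) →
    ∀ t x v, 0 ≤ t → t ≤ P.dl ^ (3 / 8 : ℝ) →
    coldSpill P lam t x v ≤
      ENNReal.ofReal (Real.exp (-(distG x)⁻¹) * Real.exp (-‖v‖ ^ 2)) := by
  sorry

/-- (C5) the warm majorant on `[0,T1]`: support, mass, Newton potential -/
theorem warm_size : ∃ C : ℝ, ∀ P : Par, ColdPar C P → ∀ t x, 0 ≤ t → t ≤ P.dl ^ (3 / 8 : ℝ) →
    (∀ v, warm P t x v ≠ 0 → ‖v‖ < P.Y + 3) ∧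
    (∫⁻ v, warm P t x v) ≤ 1 ∧
    (∀ v, (∫⁻ v', warm P t x v' / ENNReal.ofReal ‖v - v'‖) ≤ Dm P t x v) := by
  sorry

/-- (C5) self-interaction of the cold component on `[0,T1]`: tiny loss rate for cold particles -/
theorem Lc_coldS_le : ∃ C : ℝ, ∀ P : Par, ColdPar C P → ∀ t x v, 0 ≤ t →
    t ≤ P.dl ^ (3 / 8 : ℝ) → coldS P t x v ≠ 0 →
    Lc (coldS P t x) v ≤ ENNReal.ofReal (distG x ^ (P.p / 32)) := by
  sorry

/-- (C7) integral form: `F = c + H` solves the equation as soon as `H` does with `coldSpill` -/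
theorem coldR_mild : ∃ C : ℝ, ∀ P : Par, ColdPar C P → ∀ lam : ℝ → P2 → R3 → ℝ≥0∞,
    Measurable (fun z : ℝ × P2 × R3 => lam z.1 z.2.1 z.2.2) →
    (∀ t v, PerG (fun x => lam t x v)) →
    ∀ t x v, 0 ≤ t → (∫⁻ s in Ioo 0 t, lam s (x + s • bar v) v) ≠ ⊤ →
    coldR P lam t (x + t • bar v) v +
      (∫⁻ s in Ioo 0 t, rateC P lam s (x + s • bar v) v * coldR P lam s (x + s • bar v) v) +
      (∫⁻ s in Ioo 0 t, coldSpill P lam s (x + s • bar v) v) =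
    phiE P 0 x v +
      ∫⁻ s in Ioo 0 t, Qp (coldR P lam s (x + s • bar v)) (coldR P lam s (x + s • bar v)) v := by
  sorry

/-- (C8) uniqueness: the full rate determines the cold component -/
theorem coldR_ae_eq : ∃ C : ℝ, ∀ P : Par, ColdPar C P → ∀ lam lam' : ℝ → P2 → R3 → ℝ≥0∞,
    Measurable (fun z : ℝ × P2 × R3 => lam z.1 z.2.1 z.2.2) →
    (∀ t v, PerG (fun x => lam t x v)) →
    Measurable (fun z : ℝ × P2 × R3 => lam' z.1 z.2.1 z.2.2) →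
    (∀ t v, PerG (fun x => lam' t x v)) →
    ∀ T : ℝ, (∀ᵐ z : ℝ × P2 × R3, 0 < z.1 → z.1 < T →
      rateC P lam z.1 z.2.1 z.2.2 = rateC P lam' z.1 z.2.1 z.2.2) →
    ∀ t, 0 ≤ t → t ≤ T → ∀ᵐ q : P2 × R3, coldR P lam t q.1 q.2 = coldR P lam' t q.1 q.2 := by
  sorry

end Crest.Agent.R68.ColdIface
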