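import Crest.Agent.R68.ColdLip2
import Crest.Agent.R68.ColdCpl
import Crest.Agent.R68.ColdT1

/-!
# Row 68, PART C (helper475): Lipschitz dependence of the cold component on the external rate (C4)
-/

set_option autoImplicit false
open MeasureTheory Set Filter
open scoped ENNReal NNReal Topology
open Crest.AnalysisR.VecCalc3 Crest.AnalysisR.PDE.Boltzmann

noncomputable section

namespace Crest.Agent.R68.ColdL

open Crest.Agent.R68.A (Meas3 en)
open Crest.Agent.R68.ColdW (Big)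

variable {P : Par}

theorem sol_coldR (hC : ColdPar Cold.C0 P) (hB : Big P) {lam : ℝ → P2 → R3 → ℝ≥0∞}
    (hl : Meas3 lam) (T : ℝ) : Sol P T (coldR P lam) lam where
  m := ColdM.meas3_coldR P hl
  ml := hl
  eq t x v ht _ := ColdC.coldR_eq_coldL hC hB (by linarith [hC.K]) hl ht x v

/-- the two assumptions on the parameters of part C -/
theorem big_of (hC : ColdPar Cold.C0 P) (hey : 0 < P.ey) (hC' : ColdPar C.C0 P) : Big P where
  ok := C.CP.ok hC' hey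
  p := hC.p
  Y1 := hC.Y
  K := by
    have h1 := hC.j0
    have hK := hC.K
    have hY := hC.Y
    have h2 : 1 ≤ P.K + P.Y := by linarith
    have h3 : P.K + P.Y ≤ (P.K + P.Y) ^ 8 := le_self_pow₀ h2 (by norm_num)
    have h4 := Cold.C0_ge
    have h5 : P.K + P.Y ≤ Cold.C0 * (P.K + P.Y) ^ 8 := by
      calc P.K + P.Y ≤ 1 * (P.K + P.Y) ^ 8 := by rw [one_mul]; exact h3
        _ ≤ Cold.C0 * (P.K + P.Y) ^ 8 := by
            gcongr
            exact le_trans (by norm_num) h4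
    linarith

section

variable {T : ℝ} {lam lam' g : ℝ → P2 → R3 → ℝ≥0∞} {Δ : ℝ → P2 → ℝ≥0∞}

/-- general form with the constant `B` -/
theorem coldR_lip_B (hC : ColdPar Cold.C0 P) (hB : Big P) (hl : Meas3 lam) (hl' : Meas3 lam')
    {B : ℝ} (hB0 : 0 < B) (hBd : ∀ t x v, 0 < t → t ≤ T → coldS P t x v ≠ 0 →
      Lc (coldS P t x) v ≤ ENNReal.ofReal B) (K : Close P T lam lam' g Δ) {t : ℝ} (ht : 0 ≤ t)
    (htT : t ≤ T) (x : P2) (v : R3) :
    coldR P lam t x v ≤ coldR P lam' t x v +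
      ENNReal.ofReal (Real.exp (B * t)) * Δ t x * Maj P t x v :=
  (cmp_main hC hB (sol_coldR hC hB hl T) (sol_coldR hC hB hl' T) hB0 hBd K ht htT x v).1.1

/-- general form with the constant `B`, sheet by sheet -/
theorem coldjk_lip_B (hC : ColdPar Cold.C0 P) (hB : Big P) (hl : Meas3 lam) (hl' : Meas3 lam')
    {B : ℝ} (hB0 : 0 < B) (hBd : ∀ t x v, 0 < t → t ≤ T → coldS P t x v ≠ 0 →
      Lc (coldS P t x) v ≤ ENNReal.ofReal B) (K : Close P T lam lam' g Δ) {t : ℝ} (ht : 0 ≤ t)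
    (htT : t ≤ T) (x : P2) (v : R3) (i : (ℤ × ℤ) × ℕ) :
    coldjk P lam i t x v ≤ coldjk P lam' i t x v +
      ENNReal.ofReal (Real.exp (B * t)) * Δ t x * Wj P i.2 t (x + latt i.1) v :=
  (cmp_main hC hB (sol_coldR hC hB hl T) (sol_coldR hC hB hl' T) hB0 hBd K ht htT x v).2 i.2 i.1

/-- majorant of one sheet -/
theorem Wj_le' (hC : ColdPar Cold.C0 P) {j : ℕ} {t : ℝ} (ht : 0 ≤ t) (x : P2) (v : R3) :
    Wj P j t x v ≤ phij P j t x v + warmj P j t x v := by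
  refine (Wj_le hC ht x v).trans (add_le_add le_rfl (mul_le_of_le_one_left' ?_))
  rw [← ENNReal.ofReal_one]
  exact ENNReal.ofReal_le_ofReal (min_le_right _ _)

/-! ### `[0,T1]` -/

theorem exp_T1_le (hC' : ColdPar C.C0 P) {t : ℝ} (htT : t ≤ P.dl ^ (3 / 8 : ℝ)) :
    ENNReal.ofReal (Real.exp (1 * t)) ≤ 2 := by
  have h1 := C.CP.T1_le hC'
  have h2 : 1 / (40 * (P.K + P.Y)) ≤ 1 / 40 := by
    rw [div_le_div_iff₀ (by linarith [hC'.K, hC'.Y]) (by norm_num)]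
    linarith [hC'.K, hC'.Y]
  have h3 : t ≤ 1 / 40 := htT.trans (h1.trans h2)
  have h4 : Real.exp (1 * t) ≤ 2 := by
    rw [one_mul]
    have e1 : Real.exp t ≤ Real.exp (1 / 40) := Real.exp_le_exp.2 h3
    have e2 : Real.exp (1 / 40 : ℝ) ≤ 2 := by
      have e3 := Real.exp_one_lt_d9
      have e4 : Real.exp (1 / 40 : ℝ) ^ 40 = Real.exp 1 := by
        rw [← Real.exp_nat_mul]; norm_num
      by_contra hcon
      push Not at hcon
      have e5 : (2 : ℝ) ^ 40 < Real.exp (1 / 40 : ℝ) ^ 40 := by gcongr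
      rw [e4] at e5
      norm_num at e5
      linarith
    exact e1.trans e2
  calc ENNReal.ofReal (Real.exp (1 * t)) ≤ ENNReal.ofReal 2 := ENNReal.ofReal_le_ofReal h4
    _ = 2 := by simp

theorem Lc_T1 (hC' : ColdPar C.C0 P) (hey : 0 < P.ey) (hB : Big P)
    (hT : T ≤ P.dl ^ (3 / 8 : ℝ)) : ∀ t x v, 0 < t → t ≤ T → coldS P t x v ≠ 0 →
      Lc (coldS P t x) v ≤ ENNReal.ofReal 1 := by
  intro t x v ht htT h0
  obtain ⟨k, j, hz⟩ := ColdW.exists_of_coldS_ne hB ht.le h0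
  refine (ColdT1.Lc_coldS_le_bj hC' hey ht.le (htT.trans hT) hz).trans
    (ENNReal.ofReal_le_ofReal ?_)
  exact pow_le_one₀ (C.bj_pos j).le (C.bj_le_one j)

/-- **`coldR_lip` of `ColdIface`** (first half) -/
theorem coldR_lip (hC : ColdPar Cold.C0 P) (hC' : ColdPar C.C0 P) (hey : 0 < P.ey)
    (hl : Meas3 lam) (hl' : Meas3 lam') (hT : T ≤ P.dl ^ (3 / 8 : ℝ))
    (K : Close P T lam lam' g Δ) {t : ℝ} (ht : 0 ≤ t) (htT : t ≤ T) (x : P2) (v : R3) :
    coldR P lam t x v ≤ coldR P lam' t x v + 2 * Δ t x * coldS P t x v := by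
  have hB := big_of hC hey hC'
  refine (coldR_lip_B hC hB hl hl' one_pos (Lc_T1 hC' hey hB hT) K ht htT x v).trans ?_
  refine add_le_add le_rfl (mul_le_mul' (mul_le_mul' ?_ le_rfl) (Maj_le_coldS P t x v))
  exact exp_T1_le hC' (htT.trans hT)

/-- `coldR_lip`, sheet by sheet -/
theorem coldjk_lip (hC : ColdPar Cold.C0 P) (hC' : ColdPar C.C0 P) (hey : 0 < P.ey)
    (hl : Meas3 lam) (hl' : Meas3 lam') (hT : T ≤ P.dl ^ (3 / 8 : ℝ))
    (K : Close P T lam lam' g Δ) {t : ℝ} (ht : 0 ≤ t) (htT : t ≤ T) (x : P2) (v : R3)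
    (i : (ℤ × ℤ) × ℕ) :
    coldjk P lam i t x v ≤ coldjk P lam' i t x v +
      2 * Δ t x * (phij P i.2 t (x + latt i.1) v + warmj P i.2 t (x + latt i.1) v) := by
  have hB := big_of hC hey hC'
  refine (coldjk_lip_B hC hB hl hl' one_pos (Lc_T1 hC' hey hB hT) K ht htT x v i).trans ?_
  refine add_le_add le_rfl (mul_le_mul' (mul_le_mul' ?_ le_rfl) (Wj_le' hC ht _ v))
  exact exp_T1_le hC' (htT.trans hT)

/-! ### all times -/

/-- **`coldR_lipW`**: all times, locally bounded constant -/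
theorem coldR_lipW (hC : ColdPar Cold.C0 P) (hB : Big P) (T : ℝ) :
    ∃ B : ℝ≥0, ∀ lam lam' g : ℝ → P2 → R3 → ℝ≥0∞, ∀ Δ : ℝ → P2 → ℝ≥0∞, ∀ T', T' ≤ T →
      Meas3 lam → Meas3 lam' → Close P T' lam lam' g Δ → ∀ t, 0 ≤ t → t ≤ T' → ∀ x v,
      coldR P lam t x v ≤ coldR P lam' t x v + B * Δ t x * coldS P t x v ∧
      ∀ i : (ℤ × ℤ) × ℕ, coldjk P lam i t x v ≤ coldjk P lam' i t x v +
        B * Δ t x * (phij P i.2 t (x + latt i.1) v + warmj P i.2 t (x + latt i.1) v) := by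
  obtain ⟨B0, hB0⟩ := ColdW.Lc_bdd hB T
  refine ⟨Real.toNNReal (Real.exp (max B0 1 * max T 0)), fun lam lam' g Δ T' hT' hl hl' K t ht htT
    x v => ?_⟩
  have hb : 0 < max B0 1 := lt_max_of_lt_right one_pos
  have hBd : ∀ t x v, 0 < t → t ≤ T' → coldS P t x v ≠ 0 →
      Lc (coldS P t x) v ≤ ENNReal.ofReal (max B0 1) := fun t x v a1 a2 a3 =>
    (hB0 t x v a1.le (a2.trans hT') a3).trans (ENNReal.ofReal_le_ofReal (le_max_left _ _))
  have hexp : ENNReal.ofReal (Real.exp (max B0 1 * t)) ≤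
      ((Real.toNNReal (Real.exp (max B0 1 * max T 0)) : ℝ≥0) : ℝ≥0∞) := by
    refine ENNReal.ofReal_le_ofReal (Real.exp_le_exp.2 (mul_le_mul_of_nonneg_left ?_ hb.le))
    exact (htT.trans hT').trans (le_max_left _ _)
  refine ⟨(coldR_lip_B hC hB hl hl' hb hBd K ht htT x v).trans ?_, fun i =>
    (coldjk_lip_B hC hB hl hl' hb hBd K ht htT x v i).trans ?_⟩
  · exact add_le_add le_rfl (mul_le_mul' (mul_le_mul' hexp le_rfl) (Maj_le_coldS P t x v))
  · exact add_le_add le_rfl (mul_le_mul' (mul_le_mul' hexp le_rfl) (Wj_le' hC ht _ v))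

end

end Crest.Agent.R68.ColdL
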