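import Crest.Agent.R68.Int1
import Crest.Agent.R68.A2

/-!
Row 68, PART I (helper858), module 2: flights, a.e. properties along flights, exponential form
with rate `nu` and source `q + (nu - L) H` ⟹ mild form `H + ∫ L H = H0 + ∫ q` along a.e. flight.
-/

set_option autoImplicit false
open MeasureTheory Set Filter
open scoped ENNReal Topology
open Crest.AnalysisR.VecCalc3 Crest.AnalysisR.PDE.Boltzmann

noncomputable section

namespace Crest.Agent.R68.I

open Crest.Agent.R68.A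

/-! ### free flow on phase space -/

/-- free flow -/
def fs (t : ℝ) (p : P2 × R3) : P2 × R3 := (p.1 + t • bar p.2, p.2)

lemma measurable_fs_joint : Measurable fun z : ℝ × (P2 × R3) => fs z.1 z.2 := by
  unfold fs
  fun_prop

lemma measurable_fs (t : ℝ) : Measurable (fs t) := by
  unfold fs
  fun_prop

lemma mp_fs (t : ℝ) : MeasurePreserving (fs t) (volume : Measure (P2 × R3)) volume := by
  have h1 : MeasurePreserving (fun p : R3 × P2 => (p.1, p.2 + t • bar p.1))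
      ((volume : Measure R3).prod (volume : Measure P2))
      ((volume : Measure R3).prod (volume : Measure P2)) := by
    refine (MeasurePreserving.id _).skew_product (g := fun v x => x + t • bar v) ?_ ?_
    · show Measurable fun p : R3 × P2 => p.2 + t • bar p.1
      fun_prop
    · exact Eventually.of_forall fun v =>
        (measurePreserving_add_right (volume : Measure P2) (t • bar v)).map_eq
  have h2 : MeasurePreserving (Prod.swap : P2 × R3 → R3 × P2)
      (volume : Measure (P2 × R3)) ((volume : Measure R3).prod (volume : Measure P2)) :=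
    Measure.measurePreserving_swap
  have h3 : MeasurePreserving (Prod.swap : R3 × P2 → P2 × R3)
      ((volume : Measure R3).prod (volume : Measure P2)) (volume : Measure (P2 × R3)) :=
    Measure.measurePreserving_swap
  exact h3.comp (h1.comp h2)

lemma ae_fs {Q : P2 × R3 → Prop} (h : ∀ᵐ p, Q p) (t : ℝ) : ∀ᵐ p, Q (fs t p) :=
  (mp_fs t).quasiMeasurePreserving.ae h

/-- a property that holds a.e. at each time holds for a.e. time along a.e. flight -/
lemma ae_flight {Q : ℝ → P2 × R3 → Prop} {T : ℝ}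
    (hm : MeasurableSet {z : ℝ × (P2 × R3) | Q z.1 z.2}) (h : ∀ s ∈ Ioo 0 T, ∀ᵐ p, Q s p) :
    ∀ᵐ p, ∀ᵐ s ∂(volume.restrict (Ioo 0 T)), Q s (fs s p) := by
  have hm' : MeasurableSet {z : ℝ × (P2 × R3) | Q z.1 (fs z.1 z.2)} := by
    have : Measurable fun z : ℝ × (P2 × R3) => (z.1, fs z.1 z.2) :=
      measurable_fst.prodMk measurable_fs_joint
    exact this hm
  refine (Measure.ae_ae_comm hm').1 ?_
  filter_upwards [ae_restrict_mem measurableSet_Ioo] with s hs
  exact ae_fs (h s hs) s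

/-- the same in the variables of `Meas3` -/
lemma ae_flight3 {Q : ℝ → P2 → R3 → Prop} {T : ℝ}
    (hm : MeasurableSet {z : ℝ × P2 × R3 | Q z.1 z.2.1 z.2.2})
    (h : ∀ s ∈ Ioo 0 T, ∀ᵐ p : P2 × R3, Q s p.1 p.2) :
    ∀ᵐ p : P2 × R3, ∀ᵐ s ∂(volume.restrict (Ioo 0 T)), Q s (p.1 + s • bar p.2) p.2 :=
  ae_flight (Q := fun s p => Q s p.1 p.2) hm h

lemma ae_at {Q : P2 → R3 → Prop} (t : ℝ) (h : ∀ᵐ p : P2 × R3, Q p.1 p.2) :
    ∀ᵐ p : P2 × R3, Q (p.1 + t • bar p.2) p.2 :=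
  ae_fs (Q := fun p => Q p.1 p.2) h t

/-! ### positions -/

lemma pos_back (x : P2) (v : R3) (t s : ℝ) :
    x + t • bar v - (t - s) • bar v = x + s • bar v := by
  rw [sub_smul]; abel

lemma pos_back0 (x : P2) (v : R3) (t : ℝ) : x + t • bar v - t • bar v = x := by
  abel

/-! ### mild form -/

theorem mild_of_expo {T : ℝ} {nu L q H W : ℝ → P2 → R3 → ℝ≥0∞} {H0 : P2 → R3 → ℝ≥0∞}
    (hnu : Meas3 nu) (hLm : Meas3 L) (hq : Meas3 q) (hH : Meas3 H) (hW : Meas3 W)
    (hL : ∀ t ∈ Ioo 0 T, ∀ x v, L t x v ≤ nu t x v)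
    (hWae : ∀ t ∈ Icc 0 T, ∀ᵐ p : P2 × R3, W t p.1 p.2 ≠ ⊤)
    (hfix : ∀ t ∈ Icc 0 T, ∀ x v, W t x v ≠ ⊤ → H t x v =
      H0 (x - t • bar v) v * en (∫⁻ s in Ioo 0 t, nu s (x - (t - s) • bar v) v) +
      ∫⁻ s in Ioo 0 t, en (∫⁻ r in Ioo s t, nu r (x - (t - r) • bar v) v) *
        (q s (x - (t - s) • bar v) v +
          (nu s (x - (t - s) • bar v) v - L s (x - (t - s) • bar v) v) *
            H s (x - (t - s) • bar v) v))
    (hfin : ∀ᵐ p : P2 × R3, ∫⁻ s in Ioo 0 T, nu s (p.1 + s • bar p.2) p.2 *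
      (1 + H s (p.1 + s • bar p.2) p.2) ≠ ⊤) :
    ∀ t ∈ Icc 0 T, ∀ᵐ p : P2 × R3,
      H t (p.1 + t • bar p.2) p.2 +
        ∫⁻ s in Ioo 0 t, L s (p.1 + s • bar p.2) p.2 * H s (p.1 + s • bar p.2) p.2 =
      H0 p.1 p.2 + ∫⁻ s in Ioo 0 t, q s (p.1 + s • bar p.2) p.2 := by
  intro t ht
  have hWm : MeasurableSet {z : ℝ × P2 × R3 | W z.1 z.2.1 z.2.2 ≠ ⊤} := by
    have : {z : ℝ × P2 × R3 | W z.1 z.2.1 z.2.2 ≠ ⊤} =
        ((fun z : ℝ × P2 × R3 => W z.1 z.2.1 z.2.2) ⁻¹' {⊤})ᶜ := by ext z; simp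
    rw [this]
    exact (hW (measurableSet_singleton _)).compl
  have h1 := ae_flight3 (Q := fun s x v => W s x v ≠ ⊤) (T := t) hWm
    (fun s hs => hWae s ⟨hs.1.le, hs.2.le.trans ht.2⟩)
  have h2 := ae_at (Q := fun x v => W t x v ≠ ⊤) t (hWae t ht)
  filter_upwards [h1, h2, hfin] with p hp1 hp2 hp3
  obtain ⟨x, v⟩ := p
  simp only at hp1 hp2 hp3 ⊢
  have mm : ∀ {F : ℝ → P2 → R3 → ℝ≥0∞}, Meas3 F → Measurable fun s : ℝ => F s (x + s • bar v) v := by
    intro F hF
    exact hF.comp (by fun_prop) (by fun_prop) (by fun_prop)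
  set n : ℝ → ℝ≥0∞ := fun s => nu s (x + s • bar v) v with hn
  set l : ℝ → ℝ≥0∞ := fun s => L s (x + s • bar v) v with hl
  set h : ℝ → ℝ≥0∞ := fun s => H s (x + s • bar v) v with hh
  set g : ℝ → ℝ≥0∞ := fun s => q s (x + s • bar v) v with hg
  have mn : Measurable n := mm hnu
  have ml : Measurable l := mm hLm
  have mh : Measurable h := mm hH
  have mg : Measurable g := mm hq
  have hmono : ∀ f : ℝ → ℝ≥0∞, ∫⁻ s in Ioo 0 t, f s ≤ ∫⁻ s in Ioo 0 T, f s := fun f =>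
    lintegral_mono_set (Ioo_subset_Ioo_right ht.2)
  have hf0 : ∫⁻ s in Ioo 0 t, n s * (1 + h s) ≠ ⊤ := ne_top_of_le_ne_top hp3 (hmono _)
  have hfn : nn n 0 t ≠ ⊤ := by
    refine ne_top_of_le_ne_top hf0 (lintegral_mono fun s => ?_)
    calc n s = n s * 1 := (mul_one _).symm
      _ ≤ n s * (1 + h s) := by gcongr; exact le_self_add
  have hfh : ∫⁻ s in Ioo 0 t, n s * h s ≠ ⊤ := by
    refine ne_top_of_le_ne_top hf0 (lintegral_mono fun s => ?_)
    gcongr
    exact le_add_self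
  have key : ∀ s ∈ Icc 0 T, W s (x + s • bar v) v ≠ ⊤ →
      h s = H0 x v * en (nn n 0 s) + ∫⁻ r in Ioo 0 s, en (nn n r s) * (g r + (n r - l r) * h r) := by
    intro s hs hWs
    have := hfix s hs (x + s • bar v) v hWs
    simp only [pos_back, pos_back0] at this
    exact this
  have hE := expo_integral (ν := n) (q := fun r => g r + (n r - l r) * h r) mn
    (mg.add ((mn.sub ml).mul mh)) ht.1 hfn (H0 x v) (y := h)
    (by
      filter_upwards [hp1, ae_restrict_mem measurableSet_Ioo] with s hs hst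
      exact key s ⟨hst.1.le, hst.2.le.trans ht.2⟩ hs)
    (key t ht hp2)
  -- cancel
  have hc : ∫⁻ s in Ioo 0 t, (n s - l s) * h s ≠ ⊤ := by
    refine ne_top_of_le_ne_top hfh (lintegral_mono fun s => ?_)
    gcongr
    exact tsub_le_self
  have e1 : ∫⁻ s in Ioo 0 t, h s * n s =
      (∫⁻ s in Ioo 0 t, (n s - l s) * h s) + ∫⁻ s in Ioo 0 t, l s * h s := by
    have mnlh : Measurable fun s => (n s - l s) * h s := (mn.sub ml).mul mh
    rw [← lintegral_add_left mnlh]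
    refine setLIntegral_congr_fun measurableSet_Ioo fun s hs => ?_
    have hls : l s ≤ n s := hL s ⟨hs.1, hs.2.trans_le ht.2⟩ _ _
    show h s * n s = (n s - l s) * h s + l s * h s
    rw [← add_mul, tsub_add_cancel_of_le hls, mul_comm]
  have e2 : ∫⁻ s in Ioo 0 t, (g s + (n s - l s) * h s) =
      (∫⁻ s in Ioo 0 t, g s) + ∫⁻ s in Ioo 0 t, (n s - l s) * h s :=
    lintegral_add_left mg _
  rw [e1, e2] at hE
  have hE' : (∫⁻ s in Ioo 0 t, (n s - l s) * h s) + (h t + ∫⁻ s in Ioo 0 t, l s * h s) =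
      (∫⁻ s in Ioo 0 t, (n s - l s) * h s) + (H0 x v + ∫⁻ s in Ioo 0 t, g s) := by
    rw [← add_assoc, add_comm _ (h t), add_assoc, hE]
    ring
  exact (ENNReal.add_right_inj hc).1 hE'

end Crest.Agent.R68.I
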