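import Crest.Agent.R68.CNewt2
import Crest.Agent.R68.ColdDefs
import Crest.Agent.R68.K1a
import Crest.Agent.R68.NHyp

/-!
# R68 / KC (helper819): size of the cold majorant `coldS` on `[0,T]`, `T ≤ 1`

Support, Newton potential, mass, mass times `(t+|x|)²`; and `B1 ≤ C (t+|x|)^β Z_{g0}`,
absorption of powers of `|x|/t` by the Gaussian in `B2`.
-/

set_option autoImplicit false
open MeasureTheory Set Filter
open scoped ENNReal Topology
open Crest.AnalysisR.VecCalc3 Crest.AnalysisR.PDE.Boltzmann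

noncomputable section

namespace Crest.Agent.R68.KC

open Crest.Agent.R68.C (newt rho)
open Crest.Agent.R68.N (tx Zg EE)

variable {P : Par}

/-- size of the warm majorant on `[0,T]` (906's `warm_size`) -/
structure WSz (P : Par) (T : ℝ) : Prop where
  supp : ∀ t, 0 ≤ t → t ≤ T → ∀ x v, warm P t x v ≠ 0 → ‖v‖ < P.Y + 3
  mass : ∀ t, 0 ≤ t → t ≤ T → ∀ x, (∫⁻ v, warm P t x v) ≤ 1
  newt : ∀ t, 0 ≤ t → t ≤ T → ∀ x v,
    (∫⁻ v', warm P t x v' / ENNReal.ofReal ‖v - v'‖) ≤ Dm P t x v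

/-- from the form of the interface -/
theorem WSz.of {T : ℝ} (h : ∀ t x, 0 ≤ t → t ≤ T →
    (∀ v, warm P t x v ≠ 0 → ‖v‖ < P.Y + 3) ∧
    (∫⁻ v, warm P t x v) ≤ 1 ∧
    (∀ v, (∫⁻ v', warm P t x v' / ENNReal.ofReal ‖v - v'‖) ≤ Dm P t x v)) : WSz P T where
  supp t ht hT x := (h t x ht hT).1
  mass t ht hT x := (h t x ht hT).2.1
  newt t ht hT x := (h t x ht hT).2.2

theorem measurable_phiE (h : P.Ok) (t : ℝ) (x : P2) : Measurable (phiE P t x) := by
  have h1 : Measurable fun v : R3 => (t, x, v) := by fun_prop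
  have h2 : Measurable ((fun p : ℝ × P2 × R3 => ENNReal.ofReal (phi P p.1 p.2.1 p.2.2)) ∘
      fun v : R3 => (t, x, v)) := (Fuel.measurable_ofReal_phi h).comp h1
  exact h2

theorem phiE_supp (h : P.Ok) {t : ℝ} {x : P2} {v : R3} (hv : P.Y + 5 < ‖v‖) : phiE P t x v = 0 := by
  unfold phiE
  rw [C.phi_eq_zero_of_norm h hv, ENNReal.ofReal_zero]

theorem warm_supp {T : ℝ} (hW : WSz P T) {t : ℝ} (ht : 0 ≤ t) (hT : t ≤ T) {x : P2} {v : R3}
    (hv : P.Y + 3 < ‖v‖) : warm P t x v = 0 := by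
  by_contra h0
  exact absurd (hW.supp t ht hT x v h0) (not_lt.2 hv.le)

theorem coldS_supp (h : P.Ok) {T : ℝ} (hW : WSz P T) {t : ℝ} (ht : 0 ≤ t) (hT : t ≤ T) {x : P2}
    {v : R3} (hv : P.Y + 5 < ‖v‖) : coldS P t x v = 0 := by
  unfold coldS
  rw [phiE_supp h hv, warm_supp hW ht hT (by linarith), add_zero]

/-- `ofReal ‖v-u‖⁻¹ ≤ (ofReal ‖v-u‖)⁻¹`, equality off the diagonal -/
theorem ofReal_inv_le (r : ℝ) : ENNReal.ofReal r⁻¹ ≤ (ENNReal.ofReal r)⁻¹ := by
  rcases le_or_gt r 0 with h | h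
  · rw [ENNReal.ofReal_of_nonpos (inv_nonpos.2 h)]; exact zero_le
  · rw [ENNReal.ofReal_inv_of_pos h]

theorem newt_warm {T : ℝ} (hW : WSz P T) {t : ℝ} (ht : 0 ≤ t) (hT : t ≤ T) (x : P2) (v : R3) :
    newt (warm P t x) v ≤ Dm P t x v := by
  refine le_trans ?_ (hW.newt t ht hT x v)
  refine lintegral_mono fun u => ?_
  rw [ENNReal.div_eq_inv_mul, mul_comm]
  exact mul_le_mul_left (ofReal_inv_le _) _

theorem newt_coldS (h : P.Ok) {T : ℝ} (hW : WSz P T) {t : ℝ} (ht : 0 ≤ t) (hT : t ≤ T) (x : P2)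
    (v : R3) :
    newt (coldS P t x) v ≤ (ENNReal.ofReal (144 * (1 + t)) * rho P t x + 1) * Dm P t x v := by
  have h1 : newt (coldS P t x) v = newt (phiE P t x) v + newt (warm P t x) v :=
    C.newt_add (measurable_phiE h t x) v
  rw [h1, add_mul, one_mul]
  exact add_le_add (C.newt_phi_le h ht x v) (newt_warm hW ht hT x v)

theorem mass_coldS (h : P.Ok) {T : ℝ} (hW : WSz P T) {t : ℝ} (ht : 0 ≤ t) (hT : t ≤ T) (x : P2) :
    ∫⁻ v, coldS P t x v ≤ 2 * rho P t x + 1 := by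
  unfold coldS
  rw [lintegral_add_left (measurable_phiE h t x)]
  exact add_le_add (C.density_phi h ht x) (hW.mass t ht hT x)

/-- the constant of the density `rho ≤ C / t` -/
def Crho (P : Par) : ℝ := (3 * P.Y + 10) ^ 2 * P.K

theorem Crho_nonneg (h : P.Ok) : 0 ≤ Crho P := mul_nonneg (sq_nonneg _) h.K0

theorem rho_le_div (h : P.Ok) {t : ℝ} (ht : 0 < t) (ht1 : t ≤ 1) (x : P2) :
    rho P t x ≤ ENNReal.ofReal (Crho P / t) := by
  refine (C.rho_le h ht x).trans (ENNReal.ofReal_le_ofReal ?_)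
  have hK := h.K0
  have hY := h.Y0
  have hκ := Fuel.Ok.kap0 h
  unfold Crho
  rw [mul_div_assoc]
  have h1 : (4 + 3 * (P.Y + 2) * t) ^ 2 ≤ (3 * P.Y + 10) ^ 2 := by
    apply pow_le_pow_left₀ (by positivity)
    nlinarith
  have h2 : P.K / (t * (1 + P.kap * t)) ≤ P.K / t := by
    apply div_le_div_of_nonneg_left hK ht
    nlinarith [mul_nonneg hκ ht.le]
  exact mul_le_mul h1 h2 (by positivity) (by positivity)

/-- Newton constant of the cold majorant -/
def CN (P : Par) : ℝ := 288 * Crho P + 1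

/-- mass constant of the cold majorant -/
def Cm (P : Par) : ℝ := 2 * Crho P + 1

theorem CN_pos (h : P.Ok) : 0 < CN P := by
  have := Crho_nonneg h; unfold CN; positivity

theorem Cm_pos (h : P.Ok) : 0 < Cm P := by
  have := Crho_nonneg h; unfold Cm; positivity

/-- **Newton potential** of the cold majorant -/
theorem newt_coldS_le (h : P.Ok) {T : ℝ} (hT1 : T ≤ 1) (hW : WSz P T) {t : ℝ} (ht : 0 < t)
    (hT : t ≤ T) (x : P2) (v : R3) :
    newt (coldS P t x) v ≤ ENNReal.ofReal (CN P / t) * Dm P t x v := by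
  refine (newt_coldS h hW ht.le hT x v).trans (mul_le_mul_left ?_ _)
  have ht1 : t ≤ 1 := hT.trans hT1
  have hC := Crho_nonneg h
  calc ENNReal.ofReal (144 * (1 + t)) * rho P t x + 1
      ≤ ENNReal.ofReal 288 * ENNReal.ofReal (Crho P / t) + ENNReal.ofReal (1 / t) := by
        gcongr
        · linarith
        · exact rho_le_div h ht ht1 x
        · rw [← ENNReal.ofReal_one]
          apply ENNReal.ofReal_le_ofReal
          rw [le_div_iff₀ ht]; linarith
    _ = _ := by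
        rw [← ENNReal.ofReal_mul (by norm_num), ← ENNReal.ofReal_add (by positivity) (by positivity)]
        congr 1
        unfold CN
        ring

/-- **mass** of the cold majorant -/
theorem mass_coldS_le (h : P.Ok) {T : ℝ} (hT1 : T ≤ 1) (hW : WSz P T) {t : ℝ} (ht : 0 < t)
    (hT : t ≤ T) (x : P2) : ∫⁻ v, coldS P t x v ≤ ENNReal.ofReal (Cm P / t) := by
  refine (mass_coldS h hW ht.le hT x).trans ?_
  have ht1 : t ≤ 1 := hT.trans hT1
  have hC := Crho_nonneg h
  calc 2 * rho P t x + 1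
      ≤ ENNReal.ofReal 2 * ENNReal.ofReal (Crho P / t) + ENNReal.ofReal (1 / t) := by
        rw [show ENNReal.ofReal 2 = 2 by norm_num]
        gcongr
        · exact rho_le_div h ht ht1 x
        · rw [← ENNReal.ofReal_one]
          apply ENNReal.ofReal_le_ofReal
          rw [le_div_iff₀ ht]; linarith
    _ = _ := by
        rw [← ENNReal.ofReal_mul (by norm_num), ← ENNReal.ofReal_add (by positivity) (by positivity)]
        congr 1
        unfold Cm
        ring

/-- `(t+|x|)² ≤ C (t+r(a))` on the visible fuel -/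
theorem sq_le_of_vis (h : P.Ok) (hY : 1 ≤ P.Y) {t : ℝ} (ht : 0 ≤ t) (ht1 : t ≤ 1) {x : P2}
    {k : ℤ × ℤ} (hk : k ∈ Fuel.vis P t x) :
    (t + distG x) ^ 2 ≤ (2 + 400 * P.Y ^ 2) * (t + rr (lab P t (x + latt k))) := by
  obtain ⟨h1, h2⟩ := C.vis_zone h hY ht hk
  have h3 := K.Th_fuel P (Lam := 100 * P.Y ^ 2) hY h.c0.le h.c1 (le_trans (by norm_num) h.j0) le_rfl
    ht ht1 x k 0 h1 h2
  unfold Th at h3
  simp only [norm_zero, mul_zero, add_zero] at h3
  have hr : 0 ≤ rr (lab P t (x + latt k)) := sq_nonneg _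
  set r := rr (lab P t (x + latt k)) with hrdef
  have hY2 : 0 < P.Y ^ 2 := by positivity
  have h4 : distG x ^ 2 / (100 * P.Y ^ 2) ≤ (t + r) * 2 := by
    have h0 : (0 : ℝ) ^ 2 = 0 := by norm_num
    rw [h0, mul_zero, add_zero] at h3
    linarith
  rw [div_le_iff₀ (by positivity)] at h4
  have h5 : t ^ 2 ≤ t + r := by nlinarith
  nlinarith [sq_nonneg (t - distG x)]

/-- `(t+|x|)² rho ≤ C` -/
theorem sq_mul_rho (h : P.Ok) (hY : 1 ≤ P.Y) {t : ℝ} (ht : 0 < t) (ht1 : t ≤ 1) (x : P2) :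
    ENNReal.ofReal ((t + distG x) ^ 2) * rho P t x ≤
      ENNReal.ofReal ((2 + 400 * P.Y ^ 2) * Crho P) := by
  have hf := Fuel.vis_finite h ht.le x
  have hκ := Fuel.Ok.kap0 h
  have hK := h.K0
  have hY0 := h.Y0
  have h1 : ENNReal.ofReal ((t + distG x) ^ 2) * rho P t x ≤
      (Fuel.vis P t x).ncard * ENNReal.ofReal ((2 + 400 * P.Y ^ 2) * P.K) := by
    unfold C.rho
    rw [tsum_eq_sum (s := hf.toFinset)]
    · rw [Set.ncard_eq_toFinset_card _ hf, ← nsmul_eq_mul, ← Finset.sum_const, Finset.mul_sum]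
      refine Finset.sum_le_sum fun k hk => ?_
      have hk' := hf.mem_toFinset.1 hk
      rw [indicator_of_mem hk', ← ENNReal.ofReal_mul (by positivity)]
      apply ENNReal.ofReal_le_ofReal
      have h2 := sq_le_of_vis h hY ht.le ht1 hk'
      have hr : 0 ≤ rr (lab P t (x + latt k)) := sq_nonneg _
      set r := rr (lab P t (x + latt k)) with hrdef
      have h3 : dens P t (lab P t (x + latt k)) ≤ P.K / (t + r) := by
        unfold dens
        rw [Fuel.one_add_kap]
        apply div_le_div_of_nonneg_left hK (by positivity)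
        nlinarith [mul_nonneg hκ ht.le]
      calc (t + distG x) ^ 2 * dens P t (lab P t (x + latt k))
          ≤ ((2 + 400 * P.Y ^ 2) * (t + r)) * (P.K / (t + r)) := by
            apply mul_le_mul h2 h3
            · unfold dens
              rw [Fuel.one_add_kap]
              positivity
            · positivity
        _ = _ := by field_simp
    · intro k hk
      exact Set.indicator_of_notMem (fun h' => hk (hf.mem_toFinset.2 h')) _
  refine h1.trans ?_
  rw [← ENNReal.ofReal_natCast, ← ENNReal.ofReal_mul (by positivity)]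
  apply ENNReal.ofReal_le_ofReal
  have h2 : ((Fuel.vis P t x).ncard : ℝ) ≤ (3 * P.Y + 10) ^ 2 := by
    refine (Fuel.vis_ncard h ht.le x).trans ?_
    apply pow_le_pow_left₀ (by positivity)
    nlinarith
  unfold Crho
  calc ((Fuel.vis P t x).ncard : ℝ) * ((2 + 400 * P.Y ^ 2) * P.K)
      ≤ (3 * P.Y + 10) ^ 2 * ((2 + 400 * P.Y ^ 2) * P.K) := by
        apply mul_le_mul_of_nonneg_right h2 (by positivity)
    _ = _ := by ring

/-- constant of `sq_mul_mass_coldS` -/
def Cq (P : Par) : ℝ := 2 * ((2 + 400 * P.Y ^ 2) * Crho P) + 4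

theorem Cq_nonneg (h : P.Ok) : 0 ≤ Cq P := by
  have := Crho_nonneg h; unfold Cq; positivity

/-- `(t+|x|)² ∫ coldS ≤ C` -/
theorem sq_mul_mass_coldS (h : P.Ok) (hY : 1 ≤ P.Y) {T : ℝ} (hT1 : T ≤ 1) (hW : WSz P T) {t : ℝ}
    (ht : 0 < t) (hT : t ≤ T) (x : P2) :
    ENNReal.ofReal ((t + distG x) ^ 2) * ∫⁻ v, coldS P t x v ≤ ENNReal.ofReal (Cq P) := by
  have ht1 : t ≤ 1 := hT.trans hT1
  have hC := Crho_nonneg h
  have hd0 := distG_nonneg x
  have hd1 := distG_le_one x
  calc ENNReal.ofReal ((t + distG x) ^ 2) * ∫⁻ v, coldS P t x v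
      ≤ ENNReal.ofReal ((t + distG x) ^ 2) * (2 * rho P t x + 1) := by
        gcongr
        exact mass_coldS h hW ht.le hT x
    _ = 2 * (ENNReal.ofReal ((t + distG x) ^ 2) * rho P t x) + ENNReal.ofReal ((t + distG x) ^ 2) := by
        ring
    _ ≤ ENNReal.ofReal 2 * ENNReal.ofReal ((2 + 400 * P.Y ^ 2) * Crho P) + ENNReal.ofReal 4 := by
        rw [show ENNReal.ofReal 2 = 2 by norm_num]
        gcongr
        · exact sq_mul_rho h hY ht ht1 x
        · nlinarith
    _ = _ := by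
        rw [← ENNReal.ofReal_mul (by norm_num), ← ENNReal.ofReal_add (by positivity) (by norm_num)]
        rfl

end Crest.Agent.R68.KC
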