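import Crest.Agent.R68.ColdMeas
import Crest.Agent.R68.ColdW3
import Crest.Agent.R68.Int2
import Crest.Agent.R68.KC
import Crest.Agent.R68.KWs

/-!
# Row 68, PART C (helper819): C7 = integral (mild) form of the cold equation along flights
-/

set_option autoImplicit false
open MeasureTheory Set Filter
open scoped ENNReal Topology
open Crest.AnalysisR.VecCalc3 Crest.AnalysisR.PDE.Boltzmann

noncomputable section

namespace Crest.Agent.R68.ColdMild

open Crest.Agent.R68.A (Meas3 en measurable_en)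
open Crest.Agent.R68.I (nn expo_integral pos_back)

variable {P : Par}

/-- restriction of a field to the flight starting in `(0,x,v)` -/
theorem measurable_flight {f : ℝ → P2 → R3 → ℝ≥0∞} (hf : Meas3 f) (x : P2) (v : R3) :
    Measurable (fun s : ℝ => f s (x + s • bar v) v) := by
  have h1 : Measurable (fun s : ℝ => ((s, x + s • bar v, v) : ℝ × P2 × R3)) := by fun_prop
  have h2 : Measurable ((fun z : ℝ × P2 × R3 => f z.1 z.2.1 z.2.2) ∘
      fun s : ℝ => ((s, x + s • bar v, v) : ℝ × P2 × R3)) := Measurable.comp hf h1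
  exact h2

theorem damp_flight (Λ : ℝ → P2 → R3 → ℝ≥0∞) (r s : ℝ) (x : P2) (v : R3) :
    damp Λ r s (x + s • bar v) v = en (nn (fun r => Λ r (x + r • bar v) v) r s) := by
  unfold damp nn
  congr 1
  refine lintegral_congr fun r' => ?_
  rw [pos_back]

theorem DuhD_flight (Λ q : ℝ → P2 → R3 → ℝ≥0∞) (s : ℝ) (x : P2) (v : R3) :
    DuhD Λ q s (x + s • bar v) v = ∫⁻ r in Ioo 0 s,
      en (nn (fun r => Λ r (x + r • bar v) v) r s) * q r (x + r • bar v) v := by
  unfold DuhD
  refine lintegral_congr fun r => ?_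
  rw [damp_flight, pos_back]

theorem phiE_flight (P : Par) (s : ℝ) (x : P2) (v : R3) :
    phiE P s (x + s • bar v) v = phiE P 0 x v := by
  unfold phiE
  rw [Fuel.phi_transport P s, add_sub_cancel_right]

/-- abstract form: exponential form ⟹ integral form along one flight -/
theorem mild_of_duhD {c ν G S Q : ℝ → P2 → R3 → ℝ≥0∞} (hν : Meas3 ν) (hG : Meas3 G)
    (heq : ∀ t x v, 0 ≤ t → c t x v = phiE P t x v * damp ν 0 t x v + DuhD ν G t x v)
    (hQ : ∀ t x v, 0 ≤ t → Q t x v = G t x v + S t x v) {t : ℝ} (ht : 0 ≤ t) (x : P2) (v : R3)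
    (hfin : (∫⁻ s in Ioo 0 t, ν s (x + s • bar v) v) ≠ ⊤) :
    c t (x + t • bar v) v + (∫⁻ s in Ioo 0 t, ν s (x + s • bar v) v * c s (x + s • bar v) v) +
      (∫⁻ s in Ioo 0 t, S s (x + s • bar v) v) =
    phiE P 0 x v + ∫⁻ s in Ioo 0 t, Q s (x + s • bar v) v := by
  have hy : ∀ s, 0 ≤ s → c s (x + s • bar v) v =
      phiE P 0 x v * en (nn (fun r => ν r (x + r • bar v) v) 0 s) +
      ∫⁻ r in Ioo 0 s, en (nn (fun r => ν r (x + r • bar v) v) r s) * G r (x + r • bar v) v := by
    intro s hs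
    rw [heq s _ v hs, phiE_flight, damp_flight, DuhD_flight]
  have h1 := expo_integral (ν := fun r => ν r (x + r • bar v) v)
    (q := fun r => G r (x + r • bar v) v) (measurable_flight hν x v) (measurable_flight hG x v) ht
    hfin (phiE P 0 x v) (y := fun s => c s (x + s • bar v) v)
    (by
      filter_upwards [ae_restrict_mem measurableSet_Ioo] with s hs
      exact hy s hs.1.le) (hy t ht)
  have h2 : ∫⁻ s in Ioo 0 t, Q s (x + s • bar v) v =
      (∫⁻ s in Ioo 0 t, G s (x + s • bar v) v) + ∫⁻ s in Ioo 0 t, S s (x + s • bar v) v := by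
    rw [← lintegral_add_left (measurable_flight hG x v)]
    refine setLIntegral_congr_fun measurableSet_Ioo fun s hs => ?_
    exact hQ s _ v hs.1.le
  rw [h2, ← add_assoc, ← h1]
  congr 2
  refine lintegral_congr fun s => ?_
  exact mul_comm _ _

/-- **(C7)** for the cold component, on flights with finite accumulated rate -/
theorem coldR_mild_of {lam : ℝ → P2 → R3 → ℝ≥0∞} (hlam : Meas3 lam)
    (heq : ∀ t x v, 0 ≤ t → coldR P lam t x v =
      phiE P t x v * damp (rateC P lam) 0 t x v + DuhD (rateC P lam) (coldGain P lam) t x v)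
    (hQ : ∀ t x v, 0 ≤ t → Qp (coldR P lam t x) (coldR P lam t x) v =
      coldGain P lam t x v + coldSpill P lam t x v) {t : ℝ} (ht : 0 ≤ t) (x : P2) (v : R3)
    (hfin : (∫⁻ s in Ioo 0 t, rateC P lam s (x + s • bar v) v) ≠ ⊤) :
    coldR P lam t (x + t • bar v) v +
      (∫⁻ s in Ioo 0 t, rateC P lam s (x + s • bar v) v * coldR P lam s (x + s • bar v) v) +
      (∫⁻ s in Ioo 0 t, coldSpill P lam s (x + s • bar v) v) =
    phiE P 0 x v +
      ∫⁻ s in Ioo 0 t, Qp (coldR P lam s (x + s • bar v)) (coldR P lam s (x + s • bar v)) v :=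
  mild_of_duhD (P := P) (c := coldR P lam) (ν := rateC P lam) (G := coldGain P lam)
    (S := coldSpill P lam) (Q := fun t x v => Qp (coldR P lam t x) (coldR P lam t x) v)
    (ColdM.meas3_rateC P hlam) (ColdM.meas3_coldGain P hlam) heq hQ ht x v hfin

end Crest.Agent.R68.ColdMild
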