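import Crest.Agent.R68.ColdMild
import Crest.Agent.R68.ColdCpl2
import Crest.Agent.R68.ColdLip
import Crest.Agent.R68.ColdFin
import Crest.Agent.R68.WGlue3

/-!
# Row 68, PART C (helper585): `ColdMildOut_holds` = (C7), integral form of the cold equation along
every flight on which the external rate is integrable
-/

set_option autoImplicit false
open MeasureTheory Set Filter
open scoped ENNReal Topology
open Crest.AnalysisR.VecCalc3 Crest.AnalysisR.PDE.Boltzmann

noncomputable section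

namespace Crest.Agent.R68.ColdMild

open Crest.Agent.R68.A (Meas3 en measurable_en)
open Crest.Agent.R68.I (nn expo_integral pos_back)

variable {P : Par}

/-- exponential form ⟹ integral form when the rate is integrable only on the (forward invariant)
set where the solution lives -/
theorem expo_cut {ν g : ℝ → ℝ≥0∞} (hν : Measurable ν) (hg : Measurable g) {A : Set ℝ}
    (hA : MeasurableSet A) (hup : ∀ s ∈ A, ∀ r, s ≤ r → r ∈ A) {t : ℝ} (ht : 0 ≤ t)
    (hfin : nn (A.indicator ν) 0 t ≠ ⊤) (y0 : ℝ≥0∞) (h0 : y0 ≠ 0 → (0 : ℝ) ∈ A)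
    (hg0 : ∀ s, 0 ≤ s → g s ≠ 0 → s ∈ A) {y : ℝ → ℝ≥0∞}
    (hy : ∀ s, 0 ≤ s → y s = y0 * en (nn ν 0 s) + ∫⁻ r in Ioo 0 s, en (nn ν r s) * g r)
    (hy0 : ∀ s, 0 ≤ s → y s ≠ 0 → s ∈ A) :
    y t + ∫⁻ s in Ioo 0 t, y s * ν s = y0 + ∫⁻ s in Ioo 0 t, g s := by
  have hnn : ∀ r ∈ A, ∀ s, nn (A.indicator ν) r s = nn ν r s := by
    intro r hr s
    unfold nn
    refine setLIntegral_congr_fun measurableSet_Ioo fun u hu => ?_
    exact indicator_of_mem (hup r hr u hu.1.le) ν
  have hy' : ∀ s, 0 ≤ s → y s = y0 * en (nn (A.indicator ν) 0 s) +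
      ∫⁻ r in Ioo 0 s, en (nn (A.indicator ν) r s) * g r := by
    intro s hs
    rw [hy s hs]
    congr 1
    · by_cases hz : y0 = 0
      · rw [hz, zero_mul, zero_mul]
      · rw [hnn 0 (h0 hz)]
    · refine setLIntegral_congr_fun measurableSet_Ioo fun r hr => ?_
      by_cases hz : g r = 0
      · simp only [hz, mul_zero]
      · simp only [hnn r (hg0 r hr.1.le hz)]
  have h1 := expo_integral (hν.indicator hA) hg ht hfin y0 (y := y)
    (by
      filter_upwards [ae_restrict_mem measurableSet_Ioo] with s hs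
      exact hy' s hs.1.le) (hy' t ht)
  rw [← h1]
  congr 1
  refine setLIntegral_congr_fun measurableSet_Ioo fun s hs => ?_
  by_cases hz : y s = 0
  · simp only [hz, zero_mul]
  · simp only [indicator_of_mem (hy0 s hs.1.le hz) ν]

/-- times at which the flight is inside the support of one of the sheets -/
def Live (P : Par) (x : P2) (v : R3) : Set ℝ :=
  {s | 0 ≤ s ∧ ∃ (k : ℤ × ℤ) (j : ℕ), Cold.Sup P j s (x + s • bar v + latt k) v}

theorem live_up {x : P2} {v : R3} {s : ℝ} (hs : s ∈ Live P x v) {r : ℝ} (hr : s ≤ r) :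
    r ∈ Live P x v := by
  obtain ⟨h0, k, j, h⟩ := hs
  refine ⟨h0.trans hr, k, j, ColdL.Sup_mono hr ?_⟩
  rw [show x + r • bar v + latt k - (r - s) • bar v = x + s • bar v + latt k by
    rw [sub_smul]; abel]
  exact h

theorem measurableSet_live (x : P2) (v : R3) : MeasurableSet (Live P x v) := by
  have : OrdConnected (Live P x v) := ⟨fun a ha b _ c hc => live_up ha hc.1⟩
  exact this.measurableSet

theorem live_of_sheet (hC : ColdPar Cold.C0 P) {Λ : ℝ → P2 → R3 → ℝ≥0∞} {x : P2} {v : R3} {s : ℝ}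
    (hs : 0 ≤ s) {k : ℤ × ℤ} {j : ℕ} (h : coldj P j Λ s (x + s • bar v + latt k) v ≠ 0) :
    s ∈ Live P x v := ⟨hs, k, j, Cold.coldj_sup hC hs h⟩

theorem live_of_coldL (hC : ColdPar Cold.C0 P) {Λ : ℝ → P2 → R3 → ℝ≥0∞} {x : P2} {v : R3} {s : ℝ}
    (hs : 0 ≤ s) (h : coldL P Λ s (x + s • bar v) v ≠ 0) : s ∈ Live P x v := by
  by_contra hcon
  apply h
  unfold coldL
  simp only [ENNReal.tsum_eq_zero]
  intro k j
  by_contra h1
  exact hcon (live_of_sheet hC hs h1)

theorem live_of_phiE (hC : ColdPar Cold.C0 P) (hok : P.Ok) {x : P2} {v : R3}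
    (h : phiE P 0 x v ≠ 0) : (0 : ℝ) ∈ Live P x v := by
  by_contra hcon
  apply h
  rw [ColdC.phiE_eq hok]
  simp only [ENNReal.tsum_eq_zero]
  intro k j
  by_contra h1
  refine hcon ⟨le_rfl, k, j, ?_⟩
  rw [zero_smul, add_zero]
  exact Cold.Sup.of_phij hC le_rfl h1

theorem live_of_gain (hC : ColdPar Cold.C0 P) {lam : ℝ → P2 → R3 → ℝ≥0∞} {x : P2} {v : R3} {s : ℝ}
    (hs : 0 ≤ s) (h : coldGain P lam s (x + s • bar v) v ≠ 0) : s ∈ Live P x v := by
  by_contra hcon
  apply h
  unfold coldGain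
  simp only [ENNReal.tsum_eq_zero]
  intro i
  by_cases hg : s ≤ tauj P.p i.2 ∧ Zj P i.2 1 s (x + s • bar v + latt i.1) v
  · rw [if_pos hg]
    by_contra h1
    obtain ⟨u, hu⟩ := Cold.exists_ne_of_Qp_ne h1
    unfold coldjk at hu
    exact hcon ⟨hs, i.1, i.2, ColdL.sup_of_gate hs hg.1 hg.2 ((Cold.coldj_sup hC hs hu).pos hC)⟩
  · rw [if_neg hg]

theorem coldS_per (P : Par) (t : ℝ) (x : P2) (k : ℤ × ℤ) (v : R3) :
    coldS P t (x + latt k) v = coldS P t x v := by
  unfold coldS phiE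
  have h1 : warm P t (x + latt k) v = warm P t x v := ColdM.perG_warm P t v x k
  have h2 : phi P t (x + latt k) v = phi P t x v := Fuel.perG_phi P t v x k
  rw [h1, h2]

theorem coldS_ne_of_live (hC : ColdPar Cold.C0 P) (hK : 0 < P.K) {x : P2} {v : R3} {s : ℝ}
    (hs : s ∈ Live P x v) : coldS P s (x + s • bar v) v ≠ 0 := by
  obtain ⟨_, k, j, h⟩ := hs
  have h1 := ColdC.coldS_ne_of_Ztj hK (h.tight hC)
  rwa [coldS_per] at h1

/-- the rate of the cold component is integrable over the live part of a flight -/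
theorem live_fin (hC : ColdPar Cold.C0 P) (hB : ColdW.Big P) (hK : 0 < P.K)
    {lam : ℝ → P2 → R3 → ℝ≥0∞} (hlam : Meas3 lam) {t : ℝ} (x : P2) (v : R3)
    (hfin : (∫⁻ s in Ioo 0 t, lam s (x + s • bar v) v) ≠ ⊤) :
    nn ((Live P x v).indicator fun s => rateC P lam s (x + s • bar v) v) 0 t ≠ ⊤ := by
  unfold nn
  refine ne_top_of_le_ne_top (b := (∫⁻ _ in Ioo 0 t, ENNReal.ofReal (ColdW.LcB P t)) +
    ∫⁻ s in Ioo 0 t, lam s (x + s • bar v) v) ?_ ?_
  · refine ENNReal.add_ne_top.2 ⟨?_, hfin⟩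
    rw [lintegral_const, Measure.restrict_apply_univ, Real.volume_Ioo]
    exact ENNReal.mul_ne_top ENNReal.ofReal_ne_top ENNReal.ofReal_ne_top
  · rw [← lintegral_add_left measurable_const]
    refine setLIntegral_mono' measurableSet_Ioo fun s hs => ?_
    by_cases hl : s ∈ Live P x v
    · rw [indicator_of_mem hl]
      unfold rateC
      refine add_le_add ?_ le_rfl
      calc Lc (coldR P lam s (x + s • bar v)) v ≤ Lc (coldS P s (x + s • bar v)) v :=
            A.Lc_mono (fun z => Cold.coldR_le_coldS hC hB.ok lam hs.1.le _ z) v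
        _ ≤ ENNReal.ofReal (ColdW.LcB P s) := ColdW.Lc_coldS_all hB hs.1.le
            (coldS_ne_of_live hC hK hl)
        _ ≤ _ := ENNReal.ofReal_le_ofReal (ColdW.LcB_mono hB hs.1.le hs.2.le)
    · rw [indicator_of_notMem hl]
      exact zero_le

/-- **(C7)** along every flight on which the external rate is integrable -/
theorem coldR_mild (hC : ColdPar Cold.C0 P) (hB : ColdW.Big P) (hK : 0 < P.K)
    {lam : ℝ → P2 → R3 → ℝ≥0∞} (hlam : Meas3 lam) (hper : ∀ t v, PerG (fun x => lam t x v))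
    {t : ℝ} (ht : 0 ≤ t) (x : P2) (v : R3)
    (hfin : (∫⁻ s in Ioo 0 t, lam s (x + s • bar v) v) ≠ ⊤) :
    coldR P lam t (x + t • bar v) v +
      (∫⁻ s in Ioo 0 t, rateC P lam s (x + s • bar v) v * coldR P lam s (x + s • bar v) v) +
      (∫⁻ s in Ioo 0 t, coldSpill P lam s (x + s • bar v) v) =
    phiE P 0 x v +
      ∫⁻ s in Ioo 0 t, Qp (coldR P lam s (x + s • bar v)) (coldR P lam s (x + s • bar v)) v := by
  have hR := ColdM.meas3_rateC P hlam
  have hG := ColdM.meas3_coldGain P hlam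
  have hy : ∀ s, 0 ≤ s → coldR P lam s (x + s • bar v) v =
      phiE P 0 x v * en (nn (fun r => rateC P lam r (x + r • bar v) v) 0 s) +
      ∫⁻ r in Ioo 0 s, en (nn (fun r => rateC P lam r (x + r • bar v) v) r s) *
        coldGain P lam r (x + r • bar v) v := by
    intro s hs
    rw [ColdC.coldR_duh hC hB hK hlam hper hs, phiE_flight, damp_flight, DuhD_flight]
  have h1 := expo_cut (ν := fun r => rateC P lam r (x + r • bar v) v)
    (g := fun r => coldGain P lam r (x + r • bar v) v) (measurable_flight hR x v)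
    (measurable_flight hG x v) (measurableSet_live (P := P) x v)
    (fun s hs r hr => live_up hs hr) ht (live_fin hC hB hK hlam x v hfin) (phiE P 0 x v)
    (fun h => live_of_phiE hC hB.ok h) (fun s hs h => live_of_gain hC hs h)
    (y := fun s => coldR P lam s (x + s • bar v) v) hy
    (fun s hs h => live_of_coldL hC hs (Λ := rateC P lam)
      (by rwa [← ColdC.coldR_eq_coldL hC hB hK hlam hs]))
  have h2 : ∫⁻ s in Ioo 0 t, Qp (coldR P lam s (x + s • bar v))
      (coldR P lam s (x + s • bar v)) v =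
      (∫⁻ s in Ioo 0 t, coldGain P lam s (x + s • bar v) v) +
        ∫⁻ s in Ioo 0 t, coldSpill P lam s (x + s • bar v) v := by
    rw [← lintegral_add_left (measurable_flight hG x v)]
    refine setLIntegral_congr_fun measurableSet_Ioo fun s hs => ?_
    exact ColdC.Qp_coldR hC hB hK hlam hs.1.le _ v
  rw [h2, ← add_assoc, ← h1]
  congr 2
  refine lintegral_congr fun s => ?_
  exact mul_comm _ _

end Crest.Agent.R68.ColdMild

namespace Crest.Agent.R68.WP

open Crest.Agent.R68.A (en Meas3)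
open Crest.Agent.R68.N

theorem ColdMildOut_holds (Y : ℝ) (hY : 1 ≤ Y) : ColdMildOut Y := by
  intro K ey hK hey hey1
  filter_upwards [eventually_ge_atTop 512] with p hp
  filter_upwards [ev_ColdPar K Y ey p Cold.C0 hK hY hp,
    ev_Ok K Y ey p (by linarith) (by linarith) hey (by omega),
    tendsto_natCast_atTop_atTop.eventually_ge_atTop K] with j0 hC hOk hKj
  have hB : ColdW.Big (par K Y ey p j0) := ⟨hOk, hp, hY, hKj⟩
  have hKp : 0 < (par K Y ey p j0).K := lt_of_lt_of_le one_pos hC.K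
  intro lam hm hper t x v ht hfin
  exact ColdMild.coldR_mild hC hB hKp hm hper ht x v hfin

end Crest.Agent.R68.WP
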