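import Crest.Agent.R68.ColdVS

/-!
# Row 68, part W (helper779 for helper827): real analysis of the explicit function `vsR`

`vs_lint_le` (E1), `vs_mass_le` (E2), `measurable_vsR` (E3).
-/

set_option autoImplicit false
open MeasureTheory Set Filter
open scoped Topology ENNReal

noncomputable section

namespace Crest.Agent.R68.ColdW

open Crest.Agent.R68

namespace VS2

/-- `(1+t)^n e^{-t/8}` is bounded -/
lemma vs2_pow_exp (n : ℕ) {t : ℝ} (ht : 0 ≤ t) :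
    (1 + t) ^ n * Real.exp (-(t / 8)) ≤ 8 ^ n * n.factorial * Real.exp (1 / 8) := by
  have h := Real.pow_div_factorial_le_exp ((1 + t) / 8) (by positivity) n
  have hf : (0 : ℝ) < n.factorial := by exact_mod_cast n.factorial_pos
  rw [div_le_iff₀ hf, div_pow, div_le_iff₀ (by positivity)] at h
  calc (1 + t) ^ n * Real.exp (-(t / 8))
      ≤ (Real.exp ((1 + t) / 8) * n.factorial * 8 ^ n) * Real.exp (-(t / 8)) := by gcongr
    _ = 8 ^ n * n.factorial * (Real.exp ((1 + t) / 8) * Real.exp (-(t / 8))) := by ring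
    _ = _ := by rw [← Real.exp_add]; congr 2; ring

/-- good indices -/
structure VGood (j0 : ℕ) : Prop where
  j1 : 1 ≤ j0
  d1 : dlj j0 ≤ 1
  l1 : 1 ≤ ellj j0

lemma VGood.d0 {j0 : ℕ} (h : VGood j0) : 0 < dlj j0 := dlj_pos h.j1
lemma VGood.T0 {j0 : ℕ} (h : VGood j0) : 0 < T1j j0 := T1j_pos h.j1
lemma VGood.T1 {j0 : ℕ} (h : VGood j0) : T1j j0 ≤ 1 :=
  Real.rpow_le_one h.d0.le h.d1 (by norm_num)

lemma ev_VGood : ∀ᶠ j0 : ℕ in atTop, VGood j0 := by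
  filter_upwards [eventually_ge_atTop 1, ev_dl_le one_pos, ev_ell_ge 1] with j0 h1 h2 h3
  exact ⟨h1, h2, h3⟩

/-- the small quantity -/
def vsE (K : ℝ) (j0 : ℕ) : ℝ := K * (dlj j0 ^ (1 / 4 : ℝ) * ellj j0 ^ 3) + dlj j0 ^ 2

lemma vsE_nonneg {K : ℝ} (hK : 0 ≤ K) {j0 : ℕ} (h : VGood j0) : 0 ≤ vsE K j0 := by
  have h1 := h.d0
  have h2 : 0 < ellj j0 := by linarith [h.l1]
  unfold vsE; positivity

lemma tendsto_vsE (K : ℝ) : Tendsto (vsE K) atTop (𝓝 0) := by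
  have h1 := (tendsto_rpow_mul_ell (s := 1 / 4) (by norm_num) 3).const_mul K
  have h2 := tendsto_dlj.pow 2
  have h3 := h1.add h2
  simp only [mul_zero, ne_eq, OfNat.ofNat_ne_zero, not_false_eq_true, zero_pow, add_zero] at h3
  exact h3

lemma ev_vsE_le (K : ℝ) (M : ℝ) {ε : ℝ} (hε : 0 < ε) :
    ∀ᶠ j0 : ℕ in atTop, M * vsE K j0 ≤ ε := by
  have h1 : Tendsto (fun j0 => M * vsE K j0) atTop (𝓝 0) := by
    simpa using (tendsto_vsE K).const_mul M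
  exact h1.eventually (ge_mem_nhds hε)

lemma vs2_F {K Y ey : ℝ} {p j0 : ℕ} (hK : 0 ≤ K) (h : VGood j0) {t : ℝ} (ht : T1j j0 ≤ t) :
    K / (t * (1 + (par K Y ey p j0).kap * t)) ≤ K * (dlj j0 ^ (1 / 4 : ℝ) * ellj j0 ^ 3) := by
  have hd := h.d0
  have hl : 0 < ellj j0 := by linarith [h.l1]
  have hT := h.T0
  have ht0 : 0 < t := hT.trans_le ht
  have hk : (par K Y ey p j0).kap = (ellj j0)⁻¹ ^ 3 / dlj j0 := rfl
  rw [hk]
  set κ := (ellj j0)⁻¹ ^ 3 / dlj j0 with hκ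
  have hκ0 : 0 < κ := by positivity
  have h1 : κ * T1j j0 ^ 2 ≤ t * (1 + κ * t) := by
    have : T1j j0 ^ 2 ≤ t ^ 2 := by gcongr
    nlinarith
  have h2 : (dlj j0 ^ (1 / 4 : ℝ) * ellj j0 ^ 3) * (κ * T1j j0 ^ 2) = 1 := by
    have e1 : T1j j0 ^ 2 = dlj j0 ^ (3 / 4 : ℝ) := by
      unfold T1j
      rw [← Real.rpow_natCast, ← Real.rpow_mul hd.le]; norm_num
    have e2 : dlj j0 ^ (1 / 4 : ℝ) * dlj j0 ^ (3 / 4 : ℝ) = dlj j0 := by
      rw [← Real.rpow_add hd]; norm_num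
    rw [e1, hκ]
    calc (dlj j0 ^ (1 / 4 : ℝ) * ellj j0 ^ 3) * ((ellj j0)⁻¹ ^ 3 / dlj j0 * dlj j0 ^ (3 / 4 : ℝ))
        = (dlj j0 ^ (1 / 4 : ℝ) * dlj j0 ^ (3 / 4 : ℝ)) / dlj j0 * (ellj j0 * (ellj j0)⁻¹) ^ 3 := by
          ring
      _ = 1 := by rw [e2, div_self hd.ne', mul_inv_cancel₀ hl.ne']; norm_num
  have h3 : 0 < dlj j0 ^ (1 / 4 : ℝ) * ellj j0 ^ 3 := by positivity
  rw [div_le_iff₀ (by positivity)]
  calc K = K * ((dlj j0 ^ (1 / 4 : ℝ) * ellj j0 ^ 3) * (κ * T1j j0 ^ 2)) := by rw [h2, mul_one]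
    _ ≤ K * ((dlj j0 ^ (1 / 4 : ℝ) * ellj j0 ^ 3) * (t * (1 + κ * t))) := by gcongr
    _ = _ := by ring

/-- the polynomial constant -/
def vsC (Y : ℝ) : ℝ := 10 * (Y + 1)

lemma vs2_p1 {Y t : ℝ} (hY : 0 ≤ Y) (ht : 0 ≤ t) :
    (4 + 3 * (Y + 2) * t) ^ 2 ≤ vsC Y ^ 2 * (1 + t) ^ 2 := by
  rw [← mul_pow]
  have h1 : 4 + 3 * (Y + 2) * t ≤ vsC Y * (1 + t) := by
    unfold vsC; nlinarith [mul_nonneg hY ht]
  gcongr

lemma vs2_p2 {Y t d : ℝ} (hY : 0 ≤ Y) (ht : 0 ≤ t) (hd : 0 ≤ d) (hd1 : d ≤ 1) :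
    (3 * ((2 * Y + 1) * (t + d)) + 1) ^ 2 ≤ vsC Y ^ 2 * (1 + t) ^ 2 := by
  rw [← mul_pow]
  have h1 : 3 * ((2 * Y + 1) * (t + d)) + 1 ≤ vsC Y * (1 + t) := by
    have h2 : (2 * Y + 1) * d ≤ 2 * Y + 1 := by nlinarith
    unfold vsC; nlinarith [mul_nonneg hY ht]
  gcongr

lemma vs2_massB {K Y ey : ℝ} {p j0 : ℕ} (hK : 0 ≤ K) (hY : 0 ≤ Y) (h : VGood j0) {t : ℝ}
    (ht : T1j j0 ≤ t) :
    massB (par K Y ey p j0) t ≤ vsC Y ^ 2 * (1 + t) ^ 3 * vsE K j0 := by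
  have hd := h.d0
  have ht0 : 0 < t := h.T0.trans_le ht
  have hF := vs2_F (Y := Y) (ey := ey) (p := p) hK h ht
  have h1 := vs2_p1 hY ht0.le
  have h2 := vs2_p2 hY ht0.le hd.le h.d1
  have hd100 : dlj j0 ^ 100 ≤ dlj j0 ^ 2 := pow_le_pow_of_le_one hd.le h.d1 (by norm_num)
  have hk0 : 0 < (par K Y ey p j0).kap := by
    have hl : 0 < ellj j0 := by linarith [h.l1]
    have hk : (par K Y ey p j0).kap = (ellj j0)⁻¹ ^ 3 / dlj j0 := rfl
    rw [hk]; positivity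
  have hF0 : 0 ≤ K / (t * (1 + (par K Y ey p j0).kap * t)) := by positivity
  unfold massB
  rw [par_Y, par_K, par_dl]
  calc (4 + 3 * (Y + 2) * t) ^ 2 * (K / (t * (1 + (par K Y ey p j0).kap * t))) +
        (3 * ((2 * Y + 1) * (t + dlj j0)) + 1) ^ 2 * dlj j0 ^ 100
      ≤ (vsC Y ^ 2 * (1 + t) ^ 2) * (K * (dlj j0 ^ (1 / 4 : ℝ) * ellj j0 ^ 3)) +
        (vsC Y ^ 2 * (1 + t) ^ 2) * dlj j0 ^ 2 := by
        gcongr
    _ = vsC Y ^ 2 * (1 + t) ^ 2 * vsE K j0 := by unfold vsE; ring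
    _ ≤ vsC Y ^ 2 * (1 + t) ^ 3 * vsE K j0 := by
        have := vsE_nonneg hK h
        have h4 : (1 + t) ^ 2 ≤ (1 + t) ^ 3 := pow_le_pow_right₀ (by linarith) (by norm_num)
        gcongr

lemma vs2_NB {K Y ey : ℝ} {p j0 : ℕ} (hK : 0 ≤ K) (hY : 0 ≤ Y) (h : VGood j0) {t : ℝ}
    (ht : T1j j0 ≤ t) :
    NB (par K Y ey p j0) t ≤ 144 * (vsC Y ^ 2 * (1 + t) ^ 3 * vsE K j0) := by
  have hd := h.d0
  have ht0 : 0 < t := h.T0.trans_le ht
  have hF := vs2_F (Y := Y) (ey := ey) (p := p) hK h ht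
  have h1 := vs2_p1 hY ht0.le
  have h2 := vs2_p2 hY ht0.le hd.le h.d1
  have hk0 : 0 < (par K Y ey p j0).kap := by
    have hl : 0 < ellj j0 := by linarith [h.l1]
    have hk : (par K Y ey p j0).kap = (ellj j0)⁻¹ ^ 3 / dlj j0 := rfl
    rw [hk]; positivity
  have hF0 : 0 ≤ K / (t * (1 + (par K Y ey p j0).kap * t)) := by positivity
  have h5 : vsC Y ^ 2 * (1 + t) ^ 2 * dlj j0 ^ 2 ≤ 144 * (vsC Y ^ 2 * (1 + t) ^ 3 * dlj j0 ^ 2) := by
    have h4 : (1 + t) ^ 2 ≤ 144 * (1 + t) ^ 3 := by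
      have : (1 + t) ^ 2 ≤ (1 + t) ^ 3 := pow_le_pow_right₀ (by linarith) (by norm_num)
      have h5 : 0 ≤ (1 + t) ^ 3 := by positivity
      linarith
    calc vsC Y ^ 2 * (1 + t) ^ 2 * dlj j0 ^ 2 ≤ vsC Y ^ 2 * (144 * (1 + t) ^ 3) * dlj j0 ^ 2 := by
          gcongr
      _ = _ := by ring
  unfold NB
  rw [par_Y, par_K, par_dl]
  calc 144 * (1 + t) * ((4 + 3 * (Y + 2) * t) ^ 2 * (K / (t * (1 + (par K Y ey p j0).kap * t)))) +
        (3 * ((2 * Y + 1) * (t + dlj j0)) + 1) ^ 2 * dlj j0 ^ 2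
      ≤ 144 * (1 + t) * ((vsC Y ^ 2 * (1 + t) ^ 2) * (K * (dlj j0 ^ (1 / 4 : ℝ) * ellj j0 ^ 3))) +
        (vsC Y ^ 2 * (1 + t) ^ 2) * dlj j0 ^ 2 := by
        gcongr
    _ ≤ 144 * (1 + t) * ((vsC Y ^ 2 * (1 + t) ^ 2) * (K * (dlj j0 ^ (1 / 4 : ℝ) * ellj j0 ^ 3))) +
        144 * (vsC Y ^ 2 * (1 + t) ^ 3 * dlj j0 ^ 2) := by gcongr
    _ = _ := by unfold vsE; ring

lemma vs2_cardB {K Y ey : ℝ} {p j0 : ℕ} (hY : 0 ≤ Y) (h : VGood j0) {t : ℝ}
    (ht : 0 ≤ t) : cardB (par K Y ey p j0) t ≤ vsC Y ^ 2 * (1 + t) ^ 2 := by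
  unfold cardB
  rw [par_Y, par_dl]
  exact vs2_p2 hY ht h.d0.le h.d1

lemma cardB_nonneg (P : Par) (t : ℝ) : 0 ≤ cardB P t := by unfold cardB; positivity

lemma MS_nonneg (P : Par) (t : ℝ) : 0 ≤ MS P t := by
  unfold MS; split_ifs <;> positivity

/-- the exponential factors -/
lemma al_mul_exp_le {T1 ell t : ℝ} (hT1 : T1 ≤ 1) :
    al T1 ell t * Real.exp (1 / 8 * (t - T1)) ≤ Real.exp ((ell + 1) / 2 + 3 / 8) *
      Real.exp (-(3 / 8 * t)) := by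
  unfold al
  rw [← Real.exp_add, ← Real.exp_add]
  apply Real.exp_le_exp.2
  have := le_max_right 0 (t - (T1 + ell + 1))
  linarith

lemma al_nonneg (T1 ell t : ℝ) : 0 ≤ al T1 ell t := (Real.exp_pos _).le

lemma al_le {T1 ell t : ℝ} (hT1 : T1 ≤ 1) :
    al T1 ell t ≤ Real.exp ((ell + 1) / 2 + 1 / 2) * Real.exp (-(1 / 2 * t)) := by
  unfold al
  rw [← Real.exp_add]
  apply Real.exp_le_exp.2
  have := le_max_right 0 (t - (T1 + ell + 1))
  linarith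

/-- no crossing until `t = L ℓ` -/
lemma ev_MS_zero (K Y ey : ℝ) (p : ℕ) (hY : 0 ≤ Y) (L : ℝ) (hL : 0 ≤ L) :
    ∀ᶠ j0 : ℕ in atTop, ∀ t, 0 ≤ t → t ≤ L * ellj j0 → MS (par K Y ey p j0) t = 0 := by
  have h1 : Tendsto (fun j0 : ℕ => 16 * (2 * Y + 1) * ((1 + L) * (dlj j0 * ellj j0 +
      L * (ellj j0)⁻¹))) atTop (𝓝 0) := by
    have e1 := tendsto_rpow_mul_ell (s := 1) one_pos 1
    have e2 : Tendsto (fun j0 : ℕ => L * (ellj j0)⁻¹) atTop (𝓝 0) := by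
      simpa using (tendsto_inv_atTop_zero.comp tendsto_ellj).const_mul L
    have e3 := ((e1.add e2).const_mul (1 + L)).const_mul (16 * (2 * Y + 1))
    simpa using e3
  filter_upwards [h1.eventually (gt_mem_nhds one_pos), ev_VGood] with j0 h2 h3 t ht htL
  have hd := h3.d0
  have hd1 := h3.d1
  have hl1 := h3.l1
  have hl : 0 < ellj j0 := by linarith
  have hc0 : 0 < (ellj j0)⁻¹ ^ 3 := by positivity
  unfold MS
  rw [if_pos]
  unfold W.sep
  rw [par_Y, par_dl, par_c]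
  have hden : 0 < 16 * (2 * Y + 1) * (1 + t) * (dlj j0 + (ellj j0)⁻¹ ^ 3 * t) := by positivity
  rw [lt_div_iff₀ hden]
  have h4 : 16 * (2 * Y + 1) * (1 + t) * (dlj j0 + (ellj j0)⁻¹ ^ 3 * t) < 1 := by
    refine lt_of_le_of_lt ?_ h2
    have e1 : 1 + t ≤ (1 + L) * ellj j0 := by nlinarith
    have e2 : dlj j0 + (ellj j0)⁻¹ ^ 3 * t ≤ dlj j0 + (ellj j0)⁻¹ ^ 3 * (L * ellj j0) := by gcongr
    calc 16 * (2 * Y + 1) * (1 + t) * (dlj j0 + (ellj j0)⁻¹ ^ 3 * t)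
        ≤ 16 * (2 * Y + 1) * ((1 + L) * ellj j0) *
          (dlj j0 + (ellj j0)⁻¹ ^ 3 * (L * ellj j0)) := by gcongr
      _ = 16 * (2 * Y + 1) * ((1 + L) * (dlj j0 * ellj j0 +
            L * (ellj j0)⁻¹ * (ellj j0 * (ellj j0)⁻¹) ^ 2)) := by ring
      _ = _ := by rw [mul_inv_cancel₀ hl.ne']; ring
  calc dlj j0 * (16 * (2 * Y + 1) * (1 + t) * (dlj j0 + (ellj j0)⁻¹ ^ 3 * t))
      < dlj j0 * 1 := by gcongr
    _ = dlj j0 := mul_one _

/-- crude bound of `MS` -/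
lemma MS_le {K Y ey : ℝ} {p j0 : ℕ} (hY : 0 ≤ Y) (h : VGood j0) {t : ℝ} (ht : 0 ≤ t) :
    MS (par K Y ey p j0) t ≤ (512 * (2 * Y + 1) ^ 2) ^ (3 * p + 2) *
      (1 + t) ^ (4 * (3 * p + 2)) * Real.exp (2 * (3 * p + 2) * ellj j0) := by
  have hd := h.d0
  have hd1 := h.d1
  have hl1 := h.l1
  have hl : 0 < ellj j0 := by linarith
  have hc0 : 0 < (ellj j0)⁻¹ ^ 3 := by positivity
  have hc1 : (ellj j0)⁻¹ ^ 3 ≤ 1 := pow_le_one₀ (by positivity) (inv_le_one_of_one_le₀ hl1)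
  unfold MS
  split_ifs with hif
  · positivity
  unfold W.sep
  rw [par_Y, par_dl, par_c, par_p]
  have hden : 0 < 16 * (2 * Y + 1) * (1 + t) * (dlj j0 + (ellj j0)⁻¹ ^ 3 * t) := by positivity
  have h1 : 16 * (2 * Y + 1) * (1 + t) * (dlj j0 + (ellj j0)⁻¹ ^ 3 * t) ≤
      16 * (2 * Y + 1) * (1 + t) ^ 2 := by
    have : dlj j0 + (ellj j0)⁻¹ ^ 3 * t ≤ 1 + t := by nlinarith
    calc 16 * (2 * Y + 1) * (1 + t) * (dlj j0 + (ellj j0)⁻¹ ^ 3 * t)
        ≤ 16 * (2 * Y + 1) * (1 + t) * (1 + t) := by gcongr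
      _ = _ := by ring
  have h2 : 2 / (dlj j0 / (16 * (2 * Y + 1) * (1 + t) * (dlj j0 + (ellj j0)⁻¹ ^ 3 * t))) ^ 2 ≤
      512 * (2 * Y + 1) ^ 2 * (1 + t) ^ 4 * Real.exp (2 * ellj j0) := by
    have e1 : Real.exp (2 * ellj j0) = (dlj j0 ^ 2)⁻¹ := by
      rw [dlj_eq_exp h.j1, ← Real.exp_nat_mul, ← Real.exp_neg]; congr 1; push_cast; ring
    rw [div_pow, div_div_eq_mul_div, e1, div_eq_mul_inv]
    have e2 : 2 * (16 * (2 * Y + 1) * (1 + t) * (dlj j0 + (ellj j0)⁻¹ ^ 3 * t)) ^ 2 ≤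
        512 * (2 * Y + 1) ^ 2 * (1 + t) ^ 4 := by
      calc 2 * (16 * (2 * Y + 1) * (1 + t) * (dlj j0 + (ellj j0)⁻¹ ^ 3 * t)) ^ 2
          ≤ 2 * (16 * (2 * Y + 1) * (1 + t) ^ 2) ^ 2 := by gcongr
        _ = _ := by ring
    gcongr
  calc (2 / (dlj j0 / (16 * (2 * Y + 1) * (1 + t) * (dlj j0 + (ellj j0)⁻¹ ^ 3 * t))) ^ 2) ^
        (3 * p + 2)
      ≤ (512 * (2 * Y + 1) ^ 2 * (1 + t) ^ 4 * Real.exp (2 * ellj j0)) ^ (3 * p + 2) := by
        gcongr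
    _ = _ := by
        rw [mul_pow, mul_pow, ← pow_mul, ← Real.exp_nat_mul]
        congr 2
        push_cast; ring

lemma VS_nonneg {K Y ey : ℝ} {p j0 : ℕ} (hK : 0 ≤ K) (hY : 0 ≤ Y) {C : ℝ} (hC : 0 ≤ C)
    (h : VGood j0) {t : ℝ} (ht : 0 ≤ t) : 0 ≤ VS (par K Y ey p j0) C t := by
  have hd := h.d0
  have hl : 0 < ellj j0 := by linarith [h.l1]
  have hk0 : 0 < (par K Y ey p j0).kap := by
    have hk : (par K Y ey p j0).kap = (ellj j0)⁻¹ ^ 3 / dlj j0 := rfl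
    rw [hk]; positivity
  have h1 : 0 ≤ massB (par K Y ey p j0) t := by
    unfold massB
    rw [par_Y, par_K, par_dl]; positivity
  have h2 : 0 ≤ NB (par K Y ey p j0) t := by
    unfold NB
    rw [par_Y, par_K, par_dl]; positivity
  have h3 := MS_nonneg (par K Y ey p j0) t
  have h4 := cardB_nonneg (par K Y ey p j0) t
  unfold VS
  positivity

/-- main bound: `vsR ≤ M vsE e^{-t/8}` -/
theorem ev_vsR_le (K Y ey C ell : ℝ) (p : ℕ) (hK : 0 ≤ K) (hY : 0 ≤ Y) (hC : 0 ≤ C) :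
    ∃ M : ℝ, 0 ≤ M ∧ ∀ᶠ j0 : ℕ in atTop, ∀ t, T1j j0 ≤ t →
      vsR (par K Y ey p j0) C (T1j j0) ell t ≤ M * vsE K j0 * Real.exp (-(t / 8)) := by
  set m := 3 * p + 2 with hm
  set E := vsC Y with hE
  have hE1 : 1 ≤ E := by rw [hE]; unfold vsC; linarith
  set M0 := Real.exp ((ell + 1) / 2 + 3 / 8) with hM0
  set A7 : ℝ := 8 ^ 7 * (7 : ℕ).factorial * Real.exp (1 / 8) with hA7
  set B7 : ℝ := 8 ^ (4 * m + 7) * (4 * m + 7).factorial * Real.exp (1 / 8) with hB7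
  set D : ℝ := (512 * (2 * Y + 1) ^ 2) ^ m with hD
  have hM00 : 0 ≤ M0 := (Real.exp_pos _).le
  refine ⟨M0 * (C * (146 * E ^ 6)) * (A7 + D * B7), by positivity, ?_⟩
  filter_upwards [ev_MS_zero K Y ey p hY (16 * m) (by positivity), ev_VGood,
    ev_vsE_le K 1 one_pos] with j0 h1 h h6 t ht
  rw [one_mul] at h6
  have hd := h.d0
  have hd1 := h.d1
  have hT0 := h.T0
  have hT1 := h.T1
  have ht0 : 0 < t := hT0.trans_le ht
  have hη := vsE_nonneg hK h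
  have hl : 0 < ellj j0 := by linarith [h.l1]
  -- bound of VS
  have hMS := MS_nonneg (par K Y ey p j0) t
  have hmass := vs2_massB (ey := ey) (p := p) hK hY h ht
  have hNB := vs2_NB (ey := ey) (p := p) hK hY h ht
  have hcard := vs2_cardB (K := K) (ey := ey) (p := p) hY h ht0.le
  have hcard0 := cardB_nonneg (par K Y ey p j0) t
  have hd2 : dlj j0 ^ 2 ≤ vsE K j0 := by
    unfold vsE
    have : 0 ≤ K * (dlj j0 ^ (1 / 4 : ℝ) * ellj j0 ^ 3) := by positivity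
    linarith
  have h1t : 1 ≤ 1 + t := by linarith
  have hVS : VS (par K Y ey p j0) C t ≤
      C * (146 * E ^ 6 * ((1 + t) ^ 7 * (1 + MS (par K Y ey p j0) t)) * vsE K j0) := by
    unfold VS
    rw [par_dl]
    apply mul_le_mul_of_nonneg_left _ hC
    calc (massB (par K Y ey p j0) t + NB (par K Y ey p j0) t) *
          (1 + cardB (par K Y ey p j0) t ^ 2 * MS (par K Y ey p j0) t) +
          cardB (par K Y ey p j0) t * dlj j0 ^ 2
        ≤ (E ^ 2 * (1 + t) ^ 3 * vsE K j0 + 144 * (E ^ 2 * (1 + t) ^ 3 * vsE K j0)) *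
          (1 + (E ^ 2 * (1 + t) ^ 2) ^ 2 * MS (par K Y ey p j0) t) +
          (E ^ 2 * (1 + t) ^ 2) * vsE K j0 := by gcongr
      _ = (145 * E ^ 2 * (1 + t) ^ 3 + E ^ 2 * (1 + t) ^ 2) * vsE K j0 +
          145 * E ^ 6 * (1 + t) ^ 7 * MS (par K Y ey p j0) t * vsE K j0 := by ring
      _ ≤ (145 * E ^ 6 * (1 + t) ^ 7 + E ^ 6 * (1 + t) ^ 7) * vsE K j0 +
          146 * E ^ 6 * (1 + t) ^ 7 * MS (par K Y ey p j0) t * vsE K j0 := by
          have e1 : E ^ 2 ≤ E ^ 6 := pow_le_pow_right₀ hE1 (by norm_num)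
          have e2 : (1 + t) ^ 3 ≤ (1 + t) ^ 7 := pow_le_pow_right₀ h1t (by norm_num)
          have e3 : (1 + t) ^ 2 ≤ (1 + t) ^ 7 := pow_le_pow_right₀ h1t (by norm_num)
          gcongr
          norm_num
      _ = _ := by ring
  -- the crossing part
  have hX : Real.exp (-(3 / 8 * t)) * ((1 + t) ^ 7 * (1 + MS (par K Y ey p j0) t)) ≤
      (A7 + D * B7) * Real.exp (-(t / 8)) := by
    have e0 : Real.exp (-(3 / 8 * t)) = Real.exp (-(t / 8)) * Real.exp (-(t / 8)) *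
        Real.exp (-(t / 8)) := by
      rw [← Real.exp_add, ← Real.exp_add]; congr 1; ring
    have e8 : Real.exp (-(t / 8)) ≤ 1 := Real.exp_le_one_iff.2 (by linarith)
    have e80 := Real.exp_pos (-(t / 8))
    have p1 : Real.exp (-(3 / 8 * t)) * (1 + t) ^ 7 ≤ A7 * Real.exp (-(t / 8)) := by
      have := vs2_pow_exp 7 ht0.le
      rw [e0]
      calc Real.exp (-(t / 8)) * Real.exp (-(t / 8)) * Real.exp (-(t / 8)) * (1 + t) ^ 7
          = ((1 + t) ^ 7 * Real.exp (-(t / 8))) * Real.exp (-(t / 8)) * Real.exp (-(t / 8)) := by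
            ring
        _ ≤ A7 * Real.exp (-(t / 8)) * 1 := by gcongr
        _ = _ := mul_one _
    have p2 : Real.exp (-(3 / 8 * t)) * (1 + t) ^ 7 * MS (par K Y ey p j0) t ≤
        D * B7 * Real.exp (-(t / 8)) := by
      by_cases hc : t ≤ 16 * m * ellj j0
      · rw [h1 t ht0.le hc, mul_zero]; positivity
      · push Not at hc
        have q1 := MS_le (K := K) (ey := ey) (p := p) hY h ht0.le
        rw [← hm, ← hD] at q1
        have q2 := vs2_pow_exp (4 * m + 7) ht0.le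
        have q3 : Real.exp (-(t / 8)) * Real.exp (2 * (3 * p + 2) * ellj j0) ≤ 1 := by
          rw [← Real.exp_add]
          apply Real.exp_le_one_iff.2
          have : (m : ℝ) = 3 * p + 2 := by rw [hm]; push_cast; ring
          rw [this] at hc
          linarith
        rw [e0]
        calc Real.exp (-(t / 8)) * Real.exp (-(t / 8)) * Real.exp (-(t / 8)) * (1 + t) ^ 7 *
              MS (par K Y ey p j0) t
            ≤ Real.exp (-(t / 8)) * Real.exp (-(t / 8)) * Real.exp (-(t / 8)) * (1 + t) ^ 7 *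
              (D * (1 + t) ^ (4 * m) * Real.exp (2 * (3 * p + 2) * ellj j0)) := by gcongr
          _ = D * ((1 + t) ^ (4 * m + 7) * Real.exp (-(t / 8))) *
              (Real.exp (-(t / 8)) * Real.exp (2 * (3 * p + 2) * ellj j0)) *
              Real.exp (-(t / 8)) := by rw [pow_add]; ring
          _ ≤ D * B7 * 1 * Real.exp (-(t / 8)) := by gcongr
          _ = _ := by ring
    calc Real.exp (-(3 / 8 * t)) * ((1 + t) ^ 7 * (1 + MS (par K Y ey p j0) t))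
        = Real.exp (-(3 / 8 * t)) * (1 + t) ^ 7 +
          Real.exp (-(3 / 8 * t)) * (1 + t) ^ 7 * MS (par K Y ey p j0) t := by ring
      _ ≤ A7 * Real.exp (-(t / 8)) + D * B7 * Real.exp (-(t / 8)) := add_le_add p1 p2
      _ = _ := by ring
  have hVS0 : 0 ≤ VS (par K Y ey p j0) C t := VS_nonneg hK hY hC h ht0.le
  unfold vsR
  calc al (T1j j0) ell t * Real.exp (1 / 8 * (t - T1j j0)) * VS (par K Y ey p j0) C t
      ≤ (M0 * Real.exp (-(3 / 8 * t))) *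
        (C * (146 * E ^ 6 * ((1 + t) ^ 7 * (1 + MS (par K Y ey p j0) t)) * vsE K j0)) := by
        have := al_mul_exp_le (ell := ell) (t := t) hT1
        gcongr
    _ = M0 * (C * (146 * E ^ 6)) * (Real.exp (-(3 / 8 * t)) *
          ((1 + t) ^ 7 * (1 + MS (par K Y ey p j0) t))) * vsE K j0 := by ring
    _ ≤ M0 * (C * (146 * E ^ 6)) * ((A7 + D * B7) * Real.exp (-(t / 8))) * vsE K j0 := by
        gcongr
    _ = _ := by ring

/-- (E1) -/
theorem vs_lint_le (K Y ey C ell S : ℝ) (p : ℕ) (hK : 0 ≤ K) (hY : 0 ≤ Y) (hC : 0 ≤ C)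
    (hS : 0 < S) : ∀ᶠ j0 : ℕ in atTop,
      (∫⁻ t in Ioi (T1j j0), ENNReal.ofReal (vsR (par K Y ey p j0) C (T1j j0) ell t)) ≤
        ENNReal.ofReal S := by
  obtain ⟨M, hM, h1⟩ := ev_vsR_le K Y ey C ell p hK hY hC
  filter_upwards [h1, ev_VGood, ev_vsE_le K (8 * M) hS] with j0 h2 h h3
  have hT0 := h.T0
  have hη := vsE_nonneg hK h
  calc (∫⁻ t in Ioi (T1j j0), ENNReal.ofReal (vsR (par K Y ey p j0) C (T1j j0) ell t))
      ≤ ∫⁻ t in Ioi (T1j j0), ENNReal.ofReal (M * vsE K j0 * Real.exp (-(t / 8))) := by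
        apply setLIntegral_mono (by fun_prop)
        intro t ht
        exact ENNReal.ofReal_le_ofReal (h2 t (le_of_lt ht))
    _ ≤ ∫⁻ t in Ioi (0 : ℝ), ENNReal.ofReal (M * vsE K j0 * Real.exp (-(t / 8))) :=
        lintegral_mono_set (Ioi_subset_Ioi hT0.le)
    _ = ENNReal.ofReal (∫ t in Ioi (0 : ℝ), M * vsE K j0 * Real.exp (-(t / 8))) := by
        rw [ofReal_integral_eq_lintegral_ofReal]
        · apply Integrable.const_mul
          have := integrableOn_exp_mul_Ioi (a := -(1 / 8)) (by norm_num) 0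
          refine this.congr ?_
          filter_upwards with t
          congr 1; ring
        · filter_upwards with t
          positivity
    _ = ENNReal.ofReal (8 * M * vsE K j0) := by
        congr 1
        rw [integral_const_mul]
        have e1 : ∫ t in Ioi (0 : ℝ), Real.exp (-(t / 8)) = 8 := by
          have := integral_exp_mul_Ioi (a := -(1 / 8)) (by norm_num) 0
          calc ∫ t in Ioi (0 : ℝ), Real.exp (-(t / 8)) = ∫ t in Ioi (0 : ℝ),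
                Real.exp (-(1 / 8) * t) := by congr 1; ext t; congr 1; ring
            _ = 8 := by rw [this]; norm_num
        rw [e1]; ring
    _ ≤ ENNReal.ofReal S := ENNReal.ofReal_le_ofReal h3

/-- (E2) -/
theorem vs_mass_le (K Y ey C ell S : ℝ) (p : ℕ) (hK : 0 ≤ K) (hY : 0 ≤ Y) (hC : 0 ≤ C)
    (hS : 0 < S) : ∀ᶠ j0 : ℕ in atTop, ∀ t, T1j j0 ≤ t →
      C * (al (T1j j0) ell t * massB (par K Y ey p j0) t) ≤ S := by
  set E := vsC Y with hE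
  set M0 := Real.exp ((ell + 1) / 2 + 1 / 2) with hM0
  set A3 : ℝ := 8 ^ 3 * (3 : ℕ).factorial * Real.exp (1 / 8) with hA3
  have hM00 : 0 ≤ M0 := (Real.exp_pos _).le
  filter_upwards [ev_VGood, ev_vsE_le K (C * (M0 * (E ^ 2 * A3))) hS]
    with j0 h h3 t ht
  have ht0 : 0 < t := h.T0.trans_le ht
  have hη := vsE_nonneg hK h
  have hmass := vs2_massB (ey := ey) (p := p) hK hY h ht
  have hal := al_le (ell := ell) (t := t) h.T1
  have hal0 := al_nonneg (T1j j0) ell t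
  have h4 := vs2_pow_exp 3 ht0.le
  have h5 : Real.exp (-(1 / 2 * t)) ≤ Real.exp (-(t / 8)) := Real.exp_le_exp.2 (by linarith)
  refine le_trans ?_ h3
  calc C * (al (T1j j0) ell t * massB (par K Y ey p j0) t)
      ≤ C * ((M0 * Real.exp (-(t / 8))) * (E ^ 2 * (1 + t) ^ 3 * vsE K j0)) := by
        apply mul_le_mul_of_nonneg_left _ hC
        calc al (T1j j0) ell t * massB (par K Y ey p j0) t
            ≤ al (T1j j0) ell t * (E ^ 2 * (1 + t) ^ 3 * vsE K j0) := by gcongr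
          _ ≤ _ := by
              have : al (T1j j0) ell t ≤ M0 * Real.exp (-(t / 8)) :=
                hal.trans (by gcongr)
              gcongr
    _ = C * (M0 * (E ^ 2 * ((1 + t) ^ 3 * Real.exp (-(t / 8))))) * vsE K j0 := by ring
    _ ≤ C * (M0 * (E ^ 2 * A3)) * vsE K j0 := by gcongr

end VS2

/-- (E3) -/
theorem measurable_vsR (P : Par) (C T1 ell : ℝ) :
    Measurable fun t => ENNReal.ofReal (vsR P C T1 ell t) := by
  apply ENNReal.measurable_ofReal.comp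
  have hsep : Measurable fun t => W.sep P t := by unfold W.sep; fun_prop
  have hMS : Measurable fun t => MS P t := by
    unfold MS
    apply Measurable.ite (measurableSet_lt measurable_const hsep) measurable_const
    exact ((measurable_const.div (hsep.pow_const 2)).pow_const _)
  have hmass : Measurable fun t => massB P t := by unfold massB; fun_prop
  have hNB : Measurable fun t => NB P t := by unfold NB; fun_prop
  have hcard : Measurable fun t => cardB P t := by unfold cardB; fun_prop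
  have hal : Measurable fun t => al T1 ell t := by unfold al; fun_prop
  unfold vsR VS
  fun_prop

/-- (E1), form of helper835 -/
theorem vsR_lint {K Y C ell S : ℝ} (ey : ℝ) (p : ℕ) (hK : 1 ≤ K) (hY : 1 ≤ Y) (hC : 0 ≤ C)
    (_hell : 0 < ell) (hS : 0 < S) : ∀ᶠ j0 : ℕ in atTop,
      ∫⁻ t in Ioi (T1j j0), ENNReal.ofReal (vsR (par K Y ey p j0) C (T1j j0) ell t) ≤
        ENNReal.ofReal S :=
  VS2.vs_lint_le K Y ey C ell S p (by linarith) (by linarith) hC hS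

/-- (E2), form of helper835 -/
theorem al_massB {K Y C ell S : ℝ} (ey : ℝ) (p : ℕ) (hK : 1 ≤ K) (hY : 1 ≤ Y) (hC : 0 ≤ C)
    (_hell : 0 < ell) (hS : 0 < S) : ∀ᶠ j0 : ℕ in atTop, ∀ t, T1j j0 ≤ t →
      C * (al (T1j j0) ell t * massB (par K Y ey p j0) t) ≤ S :=
  VS2.vs_mass_le K Y ey C ell S p (by linarith) (by linarith) hC hS

end Crest.Agent.R68.ColdW
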