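import Crest.Agent.R68.ColdOutA
import Crest.Agent.R68.ColdDec
import Crest.Agent.R68.ColdW6
import Crest.Agent.R68.ColdVS2

/-!
# Row 68, part W: `ColdOut` (assembly by helper153 of the work of 827, 559, 779, 906, 585)
-/

set_option autoImplicit false
open MeasureTheory Set Filter
open scoped ENNReal NNReal Topology
open Crest.AnalysisR.VecCalc3 Crest.AnalysisR.PDE.Boltzmann

noncomputable section

namespace Crest.Agent.R68.WP

open Crest.Agent.R68.A (Meas3)
open Crest.Agent.R68.N (Fld PerF)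
open Crest.Agent.R68.ColdW

theorem decOut : DecOut := fun _P hB hC _lam _ _ _T1 _ell _T h1 h2 _ hlam t x v ht htT =>
  ⟨coldR_al hB.ok hC (by linarith) hlam (by linarith) htT x v,
    fun i => coldjk_al hC (by linarith) hlam i (by linarith) htT x v⟩

theorem spOut {K Y ey : ℝ} {p : ℕ} (hK : 1 ≤ K) (hY : 1 ≤ Y) (hey : 0 < ey) (hp : 512 ≤ p) :
    SpOut K Y ey p := by
  have hCS : 0 ≤ CSp Y := by unfold CSp; positivity
  refine ⟨CSp Y, hCS, ?_⟩
  filter_upwards [ev_pos, ev_ColdPar K Y ey p C.C0 hK hY hp,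
    ev_Ok K Y ey p (by linarith) (by linarith) hey (by omega),
    tendsto_natCast_atTop_atTop.eventually_ge_atTop K] with j0 hpos hCP hOk hKj
  have hB : Big (par K Y ey p j0) := ⟨hOk, hp, hY, hKj⟩
  intro lam _ t x a ha ht hi v
  have h := spillF_le hB hCP (hpos.2.2.trans_le ht) x ha ha hi hi v
  refine h.trans (le_of_eq ?_)
  rw [mul_assoc (a * a)]
  rfl

theorem vsOut {K Y ey : ℝ} {p : ℕ} (hK : 1 ≤ K) (hY : 1 ≤ Y) : VSOut K Y ey p :=
  fun _C _ell _S hC hell hS => ⟨vsR_lint ey p hK hY hC hell hS, al_massB ey p hK hY hC hell hS,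
    fun _j0 => measurable_vsR _ _ _ _⟩

/-- **`ColdOut`** -/
theorem ColdOut_holds {Y : ℝ} (hY : 1 ≤ Y) : ColdOut Y := by
  refine ColdOut_of hY decOut ?_ ?_
  · intro K ey hK hey _
    filter_upwards [eventually_ge_atTop 512] with p hp
    exact spOut hK hY hey hp
  · intro K ey hK _ _
    exact Eventually.of_forall fun p => vsOut hK hY

end Crest.Agent.R68.WP
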