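import Crest.Agent.R68.WProps
import Crest.Agent.R68.ColdHot
import Crest.Agent.R68.ColdVS
import Crest.Agent.R68.ColdFin
import Crest.Agent.R68.CausOut

/-!
# Row 68, part W (helper153): assembly of `ColdOut`
-/

set_option autoImplicit false
open MeasureTheory Set Filter
open scoped ENNReal NNReal Topology
open Crest.AnalysisR.VecCalc3 Crest.AnalysisR.PDE.Boltzmann

noncomputable section

namespace Crest.Agent.R68.WP

open Crest.Agent.R68.A (Meas3)
open Crest.Agent.R68.N (Fld PerF)
open Crest.Agent.R68.WA (We w1 Mx EW one_le_w1)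
open Crest.Agent.R68.ColdW

/-- (559) decay of the cold component -/
def DecOut : Prop :=
  ∀ P : Par, Big P → ColdPar Cold.C0 P → ∀ lam : Fld, Meas3 lam → PerF lam →
    ∀ T1 ell T : ℝ, 0 < T1 → 0 < ell → T1 ≤ T →
      (∀ t x v, T1 + ell ≤ t → t ≤ T → ENNReal.ofReal (1 / 2) * w1 v ≤ lam t x v) →
      ∀ (t : ℝ) (x : P2) (v : R3), T1 ≤ t → t ≤ T + 1 →
        coldR P lam t x v ≤ ENNReal.ofReal (al T1 ell t) * coldS P t x v ∧
        ∀ i : (ℤ × ℤ) × ℕ, coldjk P lam i t x v ≤ ENNReal.ofReal (al T1 ell t) *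
          (phij P i.2 t (x + latt i.1) v + warmj P i.2 t (x + latt i.1) v)

/-- (827) size of the spill for `t ≥ T1` -/
def SpOut (K Y ey : ℝ) (p : ℕ) : Prop :=
  ∃ C4 : ℝ, 0 ≤ C4 ∧ ∀ᶠ j0 : ℕ in atTop, ∀ lam : Fld, Meas3 lam → ∀ (t : ℝ) (x : P2)
    (a : ℝ≥0∞), a ≠ ⊤ → T1j j0 ≤ t →
    (∀ (i : (ℤ × ℤ) × ℕ) (v : R3), coldjk (par K Y ey p j0) lam i t x v ≤
      a * (phij (par K Y ey p j0) i.2 t (x + latt i.1) v +
        warmj (par K Y ey p j0) i.2 t (x + latt i.1) v)) → ∀ v : R3,
    coldSpill (par K Y ey p j0) lam t x v ≤ a * a * ENNReal.ofReal (C4 *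
      ((massB (par K Y ey p j0) t + NB (par K Y ey p j0) t) *
        (cardB (par K Y ey p j0) t ^ 2 * MS (par K Y ey p j0) t) +
        cardB (par K Y ey p j0) t * (par K Y ey p j0).dl ^ 2)) *
      (Dm (par K Y ey p j0) t x v * We v)

/-- (835/819) size of `vsR` -/
def VSOut (K Y ey : ℝ) (p : ℕ) : Prop :=
  ∀ C ell S : ℝ, 0 ≤ C → 0 < ell → 0 < S →
    (∀ᶠ j0 : ℕ in atTop, (∫⁻ t in Ioi (T1j j0),
      ENNReal.ofReal (vsR (par K Y ey p j0) C (T1j j0) ell t)) ≤ ENNReal.ofReal S) ∧
    (∀ᶠ j0 : ℕ in atTop, ∀ t, T1j j0 ≤ t →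
      C * (al (T1j j0) ell t * massB (par K Y ey p j0) t) ≤ S) ∧
    (∀ j0 : ℕ, Measurable fun t => ENNReal.ofReal (vsR (par K Y ey p j0) C (T1j j0) ell t))

theorem al_nonneg (T1 ell t : ℝ) : 0 ≤ al T1 ell t := (Real.exp_pos _).le

theorem al_le_one (T1 ell t : ℝ) : al T1 ell t ≤ 1 := by
  unfold al
  rw [Real.exp_le_one_iff]
  have := le_max_left 0 (t - (T1 + ell + 1))
  linarith

theorem cardB_nonneg (P : Par) (t : ℝ) : 0 ≤ cardB P t := sq_nonneg _

theorem MS_nonneg (P : Par) (t : ℝ) : 0 ≤ MS P t := by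
  unfold MS
  split_ifs
  · exact le_rfl
  · positivity

/-- **`ColdOut`** from decay, spill and the size of `vs` -/
theorem ColdOut_of {Y : ℝ} (hY : 1 ≤ Y) (hdec : DecOut)
    (hsp : ∀ K ey : ℝ, 1 ≤ K → 0 < ey → ey ≤ 1 / 100 → ∀ᶠ p : ℕ in atTop, SpOut K Y ey p)
    (hvs : ∀ K ey : ℝ, 1 ≤ K → 0 < ey → ey ≤ 1 / 100 → ∀ᶠ p : ℕ in atTop, VSOut K Y ey p) :
    ColdOut Y := by
  intro K ey hK hey hey1
  filter_upwards [hsp K ey hK hey hey1, hvs K ey hK hey hey1, eventually_ge_atTop 512]
    with p hsp hvs hp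
  intro ell S hell hS
  obtain ⟨C4, hC4, hsp⟩ := hsp
  obtain ⟨Ch, hCh, hhot⟩ := cold_hot Y
  obtain ⟨E1, -, E3⟩ := hvs (Ch + C4) ell S (by positivity) hell hS
  obtain ⟨-, E2, -⟩ := hvs 1 ell S zero_le_one hell hS
  filter_upwards [hsp, E1, E2, ev_pos, ev_T1_le one_pos, ev_ParD K Y ey p (by linarith),
    ev_ColdPar K Y ey p Cold.C0 hK hY hp, ev_ColdPar K Y ey p C.C0 hK hY hp,
    ev_Ok K Y ey p (by linarith) (by linarith) hey (by omega),
    tendsto_natCast_atTop_atTop.eventually_ge_atTop K]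
    with j0 hsp E1 E2 hpos hT11 hPD hCP hCP' hOk hKj
  have hB : Big (par K Y ey p j0) := ⟨hOk, hp, hY, hKj⟩
  set P := par K Y ey p j0 with hP
  have hT1 : 0 < T1j j0 := hpos.2.2
  refine ⟨fun t => ENNReal.ofReal (vsR P (Ch + C4) (T1j j0) ell t), E3 j0, E1, ?_⟩
  intro lam mlam plam T hT hrate
  have hd := hdec P hB hCP lam mlam plam (T1j j0) ell T hT1 hell hT hrate
  constructor
  · intro t x v ht htT
    set E := EW P (1 / 8) (T1j j0) t x with hE
    set a := ENNReal.ofReal (al (T1j j0) ell t) with ha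
    have ha1 : a ≤ 1 := by
      rw [ha, ← ENNReal.ofReal_one]
      exact ENNReal.ofReal_le_ofReal (al_le_one _ _ _)
    have hmc : Measurable (coldR P lam t x) := (ColdM.meas3_coldR _ mlam).slice t x
    have h1 := hhot P hB hCP' hPD rfl (T1j j0) t x (coldR P lam t x) a ENNReal.ofReal_ne_top hT1
      hT11 ht hmc (fun w => (hd t x w ht htT).1) v
    have h2 := hsp lam mlam t x a ENNReal.ofReal_ne_top ht (fun i w => (hd t x w ht htT).2 i) v
    have ht0 : 0 ≤ t := hT1.le.trans ht
    have hmB := massB_nonneg hB ht0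
    have hNB := NB_nonneg hB ht0
    have hcB := cardB_nonneg P t
    have hMS := MS_nonneg P t
    have hdl : 0 ≤ P.dl ^ 2 := sq_nonneg _
    set X : ℝ := (massB P t + NB P t) * (cardB P t ^ 2 * MS P t) + cardB P t * P.dl ^ 2 with hX
    have hX0 : 0 ≤ X := by positivity
    have h3 : coldSpill P lam t x v ≤
        a * ENNReal.ofReal (C4 * X * Real.exp (1 / 8 * (t - T1j j0))) * E v := by
      refine h2.trans ?_
      calc a * a * ENNReal.ofReal (C4 * X) * (Dm P t x v * We v)
          ≤ 1 * a * ENNReal.ofReal (C4 * X) *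
            (ENNReal.ofReal (Real.exp (1 / 8 * (t - T1j j0))) * E v) := by
            refine mul_le_mul' (mul_le_mul' (mul_le_mul' ha1 le_rfl) le_rfl) ?_
            refine le_trans ?_ (W.one_Dm_le (by norm_num) hT1.le ht x v)
            gcongr
            exact le_add_self
        _ = _ := by
            rw [ENNReal.ofReal_mul (p := C4 * X) (by positivity)]
            ring
    show Qp (coldR P lam t x) E v + Qp E (coldR P lam t x) v + coldSpill P lam t x v +
      Mx v * Lc (coldR P lam t x) v ≤ ENNReal.ofReal (vsR P (Ch + C4) (T1j j0) ell t) * E v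
    calc Qp (coldR P lam t x) E v + Qp E (coldR P lam t x) v + coldSpill P lam t x v +
          Mx v * Lc (coldR P lam t x) v
        = (Qp (coldR P lam t x) E v + Qp E (coldR P lam t x) v +
            Mx v * Lc (coldR P lam t x) v) + coldSpill P lam t x v := by ring
      _ ≤ a * ENNReal.ofReal (Ch * (massB P t + NB P t) * Real.exp (1 / 8 * (t - T1j j0))) * E v +
          a * ENNReal.ofReal (C4 * X * Real.exp (1 / 8 * (t - T1j j0))) * E v := add_le_add h1 h3
      _ = a * ENNReal.ofReal ((Ch * (massB P t + NB P t) + C4 * X) *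
            Real.exp (1 / 8 * (t - T1j j0))) * E v := by
          rw [add_mul (Ch * (massB P t + NB P t)), ENNReal.ofReal_add (by positivity)
            (by positivity)]
          ring
      _ ≤ _ := by
          rw [ha, ← ENNReal.ofReal_mul (al_nonneg _ _ _)]
          gcongr
          unfold vsR VS
          have e1 : Ch * (massB P t + NB P t) + C4 * X ≤
              (Ch + C4) * ((massB P t + NB P t) * (1 + cardB P t ^ 2 * MS P t) +
                cardB P t * P.dl ^ 2) := by
            have k1 : (massB P t + NB P t) * (1 + cardB P t ^ 2 * MS P t) +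
                cardB P t * P.dl ^ 2 = (massB P t + NB P t) + X := by rw [hX]; ring
            rw [k1]
            have k2 : 0 ≤ Ch * X := by positivity
            have k3 : 0 ≤ C4 * (massB P t + NB P t) := by positivity
            nlinarith
          calc al (T1j j0) ell t * ((Ch * (massB P t + NB P t) + C4 * X) *
                Real.exp (1 / 8 * (t - T1j j0)))
              ≤ al (T1j j0) ell t * (((Ch + C4) * ((massB P t + NB P t) *
                (1 + cardB P t ^ 2 * MS P t) + cardB P t * P.dl ^ 2)) *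
                Real.exp (1 / 8 * (t - T1j j0))) := by
                refine mul_le_mul_of_nonneg_left ?_ (al_nonneg _ _ _)
                exact mul_le_mul_of_nonneg_right e1 (Real.exp_pos _).le
            _ = _ := by ring
  · intro t ht htT
    have ht0 : 0 < t := hT1.trans_le ht
    have h4 : ∀ y, ∫⁻ v, coldR P lam t y v ≤ ENNReal.ofReal S := by
      intro y
      calc ∫⁻ v, coldR P lam t y v
          ≤ ∫⁻ v, ENNReal.ofReal (al (T1j j0) ell t) * coldS P t y v :=
            lintegral_mono fun v => (hd t y v ht htT).1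
        _ = ENNReal.ofReal (al (T1j j0) ell t) * ∫⁻ v, coldS P t y v :=
            lintegral_const_mul' _ _ ENNReal.ofReal_ne_top
        _ ≤ ENNReal.ofReal (al (T1j j0) ell t) * ENNReal.ofReal (massB P t) := by
            gcongr; exact mass_coldS hB ht0 y
        _ = ENNReal.ofReal (1 * (al (T1j j0) ell t * massB P t)) := by
            rw [one_mul, ENNReal.ofReal_mul (al_nonneg _ _ _)]
        _ ≤ _ := ENNReal.ofReal_le_ofReal (E2 t ht)
    calc ∫⁻ y in cellG, ∫⁻ v, coldR P lam t y v ≤ ∫⁻ _ in cellG, ENNReal.ofReal S :=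
          lintegral_mono h4
      _ = ENNReal.ofReal S := by
          rw [setLIntegral_const, volume_cellG, mul_one]

end Crest.Agent.R68.WP
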