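import Crest.Agent.R68.CSize4
import Crest.Agent.R68.CGauss
import Crest.Agent.R68.A3Spill
import Crest.Agent.R68.A2

/-!
# Row 68, PART C (helper150): the spill (cold-cold collisions whose products are hot)
-/

set_option autoImplicit false
open MeasureTheory Set
open scoped ENNReal
open Crest.AnalysisR.VecCalc3 Crest.AnalysisR.PDE.Boltzmann

noncomputable section

namespace Crest.Agent.R68.ColdSp

open Crest.Agent.R68

variable {P : Par}

/-! ### scalar estimates -/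

theorem two_pow_ge {p : ℕ} (hp : 2 ≤ p) : (p : ℝ) - 1 ≤ 2 ^ (p - 2) := by
  obtain ⟨n, rfl⟩ := Nat.exists_eq_add_of_le hp
  have h1 : n < 2 ^ n := Nat.lt_two_pow_self
  have h2 : n + 1 ≤ 2 ^ n := h1
  have h3 : ((n + 1 : ℕ) : ℝ) ≤ ((2 ^ n : ℕ) : ℝ) := by exact_mod_cast h2
  simp only [Nat.add_sub_cancel_left]
  push_cast at h3 ⊢
  linarith

theorem big_pow {p : ℕ} (hp : 512 ≤ p) {m : ℝ} (hm : 401 ≤ m) :
    16 * (4 * (p : ℝ) + 6) * m ≤ m ^ p := by
  have hp2 : (512 : ℝ) ≤ p := by exact_mod_cast hp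
  have h1 : m ^ p = m * (m * m ^ (p - 2)) := by
    rw [← pow_succ', ← pow_succ']
    congr 1; omega
  have h2 : (p : ℝ) - 1 ≤ m ^ (p - 2) :=
    (two_pow_ge (by omega)).trans (pow_le_pow_left₀ (by norm_num) (by linarith) _)
  have h3 : 401 * ((p : ℝ) - 1) ≤ m * m ^ (p - 2) :=
    mul_le_mul hm h2 (by linarith) (by linarith)
  rw [h1]
  have h4 : 16 * (4 * (p : ℝ) + 6) ≤ m * m ^ (p - 2) := by linarith
  nlinarith

theorem CG_le : C.CG ≤ 1000 := by
  unfold C.CG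
  have hpi := Real.pi_lt_d2
  have hpi0 := Real.pi_pos
  have h2 : (4 * Real.pi) ^ (3 / 2 : ℝ) ≤ (16 : ℝ) ^ (3 / 2 : ℝ) :=
    Real.rpow_le_rpow (by positivity) (by linarith) (by norm_num)
  have h3 : (16 : ℝ) ^ (3 / 2 : ℝ) = 64 := by
    rw [show (16 : ℝ) = 4 ^ (2 : ℝ) by norm_num, ← Real.rpow_mul (by norm_num)]
    norm_num
  rw [h3] at h2
  have h4 := Real.rpow_nonneg (show (0:ℝ) ≤ 4 * Real.pi by positivity) (3 / 2 : ℝ)
  calc 2 * Real.pi * (4 * Real.pi) ^ (3 / 2 : ℝ) ≤ 2 * 3.15 * 64 := by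
        apply mul_le_mul (by linarith) h2 h4 (by norm_num)
    _ ≤ 1000 := by norm_num

set_option maxHeartbeats 1600000 in
/-- the scalar spill estimate -/
theorem tiny {p : ℕ} (hp : 512 ≤ p) {m b η ρ K a R : ℝ} (hm : 401 ≤ m) (hb : b = m⁻¹)
    (hη : η = b ^ p) (hρ : ρ = b ^ (p / 2)) (hK : 0 ≤ K) (hKm : K ≤ m) (ha : ρ ≤ a)
    (hR : R ^ 2 ≤ 2 * a ^ 2 + m) :
    C.CG * (K / (b * η ^ 3)) * (√2 * η) ^ 3 * (a + √2 * η) *
        (K / (b * η ^ 3) * Real.exp (-a ^ 2 / (4 * η ^ 2))) ≤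
      b ^ p * Real.exp (-2 * m) * Real.exp (-R ^ 2) := by
  have hm0 : 0 < m := by linarith
  have hb0 : 0 < b := by rw [hb]; positivity
  have hb1 : b ≤ 1 := by rw [hb]; exact inv_le_one_of_one_le₀ (by linarith)
  have hbm : b * m = 1 := by rw [hb]; exact inv_mul_cancel₀ hm0.ne'
  have hη0 : 0 < η := by rw [hη]; positivity
  have hρ0 : 0 < ρ := by rw [hρ]; positivity
  have ha0 : 0 < a := lt_of_lt_of_le hρ0 ha
  have hηρ : η ≤ ρ := by rw [hη, hρ]; exact pow_le_pow_of_le_one hb0.le hb1 (by omega)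
  have hη1 : η ≤ 1 / 401 := by
    rw [hη]
    calc b ^ p ≤ b ^ 1 := pow_le_pow_of_le_one hb0.le hb1 (by omega)
      _ = m⁻¹ := by rw [pow_one, hb]
      _ ≤ _ := by rw [← one_div]; exact one_div_le_one_div_of_le (by norm_num) hm
  have hηm : η * m ^ p = 1 := by rw [hη, ← mul_pow, hbm, one_pow]
  -- `y`
  obtain ⟨y, hy⟩ : ∃ y, y = a ^ 2 / (16 * η ^ 2) := ⟨_, rfl⟩
  have hy0 : 0 ≤ y := by rw [hy]; positivity
  have ha2 : b ^ p ≤ a ^ 2 := by
    calc b ^ p ≤ b ^ (2 * (p / 2)) := pow_le_pow_of_le_one hb0.le hb1 (by omega)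
      _ = ρ ^ 2 := by rw [hρ, ← pow_mul, mul_comm]
      _ ≤ a ^ 2 := by gcongr
  have hym : m ^ p / 16 ≤ y := by
    rw [hy, div_le_div_iff₀ (by norm_num) (by positivity)]
    have h1 : m ^ p * η ^ 2 = b ^ p := by
      calc m ^ p * η ^ 2 = (η * m ^ p) * η := by ring
        _ = b ^ p := by rw [hηm, one_mul, hη]
    nlinarith
  have hbig := big_pow hp hm
  have hy2 : (4 * (p : ℝ) + 6) * m ≤ y := by linarith
  have hηs : 16 * η ^ 2 ≤ 1 / 10000 := by nlinarith
  have hya : 10000 * a ^ 2 ≤ y := by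
    rw [hy, le_div_iff₀ (by positivity)]
    nlinarith [sq_nonneg a]
  -- sqrt
  have hs2 : √2 ≤ 3 / 2 := by
    rw [Real.sqrt_le_left (by norm_num)]; norm_num
  have hs0 : 0 ≤ √2 := Real.sqrt_nonneg 2
  -- the exponential split
  have hexp : Real.exp (-a ^ 2 / (4 * η ^ 2)) =
      Real.exp (-y) * (Real.exp (-y) * (Real.exp (-y) * Real.exp (-y))) := by
    rw [← Real.exp_add, ← Real.exp_add, ← Real.exp_add]
    congr 1
    rw [hy]; field_simp; ring
  have e1 : a * Real.exp (-y) ≤ 1 := by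
    have h1 : a ≤ Real.exp y := by
      have h2 := Real.add_one_le_exp y
      nlinarith [sq_nonneg (a - 1)]
    calc a * Real.exp (-y) ≤ Real.exp y * Real.exp (-y) := by gcongr
      _ = 1 := by rw [← Real.exp_add]; simp
  have e2 : Real.exp (-y) ≤ Real.exp (-R ^ 2) * Real.exp m := by
    rw [← Real.exp_add]
    apply Real.exp_le_exp.2
    nlinarith [sq_nonneg a]
  have e3 : Real.exp (-y) ≤ Real.exp (-(3 * m)) := by
    apply Real.exp_le_exp.2
    have : 3 * m ≤ (4 * (p : ℝ) + 6) * m := by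
      apply mul_le_mul_of_nonneg_right _ hm0.le
      have : (0 : ℝ) ≤ p := Nat.cast_nonneg p
      linarith
    linarith
  have e4 : Real.exp (-y) ≤ b ^ (4 * p + 6) := by
    have h1 : m ≤ Real.exp m := by have := Real.add_one_le_exp m; linarith
    have h2 : m ^ (4 * p + 6) ≤ Real.exp y := by
      calc m ^ (4 * p + 6) ≤ Real.exp m ^ (4 * p + 6) := pow_le_pow_left₀ hm0.le h1 _
        _ = Real.exp ((4 * (p : ℝ) + 6) * m) := by
          rw [← Real.exp_nat_mul]; push_cast; ring_nf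
        _ ≤ _ := Real.exp_le_exp.2 hy2
    rw [Real.exp_neg, hb, inv_pow]
    exact inv_anti₀ (by positivity) h2
  have hCG := CG_le
  have hCG0 := C.CG_pos
  -- polynomial factor
  have hpoly : C.CG * (K / (b * η ^ 3)) * (√2 * η) ^ 3 * (K / (b * η ^ 3)) * b ^ (4 * p + 6) * 3 ≤
      b ^ p := by
    have h1 : C.CG * (K / (b * η ^ 3)) * (√2 * η) ^ 3 * (K / (b * η ^ 3)) * b ^ (4 * p + 6) * 3 =
        (3 * C.CG * √2 ^ 3) * (K * b) ^ 2 * b ^ 2 * (b ^ p * (b ^ p / η) ^ 3) := by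
      have : b ^ (4 * p + 6) = b ^ 6 * (b ^ p) ^ 4 := by
        rw [← pow_mul, ← pow_add]; congr 1; ring
      rw [this]
      field_simp
    rw [h1, hη, div_self (by positivity), one_pow, mul_one]
    have h2 : (K * b) ^ 2 ≤ 1 := by
      have : K * b ≤ 1 := by
        rw [← hbm, mul_comm]; exact mul_le_mul_of_nonneg_left hKm hb0.le
      exact pow_le_one₀ (by positivity) this
    have h3 : 3 * C.CG * √2 ^ 3 ≤ m ^ 2 := by
      have h4 : √2 ^ 3 ≤ 4 := by
        calc √2 ^ 3 ≤ (3 / 2) ^ 3 := pow_le_pow_left₀ hs0 hs2 3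
          _ ≤ 4 := by norm_num
      nlinarith [pow_nonneg hs0 3]
    have h5 : m ^ 2 * b ^ 2 = 1 := by rw [← mul_pow, mul_comm m b, hbm, one_pow]
    calc (3 * C.CG * √2 ^ 3) * (K * b) ^ 2 * b ^ 2 * b ^ p ≤ m ^ 2 * 1 * b ^ 2 * b ^ p := by
          gcongr
      _ = b ^ p := by rw [mul_one, h5, one_mul]
  have hA0 : 0 ≤ K / (b * η ^ 3) := by positivity
  calc C.CG * (K / (b * η ^ 3)) * (√2 * η) ^ 3 * (a + √2 * η) *
        (K / (b * η ^ 3) * Real.exp (-a ^ 2 / (4 * η ^ 2)))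
      ≤ C.CG * (K / (b * η ^ 3)) * (√2 * η) ^ 3 * (3 * a) *
        (K / (b * η ^ 3) * Real.exp (-a ^ 2 / (4 * η ^ 2))) := by
        gcongr
        nlinarith
    _ = C.CG * (K / (b * η ^ 3)) * (√2 * η) ^ 3 * (K / (b * η ^ 3)) * 3 *
        (a * Real.exp (-y)) * (Real.exp (-y) * (Real.exp (-y) * Real.exp (-y))) := by
        rw [hexp]; ring
    _ ≤ C.CG * (K / (b * η ^ 3)) * (√2 * η) ^ 3 * (K / (b * η ^ 3)) * 3 *
        1 * ((Real.exp (-R ^ 2) * Real.exp m) * (Real.exp (-(3 * m)) * b ^ (4 * p + 6))) := by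
        gcongr
    _ = (C.CG * (K / (b * η ^ 3)) * (√2 * η) ^ 3 * (K / (b * η ^ 3)) * b ^ (4 * p + 6) * 3) *
        (Real.exp m * Real.exp (-(3 * m)) * Real.exp (-R ^ 2)) := by ring
    _ ≤ b ^ p * (Real.exp m * Real.exp (-(3 * m)) * Real.exp (-R ^ 2)) := by gcongr
    _ = b ^ p * Real.exp (-2 * m) * Real.exp (-R ^ 2) := by
        rw [← Real.exp_add, ← mul_assoc]
        congr 3; ring

/-! ### one sheet: the own spill -/

theorem gaussj_eq_gs (P : Par) (j : ℕ) (t : ℝ) (x : P2) :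
    gaussj P j t x = C.gs (P.K / (bj j * etaj P.p j ^ 3)) (√2 * etaj P.p j)
      (uvec P (wj j) t x) := by
  funext v
  unfold gaussj C.gs
  have h : 2 * (√2 * etaj P.p j) ^ 2 = 4 * etaj P.p j ^ 2 := by
    rw [mul_pow, Real.sq_sqrt (by norm_num)]; ring
  rw [h]

/-- `bj⁻¹` is large -/
theorem m_facts (h : ColdPar C.C0 P) {j : ℕ} (hj : P.j0 ≤ j) :
    401 ≤ (bj j)⁻¹ ∧ P.K ≤ (bj j)⁻¹ ∧ 2 * (P.Y + 3) ^ 2 ≤ (bj j)⁻¹ := by
  have hb := C.bj_pos j
  have h0 := C.bj_small' h hj (n := 0) (by norm_num)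
  have h1 := C.bj_small' h hj (n := 1) (by norm_num)
  have h2 := C.bj_small' h hj (n := 2) (by norm_num)
  have hK := h.K
  have hY := h.Y
  have hinv : (bj j)⁻¹ * bj j = 1 := inv_mul_cancel₀ hb.ne'
  have key : ∀ X : ℝ, X * bj j ≤ 1 → X ≤ (bj j)⁻¹ := by
    intro X hX
    rw [← one_div, le_div_iff₀ hb]
    exact hX
  refine ⟨key _ ?_, key _ ?_, key _ ?_⟩
  · rw [pow_zero] at h0; nlinarith
  · rw [pow_one] at h1
    have : P.K * bj j ≤ 10 ^ 13 * (P.K + P.Y) * bj j := by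
      apply mul_le_mul_of_nonneg_right _ hb.le
      nlinarith
    linarith
  · have : 2 * (P.Y + 3) ^ 2 * bj j ≤ 10 ^ 13 * (P.K + P.Y) ^ 2 * bj j := by
      apply mul_le_mul_of_nonneg_right _ hb.le
      nlinarith
    linarith

/-- **own spill of one sheet**, all times -/
theorem own_spill (h : ColdPar C.C0 P) {j : ℕ} {t : ℝ} (ht : 0 ≤ t) {x : P2}
    (hz : C.LZ P j t x) {v : R3} (hv : rhoj P.p j ≤ ‖v - uvec P (wj j) t x‖) :
    Qp (gaussj P j t x) (gaussj P j t x) v ≤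
      ENNReal.ofReal (bj j ^ P.p * Real.exp (-2 * (bj j)⁻¹) * Real.exp (-‖v‖ ^ 2)) := by
  have hj := hz.1
  obtain ⟨hm1, hm2, hm3⟩ := m_facts h hj
  have hb := C.bj_pos j
  have hK := h.K
  have hη : 0 < etaj P.p j := by rw [C.etaj_eq]; positivity
  have hu := C.norm_uvec_le h ht hz
  have hY := h.Y
  have hA : 0 ≤ P.K / (bj j * etaj P.p j ^ 3) := by positivity
  have hηs : 0 < √2 * etaj P.p j := by positivity
  have hR : ‖v‖ ^ 2 ≤ 2 * ‖v - uvec P (wj j) t x‖ ^ 2 + (bj j)⁻¹ := by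
    have h1 : ‖v‖ ≤ ‖v - uvec P (wj j) t x‖ + ‖uvec P (wj j) t x‖ := by
      calc ‖v‖ = ‖(v - uvec P (wj j) t x) + uvec P (wj j) t x‖ := by congr 1; abel
        _ ≤ _ := norm_add_le _ _
    have h2 : ‖uvec P (wj j) t x‖ ^ 2 ≤ (P.Y + 3) ^ 2 := by
      apply pow_le_pow_left₀ (norm_nonneg _) (by linarith)
    nlinarith [norm_nonneg v, norm_nonneg (v - uvec P (wj j) t x), norm_nonneg (uvec P (wj j) t x),
      sq_nonneg (‖v - uvec P (wj j) t x‖ - ‖uvec P (wj j) t x‖)]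
  have ht := tiny h.p (m := (bj j)⁻¹) (b := bj j) (η := etaj P.p j) (ρ := rhoj P.p j) (K := P.K)
    (a := ‖v - uvec P (wj j) t x‖) (R := ‖v‖) hm1 (inv_inv _).symm rfl rfl (by linarith) hm2 hv hR
  rw [gaussj_eq_gs, C.Qp_gs hA]
  calc C.gs (P.K / (bj j * etaj P.p j ^ 3)) (√2 * etaj P.p j) (uvec P (wj j) t x) v *
        Lc (C.gs (P.K / (bj j * etaj P.p j ^ 3)) (√2 * etaj P.p j) (uvec P (wj j) t x)) v
      ≤ C.gs (P.K / (bj j * etaj P.p j ^ 3)) (√2 * etaj P.p j) (uvec P (wj j) t x) v *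
        ENNReal.ofReal (C.CG * (P.K / (bj j * etaj P.p j ^ 3)) * (√2 * etaj P.p j) ^ 3 *
          (‖v - uvec P (wj j) t x‖ + √2 * etaj P.p j)) := by
        gcongr
        exact C.Lc_gs_le hA hηs _ _
    _ = ENNReal.ofReal (C.CG * (P.K / (bj j * etaj P.p j ^ 3)) * (√2 * etaj P.p j) ^ 3 *
          (‖v - uvec P (wj j) t x‖ + √2 * etaj P.p j) *
          (P.K / (bj j * etaj P.p j ^ 3) *
            Real.exp (-‖v - uvec P (wj j) t x‖ ^ 2 / (4 * etaj P.p j ^ 2)))) := by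
        unfold C.gs
        rw [← ENNReal.ofReal_mul (by positivity)]
        have h3 : 2 * (√2 * etaj P.p j) ^ 2 = 4 * etaj P.p j ^ 2 := by
          rw [mul_pow, Real.sq_sqrt (by norm_num)]; ring
        rw [h3]
        congr 1; ring
    _ ≤ _ := ENNReal.ofReal_le_ofReal ht

/-! ### the spill functional -/

/-- index set: image and lane -/
abbrev Ix : Type := (ℤ × ℤ) × ℕ

open scoped Classical in
/-- the spill of a family of densities `F i` (`i` = (image, lane)) at `(t,x)` -/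
def spillF (P : Par) (t : ℝ) (x : P2) (F : Ix → R3 → ℝ≥0∞) (v : R3) : ℝ≥0∞ :=
  ∑' i : Ix, ∑' i' : Ix,
    if i = i' ∧ t ≤ tauj P.p i.2 ∧ Zj P i.2 1 t (x + latt i.1) v then 0 else Qp (F i) (F i') v

theorem coldSpill_eq (P : Par) (lam : ℝ → P2 → R3 → ℝ≥0∞) (t : ℝ) (x : P2) (v : R3) :
    coldSpill P lam t x v = spillF P t x (fun i => coldjk P lam i t x) v := rfl

/-- the bound of the spill -/
def spB (P : Par) (x : P2) (v : R3) : ℝ≥0∞ :=
  ENNReal.ofReal (distG x ^ (P.p / 32) * Real.exp (-(distG x)⁻¹) * Real.exp (-‖v‖ ^ 2))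

theorem spB_le_pow (P : Par) (x : P2) (v : R3) :
    spB P x v ≤ ENNReal.ofReal (distG x ^ (P.p / 32) * Real.exp (-‖v‖ ^ 2)) := by
  unfold spB
  apply ENNReal.ofReal_le_ofReal
  have h1 := distG_nonneg x
  have h2 : Real.exp (-(distG x)⁻¹) ≤ 1 := by
    rw [Real.exp_le_one_iff]
    have := inv_nonneg.2 h1
    linarith
  have h3 : 0 ≤ distG x ^ (P.p / 32) := by positivity
  calc distG x ^ (P.p / 32) * Real.exp (-(distG x)⁻¹) * Real.exp (-‖v‖ ^ 2)
      ≤ distG x ^ (P.p / 32) * 1 * Real.exp (-‖v‖ ^ 2) := by gcongr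
    _ = _ := by rw [mul_one]

theorem spB_le_spW (P : Par) (hp : 32 ≤ P.p) (x : P2) (v : R3) : spB P x v ≤ A.spW x v := by
  unfold spB A.spW
  split_ifs with h0
  · rw [h0, zero_pow (by omega)]; simp
  · apply ENNReal.ofReal_le_ofReal
    have h1 := distG_nonneg x
    have h2 := distG_le_one x
    calc distG x ^ (P.p / 32) * Real.exp (-(distG x)⁻¹) * Real.exp (-‖v‖ ^ 2)
        ≤ 1 * Real.exp (-(distG x)⁻¹) * Real.exp (-‖v‖ ^ 2) := by
          gcongr
          exact pow_le_one₀ h1 h2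
      _ = _ := by rw [one_mul]

/-- the visible sheet is at distance `≥ bj` from the lattice -/
theorem bj_le_distG (h : ColdPar C.C0 P) {j : ℕ} {t : ℝ} (ht : 0 ≤ t)
    (htT : t ≤ P.dl ^ (3 / 8 : ℝ)) {x : P2} {k : ℤ × ℤ} (hz : C.LZ P j t (x + latt k)) :
    bj j ≤ distG x := by
  have h1 := C.lab_sq_ge h hz
  have h2 := C.lab_le_distG h ht htT hz
  have hb := C.bj_pos j
  have h3 := C.bj_small0 h hz.1
  refine le_trans ?_ h2
  have h4 : bj j ^ 2 ≤ |lab P t (x + latt k)| ^ 2 := by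
    rw [sq_abs]
    nlinarith
  exact le_of_sq_le_sq h4 (abs_nonneg _) |> fun h => h

/-- own spill against `spB` -/
theorem own_spill_le (h : ColdPar C.C0 P) {j : ℕ} {t : ℝ} (ht : 0 ≤ t)
    (htT : t ≤ P.dl ^ (3 / 8 : ℝ)) {x : P2} {k : ℤ × ℤ} (hz : C.LZ P j t (x + latt k)) {v : R3}
    (hv : rhoj P.p j ≤ ‖v - uvec P (wj j) t (x + latt k)‖) :
    Qp (gaussj P j t (x + latt k)) (gaussj P j t (x + latt k)) v ≤
      ENNReal.ofReal (1 / 100) * spB P x v := by
  refine (own_spill h ht hz hv).trans ?_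
  unfold spB
  rw [← ENNReal.ofReal_mul (by norm_num)]
  apply ENNReal.ofReal_le_ofReal
  have hb := C.bj_pos j
  have hb1 := C.bj_le_one j
  obtain ⟨hm1, -, -⟩ := m_facts h hz.1
  have hd := bj_le_distG h ht htT hz
  have hd0 : 0 < distG x := lt_of_lt_of_le hb hd
  have h1 : bj j ^ P.p ≤ distG x ^ (P.p / 32) := by
    calc bj j ^ P.p ≤ bj j ^ (P.p / 32) := pow_le_pow_of_le_one hb.le hb1 (Nat.div_le_self _ _)
      _ ≤ _ := pow_le_pow_left₀ hb.le hd _
  have h2 : Real.exp (-2 * (bj j)⁻¹) ≤ 1 / 100 * Real.exp (-(distG x)⁻¹) := by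
    have h3 : (distG x)⁻¹ ≤ (bj j)⁻¹ := inv_anti₀ hb hd
    have h4 : Real.exp (-(bj j)⁻¹) ≤ 1 / 100 := by
      rw [Real.exp_neg, ← one_div]
      apply one_div_le_one_div_of_le (by norm_num)
      have := Real.add_one_le_exp (bj j)⁻¹
      linarith
    calc Real.exp (-2 * (bj j)⁻¹) = Real.exp (-(bj j)⁻¹) * Real.exp (-(bj j)⁻¹) := by
          rw [← Real.exp_add]; congr 1; ring
      _ ≤ 1 / 100 * Real.exp (-(distG x)⁻¹) := by
          gcongr
  calc bj j ^ P.p * Real.exp (-2 * (bj j)⁻¹) * Real.exp (-‖v‖ ^ 2)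
      ≤ distG x ^ (P.p / 32) * (1 / 100 * Real.exp (-(distG x)⁻¹)) * Real.exp (-‖v‖ ^ 2) := by
        gcongr
    _ = _ := by ring

theorem Qp_zero_left {f : R3 → ℝ≥0∞} (hf : ∀ v, f v = 0) (g : R3 → ℝ≥0∞) (v : R3) :
    Qp f g v = 0 := by
  unfold Qp; simp [hf]

theorem Qp_zero_right (f : R3 → ℝ≥0∞) {g : R3 → ℝ≥0∞} (hg : ∀ v, g v = 0) (v : R3) :
    Qp f g v = 0 := by
  unfold Qp; simp [hg]

theorem spillF_none {t : ℝ} {x : P2} {F : Ix → R3 → ℝ≥0∞} (hF : ∀ i v, F i v = 0) (v : R3) :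
    spillF P t x F v = 0 := by
  unfold spillF
  simp only [ENNReal.tsum_eq_zero]
  intro i i'
  split_ifs
  · rfl
  · exact Qp_zero_left (hF i) _ v

open scoped Classical in
theorem spillF_single {t : ℝ} {x : P2} {F : Ix → R3 → ℝ≥0∞} (i0 : Ix)
    (hF : ∀ i, i ≠ i0 → ∀ v, F i v = 0) (v : R3) :
    spillF P t x F v = if t ≤ tauj P.p i0.2 ∧ Zj P i0.2 1 t (x + latt i0.1) v then 0 else
      Qp (F i0) (F i0) v := by
  unfold spillF
  rw [tsum_eq_single i0, tsum_eq_single i0]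
  · simp
  · intro i' hi'
    rw [if_neg fun h => hi' h.1.symm]
    exact Qp_zero_right _ (hF i' hi') v
  · intro i hi
    rw [ENNReal.tsum_eq_zero]
    intro i'
    split_ifs
    · rfl
    · exact Qp_zero_left (hF i hi) _ v

/-- majorant of one sheet of the cold component -/
def cS (P : Par) (t : ℝ) (x : P2) (i : Ix) (v : R3) : ℝ≥0∞ :=
  phij P i.2 t (x + latt i.1) v + warmj P i.2 t (x + latt i.1) v

theorem cS_ne (h : ColdPar C.C0 P) (hey : 0 < P.ey) {t : ℝ} (ht : 0 ≤ t) {x : P2} {i : Ix} {v : R3}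
    (hc : cS P t x i v ≠ 0) : C.LZ P i.2 t (x + latt i.1) := by
  by_contra hz
  apply hc
  unfold cS
  rw [C.warmj_eq_zero hz, add_zero]
  by_contra h1
  exact hz (C.LZ_of_Ztj (ColdW.Ztj_of_phij (C.CP.ok h hey) h.p ht h1))

theorem cS_le (h : ColdPar C.C0 P) (hey : 0 < P.ey) {t : ℝ} (ht : 0 ≤ t) (x : P2) (i : Ix) (v : R3) :
    cS P t x i v ≤ 2 * gaussj P i.2 t (x + latt i.1) v := by
  unfold cS
  rw [two_mul]
  apply add_le_add (ColdW.phij_le_gaussj (C.CP.ok h hey) _ ht _ _)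
  unfold warmj
  split_ifs
  · calc ENNReal.ofReal (kapj P.p i.2) * gaussj P i.2 t (x + latt i.1) v
        ≤ 1 * gaussj P i.2 t (x + latt i.1) v := by
          gcongr
          rw [ENNReal.ofReal_le_one]
          exact (ColdW.kapj_le h.p _).trans (pow_le_one₀ (C.bj_pos _).le (C.bj_le_one _))
      _ = _ := one_mul _
  · exact zero_le

theorem not_Zj (h : ColdPar C.C0 P) {j : ℕ} {t : ℝ} (ht : 0 ≤ t)
    (htT : t ≤ P.dl ^ (3 / 8 : ℝ)) {x : P2} (hz : C.LZ P j t x) {v : R3}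
    (hn : ¬ (t ≤ tauj P.p j ∧ Zj P j 1 t x v)) : rhoj P.p j ≤ ‖v - uvec P (wj j) t x‖ := by
  have h1 : t ≤ tauj P.p j := by
    have h2 := C.CP.T1_le h
    have h3 : 1 / (40 * (P.K + P.Y)) ≤ 1 := by
      rw [div_le_one (by linarith [h.K, h.Y])]; linarith [h.K, h.Y]
    linarith [ColdW.one_le_tauj P.p j]
  by_contra hv
  push Not at hv
  apply hn
  refine ⟨h1, hz.1, C.lab_mem_laneE h hz, ?_, by rwa [one_mul]⟩
  have hE := C.lab_mem_laneE h hz
  have hr : 0 < rr (lab P t x) := by unfold rr; have := hE.1; positivity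
  have hs := C.slack_small2 h hz.1 (n := 2) (by norm_num)
  have hb := C.bj_pos j
  have hb1 := C.bj_le_one j
  have h4 : bj j ^ 2 / 10 ^ 6 ≤ 1 / 2 := by
    have := pow_le_one₀ (n := 2) hb.le hb1
    rw [div_le_iff₀ (by norm_num)]; linarith
  refine lt_of_le_of_lt hz.2.2 ?_
  apply mul_lt_mul_of_pos_right _ (by linarith)
  linarith [h.Y]

/-- **(C6)** spill on `[0,T1]` -/
theorem spillF_le (h : ColdPar C.C0 P) (hey : 0 < P.ey) {t : ℝ} (ht : 0 ≤ t)
    (htT : t ≤ P.dl ^ (3 / 8 : ℝ)) (x : P2) {F : Ix → R3 → ℝ≥0∞}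
    (hF : ∀ i v, F i v ≤ cS P t x i v) (v : R3) : spillF P t x F v ≤ spB P x v := by
  have hF0 : ∀ i v, F i v ≠ 0 → C.LZ P i.2 t (x + latt i.1) := by
    intro i v hi
    apply cS_ne h hey ht (v := v)
    intro h0
    apply hi
    have := hF i v
    rw [h0] at this
    exact le_antisymm this zero_le
  by_cases hex : ∃ i v, F i v ≠ 0
  · obtain ⟨i0, v0, h0⟩ := hex
    have hz := hF0 i0 v0 h0
    have hsingle : ∀ i, i ≠ i0 → ∀ v, F i v = 0 := by
      intro i hi v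
      by_contra h1
      have h2 := C.LZ_unique h ht htT (hF0 i v h1) hz
      exact hi (Prod.ext h2.1 h2.2)
    rw [spillF_single i0 hsingle]
    split_ifs with hc
    · exact zero_le
    · have hv := not_Zj h ht htT hz hc
      have h1 := own_spill_le h ht htT hz hv
      calc Qp (F i0) (F i0) v
          ≤ Qp (fun v => 2 * gaussj P i0.2 t (x + latt i0.1) v)
              (fun v => 2 * gaussj P i0.2 t (x + latt i0.1) v) v :=
            C.Qp_mono (fun v => (hF i0 v).trans (cS_le h hey ht x i0 v))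
              (fun v => (hF i0 v).trans (cS_le h hey ht x i0 v)) v
        _ = 2 * 2 * Qp (gaussj P i0.2 t (x + latt i0.1)) (gaussj P i0.2 t (x + latt i0.1)) v :=
            C.Qp_const_mul (by norm_num) (by norm_num) _ _ v
        _ ≤ 2 * 2 * (ENNReal.ofReal (1 / 100) * spB P x v) := by gcongr
        _ = ENNReal.ofReal (4 / 100) * spB P x v := by
            rw [← mul_assoc]
            congr 1
            rw [show (2 : ℝ≥0∞) * 2 = ENNReal.ofReal 4 by norm_num,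
              ← ENNReal.ofReal_mul (by norm_num)]
            norm_num
        _ ≤ 1 * spB P x v := by
            gcongr
            rw [ENNReal.ofReal_le_one]; norm_num
        _ = _ := one_mul _
  · push Not at hex
    rw [spillF_none hex]
    exact zero_le

theorem measurable_gaussj (P : Par) (j : ℕ) (t : ℝ) (x : P2) : Measurable (gaussj P j t x) := by
  rw [gaussj_eq_gs]
  exact C.measurable_gs _ _ _

/-- **(C4, spill half)** -/
theorem spillF_lip (h : ColdPar C.C0 P) (hey : 0 < P.ey) {t : ℝ} (ht : 0 ≤ t)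
    (htT : t ≤ P.dl ^ (3 / 8 : ℝ)) (x : P2) {F F' : Ix → R3 → ℝ≥0∞} (hm : ∀ i, Measurable (F' i))
    (hF : ∀ i v, F i v ≤ cS P t x i v) (hF' : ∀ i v, F' i v ≤ cS P t x i v) (Δ : ℝ≥0∞)
    (hd : ∀ i v, F i v ≤ F' i v + 2 * Δ * cS P t x i v) (v : R3) :
    spillF P t x F v ≤ spillF P t x F' v + Δ * spB P x v := by
  rcases le_or_gt 1 Δ with hΔ | hΔ
  · calc spillF P t x F v ≤ spB P x v := spillF_le h hey ht htT x hF v
      _ = 1 * spB P x v := (one_mul _).symm
      _ ≤ Δ * spB P x v := by gcongr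
      _ ≤ _ := le_add_self
  have hΔ' : Δ ≠ ⊤ := (hΔ.trans ENNReal.one_lt_top).ne
  have hF0 : ∀ i v, F i v ≠ 0 → C.LZ P i.2 t (x + latt i.1) := by
    intro i v hi
    apply cS_ne h hey ht (v := v)
    intro h0
    apply hi
    have := hF i v
    rw [h0] at this
    exact le_antisymm this zero_le
  have hF0' : ∀ i v, F' i v ≠ 0 → C.LZ P i.2 t (x + latt i.1) := by
    intro i v hi
    apply cS_ne h hey ht (v := v)
    intro h0
    apply hi
    have := hF' i v
    rw [h0] at this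
    exact le_antisymm this zero_le
  by_cases hex : ∃ i v, F i v ≠ 0
  · obtain ⟨i0, v0, h0⟩ := hex
    have hz := hF0 i0 v0 h0
    have hsingle : ∀ i, i ≠ i0 → ∀ v, F i v = 0 := by
      intro i hi v
      by_contra h1
      have h2 := C.LZ_unique h ht htT (hF0 i v h1) hz
      exact hi (Prod.ext h2.1 h2.2)
    have hsingle' : ∀ i, i ≠ i0 → ∀ v, F' i v = 0 := by
      intro i hi v
      by_contra h1
      have h2 := C.LZ_unique h ht htT (hF0' i v h1) hz
      exact hi (Prod.ext h2.1 h2.2)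
    rw [spillF_single i0 hsingle, spillF_single i0 hsingle']
    split_ifs with hc
    · exact zero_le
    · have hv := not_Zj h ht htT hz hc
      have h1 := own_spill_le h ht htT hz hv
      obtain ⟨g, hg⟩ : ∃ g : R3 → ℝ≥0∞, g = gaussj P i0.2 t (x + latt i0.1) := ⟨_, rfl⟩
      have hgm : Measurable g := by rw [hg]; exact measurable_gaussj _ _ _ _
      have hcg : ∀ v, cS P t x i0 v ≤ 2 * g v := by
        intro v; rw [hg]; exact cS_le h hey ht x i0 v
      rw [← hg] at h1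
      have hup : ∀ v, F i0 v ≤ F' i0 v + 4 * Δ * g v := by
        intro v
        calc F i0 v ≤ F' i0 v + 2 * Δ * cS P t x i0 v := hd i0 v
          _ ≤ F' i0 v + 2 * Δ * (2 * g v) := by gcongr; exact hcg v
          _ = _ := by ring
      have h2g : ∀ v, F' i0 v ≤ 2 * g v := fun v => (hF' i0 v).trans (hcg v)
      have h4 : (4 : ℝ≥0∞) * Δ ≠ ⊤ := ENNReal.mul_ne_top (by norm_num) hΔ'
      have e1 : Qp (F' i0) (fun v => 4 * Δ * g v) v ≤ 2 * (4 * Δ) * Qp g g v := by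
        calc _ ≤ Qp (fun v => 2 * g v) (fun v => 4 * Δ * g v) v :=
              C.Qp_mono h2g (fun _ => le_rfl) v
          _ = _ := C.Qp_const_mul (by norm_num) h4 _ _ v
      have e2 : Qp (fun v => 4 * Δ * g v) (F' i0) v ≤ 4 * Δ * 2 * Qp g g v := by
        calc _ ≤ Qp (fun v => 4 * Δ * g v) (fun v => 2 * g v) v :=
              C.Qp_mono (fun _ => le_rfl) h2g v
          _ = _ := C.Qp_const_mul h4 (by norm_num) _ _ v
      have e3 : Qp (fun v => 4 * Δ * g v) (fun v => 4 * Δ * g v) v ≤ 16 * Δ * Qp g g v := by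
        rw [C.Qp_const_mul h4 h4]
        apply mul_le_mul_left
        calc 4 * Δ * (4 * Δ) = 16 * Δ * Δ := by ring
          _ ≤ 16 * Δ * 1 := by gcongr
          _ = _ := mul_one _
      have hm2 : Measurable fun v => 4 * Δ * g v := hgm.const_mul _
      calc Qp (F i0) (F i0) v
          ≤ Qp (fun v => F' i0 v + 4 * Δ * g v) (fun v => F' i0 v + 4 * Δ * g v) v :=
            C.Qp_mono hup hup v
        _ = Qp (F' i0) (F' i0) v + Qp (F' i0) (fun v => 4 * Δ * g v) v +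
            (Qp (fun v => 4 * Δ * g v) (F' i0) v +
              Qp (fun v => 4 * Δ * g v) (fun v => 4 * Δ * g v) v) := by
            have hs : Measurable fun v => F' i0 v + 4 * Δ * g v := (hm i0).add hm2
            rw [A.Qp_add_left (hm i0) hs, A.Qp_add_right (hm i0) (hm i0),
              A.Qp_add_right hm2 (hm i0)]
        _ ≤ Qp (F' i0) (F' i0) v + 2 * (4 * Δ) * Qp g g v +
            (4 * Δ * 2 * Qp g g v + 16 * Δ * Qp g g v) := by gcongr
        _ = Qp (F' i0) (F' i0) v + Δ * (32 * Qp g g v) := by ring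
        _ ≤ Qp (F' i0) (F' i0) v + Δ * (32 * (ENNReal.ofReal (1 / 100) * spB P x v)) := by gcongr
        _ = Qp (F' i0) (F' i0) v + Δ * (ENNReal.ofReal (32 / 100) * spB P x v) := by
            congr 2
            rw [← mul_assoc]
            congr 1
            rw [show (32 : ℝ≥0∞) = ENNReal.ofReal 32 by norm_num,
              ← ENNReal.ofReal_mul (by norm_num)]
            norm_num
        _ ≤ Qp (F' i0) (F' i0) v + Δ * (1 * spB P x v) := by
            gcongr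
            rw [ENNReal.ofReal_le_one]; norm_num
        _ = _ := by rw [one_mul]
  · push Not at hex
    rw [spillF_none hex]
    exact zero_le

end Crest.Agent.R68.ColdSp
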