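import Crest.Agent.R68.ColdBasic

/-!
# Row 68, PART C: flights starting in the zone of a sheet (helper906)
-/

set_option autoImplicit false
open MeasureTheory Set Filter
open scoped ENNReal
open Crest.AnalysisR.VecCalc3 Crest.AnalysisR.PDE.Boltzmann

noncomputable section

namespace Crest.Agent.R68.Cold

/-- source of the cold component of lane `j` -/
structure Src (P : Par) (j : ℕ) (s : ℝ) (x : P2) (v : R3) : Prop where
  s0 : 0 ≤ s
  jj : P.j0 ≤ j
  labE : lab P s x ∈ laneE j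
  yy : |x.2| ≤ 2 * P.Y * (s + rr (lab P s x))
  pec : ‖v - uvec P (wj j) s x‖ < rhoj P.p j

variable {P : Par} (h : ColdPar C0 P) {j : ℕ}

theorem rhoj_pos (p j : ℕ) : 0 < rhoj p j := by unfold rhoj; exact pow_pos (bj_pos j) _

include h in
theorem rhoj_le (m : ℕ) (hm : m ≤ 256) : rhoj P.p j ≤ bj j ^ m := by
  unfold rhoj
  apply pow_le_pow_of_le_one (bj_pos j).le (bj_le_one j)
  have := h.p
  omega

section

variable {s t : ℝ} {x : P2} {v : R3} (S : Src P j s (x - (t - s) • bar v) v) (hst : s ≤ t)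

include h S in
theorem Src.A_bounds : bj j / 2 ≤ lab P s (x - (t - s) • bar v) ^ 2 ∧
    lab P s (x - (t - s) • bar v) ^ 2 ≤ 2 * bj j := by
  have h1 := laneE_bounds (j_pos h S.jj) S.labE
  have h2 := small_b h S.jj
  have h3 := bj_pos j
  constructor
  · refine le_trans ?_ h1.1; nlinarith
  · refine h1.2.trans ?_; nlinarith

include h S hst in
theorem Src.lab_diff : |lab P t x - lab P s (x - (t - s) • bar v)| ≤
    (t - s) / (1 + t) * rhoj P.p j := by
  refine (lab_flight x v (dl_pos' h) h.c S.s0 hst).trans ?_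
  have ht : 0 ≤ t := S.s0.trans hst
  apply mul_le_mul_of_nonneg_left _ (div_nonneg (by linarith) (by positivity))
  exact (abs_pec0_le (dl_pos' h) (wj j) s _ v).trans S.pec.le

include h S hst in
theorem Src.lab_diff1 : |lab P t x - lab P s (x - (t - s) • bar v)| ≤ rhoj P.p j := by
  refine (S.lab_diff h hst).trans ?_
  have ht : 0 ≤ t := S.s0.trans hst
  have h1 : (t - s) / (1 + t) ≤ 1 := by
    rw [div_le_one (by positivity)]; linarith [S.s0]
  nlinarith [rhoj_pos P.p j]

include h S hst in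
theorem Src.lab_diff2 : |lab P t x - lab P s (x - (t - s) • bar v)| ≤
    (t - s) * rhoj P.p j := by
  refine (S.lab_diff h hst).trans ?_
  have ht : 0 ≤ t := S.s0.trans hst
  apply mul_le_mul_of_nonneg_right _ (rhoj_pos _ _).le
  apply div_le_self (by linarith) (by linarith)

include h S hst in
theorem Src.B_bounds : bj j / 4 ≤ lab P t x ^ 2 ∧ lab P t x ^ 2 ≤ 3 * bj j := by
  have h1 := S.A_bounds h
  have h2 := (S.lab_diff1 h hst).trans (rhoj_le h 2 (by norm_num))
  have h3 := small_b h S.jj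
  have h4 := bj_pos j
  set A := lab P s (x - (t - s) • bar v)
  set B := lab P t x
  have h5 : (B - A) ^ 2 ≤ (bj j ^ 2) ^ 2 := by
    rw [← sq_abs]; exact pow_le_pow_left₀ (abs_nonneg _) h2 2
  have h6 : (bj j ^ 2) ^ 2 ≤ bj j / 100 := by
    have : (bj j ^ 2) ^ 2 = bj j * bj j ^ 3 := by ring
    rw [this]
    have h7 : bj j ^ 3 ≤ bj j := pow_le_of_le_one h4.le (bj_le_one j) (by norm_num)
    nlinarith
  constructor
  · nlinarith [sq_nonneg (3 * (B - A) + B), sq_nonneg (A - 10 * (B - A))]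
  · nlinarith [sq_nonneg (A - 10 * (B - A))]

include h S hst in
/-- (F2) -/
theorem Src.beta_le : beta t * ‖v - uvec P (wj j) t x‖ ^ 2 ≤
    beta s * ‖v - uvec P (wj j) s (x - (t - s) • bar v)‖ ^ 2 := by
  have hd := dl_pos' h
  have hA := S.A_bounds h
  have hB := S.B_bounds h hst
  have h4 := bj_pos j
  rw [pec_sq hd, pec_sq hd]
  have e1 : (x - (t - s) • bar v).1 = x.1 - (t - s) * v 0 := by simp [bar]
  have e2 : (x - (t - s) • bar v).2 = x.2 - (t - s) * v 1 := by simp [bar]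
  have hAA := lab_mul hd (c_pos' h) S.s0 (x - (t - s) • bar v)
  have hBB := lab_mul hd (c_pos' h) (S.s0.trans hst) x
  rw [e1] at hAA
  have hy := S.yy
  rw [e2] at hy ⊢
  set A := lab P s (x - (t - s) • bar v)
  set B := lab P t x
  have hA0 : 0 < A ^ 2 := by linarith [hA.1]
  refine flight_real hd h.c S.s0 hst h4 (by linarith [h.Y]) hAA hBB hA.2 hB.1 hB.2 hA0 ?_
    (small_Ysqrt h S.jj)
  rw [abs_div, abs_of_pos (by linarith [S.s0] : 0 < s + A ^ 2), div_le_iff₀ (by linarith [S.s0])]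
  exact hy

include h S hst in
/-- (F3) the fan coordinate -/
theorem Src.fan_diff : |x.2 / (t + lab P t x ^ 2) -
    (x - (t - s) • bar v).2 / (s + lab P s (x - (t - s) • bar v) ^ 2)| ≤
      2 * rhoj P.p j * ((t - s) / (t + lab P t x ^ 2)) := by
  have hd := dl_pos' h
  have hA := S.A_bounds h
  have hB := S.B_bounds h hst
  have h4 := bj_pos j
  have ht : 0 ≤ t := S.s0.trans hst
  have hdiff := S.lab_diff2 h hst
  have hp2 := (abs_pec1_le hd (wj j) s (x - (t - s) • bar v) v).trans S.pec.le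
  have hyy := S.yy
  set A := lab P s (x - (t - s) • bar v) with hAdef
  set B := lab P t x with hBdef
  have hA0 : 0 < A ^ 2 := by linarith [hA.1]
  have hB0 : 0 < B ^ 2 := by linarith [hB.1]
  rw [fan_flight_eq x v S.s0 hst (by
    intro h0; rw [← hAdef, ] at h0; rw [h0] at hA0; norm_num at hA0) (by
    intro h0; rw [← hBdef] at h0; rw [h0] at hB0; norm_num at hB0)]
  rw [← hAdef, ← hBdef]
  set y := (x - (t - s) • bar v).2 / (s + A ^ 2) with hy
  have hy' : |y| ≤ 2 * P.Y := by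
    rw [hy, abs_div, abs_of_pos (by linarith [S.s0] : 0 < s + A ^ 2),
      div_le_iff₀ (by linarith [S.s0])]
    exact hyy
  have hBp : 0 < t + B ^ 2 := by linarith
  rw [abs_div, abs_of_pos hBp, show 2 * rhoj P.p j * ((t - s) / (t + B ^ 2)) =
    2 * rhoj P.p j * (t - s) / (t + B ^ 2) by ring]
  apply div_le_div_of_nonneg_right _ hBp.le
  have hAabs : |A| ≤ 2 * √(bj j) := by
    rw [← Real.sqrt_sq_eq_abs]
    calc √(A ^ 2) ≤ √(2 ^ 2 * bj j) := Real.sqrt_le_sqrt (by linarith)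
      _ = 2 * √(bj j) := by rw [Real.sqrt_mul (by norm_num), Real.sqrt_sq (by norm_num)]
  have hBabs : |B| ≤ 2 * √(bj j) := by
    rw [← Real.sqrt_sq_eq_abs]
    calc √(B ^ 2) ≤ √(2 ^ 2 * bj j) := Real.sqrt_le_sqrt (by linarith)
      _ = 2 * √(bj j) := by rw [Real.sqrt_mul (by norm_num), Real.sqrt_sq (by norm_num)]
  have hsq : |A ^ 2 - B ^ 2| ≤ (t - s) * rhoj P.p j * (4 * √(bj j)) := by
    have e : A ^ 2 - B ^ 2 = -(B - A) * (A + B) := by ring
    rw [e, abs_mul, abs_neg]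
    apply mul_le_mul hdiff _ (abs_nonneg _) (mul_nonneg (by linarith) (rhoj_pos _ _).le)
    refine (abs_add_le _ _).trans ?_
    linarith
  have hfin : |A ^ 2 - B ^ 2| * |y| ≤ (t - s) * rhoj P.p j := by
    have h0 : 0 ≤ (t - s) * rhoj P.p j := mul_nonneg (by linarith) (rhoj_pos _ _).le
    have h1 := small_Ysqrt h S.jj
    have hY := h.Y
    have h2 : 0 ≤ √(bj j) := Real.sqrt_nonneg _
    have h3 : 4 * √(bj j) * (2 * P.Y) ≤ 1 := by
      have : P.Y * √(bj j) ≤ P.Y ^ 2 * √(bj j) := by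
        apply mul_le_mul_of_nonneg_right _ h2
        nlinarith
      linarith
    calc |A ^ 2 - B ^ 2| * |y| ≤ ((t - s) * rhoj P.p j * (4 * √(bj j))) * (2 * P.Y) :=
          mul_le_mul hsq hy' (abs_nonneg _) (mul_nonneg h0 (by positivity))
      _ = (t - s) * rhoj P.p j * (4 * √(bj j) * (2 * P.Y)) := by ring
      _ ≤ (t - s) * rhoj P.p j * 1 := mul_le_mul_of_nonneg_left h3 h0
      _ = _ := by ring
  calc |(A ^ 2 - B ^ 2) * y + (t - s) * (v 1 - y)| ≤ |(A ^ 2 - B ^ 2) * y| + |(t - s) * (v 1 - y)| :=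
        abs_add_le _ _
    _ = |A ^ 2 - B ^ 2| * |y| + (t - s) * |v 1 - y| := by
        rw [abs_mul, abs_mul, abs_of_nonneg (by linarith : 0 ≤ t - s)]
    _ ≤ (t - s) * rhoj P.p j + (t - s) * rhoj P.p j :=
        add_le_add hfin (mul_le_mul_of_nonneg_left hp2 (by linarith))
    _ = 2 * rhoj P.p j * (t - s) := by ring

end

end Crest.Agent.R68.Cold
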