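import Crest.Agent.R68.ColdGau

/-!
# Row 68, PART C: support of the cold component of one sheet (C2) (helper906)
-/

set_option autoImplicit false
open MeasureTheory Set Filter
open scoped ENNReal
open Crest.AnalysisR.VecCalc3 Crest.AnalysisR.PDE.Boltzmann

noncomputable section

namespace Crest.Agent.R68.Cold

variable {P : Par} (h : ColdPar C0 P) {j : ℕ}

/-- position part of the support up to the time `tauj` -/
def Pos (P : Par) (j : ℕ) (t : ℝ) (x : P2) : Prop :=
  (∃ a ∈ lane j, |lab P t x - a| ≤ rhoj P.p j * t) ∧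
    |x.2 / (t + lab P t x ^ 2)| ≤ P.Y + 4 * rhoj P.p j / √(bj j) * √t

/-- support of the cold particles: born at some time `σ ≤ tauj` in the zone -/
def Sup (P : Par) (j : ℕ) (t : ℝ) (x : P2) (v : R3) : Prop :=
  ∃ σ, 0 ≤ σ ∧ σ ≤ t ∧ σ ≤ tauj P.p j ∧ Src P j σ (x - (t - σ) • bar v) v ∧
    Pos P j σ (x - (t - σ) • bar v)

/-- tight zone in position -/
def Tight (P : Par) (j : ℕ) (t : ℝ) (x : P2) : Prop :=
  P.j0 ≤ j ∧ (∃ a ∈ lane j, |lab P t x - a| ≤ rhoj P.p j * tauj P.p j / bj j) ∧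
    |x.2| ≤ (P.Y + rhoj P.p j * tauj P.p j / bj j ^ 2) * (t + rr (lab P t x))

theorem Ztj_iff (t : ℝ) (x : P2) (v : R3) :
    Ztj P j t x v ↔ Tight P j t x ∧ ‖v - uvec P (wj j) t x‖ < 2 * rhoj P.p j := by
  unfold Ztj Tight
  tauto

theorem one_le_inv_b (j : ℕ) : 1 ≤ 1 / bj j := by
  rw [le_div_iff₀ (bj_pos j)]; linarith [bj_le_one j]

/-- the fan coordinate grows slowly -/
theorem fan_growth {s t : ℝ} {x : P2} {v : R3} (h : ColdPar C0 P)
    (S : Src P j s (x - (t - s) • bar v) v) (hst : s ≤ t) :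
    |x.2 / (t + lab P t x ^ 2)| ≤
      |(x - (t - s) • bar v).2 / (s + lab P s (x - (t - s) • bar v) ^ 2)| +
        4 * rhoj P.p j / √(bj j) * (√t - √s) := by
  have h1 := S.fan_diff h hst
  have hB := S.B_bounds h hst
  have hb := bj_pos j
  have hsb : 0 < √(bj j) := Real.sqrt_pos.2 hb
  have hBabs : √(bj j) / 2 ≤ |lab P t x| := by
    rw [← Real.sqrt_sq_eq_abs]
    have : √(bj j) / 2 = √(bj j / 4) := by
      rw [Real.sqrt_div hb.le, show (4:ℝ) = 2 ^ 2 by norm_num, Real.sqrt_sq (by norm_num)]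
    rw [this]
    exact Real.sqrt_le_sqrt hB.1
  have hBpos : 0 < |lab P t x| := by linarith
  have h2 := lam_le S.s0 hst hBpos
  rw [sq_abs] at h2
  have hsq : √s ≤ √t := Real.sqrt_le_sqrt hst
  have h3 : (√t - √s) / |lab P t x| ≤ (√t - √s) * (2 / √(bj j)) := by
    rw [div_eq_mul_inv]
    apply mul_le_mul_of_nonneg_left _ (by linarith)
    rw [inv_le_comm₀ hBpos (by positivity), inv_div]
    exact hBabs
  have hρ := rhoj_pos P.p j
  have h4 : 2 * rhoj P.p j * ((t - s) / (t + lab P t x ^ 2)) ≤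
      4 * rhoj P.p j / √(bj j) * (√t - √s) := by
    calc 2 * rhoj P.p j * ((t - s) / (t + lab P t x ^ 2))
        ≤ 2 * rhoj P.p j * ((√t - √s) * (2 / √(bj j))) := by
          apply mul_le_mul_of_nonneg_left (h2.trans h3) (by positivity)
      _ = _ := by ring
  have h5 := abs_sub_abs_le_abs_sub (x.2 / (t + lab P t x ^ 2))
    ((x - (t - s) • bar v).2 / (s + lab P s (x - (t - s) • bar v) ^ 2))
  linarith

/-- position part of the support -/
theorem Sup.pos {t : ℝ} {x : P2} {v : R3} (h : ColdPar C0 P) (S : Sup P j t x v) : Pos P j t x := by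
  obtain ⟨σ, h0, h1, h2, h3, ⟨a, ha, h4⟩, h5⟩ := S
  refine ⟨⟨a, ha, ?_⟩, ?_⟩
  · have h6 := h3.lab_diff2 h h1
    have h7 : |lab P t x - a| ≤ |lab P t x - lab P σ (x - (t - σ) • bar v)| +
        |lab P σ (x - (t - σ) • bar v) - a| := abs_sub_le _ _ _
    linarith
  · have h6 := fan_growth h h3 h1
    have h7 : 4 * rhoj P.p j / √(bj j) * (√t - √σ) =
        4 * rhoj P.p j / √(bj j) * √t - 4 * rhoj P.p j / √(bj j) * √σ := by ring
    linarith

/-- tight zone -/
theorem Sup.tight {t : ℝ} {x : P2} {v : R3} (h : ColdPar C0 P) (S : Sup P j t x v) :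
    Ztj P j t x v := by
  rw [Ztj_iff]
  obtain ⟨σ, h0, h1, h2, h3, ⟨a, ha, h4⟩, h5⟩ := S
  have hb := bj_pos j
  have hρ := rhoj_pos P.p j
  have hτ := one_le_tauj P.p j
  have hsm := small_b h h3.jj
  have hib := one_le_inv_b j
  have ht : 0 ≤ t := h0.trans h1
  refine ⟨⟨h3.jj, ⟨a, ha, ?_⟩, ?_⟩, ?_⟩
  · have h6 := h3.lab_diff1 h h1
    have h7 : |lab P t x - a| ≤ |lab P t x - lab P σ (x - (t - σ) • bar v)| +
        |lab P σ (x - (t - σ) • bar v) - a| := abs_sub_le _ _ _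
    have h8 : rhoj P.p j * σ ≤ rhoj P.p j * tauj P.p j := mul_le_mul_of_nonneg_left h2 hρ.le
    have h9 : rhoj P.p j ≤ rhoj P.p j * tauj P.p j := by nlinarith
    have h10 : 2 * (rhoj P.p j * tauj P.p j) ≤ rhoj P.p j * tauj P.p j / bj j := by
      rw [le_div_iff₀ hb]
      have : 0 < rhoj P.p j * tauj P.p j := by positivity
      nlinarith
    linarith
  · have hB := h3.B_bounds h h1
    have hBp : 0 < t + lab P t x ^ 2 := by linarith
    have hyσ : |(x - (t - σ) • bar v).2 / (σ + lab P σ (x - (t - σ) • bar v) ^ 2)| ≤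
      P.Y + 4 * rhoj P.p j / √(bj j) * √(tauj P.p j) := by
      refine h5.trans ?_
      have : √σ ≤ √(tauj P.p j) := Real.sqrt_le_sqrt h2
      have : 4 * rhoj P.p j / √(bj j) * √σ ≤ 4 * rhoj P.p j / √(bj j) * √(tauj P.p j) := by
        gcongr
      linarith
    have hd := h3.fan_diff h h1
    have hlam : (t - σ) / (t + lab P t x ^ 2) ≤ 1 := by
      rw [div_le_one hBp]; linarith [sq_nonneg (lab P t x)]
    have h6 : |x.2 / (t + lab P t x ^ 2)| ≤ P.Y + 4 * rhoj P.p j / √(bj j) * √(tauj P.p j) +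
        2 * rhoj P.p j := by
      have h7 := abs_sub_abs_le_abs_sub (x.2 / (t + lab P t x ^ 2))
        ((x - (t - σ) • bar v).2 / (σ + lab P σ (x - (t - σ) • bar v) ^ 2))
      have h8 : 2 * rhoj P.p j * ((t - σ) / (t + lab P t x ^ 2)) ≤ 2 * rhoj P.p j * 1 :=
        mul_le_mul_of_nonneg_left hlam (by positivity)
      linarith
    have h9 : 4 * rhoj P.p j / √(bj j) * √(tauj P.p j) + 2 * rhoj P.p j ≤
        rhoj P.p j * tauj P.p j / bj j ^ 2 := by
      have e1 : √(tauj P.p j) ≤ tauj P.p j := by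
        rw [Real.sqrt_le_left (by positivity)]
        nlinarith
      have e2 : bj j ≤ √(bj j) := by
        apply Real.le_sqrt_of_sq_le
        nlinarith [bj_le_one j]
      have e3 : 4 * rhoj P.p j / √(bj j) * √(tauj P.p j) ≤ 4 * rhoj P.p j / bj j * tauj P.p j := by
        gcongr
      have e4 : 4 * rhoj P.p j / bj j * tauj P.p j + 2 * rhoj P.p j ≤
          6 * (rhoj P.p j * tauj P.p j / bj j) := by
        have : 2 * rhoj P.p j ≤ 2 * (rhoj P.p j * tauj P.p j / bj j) := by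
          have : rhoj P.p j * 1 ≤ rhoj P.p j * (tauj P.p j * (1 / bj j)) := by
            apply mul_le_mul_of_nonneg_left _ hρ.le
            nlinarith
          calc 2 * rhoj P.p j = 2 * (rhoj P.p j * 1) := by ring
            _ ≤ 2 * (rhoj P.p j * (tauj P.p j * (1 / bj j))) := by linarith
            _ = _ := by ring
        calc 4 * rhoj P.p j / bj j * tauj P.p j + 2 * rhoj P.p j ≤
            4 * rhoj P.p j / bj j * tauj P.p j + 2 * (rhoj P.p j * tauj P.p j / bj j) := by linarith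
          _ = _ := by ring
      have e5 : 6 * (rhoj P.p j * tauj P.p j / bj j) ≤ rhoj P.p j * tauj P.p j / bj j ^ 2 := by
        rw [show 6 * (rhoj P.p j * tauj P.p j / bj j) = 6 * bj j * (rhoj P.p j * tauj P.p j) / bj j ^ 2 by
          field_simp]
        apply div_le_div_of_nonneg_right _ (by positivity)
        have : 0 < rhoj P.p j * tauj P.p j := by positivity
        nlinarith
      linarith
    rw [abs_div, abs_of_pos hBp, div_le_iff₀ hBp] at h6
    refine h6.trans ?_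
    unfold rr
    apply mul_le_mul_of_nonneg_right _ hBp.le
    linarith
  · have h6 := h3.beta_le h h1
    have h7 : ‖v - uvec P (wj j) σ (x - (t - σ) • bar v)‖ ^ 2 < rhoj P.p j ^ 2 := by
      apply pow_lt_pow_left₀ h3.pec (norm_nonneg _) (by norm_num)
    have h8 := half_le_beta t
    have h9 := beta_le_one σ
    have h10 := beta_pos σ
    have h11 : ‖v - uvec P (wj j) t x‖ ^ 2 < (2 * rhoj P.p j) ^ 2 := by
      have e1 : 1 / 2 * ‖v - uvec P (wj j) t x‖ ^ 2 ≤ beta t * ‖v - uvec P (wj j) t x‖ ^ 2 :=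
        mul_le_mul_of_nonneg_right h8 (sq_nonneg _)
      have e2 : beta σ * ‖v - uvec P (wj j) σ (x - (t - σ) • bar v)‖ ^ 2 ≤
          1 * ‖v - uvec P (wj j) σ (x - (t - σ) • bar v)‖ ^ 2 :=
        mul_le_mul_of_nonneg_right h9 (sq_nonneg _)
      have e3 : 0 < rhoj P.p j ^ 2 := by positivity
      nlinarith
    have h12 := abs_lt_of_sq_lt_sq h11 (by positivity)
    rwa [abs_of_nonneg (norm_nonneg _)] at h12

/-- labels close to the lane are in the enlarged lane -/
theorem laneE_of_near (h : ColdPar C0 P) (hj : P.j0 ≤ j) {a B : ℝ} (ha : a ∈ lane j)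
    (hB : |B - a| ≤ bj j ^ 4) : B ∈ laneE j := by
  have hb := bj_pos j
  have hsm := small_b h hj
  have hbd := laneE_bounds (j_pos h hj) (Fuel.lane_subset_laneE j ha)
  have ha1 : bj j / 2 ≤ a ^ 2 := by refine le_trans ?_ hbd.1; nlinarith
  have ha2 : a ^ 2 ≤ 2 * bj j := by refine hbd.2.trans ?_; nlinarith
  have hd2 : (B - a) ^ 2 ≤ bj j ^ 8 := by
    rw [← sq_abs]
    calc |B - a| ^ 2 ≤ (bj j ^ 4) ^ 2 := pow_le_pow_left₀ (abs_nonneg _) hB 2
      _ = _ := by ring
  have hb8 : bj j ^ 8 ≤ bj j / 10000 := by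
    have : bj j ^ 8 = bj j * bj j ^ 7 := by ring
    rw [this]
    have h7 : bj j ^ 7 ≤ bj j := pow_le_of_le_one hb.le (bj_le_one j) (by norm_num)
    nlinarith
  have hB1 : bj j / 4 ≤ B ^ 2 := by
    nlinarith [sq_nonneg (3 * (B - a) + B), sq_nonneg (a - 10 * (B - a))]
  have hB2 : B ^ 2 ≤ 3 * bj j := by nlinarith [sq_nonneg (a - 10 * (B - a))]
  have hB0 : 0 < B ^ 2 := by linarith
  have ha0 : 0 < a ^ 2 := by linarith
  -- difference of the inverse squares
  have hdiff : |1 / B ^ 2 - 1 / a ^ 2| ≤ 1 / 200 := by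
    have hBne : B ≠ 0 := fun h0 => by rw [h0] at hB0; norm_num at hB0
    have hane : a ≠ 0 := fun h0 => by rw [h0] at ha0; norm_num at ha0
    have e1 : 1 / B ^ 2 - 1 / a ^ 2 = -(B - a) * (B + a) / (B ^ 2 * a ^ 2) := by
      field_simp; ring
    rw [e1, abs_div, abs_mul, abs_neg, abs_of_pos (by positivity : 0 < B ^ 2 * a ^ 2),
      div_le_iff₀ (by positivity)]
    have e2 : |B + a| ≤ 4 := by
      have : (B + a) ^ 2 ≤ 4 ^ 2 := by nlinarith [sq_nonneg (B - a), bj_le_one j]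
      exact abs_le_of_sq_le_sq this (by norm_num)
    have e3 : |B - a| * |B + a| ≤ bj j ^ 4 * 4 := mul_le_mul hB e2 (abs_nonneg _) (by positivity)
    have e4 : bj j / 4 * (bj j / 2) ≤ B ^ 2 * a ^ 2 := mul_le_mul hB1 ha1 (by positivity) hB0.le
    have e5 : bj j ^ 4 * 4 ≤ 1 / 200 * (bj j / 4 * (bj j / 2)) := by
      have : bj j ^ 4 * 4 = bj j ^ 2 * (4 * bj j * bj j) := by ring
      rw [this]
      have e6 : 4 * bj j * bj j ≤ 1 / 1600 := by nlinarith [bj_le_one j]
      nlinarith [sq_nonneg (bj j)]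
    linarith
  rw [abs_le] at hdiff
  obtain ⟨h1, h2, h3⟩ := ha
  refine ⟨?_, ?_, ?_⟩
  · intro h0; rw [h0] at hB0; norm_num at hB0
  · linarith [hdiff.1]
  · linarith [hdiff.2]

/-- the tight zone is inside the zone -/
theorem Tight.zone (h : ColdPar C0 P) {t : ℝ} (ht : 0 ≤ t) {x : P2} (hT : Tight P j t x) :
    P.j0 ≤ j ∧ lab P t x ∈ laneE j ∧ |x.2| < 2 * P.Y * (t + rr (lab P t x)) := by
  obtain ⟨hj, ⟨a, ha, h1⟩, h2⟩ := hT
  have hb := bj_pos j
  have hsm := small_b h hj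
  have h3 : rhoj P.p j * tauj P.p j / bj j ≤ bj j ^ 4 := by
    rw [div_le_iff₀ hb]
    exact (rt_le h 5 (by norm_num)).trans (le_of_eq (by ring))
  have h4 := laneE_of_near h hj ha (h1.trans h3)
  refine ⟨hj, h4, h2.trans_lt ?_⟩
  have hr := Fuel.rr_pos h4.1
  apply mul_lt_mul_of_pos_right _ (by linarith)
  have h5 : rhoj P.p j * tauj P.p j / bj j ^ 2 ≤ bj j ^ 3 := by
    rw [div_le_iff₀ (by positivity)]
    exact (rt_le h 5 (by norm_num)).trans (le_of_eq (by ring))
  have h6 : bj j ^ 3 ≤ bj j := pow_le_of_le_one hb.le (bj_le_one j) (by norm_num)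
  have := h.Y
  linarith

/-- position inside the birth times: the zone -/
theorem Pos.zone (h : ColdPar C0 P) (hj : P.j0 ≤ j) {t : ℝ} (ht : 0 ≤ t) (htτ : t ≤ tauj P.p j)
    {x : P2} (hT : Pos P j t x) :
    lab P t x ∈ laneE j ∧ |x.2| < 2 * P.Y * (t + rr (lab P t x)) := by
  obtain ⟨⟨a, ha, h1⟩, h2⟩ := hT
  have hb := bj_pos j
  have hρ := rhoj_pos P.p j
  have hτ := one_le_tauj P.p j
  have hsm := small_b h hj
  have h3 : rhoj P.p j * t ≤ bj j ^ 4 :=
    (mul_le_mul_of_nonneg_left htτ hρ.le).trans (rt_le h 4 (by norm_num))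
  have h4 := laneE_of_near h hj ha (h1.trans h3)
  have hr := Fuel.rr_pos h4.1
  refine ⟨h4, ?_⟩
  have hBp : 0 < t + lab P t x ^ 2 := by unfold rr at hr; linarith
  rw [abs_div, abs_of_pos hBp, div_le_iff₀ hBp] at h2
  refine h2.trans_lt ?_
  unfold rr
  apply mul_lt_mul_of_pos_right _ hBp
  have e1 : √t ≤ tauj P.p j := by
    rw [Real.sqrt_le_left (by positivity)]
    nlinarith
  have e2 : bj j ≤ √(bj j) := by
    apply Real.le_sqrt_of_sq_le
    nlinarith [bj_le_one j]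
  have e3 : 4 * rhoj P.p j / √(bj j) * √t ≤ 4 * rhoj P.p j / bj j * tauj P.p j := by
    gcongr
  have e4 : 4 * rhoj P.p j / bj j * tauj P.p j ≤ 4 * bj j ^ 2 := by
    have := rt_le h (j := j) 3 (by norm_num)
    calc 4 * rhoj P.p j / bj j * tauj P.p j = 4 * (rhoj P.p j * tauj P.p j) / bj j := by ring
      _ ≤ 4 * bj j ^ 3 / bj j := by gcongr
      _ = 4 * bj j ^ 2 := by field_simp
  have e5 : bj j ^ 2 ≤ bj j := pow_le_of_le_one hb.le (bj_le_one j) (by norm_num)
  have := h.Y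
  linarith

end Crest.Agent.R68.Cold
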