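import Crest.Agent.R68.ColdVS2
import Crest.Agent.R68.ColdOutA

/-!
# Row 68, part W (helper835): `VSOut_holds` from helper779's `ColdVS2`.
-/

set_option autoImplicit false
open Filter
open scoped Topology

namespace Crest.Agent.R68.WP

theorem VSOut_holds {K Y : ℝ} (ey : ℝ) (p : ℕ) (hK : 1 ≤ K) (hY : 1 ≤ Y) : VSOut K Y ey p :=
  fun _ _ _ hC hell hS =>
    ⟨ColdW.vsR_lint ey p hK hY hC hell hS, ColdW.al_massB ey p hK hY hC hell hS,
      fun _ => ColdW.measurable_vsR _ _ _ _⟩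

end Crest.Agent.R68.WP
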