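import Crest.Agent.R68.FSum
import Crest.Agent.R68.DPoles3

/-!
# Row 68, part C for `t ≥ T1` (helper827): fuel sheets, closeness to the velocity field, `Dw` on the fuel
-/

set_option autoImplicit false
open MeasureTheory Set
open scoped ENNReal
open Crest.AnalysisR.VecCalc3 Crest.AnalysisR.PDE.Boltzmann

noncomputable section

namespace Crest.Agent.R68.ColdW

open Crest.Agent.R68 Crest.Agent.R68.Fuel

variable {P : Par}

lemma abs_coord_le (v : R3) (i : Fin 3) : |v i| ≤ ‖v‖ := by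
  have := PiLp.norm_apply_le v i
  simpa [Real.norm_eq_abs] using this

lemma norm_sq_eq (v : R3) : ‖v‖ ^ 2 = v 0 ^ 2 + v 1 ^ 2 + v 2 ^ 2 := by
  rw [EuclideanSpace.norm_eq, Fin.sum_univ_three, Real.sq_sqrt (by positivity)]
  simp only [Real.norm_eq_abs, sq_abs]

lemma lab_eq (h : P.Ok) {t : ℝ} (_ht : 0 ≤ t) (X : P2) : lab P t X = X.1 / (1 + P.kap * t) := by
  have hd := Ok.dlp h
  have hc := h.c0
  unfold lab Par.kap
  rw [div_eq_div_iff (by positivity) (by positivity)]
  field_simp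

lemma uvec0 (h : P.Ok) {t : ℝ} (ht : 0 ≤ t) (s : ℝ) (X : P2) :
    uvec P s t X 0 = P.kap * lab P t X := by
  have hd := Ok.dlp h
  have hc := h.c0
  have : uvec P s t X 0 = P.c * X.1 / (P.dl + P.c * t) := by simp [uvec]
  rw [this, lab, Par.kap]
  have : 0 < P.dl + P.c * t := by positivity
  field_simp

lemma uvec1 (s t : ℝ) (X : P2) : uvec P s t X 1 = X.2 / (t + rr (lab P t X)) := by simp [uvec]

lemma uvec2 (s t : ℝ) (X : P2) : uvec P s t X 2 = s := by simp [uvec]

/-- elementary facts for a velocity in the support of a sheet -/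
structure Close (P : Par) (j : ℕ) (t : ℝ) (X : P2) (v : R3) (a z : ℝ) : Prop where
  al : a ∈ lane j
  zl : |z| < P.Y * rr a
  X1 : X.1 = a + t * v 0
  X2 : X.2 = z + t * v 1
  e0 : |v 0 - P.kap * a| < etaj P.p j
  e1 : |v 1 - z / rr a| < etaj P.p j
  e2 : |v 2 - wj j| < etaj P.p j

lemma close_of_mem {j : ℕ} {t : ℝ} {X : P2} {v : R3} (hv : v ∈ lset P j t X) :
    Close P j t X v (X.1 - t * v 0) (X.2 - t * v 1) := by
  rw [mem_lset] at hv
  obtain ⟨⟨h1, h2⟩, h3, h4, h5⟩ := hv
  exact ⟨h1, h2, by ring, by ring, h3, h4, h5⟩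

namespace Close

variable {j : ℕ} {t : ℝ} {X : P2} {v : R3} {a z : ℝ}

lemma lab_sub (h : P.Ok) (ht : 0 ≤ t) (c : Close P j t X v a z) :
    lab P t X - a = t * (v 0 - P.kap * a) / (1 + P.kap * t) := by
  have hk := Ok.kap0 h
  rw [lab_eq h ht, c.X1]
  field_simp; ring

lemma abs_lab_sub (h : P.Ok) (ht : 0 ≤ t) (c : Close P j t X v a z) :
    |lab P t X - a| ≤ etaj P.p j * (t / (1 + P.kap * t)) := by
  have hk := Ok.kap0 h
  have hη := etaj_pos P.p j
  rw [c.lab_sub h ht, abs_div, abs_mul, abs_of_nonneg ht, abs_of_pos (by positivity : 0 < 1 + P.kap * t)]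
  have := c.e0
  rw [div_le_iff₀ (by positivity)]
  have h1 : etaj P.p j * (t / (1 + P.kap * t)) * (1 + P.kap * t) = t * etaj P.p j := by
    field_simp
  rw [h1]
  gcongr

lemma abs_lab_sub_t (h : P.Ok) (ht : 0 ≤ t) (c : Close P j t X v a z) :
    |lab P t X - a| ≤ etaj P.p j * t := by
  have hk := Ok.kap0 h
  have hη := etaj_pos P.p j
  refine (c.abs_lab_sub h ht).trans ?_
  gcongr
  rw [div_le_iff₀ (by positivity)]
  nlinarith [mul_nonneg hk ht]

lemma abs_lab_sub_eta (h : P.Ok) (ht : 0 ≤ t) (c : Close P j t X v a z) :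
    |lab P t X - a| ≤ etaj P.p j := by
  have hk := h.kap1
  have hη := etaj_pos P.p j
  refine (c.abs_lab_sub h ht).trans ?_
  have : t / (1 + P.kap * t) ≤ 1 := by
    rw [div_le_one (by positivity)]
    nlinarith
  nlinarith

lemma rr_pos' (c : Close P j t X v a z) : 0 < rr a := rr_pos c.al.1

lemma abs_X2 (h : P.Ok) (ht : 0 ≤ t) (c : Close P j t X v a z) :
    |X.2| ≤ (P.Y + etaj P.p j) * (t + rr a) := by
  have hr := c.rr_pos'
  have hη := etaj_pos P.p j
  have hY := h.Y0
  have h1 : |z / rr a| < P.Y := by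
    rw [abs_div, abs_of_pos hr, div_lt_iff₀ hr]; exact c.zl
  have h2 : |v 1| ≤ P.Y + etaj P.p j := by
    have := abs_sub_abs_le_abs_sub (v 1) (z / rr a)
    have := c.e1
    linarith
  rw [c.X2]
  refine (abs_add_le _ _).trans ?_
  rw [abs_mul, abs_of_nonneg ht]
  have := c.zl
  nlinarith

/-- distance of the velocity to the velocity field -/
lemma norm_sub_uvec (h : P.Ok) (hj : P.j0 ≤ j) (ht : 0 ≤ t) (c : Close P j t X v a z) :
    ‖v - uvec P (wj j) t X‖ ≤ 2 * etaj P.p j := by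
  have hr := c.rr_pos'
  have hη := etaj_pos P.p j
  have hη1 := etaj_le_one P.p j
  have hY := h.Y0
  have hk := Ok.kap0 h
  have hd := Ok.dlp h
  have hd20 := Ok.dl20 h
  have hYs := h.Ysm
  have hal := lane_lt_dl (Ok.j1 h) hj c.al
  set A := lab P t X with hA
  have hAa := c.abs_lab_sub_t h ht
  have hAe := c.abs_lab_sub_eta h ht
  have hηs : etaj P.p j ≤ P.dl := by
    have h1 := etaj_small h.p3 (h.j0.trans hj)
    have h2 : (1 : ℝ) / (2 * j + 1) ≤ P.dl ^ 2 := by
      rw [dl_sq]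
      have : (P.j0 : ℝ) ≤ j := by exact_mod_cast hj
      have h3 : (0 : ℝ) < P.j0 := by have := h.j0; positivity
      gcongr
      linarith
    have h4 : etaj P.p j ≤ 1 / (2 * (j : ℝ) + 1) := by
      unfold etaj
      calc (1 / (2 * (j : ℝ) + 1)) ^ P.p ≤ (1 / (2 * (j : ℝ) + 1)) ^ 1 :=
            pow_le_pow_of_le_one (by positivity) (inv_le_one' j) (by have := h.p3; omega)
        _ = _ := pow_one _
    nlinarith
  -- coordinate 0
  have c0 : |v 0 - P.kap * A| ≤ etaj P.p j := by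
    have h1 : v 0 - P.kap * A = (v 0 - P.kap * a) / (1 + P.kap * t) := by
      have := c.lab_sub h ht
      have h2 : A = a + t * (v 0 - P.kap * a) / (1 + P.kap * t) := by linarith
      rw [h2]; field_simp; ring
    rw [h1, abs_div, abs_of_pos (by positivity : 0 < 1 + P.kap * t), div_le_iff₀ (by positivity)]
    have := c.e0
    nlinarith [mul_nonneg hk ht]
  -- coordinate 1
  have hpos : 0 < t + rr a := by positivity
  have hrA : 0 ≤ rr A := rr_nonneg A
  have c1a : |v 1 - X.2 / (t + rr a)| ≤ etaj P.p j := by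
    have h1 : v 1 - X.2 / (t + rr a) = rr a * (v 1 - z / rr a) / (t + rr a) := by
      rw [c.X2]; field_simp; ring
    rw [h1, abs_div, abs_mul, abs_of_pos hpos, abs_of_pos hr, div_le_iff₀ hpos]
    have := c.e1
    nlinarith
  have c1b : |X.2 / (t + rr a) - X.2 / (t + rr A)| ≤ 3 / 10 * etaj P.p j := by
    rcases eq_or_lt_of_le ht with h0 | h0
    · have : A = a := by
        have := c.lab_sub h ht
        rw [← h0] at this
        have h2 : lab P 0 X - a = 0 := by rw [this]; ring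
        rw [hA, ← h0]; linarith
      rw [this, sub_self, abs_zero]; positivity
    have hposA : 0 < t + rr A := by positivity
    have h1 : X.2 / (t + rr a) - X.2 / (t + rr A)
        = (X.2 / (t + rr a)) * ((A - a) * (A + a)) / (t + rr A) := by
      unfold rr at *
      field_simp; ring
    have h2 : |X.2 / (t + rr a)| ≤ P.Y + 1 := by
      rw [abs_div, abs_of_pos hpos, div_le_iff₀ hpos]
      refine (c.abs_X2 h ht).trans ?_
      gcongr
    have h3 : |A + a| ≤ 3 * P.dl := by
      have h4 : |A + a| ≤ |A - a| + 2 * |a| := by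
        have h5 : A + a = (A - a) + 2 * a := by ring
        rw [h5]
        refine (abs_add_le _ _).trans ?_
        rw [abs_mul]; norm_num
      linarith
    rw [h1, abs_div, abs_of_pos hposA, abs_mul, abs_mul, div_le_iff₀ hposA]
    calc |X.2 / (t + rr a)| * (|A - a| * |A + a|)
        ≤ (P.Y + 1) * ((etaj P.p j * t) * (3 * P.dl)) := by gcongr
      _ = (3 * (P.Y * P.dl) + 3 * P.dl) * (etaj P.p j * t) := by ring
      _ ≤ (3 / 10) * (etaj P.p j * t) := by gcongr; linarith
      _ ≤ 3 / 10 * etaj P.p j * (t + rr A) := by nlinarith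
  have c1 : |v 1 - X.2 / (t + rr A)| ≤ 13 / 10 * etaj P.p j := by
    have := abs_sub_le (v 1) (X.2 / (t + rr a)) (X.2 / (t + rr A))
    linarith
  have c2 := c.e2
  have h0 : (v - uvec P (wj j) t X) 0 = v 0 - P.kap * A := by
    rw [PiLp.sub_apply, uvec0 h ht]
  have h1 : (v - uvec P (wj j) t X) 1 = v 1 - X.2 / (t + rr A) := by
    rw [PiLp.sub_apply, uvec1]
  have h2 : (v - uvec P (wj j) t X) 2 = v 2 - wj j := by
    rw [PiLp.sub_apply, uvec2]
  have hsq : ‖v - uvec P (wj j) t X‖ ^ 2 ≤ (2 * etaj P.p j) ^ 2 := by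
    rw [norm_sq_eq, h0, h1, h2]
    have k0 := sq_le_sq' (by linarith [abs_le.1 c0]) (abs_le.1 c0).2
    have k1 := sq_le_sq' (abs_le.1 c1).1 (abs_le.1 c1).2
    have k2 := sq_le_sq' (abs_le.1 c2.le).1 (abs_le.1 c2.le).2
    nlinarith
  exact le_of_sq_le_sq hsq (by positivity)

end Close

end Crest.Agent.R68.ColdW
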