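import Crest.Agent.R68.ColdVS
import Crest.Agent.R68.WK5
import Crest.Agent.R68.WA0

/-!
# Row 68, part W (helper827): collisions of two cold sheets, all times (one pair)
-/

set_option autoImplicit false
open MeasureTheory Set
open scoped ENNReal NNReal
open Crest.AnalysisR.VecCalc3 Crest.AnalysisR.PDE.Boltzmann

noncomputable section

namespace Crest.Agent.R68.ColdW

open Crest.Agent.R68
open Crest.Agent.R68.WA (We)
open Crest.Agent.R68.WK (ew Ep Qp_cold_le Cpl Cpl_lt_top kp measurable_kp)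

variable {P : Par}

/-! ### a bounded profile against a cold profile -/

theorem one_kp_newt {c : R3 → ℝ≥0∞} (hc : Measurable c) (v : R3) :
    ∫⁻ z, (1 + kp 1 z) * c (v + z) = (∫⁻ u, c u) + C.newt c v := by
  have h0 : ∫⁻ z, kp 1 z * c (v + z) = C.newt c v := by
    rw [C.newt_eq]
    refine lintegral_congr_ae ?_
    filter_upwards [compl_mem_ae_iff.2 (measure_singleton (0 : R3))] with z hz
    have hz0 : 0 < ‖z‖ := norm_pos_iff.2 hz
    congr 1
    unfold kp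
    rw [ENNReal.rpow_neg_one, ENNReal.ofReal_inv_of_pos hz0]
  rw [← h0]
  have h : ∀ z, (1 + kp 1 z) * c (v + z) = c (v + z) + kp 1 z * c (v + z) := fun z => by ring
  simp_rw [h]
  rw [lintegral_add_left (by fun_prop), lintegral_add_left_eq_self (fun z => c z) v]

/-- constant of the collisions with a bounded profile -/
def CS (R' : ℝ) : ℝ≥0∞ :=
  ENNReal.ofReal (Real.exp R') * (2 * Cpl 0 * ENNReal.ofReal (Real.exp R' * (1 + R')))

theorem CS_ne_top (R' : ℝ) : CS R' ≠ ⊤ :=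
  ENNReal.mul_ne_top ENNReal.ofReal_ne_top (ENNReal.mul_ne_top
    (ENNReal.mul_ne_top (by norm_num) (Cpl_lt_top 0).ne) ENNReal.ofReal_ne_top)

theorem Ep_zero_empty (y : R3) : Ep 0 0 ∅ y = We y := by
  unfold Ep WK.Sp ew We
  simp

/-- gain of a cold profile against a bounded one -/
theorem Qp_broad {M R' : ℝ} (hR' : 0 ≤ R') {f g : R3 → ℝ≥0∞} (hf : Measurable f)
    (hsf : ∀ y, R' < ‖y‖ → f y = 0) (hsg : ∀ y, R' < ‖y‖ → g y = 0)
    (hM : ∀ y, g y ≤ ENNReal.ofReal M) (v : R3) :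
    Qp f g v ≤ ENNReal.ofReal M * CS R' * (We v * ((∫⁻ u, f u) + C.newt f v)) := by
  have hc : ENNReal.ofReal M * ENNReal.ofReal (Real.exp R') ≠ ⊤ :=
    ENNReal.mul_ne_top ENNReal.ofReal_ne_top ENNReal.ofReal_ne_top
  have h1 : ∀ y, g y ≤ ENNReal.ofReal M * ENNReal.ofReal (Real.exp R') * Ep 0 0 ∅ y := by
    intro y
    rcases lt_or_ge R' ‖y‖ with h | h
    · rw [hsg y h]; exact bot_le
    · rw [Ep_zero_empty, mul_assoc]
      calc g y ≤ ENNReal.ofReal M * 1 := by rw [mul_one]; exact hM y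
        _ ≤ _ := by
          gcongr
          unfold We
          rw [← ENNReal.ofReal_mul (Real.exp_pos _).le, ← Real.exp_add, ← ENNReal.ofReal_one]
          apply ENNReal.ofReal_le_ofReal
          exact Real.one_le_exp (by linarith)
  calc Qp f g v ≤ Qp f (fun y => ENNReal.ofReal M * ENNReal.ofReal (Real.exp R') * Ep 0 0 ∅ y) v :=
        WA.Qp_mono (fun _ => le_rfl) h1 v
    _ = ENNReal.ofReal M * ENNReal.ofReal (Real.exp R') * Qp f (Ep 0 0 ∅) v :=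
        WA.Qp_smul_right hc _ _ v
    _ ≤ ENNReal.ofReal M * ENNReal.ofReal (Real.exp R') *
          ((2 * Cpl 0 * ENNReal.ofReal (Real.exp R' * (1 + R'))) * ew 0 v *
            ∫⁻ z, (1 + kp 1 z) * f (v + z)) := by
        gcongr
        exact Qp_cold_le 0 (by simp) hf hR' hsf v
    _ = _ := by
        rw [one_kp_newt hf]
        have e : ew 0 v = We v := by unfold ew We; simp
        rw [e]; unfold CS; ring

/-! ### sheets -/

/-- the majorant of one sheet `i = (image, lane)` -/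
def sh (P : Par) (t : ℝ) (x : P2) (i : (ℤ × ℤ) × ℕ) (v : R3) : ℝ≥0∞ :=
  phij P i.2 t (x + latt i.1) v + warmj P i.2 t (x + latt i.1) v

lemma sh_eq_zero (h : Big P) {t : ℝ} (ht : 0 ≤ t) {x : P2} {i : (ℤ × ℤ) × ℕ}
    (hz : ¬ zt P i.2 t (x + latt i.1)) (v : R3) : sh P t x i v = 0 := by
  unfold sh
  rw [warmj_eq_zero hz, add_zero]
  by_contra h1
  exact hz (Ztj_iff.1 (Ztj_of_phij h.ok h.p ht h1)).1

lemma sh_ne_zero (h : Big P) {t : ℝ} (ht : 0 ≤ t) {x : P2} {i : (ℤ × ℤ) × ℕ} {v : R3}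
    (h0 : sh P t x i v ≠ 0) : Ztj P i.2 t (x + latt i.1) v := by
  unfold sh at h0
  rw [ne_eq, add_eq_zero, not_and_or] at h0
  rcases h0 with h0 | h0
  · exact Ztj_of_phij h.ok h.p ht h0
  · by_contra h1
    apply h0
    unfold warmj
    rw [if_neg h1]

lemma phij_le_phiE (h : Big P) (t : ℝ) (x : P2) (i : (ℤ × ℤ) × ℕ) (v : R3) :
    phij P i.2 t (x + latt i.1) v ≤ phiE P t x v := by
  unfold phiE
  rw [Fuel.ofReal_phi h.ok, phij_eq h.ok]
  exact (ENNReal.le_tsum (f := fun j => ENNReal.ofReal (Fuel.phs P j t (x + latt i.1) v)) i.2).trans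
    (ENNReal.le_tsum (f := fun k => ∑' j, ENNReal.ofReal (Fuel.phs P j t (x + latt k) v)) i.1)

lemma warmj_le_warm (P : Par) (t : ℝ) (x : P2) (i : (ℤ × ℤ) × ℕ) (v : R3) :
    warmj P i.2 t (x + latt i.1) v ≤ warm P t x v := by
  unfold warm
  exact (ENNReal.le_tsum (f := fun j => warmj P j t (x + latt i.1) v) i.2).trans
    (ENNReal.le_tsum (f := fun k => ∑' j, warmj P j t (x + latt k) v) i.1)

lemma sh_le_coldS (h : Big P) (t : ℝ) (x : P2) (i : (ℤ × ℤ) × ℕ) (v : R3) :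
    sh P t x i v ≤ coldS P t x v :=
  add_le_add (phij_le_phiE h t x i v) (warmj_le_warm P t x i v)

lemma measurable_phij_v (h : Big P) (j : ℕ) (t : ℝ) (x : P2) : Measurable (phij P j t x) := by
  have h1 := Fuel.measurable_phs P j
  have h2 : Measurable fun v : R3 => (t, x, v) := by fun_prop
  have h3 : phij P j t x = fun v => ENNReal.ofReal (Fuel.phs P j t x v) :=
    funext fun v => phij_eq h.ok j t x v
  rw [h3]
  exact (h1.comp h2).ennreal_ofReal

lemma measurable_sh (h : Big P) (t : ℝ) (x : P2) (i : (ℤ × ℤ) × ℕ) : Measurable (sh P t x i) :=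
  (measurable_phij_v h i.2 t _).add (measurable_warmj_v P i.2 t _)

lemma sh_supp (h : Big P) {t : ℝ} (ht : 0 ≤ t) (x : P2) (i : (ℤ × ℤ) × ℕ) {y : R3}
    (hy : P.Y + 2 < ‖y‖) : sh P t x i y = 0 := by
  by_contra h0
  have h1 : coldS P t x y ≠ 0 := by
    intro h2
    apply h0
    have := sh_le_coldS h t x i y
    rw [h2] at this
    exact le_antisymm this bot_le
  have := norm_lt_of_coldS_ne h ht h1
  linarith

/-- mass and Newton potential of one sheet -/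
lemma sh_size (h : Big P) (hC : ColdPar C.C0 P) {t : ℝ} (ht : 0 < t) (x : P2) (i : (ℤ × ℤ) × ℕ)
    (v : R3) : (∫⁻ u, sh P t x i u) + C.newt (sh P t x i) v ≤
      ENNReal.ofReal (massB P t + NB P t) * Dm P t x v := by
  have h1 : (∫⁻ u, sh P t x i u) ≤ ENNReal.ofReal (massB P t) :=
    (lintegral_mono (sh_le_coldS h t x i)).trans (mass_coldS h ht x)
  have h2 : C.newt (sh P t x i) v ≤ ENNReal.ofReal (NB P t) * Dm P t x v :=
    (C.newt_mono (sh_le_coldS h t x i) v).trans (newt_coldS h hC ht x v)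
  rw [ENNReal.ofReal_add (massB_nonneg h ht.le) (NB_nonneg h ht.le), add_mul]
  refine add_le_add ?_ h2
  calc (∫⁻ u, sh P t x i u) ≤ ENNReal.ofReal (massB P t) * 1 := by rw [mul_one]; exact h1
    _ ≤ _ := by gcongr; exact C.one_le_Dm t x v

/-! ### pointwise bounds of the sheets -/

/-- `sup` of a sheet -/
lemma sh_le_pow (h : Big P) {t : ℝ} (ht : 0 ≤ t) (x : P2) {i : (ℤ × ℤ) × ℕ} (hi : P.j0 ≤ i.2)
    (v : R3) : sh P t x i v ≤ ENNReal.ofReal (2 * (bj i.2)⁻¹ ^ (3 * P.p + 2)) := by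
  have hb := bj_pos i.2
  have hK0 := h.ok.K0
  have hK := h.K_le hi
  have hη := Fuel.etaj_pos P.p i.2
  refine (sheet_le h ht i.2 (x + latt i.1) v).trans ?_
  unfold gaussj
  have e2 : ∀ y : ℝ, (2 : ℝ≥0∞) * ENNReal.ofReal y = ENNReal.ofReal (2 * y) := by
    intro y; rw [ENNReal.ofReal_mul (by norm_num)]; norm_num
  rw [e2]
  apply ENNReal.ofReal_le_ofReal
  have h1 : Real.exp (-‖v - uvec P (wj i.2) t (x + latt i.1)‖ ^ 2 / (4 * etaj P.p i.2 ^ 2)) ≤ 1 := by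
    apply Real.exp_le_one_iff.2
    rw [neg_div]
    have : 0 ≤ ‖v - uvec P (wj i.2) t (x + latt i.1)‖ ^ 2 / (4 * etaj P.p i.2 ^ 2) := by positivity
    linarith
  have e : etaj P.p i.2 = bj i.2 ^ P.p := rfl
  calc 2 * (P.K / (bj i.2 * etaj P.p i.2 ^ 3) *
        Real.exp (-‖v - uvec P (wj i.2) t (x + latt i.1)‖ ^ 2 / (4 * etaj P.p i.2 ^ 2)))
      ≤ 2 * ((bj i.2)⁻¹ / (bj i.2 * etaj P.p i.2 ^ 3) * 1) := by gcongr
    _ = 2 * (bj i.2)⁻¹ ^ (3 * P.p + 2) := by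
      rw [e, mul_one, inv_pow]
      congr 1
      rw [div_eq_mul_inv, ← mul_inv, inv_inj, ← pow_mul]
      ring

lemma inv_bj_le_of_lab (h : Big P) {j : ℕ} {A s : ℝ} (hA : A ∈ laneE j) (hs : 0 < s) (hs1 : s ≤ 1)
    (hsA : s ≤ |A|) : (bj j)⁻¹ ≤ 2 / s ^ 2 := by
  unfold bj
  rw [one_div, inv_inv]
  have h1 := hA.2.1
  have h2 : s ^ 2 ≤ A ^ 2 := by rw [← sq_abs A]; gcongr
  have h3 : 1 / A ^ 2 ≤ 1 / s ^ 2 := one_div_le_one_div_of_le (by positivity) h2
  have h4 : 1 ≤ 1 / s ^ 2 := by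
    rw [le_div_iff₀ (by positivity), one_mul]
    exact pow_le_one₀ hs.le hs1
  have e : 2 / s ^ 2 = 1 / s ^ 2 + 1 / s ^ 2 := by ring
  linarith

lemma sep_le_one (h : Big P) {t : ℝ} (ht : 0 ≤ t) : W.sep P t ≤ 1 := by
  have hd := Fuel.Ok.dlp h.ok
  have hY := h.Y1
  have hc := h.ok.c0
  unfold W.sep
  rw [div_le_one (by positivity)]
  have h1 : P.dl ≤ P.dl + P.c * t := by nlinarith [mul_nonneg hc.le ht]
  have h2 : 1 ≤ 16 * (2 * P.Y + 1) * (1 + t) := by nlinarith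
  calc P.dl = 1 * P.dl := (one_mul _).symm
    _ ≤ 16 * (2 * P.Y + 1) * (1 + t) * (P.dl + P.c * t) := by gcongr

lemma time_le_sep (h : Big P) {t : ℝ} (ht : 0 ≤ t) : t ≤ 2 / W.sep P t ^ 2 := by
  have hd := Fuel.Ok.dlp h.ok
  have hY := h.Y1
  have hc := h.ok.c0
  have hs := W.sep_pos h.pole ht
  have hs1 := sep_le_one h ht
  have h1 : t * W.sep P t ≤ 1 := by
    unfold W.sep
    rw [mul_div_assoc', div_le_one (by positivity)]
    have h1 : P.dl ≤ P.dl + P.c * t := by nlinarith [mul_nonneg hc.le ht]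
    have h2 : t ≤ 16 * (2 * P.Y + 1) * (1 + t) := by nlinarith
    gcongr
  rw [le_div_iff₀ (by positivity)]
  nlinarith

/-- **crossing**: two different images, one of the sheets is bounded -/
theorem cross_bound (h : Big P) {t : ℝ} (ht : 0 ≤ t) {x : P2} {i i' : (ℤ × ℤ) × ℕ}
    (hne : i ≠ i') (hi : zt P i.2 t (x + latt i.1)) (hi' : zt P i'.2 t (x + latt i'.1)) :
    (∀ v, sh P t x i v ≤ ENNReal.ofReal (2 * MS P t)) ∨
      (∀ v, sh P t x i' v ≤ ENNReal.ofReal (2 * MS P t)) := by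
  have hs := W.sep_pos h.pole ht
  have hs1 := sep_le_one h ht
  have hk : i.1 ≠ i'.1 := by
    intro hk
    apply hne
    have h1 := (zt_lane h.ok h.p hi).2
    have h2 := (zt_lane h.ok h.p hi').2
    rw [hk] at h1
    exact Prod.ext hk (Fuel.laneE_unique h1 h2)
  have hz := zt_zone h.ok h.p h.Y1 ht hi
  have hz' := zt_zone h.ok h.p h.Y1 ht hi'
  have hsep := W.sep_le_max h.pole ht hk hz.2.2 hz'.2.2
  have key : ∀ i : (ℤ × ℤ) × ℕ, zt P i.2 t (x + latt i.1) →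
      W.sep P t ≤ |lab P t (x + latt i.1)| → ∀ v, sh P t x i v ≤ ENNReal.ofReal (2 * MS P t) := by
    intro i hi hl v
    have hz := zt_zone h.ok h.p h.Y1 ht hi
    have hlt := lt_of_le_of_lt hl hz.1
    unfold MS
    rw [if_neg (not_lt.2 hlt.le)]
    refine (sh_le_pow h ht x hi.1 v).trans (ENNReal.ofReal_le_ofReal ?_)
    have h1 := inv_bj_le_of_lab h (zt_lane h.ok h.p hi).2 hs hs1 hl
    have h2 : 0 ≤ (bj i.2)⁻¹ := inv_nonneg.2 (bj_pos _).le
    gcongr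
  rcases le_max_iff.1 hsep with h1 | h1
  · exact Or.inl (key i hi h1)
  · exact Or.inr (key i' hi' h1)

/-- **late times**: after `tauj` the sheet is bounded -/
theorem late_bound (h : Big P) {t : ℝ} (ht : 0 ≤ t) {x : P2} {i : (ℤ × ℤ) × ℕ}
    (hi : zt P i.2 t (x + latt i.1)) (hτ : tauj P.p i.2 < t) (v : R3) :
    sh P t x i v ≤ ENNReal.ofReal (2 * MS P t) := by
  have hd := Fuel.Ok.dlp h.ok
  have hd20 := Fuel.Ok.dl20 h.ok
  have hdc := h.pole.dlc
  have hY := h.Y1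
  have hc := h.ok.c0
  have hb := bj_pos i.2
  have hb1 := bj_le_one i.2
  have hp := h.p
  have hbd := bj_le_dl_sq h.ok hi.1
  have hI1 : 1 ≤ (bj i.2)⁻¹ := one_le_inv_iff₀.2 ⟨hb, hb1⟩
  have hτe := tauj_eq P.p i.2
  -- `t ≥ dl⁻²`
  have ht1 : (P.dl ^ 2)⁻¹ ≤ t := by
    calc (P.dl ^ 2)⁻¹ ≤ (bj i.2)⁻¹ := inv_anti₀ hb hbd
      _ = (bj i.2)⁻¹ ^ 1 := (pow_one _).symm
      _ ≤ (bj i.2)⁻¹ ^ (P.p / 16) := pow_le_pow_right₀ hI1 (by omega)
      _ ≤ t := by rw [← hτe]; exact hτ.le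
  have hns : ¬ P.dl < W.sep P t := by
    intro h1
    unfold W.sep at h1
    rw [lt_div_iff₀ (by positivity)] at h1
    have h2 : P.dl * (16 * (2 * P.Y + 1) * (1 + t) * (P.dl + P.c * t)) < P.dl * 1 := by
      rw [mul_one]; exact h1
    have h3 := lt_of_mul_lt_mul_left h2 hd.le
    have h4 : 1 ≤ P.dl * t := by
      have h5 : P.dl * (P.dl ^ 2)⁻¹ ≤ P.dl * t := by gcongr
      have h6 : P.dl * (P.dl ^ 2)⁻¹ = P.dl⁻¹ := by field_simp
      have h7 : 1 ≤ P.dl⁻¹ := one_le_inv_iff₀.2 ⟨hd, by linarith⟩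
      linarith
    have h5 : P.dl * t ≤ P.c * t := by gcongr
    have h6 : 1 ≤ 16 * (2 * P.Y + 1) * (1 + t) * (P.dl + P.c * t) := by
      have h7 : 1 ≤ P.dl + P.c * t := by linarith
      have h8 : 1 ≤ 16 * (2 * P.Y + 1) * (1 + t) := by nlinarith
      nlinarith
    linarith
  unfold MS
  rw [if_neg hns]
  refine (sh_le_pow h ht x hi.1 v).trans (ENNReal.ofReal_le_ofReal ?_)
  have hs := W.sep_pos h.pole ht
  have hs1 := sep_le_one h ht
  have hB1 : 1 ≤ 2 / W.sep P t ^ 2 := by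
    rw [le_div_iff₀ (by positivity)]
    have : W.sep P t ^ 2 ≤ 1 := pow_le_one₀ hs.le hs1
    linarith
  have ht0 : 0 ≤ t := ht
  have hp1 : 3 * P.p + 2 ≤ P.p / 16 * 50 := by omega
  have hp2 : 50 ≤ 3 * P.p + 2 := by omega
  calc 2 * (bj i.2)⁻¹ ^ (3 * P.p + 2) ≤ 2 * (bj i.2)⁻¹ ^ ((P.p / 16) * 50) :=
        mul_le_mul_of_nonneg_left (pow_le_pow_right₀ hI1 hp1) (by norm_num)
    _ = 2 * (tauj P.p i.2) ^ 50 := by rw [pow_mul, hτe]
    _ ≤ 2 * t ^ 50 := by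
        have := (tauj_pos P.p i.2).le
        gcongr
    _ ≤ 2 * (2 / W.sep P t ^ 2) ^ 50 := by
        have := time_le_sep h ht
        gcongr
    _ ≤ 2 * (2 / W.sep P t ^ 2) ^ (3 * P.p + 2) :=
        mul_le_mul_of_nonneg_left (pow_le_pow_right₀ hB1 hp2) (by norm_num)

end Crest.Agent.R68.ColdW
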