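import Crest.Agent.R68.EMeas

/-!
R68 / EWeak: symmetrised weak form of the hard-sphere collision operator (helper485, Part E).
-/

set_option autoImplicit false
open MeasureTheory
open scoped ENNReal
open Crest.AnalysisR.VecCalc3 Crest.AnalysisR.PDE.Boltzmann

namespace Crest.Agent.R68

/-- joint measurability of a kernel in (v, v⋆, ω) -/
def MeasK (K : R3 → R3 → R3 → ℝ≥0∞) : Prop :=
  Measurable (fun q : R3 × R3 × R3 => K q.1 q.2.1 q.2.2)

/-- triple integral over (v, v⋆, ω) -/
noncomputable def tri (K : R3 → R3 → R3 → ℝ≥0∞) : ℝ≥0∞ :=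
  ∫⁻ w, ∫⁻ p : R3 × R3, K p.1 p.2 w ∂volume ∂sphereMeasure

theorem MeasK.comp {α : Type*} [MeasurableSpace α] {K : R3 → R3 → R3 → ℝ≥0∞} (hK : MeasK K)
    {f g h : α → R3} (hf : Measurable f) (hg : Measurable g) (hh : Measurable h) :
    Measurable (fun a => K (f a) (g a) (h a)) :=
  Measurable.comp hK (hf.prodMk (hg.prodMk hh))

theorem MeasK.post {K : R3 → R3 → R3 → ℝ≥0∞} (hK : MeasK K) :
    MeasK (fun v vs w => K (postVel v vs w) (postVelStar v vs w) w) :=
  hK.comp (Measurable.postVel (by fun_prop) (by fun_prop) (by fun_prop))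
    (Measurable.postVelStar (by fun_prop) (by fun_prop) (by fun_prop)) (by fun_prop)

theorem MeasK.swap {K : R3 → R3 → R3 → ℝ≥0∞} (hK : MeasK K) :
    MeasK (fun v vs w => K vs v w) :=
  hK.comp (by fun_prop) (by fun_prop) (by fun_prop)

theorem MeasK.add {K L : R3 → R3 → R3 → ℝ≥0∞} (hK : MeasK K) (hL : MeasK L) :
    MeasK (fun v vs w => K v vs w + L v vs w) := Measurable.add hK hL

theorem MeasK.mul {K L : R3 → R3 → R3 → ℝ≥0∞} (hK : MeasK K) (hL : MeasK L) :
    MeasK (fun v vs w => K v vs w * L v vs w) := Measurable.mul hK hL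

theorem lintegral_tri {K : R3 → R3 → R3 → ℝ≥0∞} (hK : MeasK K) :
    ∫⁻ v, ∫⁻ vs, ∫⁻ w, K v vs w ∂sphereMeasure = tri K := by
  have h1 : ∀ v, ∫⁻ vs, ∫⁻ w, K v vs w ∂sphereMeasure =
      ∫⁻ w, ∫⁻ vs, K v vs w ∂volume ∂sphereMeasure := by
    intro v
    refine lintegral_lintegral_swap ?_
    exact (hK.comp (f := fun _ : R3 × R3 => v) (by fun_prop) (by fun_prop)
      (by fun_prop)).aemeasurable
  simp_rw [h1]
  rw [lintegral_lintegral_swap (μ := volume) (ν := sphereMeasure)
    (f := fun v w => ∫⁻ vs, K v vs w ∂volume)]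
  · unfold tri
    refine lintegral_congr fun w => ?_
    rw [Measure.volume_eq_prod, lintegral_prod]
    exact (hK.comp (f := fun p : R3 × R3 => p.1) (by fun_prop) (by fun_prop)
      (by fun_prop)).aemeasurable
  · refine Measurable.aemeasurable ?_
    refine Measurable.lintegral_prod_right' (f := fun q : (R3 × R3) × R3 => K q.1.1 q.2 q.1.2) ?_
    exact hK.comp (by fun_prop) (by fun_prop) (by fun_prop)

theorem tri_congr {K L : R3 → R3 → R3 → ℝ≥0∞}
    (h : ∀ v vs w, ‖w‖ = 1 → K v vs w = L v vs w) : tri K = tri L := by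
  unfold tri
  refine lintegral_congr_ae ?_
  filter_upwards [ae_sphereMeasure] with w hw
  exact lintegral_congr fun p => h _ _ _ hw

theorem tri_mono {K L : R3 → R3 → R3 → ℝ≥0∞}
    (h : ∀ v vs w, ‖w‖ = 1 → K v vs w ≤ L v vs w) : tri K ≤ tri L := by
  unfold tri
  refine lintegral_mono_ae ?_
  filter_upwards [ae_sphereMeasure] with w hw
  exact lintegral_mono fun p => h _ _ _ hw

theorem tri_post {K : R3 → R3 → R3 → ℝ≥0∞} (hK : MeasK K) :
    tri (fun v vs w => K (postVel v vs w) (postVelStar v vs w) w) = tri K := by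
  unfold tri
  refine lintegral_congr_ae ?_
  filter_upwards [ae_sphereMeasure] with w hw
  exact (measurePreserving_cmap hw).lintegral_comp (f := fun p : R3 × R3 => K p.1 p.2 w)
    (hK.comp (by fun_prop) (by fun_prop) (by fun_prop))

theorem tri_swap {K : R3 → R3 → R3 → ℝ≥0∞} (hK : MeasK K) :
    tri (fun v vs w => K vs v w) = tri K := by
  unfold tri
  refine lintegral_congr fun w => ?_
  have h := (Measure.measurePreserving_swap (μ := (volume : Measure R3))
    (ν := (volume : Measure R3))).lintegral_comp (f := fun p : R3 × R3 => K p.1 p.2 w)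
    (hK.comp (by fun_prop) (by fun_prop) (by fun_prop))
  exact h

theorem tri_add {K L : R3 → R3 → R3 → ℝ≥0∞} (hK : MeasK K) :
    tri (fun v vs w => K v vs w + L v vs w) = tri K + tri L := by
  unfold tri
  rw [← lintegral_add_left]
  · refine lintegral_congr fun w => ?_
    rw [lintegral_add_left]
    exact hK.comp (by fun_prop) (by fun_prop) (by fun_prop)
  · refine Measurable.lintegral_prod_right' (f := fun q : R3 × (R3 × R3) => K q.2.1 q.2.2 q.1) ?_
    exact hK.comp (by fun_prop) (by fun_prop) (by fun_prop)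

/-- the basic kernel |⟨v-v⋆,ω⟩| f(v) f(v⋆) -/
noncomputable def bff (f : R3 → ℝ) (v vs w : R3) : ℝ≥0∞ :=
  ENNReal.ofReal (|inner ℝ (v - vs) w| * f v * f vs)

theorem measK_bff {f : R3 → ℝ} (hf : Measurable f) : MeasK (bff f) := by
  unfold MeasK bff
  fun_prop

theorem bff_swap (f : R3 → ℝ) (v vs w : R3) : bff f vs v w = bff f v vs w := by
  unfold bff
  have : vs - v = -(v - vs) := by abel
  rw [this, inner_neg_left, abs_neg]
  congr 1; ring

theorem bff_post (f : R3 → ℝ) {w : R3} (hw : ‖w‖ = 1) (v vs : R3) :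
    bff f (postVel v vs w) (postVelStar v vs w) w =
      ENNReal.ofReal (|inner ℝ (v - vs) w| * f (postVel v vs w) * f (postVelStar v vs w)) := by
  unfold bff
  rw [abs_inner_post hw]

theorem measK_fst {φ : R3 → ℝ≥0∞} (hφ : Measurable φ) : MeasK (fun v _ _ => φ v) := by
  unfold MeasK; fun_prop

theorem measK_snd {φ : R3 → ℝ≥0∞} (hφ : Measurable φ) : MeasK (fun _ vs _ => φ vs) := by
  unfold MeasK; fun_prop

theorem lintegral_loss_tri {F : ℝ → R3 → R3 → ℝ} {t : ℝ} {x : R3} (hf : Measurable (F t x))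
    {φ : R3 → ℝ≥0∞} (hφ : Measurable φ) :
    ∫⁻ v, φ v * collLoss F t x v = tri (fun v vs w => φ v * bff (F t x) v vs w) := by
  rw [← lintegral_tri ((measK_fst hφ).mul (measK_bff hf))]
  refine lintegral_congr fun v => ?_
  have hm : Measurable (fun q : R3 × R3 => bff (F t x) v q.1 q.2) :=
    (measK_bff hf).comp (by fun_prop) (by fun_prop) (by fun_prop)
  have e : collLoss F t x v = ∫⁻ vs, ∫⁻ w, bff (F t x) v vs w ∂sphereMeasure := rfl
  have hm2 : Measurable (fun vs => ∫⁻ w, bff (F t x) v vs w ∂sphereMeasure) :=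
    Measurable.lintegral_prod_right' (f := fun q : R3 × R3 => bff (F t x) v q.1 q.2) hm
  rw [e, ← lintegral_const_mul _ hm2]
  refine lintegral_congr fun vs => ?_
  exact (lintegral_const_mul _ (hm.comp (measurable_const.prodMk measurable_id))).symm

theorem lintegral_gain_tri {F : ℝ → R3 → R3 → ℝ} {t : ℝ} {x : R3} (hf : Measurable (F t x))
    {φ : R3 → ℝ≥0∞} (hφ : Measurable φ) :
    ∫⁻ v, φ v * collGain F t x v =
      tri (fun v vs w => φ (postVel v vs w) * bff (F t x) v vs w) := by
  have hK : MeasK (fun v vs w => φ v * ENNReal.ofReal (|inner ℝ (v - vs) w| *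
      F t x (postVel v vs w) * F t x (postVelStar v vs w))) := by
    refine (measK_fst hφ).mul ?_
    unfold MeasK
    refine Measurable.ennreal_ofReal ?_
    refine Measurable.mul (Measurable.mul (by fun_prop) ?_) ?_
    · exact hf.comp (Measurable.postVel (by fun_prop) (by fun_prop) (by fun_prop))
    · exact hf.comp (Measurable.postVelStar (by fun_prop) (by fun_prop) (by fun_prop))
  have h1 : ∫⁻ v, φ v * collGain F t x v = tri (fun v vs w => φ v * ENNReal.ofReal
      (|inner ℝ (v - vs) w| * F t x (postVel v vs w) * F t x (postVelStar v vs w))) := by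
    rw [← lintegral_tri hK]
    refine lintegral_congr fun v => ?_
    have hm : Measurable (fun q : R3 × R3 => ENNReal.ofReal (|inner ℝ (v - q.1) q.2| *
        F t x (postVel v q.1 q.2) * F t x (postVelStar v q.1 q.2))) := by
      refine Measurable.ennreal_ofReal ?_
      refine Measurable.mul (Measurable.mul (by fun_prop) ?_) ?_
      · exact hf.comp (Measurable.postVel (by fun_prop) (by fun_prop) (by fun_prop))
      · exact hf.comp (Measurable.postVelStar (by fun_prop) (by fun_prop) (by fun_prop))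
    have e : collGain F t x v = ∫⁻ vs, ∫⁻ w, ENNReal.ofReal (|inner ℝ (v - vs) w| *
        F t x (postVel v vs w) * F t x (postVelStar v vs w)) ∂sphereMeasure := rfl
    have hm2 : Measurable (fun vs => ∫⁻ w, ENNReal.ofReal (|inner ℝ (v - vs) w| *
        F t x (postVel v vs w) * F t x (postVelStar v vs w)) ∂sphereMeasure) :=
      Measurable.lintegral_prod_right' (f := fun q : R3 × R3 => ENNReal.ofReal
        (|inner ℝ (v - q.1) q.2| * F t x (postVel v q.1 q.2) * F t x (postVelStar v q.1 q.2))) hm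
    rw [e, ← lintegral_const_mul _ hm2]
    refine lintegral_congr fun vs => ?_
    exact (lintegral_const_mul _ (hm.comp (measurable_const.prodMk measurable_id))).symm
  rw [h1]
  have h2 : MeasK (fun v vs w => φ (postVel v vs w) * bff (F t x) v vs w) := by
    refine MeasK.mul ?_ (measK_bff hf)
    exact hφ.comp (Measurable.postVel (by fun_prop) (by fun_prop) (by fun_prop))
  rw [← tri_post h2]
  refine tri_congr fun v vs w hw => ?_
  rw [postVel_post hw, bff_post _ hw]

/-- symmetrised loss -/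
theorem two_loss {F : ℝ → R3 → R3 → ℝ} {t : ℝ} {x : R3} (hf : Measurable (F t x))
    {φ : R3 → ℝ≥0∞} (hφ : Measurable φ) :
    2 * ∫⁻ v, φ v * collLoss F t x v =
      tri (fun v vs w => (φ v + φ vs) * bff (F t x) v vs w) := by
  rw [lintegral_loss_tri hf hφ, two_mul]
  have hK : MeasK (fun v vs w => φ v * bff (F t x) v vs w) := (measK_fst hφ).mul (measK_bff hf)
  nth_rewrite 2 [← tri_swap hK]
  rw [← tri_add hK]
  refine tri_congr fun v vs w hw => ?_
  rw [bff_swap]
  ring

/-- symmetrised gain -/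
theorem two_gain {F : ℝ → R3 → R3 → ℝ} {t : ℝ} {x : R3} (hf : Measurable (F t x))
    {φ : R3 → ℝ≥0∞} (hφ : Measurable φ) :
    2 * ∫⁻ v, φ v * collGain F t x v =
      tri (fun v vs w => (φ (postVel v vs w) + φ (postVelStar v vs w)) *
        bff (F t x) v vs w) := by
  rw [lintegral_gain_tri hf hφ, two_mul]
  have hK : MeasK (fun v vs w => φ (postVel v vs w) * bff (F t x) v vs w) := by
    refine MeasK.mul ?_ (measK_bff hf)
    exact hφ.comp (Measurable.postVel (by fun_prop) (by fun_prop) (by fun_prop))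
  nth_rewrite 2 [← tri_swap hK]
  rw [← tri_add hK]
  refine tri_congr fun v vs w hw => ?_
  rw [bff_swap _ v vs w, postVel_swap v vs w, add_mul]

/-- ∫ Q⁺φ in terms of the pre-collisional form: ∫ φ Q⁺ = ½ ∫ (φ'+φ⋆') B f f⋆. In particular
gain and loss have the same total mass. -/
theorem lintegral_gain_eq_loss {F : ℝ → R3 → R3 → ℝ} {t : ℝ} {x : R3} (hf : Measurable (F t x)) :
    ∫⁻ v, collGain F t x v = ∫⁻ v, collLoss F t x v := by
  have h1 := lintegral_gain_tri hf (measurable_const (a := (1 : ℝ≥0∞)))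
  have h2 := lintegral_loss_tri hf (measurable_const (a := (1 : ℝ≥0∞)))
  simp only [one_mul] at h1 h2
  rw [h1, h2]

/-- collision invariants, ENNReal form with positive and negative part -/
theorem invariant_lintegral {F : ℝ → R3 → R3 → ℝ} {t : ℝ} {x : R3} (hf : Measurable (F t x))
    {φ ψ : R3 → ℝ≥0∞} (hφ : Measurable φ) (hψ : Measurable ψ)
    (hinv : ∀ v vs w : R3, ‖w‖ = 1 →
      φ (postVel v vs w) + φ (postVelStar v vs w) + (ψ v + ψ vs) =
      φ v + φ vs + (ψ (postVel v vs w) + ψ (postVelStar v vs w))) :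
    (∫⁻ v, φ v * collGain F t x v) + ∫⁻ v, ψ v * collLoss F t x v =
      (∫⁻ v, φ v * collLoss F t x v) + ∫⁻ v, ψ v * collGain F t x v := by
  have hp : ∀ {χ : R3 → ℝ≥0∞}, Measurable χ →
      MeasK (fun v vs w => (χ (postVel v vs w) + χ (postVelStar v vs w)) *
        bff (F t x) v vs w) := by
    intro χ hχ
    refine MeasK.mul (MeasK.add ?_ ?_) (measK_bff hf)
    · exact hχ.comp (Measurable.postVel (by fun_prop) (by fun_prop) (by fun_prop))
    · exact hχ.comp (Measurable.postVelStar (by fun_prop) (by fun_prop) (by fun_prop))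
  have hq : ∀ {χ : R3 → ℝ≥0∞}, Measurable χ →
      MeasK (fun v vs w => (χ v + χ vs) * bff (F t x) v vs w) := by
    intro χ hχ
    exact MeasK.mul (MeasK.add (measK_fst hχ) (measK_snd hχ)) (measK_bff hf)
  have key : 2 * ((∫⁻ v, φ v * collGain F t x v) + ∫⁻ v, ψ v * collLoss F t x v) =
      2 * ((∫⁻ v, φ v * collLoss F t x v) + ∫⁻ v, ψ v * collGain F t x v) := by
    rw [mul_add, mul_add, two_gain hf hφ, two_loss hf hψ, two_loss hf hφ, two_gain hf hψ,
      ← tri_add (hp hφ), ← tri_add (hq hφ)]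
    refine tri_congr fun v vs w hw => ?_
    rw [← add_mul, ← add_mul, hinv v vs w hw]
  exact (ENNReal.mul_right_inj (by norm_num) (by norm_num)).1 key

end Crest.Agent.R68
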