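import Crest.Agent.R68.Defs
import Crest.Agent.R68.EWeak

/-!
Row 68, D-layer (helper813): the bilinear gain `Qp f g`, the collision frequency `Lc g`
(velocity profiles with values in `ℝ≥0∞`): measurability with parameters, monotonicity,
countable additivity, a.e. compatibility, duality.
-/

set_option autoImplicit false
open MeasureTheory Filter
open scoped ENNReal NNReal Topology
open Crest.AnalysisR.VecCalc3 Crest.AnalysisR.PDE.Boltzmann

namespace Crest.Agent.R68.D

instance sigf_sph : SigmaFinite sphereMeasure := inferInstance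
instance sfin_sph : SFinite sphereMeasure := inferInstance
instance sfin_R3 : SFinite (volume : Measure R3) := inferInstance
instance sigf_R3 : SigmaFinite (volume : Measure R3) := inferInstance
instance sfin_R33 : SFinite (volume : Measure (R3 × R3)) := inferInstance
instance sfin_R3s : SFinite ((volume : Measure R3).prod sphereMeasure) := inferInstance

/-- collision kernel as an extended nonnegative number -/
noncomputable def kB (v vs w : R3) : ℝ≥0∞ := ENNReal.ofReal |inner ℝ (v - vs) w|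

theorem measurable_kB : Measurable fun z : R3 × R3 × R3 => kB z.1 z.2.1 z.2.2 := by
  unfold kB; fun_prop

@[fun_prop]
theorem Measurable.kB {α : Type*} [MeasurableSpace α] {f g h : α → R3} (hf : Measurable f)
    (hg : Measurable g) (hh : Measurable h) : Measurable fun a => kB (f a) (g a) (h a) := by
  unfold D.kB; fun_prop

theorem kB_post {w : R3} (hw : ‖w‖ = 1) (v vs : R3) :
    kB (postVel v vs w) (postVelStar v vs w) w = kB v vs w := by
  unfold kB
  rw [abs_inner_post hw]

theorem kB_swap (v vs w : R3) : kB vs v w = kB v vs w := by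
  unfold kB
  have : vs - v = -(v - vs) := by abel
  rw [this, inner_neg_left, abs_neg]

theorem kB_lt_top (v vs w : R3) : kB v vs w < ⊤ := ENNReal.ofReal_lt_top

theorem Qp_eq (f g : R3 → ℝ≥0∞) (v : R3) :
    Qp f g v = ∫⁻ vs, ∫⁻ w, kB v vs w * f (postVel v vs w) * g (postVelStar v vs w)
      ∂sphereMeasure := rfl

theorem Lc_eq (g : R3 → ℝ≥0∞) (v : R3) :
    Lc g v = ∫⁻ vs, ∫⁻ w, kB v vs w * g vs ∂sphereMeasure := rfl

/-! ### measurability -/

section meas
variable {α : Type*} [MeasurableSpace α]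

/-- the integrand of the gain, jointly measurable with parameters -/
theorem meas_gainK {f g : α → R3 → ℝ≥0∞} (hf : Measurable fun p : α × R3 => f p.1 p.2)
    (hg : Measurable fun p : α × R3 => g p.1 p.2) :
    Measurable fun p : α × R3 × R3 × R3 => kB p.2.1 p.2.2.1 p.2.2.2 *
      f p.1 (postVel p.2.1 p.2.2.1 p.2.2.2) * g p.1 (postVelStar p.2.1 p.2.2.1 p.2.2.2) := by
  have h1 : Measurable fun p : α × R3 × R3 × R3 => f p.1 (postVel p.2.1 p.2.2.1 p.2.2.2) :=
    hf.comp (measurable_fst.prodMk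
      (Measurable.postVel (by fun_prop) (by fun_prop) (by fun_prop)))
  have h2 : Measurable fun p : α × R3 × R3 × R3 => g p.1 (postVelStar p.2.1 p.2.2.1 p.2.2.2) :=
    hg.comp (measurable_fst.prodMk
      (Measurable.postVelStar (by fun_prop) (by fun_prop) (by fun_prop)))
  exact ((Measurable.kB (by fun_prop) (by fun_prop) (by fun_prop)).mul h1).mul h2

theorem meas_Qp {f g : α → R3 → ℝ≥0∞} (hf : Measurable fun p : α × R3 => f p.1 p.2)
    (hg : Measurable fun p : α × R3 => g p.1 p.2) :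
    Measurable fun p : α × R3 => Qp (f p.1) (g p.1) p.2 := by
  have h := meas_gainK hf hg
  have h3 : Measurable fun r : ((α × R3) × R3) × R3 => kB r.1.1.2 r.1.2 r.2 *
      f r.1.1.1 (postVel r.1.1.2 r.1.2 r.2) * g r.1.1.1 (postVelStar r.1.1.2 r.1.2 r.2) :=
    h.comp (g := fun p : α × R3 × R3 × R3 => kB p.2.1 p.2.2.1 p.2.2.2 *
      f p.1 (postVel p.2.1 p.2.2.1 p.2.2.2) * g p.1 (postVelStar p.2.1 p.2.2.1 p.2.2.2))
      (f := fun r : ((α × R3) × R3) × R3 => (r.1.1.1, r.1.1.2, r.1.2, r.2)) (by fun_prop)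
  have h4 := h3.lintegral_prod_right' (ν := sphereMeasure)
  exact h4.lintegral_prod_right' (ν := (volume : Measure R3))

theorem meas_Lc {g : α → R3 → ℝ≥0∞} (hg : Measurable fun p : α × R3 => g p.1 p.2) :
    Measurable fun p : α × R3 => Lc (g p.1) p.2 := by
  have h2 : Measurable fun p : ((α × R3) × R3) × R3 => g p.1.1.1 p.1.2 :=
    hg.comp (f := fun p : ((α × R3) × R3) × R3 => (p.1.1.1, p.1.2)) (by fun_prop)
  have h3 : Measurable fun r : ((α × R3) × R3) × R3 => kB r.1.1.2 r.1.2 r.2 * g r.1.1.1 r.1.2 :=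
    (Measurable.kB (by fun_prop) (by fun_prop) (by fun_prop)).mul h2
  have h4 := h3.lintegral_prod_right' (ν := sphereMeasure)
  exact h4.lintegral_prod_right' (ν := (volume : Measure R3))

theorem meas_Qp' {f g : R3 → ℝ≥0∞} (hf : Measurable f) (hg : Measurable g) :
    Measurable (Qp f g) := by
  have h := meas_Qp (α := Unit) (f := fun _ => f) (g := fun _ => g) (hf.comp measurable_snd)
    (hg.comp measurable_snd)
  exact h.comp (g := fun p : Unit × R3 => Qp f g p.2) (f := fun v : R3 => ((), v)) (by fun_prop)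

theorem meas_Lc' {g : R3 → ℝ≥0∞} (hg : Measurable g) : Measurable (Lc g) := by
  have h := meas_Lc (α := Unit) (g := fun _ => g) (hg.comp measurable_snd)
  exact h.comp (g := fun p : Unit × R3 => Lc g p.2) (f := fun v : R3 => ((), v)) (by fun_prop)

end meas

/-! ### pointwise algebra -/

theorem Qp_mono {f f' g g' : R3 → ℝ≥0∞} (hf : ∀ z, f z ≤ f' z) (hg : ∀ z, g z ≤ g' z) (v : R3) :
    Qp f g v ≤ Qp f' g' v := by
  rw [Qp_eq, Qp_eq]
  refine lintegral_mono fun vs => lintegral_mono fun w => ?_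
  exact mul_le_mul' (mul_le_mul' le_rfl (hf _)) (hg _)

theorem Lc_mono {g g' : R3 → ℝ≥0∞} (hg : ∀ z, g z ≤ g' z) (v : R3) : Lc g v ≤ Lc g' v := by
  rw [Lc_eq, Lc_eq]
  exact lintegral_mono fun vs => lintegral_mono fun w => mul_le_mul' le_rfl (hg _)

section alg
variable {f g : R3 → ℝ≥0∞}

theorem meas_inner (hf : Measurable f) (hg : Measurable g) (v : R3) :
    Measurable fun z : R3 × R3 => kB v z.1 z.2 * f (postVel v z.1 z.2) *
      g (postVelStar v z.1 z.2) := by
  have h1 : Measurable fun z : R3 × R3 => f (postVel v z.1 z.2) :=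
    hf.comp (Measurable.postVel (by fun_prop) (by fun_prop) (by fun_prop))
  have h2 : Measurable fun z : R3 × R3 => g (postVelStar v z.1 z.2) :=
    hg.comp (Measurable.postVelStar (by fun_prop) (by fun_prop) (by fun_prop))
  exact ((Measurable.kB (by fun_prop) (by fun_prop) (by fun_prop)).mul h1).mul h2

/-- the measure of `(v⋆, ω)` -/
noncomputable def kap : Measure (R3 × R3) := (volume : Measure R3).prod sphereMeasure

instance : SFinite kap := by unfold kap; infer_instance

theorem Qp_kap (hf : Measurable f) (hg : Measurable g) (v : R3) :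
    Qp f g v = ∫⁻ z, kB v z.1 z.2 * f (postVel v z.1 z.2) * g (postVelStar v z.1 z.2) ∂kap := by
  unfold kap
  rw [lintegral_prod _ (meas_inner hf hg v).aemeasurable]
  rfl

theorem meas_innerL (hg : Measurable g) (v : R3) :
    Measurable fun z : R3 × R3 => kB v z.1 z.2 * g z.1 :=
  (Measurable.kB (by fun_prop) (by fun_prop) (by fun_prop)).mul (hg.comp measurable_fst)

theorem Lc_kap (hg : Measurable g) (v : R3) :
    Lc g v = ∫⁻ z, kB v z.1 z.2 * g z.1 ∂kap := by
  unfold kap
  rw [lintegral_prod _ (meas_innerL hg v).aemeasurable]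
  rfl

theorem Qp_tsum_right {g : ℕ → R3 → ℝ≥0∞} (hf : Measurable f) (hg : ∀ n, Measurable (g n))
    (v : R3) : Qp f (fun z => ∑' n, g n z) v = ∑' n, Qp f (g n) v := by
  simp only [Qp_kap hf (Measurable.tsum hg), fun n => Qp_kap hf (hg n)]
  rw [← lintegral_tsum fun n => (meas_inner hf (hg n) v).aemeasurable]
  refine lintegral_congr fun z => ?_
  rw [ENNReal.tsum_mul_left]

theorem Qp_tsum_left {f : ℕ → R3 → ℝ≥0∞} (hf : ∀ n, Measurable (f n)) (hg : Measurable g)
    (v : R3) : Qp (fun z => ∑' n, f n z) g v = ∑' n, Qp (f n) g v := by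
  simp only [Qp_kap (Measurable.tsum hf) hg, fun n => Qp_kap (hf n) hg]
  rw [← lintegral_tsum fun n => (meas_inner (hf n) hg v).aemeasurable]
  refine lintegral_congr fun z => ?_
  rw [ENNReal.tsum_mul_right, ENNReal.tsum_mul_left]

theorem Qp_add_right {g' : R3 → ℝ≥0∞} (hf : Measurable f) (hg : Measurable g)
    (hg' : Measurable g') (v : R3) :
    Qp f (fun z => g z + g' z) v = Qp f g v + Qp f g' v := by
  rw [Qp_kap (g := fun z => g z + g' z) hf (hg.add hg'), Qp_kap hf hg, Qp_kap hf hg', ← lintegral_add_left (meas_inner hf hg v)]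
  refine lintegral_congr fun z => ?_
  rw [mul_add]

theorem Qp_add_left {f' : R3 → ℝ≥0∞} (hf : Measurable f) (hf' : Measurable f')
    (hg : Measurable g) (v : R3) :
    Qp (fun z => f z + f' z) g v = Qp f g v + Qp f' g v := by
  rw [Qp_kap (f := fun z => f z + f' z) (hf.add hf') hg, Qp_kap hf hg, Qp_kap hf' hg, ← lintegral_add_left (meas_inner hf hg v)]
  refine lintegral_congr fun z => ?_
  rw [mul_add, add_mul]

theorem Lc_add {g' : R3 → ℝ≥0∞} (hg : Measurable g) (hg' : Measurable g') (v : R3) :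
    Lc (fun z => g z + g' z) v = Lc g v + Lc g' v := by
  rw [Lc_kap (g := fun z => g z + g' z) (hg.add hg'), Lc_kap hg, Lc_kap hg', ← lintegral_add_left (meas_innerL hg v)]
  refine lintegral_congr fun z => ?_
  rw [mul_add]

theorem Lc_tsum {g : ℕ → R3 → ℝ≥0∞} (hg : ∀ n, Measurable (g n)) (v : R3) :
    Lc (fun z => ∑' n, g n z) v = ∑' n, Lc (g n) v := by
  simp only [Lc_kap (Measurable.tsum hg), fun n => Lc_kap (hg n)]
  rw [← lintegral_tsum fun n => (meas_innerL (hg n) v).aemeasurable]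
  refine lintegral_congr fun z => ?_
  rw [ENNReal.tsum_mul_left]

theorem Qp_const_mul_right (hf : Measurable f) (hg : Measurable g) (c : ℝ≥0∞) (v : R3) :
    Qp f (fun z => c * g z) v = c * Qp f g v := by
  rw [Qp_kap hf (hg.const_mul c), Qp_kap hf hg, ← lintegral_const_mul _ (meas_inner hf hg v)]
  refine lintegral_congr fun z => ?_
  ring

theorem Qp_const_mul_left (hf : Measurable f) (hg : Measurable g) (c : ℝ≥0∞) (v : R3) :
    Qp (fun z => c * f z) g v = c * Qp f g v := by
  rw [Qp_kap (hf.const_mul c) hg, Qp_kap hf hg, ← lintegral_const_mul _ (meas_inner hf hg v)]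
  refine lintegral_congr fun z => ?_
  ring

theorem Lc_const_mul (hg : Measurable g) (c : ℝ≥0∞) (v : R3) :
    Lc (fun z => c * g z) v = c * Lc g v := by
  rw [Lc_kap (hg.const_mul c), Lc_kap hg, ← lintegral_const_mul _ (meas_innerL hg v)]
  refine lintegral_congr fun z => ?_
  ring

@[simp] theorem Qp_zero_right (f : R3 → ℝ≥0∞) (v : R3) : Qp f (fun _ => 0) v = 0 := by
  simp [Qp_eq]

@[simp] theorem Qp_zero_left (g : R3 → ℝ≥0∞) (v : R3) : Qp (fun _ => 0) g v = 0 := by
  simp [Qp_eq]

@[simp] theorem Lc_zero (v : R3) : Lc (fun _ => 0) v = 0 := by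
  simp [Lc_eq]

end alg

/-! ### almost everywhere compatibility -/

theorem Lc_congr_ae {g g' : R3 → ℝ≥0∞} (h : g =ᵐ[volume] g') (v : R3) : Lc g v = Lc g' v := by
  rw [Lc_eq, Lc_eq]
  refine lintegral_congr_ae ?_
  filter_upwards [h] with vs hvs
  rw [hvs]

theorem Lc_mono_ae {g g' : R3 → ℝ≥0∞} (h : g ≤ᵐ[volume] g') (v : R3) : Lc g v ≤ Lc g' v := by
  rw [Lc_eq, Lc_eq]
  refine lintegral_mono_ae ?_
  filter_upwards [h] with vs hvs
  exact lintegral_mono fun w => mul_le_mul' le_rfl hvs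

/-- an a.e. property in velocity holds at the post-collisional velocities for a.e. collision -/
theorem ae_post {P : R3 → Prop} (hP : ∀ᵐ z : R3, P z) :
    ∀ᵐ v : R3, ∀ᵐ vs : R3, ∀ᵐ w ∂sphereMeasure, P (postVel v vs w) ∧ P (postVelStar v vs w) := by
  -- choose a measurable set
  obtain ⟨s, hsub, hsm, hs0⟩ := exists_measurable_superset_of_null (show volume {z | ¬ P z} = 0 from hP)
  have hpair : ∀ᵐ p : R3 × R3, p.1 ∉ s ∧ p.2 ∉ s := by
    have h1 : ∀ᵐ z : R3, z ∉ s := by
      rw [ae_iff]; simpa using hs0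
    have ha : ∀ᵐ p : R3 × R3, p.1 ∉ s := Measure.quasiMeasurePreserving_fst.ae h1
    have hb : ∀ᵐ p : R3 × R3, p.2 ∉ s := Measure.quasiMeasurePreserving_snd.ae h1
    filter_upwards [ha, hb] with p h1 h2 using ⟨h1, h2⟩
  have hset : MeasurableSet {q : R3 × (R3 × R3) | postVel q.2.1 q.2.2 q.1 ∉ s ∧
      postVelStar q.2.1 q.2.2 q.1 ∉ s} := by
    have m1 : Measurable fun q : R3 × (R3 × R3) => postVel q.2.1 q.2.2 q.1 :=
      Measurable.postVel (by fun_prop) (by fun_prop) (by fun_prop)
    have m2 : Measurable fun q : R3 × (R3 × R3) => postVelStar q.2.1 q.2.2 q.1 :=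
      Measurable.postVelStar (by fun_prop) (by fun_prop) (by fun_prop)
    exact (m1 hsm.compl).inter (m2 hsm.compl)
  have h1 : ∀ᵐ w ∂sphereMeasure, ∀ᵐ p : R3 × R3,
      postVel p.1 p.2 w ∉ s ∧ postVelStar p.1 p.2 w ∉ s := by
    filter_upwards [ae_sphereMeasure] with w hw
    exact (measurePreserving_cmap hw).quasiMeasurePreserving.ae hpair
  have h2 : ∀ᵐ q ∂(sphereMeasure.prod (volume : Measure (R3 × R3))),
      postVel q.2.1 q.2.2 q.1 ∉ s ∧ postVelStar q.2.1 q.2.2 q.1 ∉ s := by
    rw [Measure.ae_prod_iff_ae_ae hset]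
    exact h1
  have h3 : ∀ᵐ q ∂((volume : Measure (R3 × R3)).prod sphereMeasure),
      postVel q.1.1 q.1.2 q.2 ∉ s ∧ postVelStar q.1.1 q.1.2 q.2 ∉ s := by
    have hsw := (Measure.measurePreserving_swap (μ := (volume : Measure (R3 × R3)))
      (ν := sphereMeasure)).quasiMeasurePreserving
    exact hsw.ae h2
  have h4 := Measure.ae_ae_of_ae_prod h3
  have h5 := Measure.ae_ae_of_ae_prod (μ := (volume : Measure R3)) (ν := (volume : Measure R3)) h4
  filter_upwards [h5] with v hv
  filter_upwards [hv] with vs hvs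
  filter_upwards [hvs] with w hw
  refine ⟨?_, ?_⟩
  · by_contra hc
    exact hw.1 (hsub hc)
  · by_contra hc
    exact hw.2 (hsub hc)

theorem Qp_mono_ae {f f' g g' : R3 → ℝ≥0∞} (hf : f ≤ᵐ[volume] f') (hg : g ≤ᵐ[volume] g') :
    ∀ᵐ v : R3, Qp f g v ≤ Qp f' g' v := by
  have h := ae_post (P := fun z => f z ≤ f' z ∧ g z ≤ g' z) (by
    filter_upwards [hf, hg] with z h1 h2 using ⟨h1, h2⟩)
  filter_upwards [h] with v hv
  rw [Qp_eq, Qp_eq]
  refine lintegral_mono_ae ?_
  filter_upwards [hv] with vs hvs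
  refine lintegral_mono_ae ?_
  filter_upwards [hvs] with w hw
  exact mul_le_mul' (mul_le_mul' le_rfl hw.1.1) hw.2.2

theorem Qp_congr_ae {f f' g g' : R3 → ℝ≥0∞} (hf : f =ᵐ[volume] f') (hg : g =ᵐ[volume] g') :
    ∀ᵐ v : R3, Qp f g v = Qp f' g' v := by
  filter_upwards [Qp_mono_ae hf.le hg.le, Qp_mono_ae hf.symm.le hg.symm.le] with v h1 h2
  exact le_antisymm h1 h2

/-! ### duality -/

theorem measK_gain {f g ψ : R3 → ℝ≥0∞} (hf : Measurable f) (hg : Measurable g)
    (hψ : Measurable ψ) : MeasK (fun v vs w => kB v vs w * f v * g vs * ψ (postVel v vs w)) := by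
  unfold MeasK
  have h4 : Measurable fun q : R3 × R3 × R3 => ψ (postVel q.1 q.2.1 q.2.2) :=
    hψ.comp (Measurable.postVel (by fun_prop) (by fun_prop) (by fun_prop))
  exact (((Measurable.kB (by fun_prop) (by fun_prop) (by fun_prop)).mul (by fun_prop)).mul
    (by fun_prop)).mul h4

theorem lintegral_mul_Qp {f g ψ : R3 → ℝ≥0∞} (hf : Measurable f) (hg : Measurable g)
    (hψ : Measurable ψ) :
    ∫⁻ v, ψ v * Qp f g v = tri (fun v vs w => kB v vs w * f v * g vs * ψ (postVel v vs w)) := by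
  have hK := measK_gain hf hg hψ
  rw [← tri_post hK, ← lintegral_tri hK.post]
  refine lintegral_congr fun v => ?_
  have hi := meas_inner hf hg v
  rw [Qp_kap hf hg, ← lintegral_const_mul _ hi]
  have hm : Measurable fun z : R3 × R3 => ψ v * (kB v z.1 z.2 * f (postVel v z.1 z.2) *
      g (postVelStar v z.1 z.2)) := hi.const_mul _
  unfold kap
  rw [lintegral_prod _ hm.aemeasurable]
  refine lintegral_congr fun vs => ?_
  refine lintegral_congr_ae ?_
  filter_upwards [ae_sphereMeasure] with w hw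
  rw [kB_post hw, postVel_post hw]
  ring

theorem lintegral_mul_Lc {f g ψ : R3 → ℝ≥0∞} (hf : Measurable f) (hg : Measurable g)
    (hψ : Measurable ψ) :
    ∫⁻ v, ψ v * (f v * Lc g v) = tri (fun v vs w => kB v vs w * f v * g vs * ψ v) := by
  have hK : MeasK (fun v vs w => kB v vs w * f v * g vs * ψ v) := by
    unfold MeasK
    exact (((Measurable.kB (by fun_prop) (by fun_prop) (by fun_prop)).mul (by fun_prop)).mul
      (by fun_prop)).mul (by fun_prop)
  rw [← lintegral_tri hK]
  refine lintegral_congr fun v => ?_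
  have h := meas_innerL hg v
  rw [Lc_kap hg, ← mul_assoc, ← lintegral_const_mul _ h]
  have hm : Measurable fun z : R3 × R3 => ψ v * f v * (kB v z.1 z.2 * g z.1) := h.const_mul _
  unfold kap
  rw [lintegral_prod _ hm.aemeasurable]
  refine lintegral_congr fun vs => ?_
  refine lintegral_congr fun w => ?_
  ring

/-- total gain = total loss -/
theorem lintegral_Qp {f g : R3 → ℝ≥0∞} (hf : Measurable f) (hg : Measurable g) :
    ∫⁻ v, Qp f g v = ∫⁻ v, f v * Lc g v := by
  have h1 := lintegral_mul_Qp hf hg (measurable_const (a := (1 : ℝ≥0∞)))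
  have h2 := lintegral_mul_Lc hf hg (measurable_const (a := (1 : ℝ≥0∞)))
  simp only [one_mul] at h1 h2
  rw [h1, h2]

/-- symmetry of the loss form -/
theorem lintegral_Lc_symm {f g : R3 → ℝ≥0∞} (hf : Measurable f) (hg : Measurable g) :
    ∫⁻ v, f v * Lc g v = ∫⁻ v, g v * Lc f v := by
  have h2 := lintegral_mul_Lc hf hg (measurable_const (a := (1 : ℝ≥0∞)))
  have h3 := lintegral_mul_Lc hg hf (measurable_const (a := (1 : ℝ≥0∞)))
  simp only [one_mul, mul_one] at h2 h3
  rw [h2, h3]
  have hK : MeasK (fun v vs w => kB v vs w * f v * g vs) := by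
    unfold MeasK
    exact (((Measurable.kB (by fun_prop) (by fun_prop) (by fun_prop)).mul (by fun_prop)).mul
      (by fun_prop))
  rw [← tri_swap hK]
  refine tri_congr fun v vs w _ => ?_
  rw [kB_swap]
  ring

/-- the adjoint of `h ↦ Qp φ h + Qp h φ` -/
noncomputable def Ga (φ ψ : R3 → ℝ≥0∞) (v : R3) : ℝ≥0∞ :=
  ∫⁻ vs, ∫⁻ w, kB v vs w * φ vs * (ψ (postVel v vs w) + ψ (postVelStar v vs w)) ∂sphereMeasure

theorem meas_Ga {α : Type*} [MeasurableSpace α] {φ ψ : α → R3 → ℝ≥0∞}
    (hφ : Measurable fun p : α × R3 => φ p.1 p.2) (hψ : Measurable fun p : α × R3 => ψ p.1 p.2) :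
    Measurable fun p : α × R3 => Ga (φ p.1) (ψ p.1) p.2 := by
  have h1 : Measurable fun p : ((α × R3) × R3) × R3 => φ p.1.1.1 p.1.2 :=
    hφ.comp (f := fun p : ((α × R3) × R3) × R3 => (p.1.1.1, p.1.2)) (by fun_prop)
  have h2 : Measurable fun r : ((α × R3) × R3) × R3 => ψ r.1.1.1 (postVel r.1.1.2 r.1.2 r.2) :=
    hψ.comp ((by fun_prop : Measurable fun r : ((α × R3) × R3) × R3 => r.1.1.1).prodMk
      (Measurable.postVel (by fun_prop) (by fun_prop) (by fun_prop)))
  have h3 : Measurable fun r : ((α × R3) × R3) × R3 => ψ r.1.1.1 (postVelStar r.1.1.2 r.1.2 r.2) :=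
    hψ.comp ((by fun_prop : Measurable fun r : ((α × R3) × R3) × R3 => r.1.1.1).prodMk
      (Measurable.postVelStar (by fun_prop) (by fun_prop) (by fun_prop)))
  have h4 : Measurable fun r : ((α × R3) × R3) × R3 => kB r.1.1.2 r.1.2 r.2 * φ r.1.1.1 r.1.2 *
      (ψ r.1.1.1 (postVel r.1.1.2 r.1.2 r.2) + ψ r.1.1.1 (postVelStar r.1.1.2 r.1.2 r.2)) :=
    ((Measurable.kB (by fun_prop) (by fun_prop) (by fun_prop)).mul h1).mul (h2.add h3)
  have h5 := h4.lintegral_prod_right' (ν := sphereMeasure)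
  exact h5.lintegral_prod_right' (ν := (volume : Measure R3))

theorem meas_Ga' {φ ψ : R3 → ℝ≥0∞} (hφ : Measurable φ) (hψ : Measurable ψ) :
    Measurable (Ga φ ψ) := by
  have h := meas_Ga (α := Unit) (φ := fun _ => φ) (ψ := fun _ => ψ) (hφ.comp measurable_snd)
    (hψ.comp measurable_snd)
  exact h.comp (g := fun p : Unit × R3 => Ga φ ψ p.2) (f := fun v : R3 => ((), v)) (by fun_prop)

/-- duality for the linear gain -/
theorem lintegral_mul_gain {φ h ψ : R3 → ℝ≥0∞} (hφ : Measurable φ) (hh : Measurable h)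
    (hψ : Measurable ψ) :
    ∫⁻ v, ψ v * (Qp φ h v + Qp h φ v) = ∫⁻ v, h v * Ga φ ψ v := by
  have e1 : ∫⁻ v, ψ v * (Qp φ h v + Qp h φ v) = (∫⁻ v, ψ v * Qp φ h v) + ∫⁻ v, ψ v * Qp h φ v := by
    rw [← lintegral_add_left (f := fun v => ψ v * Qp φ h v) (hψ.mul (meas_Qp' hφ hh))]
    exact lintegral_congr fun v => mul_add _ _ _
  rw [e1, lintegral_mul_Qp hφ hh hψ, lintegral_mul_Qp hh hφ hψ]
  have hK := measK_gain hφ hh hψ
  have hK2 := measK_gain hh hφ hψ
  have e2 : tri (fun v vs w => kB v vs w * φ v * h vs * ψ (postVel v vs w)) =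
      tri (fun v vs w => kB v vs w * h v * φ vs * ψ (postVelStar v vs w)) := by
    rw [← tri_swap hK]
    refine tri_congr fun v vs w _ => ?_
    rw [kB_swap, postVel_swap]
    ring
  rw [e2, ← tri_add (K := fun v vs w => kB v vs w * h v * φ vs * ψ (postVelStar v vs w))]
  swap
  · unfold MeasK
    have h4 : Measurable fun q : R3 × R3 × R3 => ψ (postVelStar q.1 q.2.1 q.2.2) :=
      hψ.comp (Measurable.postVelStar (by fun_prop) (by fun_prop) (by fun_prop))
    exact (((Measurable.kB (by fun_prop) (by fun_prop) (by fun_prop)).mul (by fun_prop)).mul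
      (by fun_prop)).mul h4
  have hK3 : MeasK (fun v vs w => h v * (kB v vs w * φ vs *
      (ψ (postVel v vs w) + ψ (postVelStar v vs w)))) := by
    unfold MeasK
    have h4 : Measurable fun q : R3 × R3 × R3 => ψ (postVelStar q.1 q.2.1 q.2.2) :=
      hψ.comp (Measurable.postVelStar (by fun_prop) (by fun_prop) (by fun_prop))
    have h5 : Measurable fun q : R3 × R3 × R3 => ψ (postVel q.1 q.2.1 q.2.2) :=
      hψ.comp (Measurable.postVel (by fun_prop) (by fun_prop) (by fun_prop))
    exact (by fun_prop : Measurable fun q : R3 × R3 × R3 => h q.1).mul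
      (((Measurable.kB (by fun_prop) (by fun_prop) (by fun_prop)).mul (by fun_prop)).mul
        (h5.add h4))
  have e3 : tri (fun v vs w => kB v vs w * h v * φ vs * ψ (postVelStar v vs w) +
      kB v vs w * h v * φ vs * ψ (postVel v vs w)) =
      tri (fun v vs w => h v * (kB v vs w * φ vs *
      (ψ (postVel v vs w) + ψ (postVelStar v vs w)))) := by
    refine tri_congr fun v vs w _ => ?_
    ring
  rw [e3, ← lintegral_tri hK3]
  refine lintegral_congr fun v => ?_
  unfold Ga
  have hi : Measurable fun z : R3 × R3 => kB v z.1 z.2 * φ z.1 *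
      (ψ (postVel v z.1 z.2) + ψ (postVelStar v z.1 z.2)) := by
    have h4 : Measurable fun q : R3 × R3 => ψ (postVelStar v q.1 q.2) :=
      hψ.comp (Measurable.postVelStar (by fun_prop) (by fun_prop) (by fun_prop))
    have h5 : Measurable fun q : R3 × R3 => ψ (postVel v q.1 q.2) :=
      hψ.comp (Measurable.postVel (by fun_prop) (by fun_prop) (by fun_prop))
    exact ((Measurable.kB (by fun_prop) (by fun_prop) (by fun_prop)).mul (by fun_prop)).mul
        (h5.add h4)
  have hGa : ∫⁻ vs, ∫⁻ w, kB v vs w * φ vs * (ψ (postVel v vs w) + ψ (postVelStar v vs w))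
      ∂sphereMeasure = ∫⁻ z, kB v z.1 z.2 * φ z.1 *
      (ψ (postVel v z.1 z.2) + ψ (postVelStar v z.1 z.2)) ∂kap := by
    unfold kap
    rw [lintegral_prod _ hi.aemeasurable]
  rw [hGa, ← lintegral_const_mul _ hi]
  have hm := hi.const_mul (h v)
  unfold kap
  rw [lintegral_prod _ hm.aemeasurable]

end Crest.Agent.R68.D
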