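import Mathlib

/-!
Row 68, D-layer (helper813): positive countably additive operators on measurable functions
`Ω → ℝ≥0∞`, Neumann series, minimality, comparison; adjoint pairs; ultrafilter weak limits.
-/

set_option autoImplicit false
set_option linter.unusedSectionVars false
open MeasureTheory Filter
open scoped ENNReal NNReal Topology

namespace Crest.Agent.R68.D

variable {Ω : Type*} [MeasurableSpace Ω] {μ : Measure Ω}

/-- a positive, countably additive operator on nonnegative measurable functions, compatible with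
a.e. order -/
structure PosOp (μ : Measure Ω) (T : (Ω → ℝ≥0∞) → (Ω → ℝ≥0∞)) : Prop where
  meas : ∀ f, Measurable f → Measurable (T f)
  mono : ∀ f g : Ω → ℝ≥0∞, Measurable f → Measurable g → f ≤ᵐ[μ] g → T f ≤ᵐ[μ] T g
  tsum : ∀ f : ℕ → Ω → ℝ≥0∞, (∀ n, Measurable (f n)) →
    T (fun x => ∑' n, f n x) =ᵐ[μ] fun x => ∑' n, T (f n) x
  map_zero : T (fun _ => 0) =ᵐ[μ] fun _ => 0

namespace PosOp

variable {T : (Ω → ℝ≥0∞) → (Ω → ℝ≥0∞)}

theorem congr (hT : PosOp μ T) {f g : Ω → ℝ≥0∞} (hf : Measurable f) (hg : Measurable g)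
    (h : f =ᵐ[μ] g) : T f =ᵐ[μ] T g :=
  (hT.mono f g hf hg h.le).antisymm (hT.mono g f hg hf h.symm.le)

theorem add (hT : PosOp μ T) {f g : Ω → ℝ≥0∞} (hf : Measurable f) (hg : Measurable g) :
    T (fun x => f x + g x) =ᵐ[μ] fun x => T f x + T g x := by
  let F : ℕ → Ω → ℝ≥0∞ := fun n => if n = 0 then f else if n = 1 then g else fun _ => 0
  have hF : ∀ n, Measurable (F n) := by
    intro n
    by_cases h0 : n = 0
    · simp [F, h0, hf]
    · by_cases h1 : n = 1
      · simp [F, h1, hg]
      · simp [F, h0, h1]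
  have h := hT.tsum F hF
  have hsum : ∀ G : ℕ → ℝ≥0∞, (∀ n, n ≠ 0 → n ≠ 1 → G n = 0) → ∑' n, G n = G 0 + G 1 := by
    intro G hG
    rw [tsum_eq_sum (s := Finset.range 2)]
    · simp [Finset.sum_range_succ]
    · intro b hb
      simp only [Finset.mem_range, not_lt] at hb
      exact hG b (by omega) (by omega)
  have h1 : (fun x => ∑' n : ℕ, F n x) = fun x => f x + g x := by
    funext x
    rw [hsum (fun n => F n x) (fun n h0 h1 => by simp [F, h0, h1])]
    simp [F]
  rw [h1] at h
  filter_upwards [h, hT.map_zero] with x hx hz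
  rw [hx, hsum (fun n => T (F n) x) (fun n h0 h1 => by simpa [F, h0, h1] using hz)]
  simp [F]

/-- iterates -/
theorem iter_meas (hT : PosOp μ T) {f : Ω → ℝ≥0∞} (hf : Measurable f) (n : ℕ) :
    Measurable (T^[n] f) := by
  induction n with
  | zero => exact hf
  | succ n ih => rw [Function.iterate_succ_apply']; exact hT.meas _ ih

theorem iter_mono (hT : PosOp μ T) {f g : Ω → ℝ≥0∞} (hf : Measurable f) (hg : Measurable g)
    (h : f ≤ᵐ[μ] g) (n : ℕ) : T^[n] f ≤ᵐ[μ] T^[n] g := by
  induction n with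
  | zero => exact h
  | succ n ih =>
    rw [Function.iterate_succ_apply', Function.iterate_succ_apply']
    exact hT.mono _ _ (hT.iter_meas hf n) (hT.iter_meas hg n) ih

theorem iter_congr (hT : PosOp μ T) {f g : Ω → ℝ≥0∞} (hf : Measurable f) (hg : Measurable g)
    (h : f =ᵐ[μ] g) (n : ℕ) : T^[n] f =ᵐ[μ] T^[n] g :=
  (hT.iter_mono hf hg h.le n).antisymm (hT.iter_mono hg hf h.symm.le n)

theorem iter_tsum (hT : PosOp μ T) {f : ℕ → Ω → ℝ≥0∞} (hf : ∀ n, Measurable (f n)) (k : ℕ) :
    T^[k] (fun x => ∑' n, f n x) =ᵐ[μ] fun x => ∑' n, T^[k] (f n) x := by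
  induction k with
  | zero => exact Filter.EventuallyEq.rfl
  | succ k ih =>
    simp only [Function.iterate_succ_apply']
    have h1 := hT.congr (hT.iter_meas (Measurable.tsum hf) k)
      (Measurable.tsum fun n => hT.iter_meas (hf n) k) ih
    exact h1.trans (hT.tsum (fun n => T^[k] (f n)) (fun n => hT.iter_meas (hf n) k))

/-- Neumann series -/
noncomputable def _root_.Crest.Agent.R68.D.neu (T : (Ω → ℝ≥0∞) → (Ω → ℝ≥0∞)) (f : Ω → ℝ≥0∞) :
    Ω → ℝ≥0∞ := fun x => ∑' n, T^[n] f x

theorem neu_meas (hT : PosOp μ T) {f : Ω → ℝ≥0∞} (hf : Measurable f) : Measurable (neu T f) :=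
  Measurable.tsum fun n => hT.iter_meas hf n

theorem le_neu (f : Ω → ℝ≥0∞) (x : Ω) : f x ≤ neu T f x :=
  ENNReal.le_tsum (f := fun n => T^[n] f x) 0

theorem iter_le_neu (f : Ω → ℝ≥0∞) (n : ℕ) (x : Ω) : T^[n] f x ≤ neu T f x :=
  ENNReal.le_tsum (f := fun n => T^[n] f x) n

/-- the Neumann series solves `u = f + T u` -/
theorem neu_eq (hT : PosOp μ T) {f : Ω → ℝ≥0∞} (hf : Measurable f) :
    neu T f =ᵐ[μ] fun x => f x + T (neu T f) x := by
  have h := hT.tsum (fun n => T^[n] f) (fun n => hT.iter_meas hf n)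
  filter_upwards [h] with x hx
  have h2 : T (neu T f) x = ∑' n, T (T^[n] f) x := hx
  rw [h2]
  simp only [neu]
  rw [tsum_eq_zero_add' ENNReal.summable]
  simp only [Function.iterate_zero, id_eq, Function.iterate_succ_apply']

theorem neu_mono (hT : PosOp μ T) {f g : Ω → ℝ≥0∞} (hf : Measurable f) (hg : Measurable g)
    (h : f ≤ᵐ[μ] g) : neu T f ≤ᵐ[μ] neu T g := by
  have h1 : ∀ᵐ x ∂μ, ∀ n, T^[n] f x ≤ T^[n] g x := ae_all_iff.2 fun n => hT.iter_mono hf hg h n
  filter_upwards [h1] with x hx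
  exact ENNReal.tsum_le_tsum hx

theorem neu_congr (hT : PosOp μ T) {f g : Ω → ℝ≥0∞} (hf : Measurable f) (hg : Measurable g)
    (h : f =ᵐ[μ] g) : neu T f =ᵐ[μ] neu T g :=
  (hT.neu_mono hf hg h.le).antisymm (hT.neu_mono hg hf h.symm.le)

theorem neu_tsum (hT : PosOp μ T) {f : ℕ → Ω → ℝ≥0∞} (hf : ∀ n, Measurable (f n)) :
    neu T (fun x => ∑' n, f n x) =ᵐ[μ] fun x => ∑' n, neu T (f n) x := by
  have h1 : ∀ᵐ x ∂μ, ∀ k, T^[k] (fun x => ∑' n, f n x) x = ∑' n, T^[k] (f n) x :=
    ae_all_iff.2 fun k => hT.iter_tsum hf k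
  filter_upwards [h1] with x hx
  simp only [neu]
  simp_rw [hx]
  exact ENNReal.tsum_comm

/-- `neu T` is again a positive operator -/
theorem neu_posOp (hT : PosOp μ T) : PosOp μ (neu T) where
  meas _ hf := hT.neu_meas hf
  mono _ _ hf hg h := hT.neu_mono hf hg h
  tsum _ hf := hT.neu_tsum hf
  map_zero := by
    have h : ∀ᵐ x ∂μ, ∀ n, T^[n] (fun _ => 0) x = 0 := by
      refine ae_all_iff.2 fun n => ?_
      induction n with
      | zero => exact Eventually.of_forall fun _ => rfl
      | succ n ih =>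
        rw [Function.iterate_succ_apply']
        have h1 := hT.congr (hT.iter_meas measurable_const n) measurable_const
          (show T^[n] (fun _ => 0) =ᵐ[μ] fun _ => 0 from ih)
        exact h1.trans hT.map_zero
    filter_upwards [h] with x hx
    simp [neu, hx]

theorem neu_add (hT : PosOp μ T) {f g : Ω → ℝ≥0∞} (hf : Measurable f) (hg : Measurable g) :
    neu T (fun x => f x + g x) =ᵐ[μ] fun x => neu T f x + neu T g x :=
  hT.neu_posOp.add hf hg

/-- `T (neu T f) = neu T (T f)` -/
theorem T_neu (hT : PosOp μ T) {f : Ω → ℝ≥0∞} (hf : Measurable f) :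
    T (neu T f) =ᵐ[μ] neu T (T f) := by
  have h := hT.tsum (fun n => T^[n] f) (fun n => hT.iter_meas hf n)
  filter_upwards [h] with x hx
  have h2 : T (neu T f) x = ∑' n, T (T^[n] f) x := hx
  rw [h2]
  simp only [neu]
  refine tsum_congr fun n => ?_
  rw [← Function.iterate_succ_apply' T n f, Function.iterate_succ_apply]

/-- partial sums -/
noncomputable def _root_.Crest.Agent.R68.D.part (T : (Ω → ℝ≥0∞) → (Ω → ℝ≥0∞)) (f : Ω → ℝ≥0∞)
    (n : ℕ) : Ω → ℝ≥0∞ := fun x => ∑ k ∈ Finset.range n, T^[k] f x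

theorem part_meas (hT : PosOp μ T) {f : Ω → ℝ≥0∞} (hf : Measurable f) (n : ℕ) :
    Measurable (part T f n) :=
  Finset.measurable_sum _ fun k _ => hT.iter_meas hf k

theorem part_le_succ (f : Ω → ℝ≥0∞) (n : ℕ) (x : Ω) : part T f n x ≤ part T f (n + 1) x := by
  simp only [part, Finset.sum_range_succ]
  exact le_self_add

theorem part_le_neu (f : Ω → ℝ≥0∞) (n : ℕ) (x : Ω) : part T f n x ≤ neu T f x :=
  ENNReal.sum_le_tsum (f := fun k => T^[k] f x) _

theorem neu_eq_iSup (f : Ω → ℝ≥0∞) (x : Ω) : neu T f x = ⨆ n, part T f n x :=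
  ENNReal.tsum_eq_iSup_nat

/-- recursion `S_{n+1} = f + T S_n` for the partial sums -/
theorem part_succ (hT : PosOp μ T) {f : Ω → ℝ≥0∞} (hf : Measurable f) (n : ℕ) :
    part T f (n + 1) =ᵐ[μ] fun x => f x + T (part T f n) x := by
  have key : T (part T f n) =ᵐ[μ] fun x => ∑ k ∈ Finset.range n, T (T^[k] f) x := by
    induction n with
    | zero =>
      have : part T f 0 = fun _ => 0 := by funext x; simp [part]
      rw [this]
      simpa using hT.map_zero
    | succ n ih =>
      have h1 : part T f (n + 1) = fun x => part T f n x + T^[n] f x := by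
        funext x; simp [part, Finset.sum_range_succ]
      rw [h1]
      have h2 := hT.add (hT.part_meas hf n) (hT.iter_meas hf n)
      filter_upwards [h2, ih] with x hx hi
      rw [hx, hi, Finset.sum_range_succ]
  filter_upwards [key] with x hx
  rw [hx]
  simp only [part]
  rw [Finset.sum_range_succ']
  simp only [Function.iterate_zero, id_eq, Function.iterate_succ_apply']
  rw [add_comm]

/-- induction principle for bounds on the Neumann series -/
theorem neu_le_of_part (f : Ω → ℝ≥0∞) {W : Ω → ℝ≥0∞} (h : ∀ n, part T f n ≤ᵐ[μ] W) :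
    neu T f ≤ᵐ[μ] W := by
  filter_upwards [ae_all_iff.2 h] with x hx
  rw [neu_eq_iSup]
  exact iSup_le hx

/-- minimality: supersolutions dominate the Neumann series -/
theorem neu_le (hT : PosOp μ T) {f u : Ω → ℝ≥0∞} (hf : Measurable f) (hu : Measurable u)
    (h : (fun x => f x + T u x) ≤ᵐ[μ] u) : neu T f ≤ᵐ[μ] u := by
  refine neu_le_of_part f fun n => ?_
  induction n with
  | zero => exact Eventually.of_forall fun x => by simp [part]
  | succ n ih =>
    have h1 := hT.mono _ _ (hT.part_meas hf n) hu ih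
    filter_upwards [hT.part_succ hf n, h1, h] with x h2 h3 h4
    rw [h2]
    exact (add_le_add le_rfl h3).trans h4

/-- comparison: subsolutions are dominated if the series of iterates is finite -/
theorem le_neu_of_le (hT : PosOp μ T) {f u : Ω → ℝ≥0∞} (hf : Measurable f) (hu : Measurable u)
    (h : u ≤ᵐ[μ] fun x => f x + T u x) (hfin : ∀ᵐ x ∂μ, neu T u x < ⊤) : u ≤ᵐ[μ] neu T f := by
  have hstep : ∀ n, u ≤ᵐ[μ] fun x => part T f n x + T^[n] u x := by
    intro n
    induction n with
    | zero => exact Eventually.of_forall fun x => by simp [part]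
    | succ n ih =>
      have h1 : T^[n] u ≤ᵐ[μ] T^[n] (fun x => f x + T u x) :=
        hT.iter_mono hu (hf.add (hT.meas _ hu)) h n
      have h2 : T^[n] (fun x => f x + T u x) =ᵐ[μ] fun x => T^[n] f x + T^[n] (T u) x := by
        clear ih h1
        induction n with
        | zero => exact Filter.EventuallyEq.rfl
        | succ n ih =>
          simp only [Function.iterate_succ_apply']
          have h3 := hT.congr (hT.iter_meas (hf.add (hT.meas _ hu)) n)
            ((hT.iter_meas hf n).add (hT.iter_meas (hT.meas _ hu) n)) ih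
          exact h3.trans (hT.add (hT.iter_meas hf n) (hT.iter_meas (hT.meas _ hu) n))
      filter_upwards [ih, h1, h2] with x a b c
      have e1 : part T f (n + 1) x = part T f n x + T^[n] f x := by
        simp [part, Finset.sum_range_succ]
      rw [e1]
      have e2 : T^[n + 1] u x = T^[n] (T u) x := by rw [Function.iterate_succ_apply]
      rw [e2]
      calc u x ≤ part T f n x + T^[n] u x := a
        _ ≤ part T f n x + (T^[n] f x + T^[n] (T u) x) := by
            rw [← c]; exact add_le_add le_rfl b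
        _ = _ := by rw [add_assoc]
  have hall := ae_all_iff.2 hstep
  filter_upwards [hall, hfin] with x hx hx2
  have hlim : Tendsto (fun n => T^[n] u x) atTop (𝓝 0) :=
    ENNReal.tendsto_atTop_zero_of_tsum_ne_top (f := fun n => T^[n] u x) hx2.ne
  have h3 : Tendsto (fun n => neu T f x + T^[n] u x) atTop (𝓝 (neu T f x + 0)) :=
    tendsto_const_nhds.add hlim
  rw [add_zero] at h3
  refine ge_of_tendsto' h3 fun n => ?_
  exact (hx n).trans (add_le_add (part_le_neu f n x) le_rfl)

/-- uniqueness for `u = f + T u` in the class where the series of iterates is finite -/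
theorem eq_neu (hT : PosOp μ T) {f u : Ω → ℝ≥0∞} (hf : Measurable f) (hu : Measurable u)
    (h : u =ᵐ[μ] fun x => f x + T u x) (hfin : ∀ᵐ x ∂μ, neu T u x < ⊤) : u =ᵐ[μ] neu T f :=
  (hT.le_neu_of_le hf hu h.le hfin).antisymm (hT.neu_le hf hu h.symm.le)

/-- composition -/
theorem comp {T' : (Ω → ℝ≥0∞) → (Ω → ℝ≥0∞)} (hT : PosOp μ T) (hT' : PosOp μ T') :
    PosOp μ (fun f => T (T' f)) where
  meas f hf := hT.meas _ (hT'.meas _ hf)
  mono f g hf hg h := hT.mono _ _ (hT'.meas _ hf) (hT'.meas _ hg) (hT'.mono _ _ hf hg h)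
  tsum f hf := by
    have h1 := hT.congr (hT'.meas _ (Measurable.tsum hf))
      (Measurable.tsum fun n => hT'.meas _ (hf n)) (hT'.tsum f hf)
    exact h1.trans (hT.tsum (fun n => T' (f n)) (fun n => hT'.meas _ (hf n)))
  map_zero := by
    have h1 := hT.congr (hT'.meas _ measurable_const) measurable_const hT'.map_zero
    exact h1.trans hT.map_zero

end PosOp

end Crest.Agent.R68.D
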