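import Crest.Agent.R68.Defs
import Crest.Agent.R68.DBil
import Crest.Agent.R68.DNeu

/-!
Row 68, D-layer (helper813): phase space `Ph = ℝ × P2 × R3`, free flight, measure preservation,
damped Duhamel operator.
-/

set_option autoImplicit false
open MeasureTheory Filter Set
open scoped ENNReal NNReal Topology
open Crest.AnalysisR.VecCalc3 Crest.AnalysisR.PDE.Boltzmann

namespace Crest.Agent.R68.D

/-- phase space `(t, x, v)` -/
abbrev Ph : Type := ℝ × P2 × R3

@[fun_prop]
theorem continuous_bar : Continuous bar := by unfold bar; fun_prop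

@[fun_prop]
theorem measurable_bar : Measurable bar := continuous_bar.measurable

/-- position at time `s` on the free trajectory through `p` -/
noncomputable def fl (s : ℝ) (p : Ph) : Ph := (s, p.2.1 - (p.1 - s) • bar p.2.2, p.2.2)

@[simp] theorem fl_fst (s : ℝ) (p : Ph) : (fl s p).1 = s := rfl
@[simp] theorem fl_vel (s : ℝ) (p : Ph) : (fl s p).2.2 = p.2.2 := rfl
theorem fl_pos (s : ℝ) (p : Ph) : (fl s p).2.1 = p.2.1 - (p.1 - s) • bar p.2.2 := rfl

@[simp] theorem fl_fl (s τ : ℝ) (p : Ph) : fl s (fl τ p) = fl s p := by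
  unfold fl
  simp only [Prod.mk.injEq, and_true, true_and]
  module

@[simp] theorem fl_self (p : Ph) : fl p.1 p = p := by
  unfold fl
  simp

theorem fl_self' {s : ℝ} {p : Ph} (h : s = p.1) : fl s p = p := by rw [h, fl_self]

theorem continuous_fl : Continuous fun q : ℝ × Ph => fl q.1 q.2 := by
  unfold fl
  fun_prop

@[fun_prop]
theorem Measurable.fl {α : Type*} [MeasurableSpace α] {s : α → ℝ} {p : α → Ph}
    (hs : Measurable s) (hp : Measurable p) : Measurable fun a => D.fl (s a) (p a) :=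
  continuous_fl.measurable.comp (hs.prodMk hp)

/-! ### measures on phase space -/

/-- the measure `dt ⊗ m(dx) ⊗ dv` restricted to times in `I` -/
noncomputable def muP (I : Set ℝ) (m : Measure P2) : Measure Ph :=
  ((volume : Measure ℝ).restrict I).prod (m.prod (volume : Measure R3))

theorem muP_univ : muP univ (volume : Measure P2) = (volume : Measure Ph) := by
  unfold muP
  rw [Measure.restrict_univ]
  rfl

instance (I : Set ℝ) (m : Measure P2) [SFinite m] : SFinite (muP I m) := by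
  unfold muP; infer_instance

theorem muP_restrict (I : Set ℝ) (m : Measure P2) [SFinite m] :
    muP I m = (muP univ m).restrict (I ×ˢ univ) := by
  unfold muP
  rw [Measure.restrict_univ]
  conv_rhs => rw [← Measure.prod_restrict, Measure.restrict_univ]

theorem ae_muP_iff {I : Set ℝ} (hI : MeasurableSet I) {m : Measure P2} [SFinite m]
    {P : Ph → Prop} : (∀ᵐ p ∂muP I m, P p) ↔ ∀ᵐ p ∂muP univ m, p.1 ∈ I → P p := by
  rw [muP_restrict I m, ae_restrict_iff' (hI.prod MeasurableSet.univ)]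
  simp

/-- the map `(s, p) ↦ (p.1, fl s p)` exchanging the base point and the flown point -/
noncomputable def exch (q : ℝ × Ph) : ℝ × Ph := (q.2.1, fl q.1 q.2)

@[fun_prop]
theorem measurable_exch : Measurable exch := by unfold exch; fun_prop

theorem exch_exch (q : ℝ × Ph) : exch (exch q) = q := by
  unfold exch
  simp

theorem lintegral_muP (I : Set ℝ) {m : Measure P2} [SFinite m] {G : Ph → ℝ≥0∞}
    (hG : Measurable G) :
    ∫⁻ p, G p ∂muP I m = ∫⁻ t in I, ∫⁻ v, ∫⁻ x, G (t, x, v) ∂m := by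
  unfold muP
  rw [lintegral_prod _ hG.aemeasurable]
  refine lintegral_congr fun t => ?_
  have h1 : Measurable fun q : P2 × R3 => G (t, q) := hG.comp (by fun_prop)
  rw [lintegral_prod_symm _ h1.aemeasurable]

theorem lintegral_muP_mid {m : Measure P2} [SFinite m] {G : ℝ × Ph → ℝ≥0∞}
    (hG : Measurable G) :
    ∫⁻ p, (∫⁻ s, G (s, p)) ∂muP univ m = ∫⁻ s, ∫⁻ t, ∫⁻ v, ∫⁻ x, G (s, (t, x, v)) ∂m := by
  have h0 : Measurable (Function.uncurry fun (p : Ph) (s : ℝ) => G (s, p)) :=
    hG.comp (by fun_prop)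
  rw [lintegral_lintegral_swap h0.aemeasurable]
  refine lintegral_congr fun s => ?_
  have h1 : Measurable fun p : Ph => G (s, p) := hG.comp (by fun_prop)
  rw [lintegral_muP univ h1, Measure.restrict_univ]

/-- exchange of base point and flown point; `hinv` is the translation invariance in `x` -/
theorem lintegral_exch {m : Measure P2} [SFinite m] {H : ℝ × Ph → ℝ≥0∞} (hH : Measurable H)
    (hinv : ∀ (s t : ℝ) (v : R3), ∫⁻ x, H (s, (t, x + (t - s) • bar v, v)) ∂m =
      ∫⁻ x, H (s, (t, x, v)) ∂m) :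
    ∫⁻ p, (∫⁻ s, H (s, p)) ∂muP univ m = ∫⁻ p, (∫⁻ t, H (exch (t, p))) ∂muP univ m := by
  have hHe : Measurable fun q : ℝ × Ph => H (exch q) := hH.comp measurable_exch
  rw [lintegral_muP_mid hH, lintegral_muP_mid hHe]
  have hsw : ∫⁻ s : ℝ, ∫⁻ t : ℝ, ∫⁻ v : R3, ∫⁻ x, H (exch (s, (t, x, v))) ∂m =
      ∫⁻ t : ℝ, ∫⁻ s : ℝ, ∫⁻ v : R3, ∫⁻ x, H (exch (s, (t, x, v))) ∂m := by
    refine lintegral_lintegral_swap ?_
    have h1 : Measurable fun q : ((ℝ × ℝ) × R3) × P2 => H (exch (q.1.1.1, (q.1.1.2, q.2, q.1.2))) :=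
      hHe.comp (by fun_prop)
    have h2 := h1.lintegral_prod_right' (ν := m)
    have h3 := h2.lintegral_prod_right' (ν := (volume : Measure R3))
    exact h3.aemeasurable
  rw [hsw]
  refine lintegral_congr fun s => lintegral_congr fun t => lintegral_congr fun v => ?_
  rw [← hinv s t v]
  refine lintegral_congr fun x => ?_
  unfold exch fl
  simp only
  congr 4
  module

/-- full-space version: no hypothesis -/
theorem lintegral_exch_vol {H : ℝ × Ph → ℝ≥0∞} (hH : Measurable H) :
    ∫⁻ p : Ph, (∫⁻ s, H (s, p)) = ∫⁻ p : Ph, (∫⁻ t, H (exch (t, p))) := by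
  have h := lintegral_exch (m := (volume : Measure P2)) hH (fun s t v =>
    lintegral_add_right_eq_self (μ := (volume : Measure P2)) (fun x => H (s, (t, x, v)))
      ((t - s) • bar v))
  rwa [muP_univ] at h

/-- cell version for periodic kernels -/
theorem lintegral_exch_per {m : Measure P2} [SFinite m]
    (hm : ∀ g : P2 → ℝ≥0∞, Measurable g → PerG g → ∀ a, ∫⁻ x, g (x + a) ∂m = ∫⁻ x, g x ∂m)
    {H : ℝ × Ph → ℝ≥0∞} (hH : Measurable H) (hper : ∀ s t v, PerG fun x => H (s, (t, x, v))) :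
    ∫⁻ p, (∫⁻ s, H (s, p)) ∂muP univ m = ∫⁻ p, (∫⁻ t, H (exch (t, p))) ∂muP univ m :=
  lintegral_exch hH fun s t v => hm (fun x => H (s, (t, x, v))) (hH.comp (by fun_prop))
    (hper s t v) _

/-- an a.e. property holds along a.e. trajectory for a.e. time -/
theorem ae_fl {P : Ph → Prop} (h : ∀ᵐ p : Ph, P p) : ∀ᵐ p : Ph, ∀ᵐ s : ℝ, P (fl s p) := by
  obtain ⟨S, hsub, hsm, hs0⟩ :=
    exists_measurable_superset_of_null (show volume {p : Ph | ¬ P p} = 0 from h)
  have hH : Measurable fun q : ℝ × Ph => S.indicator (fun _ => (1 : ℝ≥0∞)) (fl q.1 q.2) :=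
    (measurable_const.indicator hsm).comp continuous_fl.measurable
  have h1 := lintegral_exch_vol hH
  have h2 : ∫⁻ p : Ph, ∫⁻ t : ℝ, S.indicator (fun _ => (1 : ℝ≥0∞))
      (fl (exch (t, p)).1 (exch (t, p)).2) = 0 := by
    have : ∀ p : Ph, ∀ t : ℝ, S.indicator (fun _ => (1 : ℝ≥0∞))
      (fl (exch (t, p)).1 (exch (t, p)).2) = S.indicator (fun _ => (1 : ℝ≥0∞)) p := by
      intro p t
      unfold exch
      simp
    simp only [this]
    have hS : ∀ᵐ p : Ph, p ∉ S := by rw [ae_iff]; simpa using hs0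
    rw [lintegral_congr_ae (g := fun _ => 0)]
    · simp
    · filter_upwards [hS] with p hp
      simp [hp]
  rw [h2] at h1
  have hm : Measurable fun p : Ph => ∫⁻ s : ℝ, S.indicator (fun _ => (1 : ℝ≥0∞)) (fl s p) := by
    have : Measurable fun q : Ph × ℝ => S.indicator (fun _ => (1 : ℝ≥0∞)) (fl q.2 q.1) :=
      hH.comp (by fun_prop : Measurable fun q : Ph × ℝ => (q.2, q.1))
    exact this.lintegral_prod_right'
  have h3 := (lintegral_eq_zero_iff hm).1 h1
  filter_upwards [h3] with p hp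
  have hp' : ∫⁻ s : ℝ, S.indicator (fun _ => (1 : ℝ≥0∞)) (fl s p) = 0 := hp
  have hm2 : Measurable fun s : ℝ => S.indicator (fun _ => (1 : ℝ≥0∞)) (fl s p) :=
    hH.comp (by fun_prop : Measurable fun s : ℝ => (s, p))
  have h4 := (lintegral_eq_zero_iff hm2).1 hp'
  filter_upwards [h4] with s hs
  by_contra hc
  have : fl s p ∈ S := hsub hc
  simp [this] at hs

end Crest.Agent.R68.D
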