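import Mathlib

/-!
Row 68, part E: chain rule for absolutely continuous functions `y(s) = y0 + ∫_0^s q`.
-/

set_option autoImplicit false
open MeasureTheory Set
open scoped ENNReal NNReal

namespace Crest.Agent.R68E

lemma ac_comp {f : ℝ → ℝ} {a b : ℝ} (hf : AbsolutelyContinuousOnInterval f a b) {φ : ℝ → ℝ}
    {S : Set ℝ} {K : ℝ≥0} (hφ : LipschitzOnWith K φ S) (hS : ∀ x ∈ uIcc a b, f x ∈ S) :
    AbsolutelyContinuousOnInterval (fun x => φ (f x)) a b := by
  rw [absolutelyContinuousOnInterval_iff] at hf ⊢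
  intro ε hε
  obtain ⟨δ, hδ, h⟩ := hf (ε / (K + 1)) (by positivity)
  refine ⟨δ, hδ, fun E hE hlt => ?_⟩
  have h1 := h E hE hlt
  calc ∑ i ∈ Finset.range E.1, dist (φ (f (E.2 i).1)) (φ (f (E.2 i).2))
      ≤ ∑ i ∈ Finset.range E.1, (K : ℝ) * dist (f (E.2 i).1) (f (E.2 i).2) := by
        refine Finset.sum_le_sum fun i hi => ?_
        have h2 := hE.1 i hi
        exact hφ.dist_le_mul _ (hS _ h2.1) _ (hS _ h2.2)
    _ = (K : ℝ) * ∑ i ∈ Finset.range E.1, dist (f (E.2 i).1) (f (E.2 i).2) := by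
        rw [Finset.mul_sum]
    _ ≤ (K : ℝ) * (ε / (K + 1)) := by
        refine mul_le_mul_of_nonneg_left h1.le K.2
    _ < ε := by
        have hK : (0 : ℝ) ≤ K := K.2
        rw [mul_div_assoc', div_lt_iff₀ (by positivity)]
        nlinarith

/-- chain rule for `y(s) = y0 + ∫_0^s q`. -/
theorem chain_rule {t : ℝ} (ht : 0 ≤ t) {q : ℝ → ℝ} (hq : IntegrableOn q (Ioo 0 t)) (y0 : ℝ)
    {φ φ' : ℝ → ℝ} {c : ℝ} (hφ : ∀ z, c < z → HasDerivAt φ (φ' z) z)
    (hφ' : ContinuousOn φ' (Ioi c))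
    (hy : ∀ s ∈ Icc 0 t, c < y0 + ∫ r in Ioo 0 s, q r) :
    IntegrableOn (fun s => φ' (y0 + ∫ r in Ioo 0 s, q r) * q s) (Ioo 0 t) ∧
    φ (y0 + ∫ r in Ioo 0 t, q r) - φ y0 =
      ∫ s in Ioo 0 t, φ' (y0 + ∫ r in Ioo 0 s, q r) * q s := by
  have hqi : IntervalIntegrable q volume 0 t := by
    rw [intervalIntegrable_iff_integrableOn_Ioo_of_le ht]; exact hq
  set y : ℝ → ℝ := fun s => y0 + ∫ r in (0 : ℝ)..s, q r with hydef
  have hyy : ∀ s, 0 ≤ s → y0 + ∫ r in Ioo 0 s, q r = y s := by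
    intro s hs
    simp only [hydef]
    rw [intervalIntegral.integral_of_le hs, integral_Ioc_eq_integral_Ioo]
  have hac : AbsolutelyContinuousOnInterval y 0 t := by
    have h1 := hqi.absolutelyContinuousOnInterval_intervalIntegral (c := 0) (by simp)
    have h2 : AbsolutelyContinuousOnInterval (fun _ : ℝ => y0) 0 t :=
      (LipschitzOnWith.absolutelyContinuousOnInterval (K := 0)
        (LipschitzWith.const y0).lipschitzOnWith)
    exact h2.add h1
  have hcont : ContinuousOn y (Icc 0 t) := by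
    have := hac.continuousOn
    rwa [uIcc_of_le ht] at this
  have hne : (Icc (0 : ℝ) t).Nonempty := ⟨0, by simp [ht]⟩
  obtain ⟨s0, hs0, hmin⟩ := isCompact_Icc.exists_isMinOn hne hcont
  obtain ⟨s1, hs1, hmax⟩ := isCompact_Icc.exists_isMaxOn hne hcont
  have hm : c < y s0 := by rw [← hyy s0 hs0.1]; exact hy s0 hs0
  have hrange : ∀ s ∈ Icc 0 t, y s ∈ Icc (y s0) (y s1) := fun s hs => ⟨hmin hs, hmax hs⟩
  have hφ'K : ContinuousOn φ' (Icc (y s0) (y s1)) :=
    hφ'.mono fun z hz => lt_of_lt_of_le hm hz.1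
  obtain ⟨C, hC⟩ := isCompact_Icc.exists_bound_of_continuousOn hφ'K
  have hLip : LipschitzOnWith (Real.toNNReal C) φ (Icc (y s0) (y s1)) := by
    refine (convex_Icc _ _).lipschitzOnWith_of_nnnorm_hasDerivWithin_le
      (f' := φ') (fun z hz => (hφ z (lt_of_lt_of_le hm hz.1)).hasDerivWithinAt) ?_
    intro z hz
    have := hC z hz
    rw [← NNReal.coe_le_coe, coe_nnnorm]
    exact this.trans (Real.le_coe_toNNReal C)
  have hac2 : AbsolutelyContinuousOnInterval (fun s => φ (y s)) 0 t :=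
    ac_comp hac hLip (by rw [uIcc_of_le ht]; exact hrange)
  have hder : ∀ᵐ s, s ∈ Ioc 0 t → deriv (fun s => φ (y s)) s = φ' (y s) * q s := by
    filter_upwards [hqi.ae_hasDerivAt_integral] with s hs hst
    have hst' : s ∈ uIcc 0 t := by rw [uIcc_of_le ht]; exact ⟨hst.1.le, hst.2⟩
    have h1 : HasDerivAt y (q s) s := by
      have := (hs hst' 0 (by simp)).const_add y0
      exact this
    have h2 : HasDerivAt φ (φ' (y s)) (y s) :=
      hφ _ (lt_of_lt_of_le hm (hrange s ⟨hst.1.le, hst.2⟩).1)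
    exact (h2.comp s h1).deriv
  have hbd : IntegrableOn (fun s => φ' (y s) * q s) (Ioo 0 t) := by
    have hmeas : AEStronglyMeasurable (fun s => φ' (y s)) (volume.restrict (Ioo 0 t)) := by
      have h1 : ContinuousOn (fun s => φ' (y s)) (Icc 0 t) :=
        hφ'K.comp hcont hrange
      exact (h1.mono Ioo_subset_Icc_self).aestronglyMeasurable measurableSet_Ioo
    refine Integrable.bdd_mul (c := C) hq hmeas ?_
    filter_upwards [ae_restrict_mem measurableSet_Ioo] with s hs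
    exact hC _ (hrange s (Ioo_subset_Icc_self hs))
  have hcongr : ∀ s ∈ Ioo (0 : ℝ) t, φ' (y0 + ∫ r in Ioo 0 s, q r) * q s = φ' (y s) * q s := by
    intro s hs
    rw [hyy s hs.1.le]
  constructor
  · exact hbd.congr_fun (fun s hs => (hcongr s hs).symm) measurableSet_Ioo
  · rw [setIntegral_congr_fun measurableSet_Ioo hcongr, hyy t ht]
    have h3 := hac2.integral_deriv_eq_sub
    have h0 : y 0 = y0 := by simp [hydef]
    simp only [h0] at h3
    rw [← h3, intervalIntegral.integral_of_le ht, ← integral_Ioc_eq_integral_Ioo]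
    refine setIntegral_congr_ae measurableSet_Ioc ?_
    filter_upwards [hder] with s hs hst
    exact hs hst

end Crest.Agent.R68E
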