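import Crest.Agent.R68.DDuh
import Crest.Agent.R68.EChain

/-!
Row 68, D-layer (helper813): the decay factor `dec a = e^{-a}`, optical depth `Att`,
the damped Duhamel operator `Du ν`, the space-time gain `Gq` and frequency `Lq`;
all of them are `PosOp`s.
-/

set_option autoImplicit false
open MeasureTheory Filter Set
open scoped ENNReal NNReal Topology
open Crest.AnalysisR.VecCalc3 Crest.AnalysisR.PDE.Boltzmann

namespace Crest.Agent.R68.D

/-! ### decay factor -/

/-- `e^{-a}` for `a ∈ [0,∞]` -/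
noncomputable def dec (a : ℝ≥0∞) : ℝ≥0∞ := open scoped Classical in
  if a = ⊤ then 0 else ENNReal.ofReal (Real.exp (-a.toReal))

@[simp] theorem dec_top : dec ⊤ = 0 := by simp [dec]
@[simp] theorem dec_zero : dec 0 = 1 := by simp [dec]

theorem dec_of_ne_top {a : ℝ≥0∞} (h : a ≠ ⊤) : dec a = ENNReal.ofReal (Real.exp (-a.toReal)) := by
  simp [dec, h]

theorem dec_ofReal {a : ℝ} (h : 0 ≤ a) : dec (ENNReal.ofReal a) = ENNReal.ofReal (Real.exp (-a)) := by
  rw [dec_of_ne_top ENNReal.ofReal_ne_top, ENNReal.toReal_ofReal h]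

theorem dec_le_one (a : ℝ≥0∞) : dec a ≤ 1 := by
  by_cases h : a = ⊤
  · simp [h]
  · rw [dec_of_ne_top h, ← ENNReal.ofReal_one]
    refine ENNReal.ofReal_le_ofReal ?_
    rw [Real.exp_le_one_iff]
    have := ENNReal.toReal_nonneg (a := a)
    linarith

theorem dec_lt_top (a : ℝ≥0∞) : dec a < ⊤ := lt_of_le_of_lt (dec_le_one a) ENNReal.one_lt_top

theorem dec_anti {a b : ℝ≥0∞} (h : a ≤ b) : dec b ≤ dec a := by
  by_cases hb : b = ⊤
  · simp [hb]
  · have ha : a ≠ ⊤ := ne_top_of_le_ne_top hb h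
    rw [dec_of_ne_top hb, dec_of_ne_top ha]
    refine ENNReal.ofReal_le_ofReal (Real.exp_le_exp.2 ?_)
    have := ENNReal.toReal_mono hb h
    linarith

theorem dec_add (a b : ℝ≥0∞) : dec (a + b) = dec a * dec b := by
  by_cases ha : a = ⊤
  · simp [ha]
  by_cases hb : b = ⊤
  · simp [hb]
  rw [dec_of_ne_top (ENNReal.add_ne_top.2 ⟨ha, hb⟩), dec_of_ne_top ha, dec_of_ne_top hb,
    ← ENNReal.ofReal_mul (Real.exp_pos _).le, ← Real.exp_add, ENNReal.toReal_add ha hb]
  congr 2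
  ring

@[fun_prop]
theorem measurable_dec : Measurable dec := by
  classical
  unfold dec
  refine Measurable.ite (measurableSet_singleton ⊤) measurable_const ?_
  fun_prop

/-- `1 ≤ e^{-a} + a` -/
theorem one_le_dec_add (a : ℝ≥0∞) : 1 ≤ dec a + a := by
  by_cases ha : a = ⊤
  · simp [ha]
  rw [dec_of_ne_top ha]
  have h1 : ENNReal.ofReal a.toReal = a := ENNReal.ofReal_toReal ha
  conv_rhs => rw [← h1]
  rw [ENNReal.toReal_ofReal ENNReal.toReal_nonneg, ← ENNReal.ofReal_add (Real.exp_pos _).le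
    ENNReal.toReal_nonneg, ← ENNReal.ofReal_one]
  refine ENNReal.ofReal_le_ofReal ?_
  have := Real.add_one_le_exp (-a.toReal)
  linarith

/-- the elementary identity `e^{-A(t)} + ∫_0^t α e^{-A} = 1`, `A(τ) = ∫_0^τ α` -/
theorem dec_ftc {α : ℝ → ℝ≥0∞} (hα : Measurable α) {s t : ℝ} (hst : s ≤ t)
    (hfin : ∫⁻ τ in Ioo s t, α τ < ⊤) :
    dec (∫⁻ τ in Ioo s t, α τ) + ∫⁻ τ in Ioo s t, α τ * dec (∫⁻ r in Ioo s τ, α r) = 1 := by
  -- translate to `s = 0`
  have key : ∀ (β : ℝ → ℝ≥0∞), Measurable β → ∀ L : ℝ, 0 ≤ L → ∫⁻ τ in Ioo 0 L, β τ < ⊤ →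
      dec (∫⁻ τ in Ioo 0 L, β τ) + ∫⁻ τ in Ioo 0 L, β τ * dec (∫⁻ r in Ioo 0 τ, β r) = 1 := by
    intro β hβ L hL hβfin
    have haefin : ∀ᵐ τ ∂(volume.restrict (Ioo 0 L)), β τ < ⊤ := ae_lt_top hβ hβfin.ne
    have hq : IntegrableOn (fun τ => (β τ).toReal) (Ioo 0 L) :=
      integrable_toReal_of_lintegral_ne_top hβ.aemeasurable hβfin.ne
    have hsub : ∀ u ∈ Icc 0 L, ∫⁻ τ in Ioo 0 u, β τ < ⊤ := fun u hu =>
      lt_of_le_of_lt (lintegral_mono_set (Ioo_subset_Ioo_right hu.2)) hβfin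
    have hint : ∀ u ∈ Icc 0 L, ∫ r in Ioo 0 u, (β r).toReal = (∫⁻ τ in Ioo 0 u, β τ).toReal := by
      intro u hu
      rw [integral_toReal hβ.aemeasurable]
      exact ae_lt_top hβ (hsub u hu).ne
    have hy : ∀ u ∈ Icc 0 L, (-1 : ℝ) < 0 + ∫ r in Ioo 0 u, (β r).toReal := by
      intro u hu
      rw [hint u hu]
      have := ENNReal.toReal_nonneg (a := ∫⁻ τ in Ioo 0 u, β τ)
      linarith
    obtain ⟨h1, h2⟩ := R68E.chain_rule hL hq 0 (φ := fun z => -Real.exp (-z))
      (φ' := fun z => Real.exp (-z)) (c := -1) (fun z _ => by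
        have := (Real.hasDerivAt_exp (-z)).comp z (hasDerivAt_neg z)
        have h3 := this.neg
        have e : Real.exp (-z) = -(Real.exp (-z) * -1) := by ring
        rw [e]
        exact h3) (by fun_prop) hy
    have hLmem : L ∈ Icc 0 L := ⟨hL, le_rfl⟩
    rw [hint L hLmem] at h2
    simp only [zero_add, neg_zero, Real.exp_zero] at h2
    -- convert the Bochner integral
    have hconv : ENNReal.ofReal (∫ s in Ioo 0 L, Real.exp (-∫ r in Ioo 0 s, (β r).toReal) *
        (β s).toReal) = ∫⁻ τ in Ioo 0 L, β τ * dec (∫⁻ r in Ioo 0 τ, β r) := by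
      rw [ofReal_integral_eq_lintegral_ofReal]
      · refine lintegral_congr_ae ?_
        filter_upwards [haefin, ae_restrict_mem measurableSet_Ioo] with τ hτ hmem
        have hm : τ ∈ Icc 0 L := Ioo_subset_Icc_self hmem
        rw [hint τ hm, dec_of_ne_top (hsub τ hm).ne, ENNReal.ofReal_mul (Real.exp_pos _).le,
          ENNReal.ofReal_toReal hτ.ne, mul_comm]
      · simp only [zero_add] at h1
        exact h1
      · exact Eventually.of_forall fun s => by positivity
    rw [← hconv, dec_of_ne_top (hsub L hLmem).ne, ← h2, ← ENNReal.ofReal_add (Real.exp_pos _).le]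
    · rw [← ENNReal.ofReal_one]
      congr 1
      ring
    · have hle : Real.exp (-(∫⁻ τ in Ioo 0 L, β τ).toReal) ≤ 1 := by
        rw [Real.exp_le_one_iff]
        have := ENNReal.toReal_nonneg (a := ∫⁻ τ in Ioo 0 L, β τ)
        linarith
      linarith
  have htr : ∀ (f : ℝ → ℝ≥0∞) (u : ℝ), Measurable f →
      ∫⁻ τ in Ioo s (s + u), f τ = ∫⁻ τ in Ioo 0 u, f (s + τ) := by
    intro f u hf
    have hmp := measurePreserving_add_left (volume : Measure ℝ) s
    rw [← hmp.setLIntegral_comp_preimage measurableSet_Ioo hf]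
    congr 2
    ext x
    simp
  have hs := key (fun τ => α (s + τ)) (by fun_prop) (t - s) (by linarith) (by
    rw [← htr α (t - s) hα]
    rwa [show s + (t - s) = t by ring])
  have e1 : ∫⁻ τ in Ioo s t, α τ = ∫⁻ τ in Ioo 0 (t - s), α (s + τ) := by
    rw [← htr α (t - s) hα]
    rw [show s + (t - s) = t by ring]
  have hm2 : Measurable fun τ => α τ * dec (∫⁻ r in Ioo s τ, α r) := by
    refine hα.mul (measurable_dec.comp ?_)
    have hset : MeasurableSet {q : ℝ × ℝ | q.2 ∈ Ioo s q.1} :=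
      (measurableSet_lt measurable_const measurable_snd).inter
        (measurableSet_lt measurable_snd measurable_fst)
    have h1 : Measurable ({q : ℝ × ℝ | q.2 ∈ Ioo s q.1}.indicator fun q : ℝ × ℝ => α q.2) :=
      (hα.comp measurable_snd).indicator hset
    have h2 := h1.lintegral_prod_right' (ν := (volume : Measure ℝ))
    have h3 : (fun τ => ∫⁻ r in Ioo s τ, α r) = fun x => ∫⁻ y,
        {q : ℝ × ℝ | q.2 ∈ Ioo s q.1}.indicator (fun q : ℝ × ℝ => α q.2) (x, y) := by
      funext x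
      rw [← lintegral_indicator measurableSet_Ioo]
      rfl
    rw [h3]
    exact h2
  have e2 : ∫⁻ τ in Ioo s t, α τ * dec (∫⁻ r in Ioo s τ, α r) =
      ∫⁻ τ in Ioo 0 (t - s), α (s + τ) * dec (∫⁻ r in Ioo 0 τ, α (s + r)) := by
    have h1 := htr (fun τ => α τ * dec (∫⁻ r in Ioo s τ, α r)) (t - s) hm2
    rw [show s + (t - s) = t by ring] at h1
    rw [h1]
    refine lintegral_congr fun τ => ?_
    rw [htr α τ hα]
  rw [e1, e2]
  exact hs

/-! ### measurability of integrals over variable intervals -/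

theorem meas_setLIntegral {α : Type*} [MeasurableSpace α] {F : α → ℝ → ℝ≥0∞}
    (hF : Measurable fun q : α × ℝ => F q.1 q.2) {a b : α → ℝ} (ha : Measurable a)
    (hb : Measurable b) : Measurable fun x => ∫⁻ τ in Ioo (a x) (b x), F x τ := by
  have hset : MeasurableSet {q : α × ℝ | q.2 ∈ Ioo (a q.1) (b q.1)} :=
    (measurableSet_lt (ha.comp measurable_fst) measurable_snd).inter
      (measurableSet_lt measurable_snd (hb.comp measurable_fst))
  have h1 : Measurable ({q : α × ℝ | q.2 ∈ Ioo (a q.1) (b q.1)}.indicator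
      fun q : α × ℝ => F q.1 q.2) := hF.indicator hset
  have h2 := h1.lintegral_prod_right' (ν := (volume : Measure ℝ))
  have h3 : (fun x => ∫⁻ τ in Ioo (a x) (b x), F x τ) = fun x => ∫⁻ y,
      {q : α × ℝ | q.2 ∈ Ioo (a q.1) (b q.1)}.indicator (fun q : α × ℝ => F q.1 q.2) (x, y) := by
    funext x
    rw [← lintegral_indicator measurableSet_Ioo]
    rfl
  rw [h3]
  exact h2

theorem lintegral_Ioo_split {f : ℝ → ℝ≥0∞} {a b c : ℝ} (hab : a ≤ b) (hbc : b ≤ c) :
    ∫⁻ τ in Ioo a c, f τ = (∫⁻ τ in Ioo a b, f τ) + ∫⁻ τ in Ioo b c, f τ := by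
  have h1 : ∫⁻ τ in Ioo a c, f τ = ∫⁻ τ in Ioc a c, f τ := by
    rw [restrict_Ioo_eq_restrict_Ioc]
  have h2 : ∫⁻ τ in Ioo a b, f τ = ∫⁻ τ in Ioc a b, f τ := by
    rw [restrict_Ioo_eq_restrict_Ioc]
  have h3 : ∫⁻ τ in Ioo b c, f τ = ∫⁻ τ in Ioc b c, f τ := by
    rw [restrict_Ioo_eq_restrict_Ioc]
  rw [h1, h2, h3, ← Ioc_union_Ioc_eq_Ioc hab hbc]
  exact lintegral_union measurableSet_Ioc (Ioc_disjoint_Ioc_of_le le_rfl)

/-! ### optical depth and Duhamel operator -/

/-- optical depth `∫_s^t ν` along the trajectory through `p = (t,x,v)` -/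
noncomputable def Att (ν : Ph → ℝ≥0∞) (s : ℝ) (p : Ph) : ℝ≥0∞ :=
  ∫⁻ τ in Ioo s p.1, ν (fl τ p)

@[fun_prop]
theorem measurable_Att {ν : Ph → ℝ≥0∞} (hν : Measurable ν) :
    Measurable fun q : ℝ × Ph => Att ν q.1 q.2 := by
  unfold Att
  refine meas_setLIntegral (F := fun (q : ℝ × Ph) τ => ν (fl τ q.2)) ?_ measurable_fst (by fun_prop)
  exact hν.comp (by fun_prop)

theorem Att_mono {ν ν' : Ph → ℝ≥0∞} {s : ℝ} {p : Ph}
    (h : ∀ᵐ τ : ℝ, τ ∈ Ioo s p.1 → ν (fl τ p) ≤ ν' (fl τ p)) : Att ν s p ≤ Att ν' s p := by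
  unfold Att
  refine lintegral_mono_ae ?_
  rw [ae_restrict_iff' measurableSet_Ioo]
  exact h

theorem Att_anti_left {ν : Ph → ℝ≥0∞} {s s' : ℝ} (h : s ≤ s') (p : Ph) :
    Att ν s' p ≤ Att ν s p :=
  lintegral_mono_set (Ioo_subset_Ioo_left h)

theorem Att_split {ν : Ph → ℝ≥0∞} {s r : ℝ} {p : Ph} (h1 : s ≤ r) (h2 : r ≤ p.1) :
    Att ν s p = Att ν s (fl r p) + Att ν r p := by
  unfold Att
  simp only [fl_fl, fl_fst]
  exact lintegral_Ioo_split h1 h2

theorem Att_zero (s : ℝ) (p : Ph) : Att (fun _ => 0) s p = 0 := by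
  simp [Att]

theorem Att_self (ν : Ph → ℝ≥0∞) (p : Ph) : Att ν p.1 p = 0 := by
  simp [Att]

theorem Att_add {ν ν' : Ph → ℝ≥0∞} (hν : Measurable ν) (s : ℝ) (p : Ph) :
    Att (fun q => ν q + ν' q) s p = Att ν s p + Att ν' s p := by
  unfold Att
  rw [lintegral_add_left]
  exact hν.comp (by fun_prop)

/-- damped Duhamel operator -/
noncomputable def Du (ν q : Ph → ℝ≥0∞) (p : Ph) : ℝ≥0∞ :=
  ∫⁻ s in Ioo 0 p.1, dec (Att ν s p) * q (fl s p)

theorem measurable_Du {ν q : Ph → ℝ≥0∞} (hν : Measurable ν) (hq : Measurable q) :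
    Measurable (Du ν q) := by
  unfold Du
  refine meas_setLIntegral (F := fun (p : Ph) s => dec (Att ν s p) * q (fl s p)) ?_
    measurable_const measurable_fst
  refine Measurable.mul (measurable_dec.comp ?_) (hq.comp (by fun_prop))
  exact (measurable_Att hν).comp (by fun_prop : Measurable fun q : Ph × ℝ => (q.2, q.1))

theorem Du_of_nonpos {ν q : Ph → ℝ≥0∞} {p : Ph} (h : p.1 ≤ 0) : Du ν q p = 0 := by
  unfold Du
  rw [Ioo_eq_empty (not_lt.2 h)]
  simp

theorem meas_along {q : Ph → ℝ≥0∞} (hq : Measurable q) (p : Ph) : Measurable fun s => q (fl s p) :=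
  hq.comp (by fun_prop)

theorem meas_dec_along {ν : Ph → ℝ≥0∞} (hν : Measurable ν) (p : Ph) :
    Measurable fun s => dec (Att ν s p) :=
  measurable_dec.comp ((measurable_Att hν).comp (by fun_prop : Measurable fun s : ℝ => (s, p)))

theorem meas_du {ν q : Ph → ℝ≥0∞} (hν : Measurable ν) (hq : Measurable q) (p : Ph) :
    Measurable fun s => dec (Att ν s p) * q (fl s p) :=
  (meas_dec_along hν p).mul (meas_along hq p)

theorem Du_le {ν ν' q q' : Ph → ℝ≥0∞} {p : Ph}
    (hν : ∀ᵐ τ : ℝ, τ ∈ Ioo 0 p.1 → ν' (fl τ p) ≤ ν (fl τ p))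
    (hq : ∀ᵐ τ : ℝ, τ ∈ Ioo 0 p.1 → q (fl τ p) ≤ q' (fl τ p)) : Du ν q p ≤ Du ν' q' p := by
  unfold Du
  refine lintegral_mono_ae ?_
  rw [ae_restrict_iff' measurableSet_Ioo]
  filter_upwards [hq] with s hs hmem
  refine mul_le_mul' (dec_anti (Att_mono ?_)) (hs hmem)
  filter_upwards [hν] with τ hτ hτm
  exact hτ ⟨hmem.1.trans hτm.1, hτm.2⟩

theorem Du_mono {ν q q' : Ph → ℝ≥0∞} (h : ∀ p, q p ≤ q' p) (p : Ph) : Du ν q p ≤ Du ν q' p :=
  Du_le (Eventually.of_forall fun _ _ => le_rfl) (Eventually.of_forall fun _ _ => h _)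

theorem Du_anti {ν ν' q : Ph → ℝ≥0∞} (h : ∀ p, ν' p ≤ ν p) (p : Ph) : Du ν q p ≤ Du ν' q p :=
  Du_le (Eventually.of_forall fun _ _ => h _) (Eventually.of_forall fun _ _ => le_rfl)

theorem Du_tsum {ν : Ph → ℝ≥0∞} (hν : Measurable ν) {q : ℕ → Ph → ℝ≥0∞}
    (hq : ∀ n, Measurable (q n)) (p : Ph) : Du ν (fun x => ∑' n, q n x) p = ∑' n, Du ν (q n) p := by
  unfold Du
  rw [← lintegral_tsum fun n => (meas_du hν (hq n) p).aemeasurable]
  refine lintegral_congr fun s => ?_
  rw [ENNReal.tsum_mul_left]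

theorem Du_add {ν : Ph → ℝ≥0∞} (hν : Measurable ν) {q q' : Ph → ℝ≥0∞} (hq : Measurable q)
    (p : Ph) : Du ν (fun x => q x + q' x) p = Du ν q p + Du ν q' p := by
  unfold Du
  rw [← lintegral_add_left (meas_du hν hq p)]
  refine lintegral_congr fun s => ?_
  rw [mul_add]

theorem Du_const_mul {ν : Ph → ℝ≥0∞} (hν : Measurable ν) {q : Ph → ℝ≥0∞} (hq : Measurable q)
    (c : ℝ≥0∞) (p : Ph) : Du ν (fun x => c * q x) p = c * Du ν q p := by
  unfold Du
  rw [← lintegral_const_mul _ (meas_du hν hq p)]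
  refine lintegral_congr fun s => ?_
  ring

/-- restart identity -/
theorem Du_restart {ν q : Ph → ℝ≥0∞} (hν : Measurable ν) (hq : Measurable q) {r : ℝ} {p : Ph}
    (h1 : 0 ≤ r) (h2 : r ≤ p.1) :
    Du ν q p = dec (Att ν r p) * Du ν q (fl r p) + ∫⁻ s in Ioo r p.1, dec (Att ν s p) * q (fl s p) := by
  unfold Du
  rw [lintegral_Ioo_split h1 h2]
  congr 1
  simp only [fl_fst, fl_fl]
  have hm : Measurable fun s => dec (Att ν s (fl r p)) * q (fl s p) :=
    (meas_dec_along hν _).mul (meas_along hq p)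
  rw [← lintegral_const_mul _ hm]
  refine setLIntegral_congr_fun measurableSet_Ioo fun s hs => ?_
  rw [Att_split (s := s) (r := r) hs.2.le h2, dec_add]
  ring

/-- plain mild identity for the damped Duhamel operator -/
theorem Du_mild {ν q : Ph → ℝ≥0∞} (hν : Measurable ν) (hq : Measurable q) {p : Ph}
    (hfin : Att ν 0 p < ⊤) :
    Du ν q p + ∫⁻ τ in Ioo 0 p.1, ν (fl τ p) * Du ν q (fl τ p) = ∫⁻ s in Ioo 0 p.1, q (fl s p) := by
  set t := p.1 with ht
  -- Tonelli
  have hD : ∀ τ, Du ν q (fl τ p) = ∫⁻ s in Ioo 0 τ, dec (Att ν s (fl τ p)) * q (fl s p) := by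
    intro τ
    unfold Du
    simp only [fl_fst, fl_fl]
  have hA : ∀ s τ, Att ν s (fl τ p) = ∫⁻ r in Ioo s τ, ν (fl r p) := by
    intro s τ
    unfold Att
    simp only [fl_fst, fl_fl]
  have hmA : Measurable fun z : ℝ × ℝ => Att ν z.1 (fl z.2 p) :=
    (measurable_Att hν).comp (by fun_prop : Measurable fun z : ℝ × ℝ => (z.1, fl z.2 p))
  have hmν : Measurable fun s => ν (fl s p) := meas_along hν p
  have hmq : Measurable fun s => q (fl s p) := meas_along hq p
  have hswap : ∫⁻ τ in Ioo 0 t, ν (fl τ p) * Du ν q (fl τ p) =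
      ∫⁻ s in Ioo 0 t, q (fl s p) * ∫⁻ τ in Ioo s t, ν (fl τ p) * dec (∫⁻ r in Ioo s τ, ν (fl r p)) := by
    have e1 : ∫⁻ τ in Ioo 0 t, ν (fl τ p) * Du ν q (fl τ p) =
        ∫⁻ τ, ∫⁻ s, (if 0 < s ∧ s < τ ∧ τ < t then
          ν (fl τ p) * (dec (Att ν s (fl τ p)) * q (fl s p)) else 0) := by
      rw [← lintegral_indicator measurableSet_Ioo]
      refine lintegral_congr fun τ => ?_
      by_cases hτ : τ ∈ Ioo 0 t
      · rw [indicator_of_mem hτ, hD]
        have hm : Measurable fun s => dec (Att ν s (fl τ p)) * q (fl s p) :=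
          (meas_dec_along hν _).mul hmq
        rw [← lintegral_const_mul _ hm, ← lintegral_indicator measurableSet_Ioo]
        refine lintegral_congr fun s => ?_
        by_cases hs : s ∈ Ioo 0 τ
        · rw [indicator_of_mem hs, if_pos ⟨hs.1, hs.2, hτ.2⟩]
        · rw [indicator_of_notMem hs, if_neg]
          rintro ⟨a, b, c⟩
          exact hs ⟨a, b⟩
      · rw [indicator_of_notMem hτ]
        symm
        rw [lintegral_eq_zero_of_ae_eq_zero]
        refine Eventually.of_forall fun s => ?_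
        simp only [Pi.zero_apply, ite_eq_right_iff, and_imp]
        intro a b c
        exact absurd ⟨a.trans b, c⟩ hτ
    have e2 : ∫⁻ s in Ioo 0 t, q (fl s p) * ∫⁻ τ in Ioo s t, ν (fl τ p) *
        dec (∫⁻ r in Ioo s τ, ν (fl r p)) =
        ∫⁻ s, ∫⁻ τ, (if 0 < s ∧ s < τ ∧ τ < t then
          ν (fl τ p) * (dec (Att ν s (fl τ p)) * q (fl s p)) else 0) := by
      rw [← lintegral_indicator measurableSet_Ioo]
      refine lintegral_congr fun s => ?_
      by_cases hs : s ∈ Ioo 0 t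
      · rw [indicator_of_mem hs]
        have hm : Measurable fun τ => ν (fl τ p) * dec (∫⁻ r in Ioo s τ, ν (fl r p)) := by
          simp only [← hA]
          exact hmν.mul (measurable_dec.comp
            (hmA.comp (by fun_prop : Measurable fun τ : ℝ => (s, τ))))
        rw [← lintegral_const_mul _ hm, ← lintegral_indicator measurableSet_Ioo]
        refine lintegral_congr fun τ => ?_
        by_cases hτ : τ ∈ Ioo s t
        · rw [indicator_of_mem hτ, if_pos ⟨hs.1, hτ.1, hτ.2⟩, hA]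
          ring
        · rw [indicator_of_notMem hτ, if_neg]
          rintro ⟨a, b, c⟩
          exact hτ ⟨b, c⟩
      · rw [indicator_of_notMem hs]
        symm
        rw [lintegral_eq_zero_of_ae_eq_zero]
        refine Eventually.of_forall fun τ => ?_
        simp only [Pi.zero_apply, ite_eq_right_iff, and_imp]
        intro a b c
        exact absurd ⟨a, b.trans c⟩ hs
    rw [e1, e2]
    refine lintegral_lintegral_swap ?_
    refine Measurable.aemeasurable ?_
    refine Measurable.ite ?_ ?_ measurable_const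
    · exact (measurableSet_lt measurable_const measurable_snd).inter
        ((measurableSet_lt measurable_snd measurable_fst).inter
          (measurableSet_lt measurable_fst measurable_const))
    · refine (hmν.comp measurable_fst).mul ?_
      refine (measurable_dec.comp ?_).mul (hmq.comp measurable_snd)
      exact hmA.comp measurable_swap
  rw [hswap]
  have e3 : Du ν q p = ∫⁻ s in Ioo 0 t, q (fl s p) * dec (∫⁻ r in Ioo s t, ν (fl r p)) := by
    unfold Du
    refine lintegral_congr fun s => ?_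
    rw [mul_comm]
    rfl
  have hm3 : Measurable fun s => q (fl s p) * dec (∫⁻ r in Ioo s t, ν (fl r p)) :=
    hmq.mul (meas_dec_along hν p)
  rw [e3, ← lintegral_add_left hm3]
  refine setLIntegral_congr_fun measurableSet_Ioo fun s hs => ?_
  rw [← mul_add, dec_ftc hmν hs.2.le, mul_one]
  exact lt_of_le_of_lt (lintegral_mono_set (Ioo_subset_Ioo_left hs.1.le)) hfin

end Crest.Agent.R68.D
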