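import Crest.Agent.R68.DOp

/-!
Row 68, D-layer (helper813): space-time gain `Gq`, frequency `Lq`; `PosOp` instances;
periodicity.
-/

set_option autoImplicit false
open MeasureTheory Filter Set
open scoped ENNReal NNReal Topology
open Crest.AnalysisR.VecCalc3 Crest.AnalysisR.PDE.Boltzmann

namespace Crest.Agent.R68.D

/-- space-time gain -/
noncomputable def Gq (f g : Ph → ℝ≥0∞) (p : Ph) : ℝ≥0∞ :=
  Qp (fun z => f (p.1, p.2.1, z)) (fun z => g (p.1, p.2.1, z)) p.2.2

/-- space-time collision frequency -/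
noncomputable def Lq (g : Ph → ℝ≥0∞) (p : Ph) : ℝ≥0∞ :=
  Lc (fun z => g (p.1, p.2.1, z)) p.2.2

theorem meas_slice {f : Ph → ℝ≥0∞} (hf : Measurable f) (t : ℝ) (x : P2) :
    Measurable fun z => f (t, x, z) := hf.comp (by fun_prop)

theorem measurable_Gq {f g : Ph → ℝ≥0∞} (hf : Measurable f) (hg : Measurable g) :
    Measurable (Gq f g) := by
  have hf' : Measurable fun p : (ℝ × P2) × R3 => f (p.1.1, p.1.2, p.2) := hf.comp (by fun_prop)
  have hg' : Measurable fun p : (ℝ × P2) × R3 => g (p.1.1, p.1.2, p.2) := hg.comp (by fun_prop)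
  have h := meas_Qp (α := ℝ × P2) (f := fun y z => f (y.1, y.2, z))
    (g := fun y z => g (y.1, y.2, z)) hf' hg'
  have h2 : Measurable fun p : Ph => ((p.1, p.2.1), p.2.2) := by fun_prop
  have h3 := h.comp h2
  simp only [Function.comp_def] at h3
  exact h3

theorem measurable_Lq {g : Ph → ℝ≥0∞} (hg : Measurable g) : Measurable (Lq g) := by
  have hg' : Measurable fun p : (ℝ × P2) × R3 => g (p.1.1, p.1.2, p.2) := hg.comp (by fun_prop)
  have h := meas_Lc (α := ℝ × P2) (g := fun y z => g (y.1, y.2, z)) hg'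
  have h2 : Measurable fun p : Ph => ((p.1, p.2.1), p.2.2) := by fun_prop
  have h3 := h.comp h2
  simp only [Function.comp_def] at h3
  exact h3

theorem Gq_mono {f f' g g' : Ph → ℝ≥0∞} (hf : ∀ p, f p ≤ f' p) (hg : ∀ p, g p ≤ g' p) (p : Ph) :
    Gq f g p ≤ Gq f' g' p := Qp_mono (fun _ => hf _) (fun _ => hg _) _

theorem Lq_mono {g g' : Ph → ℝ≥0∞} (hg : ∀ p, g p ≤ g' p) (p : Ph) : Lq g p ≤ Lq g' p :=
  Lc_mono (fun _ => hg _) _

theorem Gq_add_right {f g g' : Ph → ℝ≥0∞} (hf : Measurable f) (hg : Measurable g)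
    (hg' : Measurable g') (p : Ph) : Gq f (fun q => g q + g' q) p = Gq f g p + Gq f g' p :=
  Qp_add_right (meas_slice hf _ _) (meas_slice hg _ _) (meas_slice hg' _ _) _

theorem Gq_add_left {f f' g : Ph → ℝ≥0∞} (hf : Measurable f) (hf' : Measurable f')
    (hg : Measurable g) (p : Ph) : Gq (fun q => f q + f' q) g p = Gq f g p + Gq f' g p :=
  Qp_add_left (meas_slice hf _ _) (meas_slice hf' _ _) (meas_slice hg _ _) _

theorem Lq_add {g g' : Ph → ℝ≥0∞} (hg : Measurable g) (hg' : Measurable g') (p : Ph) :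
    Lq (fun q => g q + g' q) p = Lq g p + Lq g' p :=
  Lc_add (meas_slice hg _ _) (meas_slice hg' _ _) _

theorem Gq_const_mul_right {f g : Ph → ℝ≥0∞} (hf : Measurable f) (hg : Measurable g) (c : ℝ≥0∞)
    (p : Ph) : Gq f (fun q => c * g q) p = c * Gq f g p :=
  Qp_const_mul_right (meas_slice hf _ _) (meas_slice hg _ _) _ _

theorem Gq_const_mul_left {f g : Ph → ℝ≥0∞} (hf : Measurable f) (hg : Measurable g) (c : ℝ≥0∞)
    (p : Ph) : Gq (fun q => c * f q) g p = c * Gq f g p :=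
  Qp_const_mul_left (meas_slice hf _ _) (meas_slice hg _ _) _ _

theorem Lq_const_mul {g : Ph → ℝ≥0∞} (hg : Measurable g) (c : ℝ≥0∞) (p : Ph) :
    Lq (fun q => c * g q) p = c * Lq g p := Lc_const_mul (meas_slice hg _ _) _ _

/-! ### slicing a.e. statements -/

section slice
variable {I : Set ℝ} {m : Measure P2} [SFinite m]

theorem ae_slice {P : Ph → Prop} (h : ∀ᵐ p ∂muP I m, P p) :
    ∀ᵐ t ∂(volume : Measure ℝ).restrict I, ∀ᵐ x ∂m, ∀ᵐ z : R3, P (t, x, z) := by
  have h1 := Measure.ae_ae_of_ae_prod h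
  filter_upwards [h1] with t ht
  exact Measure.ae_ae_of_ae_prod ht

theorem ae_of_slice {P : Ph → Prop} (hP : MeasurableSet {p | P p})
    (h : ∀ᵐ t ∂(volume : Measure ℝ).restrict I, ∀ᵐ x ∂m, ∀ᵐ z : R3, P (t, x, z)) :
    ∀ᵐ p ∂muP I m, P p := by
  unfold muP
  rw [Measure.ae_prod_iff_ae_ae hP]
  filter_upwards [h] with t ht
  rw [Measure.ae_prod_iff_ae_ae (p := fun q : P2 × R3 => P (t, q))
    (hP.preimage (by fun_prop : Measurable fun q : P2 × R3 => ((t, q) : Ph)))]
  exact ht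

theorem Gq_mono_ae {f f' g g' : Ph → ℝ≥0∞} (mf : Measurable f) (mf' : Measurable f')
    (mg : Measurable g) (mg' : Measurable g') (hf : f ≤ᵐ[muP I m] f') (hg : g ≤ᵐ[muP I m] g') :
    Gq f g ≤ᵐ[muP I m] Gq f' g' := by
  refine ae_of_slice (measurableSet_le (measurable_Gq mf mg) (measurable_Gq mf' mg')) ?_
  filter_upwards [ae_slice hf, ae_slice hg] with t h1 h2
  filter_upwards [h1, h2] with x h3 h4
  exact Qp_mono_ae h3 h4

theorem Gq_congr_ae {f f' g g' : Ph → ℝ≥0∞} (mf : Measurable f) (mf' : Measurable f')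
    (mg : Measurable g) (mg' : Measurable g') (hf : f =ᵐ[muP I m] f') (hg : g =ᵐ[muP I m] g') :
    Gq f g =ᵐ[muP I m] Gq f' g' :=
  (Gq_mono_ae mf mf' mg mg' hf.le hg.le).antisymm (Gq_mono_ae mf' mf mg' mg hf.symm.le hg.symm.le)

theorem Lq_mono_ae {g g' : Ph → ℝ≥0∞} (mg : Measurable g) (mg' : Measurable g')
    (hg : g ≤ᵐ[muP I m] g') : Lq g ≤ᵐ[muP I m] Lq g' := by
  refine ae_of_slice (measurableSet_le (measurable_Lq mg) (measurable_Lq mg')) ?_
  filter_upwards [ae_slice hg] with t h1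
  filter_upwards [h1] with x h3
  exact Eventually.of_forall fun v => Lc_mono_ae h3 v

theorem Lq_congr_ae {g g' : Ph → ℝ≥0∞} (mg : Measurable g) (mg' : Measurable g')
    (hg : g =ᵐ[muP I m] g') : Lq g =ᵐ[muP I m] Lq g' :=
  (Lq_mono_ae mg mg' hg.le).antisymm (Lq_mono_ae mg' mg hg.symm.le)

end slice

/-! ### positive operators -/

section pos
variable {I : Set ℝ} {m : Measure P2} [SFinite m]

theorem posOp_Gq_right {φ : Ph → ℝ≥0∞} (hφ : Measurable φ) : PosOp (muP I m) (Gq φ) where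
  meas _ hf := measurable_Gq hφ hf
  mono _ _ hf hg h := Gq_mono_ae hφ hφ hf hg (EventuallyLE.refl _ _) h
  tsum f hf := Eventually.of_forall fun p =>
    Qp_tsum_right (meas_slice hφ _ _) (fun n => meas_slice (hf n) p.1 p.2.1) p.2.2
  map_zero := Eventually.of_forall fun p => Qp_zero_right _ _

theorem posOp_Gq_left {φ : Ph → ℝ≥0∞} (hφ : Measurable φ) :
    PosOp (muP I m) (fun f => Gq f φ) where
  meas _ hf := measurable_Gq hf hφ
  mono _ _ hf hg h := Gq_mono_ae hf hg hφ hφ h (EventuallyLE.refl _ _)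
  tsum f hf := Eventually.of_forall fun p =>
    Qp_tsum_left (fun n => meas_slice (hf n) p.1 p.2.1) (meas_slice hφ _ _) p.2.2
  map_zero := Eventually.of_forall fun p => Qp_zero_left _ _

theorem posOp_Lq : PosOp (muP I m) Lq where
  meas _ hf := measurable_Lq hf
  mono _ _ hf hg h := Lq_mono_ae hf hg h
  tsum f hf := Eventually.of_forall fun p =>
    Lc_tsum (fun n => meas_slice (hf n) p.1 p.2.1) p.2.2
  map_zero := Eventually.of_forall fun p => Lc_zero _

end pos

section gen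
variable {Ω : Type*} [MeasurableSpace Ω] {μ : Measure Ω} {T T' : (Ω → ℝ≥0∞) → (Ω → ℝ≥0∞)}

theorem PosOp.addOp (hT : PosOp μ T) (hT' : PosOp μ T') :
    PosOp μ (fun f x => T f x + T' f x) where
  meas f hf := (hT.meas f hf).add (hT'.meas f hf)
  mono f g hf hg h := by
    filter_upwards [hT.mono f g hf hg h, hT'.mono f g hf hg h] with x h1 h2
    exact add_le_add h1 h2
  tsum f hf := by
    filter_upwards [hT.tsum f hf, hT'.tsum f hf] with x h1 h2
    rw [h1, h2]
    exact ENNReal.tsum_add.symm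
  map_zero := by
    filter_upwards [hT.map_zero, hT'.map_zero] with x h1 h2
    rw [h1, h2, add_zero]

theorem PosOp.mulOp (hT : PosOp μ T) {a : Ω → ℝ≥0∞} (ha : Measurable a) :
    PosOp μ (fun f x => a x * T f x) where
  meas f hf := ha.mul (hT.meas f hf)
  mono f g hf hg h := by
    filter_upwards [hT.mono f g hf hg h] with x h1
    exact mul_le_mul' le_rfl h1
  tsum f hf := by
    filter_upwards [hT.tsum f hf] with x h1
    rw [h1, ENNReal.tsum_mul_left]
  map_zero := by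
    filter_upwards [hT.map_zero] with x h1
    rw [h1, mul_zero]

theorem PosOp.id : PosOp μ (fun f => f) where
  meas _ hf := hf
  mono _ _ _ _ h := h
  tsum _ _ := Filter.EventuallyEq.rfl
  map_zero := Filter.EventuallyEq.rfl

end gen

/-- linear gain with the background `φ` -/
noncomputable def GG (φ h : Ph → ℝ≥0∞) (p : Ph) : ℝ≥0∞ := Gq φ h p + Gq h φ p

theorem posOp_GG {I : Set ℝ} {m : Measure P2} [SFinite m] {φ : Ph → ℝ≥0∞} (hφ : Measurable φ) :
    PosOp (muP I m) (GG φ) :=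
  (posOp_Gq_right hφ).addOp (posOp_Gq_left hφ)

theorem measurable_GG {φ h : Ph → ℝ≥0∞} (hφ : Measurable φ) (hh : Measurable h) :
    Measurable (GG φ h) := (measurable_Gq hφ hh).add (measurable_Gq hh hφ)

theorem GG_mono {φ φ' h h' : Ph → ℝ≥0∞} (h1 : ∀ p, φ p ≤ φ' p) (h2 : ∀ p, h p ≤ h' p) (p : Ph) :
    GG φ h p ≤ GG φ' h' p :=
  add_le_add (Gq_mono h1 h2 p) (Gq_mono h2 h1 p)

/-! ### the Duhamel operator is a positive operator for a.e. equality in full space -/

/-- `I` is a time interval starting at `0` -/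
def Start (I : Set ℝ) : Prop := MeasurableSet I ∧ ∀ t ∈ I, Ioo 0 t ⊆ I

theorem start_Ioo (T : ℝ) : Start (Ioo 0 T) :=
  ⟨measurableSet_Ioo, fun _ ht _ hs => ⟨hs.1, hs.2.trans ht.2⟩⟩

theorem start_Ioi : Start (Ioi 0) := ⟨measurableSet_Ioi, fun _ _ _ hs => hs.1⟩

theorem start_univ : Start univ := ⟨MeasurableSet.univ, fun _ _ _ _ => trivial⟩

/-- a.e. statements pass to a.e. trajectory -/
theorem ae_fl_I {I : Set ℝ} (hI : Start I) {P : Ph → Prop}
    (h : ∀ᵐ p ∂muP I (volume : Measure P2), P p) :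
    ∀ᵐ p ∂muP I (volume : Measure P2), ∀ᵐ s : ℝ, s ∈ Ioo 0 p.1 → P (fl s p) := by
  rw [ae_muP_iff hI.1, muP_univ] at h ⊢
  filter_upwards [ae_fl h] with p hp hpI
  filter_upwards [hp] with s hs hmem
  exact hs (hI.2 p.1 hpI hmem)

theorem Du_mono_ae {I : Set ℝ} (hI : Start I) {ν ν' q q' : Ph → ℝ≥0∞}
    (hν : ν' ≤ᵐ[muP I (volume : Measure P2)] ν)
    (hq : q ≤ᵐ[muP I (volume : Measure P2)] q') :
    Du ν q ≤ᵐ[muP I (volume : Measure P2)] Du ν' q' := by
  filter_upwards [ae_fl_I hI hν, ae_fl_I hI hq] with p h1 h2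
  exact Du_le h1 h2

theorem Du_congr_ae {I : Set ℝ} (hI : Start I) {ν ν' q q' : Ph → ℝ≥0∞}
    (hν : ν =ᵐ[muP I (volume : Measure P2)] ν')
    (hq : q =ᵐ[muP I (volume : Measure P2)] q') :
    Du ν q =ᵐ[muP I (volume : Measure P2)] Du ν' q' :=
  (Du_mono_ae hI hν.symm.le hq.le).antisymm (Du_mono_ae hI hν.le hq.symm.le)

theorem posOp_Du {I : Set ℝ} (hI : Start I) {ν : Ph → ℝ≥0∞} (hν : Measurable ν) :
    PosOp (muP I (volume : Measure P2)) (Du ν) where
  meas _ hf := measurable_Du hν hf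
  mono _ _ _ _ h := Du_mono_ae hI (EventuallyLE.refl _ _) h
  tsum _ hf := Eventually.of_forall fun p => Du_tsum hν hf p
  map_zero := Eventually.of_forall fun p => by simp [Du]

/-- the linear transfer operator `T h = Du_ν (G_φ h)` -/
noncomputable def TT (ν φ h : Ph → ℝ≥0∞) : Ph → ℝ≥0∞ := Du ν (GG φ h)

theorem posOp_TT {I : Set ℝ} (hI : Start I) {ν φ : Ph → ℝ≥0∞} (hν : Measurable ν)
    (hφ : Measurable φ) : PosOp (muP I (volume : Measure P2)) (TT ν φ) :=
  (posOp_Du hI hν).comp (posOp_GG hφ)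

/-- the linear solution operator: `u = U[q]` is the minimal solution of
`u = Du_ν (q + G_φ u)` -/
noncomputable def UU (ν φ q : Ph → ℝ≥0∞) : Ph → ℝ≥0∞ := neu (TT ν φ) (Du ν q)

section UU
variable {I : Set ℝ} {ν φ q : Ph → ℝ≥0∞}

theorem posOp_UU (hI : Start I) (hν : Measurable ν) (hφ : Measurable φ) :
    PosOp (muP I (volume : Measure P2)) (UU ν φ) :=
  (posOp_TT hI hν hφ).neu_posOp.comp (posOp_Du hI hν)

theorem measurable_UU (hν : Measurable ν) (hφ : Measurable φ) (hq : Measurable q) :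
    Measurable (UU ν φ q) := (posOp_UU start_univ hν hφ).meas _ hq

theorem UU_eq (hI : Start I) (hν : Measurable ν) (hφ : Measurable φ) (hq : Measurable q) :
    UU ν φ q =ᵐ[muP I (volume : Measure P2)] Du ν (fun p => q p + GG φ (UU ν φ q) p) := by
  have h := (posOp_TT hI hν hφ).neu_eq (measurable_Du hν hq)
  filter_upwards [h] with p hp
  rw [Du_add hν hq]
  exact hp

/-- minimality -/
theorem UU_le (hI : Start I) (hν : Measurable ν) (hφ : Measurable φ) (hq : Measurable q)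
    {u : Ph → ℝ≥0∞} (hu : Measurable u)
    (h : Du ν (fun p => q p + GG φ u p) ≤ᵐ[muP I (volume : Measure P2)] u) :
    UU ν φ q ≤ᵐ[muP I (volume : Measure P2)] u := by
  refine (posOp_TT hI hν hφ).neu_le (measurable_Du hν hq) hu ?_
  filter_upwards [h] with p hp
  rw [Du_add hν hq] at hp
  exact hp

/-- comparison of subsolutions -/
theorem le_UU (hI : Start I) (hν : Measurable ν) (hφ : Measurable φ) (hq : Measurable q)
    {u : Ph → ℝ≥0∞} (hu : Measurable u)
    (h : u ≤ᵐ[muP I (volume : Measure P2)] Du ν (fun p => q p + GG φ u p))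
    (hfin : ∀ᵐ p ∂muP I (volume : Measure P2), neu (TT ν φ) u p < ⊤) :
    u ≤ᵐ[muP I (volume : Measure P2)] UU ν φ q := by
  refine (posOp_TT hI hν hφ).le_neu_of_le (measurable_Du hν hq) hu ?_ hfin
  filter_upwards [h] with p hp
  rw [Du_add hν hq] at hp
  exact hp

end UU

/-! ### periodicity -/

/-- periodicity of a phase-space function -/
def PerP {α : Type*} (f : Ph → α) : Prop := ∀ t v, PerG fun x => f (t, x, v)

theorem PerP.fl {α : Type*} {f : Ph → α} (hf : PerP f) (s : ℝ) (t : ℝ) (v : R3) (x : P2)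
    (k : ℤ × ℤ) : f (fl s (t, x + latt k, v)) = f (fl s (t, x, v)) := by
  unfold D.fl
  simp only
  have h := hf s v (x - (t - s) • bar v) k
  simp only at h
  rw [← h]
  congr 3
  module

theorem PerP.Gq {f g : Ph → ℝ≥0∞} (hf : PerP f) (hg : PerP g) : PerP (Gq f g) := by
  intro t v x k
  unfold D.Gq
  simp only
  congr 1
  · funext z; exact hf t z x k
  · funext z; exact hg t z x k

theorem PerP.Lq {g : Ph → ℝ≥0∞} (hg : PerP g) : PerP (Lq g) := by
  intro t v x k
  unfold D.Lq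
  simp only
  congr 1
  funext z; exact hg t z x k

theorem PerP.GG {f g : Ph → ℝ≥0∞} (hf : PerP f) (hg : PerP g) : PerP (GG f g) := by
  intro t v x k
  unfold D.GG
  have h1 := hf.Gq hg t v x k
  have h2 := hg.Gq hf t v x k
  simp only at h1 h2 ⊢
  rw [h1, h2]

theorem PerP.Att {ν : Ph → ℝ≥0∞} (hν : PerP ν) (s t : ℝ) (x : P2) (v : R3) (k : ℤ × ℤ) :
    Att ν s (t, x + latt k, v) = Att ν s (t, x, v) := by
  unfold D.Att
  refine lintegral_congr fun τ => ?_
  exact hν.fl τ t v x k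

theorem PerP.Du {ν q : Ph → ℝ≥0∞} (hν : PerP ν) (hq : PerP q) : PerP (Du ν q) := by
  intro t v x k
  unfold D.Du
  simp only
  refine lintegral_congr fun s => ?_
  rw [hν.Att, hq.fl s t v x k]

theorem PerP.TT {ν φ q : Ph → ℝ≥0∞} (hν : PerP ν) (hφ : PerP φ) (hq : PerP q) :
    PerP (TT ν φ q) := hν.Du (hφ.GG hq)

theorem PerP.neu {T : (Ph → ℝ≥0∞) → (Ph → ℝ≥0∞)} (hT : ∀ f, PerP f → PerP (T f))
    {f : Ph → ℝ≥0∞} (hf : PerP f) : PerP (D.neu T f) := by
  have h : ∀ n, PerP (T^[n] f) := by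
    intro n
    induction n with
    | zero => exact hf
    | succ n ih => rw [Function.iterate_succ_apply']; exact hT _ ih
  intro t v x k
  unfold D.neu
  simp only
  exact tsum_congr fun n => h n t v x k

theorem PerP.UU {ν φ q : Ph → ℝ≥0∞} (hν : PerP ν) (hφ : PerP φ) (hq : PerP q) :
    PerP (UU ν φ q) := PerP.neu (fun _ hf => hν.TT hφ hf) (hν.Du hq)

end Crest.Agent.R68.D
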