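import Crest.Agent.R68.NDefs
import Crest.Agent.R68.A6

/-!
# Row 68, PART N (helper810): the fixed point map preserves measurability and periodicity (F1);
a map that contracts in a weighted distance on `[0,∞]`-valued fields has a fixed point (F2)

No convergence theorem is needed: everything follows from the weighted Lipschitz bound.
-/

set_option autoImplicit false
open MeasureTheory Set Filter
open scoped ENNReal Topology
open Crest.AnalysisR.VecCalc3 Crest.AnalysisR.PDE.Boltzmann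

noncomputable section

namespace Crest.Agent.R68.N

open Crest.Agent.R68.A (en Meas3)

/-! ### elementary facts on `dd` (private copies) -/

private theorem dd_le_iff' {a b r : ℝ≥0∞} : dd a b ≤ r ↔ a ≤ b + r ∧ b ≤ a + r := by
  unfold dd
  rcases le_total a b with h | h
  · rw [tsub_eq_zero_of_le h, zero_add]
    constructor
    · intro h1
      exact ⟨h.trans le_self_add, tsub_le_iff_left.1 h1⟩
    · intro h1
      exact tsub_le_iff_left.2 h1.2
  · rw [tsub_eq_zero_of_le h, add_zero]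
    constructor
    · intro h1
      exact ⟨tsub_le_iff_left.1 h1, h.trans le_self_add⟩
    · intro h1
      exact tsub_le_iff_left.2 h1.1

private theorem dd_comm' (a b : ℝ≥0∞) : dd a b = dd b a := add_comm _ _

private theorem dd_self' (a : ℝ≥0∞) : dd a a = 0 := by simp [dd]

private theorem dd_triangle' (a b c : ℝ≥0∞) : dd a c ≤ dd a b + dd b c := by
  have h1 := dd_le_iff'.1 (le_refl (dd a b))
  have h2 := dd_le_iff'.1 (le_refl (dd b c))
  refine dd_le_iff'.2 ⟨?_, ?_⟩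
  · calc a ≤ b + dd a b := h1.1
      _ ≤ (c + dd b c) + dd a b := by gcongr; exact h2.1
      _ = c + (dd a b + dd b c) := by ring
  · calc c ≤ b + dd b c := h2.2
      _ ≤ (a + dd a b) + dd b c := by gcongr; exact h1.2
      _ = a + (dd a b + dd b c) := by ring

/-! ### (F2) the fixed point -/

/-- the ball around `u0` of radius `rho` in the weighted distance with weight `W'` -/
def SS (T : ℝ) (rho : ℝ≥0∞) (u0 W' : Fld) (H : Fld) : Prop :=
  Meas3 H ∧ PerF H ∧ ∀ t ∈ Ioc 0 T, ∀ x v, dd (H t x v) (u0 t x v) ≤ rho * W' t x v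

variable {T : ℝ} {th rho : ℝ≥0∞} {u0 W' : Fld} {Φ : Fld → Fld}

theorem SS_start (hu0 : Meas3 u0) (hu0p : PerF u0) : SS T rho u0 W' u0 :=
  ⟨hu0, hu0p, fun t _ x v => by rw [dd_self']; exact zero_le⟩

theorem SS_step (hth : th ≤ 1) (hrho' : rho ≠ ⊤)
    (hu0 : Meas3 u0) (hu0p : PerF u0)
    (hΦ : ∀ H, Meas3 H → PerF H → Meas3 (Φ H) ∧ PerF (Φ H))
    (hlip : ∀ H H', SS T rho u0 W' H → SS T rho u0 W' H' → ∀ d : ℝ≥0∞, d ≠ ⊤ →
      (∀ t ∈ Ioc 0 T, ∀ x v, dd (H t x v) (H' t x v) ≤ d * W' t x v) →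
      ∀ t ∈ Ioc 0 T, ∀ x v, dd (Φ H t x v) (Φ H' t x v) ≤ th * d * W' t x v)
    (hstart : ∀ t ∈ Ioc 0 T, ∀ x v, dd (Φ u0 t x v) (u0 t x v) ≤ (1 - th) * rho * W' t x v)
    {H : Fld} (hH : SS T rho u0 W' H) : SS T rho u0 W' (Φ H) := by
  refine ⟨(hΦ H hH.1 hH.2.1).1, (hΦ H hH.1 hH.2.1).2, fun t ht x v => ?_⟩
  calc dd (Φ H t x v) (u0 t x v)
      ≤ dd (Φ H t x v) (Φ u0 t x v) + dd (Φ u0 t x v) (u0 t x v) := dd_triangle' _ _ _
    _ ≤ th * rho * W' t x v + (1 - th) * rho * W' t x v :=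
        add_le_add (hlip H u0 hH (SS_start hu0 hu0p) rho hrho' hH.2.2 t ht x v) (hstart t ht x v)
    _ = (th + (1 - th)) * rho * W' t x v := by ring
    _ = rho * W' t x v := by rw [add_tsub_cancel_of_le hth, one_mul]

/-- **Contraction principle for `[0,∞]`-valued fields** (weights may be `⊤`) -/
theorem exists_fix_abs (hth : th < 1) (hrho : rho ≠ 0) (hrho' : rho ≠ ⊤)
    (hu0 : Meas3 u0) (hu0p : PerF u0)
    (hΦ : ∀ H, Meas3 H → PerF H → Meas3 (Φ H) ∧ PerF (Φ H))
    (hlip : ∀ H H', SS T rho u0 W' H → SS T rho u0 W' H' → ∀ d : ℝ≥0∞, d ≠ ⊤ →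
      (∀ t ∈ Ioc 0 T, ∀ x v, dd (H t x v) (H' t x v) ≤ d * W' t x v) →
      ∀ t ∈ Ioc 0 T, ∀ x v, dd (Φ H t x v) (Φ H' t x v) ≤ th * d * W' t x v)
    (hstart : ∀ t ∈ Ioc 0 T, ∀ x v, dd (Φ u0 t x v) (u0 t x v) ≤ (1 - th) * rho * W' t x v) :
    ∃ H : Fld, SS T rho u0 W' H ∧
      ∀ t ∈ Ioc 0 T, ∀ x v, W' t x v ≠ ⊤ → H t x v = Φ H t x v := by
  -- iterates
  let u : ℕ → Fld := fun n => Φ^[n] u0
  have hu_zero : u 0 = u0 := rfl
  have hu_succ : ∀ n, u (n + 1) = Φ (u n) := fun n => Function.iterate_succ_apply' Φ n u0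
  have hS : ∀ n, SS T rho u0 W' (u n) := by
    intro n
    induction n with
    | zero => exact SS_start hu0 hu0p
    | succ n ih =>
      rw [hu_succ]
      exact SS_step hth.le hrho' hu0 hu0p hΦ hlip hstart ih
  have h1th : (1 : ℝ≥0∞) - th ≠ 0 := (tsub_pos_of_lt hth).ne'
  have h1th' : (1 : ℝ≥0∞) - th ≠ ⊤ := ne_top_of_le_ne_top ENNReal.one_ne_top tsub_le_self
  have hthT : th ≠ ⊤ := (hth.trans ENNReal.one_lt_top).ne
  have hc : ∀ n, ∀ t ∈ Ioc 0 T, ∀ x v,
      dd (u (n + 1) t x v) (u n t x v) ≤ th ^ n * ((1 - th) * rho) * W' t x v := by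
    intro n
    induction n with
    | zero =>
      intro t ht x v
      rw [pow_zero, one_mul]
      exact hstart t ht x v
    | succ n ih =>
      intro t ht x v
      have h1 := hlip (u (n + 1)) (u n) (hS _) (hS _) (th ^ n * ((1 - th) * rho))
        (ENNReal.mul_ne_top (ENNReal.pow_ne_top hthT) (ENNReal.mul_ne_top h1th' hrho')) ih t ht x v
      rw [← hu_succ, ← hu_succ] at h1
      refine h1.trans (le_of_eq ?_)
      rw [pow_succ]; ring
  have hgeo : ∀ (W : ℝ≥0∞) (n : ℕ), ∑' k, th ^ (k + n) * ((1 - th) * rho) * W =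
      th ^ n * rho * W := by
    intro W n
    have h1 : ∀ k, th ^ (k + n) * ((1 - th) * rho) * W =
        th ^ k * (th ^ n * ((1 - th) * rho) * W) := by
      intro k; rw [pow_add]; ring
    simp_rw [h1]
    rw [ENNReal.tsum_mul_right, ENNReal.tsum_geometric]
    calc (1 - th)⁻¹ * (th ^ n * ((1 - th) * rho) * W)
        = ((1 - th)⁻¹ * (1 - th)) * (th ^ n * rho * W) := by ring
      _ = th ^ n * rho * W := by rw [ENNReal.inv_mul_cancel h1th h1th', one_mul]
  -- the limit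
  let H : Fld := fun t x v => liminf (fun n => u n t x v) atTop
  have hlim : ∀ t ∈ Ioc 0 T, ∀ x v, W' t x v ≠ ⊤ →
      Tendsto (fun n => u n t x v) atTop (𝓝 (H t x v)) ∧
        ∀ n, dd (u n t x v) (H t x v) ≤ th ^ n * rho * W' t x v := by
    intro t ht x v hW
    have hsum : ∑' n, th ^ n * ((1 - th) * rho) * W' t x v ≠ ⊤ := by
      have h1 := hgeo (W' t x v) 0
      simp only [add_zero, pow_zero, one_mul] at h1
      rw [h1]
      exact ENNReal.mul_ne_top hrho' hW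
    have h2 := A.tendsto_liminf_of_close (u := fun n => u n t x v)
      (d := fun n => th ^ n * ((1 - th) * rho) * W' t x v)
      (fun n => (dd_le_iff'.1 (hc n t ht x v)).1) (fun n => (dd_le_iff'.1 (hc n t ht x v)).2) hsum
    refine ⟨h2.1, fun n => ?_⟩
    have h3 := h2.2 n
    rw [hgeo] at h3
    exact dd_le_iff'.2 ⟨h3.2, h3.1⟩
  -- a positive ratio
  obtain ⟨r, hr0, hr1, hthr⟩ : ∃ r : ℝ≥0∞, r ≠ 0 ∧ r < 1 ∧ th ≤ r :=
    ⟨max th 2⁻¹, (lt_max_of_lt_right (by simp)).ne', max_lt hth (by simp), le_max_left _ _⟩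
  have hrT : r ≠ ⊤ := (hr1.trans ENNReal.one_lt_top).ne
  have hclose : ∀ n, ∀ t ∈ Ioc 0 T, ∀ x v,
      dd (u n t x v) (H t x v) ≤ r ^ n * rho * W' t x v := by
    intro n t ht x v
    by_cases hW : W' t x v = ⊤
    · rw [hW, ENNReal.mul_top (mul_ne_zero (pow_ne_zero _ hr0) hrho)]
      exact le_top
    · refine ((hlim t ht x v hW).2 n).trans ?_
      gcongr
  have hHS : SS T rho u0 W' H := by
    refine ⟨Measurable.liminf fun n => (hS n).1, fun t v x k => ?_, fun t ht x v => ?_⟩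
    · have h1 : ∀ n, u n t (x + latt k) v = u n t x v := fun n => (hS n).2.1 t v x k
      simp only [H, h1]
    · have h1 := hclose 0 t ht x v
      rw [pow_zero, one_mul, dd_comm'] at h1
      exact h1
  refine ⟨H, hHS, fun t ht x v hW => ?_⟩
  have h1 : ∀ n, dd (H t x v) (Φ H t x v) ≤ 2 * (r ^ n * rho * W' t x v) := by
    intro n
    have h2 := hlip (u n) H (hS n) hHS (r ^ n * rho)
      (ENNReal.mul_ne_top (ENNReal.pow_ne_top hrT) hrho') (hclose n) t ht x v
    rw [← hu_succ] at h2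
    have h3 := hclose (n + 1) t ht x v
    have h4 : th * (r ^ n * rho) * W' t x v ≤ r ^ n * rho * W' t x v := by
      calc th * (r ^ n * rho) * W' t x v ≤ 1 * (r ^ n * rho) * W' t x v := by gcongr
        _ = _ := by rw [one_mul]
    have h5 : r ^ (n + 1) * rho * W' t x v ≤ r ^ n * rho * W' t x v := by
      gcongr ?_ * rho * W' t x v
      calc r ^ (n + 1) = r ^ n * r := pow_succ _ _
        _ ≤ r ^ n * 1 := by gcongr
        _ = r ^ n := mul_one _
    calc dd (H t x v) (Φ H t x v)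
        ≤ dd (H t x v) (u (n + 1) t x v) + dd (u (n + 1) t x v) (Φ H t x v) := dd_triangle' _ _ _
      _ ≤ r ^ n * rho * W' t x v + r ^ n * rho * W' t x v := by
          rw [dd_comm' (H t x v)]
          exact add_le_add (h3.trans h5) (h2.trans h4)
      _ = 2 * (r ^ n * rho * W' t x v) := by ring
  have h2 : Tendsto (fun n : ℕ => 2 * (r ^ n * rho * W' t x v)) atTop (𝓝 0) := by
    have h3 : Tendsto (fun n : ℕ => r ^ n) atTop (𝓝 0) :=
      ENNReal.tendsto_pow_atTop_nhds_zero_of_lt_one hr1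
    have h4 := ENNReal.Tendsto.mul_const (b := rho) h3 (Or.inr hrho')
    have h5 := ENNReal.Tendsto.mul_const (b := W' t x v) h4 (Or.inr hW)
    have h6 := ENNReal.Tendsto.const_mul (a := 2) h5 (Or.inr (by norm_num))
    simpa using h6
  have h3 : dd (H t x v) (Φ H t x v) ≤ 0 := ge_of_tendsto' h2 h1
  have h4 := dd_le_iff'.1 h3
  rw [add_zero, add_zero] at h4
  exact le_antisymm h4.1 h4.2

/-! ### (F1) measurability and periodicity of the fixed point map -/

section meas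

open Crest.Agent.R68.A (measurable_lintegral_Ioo measurable_Qp measurable_Lc meas3_Qp meas3_Lc
  measurable_en)

variable {α : Type*} [MeasurableSpace α]

theorem measurable_acc' {n : Fld} (hn : Meas3 n) {s t : α → ℝ} {x : α → P2} {v : α → R3}
    (hs : Measurable s) (ht : Measurable t) (hx : Measurable x) (hv : Measurable v) :
    Measurable (fun a => acc n (s a) (t a) (x a) (v a)) := by
  unfold acc
  refine measurable_lintegral_Ioo (q := fun z : α × ℝ =>
    n z.2 (x z.1 - (t z.1 - z.2) • bar (v z.1)) (v z.1)) ?_ hs ht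
  exact hn.comp (by fun_prop) (by fun_prop) (by fun_prop)

theorem meas3_Dam' {n q : Fld} (hn : Meas3 n) (hq : Meas3 q) : Meas3 (Dam n q) := by
  unfold Meas3 Dam
  refine measurable_lintegral_Ioo (α := ℝ × P2 × R3) (q := fun z : (ℝ × P2 × R3) × ℝ =>
    en (acc n z.2 z.1.1 z.1.2.1 z.1.2.2) *
      q z.2 (z.1.2.1 - (z.1.1 - z.2) • bar z.1.2.2) z.1.2.2) ?_ measurable_const (by fun_prop)
  refine Measurable.mul ?_ ?_
  · exact measurable_en.comp (measurable_acc' hn (by fun_prop) (by fun_prop) (by fun_prop)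
      (by fun_prop))
  · exact hq.comp (by fun_prop) (by fun_prop) (by fun_prop)

theorem meas3_LcF {f : Fld} (hf : Meas3 f) : Meas3 (LcF f) := meas3_Lc hf

theorem meas3_nuf {P : Par} (hphi : Meas3 (phiE P)) : Meas3 (nuf P) := meas3_Lc hphi

theorem meas3_nuT {P : Par} (hphi : Meas3 (phiE P)) (L0 : ℝ≥0∞) : Meas3 (nuT P L0) := by
  unfold Meas3 nuT
  refine Measurable.add (meas3_nuf hphi) ?_
  fun_prop

theorem meas3_Gf {P : Par} (hphi : Meas3 (phiE P)) {f : Fld} (hf : Meas3 f) : Meas3 (Gf P f) :=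
  Measurable.add (meas3_Qp hphi hf) (meas3_Qp hf hphi)

theorem meas3_TT {P : Par} (hphi : Meas3 (phiE P)) {f : Fld} (hf : Meas3 f) : Meas3 (TT P f) :=
  meas3_Dam' (meas3_nuf hphi) (meas3_Gf hphi hf)

theorem meas3_gainH {c sp H : Fld} (hc : Meas3 c) (hsp : Meas3 sp) (hH : Meas3 H) :
    Meas3 (gainH c sp H) :=
  Measurable.add (Measurable.add (Measurable.add hsp (meas3_Qp hc hH)) (meas3_Qp hH hc))
    (meas3_Qp hH hH)

theorem meas3_lossH {c H : Fld} (hc : Meas3 c) (hH : Meas3 H) : Meas3 (lossH c H) :=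
  meas3_Lc (hc.add hH)

theorem meas3_free {H0 : P2 → R3 → ℝ≥0∞} (hH0 : Measurable fun p : P2 × R3 => H0 p.1 p.2) :
    Meas3 (fun t x v => H0 (x - t • bar v) v) :=
  hH0.comp (f := fun p : ℝ × P2 × R3 => (p.2.1 - p.1 • bar p.2.2, p.2.2)) (by fun_prop)

theorem meas3_en_acc0 {n : Fld} (hn : Meas3 n) : Meas3 (fun t x v => en (acc n 0 t x v)) :=
  measurable_en.comp (measurable_acc' hn measurable_const (by fun_prop) (by fun_prop)
    (by fun_prop))

/-- **(F1)** the fixed point map preserves joint measurability -/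
theorem meas_Psi {P : Par} (hphi : Meas3 (phiE P)) (L0 : ℝ≥0∞) {Cf Sf : Fld → Fld}
    (hCf : ∀ lam, Meas3 lam → Meas3 (Cf lam)) (hSf : ∀ lam, Meas3 lam → Meas3 (Sf lam))
    {H0 : P2 → R3 → ℝ≥0∞} (hH0 : Measurable fun p : P2 × R3 => H0 p.1 p.2) {H : Fld}
    (hH : Meas3 H) : Meas3 (Psi P L0 Cf Sf H0 H) := by
  have h1 := hCf _ (meas3_LcF hH)
  have h2 := hSf _ (meas3_LcF hH)
  refine Measurable.add (Measurable.mul (meas3_en_acc0 (meas3_nuT hphi L0)) (meas3_free hH0))
    (meas3_Dam' (meas3_nuT hphi L0) ?_)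
  exact Measurable.add (meas3_gainH h1 h2 hH)
    (Measurable.mul (Measurable.sub (meas3_nuT hphi L0) (meas3_lossH h1 hH)) hH)

end meas

section per

theorem PerF.slice {f : Fld} (hf : PerF f) (s : ℝ) (y : P2) (k : ℤ × ℤ) :
    f s (y + latt k) = f s y := by
  funext z; exact hf s z y k

theorem perF_free {H0 : P2 → R3 → ℝ≥0∞} (hH0 : ∀ v, PerG fun x => H0 x v) :
    PerF (fun t x v => H0 (x - t • bar v) v) := by
  intro t v x k
  have e1 : x + latt k - t • bar v = x - t • bar v + latt k := by rw [sub_add_eq_add_sub]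
  simp only [e1]
  exact hH0 v _ k

theorem acc_per' {n : Fld} (hn : PerF n) (s t : ℝ) (x : P2) (v : R3) (k : ℤ × ℤ) :
    acc n s t (x + latt k) v = acc n s t x v := by
  have e1 : ∀ c : P2, x + latt k - c = x - c + latt k := fun c => by rw [sub_add_eq_add_sub]
  simp only [acc, e1, hn.slice]

theorem perF_Dam {n q : Fld} (hn : PerF n) (hq : PerF q) : PerF (Dam n q) := by
  intro t v x k
  have e1 : ∀ c : P2, x + latt k - c = x - c + latt k := fun c => by rw [sub_add_eq_add_sub]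
  simp only [Dam, acc_per' hn, e1, hq.slice]

theorem perF_LcF {f : Fld} (hf : PerF f) : PerF (LcF f) := by
  intro t v x k
  simp only [LcF, hf.slice]

theorem perF_Qp {f g : Fld} (hf : PerF f) (hg : PerF g) :
    PerF (fun t x v => Qp (f t x) (g t x) v) := by
  intro t v x k
  simp only [hf.slice, hg.slice]

theorem perF_add {f g : Fld} (hf : PerF f) (hg : PerF g) : PerF (fun t x v => f t x v + g t x v) := by
  intro t v x k
  simp only [hf.slice, hg.slice]

theorem perF_mul {f g : Fld} (hf : PerF f) (hg : PerF g) : PerF (fun t x v => f t x v * g t x v) := by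
  intro t v x k
  simp only [hf.slice, hg.slice]

theorem perF_nuf {P : Par} (hphi : PerF (phiE P)) : PerF (nuf P) := perF_LcF hphi

theorem perF_nuT {P : Par} (hphi : PerF (phiE P)) (L0 : ℝ≥0∞) : PerF (nuT P L0) := by
  intro t v x k
  simp only [nuT, (perF_nuf hphi).slice]

theorem perF_Gf {P : Par} (hphi : PerF (phiE P)) {f : Fld} (hf : PerF f) : PerF (Gf P f) :=
  perF_add (perF_Qp hphi hf) (perF_Qp hf hphi)

theorem perF_TT {P : Par} (hphi : PerF (phiE P)) {f : Fld} (hf : PerF f) : PerF (TT P f) :=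
  perF_Dam (perF_nuf hphi) (perF_Gf hphi hf)

theorem perF_gainH {c sp H : Fld} (hc : PerF c) (hsp : PerF sp) (hH : PerF H) :
    PerF (gainH c sp H) :=
  perF_add (perF_add (perF_add hsp (perF_Qp hc hH)) (perF_Qp hH hc)) (perF_Qp hH hH)

theorem perF_lossH {c H : Fld} (hc : PerF c) (hH : PerF H) : PerF (lossH c H) := by
  intro t v x k
  simp only [lossH, hc.slice, hH.slice]

/-- **(F1)** the fixed point map preserves periodicity -/
theorem per_Psi {P : Par} (hphi : PerF (phiE P)) (L0 : ℝ≥0∞) {Cf Sf : Fld → Fld}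
    (hCf : ∀ lam, PerF lam → PerF (Cf lam)) (hSf : ∀ lam, PerF lam → PerF (Sf lam))
    {H0 : P2 → R3 → ℝ≥0∞} (hH0 : ∀ v, PerG fun x => H0 x v) {H : Fld}
    (hH : PerF H) : PerF (Psi P L0 Cf Sf H0 H) := by
  have h1 := hCf _ (perF_LcF hH)
  have h2 := hSf _ (perF_LcF hH)
  have h3 := perF_nuT hphi L0
  have h4 : PerF (fun s y z => gainH (Cf (LcF H)) (Sf (LcF H)) H s y z +
      (nuT P L0 s y z - lossH (Cf (LcF H)) H s y z) * H s y z) := by
    intro t v x k
    simp only [(perF_gainH h1 h2 hH).slice, h3.slice, (perF_lossH h1 hH).slice, hH.slice]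
  have h5 := perF_Dam h3 h4
  intro t v x k
  have e5 := h5 t v x k
  simp only at e5
  simp only [Psi]
  rw [acc_per' h3, e5]
  have e6 := perF_free hH0 t v x k
  simp only at e6
  rw [e6]

end per

/-- version of (F1) where `Cf`, `Sf` preserve measurability and periodicity only on fields that
have both -/
theorem both_Psi {P : Par} (hphi : Meas3 (phiE P)) (hphip : PerF (phiE P)) (L0 : ℝ≥0∞)
    {Cf Sf : Fld → Fld}
    (hCf : ∀ lam, Meas3 lam → PerF lam → Meas3 (Cf lam) ∧ PerF (Cf lam))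
    (hSf : ∀ lam, Meas3 lam → PerF lam → Meas3 (Sf lam) ∧ PerF (Sf lam))
    {H0 : P2 → R3 → ℝ≥0∞} (hH0 : Measurable fun p : P2 × R3 => H0 p.1 p.2)
    (hH0p : ∀ v, PerG fun x => H0 x v) {H : Fld}
    (hH : Meas3 H) (hHp : PerF H) :
    Meas3 (Psi P L0 Cf Sf H0 H) ∧ PerF (Psi P L0 Cf Sf H0 H) := by
  have h1 := hCf _ (meas3_LcF hH) (perF_LcF hHp)
  have h2 := hSf _ (meas3_LcF hH) (perF_LcF hHp)
  constructor
  · refine Measurable.add (Measurable.mul (meas3_en_acc0 (meas3_nuT hphi L0)) (meas3_free hH0))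
      (meas3_Dam' (meas3_nuT hphi L0) ?_)
    exact Measurable.add (meas3_gainH h1.1 h2.1 hH)
      (Measurable.mul (Measurable.sub (meas3_nuT hphi L0) (meas3_lossH h1.1 hH)) hH)
  · have h3 := perF_nuT hphip L0
    have h4 : PerF (fun s y z => gainH (Cf (LcF H)) (Sf (LcF H)) H s y z +
        (nuT P L0 s y z - lossH (Cf (LcF H)) H s y z) * H s y z) := by
      intro t v x k
      simp only [(perF_gainH h1.2 h2.2 hHp).slice, h3.slice, (perF_lossH h1.2 hHp).slice,
        hHp.slice]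
    have h5 := perF_Dam h3 h4
    intro t v x k
    have e5 := h5 t v x k
    simp only at e5
    simp only [Psi]
    rw [acc_per' h3, e5]
    have e6 := perF_free hH0p t v x k
    simp only at e6
    rw [e6]

/-- **(F2)**, specialised to `Psi` -/
theorem exists_fix {P : Par} (hphi : Meas3 (phiE P)) (hphip : PerF (phiE P)) {L0 : ℝ≥0∞}
    {Cf Sf : Fld → Fld}
    (hCf : ∀ lam, Meas3 lam → PerF lam → Meas3 (Cf lam) ∧ PerF (Cf lam))
    (hSf : ∀ lam, Meas3 lam → PerF lam → Meas3 (Sf lam) ∧ PerF (Sf lam))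
    {H0 : P2 → R3 → ℝ≥0∞} (hH0 : Measurable fun p : P2 × R3 => H0 p.1 p.2)
    (hH0p : ∀ v, PerG fun x => H0 x v)
    (hth : th < 1) (hrho : rho ≠ 0) (hrho' : rho ≠ ⊤) (hu0 : Meas3 u0) (hu0p : PerF u0)
    (hlip : ∀ H H', SS T rho u0 W' H → SS T rho u0 W' H' → ∀ d : ℝ≥0∞, d ≠ ⊤ →
      (∀ t ∈ Ioc 0 T, ∀ x v, dd (H t x v) (H' t x v) ≤ d * W' t x v) →
      ∀ t ∈ Ioc 0 T, ∀ x v,
        dd (Psi P L0 Cf Sf H0 H t x v) (Psi P L0 Cf Sf H0 H' t x v) ≤ th * d * W' t x v)
    (hstart : ∀ t ∈ Ioc 0 T, ∀ x v,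
      dd (Psi P L0 Cf Sf H0 u0 t x v) (u0 t x v) ≤ (1 - th) * rho * W' t x v) :
    ∃ H : Fld, SS T rho u0 W' H ∧
      ∀ t ∈ Ioc 0 T, ∀ x v, W' t x v ≠ ⊤ → H t x v = Psi P L0 Cf Sf H0 H t x v :=
  exists_fix_abs hth hrho hrho' hu0 hu0p
    (fun _ h1 h2 => both_Psi hphi hphip L0 hCf hSf hH0 hH0p h1 h2) hlip hstart

end Crest.Agent.R68.N
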