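import Crest.Agent.R68.Main0
import Crest.Agent.R68.NFix
import Crest.Agent.R68.DCong

/-!
# Row 68 (helper559): the distinguishing statement `DOut` from the facts (C1) about `coldR`
-/

set_option autoImplicit false
open MeasureTheory Set Filter
open scoped ENNReal Topology
open Crest.AnalysisR.VecCalc3 Crest.AnalysisR.PDE.Boltzmann

noncomputable section

namespace Crest.Agent.R68.DCong

open Crest.Agent.R68.A (en Meas3)
open Crest.Agent.R68.N (Fld PerF LcF HotSol Zg)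

/-- facts about the cold component needed here -/
structure ColdD (P : Par) (T : ℝ) : Prop where
  meas : ∀ lam : Fld, Meas3 lam → PerF lam → Meas3 (coldR P lam)
  full : ∀ lam : Fld, Meas3 lam → PerF lam → ∀ t x v, 0 ≤ t →
    coldR P lam t x v = coldL P (rateC P lam) t x v
  fin : ∀ lam : Fld, Meas3 lam → PerF lam → ∀ t, 0 < t → t < T →
    ∀ᵐ q : P2 × R3, coldR P lam t q.1 q.2 ≠ ⊤

theorem meas3_rateC {P : Par} {T : ℝ} (hC : ColdD P T) {lam : Fld} (hm : Meas3 lam)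
    (hp : PerF lam) : Meas3 (rateC P lam) := by
  have h := A.meas3_Lc (hC.meas lam hm hp)
  exact Measurable.add h hm

/-- **(C8)** -/
theorem coldR_EqA {P : Par} {T : ℝ} (hC : ColdD P T) {lam lam' : Fld} (hm : Meas3 lam)
    (hp : PerF lam) (hm' : Meas3 lam') (hp' : PerF lam') {T' : ℝ}
    (h : EqT T' (rateC P lam) (rateC P lam')) : EqA T' (coldR P lam) (coldR P lam') := by
  intro t h0 hT
  filter_upwards [coldL_EqA P (meas3_rateC hC hm hp) (meas3_rateC hC hm' hp') h t h0 hT] with q hq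
  rw [hC.full lam hm hp t q.1 q.2 h0, hC.full lam' hm' hp' t q.1 q.2 h0, hq]

theorem ae_of_ae_pos {Q : ℝ × P2 → Prop} (h : ∀ᵐ q : ℝ × P2, Q q) :
    ∀ᵐ z : ℝ × P2 × R3, Q (z.1, z.2.1) := by
  have h2 : ∀ᵐ p : (ℝ × P2) × R3, Q p.1 := Measure.quasiMeasurePreserving_fst.ae h
  have h3 := (volume_preserving_prodAssoc (α₁ := ℝ) (β₁ := P2) (γ₁ := R3)).symm
  exact h3.quasiMeasurePreserving.ae h2

theorem Lc_congr_ae {f g : R3 → ℝ≥0∞} (h : ∀ᵐ v : R3, f v = g v) (v : R3) : Lc f v = Lc g v := by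
  unfold Lc
  refine lintegral_congr_ae ?_
  filter_upwards [h] with z hz
  simp only [hz]

/-- equal sums `c + H` give equal full rates -/
theorem EqT_rate {P : Par} {T : ℝ} (hC : ColdD P T) {H H' : Fld} (hm : Meas3 H) (hp : PerF H)
    (hm' : Meas3 H') (hp' : PerF H')
    (h : EqT T (fun t x v => coldR P (LcF H) t x v + H t x v)
      (fun t x v => coldR P (LcF H') t x v + H' t x v)) :
    EqT T (rateC P (LcF H)) (rateC P (LcF H')) := by
  have h1 := L.ae_slice_vel h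
  have h2 : ∀ᵐ q : ℝ × P2, ∀ v : R3, 0 < q.1 → q.1 < T →
      rateC P (LcF H) q.1 q.2 v = rateC P (LcF H') q.1 q.2 v := by
    filter_upwards [h1] with q hq v h0 hT
    have h3 : ∀ᵐ z : R3, coldR P (LcF H) q.1 q.2 z + H q.1 q.2 z =
        coldR P (LcF H') q.1 q.2 z + H' q.1 q.2 z := by
      filter_upwards [hq] with z hz using hz h0 hT
    have h4 := Lc_congr_ae h3 v
    rw [A.Lc_add ((hC.meas _ (N.meas3_LcF hm) (N.perF_LcF hp)).slice q.1 q.2),
      A.Lc_add ((hC.meas _ (N.meas3_LcF hm') (N.perF_LcF hp')).slice q.1 q.2)] at h4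
    exact h4
  have h5 := ae_of_ae_pos h2
  filter_upwards [h5] with z hz h0 hT using hz z.2.2 h0 hT

/-- equal sums give equal hot components -/
theorem hot_eq {P : Par} {T : ℝ} (hC : ColdD P T) {H H' : Fld} (hm : Meas3 H) (hp : PerF H)
    (hm' : Meas3 H') (hp' : PerF H')
    (h : EqT T (fun t x v => coldR P (LcF H) t x v + H t x v)
      (fun t x v => coldR P (LcF H') t x v + H' t x v)) : EqT T H H' := by
  have mL := N.meas3_LcF hm
  have pL := N.perF_LcF hp
  have mL' := N.meas3_LcF hm'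
  have pL' := N.perF_LcF hp'
  have h1 := (coldR_EqA hC mL pL mL' pL' (EqT_rate hC hm hp hm' hp' h)).toEqT
    (hC.meas _ mL pL) (hC.meas _ mL' pL')
  have h2 : ∀ᵐ z : ℝ × P2 × R3, 0 < z.1 → z.1 < T → coldR P (LcF H) z.1 z.2.1 z.2.2 ≠ ⊤ := by
    have hms : MeasurableSet {z : ℝ × P2 × R3 | 0 < z.1 → z.1 < T →
        coldR P (LcF H) z.1 z.2.1 z.2.2 ≠ ⊤} := by
      have e : {z : ℝ × P2 × R3 | 0 < z.1 → z.1 < T → coldR P (LcF H) z.1 z.2.1 z.2.2 ≠ ⊤} =
          ({z : ℝ × P2 × R3 | 0 < z.1} ∩ {z : ℝ × P2 × R3 | z.1 < T})ᶜ ∪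
            {z : ℝ × P2 × R3 | coldR P (LcF H) z.1 z.2.1 z.2.2 = ⊤}ᶜ := by
        ext z
        simp only [mem_ofPred_eq, mem_union, mem_compl_iff, mem_inter_iff]
        tauto
      rw [e]
      exact ((measurableSet_lt measurable_const measurable_fst).inter
        (measurableSet_lt measurable_fst measurable_const)).compl.union
        ((hC.meas _ mL pL) (measurableSet_singleton ⊤)).compl
    rw [show (volume : Measure (ℝ × P2 × R3)) = (volume : Measure ℝ).prod volume from rfl,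
      Measure.ae_prod_iff_ae_ae hms]
    refine Eventually.of_forall fun t => ?_
    by_cases h0 : 0 < t ∧ t < T
    · filter_upwards [hC.fin _ mL pL t h0.1 h0.2] with q hq _ _ using hq
    · refine Eventually.of_forall fun q h1 h2 => absurd ⟨h1, h2⟩ h0
  filter_upwards [h, h1, h2] with z hz1 hz2 hz3 h0 hT
  have e1 := hz1 h0 hT
  have e2 := hz2 h0 hT
  rw [← e2] at e1
  exact (ENNReal.add_right_inj (hz3 h0 hT)).1 e1

/-- `DOut` from `ColdD` for the final parameters -/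
theorem DOut_of {Y : ℝ} (hC : ∃ K1 : ℝ, ∀ K : ℝ, 1 ≤ K → K1 ≤ K → ∀ ey : ℝ, 0 < ey →
    ey ≤ 1 / 100 → ∀ᶠ p : ℕ in atTop, ∀ᶠ j0 : ℕ in atTop, ColdD (par K Y ey p j0) (T1j j0)) :
    Main0.DOut Y := by
  obtain ⟨K1, hK1⟩ := hC
  refine ⟨K1, fun K hK hK' ey he he' => ?_⟩
  filter_upwards [hK1 K hK hK' ey he he'] with p hp
  filter_upwards [hp] with j0 hj0
  intro R H H' A hH hH' _ _ _ h
  have h1 := hot_eq hj0 hH.meas hH.per hH'.meas hH'.per (by
    filter_upwards [h] with z hz h0 hT using hz ⟨h0, hT⟩)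
  filter_upwards [h1] with z hz hT using hz hT.1 hT.2

end Crest.Agent.R68.DCong
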