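import Crest.Agent.R68.DOut
import Crest.Agent.R68.ColdFin
import Crest.Agent.R68.ColdCpl

/-!
# Row 68 (helper559): the distinguishing statement `DOut`
-/

set_option autoImplicit false
open MeasureTheory Set Filter
open scoped ENNReal Topology
open Crest.AnalysisR.VecCalc3 Crest.AnalysisR.PDE.Boltzmann

noncomputable section

namespace Crest.Agent.R68.D

open Crest.Agent.R68.A (en Meas3)
open Crest.Agent.R68.N (Fld PerF)

theorem coldD_holds {P : Par} (hC : ColdPar Cold.C0 P) (hB : ColdW.Big P) (T : ℝ) :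
    DCong.ColdD P T where
  meas := fun lam hm _ => ColdM.meas3_coldR _ hm
  full := fun lam hm _ t x v ht =>
    ColdC.coldR_eq_coldL hC hB (by have := hC.K; linarith) hm ht x v
  fin := fun lam hm _ t ht _ => Eventually.of_forall fun q =>
    ne_top_of_le_ne_top (Cold.coldS_ne_top hB ht.le q.1 q.2)
      (Cold.coldR_le_coldS hC hB.ok lam ht.le q.1 q.2)

theorem DOut_holds (Y : ℝ) (hY : 1 ≤ Y) : Main0.DOut Y := by
  refine DCong.DOut_of ⟨1, fun K hK _ ey hey hey1 => ?_⟩
  filter_upwards [eventually_ge_atTop 512] with p hp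
  filter_upwards [ev_ColdPar K Y ey p Cold.C0 hK hY hp,
    ev_Ok K Y ey p (by linarith) (by linarith) hey (by omega),
    tendsto_natCast_atTop_atTop.eventually_ge_atTop K] with j0 hC hOk hKj
  exact coldD_holds hC ⟨hOk, hp, hY, hKj⟩ _

end Crest.Agent.R68.D
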