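import Mathlib
import Crest.Prelude.Def_HardSphereBoltzmann
import Crest.Agent.R68.E1

/-!
Row 68, part E, module 2: the collision measure, symmetries, weak form of the collision operator.
-/

set_option autoImplicit false
open MeasureTheory
open scoped ENNReal
open Crest.AnalysisR.VecCalc3 Crest.AnalysisR.PDE.Boltzmann

namespace Crest.Agent.R68E

/-- the measure `dv dv⋆ dω`. -/
noncomputable def tri : Measure ((R3 × R3) × R3) :=
  (volume : Measure (R3 × R3)).prod sphereMeasure

instance sfin_tri : SFinite tri := by unfold tri; infer_instance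
instance sigf_tri : SigmaFinite tri := by unfold tri; infer_instance
instance sfin_tri' : SFinite ((volume : Measure R3).prod ((volume : Measure R3).prod sphereMeasure)) :=
  inferInstance

/-- the collision involution on `(v, v⋆, ω)`. -/
noncomputable def cT (z : (R3 × R3) × R3) : (R3 × R3) × R3 := (T z.2 z.1, z.2)

/-- the exchange `(v, v⋆) ↦ (v⋆, v)`. -/
def cS (z : (R3 × R3) × R3) : (R3 × R3) × R3 := ((z.1.2, z.1.1), z.2)

lemma continuous_cT : Continuous cT := by
  unfold cT
  simp only [T_apply]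
  exact ((continuous_postVel).prodMk continuous_postVelStar).prodMk continuous_snd

lemma measurable_cT : Measurable cT := continuous_cT.measurable

lemma mp_cT : MeasurePreserving cT tri tri := by
  have h1 : MeasurePreserving (fun p : R3 × (R3 × R3) => (p.1, T p.1 p.2))
      (sphereMeasure.prod volume) (sphereMeasure.prod volume) := by
    refine (MeasurePreserving.id sphereMeasure).skew_product (g := fun w p => T w p) ?_ ?_
    · have : Continuous (fun q : R3 × (R3 × R3) => (cT (q.2, q.1)).1) :=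
        (continuous_cT.comp (continuous_snd.prodMk continuous_fst)).fst
      exact this.measurable
    · filter_upwards [ae_norm_eq_one] with w hw
      exact (measurePreserving_T w hw).map_eq
  have h2 : MeasurePreserving (Prod.swap : (R3 × R3) × R3 → R3 × (R3 × R3))
      tri (sphereMeasure.prod volume) := Measure.measurePreserving_swap
  have h3 : MeasurePreserving (Prod.swap : R3 × (R3 × R3) → (R3 × R3) × R3)
      (sphereMeasure.prod volume) tri := Measure.measurePreserving_swap
  exact h3.comp (h1.comp h2)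

lemma measurable_cS : Measurable cS := by
  unfold cS
  fun_prop

lemma mp_cS : MeasurePreserving cS tri tri := by
  have h2 : MeasurePreserving (Prod.swap : R3 × R3 → R3 × R3) volume volume :=
    Measure.measurePreserving_swap
  exact h2.prod (MeasurePreserving.id sphereMeasure)

/-- kernel `|⟪v - v⋆, ω⟫|`. -/
noncomputable def ker (z : (R3 × R3) × R3) : ℝ := |inner ℝ (z.1.1 - z.1.2) z.2|

lemma ker_nonneg (z : (R3 × R3) × R3) : 0 ≤ ker z := abs_nonneg _

lemma measurable_ker : Measurable ker := by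
  have : Continuous ker := by unfold ker; fun_prop
  exact this.measurable

lemma ker_cT (z : (R3 × R3) × R3) (hz : ‖z.2‖ = 1) : ker (cT z) = ker z := by
  unfold ker cT
  simp only [T_apply]
  rw [inner_post _ _ _ hz, abs_neg]

lemma ker_cS (z : (R3 × R3) × R3) : ker (cS z) = ker z := by
  unfold ker cS
  simp only
  rw [← abs_neg, ← inner_neg_left, neg_sub]

lemma ae_tri : ∀ᵐ z ∂tri, ‖z.2‖ = 1 := by
  unfold tri
  have := Measure.quasiMeasurePreserving_snd (μ := (volume : Measure (R3 × R3))) (ν := sphereMeasure)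
  exact this.ae ae_norm_eq_one

/-- gain of a velocity profile. -/
noncomputable def gain (g : R3 → ℝ) (v : R3) : ℝ≥0∞ :=
  ∫⁻ vs, ∫⁻ w, ENNReal.ofReal (|inner ℝ (v - vs) w| * g (postVel v vs w) *
    g (postVelStar v vs w)) ∂sphereMeasure

/-- loss of a velocity profile. -/
noncomputable def loss (g : R3 → ℝ) (v : R3) : ℝ≥0∞ :=
  ∫⁻ vs, ∫⁻ w, ENNReal.ofReal (|inner ℝ (v - vs) w| * g v * g vs) ∂sphereMeasure

lemma collGain_eq (F : ℝ → R3 → R3 → ℝ) (t : ℝ) (x v : R3) : collGain F t x v = gain (F t x) v := rfl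
lemma collLoss_eq (F : ℝ → R3 → R3 → ℝ) (t : ℝ) (x v : R3) : collLoss F t x v = loss (F t x) v := rfl

section param

variable {Y : Type*} [MeasurableSpace Y]

/-- `b(y,z) = |⟪v-v⋆,ω⟫| g(v') g(v⋆')`. -/
noncomputable def bb (g : Y → R3 → ℝ) (q : Y × ((R3 × R3) × R3)) : ℝ :=
  ker q.2 * g q.1 (cT q.2).1.1 * g q.1 (cT q.2).1.2

/-- `a(y,z) = |⟪v-v⋆,ω⟫| g(v) g(v⋆)`. -/
noncomputable def aa (g : Y → R3 → ℝ) (q : Y × ((R3 × R3) × R3)) : ℝ :=
  ker q.2 * g q.1 q.2.1.1 * g q.1 q.2.1.2

variable {g : Y → R3 → ℝ}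

lemma measurable_aa (hg : Measurable (Function.uncurry g)) : Measurable (aa g) := by
  unfold aa
  have h1 : Measurable fun q : Y × ((R3 × R3) × R3) => g q.1 q.2.1.1 :=
    hg.comp (measurable_fst.prodMk (by fun_prop))
  have h2 : Measurable fun q : Y × ((R3 × R3) × R3) => g q.1 q.2.1.2 :=
    hg.comp (measurable_fst.prodMk (by fun_prop))
  exact ((measurable_ker.comp measurable_snd).mul h1).mul h2

lemma measurable_bb (hg : Measurable (Function.uncurry g)) : Measurable (bb g) := by
  unfold bb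
  have hc : Measurable fun q : Y × ((R3 × R3) × R3) => cT q.2 := measurable_cT.comp measurable_snd
  have h1 : Measurable fun q : Y × ((R3 × R3) × R3) => g q.1 (cT q.2).1.1 :=
    hg.comp (measurable_fst.prodMk hc.fst.fst)
  have h2 : Measurable fun q : Y × ((R3 × R3) × R3) => g q.1 (cT q.2).1.2 :=
    hg.comp (measurable_fst.prodMk hc.fst.snd)
  exact ((measurable_ker.comp measurable_snd).mul h1).mul h2

/-- rearrangement `((y,v),(v⋆,ω)) ↦ (y,((v,v⋆),ω))`. -/
def rho (p : (Y × R3) × (R3 × R3)) : Y × ((R3 × R3) × R3) := (p.1.1, ((p.1.2, p.2.1), p.2.2))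

lemma mp_rho (ν : Measure Y) [SFinite ν] :
    MeasurePreserving (rho : (Y × R3) × (R3 × R3) → _)
      ((ν.prod volume).prod ((volume : Measure R3).prod sphereMeasure)) (ν.prod tri) := by
  have h1 := measurePreserving_prodAssoc ν (volume : Measure R3)
    ((volume : Measure R3).prod sphereMeasure)
  have h2 := (measurePreserving_prodAssoc (volume : Measure R3) (volume : Measure R3)
    sphereMeasure).symm
  exact ((MeasurePreserving.id ν).prod h2).comp h1

lemma lintegral_rho (ν : Measure Y) [SFinite ν] {Φ : Y × ((R3 × R3) × R3) → ℝ≥0∞}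
    (hΦ : Measurable Φ) :
    ∫⁻ q, Φ q ∂(ν.prod tri) = ∫⁻ p : Y × R3, ∫⁻ vs, ∫⁻ w, Φ (p.1, ((p.2, vs), w))
      ∂sphereMeasure ∂volume ∂(ν.prod volume) := by
  have hm := (mp_rho ν).measurable
  have hΨ : Measurable (fun r => Φ (rho r)) := hΦ.comp hm
  rw [← (mp_rho ν).lintegral_comp hΦ, lintegral_prod _ hΨ.aemeasurable]
  refine lintegral_congr fun p => ?_
  rw [lintegral_prod]
  · rfl
  · exact (hΨ.comp measurable_prodMk_left).aemeasurable

omit [MeasurableSpace Y] in
lemma gain_eq_bb (g : Y → R3 → ℝ) (y : Y) (v : R3) :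
    gain (g y) v = ∫⁻ vs, ∫⁻ w, ENNReal.ofReal (bb g (y, ((v, vs), w))) ∂sphereMeasure := rfl

omit [MeasurableSpace Y] in
lemma loss_eq_aa (g : Y → R3 → ℝ) (y : Y) (v : R3) :
    loss (g y) v = ∫⁻ vs, ∫⁻ w, ENNReal.ofReal (aa g (y, ((v, vs), w))) ∂sphereMeasure := rfl

lemma lintegral_rho_mul (ν : Measure Y) [SFinite ν] {Φ : Y × ((R3 × R3) × R3) → ℝ≥0∞}
    (hΦ : Measurable Φ) {ψ : Y × R3 → ℝ≥0∞} (hψ : Measurable ψ) :
    ∫⁻ p : Y × R3, (∫⁻ vs, ∫⁻ w, Φ (p.1, ((p.2, vs), w)) ∂sphereMeasure ∂volume) * ψ p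
      ∂(ν.prod volume) = ∫⁻ q, Φ q * ψ (q.1, q.2.1.1) ∂(ν.prod tri) := by
  have hm : Measurable fun q : Y × ((R3 × R3) × R3) => Φ q * ψ (q.1, q.2.1.1) :=
    hΦ.mul (hψ.comp (by fun_prop))
  rw [lintegral_rho ν hm]
  refine lintegral_congr fun p => ?_
  have h3 : Measurable fun r : R3 × R3 => Φ (p.1, ((p.2, r.1), r.2)) :=
    hΦ.comp (by fun_prop)
  have h4 : Measurable fun vs : R3 => ∫⁻ w, Φ (p.1, ((p.2, vs), w)) ∂sphereMeasure :=
    h3.lintegral_prod_right'
  rw [← lintegral_mul_const (ψ p) h4]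
  refine lintegral_congr fun vs => ?_
  have h5 : Measurable fun w : R3 => Φ (p.1, ((p.2, vs), w)) :=
    h3.comp measurable_prodMk_left
  rw [← lintegral_mul_const (ψ p) h5]

/-- gain against a nonnegative weight. -/
lemma lintegral_gain_mul (ν : Measure Y) [SFinite ν] (hg : Measurable (Function.uncurry g))
    {ψ : Y × R3 → ℝ≥0∞} (hψ : Measurable ψ) :
    ∫⁻ p, gain (g p.1) p.2 * ψ p ∂(ν.prod volume) =
      ∫⁻ q, ENNReal.ofReal (bb g q) * ψ (q.1, q.2.1.1) ∂(ν.prod tri) := by
  simp only [gain_eq_bb]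
  exact lintegral_rho_mul ν (measurable_bb hg).ennreal_ofReal hψ

/-- loss against a nonnegative weight. -/
lemma lintegral_loss_mul (ν : Measure Y) [SFinite ν] (hg : Measurable (Function.uncurry g))
    {ψ : Y × R3 → ℝ≥0∞} (hψ : Measurable ψ) :
    ∫⁻ p, loss (g p.1) p.2 * ψ p ∂(ν.prod volume) =
      ∫⁻ q, ENNReal.ofReal (aa g q) * ψ (q.1, q.2.1.1) ∂(ν.prod tri) := by
  simp only [loss_eq_aa]
  exact lintegral_rho_mul ν (measurable_aa hg).ennreal_ofReal hψ

lemma measurable_gain (hg : Measurable (Function.uncurry g)) :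
    Measurable fun p : Y × R3 => gain (g p.1) p.2 := by
  have hb := measurable_bb hg
  have h3 : Measurable fun r : ((Y × R3) × R3) × R3 =>
      ENNReal.ofReal (bb g (r.1.1.1, ((r.1.1.2, r.1.2), r.2))) :=
    (hb.comp (by fun_prop)).ennreal_ofReal
  exact (h3.lintegral_prod_right' (ν := sphereMeasure)).lintegral_prod_right'

lemma measurable_loss (hg : Measurable (Function.uncurry g)) :
    Measurable fun p : Y × R3 => loss (g p.1) p.2 := by
  have hb := measurable_aa hg
  have h3 : Measurable fun r : ((Y × R3) × R3) × R3 =>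
      ENNReal.ofReal (aa g (r.1.1.1, ((r.1.1.2, r.1.2), r.2))) :=
    (hb.comp (by fun_prop)).ennreal_ofReal
  exact (h3.lintegral_prod_right' (ν := sphereMeasure)).lintegral_prod_right'

end param

end Crest.Agent.R68E
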