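import Mathlib
import Crest.Prelude.Def_HardSphereBoltzmann
import Crest.Agent.R68.E2

/-!
Row 68, part E, module 3: real-valued weak form of the collision operator.
-/

set_option autoImplicit false
open MeasureTheory
open scoped ENNReal
open Crest.AnalysisR.VecCalc3 Crest.AnalysisR.PDE.Boltzmann

namespace Crest.Agent.R68E

section param

variable {Y : Type*} [MeasurableSpace Y]

lemma weak_aux (ν : Measure Y) [SFinite ν] {Φ : Y × ((R3 × R3) × R3) → ℝ}
    (hΦ : Measurable Φ) (h0 : ∀ᵐ y ∂ν, ∀ z, 0 ≤ Φ (y, z)) {ψ : Y × R3 → ℝ} (hψ : Measurable ψ)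
    (hfin : ∫⁻ p : Y × R3, (∫⁻ vs, ∫⁻ w, ENNReal.ofReal (Φ (p.1, ((p.2, vs), w))) ∂sphereMeasure)
      * ENNReal.ofReal |ψ p| ∂(ν.prod volume) < ⊤) :
    Integrable (fun q => Φ q * ψ (q.1, q.2.1.1)) (ν.prod tri) ∧
    Integrable (fun p : Y × R3 => (∫⁻ vs, ∫⁻ w, ENNReal.ofReal (Φ (p.1, ((p.2, vs), w)))
      ∂sphereMeasure).toReal * ψ p) (ν.prod volume) ∧
    ∫ p : Y × R3, (∫⁻ vs, ∫⁻ w, ENNReal.ofReal (Φ (p.1, ((p.2, vs), w)))
      ∂sphereMeasure).toReal * ψ p ∂(ν.prod volume) =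
      ∫ q, Φ q * ψ (q.1, q.2.1.1) ∂(ν.prod tri) := by
  have hψm : Measurable fun p => ENNReal.ofReal |ψ p| :=
    (continuous_abs.measurable.comp hψ).ennreal_ofReal
  rw [lintegral_rho_mul ν hΦ.ennreal_ofReal hψm] at hfin
  have hm : Measurable fun q : Y × ((R3 × R3) × R3) => Φ q * ψ (q.1, q.2.1.1) :=
    hΦ.mul (hψ.comp (by fun_prop))
  have hI : Integrable (fun q => Φ q * ψ (q.1, q.2.1.1)) (ν.prod tri) := by
    refine ⟨hm.aestronglyMeasurable, ?_⟩
    unfold HasFiniteIntegral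
    refine lt_of_le_of_lt (le_of_eq ?_) hfin
    have h1 : ∀ᵐ q ∂(ν.prod tri), ∀ z, 0 ≤ Φ (q.1, z) :=
      Measure.quasiMeasurePreserving_fst.ae h0
    refine lintegral_congr_ae ?_
    filter_upwards [h1] with q hq
    rw [← ENNReal.ofReal_mul (hq q.2), ← ofReal_norm, norm_mul, Real.norm_eq_abs,
      Real.norm_eq_abs, abs_of_nonneg (hq q.2)]
  have hI2 : Integrable (fun r => Φ (rho r) * ψ ((rho r).1, (rho r).2.1.1))
      ((ν.prod volume).prod ((volume : Measure R3).prod sphereMeasure)) :=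
    (mp_rho ν).integrable_comp_of_integrable hI
  have hE : ∀ᵐ p ∂(ν.prod (volume : Measure R3)),
      ∫ r, Φ (rho (p, r)) * ψ ((rho (p, r)).1, (rho (p, r)).2.1.1)
        ∂((volume : Measure R3).prod sphereMeasure) =
      (∫⁻ vs, ∫⁻ w, ENNReal.ofReal (Φ (p.1, ((p.2, vs), w))) ∂sphereMeasure).toReal * ψ p := by
    have h1 : ∀ᵐ p ∂(ν.prod (volume : Measure R3)), ∀ z, 0 ≤ Φ (p.1, z) :=
      Measure.quasiMeasurePreserving_fst.ae h0
    filter_upwards [h1] with p hp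
    have h3 : Measurable fun r : R3 × R3 => Φ (p.1, ((p.2, r.1), r.2)) :=
      hΦ.comp (by fun_prop)
    have h4 : ∫ r, Φ (rho (p, r)) * ψ ((rho (p, r)).1, (rho (p, r)).2.1.1)
        ∂((volume : Measure R3).prod sphereMeasure) =
        (∫ r : R3 × R3, Φ (p.1, ((p.2, r.1), r.2)) ∂((volume : Measure R3).prod sphereMeasure))
          * ψ p := by
      rw [← integral_mul_const]
      rfl
    rw [h4, integral_eq_lintegral_of_nonneg_ae (Filter.Eventually.of_forall fun r => hp _)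
      h3.aestronglyMeasurable, lintegral_prod _ h3.ennreal_ofReal.aemeasurable]
  refine ⟨hI, ?_, ?_⟩
  · exact (hI2.integral_prod_left).congr hE
  · rw [← integral_congr_ae hE, ← integral_prod _ hI2]
    rw [← (mp_rho ν).map_eq]
    rw [integral_map (mp_rho ν).measurable.aemeasurable]
    rw [(mp_rho ν).map_eq]
    exact hm.aestronglyMeasurable

variable {g : Y → R3 → ℝ}

omit [MeasurableSpace Y] in
lemma bb_nonneg {y : Y} (hy : ∀ v, 0 ≤ g y v) (z : (R3 × R3) × R3) : 0 ≤ bb g (y, z) :=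
  mul_nonneg (mul_nonneg (ker_nonneg _) (hy _)) (hy _)

omit [MeasurableSpace Y] in
lemma aa_nonneg {y : Y} (hy : ∀ v, 0 ≤ g y v) (z : (R3 × R3) × R3) : 0 ≤ aa g (y, z) :=
  mul_nonneg (mul_nonneg (ker_nonneg _) (hy _)) (hy _)

lemma cT_cS (z : (R3 × R3) × R3) : cT (cS z) = cS (cT z) := by
  unfold cT cS
  simp only [T_apply]
  rw [postVel_swap z.1.1 z.1.2 z.2, postVelStar_swap z.1.1 z.1.2 z.2]

lemma cT_cT (z : (R3 × R3) × R3) (hz : ‖z.2‖ = 1) : cT (cT z) = z := by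
  unfold cT
  simp only [T_T _ hz]

/-- lifted collision involution. -/
noncomputable def tau (q : Y × ((R3 × R3) × R3)) : Y × ((R3 × R3) × R3) := (q.1, cT q.2)
/-- lifted exchange. -/
def sig (q : Y × ((R3 × R3) × R3)) : Y × ((R3 × R3) × R3) := (q.1, cS q.2)

lemma mp_tau (ν : Measure Y) [SFinite ν] : MeasurePreserving tau (ν.prod tri) (ν.prod tri) :=
  (MeasurePreserving.id ν).prod mp_cT

lemma mp_sig (ν : Measure Y) [SFinite ν] : MeasurePreserving sig (ν.prod tri) (ν.prod tri) :=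
  (MeasurePreserving.id ν).prod mp_cS

lemma ae_prod_tri (ν : Measure Y) [SFinite ν] : ∀ᵐ q ∂(ν.prod tri), ‖q.2.2‖ = 1 :=
  Measure.quasiMeasurePreserving_snd.ae ae_tri

omit [MeasurableSpace Y] in
lemma aa_tau (q : Y × ((R3 × R3) × R3)) (hq : ‖q.2.2‖ = 1) : aa g (tau q) = bb g q := by
  unfold aa bb tau
  simp only [ker_cT _ hq]

omit [MeasurableSpace Y] in
lemma bb_tau (q : Y × ((R3 × R3) × R3)) (hq : ‖q.2.2‖ = 1) : bb g (tau q) = aa g q := by
  unfold aa bb tau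
  simp only [ker_cT _ hq, cT_cT _ hq]

omit [MeasurableSpace Y] in
lemma aa_sig (q : Y × ((R3 × R3) × R3)) : aa g (sig q) = aa g q := by
  unfold aa sig
  simp only [ker_cS]
  unfold cS
  ring

omit [MeasurableSpace Y] in
lemma bb_sig (q : Y × ((R3 × R3) × R3)) : bb g (sig q) = bb g q := by
  unfold bb sig
  simp only [ker_cS, cT_cS]
  unfold cS
  ring

/-- `ψ(v') + ψ(v⋆') - ψ(v) - ψ(v⋆)`. -/
noncomputable def WW (ψ : Y × R3 → ℝ) (q : Y × ((R3 × R3) × R3)) : ℝ :=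
  ψ (q.1, (cT q.2).1.1) + ψ (q.1, (cT q.2).1.2) - ψ (q.1, q.2.1.1) - ψ (q.1, q.2.1.2)

lemma int_comp_mp {μ : Measure (Y × ((R3 × R3) × R3))} {m : Y × ((R3 × R3) × R3) → _}
    (hm : MeasurePreserving m μ μ) {f h : Y × ((R3 × R3) × R3) → ℝ} (hf : Integrable f μ)
    (he : ∀ᵐ q ∂μ, f (m q) = h q) : Integrable h μ ∧ ∫ q, h q ∂μ = ∫ q, f q ∂μ := by
  have h1 : Integrable (fun q => f (m q)) μ := hm.integrable_comp_of_integrable hf
  refine ⟨h1.congr he, ?_⟩
  rw [← integral_congr_ae he]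
  conv_rhs => rw [← hm.map_eq]
  rw [integral_map hm.measurable.aemeasurable]
  rw [hm.map_eq]
  exact hf.aestronglyMeasurable

/-- **Weak form of the collision operator** (with a parameter). -/
theorem weak_form (ν : Measure Y) [SFinite ν] (hg : Measurable (Function.uncurry g))
    (hg0 : ∀ᵐ y ∂ν, ∀ v, 0 ≤ g y v) {ψ : Y × R3 → ℝ} (hψ : Measurable ψ)
    (hfin : ∫⁻ p : Y × R3, (gain (g p.1) p.2 + loss (g p.1) p.2) * ENNReal.ofReal |ψ p|
      ∂(ν.prod volume) < ⊤) :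
    Integrable (fun p : Y × R3 => ((gain (g p.1) p.2).toReal - (loss (g p.1) p.2).toReal) * ψ p)
      (ν.prod volume) ∧
    Integrable (fun q => (bb g q - aa g q) * WW ψ q) (ν.prod tri) ∧
    ∫ p : Y × R3, ((gain (g p.1) p.2).toReal - (loss (g p.1) p.2).toReal) * ψ p
      ∂(ν.prod volume) = - (1 / 4) * ∫ q, (bb g q - aa g q) * WW ψ q ∂(ν.prod tri) := by
  have hfg : ∫⁻ p : Y × R3, gain (g p.1) p.2 * ENNReal.ofReal |ψ p| ∂(ν.prod volume) < ⊤ :=
    lt_of_le_of_lt (lintegral_mono fun p => mul_le_mul' le_self_add le_rfl) hfin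
  have hfl : ∫⁻ p : Y × R3, loss (g p.1) p.2 * ENNReal.ofReal |ψ p| ∂(ν.prod volume) < ⊤ :=
    lt_of_le_of_lt (lintegral_mono fun p => mul_le_mul' le_add_self le_rfl) hfin
  simp only [gain_eq_bb] at hfg
  simp only [loss_eq_aa] at hfl
  obtain ⟨b1, b2, b3⟩ := weak_aux ν (measurable_bb hg)
    (by filter_upwards [hg0] with y hy using fun z => bb_nonneg hy z) hψ hfg
  obtain ⟨a1, a2, a3⟩ := weak_aux ν (measurable_aa hg)
    (by filter_upwards [hg0] with y hy using fun z => aa_nonneg hy z) hψ hfl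
  simp only [← gain_eq_bb] at b2 b3
  simp only [← loss_eq_aa] at a2 a3
  have htau := ae_prod_tri ν
  -- the eight integrals
  obtain ⟨a1i, a1e⟩ := int_comp_mp (mp_sig ν) a1
    (h := fun q => aa g q * ψ (q.1, q.2.1.2)) (Filter.Eventually.of_forall fun q => by
      simp only [aa_sig]; rfl)
  obtain ⟨b1i, b1e⟩ := int_comp_mp (mp_sig ν) b1
    (h := fun q => bb g q * ψ (q.1, q.2.1.2)) (Filter.Eventually.of_forall fun q => by
      simp only [bb_sig]; rfl)
  obtain ⟨a3i, a3e⟩ := int_comp_mp (mp_tau ν) b1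
    (h := fun q => aa g q * ψ (q.1, (cT q.2).1.1)) (by
      filter_upwards [htau] with q hq
      simp only [bb_tau q hq]; rfl)
  obtain ⟨a4i, a4e⟩ := int_comp_mp (mp_tau ν) b1i
    (h := fun q => aa g q * ψ (q.1, (cT q.2).1.2)) (by
      filter_upwards [htau] with q hq
      simp only [bb_tau q hq]; rfl)
  obtain ⟨b3i, b3e⟩ := int_comp_mp (mp_tau ν) a1
    (h := fun q => bb g q * ψ (q.1, (cT q.2).1.1)) (by
      filter_upwards [htau] with q hq
      simp only [aa_tau q hq]; rfl)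
  obtain ⟨b4i, b4e⟩ := int_comp_mp (mp_tau ν) a1i
    (h := fun q => bb g q * ψ (q.1, (cT q.2).1.2)) (by
      filter_upwards [htau] with q hq
      simp only [aa_tau q hq]; rfl)
  have hsum : (fun q => (bb g q - aa g q) * WW ψ q) = fun q =>
      (((bb g q * ψ (q.1, (cT q.2).1.1) + bb g q * ψ (q.1, (cT q.2).1.2)) -
        (bb g q * ψ (q.1, q.2.1.1) + bb g q * ψ (q.1, q.2.1.2))) -
      ((aa g q * ψ (q.1, (cT q.2).1.1) + aa g q * ψ (q.1, (cT q.2).1.2)) -
        (aa g q * ψ (q.1, q.2.1.1) + aa g q * ψ (q.1, q.2.1.2)))) := by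
    funext q; unfold WW; ring
  refine ⟨?_, ?_, ?_⟩
  · have := b2.sub a2
    refine this.congr (Filter.Eventually.of_forall fun p => ?_)
    simp only [Pi.sub_apply]; ring
  · rw [hsum]
    exact ((b3i.add b4i).sub (b1.add b1i)).sub ((a3i.add a4i).sub (a1.add a1i))
  · have e1 : ∫ p : Y × R3, ((gain (g p.1) p.2).toReal - (loss (g p.1) p.2).toReal) * ψ p
        ∂(ν.prod volume) = (∫ q, bb g q * ψ (q.1, q.2.1.1) ∂(ν.prod tri)) -
          ∫ q, aa g q * ψ (q.1, q.2.1.1) ∂(ν.prod tri) := by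
      rw [← b3, ← a3, ← integral_sub b2 a2]
      refine integral_congr_ae (Filter.Eventually.of_forall fun p => ?_)
      simp only; ring
    rw [e1, hsum, integral_sub, integral_sub, integral_sub, integral_add b3i b4i,
      integral_add b1 b1i, integral_add a3i a4i, integral_add a1 a1i, a1e, b1e, a3e, a4e, b3e, b4e,
      b1e, a1e]
    · ring
    · exact a3i.add a4i
    · exact a1.add a1i
    · exact b3i.add b4i
    · exact b1.add b1i
    · exact (b3i.add b4i).sub (b1.add b1i)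
    · exact (a3i.add a4i).sub (a1.add a1i)

end param

end Crest.Agent.R68E
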