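import Crest.Agent.R68.EEnt2

/-!
R68 / EEnt3: limits δ → 0 (helper211, Part E).
-/

set_option autoImplicit false
open MeasureTheory Filter Topology
open scoped ENNReal
open Crest.AnalysisR.VecCalc3 Crest.AnalysisR.PDE.Boltzmann

namespace Crest.Agent.R68

theorem liminf_pair {A B a : ℝ} (hA : 0 ≤ A) (hB : 0 ≤ B) (ha : 0 ≤ a) {x y : ℕ → ℝ}
    (hx : ∀ n, 0 < x n) (hy : ∀ n, 0 < y n) (hx0 : Tendsto x atTop (𝓝 0))
    (hy0 : Tendsto y atTop (𝓝 0)) :
    ENNReal.ofReal a * pairDissipation A B ≤
      liminf (fun n => ENNReal.ofReal (a * ((A - B) * (Real.log (A + x n) - Real.log (B + y n)) +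
        (x n + y n)))) atTop := by
  rcases ha.eq_or_lt with rfl | ha
  · simp
  have hAx : Tendsto (fun n => A + x n) atTop (𝓝 A) := by simpa using hx0.const_add A
  have hBy : Tendsto (fun n => B + y n) atTop (𝓝 B) := by simpa using hy0.const_add B
  have hxy : Tendsto (fun n => x n + y n) atTop (𝓝 0) := by simpa using hx0.add hy0
  unfold pairDissipation
  split_ifs with h1 h2
  · simp
  · have hl : Tendsto (fun n => a * ((A - B) * (Real.log (A + x n) - Real.log (B + y n)) +
        (x n + y n))) atTop (𝓝 (a * ((A - B) * (Real.log A - Real.log B) + 0))) := by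
      refine Tendsto.const_mul _ (Tendsto.add (Tendsto.const_mul _ (Tendsto.sub ?_ ?_)) hxy)
      · exact (Real.continuousAt_log h2.1.ne').tendsto.comp hAx
      · exact (Real.continuousAt_log h2.2.ne').tendsto.comp hBy
    have := (ENNReal.continuous_ofReal.tendsto _).comp hl
    have h3 := this.liminf_eq
    simp only [Function.comp_def] at h3
    rw [h3, add_zero, ENNReal.ofReal_mul ha.le, Real.log_div h2.1.ne' h2.2.ne']
  · -- exactly one vanishes
    have htop : Tendsto (fun n => ENNReal.ofReal (a * ((A - B) * (Real.log (A + x n) -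
        Real.log (B + y n)) + (x n + y n)))) atTop (𝓝 ⊤) := by
      refine ENNReal.tendsto_ofReal_nhds_top.2 ?_
      refine Tendsto.const_mul_atTop ha ?_
      refine Tendsto.atTop_add ?_ hxy
      rcases hA.eq_or_lt with hA0 | hA0
      · have hB0 : 0 < B := by
          rcases hB.eq_or_lt with hB0 | hB0
          · exact absurd ⟨hA0.symm, hB0.symm⟩ h1
          · exact hB0
        subst hA0
        have hlx : Tendsto (fun n => Real.log (0 + x n)) atTop atBot := by
          have : Tendsto (fun n => (0 : ℝ) + x n) atTop (𝓝[>] 0) := by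
            refine tendsto_nhdsWithin_iff.2 ⟨hAx, Eventually.of_forall fun n => ?_⟩
            simpa using hx n
          exact Real.tendsto_log_nhdsGT_zero.comp this
        have hly : Tendsto (fun n => Real.log (B + y n)) atTop (𝓝 (Real.log B)) :=
          (Real.continuousAt_log hB0.ne').tendsto.comp hBy
        have h4 : Tendsto (fun n => -(Real.log (0 + x n) - Real.log (B + y n))) atTop atTop := by
          have h5 : Tendsto (fun n => Real.log (0 + x n) - Real.log (B + y n)) atTop atBot := by
            have := hlx.atBot_add hly.neg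
            simpa [sub_eq_add_neg] using this
          exact tendsto_neg_atBot_atTop.comp h5
        have h6 := h4.const_mul_atTop hB0
        refine h6.congr fun n => ?_
        ring
      · have hB0 : B = 0 := by
          by_contra hne
          exact h2 ⟨hA0, lt_of_le_of_ne hB (Ne.symm hne)⟩
        subst hB0
        have hly : Tendsto (fun n => Real.log (0 + y n)) atTop atBot := by
          have : Tendsto (fun n => (0 : ℝ) + y n) atTop (𝓝[>] 0) := by
            refine tendsto_nhdsWithin_iff.2 ⟨hBy, Eventually.of_forall fun n => ?_⟩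
            simpa using hy n
          exact Real.tendsto_log_nhdsGT_zero.comp this
        have hlx : Tendsto (fun n => Real.log (A + x n)) atTop (𝓝 (Real.log A)) :=
          (Real.continuousAt_log hA0.ne').tendsto.comp hAx
        have h5 : Tendsto (fun n => Real.log (A + x n) - Real.log (0 + y n)) atTop atTop := by
          have h7 : Tendsto (fun n => -Real.log (0 + y n)) atTop atTop :=
            tendsto_neg_atBot_atTop.comp hly
          have := hlx.add_atTop h7
          simpa [sub_eq_add_neg] using this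
        have h6 := h5.const_mul_atTop hA0
        refine h6.congr fun n => ?_
        ring
    rw [htop.liminf_eq]
    exact le_top

theorem tendsto_excess {d : ℕ → ℝ} (hd0 : Tendsto d atTop (𝓝 0)) (f : R3 → ℝ) (v vs : R3) :
    Tendsto (fun n => excess (d n) f v vs) atTop (𝓝 0) := by
  unfold excess
  have h1 : Tendsto (fun n => d n * (maxwellian v * f vs + maxwellian vs * f v)) atTop
      (𝓝 (0 * (maxwellian v * f vs + maxwellian vs * f v))) := hd0.mul_const _
  have h2 : Tendsto (fun n => d n ^ 2 * (maxwellian v * maxwellian vs)) atTop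
      (𝓝 (0 ^ 2 * (maxwellian v * maxwellian vs))) := (hd0.pow 2).mul_const _
  simpa using h1.add h2

theorem liminf_kEN {d : ℕ → ℝ} (hd : ∀ n, 0 < d n) (hd0 : Tendsto d atTop (𝓝 0)) {f : R3 → ℝ}
    (hf : ∀ v, 0 ≤ f v) (v vs : R3) {w : R3} (hw : ‖w‖ = 1) :
    ENNReal.ofReal |inner ℝ (v - vs) w| *
      pairDissipation (f (postVel v vs w) * f (postVelStar v vs w)) (f v * f vs) ≤
    liminf (fun n => kEN (d n) f v vs w) atTop := by
  have h := liminf_pair (A := f (postVel v vs w) * f (postVelStar v vs w)) (B := f v * f vs)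
    (a := |(inner ℝ (v - vs) w : ℝ)|) (mul_nonneg (hf _) (hf _)) (mul_nonneg (hf _) (hf _))
    (abs_nonneg _) (x := fun n => excess (d n) f (postVel v vs w) (postVelStar v vs w))
    (y := fun n => excess (d n) f v vs) (fun n => excess_pos (hd n) hf _ _)
    (fun n => excess_pos (hd n) hf _ _) (tendsto_excess hd0 f _ _) (tendsto_excess hd0 f _ _)
  refine h.trans (le_of_eq ?_)
  congr 1
  funext n
  unfold kEN
  rw [prodE_eq (hd n) hf v vs hw]
  rfl

/-! ### the regularised entropy density -/

/-- `h(x) = x log x - x + 1 ≥ 0`. -/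
theorem h_nonneg {x : ℝ} (hx : 0 ≤ x) : 0 ≤ x * Real.log x - x + 1 := by
  rcases hx.eq_or_lt with rfl | hx
  · simp
  · have h := Real.one_sub_inv_le_log_of_pos hx
    have : x * (1 - x⁻¹) ≤ x * Real.log x := mul_le_mul_of_nonneg_left h hx.le
    have e : x * (1 - x⁻¹) = x - 1 := by field_simp
    linarith

theorem entD_nonneg {d z m : ℝ} (hd : 0 ≤ d) (hz : 0 ≤ z) (hm : 0 < m) : 0 ≤ entD d z m := by
  unfold entD
  exact mul_nonneg hm.le (h_nonneg (by positivity))

theorem entD_zero {z m : ℝ} (hm : 0 < m) :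
    entD 0 z m = z * Real.log (z / m) - z + m := by
  unfold entD
  rw [add_zero]
  field_simp

theorem tendsto_entD {d : ℕ → ℝ} (hd0 : Tendsto d atTop (𝓝 0)) (z m : ℝ) :
    Tendsto (fun n => entD (d n) z m) atTop (𝓝 (entD 0 z m)) := by
  unfold entD
  have h1 : Tendsto (fun n => z / m + d n) atTop (𝓝 (z / m + 0)) := hd0.const_add _
  have h2 := (Real.continuous_mul_log.tendsto (z / m + 0)).comp h1
  exact ((h2.sub h1).add_const 1).const_mul m

theorem h_mono {x y : ℝ} (hx : 1 ≤ x) (hxy : x ≤ y) :
    x * Real.log x - x + 1 ≤ y * Real.log y - y + 1 := by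
  have hx0 : 0 < x := by linarith
  have hy0 : 0 < y := by linarith
  have h := Real.one_sub_inv_le_log_of_pos (div_pos hy0 hx0)
  rw [Real.log_div hy0.ne' hx0.ne'] at h
  have h1 : y * (1 - (y / x)⁻¹) ≤ y * (Real.log y - Real.log x) :=
    mul_le_mul_of_nonneg_left h hy0.le
  have e : y * (1 - (y / x)⁻¹) = y - x := by field_simp
  have hl : 0 ≤ Real.log x := Real.log_nonneg hx
  nlinarith [mul_nonneg (sub_nonneg.2 hxy) hl]

theorem h_bound {z d : ℝ} (hz : 0 ≤ z) (hd : 0 ≤ d) (hd1 : d ≤ 1) :
    (z + d) * Real.log (z + d) - (z + d) + 1 ≤ 1 + ((z + 1) * Real.log (z + 1) - (z + 1) + 1) := by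
  rcases le_total (z + d) 1 with h | h
  · have h1 : (z + d) * Real.log (z + d) ≤ 0 :=
      mul_nonpos_of_nonneg_of_nonpos (by linarith) (Real.log_nonpos (by linarith) h)
    have h2 := h_nonneg (x := z + 1) (by linarith)
    linarith
  · have := h_mono h (y := z + 1) (by linarith)
    linarith

theorem entD_bound {d z m : ℝ} (hd : 0 ≤ d) (hd1 : d ≤ 1) (hz : 0 ≤ z) (hm : 0 < m) :
    entD d z m ≤ m + z + z * Real.log (1 + z / m) := by
  have hzm : 0 ≤ z / m := div_nonneg hz hm.le
  have h := h_bound hzm hd hd1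
  have h2 : entD d z m ≤ m * (1 + ((z / m + 1) * Real.log (z / m + 1) - (z / m + 1) + 1)) := by
    unfold entD
    exact mul_le_mul_of_nonneg_left h hm.le
  have h3 : m * Real.log (z / m + 1) ≤ z := by
    have := Real.log_le_sub_one_of_pos (x := z / m + 1) (by linarith)
    calc m * Real.log (z / m + 1) ≤ m * (z / m + 1 - 1) := mul_le_mul_of_nonneg_left this hm.le
      _ = z := by field_simp; ring
  have h4 : m * (1 + ((z / m + 1) * Real.log (z / m + 1) - (z / m + 1) + 1)) =
      m + z * Real.log (z / m + 1) + m * Real.log (z / m + 1) - z := by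
    field_simp
    ring
  rw [h4] at h2
  rw [add_comm 1 (z / m)]
  linarith

/-- the constant `log (1 + (2π)^{3/2})` -/
noncomputable def cM : ℝ := Real.log (1 + (2 * Real.pi) ^ (3 / 2 : ℝ))

theorem cM_nonneg : 0 ≤ cM := by
  unfold cM
  exact Real.log_nonneg (by have : 0 ≤ (2 * Real.pi) ^ (3 / 2 : ℝ) := by positivity
                            linarith)

theorem inv_maxwellian (v : R3) :
    (maxwellian v)⁻¹ = (2 * Real.pi) ^ (3 / 2 : ℝ) * Real.exp (‖v‖ ^ 2 / 2) := by
  unfold maxwellian
  rw [mul_inv, ← Real.exp_neg, ← Real.rpow_neg (by positivity)]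
  simp only [neg_neg]
  congr 2
  ring

theorem log_one_add_inv_max (v : R3) : Real.log (1 + (maxwellian v)⁻¹) ≤ cM + ‖v‖ ^ 2 / 2 := by
  rw [inv_maxwellian]
  have hp : 0 < (2 * Real.pi) ^ (3 / 2 : ℝ) := by positivity
  have h1 : 1 + (2 * Real.pi) ^ (3 / 2 : ℝ) * Real.exp (‖v‖ ^ 2 / 2) ≤
      (1 + (2 * Real.pi) ^ (3 / 2 : ℝ)) * Real.exp (‖v‖ ^ 2 / 2) := by
    have : 1 ≤ Real.exp (‖v‖ ^ 2 / 2) := Real.one_le_exp (by positivity)
    nlinarith
  have h2 := Real.log_le_log (by positivity) h1
  rw [Real.log_mul (by positivity) (by positivity), Real.log_exp] at h2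
  exact h2

theorem log_one_add_div_max {z : ℝ} (hz : 0 ≤ z) (v : R3) :
    Real.log (1 + z / maxwellian v) ≤ Real.log (1 + z) + (cM + ‖v‖ ^ 2 / 2) := by
  have hm := maxwellian_pos v
  have h1 : 1 + z / maxwellian v ≤ (1 + z) * (1 + (maxwellian v)⁻¹) := by
    rw [div_eq_mul_inv]
    have : 0 ≤ (maxwellian v)⁻¹ := by positivity
    nlinarith
  have h2 := Real.log_le_log (by positivity) h1
  rw [Real.log_mul (by positivity) (by positivity)] at h2
  have := log_one_add_inv_max v
  linarith

theorem abs_Phi_le {d : ℝ} (hd : 0 < d) (hd1 : d ≤ 1) {f : R3 → ℝ} (hf : ∀ v, 0 ≤ f v) (v : R3) :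
    |Phi d f v| ≤ |Real.log d| + (cM + ‖v‖ ^ 2 / 2) + Real.log (1 + f v) := by
  have hm := maxwellian_pos v
  have hz : 0 ≤ f v / maxwellian v := div_nonneg (hf v) hm.le
  have hl1 : 0 ≤ Real.log (1 + f v) := Real.log_nonneg (by linarith [hf v])
  have hc := cM_nonneg
  unfold Phi
  rw [abs_le]
  constructor
  · have h1 : Real.log d ≤ Real.log (f v / maxwellian v + d) :=
      Real.log_le_log hd (by linarith)
    have h2 := neg_abs_le (Real.log d)
    have : 0 ≤ ‖v‖ ^ 2 / 2 := by positivity
    linarith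
  · have h1 : Real.log (f v / maxwellian v + d) ≤ Real.log (1 + f v / maxwellian v) :=
      Real.log_le_log (by linarith) (by linarith)
    have h2 := log_one_add_div_max (hf v) v
    have h3 := abs_nonneg (Real.log d)
    linarith

/-- dominating function of the regularised entropy density -/
theorem entD_bound' {d : ℝ} (hd : 0 ≤ d) (hd1 : d ≤ 1) {f : R3 → ℝ} (hf : ∀ v, 0 ≤ f v) (v : R3) :
    entD d (f v) (maxwellian v) ≤ maxwellian v + f v * (1 + cM + ‖v‖ ^ 2 / 2 +
      Real.log (1 + f v)) := by
  have h1 := entD_bound hd hd1 (hf v) (maxwellian_pos v)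
  have h2 := mul_le_mul_of_nonneg_left (log_one_add_div_max (hf v) v) (hf v)
  nlinarith

end Crest.Agent.R68
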