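import Mathlib
import Crest.Prelude.Def_HardSphereBoltzmann
import Crest.Agent.R68.E1

/-!
Row 68, part E: periodic shifts as measure preserving maps of `cell × R3` and `(0,T) × cell × R3`.
-/

set_option autoImplicit false
open MeasureTheory Set
open scoped ENNReal NNReal Pointwise
open Crest.AnalysisR.VecCalc3 Crest.AnalysisR.PDE.Boltzmann

namespace Crest.Agent.R68E

/-- coordinatewise fractional part. -/
noncomputable def fr (x : R3) : R3 := WithLp.toLp 2 (fun i => Int.fract (x i))

lemma fr_apply (x : R3) (i : Fin 3) : fr x i = Int.fract (x i) := rfl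

lemma fr_mem (x : R3) : fr x ∈ cell := fun _ => ⟨Int.fract_nonneg _, Int.fract_lt_one _⟩

lemma fr_of_mem {x : R3} (hx : x ∈ cell) : fr x = x := by
  ext i
  rw [fr_apply]
  exact Int.fract_eq_self.2 ⟨(hx i).1, (hx i).2⟩

lemma measurable_fr : Measurable fr := by
  unfold fr
  refine (WithLp.measurable_toLp 2 _).comp (measurable_pi_iff.2 fun i => ?_)
  exact measurable_fract.comp ((EuclideanSpace.proj i : R3 →L[ℝ] ℝ).continuous.measurable)

lemma measurableSet_cell : MeasurableSet cell := by
  have : cell = ⋂ i : Fin 3, {x : R3 | x i ∈ Ico (0 : ℝ) 1} := by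
    ext x; simp [cell]
  rw [this]
  refine MeasurableSet.iInter fun i => ?_
  exact ((EuclideanSpace.proj i : R3 →L[ℝ] ℝ).continuous.measurable) measurableSet_Ico

lemma sub_fr (x : R3) : x - fr x = ∑ i : Fin 3, (⌊x i⌋ : ℤ) • (EuclideanSpace.single i (1 : ℝ)) := by
  have h1 : ∀ j : Fin 3, (x - fr x) j = (⌊x j⌋ : ℝ) := by
    intro j
    rw [PiLp.sub_apply, fr_apply]
    have := Int.floor_add_fract (x j)
    linarith
  ext j
  rw [h1 j, Fin.sum_univ_three]
  fin_cases j <;> simp

lemma per_fr {α : Type*} {f : R3 → α} (hf : IsPeriodic3 f) (x : R3) : f (fr x) = f x := by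
  have h : ∀ (i : Fin 3) (n : ℤ) (y : R3), f (y + n • EuclideanSpace.single i (1 : ℝ)) = f y := by
    intro i n y
    have hp : Function.Periodic f (EuclideanSpace.single i (1 : ℝ)) := fun z => hf z i
    exact hp.zsmul n y
  have hx : x = fr x + ∑ i : Fin 3, (⌊x i⌋ : ℤ) • (EuclideanSpace.single i (1 : ℝ)) := by
    rw [← sub_fr]; abel
  conv_rhs => rw [hx]
  rw [Fin.sum_univ_three, ← add_assoc, ← add_assoc, h, h, h]

lemma fr_per : IsPeriodic3 fr := by
  intro x i
  ext j
  simp only [fr_apply, PiLp.add_apply, PiLp.single_apply]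
  split_ifs
  · exact Int.fract_add_one _
  · simp

lemma cell_eq : cell = ZSpan.fundamentalDomain (EuclideanSpace.basisFun (Fin 3) ℝ).toBasis := by
  ext x
  simp [cell, ZSpan.mem_fundamentalDomain]

lemma mp_shift (a : R3) : MeasurePreserving (fun x : R3 => fr (x + a))
    (volume.restrict cell) (volume.restrict cell) := by
  have hmeas : Measurable (fun x : R3 => fr (x + a)) := measurable_fr.comp (by fun_prop)
  refine ⟨hmeas, ?_⟩
  ext A hA
  rw [Measure.map_apply hmeas hA, Measure.restrict_apply (hmeas hA), Measure.restrict_apply hA]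
  set B : Set R3 := fr ⁻¹' A with hB
  have hBm : MeasurableSet B := measurable_fr hA
  have h1 : (fun x : R3 => fr (x + a)) ⁻¹' A ∩ cell = (fun x => x + a) ⁻¹' (B ∩ (a +ᵥ cell)) := by
    ext x
    simp only [mem_inter_iff, mem_preimage, hB, mem_vadd_set_iff_neg_vadd_mem, vadd_eq_add]
    rw [show -a + (x + a) = x by abel]
  have h2 : A ∩ cell = B ∩ cell := by
    ext x
    simp only [mem_inter_iff, mem_preimage, hB]
    constructor
    · rintro ⟨h, h'⟩; exact ⟨by rw [fr_of_mem h']; exact h, h'⟩
    · rintro ⟨h, h'⟩; exact ⟨by rw [fr_of_mem h'] at h; exact h, h'⟩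
  rw [h1, h2, measure_preimage_add_right]
  have hd : IsAddFundamentalDomain
      (Submodule.span ℤ (Set.range (EuclideanSpace.basisFun (Fin 3) ℝ).toBasis)).toAddSubgroup cell
      (volume : Measure R3) := by
    rw [cell_eq]
    exact ZSpan.isAddFundamentalDomain' _ _
  have : Countable (Submodule.span ℤ
      (Set.range (EuclideanSpace.basisFun (Fin 3) ℝ).toBasis)).toAddSubgroup :=
    inferInstanceAs (Countable (Submodule.span ℤ
      (Set.range (EuclideanSpace.basisFun (Fin 3) ℝ).toBasis)))
  have hd2 := hd.vadd_of_comm a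
  refine hd2.measure_set_eq hd hBm ?_
  intro g
  ext x
  simp only [mem_preimage, hB]
  have hg : fr (g +ᵥ x) = fr x := by
    have hper : ∀ g ∈ Submodule.span ℤ (Set.range (EuclideanSpace.basisFun (Fin 3) ℝ).toBasis),
        ∀ x : R3, fr (g + x) = fr x := by
      intro g hg
      induction hg using Submodule.span_induction with
      | mem y hy =>
        obtain ⟨i, rfl⟩ := hy
        intro x
        rw [add_comm]
        simpa using fr_per x i
      | zero => intro x; rw [zero_add]
      | add y z _ _ hy hz => intro x; rw [add_assoc, hy, hz]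
      | smul n y _ hy =>
        intro x
        have hp : Function.Periodic fr y := fun z => by rw [add_comm]; exact hy z
        rw [add_comm]
        exact hp.zsmul n x
    exact hper g.1 g.2 x
  rw [hg]

/-- reference measure on `cell × R3`. -/
noncomputable def mu2 : Measure (R3 × R3) := (volume.restrict cell).prod volume

lemma mu2_eq : (volume : Measure (R3 × R3)).restrict (cell ×ˢ univ) = mu2 := by
  rw [mu2, Measure.volume_eq_prod, ← Measure.prod_restrict, Measure.restrict_univ]

instance sfin_mu2 : SFinite mu2 := by unfold mu2; infer_instance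
instance sigf_mu2 : SigmaFinite mu2 := by unfold mu2; infer_instance

/-- the flow map on `cell × R3`. -/
noncomputable def fl (t : ℝ) (q : R3 × R3) : R3 × R3 := (fr (q.1 + t • q.2), q.2)

lemma measurable_fl_joint : Measurable fun p : ℝ × (R3 × R3) => fl p.1 p.2 := by
  unfold fl
  refine (measurable_fr.comp ?_).prodMk (by fun_prop)
  fun_prop

lemma mp_fl (t : ℝ) : MeasurePreserving (fl t) mu2 mu2 := by
  have h1 : MeasurePreserving (fun p : R3 × R3 => (p.1, fr (p.2 + t • p.1)))
      ((volume : Measure R3).prod (volume.restrict cell))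
      ((volume : Measure R3).prod (volume.restrict cell)) := by
    refine (MeasurePreserving.id _).skew_product (g := fun v x => fr (x + t • v)) ?_ ?_
    · exact measurable_fr.comp (by fun_prop)
    · exact Filter.Eventually.of_forall fun v => (mp_shift (t • v)).map_eq
  have h2 : MeasurePreserving (Prod.swap : R3 × R3 → R3 × R3)
      mu2 ((volume : Measure R3).prod (volume.restrict cell)) := Measure.measurePreserving_swap
  have h3 : MeasurePreserving (Prod.swap : R3 × R3 → R3 × R3)
      ((volume : Measure R3).prod (volume.restrict cell)) mu2 := Measure.measurePreserving_swap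
  exact h3.comp (h1.comp h2)

/-- the space-time flow map. -/
noncomputable def Fl (p : ℝ × (R3 × R3)) : ℝ × (R3 × R3) := (p.1, fl p.1 p.2)

/-- reference measure on `(0,T) × cell × R3`. -/
noncomputable def mu3 (T : ℝ) : Measure (ℝ × (R3 × R3)) := (volume.restrict (Ioo 0 T)).prod mu2

instance sfin_mu3 (T : ℝ) : SFinite (mu3 T) := by unfold mu3; infer_instance
instance sigf_mu3 (T : ℝ) : SigmaFinite (mu3 T) := by unfold mu3; infer_instance

lemma mu3_eq (T : ℝ) :
    (volume : Measure (ℝ × (R3 × R3))).restrict (Ioo 0 T ×ˢ (cell ×ˢ univ)) = mu3 T := by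
  rw [mu3, ← mu2_eq, Measure.prod_restrict, ← Measure.volume_eq_prod]

lemma mp_Fl (T : ℝ) : MeasurePreserving Fl (mu3 T) (mu3 T) := by
  refine (MeasurePreserving.id _).skew_product (g := fun t q => fl t q) ?_ ?_
  · exact measurable_fl_joint
  · exact Filter.Eventually.of_forall fun t => (mp_fl t).map_eq

lemma per_fl {α : Type*} {f : R3 → R3 → α} (hf : ∀ v, IsPeriodic3 (fun x => f x v)) (t : ℝ)
    (q : R3 × R3) : f (fl t q).1 (fl t q).2 = f (q.1 + t • q.2) q.2 :=
  per_fr (hf q.2) _

end Crest.Agent.R68E
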