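import Crest.Agent.R68.EWeak

/-!
R68 / EEnt1: pointwise inequalities for the entropy production (helper211, Part E).
-/

set_option autoImplicit false
open MeasureTheory
open scoped ENNReal
open Crest.AnalysisR.VecCalc3 Crest.AnalysisR.PDE.Boltzmann

namespace Crest.Agent.R68

/-- the sign lemma: the negative part of `(A-B) log (A'/B')` is bounded by `(A'-A)+(B'-B)`. -/
theorem sign_lemma {A B A' B' : ℝ} (hA : 0 ≤ A) (hB : 0 ≤ B) (hAA : A ≤ A') (hBB : B ≤ B')
    (hA' : 0 < A') (hB' : 0 < B') :
    0 ≤ (A - B) * (Real.log A' - Real.log B') + ((A' - A) + (B' - B)) := by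
  rcases le_total B A with h | h
  · rcases le_total B' A' with h' | h'
    · have : Real.log B' ≤ Real.log A' := Real.log_le_log hB' h'
      nlinarith [mul_nonneg (sub_nonneg.2 h) (sub_nonneg.2 this)]
    · -- A ≥ B, A' ≤ B'
      have h1 : Real.log B' - Real.log A' ≤ (B' - A') / A' := by
        rw [← Real.log_div hB'.ne' hA'.ne']
        have := Real.log_le_sub_one_of_pos (div_pos hB' hA')
        have e : (B' - A') / A' = B' / A' - 1 := by field_simp
        rw [e]; exact this
      have h2 : (A - B) * (Real.log B' - Real.log A') ≤ B' - A' := by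
        have h3 : 0 ≤ A - B := sub_nonneg.2 h
        calc (A - B) * (Real.log B' - Real.log A') ≤ (A - B) * ((B' - A') / A') :=
              mul_le_mul_of_nonneg_left h1 h3
          _ ≤ A' * ((B' - A') / A') := by
              refine mul_le_mul_of_nonneg_right (by linarith) ?_
              exact div_nonneg (sub_nonneg.2 h') hA'.le
          _ = B' - A' := by field_simp
      nlinarith
  · rcases le_total A' B' with h' | h'
    · have : Real.log A' ≤ Real.log B' := Real.log_le_log hA' h'
      nlinarith [mul_nonneg (sub_nonneg.2 h) (sub_nonneg.2 this)]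
    · have h1 : Real.log A' - Real.log B' ≤ (A' - B') / B' := by
        rw [← Real.log_div hA'.ne' hB'.ne']
        have := Real.log_le_sub_one_of_pos (div_pos hA' hB')
        have e : (A' - B') / B' = A' / B' - 1 := by field_simp
        rw [e]; exact this
      have h2 : (B - A) * (Real.log A' - Real.log B') ≤ A' - B' := by
        have h3 : 0 ≤ B - A := sub_nonneg.2 h
        calc (B - A) * (Real.log A' - Real.log B') ≤ (B - A) * ((A' - B') / B') :=
              mul_le_mul_of_nonneg_left h1 h3
          _ ≤ B' * ((A' - B') / B') := by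
              refine mul_le_mul_of_nonneg_right (by linarith) ?_
              exact div_nonneg (sub_nonneg.2 h') hB'.le
          _ = A' - B' := by field_simp
      nlinarith

theorem maxwellian_pos (v : R3) : 0 < maxwellian v := by
  unfold maxwellian; positivity

theorem continuous_maxwellian : Continuous maxwellian := by
  unfold maxwellian
  fun_prop

@[fun_prop]
theorem measurable_maxwellian : Measurable maxwellian := continuous_maxwellian.measurable

theorem maxwellian_post {w : R3} (hw : ‖w‖ = 1) (v vs : R3) :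
    maxwellian (postVel v vs w) * maxwellian (postVelStar v vs w) =
      maxwellian v * maxwellian vs := by
  unfold maxwellian
  have h := post_norm_sq hw v vs
  have e : ∀ a b : ℝ, ((2 * Real.pi) ^ (-(3 / 2 : ℝ)) * Real.exp a) *
      ((2 * Real.pi) ^ (-(3 / 2 : ℝ)) * Real.exp b) =
      ((2 * Real.pi) ^ (-(3 / 2 : ℝ))) ^ 2 * Real.exp (a + b) := by
    intro a b; rw [Real.exp_add]; ring
  rw [e, e]
  congr 2
  linarith

/-- `Φ_δ(v) = log (f(v)/M(v) + δ)` -/
noncomputable def Phi (d : ℝ) (f : R3 → ℝ) (v : R3) : ℝ := Real.log (f v / maxwellian v + d)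

/-- the regularised entropy density `M h(f/M+δ)`, `h(z) = z log z - z + 1` -/
noncomputable def entD (d : ℝ) (z m : ℝ) : ℝ :=
  m * ((z / m + d) * Real.log (z / m + d) - (z / m + d) + 1)

/-- `B̃ - B` for the pair `(v, v⋆)`: `δ (M f⋆ + M⋆ f) + δ² M M⋆` -/
noncomputable def excess (d : ℝ) (f : R3 → ℝ) (v vs : R3) : ℝ :=
  d * (maxwellian v * f vs + maxwellian vs * f v) + d ^ 2 * (maxwellian v * maxwellian vs)

theorem excess_nonneg {d : ℝ} (hd : 0 ≤ d) {f : R3 → ℝ} (hf : ∀ v, 0 ≤ f v) (v vs : R3) :
    0 ≤ excess d f v vs := by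
  unfold excess
  have := (maxwellian_pos v).le
  have := (maxwellian_pos vs).le
  have := hf v
  have := hf vs
  positivity

/-- the regularised product -/
theorem regprod (d : ℝ) (f : R3 → ℝ) (v vs : R3) :
    (f v + d * maxwellian v) * (f vs + d * maxwellian vs) = f v * f vs + excess d f v vs := by
  unfold excess; ring

theorem log_regprod {d : ℝ} (hd : 0 < d) {f : R3 → ℝ} (hf : ∀ v, 0 ≤ f v) (v vs : R3) :
    Real.log ((f v + d * maxwellian v) * (f vs + d * maxwellian vs)) =
      Phi d f v + Phi d f vs + Real.log (maxwellian v * maxwellian vs) := by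
  have h : ∀ u, f u + d * maxwellian u = (f u / maxwellian u + d) * maxwellian u := by
    intro u
    have := (maxwellian_pos u).ne'
    field_simp
  have hp : ∀ u, 0 < f u / maxwellian u + d := by
    intro u
    have := div_nonneg (hf u) (maxwellian_pos u).le
    linarith
  have hM := maxwellian_pos v
  have hMs := maxwellian_pos vs
  rw [h v, h vs, Real.log_mul (mul_pos (hp v) hM).ne' (mul_pos (hp vs) hMs).ne',
    Real.log_mul (hp v).ne' hM.ne', Real.log_mul (hp vs).ne' hMs.ne', Real.log_mul hM.ne' hMs.ne']
  unfold Phi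
  ring

/-- the signed regularised production at `(v,v⋆,ω)`:
`E = (A - B) (Φ' + Φ⋆' - Φ - Φ⋆)`, `A = f' f⋆'`, `B = f f⋆`. -/
noncomputable def prodE (d : ℝ) (f : R3 → ℝ) (v vs w : R3) : ℝ :=
  (f (postVel v vs w) * f (postVelStar v vs w) - f v * f vs) *
    (Phi d f (postVel v vs w) + Phi d f (postVelStar v vs w) - Phi d f v - Phi d f vs)

/-- the error term -/
noncomputable def prodN (d : ℝ) (f : R3 → ℝ) (v vs w : R3) : ℝ :=
  excess d f (postVel v vs w) (postVelStar v vs w) + excess d f v vs

theorem prodN_nonneg {d : ℝ} (hd : 0 ≤ d) {f : R3 → ℝ} (hf : ∀ v, 0 ≤ f v) (v vs w : R3) :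
    0 ≤ prodN d f v vs w :=
  add_nonneg (excess_nonneg hd hf _ _) (excess_nonneg hd hf _ _)

theorem prodE_eq {d : ℝ} (hd : 0 < d) {f : R3 → ℝ} (hf : ∀ v, 0 ≤ f v) (v vs : R3) {w : R3}
    (hw : ‖w‖ = 1) :
    prodE d f v vs w = (f (postVel v vs w) * f (postVelStar v vs w) - f v * f vs) *
      (Real.log (f (postVel v vs w) * f (postVelStar v vs w) +
          excess d f (postVel v vs w) (postVelStar v vs w)) -
        Real.log (f v * f vs + excess d f v vs)) := by
  rw [← regprod, ← regprod, log_regprod hd hf, log_regprod hd hf, maxwellian_post hw]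
  unfold prodE
  ring

theorem excess_pos {d : ℝ} (hd : 0 < d) {f : R3 → ℝ} (hf : ∀ v, 0 ≤ f v) (v vs : R3) :
    0 < excess d f v vs := by
  unfold excess
  have := maxwellian_pos v
  have := maxwellian_pos vs
  have h1 := hf v
  have h2 := hf vs
  have : 0 ≤ d * (maxwellian v * f vs + maxwellian vs * f v) := by positivity
  have : 0 < d ^ 2 * (maxwellian v * maxwellian vs) := by positivity
  linarith

theorem prodE_add_prodN_nonneg {d : ℝ} (hd : 0 < d) {f : R3 → ℝ} (hf : ∀ v, 0 ≤ f v)
    (v vs : R3) {w : R3} (hw : ‖w‖ = 1) :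
    0 ≤ prodE d f v vs w + prodN d f v vs w := by
  rw [prodE_eq hd hf v vs hw]
  unfold prodN
  have h1 := excess_pos hd hf (postVel v vs w) (postVelStar v vs w)
  have h2 := excess_pos hd hf v vs
  have hA : 0 ≤ f (postVel v vs w) * f (postVelStar v vs w) := mul_nonneg (hf _) (hf _)
  have hB : 0 ≤ f v * f vs := mul_nonneg (hf _) (hf _)
  have := sign_lemma hA hB (A' := f (postVel v vs w) * f (postVelStar v vs w) +
    excess d f (postVel v vs w) (postVelStar v vs w)) (B' := f v * f vs + excess d f v vs)
    (by linarith) (by linarith) (by linarith) (by linarith)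
  linarith

end Crest.Agent.R68
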