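import Crest.Agent.R68.EEnt1

/-!
R68 / EEnt2: the symmetrised entropy identity at fixed (t,x) (helper211, Part E).
-/

set_option autoImplicit false
open MeasureTheory
open scoped ENNReal
open Crest.AnalysisR.VecCalc3 Crest.AnalysisR.PDE.Boltzmann

namespace Crest.Agent.R68

theorem measurable_Phi {d : ℝ} {f : R3 → ℝ} (hf : Measurable f) : Measurable (Phi d f) := by
  unfold Phi
  fun_prop

/-- positive part of Φ as ENNReal -/
noncomputable def Pp (d : ℝ) (f : R3 → ℝ) (v : R3) : ℝ≥0∞ := ENNReal.ofReal (Phi d f v)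
/-- negative part of Φ as ENNReal -/
noncomputable def Pm (d : ℝ) (f : R3 → ℝ) (v : R3) : ℝ≥0∞ := ENNReal.ofReal (-Phi d f v)

theorem measurable_Pp {d : ℝ} {f : R3 → ℝ} (hf : Measurable f) : Measurable (Pp d f) :=
  (measurable_Phi hf).ennreal_ofReal
theorem measurable_Pm {d : ℝ} {f : R3 → ℝ} (hf : Measurable f) : Measurable (Pm d f) :=
  (measurable_Phi hf).neg.ennreal_ofReal

/-- `|a| (E + N)` as an ENNReal kernel -/
noncomputable def kEN (d : ℝ) (f : R3 → ℝ) (v vs w : R3) : ℝ≥0∞ :=
  ENNReal.ofReal (|inner ℝ (v - vs) w| * (prodE d f v vs w + prodN d f v vs w))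
/-- `|a| N` as an ENNReal kernel -/
noncomputable def kN (d : ℝ) (f : R3 → ℝ) (v vs w : R3) : ℝ≥0∞ :=
  ENNReal.ofReal (|inner ℝ (v - vs) w| * prodN d f v vs w)

theorem measurable_excess {α : Type*} [MeasurableSpace α] (d : ℝ) {f : R3 → ℝ}
    (hf : Measurable f) {g h : α → R3} (hg : Measurable g) (hh : Measurable h) :
    Measurable (fun a => excess d f (g a) (h a)) := by
  unfold excess
  fun_prop

theorem measK_kN (d : ℝ) {f : R3 → ℝ} (hf : Measurable f) : MeasK (kN d f) := by
  unfold MeasK kN prodN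
  refine Measurable.ennreal_ofReal ?_
  refine Measurable.mul (by fun_prop) (Measurable.add ?_ ?_)
  · exact measurable_excess d hf (Measurable.postVel (by fun_prop) (by fun_prop) (by fun_prop))
      (Measurable.postVelStar (by fun_prop) (by fun_prop) (by fun_prop))
  · exact measurable_excess d hf (by fun_prop) (by fun_prop)

theorem measurable_prodE (d : ℝ) {f : R3 → ℝ} (hf : Measurable f) :
    Measurable (fun q : R3 × R3 × R3 => prodE d f q.1 q.2.1 q.2.2) := by
  have h1 : Measurable (fun q : R3 × R3 × R3 => postVel q.1 q.2.1 q.2.2) := by fun_prop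
  have h2 : Measurable (fun q : R3 × R3 × R3 => postVelStar q.1 q.2.1 q.2.2) := by fun_prop
  have hP := measurable_Phi (d := d) hf
  unfold prodE
  refine Measurable.mul (Measurable.sub ((hf.comp h1).mul (hf.comp h2)) (by fun_prop)) ?_
  exact (((hP.comp h1).add (hP.comp h2)).sub (hP.comp measurable_fst)).sub
    (hP.comp (measurable_fst.comp measurable_snd))

theorem measK_kEN (d : ℝ) {f : R3 → ℝ} (hf : Measurable f) : MeasK (kEN d f) := by
  unfold MeasK kEN
  refine Measurable.ennreal_ofReal ?_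
  refine Measurable.mul (by fun_prop) (Measurable.add (measurable_prodE d hf) ?_)
  unfold prodN
  refine Measurable.add ?_ ?_
  · exact measurable_excess d hf (Measurable.postVel (by fun_prop) (by fun_prop) (by fun_prop))
      (Measurable.postVelStar (by fun_prop) (by fun_prop) (by fun_prop))
  · exact measurable_excess d hf (by fun_prop) (by fun_prop)

theorem four_gain {F : ℝ → R3 → R3 → ℝ} {t : ℝ} {x : R3} (hf : Measurable (F t x))
    {φ : R3 → ℝ≥0∞} (hφ : Measurable φ) :
    4 * ∫⁻ v, φ v * collGain F t x v =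
      tri (fun v vs w => (φ (postVel v vs w) + φ (postVelStar v vs w)) * bff (F t x) v vs w) +
      tri (fun v vs w => (φ v + φ vs) *
        bff (F t x) (postVel v vs w) (postVelStar v vs w) w) := by
  have hp : MeasK (fun v vs w => (φ (postVel v vs w) + φ (postVelStar v vs w)) *
        bff (F t x) v vs w) := by
    refine MeasK.mul (MeasK.add ?_ ?_) (measK_bff hf)
    · exact hφ.comp (Measurable.postVel (by fun_prop) (by fun_prop) (by fun_prop))
    · exact hφ.comp (Measurable.postVelStar (by fun_prop) (by fun_prop) (by fun_prop))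
  have e : tri (fun v vs w => (φ v + φ vs) *
        bff (F t x) (postVel v vs w) (postVelStar v vs w) w) =
      tri (fun v vs w => (φ (postVel v vs w) + φ (postVelStar v vs w)) * bff (F t x) v vs w) := by
    rw [← tri_post hp]
    refine tri_congr fun v vs w hw => ?_
    rw [postVel_post hw, postVelStar_post hw]
  rw [e, ← two_gain hf hφ]
  ring

theorem four_loss {F : ℝ → R3 → R3 → ℝ} {t : ℝ} {x : R3} (hf : Measurable (F t x))
    {φ : R3 → ℝ≥0∞} (hφ : Measurable φ) :
    4 * ∫⁻ v, φ v * collLoss F t x v =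
      tri (fun v vs w => (φ v + φ vs) * bff (F t x) v vs w) +
      tri (fun v vs w => (φ (postVel v vs w) + φ (postVelStar v vs w)) *
        bff (F t x) (postVel v vs w) (postVelStar v vs w) w) := by
  have hp : MeasK (fun v vs w => (φ v + φ vs) * bff (F t x) v vs w) :=
    MeasK.mul (MeasK.add (measK_fst hφ) (measK_snd hφ)) (measK_bff hf)
  rw [tri_post hp, ← two_loss hf hφ]
  ring

theorem ofReal_split (x : ℝ) : ENNReal.ofReal x = ENNReal.ofReal (max x 0) := by
  rcases le_total x 0 with h | h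
  · rw [max_eq_right h, ENNReal.ofReal_of_nonpos h, ENNReal.ofReal_zero]
  · rw [max_eq_left h]

/-- real algebra behind the pointwise identity -/
theorem alg_pointwise (a A B N p1 p2 p3 p4 n1 n2 n3 n4 : ℝ) :
    a * ((A - B) * ((p1 - n1) + (p2 - n2) - (p3 - n3) - (p4 - n4)) + N) +
      (((p1 + p2) * (a * B) + (p3 + p4) * (a * A)) + ((n3 + n4) * (a * B) + (n1 + n2) * (a * A))) =
    a * N + (((p3 + p4) * (a * B) + (p1 + p2) * (a * A)) +
      ((n1 + n2) * (a * B) + (n3 + n4) * (a * A))) := by
  ring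

theorem pointwise_ident {d : ℝ} (hd : 0 < d) {f : R3 → ℝ} (hf0 : ∀ v, 0 ≤ f v)
    (v vs : R3) {w : R3} (hw : ‖w‖ = 1) :
    kEN d f v vs w +
      (((Pp d f (postVel v vs w) + Pp d f (postVelStar v vs w)) * bff f v vs w +
        (Pp d f v + Pp d f vs) * bff f (postVel v vs w) (postVelStar v vs w) w) +
       ((Pm d f v + Pm d f vs) * bff f v vs w +
        (Pm d f (postVel v vs w) + Pm d f (postVelStar v vs w)) *
          bff f (postVel v vs w) (postVelStar v vs w) w)) =
    kN d f v vs w +
      (((Pp d f v + Pp d f vs) * bff f v vs w +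
        (Pp d f (postVel v vs w) + Pp d f (postVelStar v vs w)) *
          bff f (postVel v vs w) (postVelStar v vs w) w) +
       ((Pm d f (postVel v vs w) + Pm d f (postVelStar v vs w)) * bff f v vs w +
        (Pm d f v + Pm d f vs) * bff f (postVel v vs w) (postVelStar v vs w) w)) := by
  rw [bff_post f hw]
  have ha : 0 ≤ |(inner ℝ (v - vs) w : ℝ)| := abs_nonneg _
  set a : ℝ := |(inner ℝ (v - vs) w : ℝ)| with ha_def
  have hb : bff f v vs w = ENNReal.ofReal (a * (f v * f vs)) := by
    unfold bff; rw [mul_assoc]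
  have hb' : ENNReal.ofReal (a * f (postVel v vs w) * f (postVelStar v vs w)) =
      ENNReal.ofReal (a * (f (postVel v vs w) * f (postVelStar v vs w))) := by
    rw [mul_assoc]
  rw [hb, hb']
  set v' := postVel v vs w with hv'
  set vs' := postVelStar v vs w with hvs'
  have hA : 0 ≤ f v' * f vs' := mul_nonneg (hf0 _) (hf0 _)
  have hB : 0 ≤ f v * f vs := mul_nonneg (hf0 _) (hf0 _)
  have hEN : 0 ≤ prodE d f v vs w + prodN d f v vs w := prodE_add_prodN_nonneg hd hf0 v vs hw
  have hN : 0 ≤ prodN d f v vs w := prodN_nonneg hd.le hf0 v vs w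
  have hpm : ∀ u, Phi d f u = max (Phi d f u) 0 - max (-Phi d f u) 0 := by
    intro u
    rcases le_total (Phi d f u) 0 with h | h
    · rw [max_eq_right h, max_eq_left (by linarith)]; ring
    · rw [max_eq_left h, max_eq_right (by linarith)]; ring
  have hPp : ∀ u, Pp d f u = ENNReal.ofReal (max (Phi d f u) 0) := fun u => ofReal_split _
  have hPm : ∀ u, Pm d f u = ENNReal.ofReal (max (-Phi d f u) 0) := fun u => ofReal_split _
  have hE : prodE d f v vs w = (f v' * f vs' - f v * f vs) *
      ((max (Phi d f v') 0 - max (-Phi d f v') 0) + (max (Phi d f vs') 0 - max (-Phi d f vs') 0) -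
       (max (Phi d f v) 0 - max (-Phi d f v) 0) - (max (Phi d f vs) 0 - max (-Phi d f vs) 0)) := by
    unfold prodE
    rw [← hpm v', ← hpm vs', ← hpm v, ← hpm vs]
  unfold kEN kN
  rw [← ha_def, hPp v', hPp vs', hPp v, hPp vs, hPm v', hPm vs', hPm v, hPm vs]
  have q1 : 0 ≤ max (Phi d f v') 0 := le_max_right _ _
  have q2 : 0 ≤ max (Phi d f vs') 0 := le_max_right _ _
  have q3 : 0 ≤ max (Phi d f v) 0 := le_max_right _ _
  have q4 : 0 ≤ max (Phi d f vs) 0 := le_max_right _ _
  have r1 : 0 ≤ max (-Phi d f v') 0 := le_max_right _ _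
  have r2 : 0 ≤ max (-Phi d f vs') 0 := le_max_right _ _
  have r3 : 0 ≤ max (-Phi d f v) 0 := le_max_right _ _
  have r4 : 0 ≤ max (-Phi d f vs) 0 := le_max_right _ _
  have haA : 0 ≤ a * (f v' * f vs') := mul_nonneg ha hA
  have haB : 0 ≤ a * (f v * f vs) := mul_nonneg ha hB
  have haEN : 0 ≤ a * (prodE d f v vs w + prodN d f v vs w) := mul_nonneg ha hEN
  have haN : 0 ≤ a * prodN d f v vs w := mul_nonneg ha hN
  rw [← ENNReal.ofReal_add q1 q2, ← ENNReal.ofReal_add q3 q4, ← ENNReal.ofReal_add r1 r2,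
    ← ENNReal.ofReal_add r3 r4, ← ENNReal.ofReal_mul (add_nonneg q1 q2),
    ← ENNReal.ofReal_mul (add_nonneg q1 q2), ← ENNReal.ofReal_mul (add_nonneg q3 q4),
    ← ENNReal.ofReal_mul (add_nonneg q3 q4), ← ENNReal.ofReal_mul (add_nonneg r1 r2),
    ← ENNReal.ofReal_mul (add_nonneg r1 r2), ← ENNReal.ofReal_mul (add_nonneg r3 r4),
    ← ENNReal.ofReal_mul (add_nonneg r3 r4)]
  rw [← ENNReal.ofReal_add (by positivity) (by positivity),
    ← ENNReal.ofReal_add (by positivity) (by positivity),
    ← ENNReal.ofReal_add (by positivity) (by positivity),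
    ← ENNReal.ofReal_add haEN (by positivity),
    ← ENNReal.ofReal_add (by positivity) (by positivity),
    ← ENNReal.ofReal_add (by positivity) (by positivity),
    ← ENNReal.ofReal_add (by positivity) (by positivity),
    ← ENNReal.ofReal_add haN (by positivity)]
  congr 1
  rw [hE]
  ring

/-- **Entropy identity at fixed (t,x)** in ENNReal form (no finiteness needed). -/
theorem entropy_ident {F : ℝ → R3 → R3 → ℝ} {t : ℝ} {x : R3} (hf : Measurable (F t x))
    (hf0 : ∀ v, 0 ≤ F t x v) {d : ℝ} (hd : 0 < d) :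
    tri (kEN d (F t x)) + 4 * ((∫⁻ v, Pp d (F t x) v * collGain F t x v) +
        ∫⁻ v, Pm d (F t x) v * collLoss F t x v) =
    tri (kN d (F t x)) + 4 * ((∫⁻ v, Pp d (F t x) v * collLoss F t x v) +
        ∫⁻ v, Pm d (F t x) v * collGain F t x v) := by
  have hp := measurable_Pp (d := d) hf
  have hm := measurable_Pm (d := d) hf
  rw [mul_add, mul_add, four_gain hf hp, four_loss hf hm, four_loss hf hp, four_gain hf hm]
  set f := F t x with hfdef
  have mb : MeasK (bff f) := measK_bff hf
  have mb' : MeasK (fun v vs w => bff f (postVel v vs w) (postVelStar v vs w) w) := mb.post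
  have ms : ∀ {χ : R3 → ℝ≥0∞}, Measurable χ → MeasK (fun v vs _ => χ v + χ vs) := fun hχ =>
    MeasK.add (measK_fst hχ) (measK_snd hχ)
  have mp : ∀ {χ : R3 → ℝ≥0∞}, Measurable χ →
      MeasK (fun v vs w => χ (postVel v vs w) + χ (postVelStar v vs w)) := fun hχ =>
    (ms hχ).post
  rw [← tri_add ((mp hp).mul mb), ← tri_add ((ms hm).mul mb),
    ← tri_add (((mp hp).mul mb).add ((ms hp).mul mb')), ← tri_add (measK_kEN d hf),
    ← tri_add ((ms hp).mul mb), ← tri_add ((mp hm).mul mb),
    ← tri_add (((ms hp).mul mb).add ((mp hp).mul mb')), ← tri_add (measK_kN d hf)]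
  exact tri_congr fun v vs w hw => pointwise_ident hd hf0 v vs hw

end Crest.Agent.R68
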