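import Crest.Agent.R68.EEnt3
import Crest.Agent.R68.EHyp

/-!
R68 / EEnt4: Fatou for the dissipation, error term (helper211, Part E).
-/

set_option autoImplicit false
open MeasureTheory Filter Topology
open scoped ENNReal
open Crest.AnalysisR.VecCalc3 Crest.AnalysisR.PDE.Boltzmann

namespace Crest.Agent.R68

theorem measurable_tri {α : Type*} [MeasurableSpace α] {K : α → R3 → R3 → R3 → ℝ≥0∞}
    (hK : Measurable (fun q : α × R3 × R3 × R3 => K q.1 q.2.1 q.2.2.1 q.2.2.2)) :
    Measurable (fun a => tri (K a)) := by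
  unfold tri
  refine Measurable.lintegral_prod_right' (f := fun q : α × R3 =>
    ∫⁻ p : R3 × R3, K q.1 p.1 p.2 q.2 ∂volume) ?_
  refine Measurable.lintegral_prod_right' (f := fun q : (α × R3) × (R3 × R3) =>
    K q.1.1 q.2.1 q.2.2 q.1.2) ?_
  exact hK.comp (g := fun q : α × R3 × R3 × R3 => K q.1 q.2.1 q.2.2.1 q.2.2.2)
    (f := fun q : (α × R3) × (R3 × R3) => (q.1.1, q.2.1, q.2.2, q.1.2)) (by fun_prop)

theorem tri_liminf {K : ℕ → R3 → R3 → R3 → ℝ≥0∞} (hK : ∀ n, MeasK (K n)) :
    tri (fun v vs w => liminf (fun n => K n v vs w) atTop) ≤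
      liminf (fun n => tri (K n)) atTop := by
  unfold tri
  calc ∫⁻ w, ∫⁻ p : R3 × R3, liminf (fun n => K n p.1 p.2 w) atTop ∂volume ∂sphereMeasure
      ≤ ∫⁻ w, liminf (fun n => ∫⁻ p : R3 × R3, K n p.1 p.2 w ∂volume) atTop ∂sphereMeasure := by
        refine lintegral_mono fun w => ?_
        exact lintegral_liminf_le fun n => (hK n).comp (by fun_prop) (by fun_prop) (by fun_prop)
    _ ≤ liminf (fun n => ∫⁻ w, ∫⁻ p : R3 × R3, K n p.1 p.2 w ∂volume ∂sphereMeasure) atTop := by
        refine lintegral_liminf_le fun n => ?_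
        refine Measurable.lintegral_prod_right' (f := fun q : R3 × (R3 × R3) =>
          K n q.2.1 q.2.2 q.1) ?_
        exact (hK n).comp (by fun_prop) (by fun_prop) (by fun_prop)

/-- dissipation kernel -/
noncomputable def kD (f : R3 → ℝ) (v vs w : R3) : ℝ≥0∞ :=
  ENNReal.ofReal |inner ℝ (v - vs) w| *
      pairDissipation (f (postVel v vs w) * f (postVelStar v vs w)) (f v * f vs)

theorem measurable_kD {α : Type*} [MeasurableSpace α] {g : α → R3 → ℝ}
    (hg : Measurable (fun q : α × R3 => g q.1 q.2)) :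
    Measurable (fun q : α × R3 × R3 × R3 => kD (g q.1) q.2.1 q.2.2.1 q.2.2.2) := by
  have hc : ∀ {h : α × R3 × R3 × R3 → R3}, Measurable h →
      Measurable (fun q : α × R3 × R3 × R3 => g q.1 (h q)) := by
    intro h hh
    exact hg.comp (g := fun q : α × R3 => g q.1 q.2) (f := fun q => (q.1, h q)) (by fun_prop)
  have h1 : Measurable (fun q : α × R3 × R3 × R3 => postVel q.2.1 q.2.2.1 q.2.2.2) :=
    Measurable.postVel (by fun_prop) (by fun_prop) (by fun_prop)
  have h2 : Measurable (fun q : α × R3 × R3 × R3 => postVelStar q.2.1 q.2.2.1 q.2.2.2) :=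
    Measurable.postVelStar (by fun_prop) (by fun_prop) (by fun_prop)
  unfold kD
  refine Measurable.mul (by fun_prop) ?_
  exact measurable_pairDissipation.comp (g := fun p : ℝ × ℝ => pairDissipation p.1 p.2)
    ((Measurable.mul (hc h1) (hc h2)).prodMk (Measurable.mul (hc (by fun_prop)) (hc (by fun_prop))))

theorem tri_kD_le {d : ℕ → ℝ} (hd : ∀ n, 0 < d n) (hd0 : Tendsto d atTop (𝓝 0)) {f : R3 → ℝ}
    (hm : Measurable f) (hf : ∀ v, 0 ≤ f v) :
    tri (kD f) ≤ liminf (fun n => tri (kEN (d n) f)) atTop := by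
  refine (tri_mono fun v vs w hw => liminf_kEN hd hd0 hf v vs hw).trans ?_
  exact tri_liminf fun n => measK_kEN (d n) hm

/-- the dissipation through `tri` -/
theorem dissipation_eq {f : R3 → R3 → ℝ} (hf : Measurable (fun q : R3 × R3 => f q.1 q.2)) :
    dissipation f = 4⁻¹ * ∫⁻ x in cell, tri (kD (f x)) := by
  unfold dissipation
  congr 1
  have hK : Measurable (fun q : (R3 × R3) × R3 × R3 =>
      ENNReal.ofReal |inner ℝ (q.1.2 - q.2.1) q.2.2| *
      pairDissipation (f q.1.1 (postVel q.1.2 q.2.1 q.2.2) *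
        f q.1.1 (postVelStar q.1.2 q.2.1 q.2.2)) (f q.1.1 q.1.2 * f q.1.1 q.2.1)) := by
    have := measurable_kD (α := R3) (g := f) hf
    exact this.comp (g := fun q : R3 × R3 × R3 × R3 => kD (f q.1) q.2.1 q.2.2.1 q.2.2.2)
      (f := fun q : (R3 × R3) × R3 × R3 => (q.1.1, q.1.2, q.2.1, q.2.2)) (by fun_prop)
  have hG : Measurable (fun q : R3 × R3 => ∫⁻ vs, ∫⁻ w,
      ENNReal.ofReal |inner ℝ (q.2 - vs) w| *
      pairDissipation (f q.1 (postVel q.2 vs w) * f q.1 (postVelStar q.2 vs w))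
        (f q.1 q.2 * f q.1 vs) ∂sphereMeasure) := by
    refine Measurable.lintegral_prod_right' (f := fun q : (R3 × R3) × R3 => ∫⁻ w,
      ENNReal.ofReal |inner ℝ (q.1.2 - q.2) w| *
      pairDissipation (f q.1.1 (postVel q.1.2 q.2 w) * f q.1.1 (postVelStar q.1.2 q.2 w))
        (f q.1.1 q.1.2 * f q.1.1 q.2) ∂sphereMeasure) ?_
    refine Measurable.lintegral_prod_right' (f := fun q : ((R3 × R3) × R3) × R3 =>
      ENNReal.ofReal |inner ℝ (q.1.1.2 - q.1.2) q.2| *
      pairDissipation (f q.1.1.1 (postVel q.1.1.2 q.1.2 q.2) *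
        f q.1.1.1 (postVelStar q.1.1.2 q.1.2 q.2)) (f q.1.1.1 q.1.1.2 * f q.1.1.1 q.1.2)) ?_
    exact hK.comp (f := fun q : ((R3 × R3) × R3) × R3 => (q.1.1, q.1.2, q.2)) (by fun_prop)
  have h := lintegral_muC' hG
  unfold muC at h
  rw [h]
  refine lintegral_congr fun x => ?_
  exact lintegral_tri (K := kD (f x)) ((measurable_kD (α := R3) (g := f) hf).comp
    (f := fun q : R3 × R3 × R3 => (x, q.1, q.2.1, q.2.2)) (by fun_prop))

/-- joint measurability in a parameter of `kEN`, `kN` -/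
theorem measurable_kEN_par {α : Type*} [MeasurableSpace α] (d : ℝ) {g : α → R3 → ℝ}
    (hg : Measurable (fun q : α × R3 => g q.1 q.2)) :
    Measurable (fun q : α × R3 × R3 × R3 => kEN d (g q.1) q.2.1 q.2.2.1 q.2.2.2) := by
  have hc : ∀ {h : α × R3 × R3 × R3 → R3}, Measurable h →
      Measurable (fun q : α × R3 × R3 × R3 => g q.1 (h q)) := by
    intro h hh
    exact hg.comp (g := fun q : α × R3 => g q.1 q.2) (f := fun q => (q.1, h q)) (by fun_prop)
  have h1 : Measurable (fun q : α × R3 × R3 × R3 => postVel q.2.1 q.2.2.1 q.2.2.2) :=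
    Measurable.postVel (by fun_prop) (by fun_prop) (by fun_prop)
  have h2 : Measurable (fun q : α × R3 × R3 × R3 => postVelStar q.2.1 q.2.2.1 q.2.2.2) :=
    Measurable.postVelStar (by fun_prop) (by fun_prop) (by fun_prop)
  have h3 : Measurable (fun q : α × R3 × R3 × R3 => q.2.1) := by fun_prop
  have h4 : Measurable (fun q : α × R3 × R3 × R3 => q.2.2.1) := by fun_prop
  have hP : ∀ {h : α × R3 × R3 × R3 → R3}, Measurable h →
      Measurable (fun q : α × R3 × R3 × R3 => Phi d (g q.1) (h q)) := by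
    intro h hh
    unfold Phi
    exact (((hc hh).div (measurable_maxwellian.comp hh)).add_const d).log
  have hX : ∀ {h h' : α × R3 × R3 × R3 → R3}, Measurable h → Measurable h' →
      Measurable (fun q : α × R3 × R3 × R3 => excess d (g q.1) (h q) (h' q)) := by
    intro h h' hh hh'
    unfold excess
    have a1 := measurable_maxwellian.comp hh
    have a2 := measurable_maxwellian.comp hh'
    exact (((a1.mul (hc hh')).add (a2.mul (hc hh))).const_mul d).add ((a1.mul a2).const_mul (d ^ 2))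
  unfold kEN prodE prodN
  refine Measurable.ennreal_ofReal (Measurable.mul (by fun_prop) (Measurable.add ?_ ?_))
  · refine Measurable.mul (((hc h1).mul (hc h2)).sub ((hc h3).mul (hc h4))) ?_
    exact (((hP h1).add (hP h2)).sub (hP h3)).sub (hP h4)
  · exact (hX h1 h2).add (hX h3 h4)

theorem measurable_kN_par {α : Type*} [MeasurableSpace α] (d : ℝ) {g : α → R3 → ℝ}
    (hg : Measurable (fun q : α × R3 => g q.1 q.2)) :
    Measurable (fun q : α × R3 × R3 × R3 => kN d (g q.1) q.2.1 q.2.2.1 q.2.2.2) := by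
  have hc : ∀ {h : α × R3 × R3 × R3 → R3}, Measurable h →
      Measurable (fun q : α × R3 × R3 × R3 => g q.1 (h q)) := by
    intro h hh
    exact hg.comp (g := fun q : α × R3 => g q.1 q.2) (f := fun q => (q.1, h q)) (by fun_prop)
  have h1 : Measurable (fun q : α × R3 × R3 × R3 => postVel q.2.1 q.2.2.1 q.2.2.2) :=
    Measurable.postVel (by fun_prop) (by fun_prop) (by fun_prop)
  have h2 : Measurable (fun q : α × R3 × R3 × R3 => postVelStar q.2.1 q.2.2.1 q.2.2.2) :=
    Measurable.postVelStar (by fun_prop) (by fun_prop) (by fun_prop)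
  have h3 : Measurable (fun q : α × R3 × R3 × R3 => q.2.1) := by fun_prop
  have h4 : Measurable (fun q : α × R3 × R3 × R3 => q.2.2.1) := by fun_prop
  have hX : ∀ {h h' : α × R3 × R3 × R3 → R3}, Measurable h → Measurable h' →
      Measurable (fun q : α × R3 × R3 × R3 => excess d (g q.1) (h q) (h' q)) := by
    intro h h' hh hh'
    unfold excess
    have a1 := measurable_maxwellian.comp hh
    have a2 := measurable_maxwellian.comp hh'
    exact (((a1.mul (hc hh')).add (a2.mul (hc hh))).const_mul d).add ((a1.mul a2).const_mul (d ^ 2))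
  unfold kN prodN
  exact Measurable.ennreal_ofReal (Measurable.mul (by fun_prop) ((hX h1 h2).add (hX h3 h4)))

/-- measurability of `(s,x) ↦ F s x ·` in the form used below -/
theorem MeasF.par {F : ℝ → R3 → R3 → ℝ} (hF : MeasF F) :
    Measurable (fun q : (ℝ × R3) × R3 => F q.1.1 q.1.2 q.2) :=
  hF.comp (f := fun q : (ℝ × R3) × R3 => q.1.1) (g := fun q => q.1.2) (h := fun q => q.2)
    (by fun_prop) (by fun_prop) (by fun_prop)

theorem MeasF.slice {F : ℝ → R3 → R3 → ℝ} (hF : MeasF F) (t : ℝ) :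
    Measurable (fun q : R3 × R3 => F t q.1 q.2) :=
  hF.comp (f := fun _ : R3 × R3 => t) (g := fun q => q.1) (h := fun q => q.2)
    (by fun_prop) (by fun_prop) (by fun_prop)

theorem MeasF.slice2 {F : ℝ → R3 → R3 → ℝ} (hF : MeasF F) (t : ℝ) (x : R3) :
    Measurable (F t x) :=
  hF.comp (f := fun _ : R3 => t) (g := fun _ => x) (h := fun v => v) (by fun_prop) (by fun_prop)
    (by fun_prop)

/-- **Fatou for the dissipation** -/
theorem dissipation_liminf {F : ℝ → R3 → R3 → ℝ} (hF : MeasF F)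
    (hn : ∀ t x v, 0 ≤ t → 0 ≤ F t x v) {d : ℕ → ℝ} (hd : ∀ n, 0 < d n)
    (hd0 : Tendsto d atTop (𝓝 0)) (T : ℝ) :
    ∫⁻ s in Set.Icc 0 T, dissipation (F s) ≤
      liminf (fun n => 4⁻¹ * ∫⁻ s in Set.Ioo 0 T, ∫⁻ x in cell, tri (kEN (d n) (F s x))) atTop := by
  have e1 : ∫⁻ s in Set.Icc 0 T, dissipation (F s) = ∫⁻ s in Set.Ioo 0 T, dissipation (F s) := by
    rw [Measure.restrict_congr_set Ioo_ae_eq_Icc]
  rw [e1]
  have hmT : ∀ n, Measurable (fun q : ℝ × R3 => tri (kEN (d n) (F q.1 q.2))) := fun n =>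
    measurable_tri (K := fun q : ℝ × R3 => kEN (d n) (F q.1 q.2))
      (measurable_kEN_par (α := ℝ × R3) (g := fun q => F q.1 q.2) (d n) hF.par)
  have hmT2 : ∀ n, Measurable (fun s : ℝ => ∫⁻ x in cell, tri (kEN (d n) (F s x))) := fun n =>
    Measurable.lintegral_prod_right' (f := fun q : ℝ × R3 => tri (kEN (d n) (F q.1 q.2))) (hmT n)
  calc ∫⁻ s in Set.Ioo 0 T, dissipation (F s)
      ≤ ∫⁻ s in Set.Ioo 0 T, liminf (fun n => 4⁻¹ * ∫⁻ x in cell, tri (kEN (d n) (F s x)))
          atTop := by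
        refine setLIntegral_mono' measurableSet_Ioo fun s hs => ?_
        rw [dissipation_eq (hF.slice s)]
        have h4 : (4⁻¹ : ℝ≥0∞) ≠ ⊤ := by simp
        calc 4⁻¹ * ∫⁻ x in cell, tri (kD (F s x))
            ≤ 4⁻¹ * ∫⁻ x in cell, liminf (fun n => tri (kEN (d n) (F s x))) atTop := by
              gcongr with x
              exact tri_kD_le hd hd0 (hF.slice2 s x) (fun v => hn s x v hs.1.le)
          _ ≤ 4⁻¹ * liminf (fun n => ∫⁻ x in cell, tri (kEN (d n) (F s x))) atTop := by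
              gcongr
              exact lintegral_liminf_le fun n => (hmT n).comp (measurable_const.prodMk measurable_id)
          _ = liminf (fun n => 4⁻¹ * ∫⁻ x in cell, tri (kEN (d n) (F s x))) atTop := by
              exact (ENNReal.liminf_const_mul_of_ne_top h4).symm
    _ ≤ liminf (fun n => ∫⁻ s in Set.Ioo 0 T, 4⁻¹ * ∫⁻ x in cell, tri (kEN (d n) (F s x)))
          atTop := by
        exact lintegral_liminf_le fun n => (hmT2 n).const_mul _
    _ = liminf (fun n => 4⁻¹ * ∫⁻ s in Set.Ioo 0 T, ∫⁻ x in cell, tri (kEN (d n) (F s x)))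
          atTop := by
        congr 1
        funext n
        rw [lintegral_const_mul _ (hmT2 n)]

end Crest.Agent.R68
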