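import Crest.Agent.R68.EEnt4

/-!
R68 / EEnt5: the error term tends to 0 (helper211, Part E).
-/

set_option autoImplicit false
open MeasureTheory Filter Topology
open scoped ENNReal
open Crest.AnalysisR.VecCalc3 Crest.AnalysisR.PDE.Boltzmann

namespace Crest.Agent.R68

theorem liminf_add_ge (u v : ℕ → ℝ≥0∞) :
    liminf u atTop + liminf v atTop ≤ liminf (fun n => u n + v n) atTop := by
  rw [liminf_eq_iSup_iInf_of_nat, liminf_eq_iSup_iInf_of_nat, liminf_eq_iSup_iInf_of_nat]
  have h1 : ∀ w : ℕ → ℝ≥0∞, Monotone (fun n => ⨅ i, ⨅ (_ : i ≥ n), w i) := by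
    intro w a b hab
    refine le_iInf fun i => le_iInf fun hi => ?_
    exact iInf_le_of_le i (iInf_le _ (le_trans hab hi))
  rw [ENNReal.iSup_add_iSup_of_monotone (h1 u) (h1 v)]
  refine iSup_mono fun n => le_iInf fun i => le_iInf fun hi => ?_
  exact add_le_add (iInf_le_of_le i (iInf_le _ hi)) (iInf_le_of_le i (iInf_le _ hi))

/-- first moment of the Maxwellian -/
noncomputable def m1M : ℝ≥0∞ := ∫⁻ v : R3, ENNReal.ofReal ((1 + ‖v‖) * maxwellian v)

theorem integrable_exp_quarter : Integrable (fun v : R3 => Real.exp (-(1 / 4) * ‖v‖ ^ 2)) := by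
  have h := GaussianFourier.integrable_cexp_neg_mul_sq_norm_add (V := R3) (b := (1 / 4 : ℂ))
    (by norm_num) 0 0
  have h2 := h.norm
  refine h2.congr (Eventually.of_forall fun v => ?_)
  simp only [inner_zero_left, Complex.ofReal_zero, mul_zero, add_zero, Complex.norm_exp]
  congr 1
  have : (-(1 / 4 : ℂ) * (‖v‖ : ℂ) ^ 2) = ((-(1 / 4) * ‖v‖ ^ 2 : ℝ) : ℂ) := by push_cast; ring
  rw [this, Complex.ofReal_re]

theorem m1M_lt_top : m1M < ⊤ := by
  unfold m1M
  have hi : Integrable (fun v : R3 => (2 * (2 * Real.pi) ^ (-(3 / 2 : ℝ))) *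
      Real.exp (-(1 / 4) * ‖v‖ ^ 2)) := integrable_exp_quarter.const_mul _
  refine lt_of_le_of_lt (lintegral_mono fun v => ENNReal.ofReal_le_ofReal ?_) hi.lintegral_lt_top
  unfold maxwellian
  have hp : 0 < (2 * Real.pi) ^ (-(3 / 2 : ℝ)) := by positivity
  have h1 : 1 + ‖v‖ ≤ 2 * Real.exp (‖v‖ ^ 2 / 4) := by
    have h2 := Real.add_one_le_exp (‖v‖ ^ 2 / 4)
    nlinarith [sq_nonneg (‖v‖ / 2 - 1), sq_nonneg ‖v‖]
  have h3 : Real.exp (-‖v‖ ^ 2 / 2) = Real.exp (-(1 / 4) * ‖v‖ ^ 2) * Real.exp (-(‖v‖ ^ 2 / 4)) := by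
    rw [← Real.exp_add]; congr 1; ring
  have h4 : Real.exp (‖v‖ ^ 2 / 4) * Real.exp (-(‖v‖ ^ 2 / 4)) = 1 := by
    rw [← Real.exp_add]; simp
  calc (1 + ‖v‖) * ((2 * Real.pi) ^ (-(3 / 2 : ℝ)) * Real.exp (-‖v‖ ^ 2 / 2))
      ≤ (2 * Real.exp (‖v‖ ^ 2 / 4)) * ((2 * Real.pi) ^ (-(3 / 2 : ℝ)) *
          Real.exp (-‖v‖ ^ 2 / 2)) := by gcongr
    _ = (2 * (2 * Real.pi) ^ (-(3 / 2 : ℝ))) * Real.exp (-(1 / 4) * ‖v‖ ^ 2) *
          (Real.exp (‖v‖ ^ 2 / 4) * Real.exp (-(‖v‖ ^ 2 / 4))) := by rw [h3]; ring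
    _ = _ := by rw [h4, mul_one]

/-- first moment of a profile -/
noncomputable def mom1 (f : R3 → ℝ) : ℝ≥0∞ := ∫⁻ v : R3, ENNReal.ofReal ((1 + ‖v‖) * f v)

/-- total mass of the sphere measure -/
noncomputable def sM : ℝ≥0∞ := sphereMeasure Set.univ

theorem sM_lt_top : sM < ⊤ := by
  unfold sM
  exact measure_lt_top _ _

/-- product kernel -/
theorem tri_prod {a b : R3 → ℝ≥0∞} (ha : Measurable a) (hb : Measurable b) :
    tri (fun v vs _ => a v * b vs) = sM * ((∫⁻ v, a v) * ∫⁻ v, b v) := by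
  unfold tri sM
  rw [lintegral_const, mul_comm]
  congr 1
  rw [Measure.volume_eq_prod, lintegral_prod_mul ha.aemeasurable hb.aemeasurable]

theorem inner_le_weights {w : R3} (hw : ‖w‖ = 1) (v vs : R3) :
    |(inner ℝ (v - vs) w : ℝ)| ≤ (1 + ‖v‖) * (1 + ‖vs‖) := by
  have h1 := abs_real_inner_le_norm (v - vs) w
  rw [hw, mul_one] at h1
  have h2 := norm_sub_le v vs
  nlinarith [norm_nonneg v, norm_nonneg vs, mul_nonneg (norm_nonneg v) (norm_nonneg vs)]

theorem tri_kN_le {d : ℝ} (hd : 0 ≤ d) (hd1 : d ≤ 1) {f : R3 → ℝ} (hm : Measurable f)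
    (hf : ∀ v, 0 ≤ f v) :
    tri (kN d f) ≤ ENNReal.ofReal d * (2 * (sM * (m1M * mom1 f)) + 2 * (sM * (mom1 f * m1M)) +
      2 * (sM * (m1M * m1M))) := by
  set a : R3 → ℝ≥0∞ := fun v => ENNReal.ofReal ((1 + ‖v‖) * maxwellian v) with ha
  set b : R3 → ℝ≥0∞ := fun v => ENNReal.ofReal ((1 + ‖v‖) * f v) with hb
  have hma : Measurable a := by fun_prop
  have hmb : Measurable b := by fun_prop
  have hK : MeasK (fun v vs _ => a v * b vs + b v * a vs + a v * a vs) := by
    unfold MeasK; fun_prop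
  have hdE : MeasK (fun v vs w => ENNReal.ofReal d * (a v * b vs + b v * a vs + a v * a vs)) := by
    unfold MeasK; fun_prop
  have hbd : ∀ v vs w : R3, ‖w‖ = 1 →
      ENNReal.ofReal (|inner ℝ (v - vs) w| * excess d f v vs) ≤
        ENNReal.ofReal d * (a v * b vs + b v * a vs + a v * a vs) := by
    intro v vs w hw
    have hv : 0 ≤ 1 + ‖v‖ := by positivity
    have hvs : 0 ≤ 1 + ‖vs‖ := by positivity
    have hMv := (maxwellian_pos v).le
    have hMs := (maxwellian_pos vs).le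
    rw [ha, hb]
    simp only
    rw [← ENNReal.ofReal_mul (by positivity), ← ENNReal.ofReal_mul (mul_nonneg hv (hf v)),
      ← ENNReal.ofReal_mul (by positivity),
      ← ENNReal.ofReal_add (mul_nonneg (mul_nonneg hv hMv) (mul_nonneg hvs (hf vs)))
        (mul_nonneg (mul_nonneg hv (hf v)) (mul_nonneg hvs hMs)),
      ← ENNReal.ofReal_add (add_nonneg (mul_nonneg (mul_nonneg hv hMv) (mul_nonneg hvs (hf vs)))
        (mul_nonneg (mul_nonneg hv (hf v)) (mul_nonneg hvs hMs))) (by positivity),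
      ← ENNReal.ofReal_mul hd]
    refine ENNReal.ofReal_le_ofReal ?_
    have h1 := inner_le_weights hw v vs
    have hE : excess d f v vs ≤ d * (maxwellian v * f vs + maxwellian vs * f v +
        maxwellian v * maxwellian vs) := by
      unfold excess
      have : d ^ 2 * (maxwellian v * maxwellian vs) ≤ d * (maxwellian v * maxwellian vs) := by
        refine mul_le_mul_of_nonneg_right ?_ (mul_nonneg hMv hMs)
        nlinarith
      nlinarith
    have hE0 := excess_nonneg hd hf v vs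
    calc |(inner ℝ (v - vs) w : ℝ)| * excess d f v vs
        ≤ ((1 + ‖v‖) * (1 + ‖vs‖)) * (d * (maxwellian v * f vs + maxwellian vs * f v +
          maxwellian v * maxwellian vs)) := by
          refine mul_le_mul h1 hE hE0 (by positivity)
      _ = _ := by ring
  have hsplit : tri (kN d f) ≤
      tri (fun v vs w => ENNReal.ofReal d * (a (postVel v vs w) * b (postVelStar v vs w) +
        b (postVel v vs w) * a (postVelStar v vs w) +
        a (postVel v vs w) * a (postVelStar v vs w)) +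
        ENNReal.ofReal d * (a v * b vs + b v * a vs + a v * a vs)) := by
    refine tri_mono fun v vs w hw => ?_
    unfold kN prodN
    rw [mul_add, ENNReal.ofReal_add (mul_nonneg (abs_nonneg _) (excess_nonneg hd hf _ _))
      (mul_nonneg (abs_nonneg _) (excess_nonneg hd hf _ _))]
    refine add_le_add ?_ (hbd v vs w hw)
    rw [← abs_inner_post hw]
    exact hbd _ _ w hw
  refine hsplit.trans ?_
  rw [tri_add hdE.post, tri_post hdE]
  have hone : tri (fun v vs _ => ENNReal.ofReal d * (a v * b vs + b v * a vs + a v * a vs)) =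
      ENNReal.ofReal d * (sM * (m1M * mom1 f) + sM * (mom1 f * m1M) + sM * (m1M * m1M)) := by
    have e1 : tri (fun v vs _ => ENNReal.ofReal d * (a v * b vs + b v * a vs + a v * a vs)) =
        tri (fun v vs _ => (ENNReal.ofReal d * a v) * b vs) +
        tri (fun v vs _ => (ENNReal.ofReal d * b v) * a vs) +
        tri (fun v vs _ => (ENNReal.ofReal d * a v) * a vs) := by
      rw [← tri_add (by unfold MeasK; fun_prop), ← tri_add (by unfold MeasK; fun_prop)]
      refine tri_congr fun v vs w _ => ?_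
      ring
    rw [e1, tri_prod (by fun_prop) hmb, tri_prod (by fun_prop) hma, tri_prod (by fun_prop) hma,
      lintegral_const_mul _ hma, lintegral_const_mul _ hmb]
    have q1 : ∫⁻ v, a v = m1M := rfl
    have q2 : ∫⁻ v, b v = mom1 f := rfl
    rw [q1, q2]
    ring
  rw [hone]
  apply le_of_eq
  ring

end Crest.Agent.R68
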