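import Crest.Agent.R68.EWk2

/-!
R68 / EWk3: the weak formulation for general test pairs (helper485, Part E).
-/

set_option autoImplicit false
open MeasureTheory
open scoped ENNReal
open Crest.AnalysisR.VecCalc3 Crest.AnalysisR.PDE.Boltzmann

namespace Crest.Agent.R68

/-- integration by parts along one characteristic -/
theorem char_parts {T y0 : ℝ} (hT : 0 ≤ T) {r ψ ψ' : ℝ → ℝ} (hr : IntegrableOn r (Set.Ioc 0 T))
    (hψ : ∀ t, HasDerivAt ψ (ψ' t) t) (hc : Continuous ψ') (hend : ψ T = 0) :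
    ∫ t in Set.Ioc 0 T, ((y0 + ∫ s in (0)..t, r s) * ψ' t + r t * ψ t) = -(y0 * ψ 0) := by
  have hri : IntervalIntegrable r volume 0 T := by
    rw [intervalIntegrable_iff_integrableOn_Ioc_of_le hT]; exact hr
  set y : ℝ → ℝ := fun t => y0 + ∫ s in (0)..t, r s with hy
  have hac : AbsolutelyContinuousOnInterval y 0 T := by
    have h1 := hri.absolutelyContinuousOnInterval_intervalIntegral (c := 0) (by simp)
    have h2 : AbsolutelyContinuousOnInterval (fun _ : ℝ => y0) 0 T :=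
      (LipschitzOnWith.absolutelyContinuousOnInterval (K := 0)
        (LipschitzWith.const y0).lipschitzOnWith)
    exact h2.add h1
  have hψac : AbsolutelyContinuousOnInterval ψ 0 T := by
    have h1 := (hc.intervalIntegrable 0 T).absolutelyContinuousOnInterval_intervalIntegral
      (c := 0) (by simp)
    have h2 : AbsolutelyContinuousOnInterval (fun _ : ℝ => ψ 0) 0 T :=
      (LipschitzOnWith.absolutelyContinuousOnInterval (K := 0)
        (LipschitzWith.const (ψ 0)).lipschitzOnWith)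
    have h3 := h2.add h1
    have e : (fun _ : ℝ => ψ 0) + (fun x => ∫ t in (0)..x, ψ' t) = ψ := by
      funext x
      simp only [Pi.add_apply]
      rw [intervalIntegral.integral_eq_sub_of_hasDerivAt (fun t _ => hψ t)
        (hc.intervalIntegrable 0 x)]
      ring
    rwa [e] at h3
  have h := hac.integral_deriv_mul_eq_sub hψac
  rw [hend, mul_zero] at h
  have hy0 : y 0 = y0 := by simp [hy]
  rw [hy0, zero_sub] at h
  rw [← h, intervalIntegral.integral_of_le hT]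
  refine integral_congr_ae ?_
  rw [Filter.EventuallyEq, ae_restrict_iff' measurableSet_Ioc]
  filter_upwards [hri.ae_hasDerivAt_integral] with t ht hmem
  have hmem' : t ∈ Set.uIcc 0 T := by rw [Set.uIcc_of_le hT]; exact ⟨hmem.1.le, hmem.2⟩
  have h1 : HasDerivAt y (r t) t := by
    have := (ht hmem' 0 (by simp)).const_add y0
    exact this
  rw [h1.deriv, (hψ t).deriv]
  ring

/-- test functions for the transport equation -/
structure TestPair (Φ DΦ : ℝ → R3 × R3 → ℝ) (T : ℝ) : Prop where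
  T_pos : 0 < T
  mΦ : Measurable (fun p : ℝ × R3 × R3 => Φ p.1 p.2)
  mD : Measurable (fun p : ℝ × R3 × R3 => DΦ p.1 p.2)
  pΦ : ∀ t, PerX (Φ t)
  pD : ∀ t, PerX (DΦ t)
  der : ∀ q t, HasDerivAt (fun s => Φ s (shift s q)) (DΦ t (shift t q)) t
  cont : ∀ q, Continuous (fun t => DΦ t (shift t q))
  bd : ∃ C : ℝ, ∃ k : ℕ, ∀ t ∈ Set.Icc 0 T, ∀ x ∈ cell, ∀ v,
    |Φ t (x, v)| ≤ C * wt k v ∧ |DΦ t (x, v)| ≤ C * wt k v
  van : ∀ t q, T ≤ t → Φ t q = 0 ∧ DΦ t q = 0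

theorem ae_nuA_mem {A : Set ℝ} (hA : MeasurableSet A) : ∀ᵐ p ∂nuA A, p.1 ∈ A ∧ p.2.1 ∈ cell := by
  rw [← nuA_eq]
  filter_upwards [ae_restrict_mem (hA.prod (measurableSet_cell.prod MeasurableSet.univ))] with p hp
  exact ⟨hp.1, hp.2.1⟩

theorem ae_muC_mem : ∀ᵐ q ∂muC, q.1 ∈ cell := by
  unfold muC
  filter_upwards [ae_restrict_mem (measurableSet_cell.prod MeasurableSet.univ)] with p hp
  exact hp.1

theorem integrable_Ioi_of_Ioc {T : ℝ} {G : ℝ × R3 × R3 → ℝ}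
    (hG : Integrable G (nuA (Set.Ioc 0 T))) (hv : ∀ p : ℝ × R3 × R3, T < p.1 → G p = 0) :
    Integrable G (nuA (Set.Ioi 0)) := by
  rw [← nuA_eq] at hG ⊢
  refine IntegrableOn.of_forall_sdiff_eq_zero hG
    (measurableSet_Ioi.prod (measurableSet_cell.prod MeasurableSet.univ)) ?_
  rintro ⟨t, x, v⟩ ⟨h1, h2⟩
  simp only [Set.mem_prod, Set.mem_Ioi, Set.mem_univ, and_true, Set.mem_Ioc, not_and] at h1 h2
  refine hv _ ?_
  by_contra hc
  exact h2 ⟨h1.1, not_lt.1 hc⟩ h1.2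

theorem integral_Ioi_eq_Ioc {T : ℝ} {G : ℝ × R3 × R3 → ℝ}
    (hv : ∀ p : ℝ × R3 × R3, T < p.1 → G p = 0) :
    ∫ p, G p ∂nuA (Set.Ioi 0) = ∫ p, G p ∂nuA (Set.Ioc 0 T) := by
  rw [← nuA_eq, ← nuA_eq]
  refine setIntegral_eq_of_subset_of_forall_sdiff_eq_zero
    (measurableSet_Ioi.prod (measurableSet_cell.prod MeasurableSet.univ)) ?_ ?_
  · exact Set.prod_mono Set.Ioc_subset_Ioi_self le_rfl
  · rintro ⟨t, x, v⟩ ⟨h1, h2⟩
    simp only [Set.mem_prod, Set.mem_Ioi, Set.mem_univ, and_true, Set.mem_Ioc, not_and] at h1 h2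
    refine hv _ ?_
    by_contra hc
    exact h2 ⟨h1.1, not_lt.1 hc⟩ h1.2

namespace MildSol

variable {F : ℝ → R3 → R3 → ℝ} {F0 : R3 → R3 → ℝ} {R : ℝ} {Φ DΦ : ℝ → R3 × R3 → ℝ} {T : ℝ}

theorem C_nonneg_of_bd {C : ℝ} {k : ℕ} {g : R3 → ℝ} (v : R3) (h : |g v| ≤ C * wt k v) : 0 ≤ C := by
  have h2 := wt_pos k v
  by_contra hc
  push Not at hc
  have h3 := abs_nonneg (g v)
  nlinarith

/-- F·g integrable on (0,T] × cell × ℝ³ -/
theorem integrable_F_time (h : MildSol F F0 R) (T : ℝ) {g : ℝ × R3 × R3 → ℝ} (hg : Measurable g)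
    {C : ℝ} {k : ℕ} (hgb : ∀ᵐ p ∂nuA (Set.Ioc 0 T), |g p| ≤ C * wt k p.2.2) :
    Integrable (fun p : ℝ × R3 × R3 => F p.1 p.2.1 p.2.2 * g p) (nuA (Set.Ioc 0 T)) := by
  refine ⟨(Measurable.mul h.meas hg).aestronglyMeasurable, ?_⟩
  rw [hasFiniteIntegral_iff_enorm]
  have h1 : ∫⁻ p, ‖F p.1 p.2.1 p.2.2 * g p‖ₑ ∂nuA (Set.Ioc 0 T) ≤
      ∫⁻ p, ENNReal.ofReal C * (ENNReal.ofReal (wt k p.2.2) *
        ENNReal.ofReal (F p.1 p.2.1 p.2.2)) ∂nuA (Set.Ioc 0 T) := by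
    refine lintegral_mono_ae ?_
    filter_upwards [hgb, ae_nuA_mem (A := Set.Ioc 0 T) measurableSet_Ioc] with p hp hm
    have hC : 0 ≤ C := C_nonneg_of_bd (g := fun _ => g p) p.2.2 hp
    rw [enorm_mul, mul_comm, ← mul_assoc]
    refine mul_le_mul' ?_ ?_
    · rw [← ENNReal.ofReal_mul hC, Real.enorm_eq_ofReal_abs]
      exact ENNReal.ofReal_le_ofReal hp
    · rw [Real.enorm_eq_ofReal (h.nonneg _ _ _ hm.1.1.le)]
  refine lt_of_le_of_lt h1 ?_
  have hG : Measurable (fun p : ℝ × R3 × R3 =>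
      ENNReal.ofReal (wt k p.2.2) * ENNReal.ofReal (F p.1 p.2.1 p.2.2)) :=
    (by fun_prop : Measurable fun p : ℝ × R3 × R3 => ENNReal.ofReal (wt k p.2.2)).mul
      (Measurable.ennreal_ofReal h.meas)
  rw [lintegral_const_mul _ hG]
  exact ENNReal.mul_lt_top ENNReal.ofReal_lt_top (h.moment_time T k)

/-- Q·g integrable on (0,T] × cell × ℝ³ -/
theorem integrable_Q_time (h : MildSol F F0 R) (T : ℝ) {g : ℝ × R3 × R3 → ℝ} (hg : Measurable g)
    {C : ℝ} {k : ℕ} (hgb : ∀ᵐ p ∂nuA (Set.Ioc 0 T), |g p| ≤ C * wt k p.2.2) :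
    Integrable (fun p : ℝ × R3 × R3 => Qr F p.1 p.2 * g p) (nuA (Set.Ioc 0 T)) := by
  refine ⟨(Measurable.mul h.meas_Qr hg).aestronglyMeasurable, ?_⟩
  rw [hasFiniteIntegral_iff_enorm]
  have h1 : ∫⁻ p, ‖Qr F p.1 p.2 * g p‖ₑ ∂nuA (Set.Ioc 0 T) ≤
      ∫⁻ p, ENNReal.ofReal C * (ENNReal.ofReal (wt k p.2.2) * gl F p.1 p.2)
        ∂nuA (Set.Ioc 0 T) := by
    refine lintegral_mono_ae ?_
    filter_upwards [hgb] with p hp
    have hC : 0 ≤ C := C_nonneg_of_bd (g := fun _ => g p) p.2.2 hp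
    rw [enorm_mul, mul_comm, ← mul_assoc]
    refine mul_le_mul' ?_ (enorm_Qr_le F _ _)
    rw [← ENNReal.ofReal_mul hC, Real.enorm_eq_ofReal_abs]
    exact ENNReal.ofReal_le_ofReal hp
  refine lt_of_le_of_lt h1 ?_
  have hG : Measurable (fun p : ℝ × R3 × R3 => ENNReal.ofReal (wt k p.2.2) * gl F p.1 p.2) :=
    (by fun_prop : Measurable fun p : ℝ × R3 × R3 => ENNReal.ofReal (wt k p.2.2)).mul h.meas_gl
  rw [lintegral_const_mul _ hG]
  exact ENNReal.mul_lt_top ENNReal.ofReal_lt_top (h.gl_lt_top T k)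

/-- F₀·g integrable on cell × ℝ³ -/
theorem integrable_F0 (h : MildSol F F0 R) {g : R3 × R3 → ℝ} (hg : Measurable g)
    {C : ℝ} {k : ℕ} (hgb : ∀ᵐ q ∂muC, |g q| ≤ C * wt k q.2) :
    Integrable (fun q : R3 × R3 => F0 q.1 q.2 * g q) muC := by
  refine ⟨(Measurable.mul h.meas_F0 hg).aestronglyMeasurable, ?_⟩
  rw [hasFiniteIntegral_iff_enorm]
  have h1 : ∫⁻ q, ‖F0 q.1 q.2 * g q‖ₑ ∂muC ≤
      ∫⁻ q, ENNReal.ofReal C * (ENNReal.ofReal (wt k q.2) * ENNReal.ofReal (F0 q.1 q.2)) ∂muC := by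
    refine lintegral_mono_ae ?_
    filter_upwards [hgb] with q hq
    have hC : 0 ≤ C := C_nonneg_of_bd (g := fun _ => g q) q.2 hq
    rw [enorm_mul, mul_comm, ← mul_assoc]
    refine mul_le_mul' ?_ ?_
    · rw [← ENNReal.ofReal_mul hC, Real.enorm_eq_ofReal_abs]
      exact ENNReal.ofReal_le_ofReal hq
    · rw [Real.enorm_eq_ofReal (h.F0_nonneg _ _)]
  refine lt_of_le_of_lt h1 ?_
  have hG : Measurable (fun q : R3 × R3 =>
      ENNReal.ofReal (wt k q.2) * ENNReal.ofReal (F0 q.1 q.2)) :=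
    (by fun_prop : Measurable fun q : R3 × R3 => ENNReal.ofReal (wt k q.2)).mul
      h.meas_F0.ennreal_ofReal
  rw [lintegral_const_mul _ hG]
  exact ENNReal.mul_lt_top ENNReal.ofReal_lt_top (h.F0_moment k)

/-- the primitive of the collision term along characteristics is jointly measurable -/
theorem meas_primitive (h : MildSol F F0 R) :
    Measurable (fun p : ℝ × R3 × R3 => ∫ s in Set.Ioc 0 p.1, Qr F s (shift s p.2)) := by
  have e : (fun p : ℝ × R3 × R3 => ∫ s in Set.Ioc 0 p.1, Qr F s (shift s p.2)) =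
      fun p : ℝ × R3 × R3 => ∫ s, (if 0 < s ∧ s ≤ p.1 then Qr F s (shift s p.2) else 0) := by
    funext p
    rw [← integral_indicator measurableSet_Ioc]
    refine integral_congr_ae (Filter.Eventually.of_forall fun s => ?_)
    by_cases hs : 0 < s ∧ s ≤ p.1
    · simp only [if_pos hs, Set.indicator_of_mem (show s ∈ Set.Ioc 0 p.1 from hs)]
    · simp only [if_neg hs, Set.indicator_of_notMem (show s ∉ Set.Ioc 0 p.1 from hs)]
  rw [e]
  refine StronglyMeasurable.measurable ?_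
  refine StronglyMeasurable.integral_prod_right' (f := fun z : (ℝ × R3 × R3) × ℝ =>
    if 0 < z.2 ∧ z.2 ≤ z.1.1 then Qr F z.2 (shift z.2 z.1.2) else 0) ?_
  refine Measurable.stronglyMeasurable (Measurable.ite ?_ ?_ measurable_const)
  · exact (measurableSet_lt measurable_const measurable_snd).inter
      (measurableSet_le measurable_snd (by fun_prop))
  · exact Measurable.comp (g := fun p : ℝ × R3 × R3 => Qr F p.1 p.2)
      (f := fun z : (ℝ × R3 × R3) × ℝ => (z.2, shift z.2 z.1.2)) h.meas_Qr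
      (measurable_snd.prodMk (Measurable.shift measurable_snd (by fun_prop)))

/-- the mild equation, almost everywhere in (t, x, v) with the order of quantifiers exchanged -/
theorem mild_ae (h : MildSol F F0 R) (T : ℝ) : ∀ᵐ q ∂muC, ∀ᵐ t ∂(volume.restrict (Set.Ioc 0 T)),
    F t (shift t q).1 (shift t q).2 = F0 q.1 q.2 + ∫ s in (0)..t, Qr F s (shift s q) := by
  have hms : MeasurableSet {p : ℝ × R3 × R3 | F p.1 (shift p.1 p.2).1 (shift p.1 p.2).2 =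
      F0 p.2.1 p.2.2 + ∫ s in Set.Ioc 0 p.1, Qr F s (shift s p.2)} := by
    refine measurableSet_eq_fun ?_ ?_
    · exact h.meas.comp measurable_fst (Measurable.fst measurable_shiftT.snd)
        (Measurable.snd measurable_shiftT.snd)
    · exact (h.meas_F0.comp measurable_snd).add h.meas_primitive
  have h1 : ∀ᵐ t ∂(volume.restrict (Set.Ioc 0 T)), ∀ᵐ q ∂muC,
      (t, q) ∈ {p : ℝ × R3 × R3 | F p.1 (shift p.1 p.2).1 (shift p.1 p.2).2 =
      F0 p.2.1 p.2.2 + ∫ s in Set.Ioc 0 p.1, Qr F s (shift s p.2)} := by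
    filter_upwards [ae_restrict_mem (measurableSet_Ioc (a := (0 : ℝ)) (b := T))] with t ht
    filter_upwards [ae_muC_of_ae (h.mild t ht.1.le)] with q hq
    rw [intervalIntegral.integral_of_le ht.1.le] at hq
    exact hq
  have h2 : ∀ᵐ q ∂muC, ∀ᵐ t ∂(volume.restrict (Set.Ioc 0 T)),
      (t, q) ∈ {p : ℝ × R3 × R3 | F p.1 (shift p.1 p.2).1 (shift p.1 p.2).2 =
      F0 p.2.1 p.2.2 + ∫ s in Set.Ioc 0 p.1, Qr F s (shift s p.2)} := by
    have := (Measure.ae_ae_comm hms).1 h1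
    exact this
  filter_upwards [h2] with q hq
  filter_upwards [hq, ae_restrict_mem (measurableSet_Ioc (a := (0 : ℝ)) (b := T))] with t ht htm
  rw [intervalIntegral.integral_of_le htm.1.le]
  exact ht

/-- the weak formulation for a test pair, on (0,T] -/
theorem weak_Ioc (h : MildSol F F0 R) (tp : TestPair Φ DΦ T) :
    Integrable (fun p : ℝ × R3 × R3 => F p.1 p.2.1 p.2.2 * DΦ p.1 p.2) (nuA (Set.Ioc 0 T)) ∧
    Integrable (fun p : ℝ × R3 × R3 => Qr F p.1 p.2 * Φ p.1 p.2) (nuA (Set.Ioc 0 T)) ∧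
    Integrable (fun q : R3 × R3 => F0 q.1 q.2 * Φ 0 q) muC ∧
    ∫ p, (F p.1 p.2.1 p.2.2 * DΦ p.1 p.2 + Qr F p.1 p.2 * Φ p.1 p.2) ∂nuA (Set.Ioc 0 T) +
      ∫ q, F0 q.1 q.2 * Φ 0 q ∂muC = 0 := by
  obtain ⟨C, k, hbd⟩ := tp.bd
  have hbd1 : ∀ᵐ p ∂nuA (Set.Ioc 0 T), |DΦ p.1 p.2| ≤ C * wt k p.2.2 := by
    filter_upwards [ae_nuA_mem (A := Set.Ioc 0 T) measurableSet_Ioc] with p hp
    exact (hbd p.1 ⟨hp.1.1.le, hp.1.2⟩ p.2.1 hp.2 p.2.2).2
  have hbd2 : ∀ᵐ p ∂nuA (Set.Ioc 0 T), |Φ p.1 p.2| ≤ C * wt k p.2.2 := by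
    filter_upwards [ae_nuA_mem (A := Set.Ioc 0 T) measurableSet_Ioc] with p hp
    exact (hbd p.1 ⟨hp.1.1.le, hp.1.2⟩ p.2.1 hp.2 p.2.2).1
  have hbd3 : ∀ᵐ q ∂muC, |Φ 0 q| ≤ C * wt k q.2 := by
    filter_upwards [ae_muC_mem] with q hq
    exact (hbd 0 ⟨le_rfl, tp.T_pos.le⟩ q.1 hq q.2).1
  have i1 := h.integrable_F_time T tp.mD hbd1
  have i2 := h.integrable_Q_time T tp.mΦ hbd2
  have i3 := h.integrable_F0 (tp.mΦ.comp (measurable_prodMk_left (x := (0 : ℝ)))) hbd3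
  refine ⟨i1, i2, i3, ?_⟩
  set H : ℝ × R3 × R3 → ℝ := fun p => F p.1 p.2.1 p.2.2 * DΦ p.1 p.2 + Qr F p.1 p.2 * Φ p.1 p.2
    with hH
  have hHm : Measurable H := (Measurable.mul h.meas tp.mD).add (Measurable.mul h.meas_Qr tp.mΦ)
  have hHp : ∀ t, PerX (fun q => H (t, q)) := by
    intro t
    exact ((h.perX_F t).comp₂ (tp.pD t) (fun a b => a * b)).comp₂
      ((h.perX_Qr t).comp₂ (tp.pΦ t) (fun a b => a * b)) (fun a b => a + b)
  have hHi : Integrable H (nuA (Set.Ioc 0 T)) := i1.add i2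
  have hHi2 : Integrable (fun p : ℝ × R3 × R3 => H (p.1, shift p.1 p.2)) (nuA (Set.Ioc 0 T)) :=
    (integrable_nuA_shift hHm hHp).2 hHi
  have e1 : ∫ p, H p ∂nuA (Set.Ioc 0 T) =
      ∫ q, (∫ t in Set.Ioc 0 T, H (t, shift t q)) ∂muC := by
    have a1 : ∫ p, H p ∂nuA (Set.Ioc 0 T) = ∫ t in Set.Ioc 0 T, (∫ q, H (t, q) ∂muC) := by
      unfold nuA at hHi ⊢
      exact integral_prod _ hHi
    have a2 : ∫ t in Set.Ioc 0 T, (∫ q, H (t, q) ∂muC) =
        ∫ t in Set.Ioc 0 T, (∫ q, H (t, shift t q) ∂muC) := by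
      refine integral_congr_ae (Filter.Eventually.of_forall fun t => ?_)
      exact (integral_shift (G := fun q => H (t, q)) (hHm.comp measurable_prodMk_left) (hHp t)
        t).symm
    have a3 : ∫ p, H (p.1, shift p.1 p.2) ∂nuA (Set.Ioc 0 T) =
        ∫ t in Set.Ioc 0 T, (∫ q, H (t, shift t q) ∂muC) := by
      unfold nuA at hHi2 ⊢
      exact integral_prod _ hHi2
    have a4 : ∫ p, H (p.1, shift p.1 p.2) ∂nuA (Set.Ioc 0 T) =
        ∫ q, (∫ t in Set.Ioc 0 T, H (t, shift t q)) ∂muC := by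
      unfold nuA at hHi2 ⊢
      exact integral_prod_symm _ hHi2
    rw [a1, a2, ← a3, a4]
  rw [e1]
  have e2 : ∀ᵐ q ∂muC, ∫ t in Set.Ioc 0 T, H (t, shift t q) = -(F0 q.1 q.2 * Φ 0 q) := by
    filter_upwards [h.mild_ae T, h.ae_integrable T] with q hq1 hq2
    have b1 := char_parts (T := T) (y0 := F0 q.1 q.2) tp.T_pos.le hq2
      (ψ := fun s => Φ s (shift s q)) (ψ' := fun s => DΦ s (shift s q)) (tp.der q) (tp.cont q)
      (tp.van T _ le_rfl).1
    simp only [shift_zero] at b1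
    rw [← b1]
    refine integral_congr_ae ?_
    filter_upwards [hq1] with t ht
    simp only [hH]
    rw [ht]
  rw [integral_congr_ae e2, integral_neg]
  simp

/-- the weak formulation for a test pair -/
theorem weak_Ioi (h : MildSol F F0 R) (tp : TestPair Φ DΦ T) :
    Integrable (fun p : ℝ × R3 × R3 => F p.1 p.2.1 p.2.2 * DΦ p.1 p.2) (nuA (Set.Ioi 0)) ∧
    Integrable (fun p : ℝ × R3 × R3 => Qr F p.1 p.2 * Φ p.1 p.2) (nuA (Set.Ioi 0)) ∧
    Integrable (fun q : R3 × R3 => F0 q.1 q.2 * Φ 0 q) muC ∧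
    ∫ p, (F p.1 p.2.1 p.2.2 * DΦ p.1 p.2 + Qr F p.1 p.2 * Φ p.1 p.2) ∂nuA (Set.Ioi 0) +
      ∫ q, F0 q.1 q.2 * Φ 0 q ∂muC = 0 := by
  obtain ⟨i1, i2, i3, e⟩ := h.weak_Ioc tp
  refine ⟨integrable_Ioi_of_Ioc i1 ?_, integrable_Ioi_of_Ioc i2 ?_, i3, ?_⟩
  · intro p hp
    rw [(tp.van p.1 p.2 hp.le).2, mul_zero]
  · intro p hp
    rw [(tp.van p.1 p.2 hp.le).1, mul_zero]
  · rw [integral_Ioi_eq_Ioc (T := T)]
    · exact e
    · intro p hp
      rw [(tp.van p.1 p.2 hp.le).1, (tp.van p.1 p.2 hp.le).2, mul_zero, mul_zero, add_zero]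

end MildSol

end Crest.Agent.R68
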