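import Crest.Agent.R68.EEnt5
import Crest.Agent.R68.EWk3

/-!
R68 / EEnt6: the regularised entropy balance in `ℝ≥0∞` (helper211, Part E).
-/

set_option autoImplicit false
open MeasureTheory Filter Topology
open scoped ENNReal
open Crest.AnalysisR.VecCalc3 Crest.AnalysisR.PDE.Boltzmann

namespace Crest.Agent.R68

/-- the regularised relative entropy of a density on `cell × ℝ³` -/
noncomputable def HH (d : ℝ) (f : R3 → R3 → ℝ) : ℝ≥0∞ :=
  ∫⁻ q, ENNReal.ofReal (entD d (f q.1 q.2) (maxwellian q.2)) ∂muC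

/-- the regularised entropy balance along characteristics (input from EChar) -/
def CharBal (F : ℝ → R3 → R3 → ℝ) (F0 : R3 → R3 → ℝ) (T d : ℝ) : Prop :=
  Integrable (fun q : R3 × R3 => entD d (F T q.1 q.2) (maxwellian q.2)) muC ∧
  Integrable (fun q : R3 × R3 => entD d (F0 q.1 q.2) (maxwellian q.2)) muC ∧
  (∫ q, entD d (F T q.1 q.2) (maxwellian q.2) ∂muC) -
    (∫ q, entD d (F0 q.1 q.2) (maxwellian q.2) ∂muC) =
  ∫ p, Phi d (F p.1 p.2.1) p.2.2 * Qr F p.1 p.2 ∂nuA (Set.Ioc 0 T)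

theorem dbl_ident (T : ℝ) {K1 K2 A1 A2 A3 A4 : ℝ × R3 → ℝ≥0∞} (m1 : Measurable K1)
    (m2 : Measurable K2) (a1 : Measurable A1) (a2 : Measurable A2) (a3 : Measurable A3)
    (a4 : Measurable A4)
    (hid : ∀ s ∈ Set.Ioo 0 T, ∀ x, K1 (s, x) + 4 * (A1 (s, x) + A2 (s, x)) =
      K2 (s, x) + 4 * (A3 (s, x) + A4 (s, x))) :
    (∫⁻ s in Set.Ioo 0 T, ∫⁻ x in cell, K1 (s, x)) +
      4 * ((∫⁻ s in Set.Ioo 0 T, ∫⁻ x in cell, A1 (s, x)) +
        ∫⁻ s in Set.Ioo 0 T, ∫⁻ x in cell, A2 (s, x)) =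
    (∫⁻ s in Set.Ioo 0 T, ∫⁻ x in cell, K2 (s, x)) +
      4 * ((∫⁻ s in Set.Ioo 0 T, ∫⁻ x in cell, A3 (s, x)) +
        ∫⁻ s in Set.Ioo 0 T, ∫⁻ x in cell, A4 (s, x)) := by
  have key : ∀ {G : ℝ × R3 → ℝ≥0∞}, Measurable G →
      ∫⁻ s in Set.Ioo 0 T, ∫⁻ x in cell, G (s, x) =
      ∫⁻ q, G q ∂(((volume : Measure ℝ).restrict (Set.Ioo 0 T)).prod
        ((volume : Measure R3).restrict cell)) := by
    intro G hG
    rw [lintegral_prod _ hG.aemeasurable]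
  rw [key m1, key m2, key a1, key a2, key a3, key a4, ← lintegral_add_left a1,
    ← lintegral_add_left a3,
    ← lintegral_const_mul (f := fun q => A1 q + A2 q) _ (a1.add a2),
    ← lintegral_const_mul (f := fun q => A3 q + A4 q) _ (a3.add a4),
    ← lintegral_add_left m1, ← lintegral_add_left m2]
  refine lintegral_congr_ae ?_
  have hmem : ∀ᵐ q ∂(((volume : Measure ℝ).restrict (Set.Ioo 0 T)).prod
        ((volume : Measure R3).restrict cell)), q.1 ∈ Set.Ioo 0 T := by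
    rw [Measure.ae_prod_iff_ae_ae]
    · filter_upwards [ae_restrict_mem measurableSet_Ioo] with t ht
      exact Filter.Eventually.of_forall fun _ => ht
    · exact measurable_fst measurableSet_Ioo
  filter_upwards [hmem] with q hq
  exact hid q.1 hq q.2

variable {F : ℝ → R3 → R3 → ℝ} {F0 : R3 → R3 → ℝ} {R : ℝ}

namespace MildSol

theorem meas_Phi (h : MildSol F F0 R) (d : ℝ) :
    Measurable (fun p : ℝ × R3 × R3 => Phi d (F p.1 p.2.1) p.2.2) := by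
  unfold Phi
  have h1 : Measurable (fun p : ℝ × R3 × R3 => F p.1 p.2.1 p.2.2) := h.meas
  exact ((h1.div (by fun_prop)).add_const d).log

theorem meas_Pp (h : MildSol F F0 R) (d : ℝ) :
    Measurable (fun p : ℝ × R3 × R3 => Pp d (F p.1 p.2.1) p.2.2) :=
  (h.meas_Phi d).ennreal_ofReal

theorem meas_Pm (h : MildSol F F0 R) (d : ℝ) :
    Measurable (fun p : ℝ × R3 × R3 => Pm d (F p.1 p.2.1) p.2.2) :=
  (h.meas_Phi d).neg.ennreal_ofReal

/-- `|Φ|` is integrable against the total collision rate -/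
theorem Phi_gl_lt_top (h : MildSol F F0 R) (T : ℝ) {d : ℝ} (hd : 0 < d) (hd1 : d ≤ 1) :
    ∫⁻ p, ENNReal.ofReal |Phi d (F p.1 p.2.1) p.2.2| * gl F p.1 p.2 ∂nuA (Set.Ioc 0 T) < ⊤ := by
  set C : ℝ := |Real.log d| + cM + 1 with hC
  have hC0 : 0 ≤ C := by have := cM_nonneg; have := abs_nonneg (Real.log d); positivity
  have hI := h.int T 2
  rw [nuA_eq, nuA_Ioo_Ioc] at hI
  have hb : ∫⁻ p, ENNReal.ofReal |Phi d (F p.1 p.2.1) p.2.2| * gl F p.1 p.2 ∂nuA (Set.Ioc 0 T) ≤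
      ∫⁻ p, ENNReal.ofReal C * (ENNReal.ofReal ((1 + ‖p.2.2‖ ^ 2) ^ (((2 : ℕ) : ℝ) / 2 : ℝ) +
        Real.log (1 + F p.1 p.2.1 p.2.2)) *
        (collGain F p.1 p.2.1 p.2.2 + collLoss F p.1 p.2.1 p.2.2)) ∂nuA (Set.Ioc 0 T) := by
    refine lintegral_mono_ae ?_
    filter_upwards [ae_nuA_mem (A := Set.Ioc 0 T) measurableSet_Ioc] with p hp
    have hn : ∀ v, 0 ≤ F p.1 p.2.1 v := fun v => h.nonneg _ _ _ hp.1.1.le
    have h1 := abs_Phi_le hd hd1 hn p.2.2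
    have h2 : (1 + ‖p.2.2‖ ^ 2) ^ (((2 : ℕ) : ℝ) / 2 : ℝ) = 1 + ‖p.2.2‖ ^ 2 := by
      norm_num
    have hl : 0 ≤ Real.log (1 + F p.1 p.2.1 p.2.2) := Real.log_nonneg (by linarith [hn p.2.2])
    have h3 : |Phi d (F p.1 p.2.1) p.2.2| ≤ C * ((1 + ‖p.2.2‖ ^ 2) ^ (((2 : ℕ) : ℝ) / 2 : ℝ) +
        Real.log (1 + F p.1 p.2.1 p.2.2)) := by
      rw [h2]
      have hc := cM_nonneg
      have ha := abs_nonneg (Real.log d)
      have hv := sq_nonneg ‖p.2.2‖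
      rw [hC]
      nlinarith [mul_nonneg (add_nonneg ha hc) hv, mul_nonneg (add_nonneg ha hc) hl]
    rw [← mul_assoc, ← ENNReal.ofReal_mul hC0]
    exact mul_le_mul' (ENNReal.ofReal_le_ofReal h3) le_rfl
  refine lt_of_le_of_lt hb ?_
  rw [lintegral_const_mul' _ _ ENNReal.ofReal_ne_top]
  exact ENNReal.mul_lt_top ENNReal.ofReal_lt_top hI

/-- the four ENNReal integrals -/
theorem X_lt_top (h : MildSol F F0 R) (T : ℝ) {d : ℝ} (hd : 0 < d) (hd1 : d ≤ 1)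
    {A : ℝ × R3 × R3 → ℝ≥0∞} {B : ℝ × R3 × R3 → ℝ≥0∞}
    (hA : ∀ p, A p ≤ ENNReal.ofReal |Phi d (F p.1 p.2.1) p.2.2|) (hB : ∀ p, B p ≤ gl F p.1 p.2) :
    ∫⁻ p, A p * B p ∂nuA (Set.Ioc 0 T) < ⊤ :=
  lt_of_le_of_lt (lintegral_mono fun p => mul_le_mul' (hA p) (hB p)) (h.Phi_gl_lt_top T hd hd1)

/-- integrated entropy identity in `ℝ≥0∞` -/
theorem integrated_ident (h : MildSol F F0 R) (T : ℝ) {d : ℝ} (hd : 0 < d) :
    (∫⁻ s in Set.Ioo 0 T, ∫⁻ x in cell, tri (kEN d (F s x))) +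
      4 * ((∫⁻ p, Pp d (F p.1 p.2.1) p.2.2 * collGain F p.1 p.2.1 p.2.2 ∂nuA (Set.Ioc 0 T)) +
        ∫⁻ p, Pm d (F p.1 p.2.1) p.2.2 * collLoss F p.1 p.2.1 p.2.2 ∂nuA (Set.Ioc 0 T)) =
    (∫⁻ s in Set.Ioo 0 T, ∫⁻ x in cell, tri (kN d (F s x))) +
      4 * ((∫⁻ p, Pp d (F p.1 p.2.1) p.2.2 * collLoss F p.1 p.2.1 p.2.2 ∂nuA (Set.Ioc 0 T)) +
        ∫⁻ p, Pm d (F p.1 p.2.1) p.2.2 * collGain F p.1 p.2.1 p.2.2 ∂nuA (Set.Ioc 0 T)) := by
  have hg := h.meas.collGain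
  have hl := h.meas.collLoss
  have hp := h.meas_Pp d
  have hm := h.meas_Pm d
  have key : ∀ (G : ℝ × R3 × R3 → ℝ≥0∞), Measurable G →
      ∫⁻ p, G p ∂nuA (Set.Ioc 0 T) = ∫⁻ s in Set.Ioo 0 T, ∫⁻ x in cell, ∫⁻ v, G (s, x, v) := by
    intro G hG
    rw [← nuA_Ioo_Ioc, lintegral_nuA hG]
    refine lintegral_congr fun s => ?_
    exact lintegral_muC' (G := fun q => G (s, q)) (hG.comp (measurable_const.prodMk measurable_id))
  have mK1 : Measurable (fun q : ℝ × R3 => tri (kEN d (F q.1 q.2))) :=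
    measurable_tri (K := fun q : ℝ × R3 => kEN d (F q.1 q.2))
      (measurable_kEN_par (α := ℝ × R3) (g := fun q => F q.1 q.2) d h.meas.par)
  have mK2 : Measurable (fun q : ℝ × R3 => tri (kN d (F q.1 q.2))) :=
    measurable_tri (K := fun q : ℝ × R3 => kN d (F q.1 q.2))
      (measurable_kN_par (α := ℝ × R3) (g := fun q => F q.1 q.2) d h.meas.par)
  have mv : ∀ (G : ℝ × R3 × R3 → ℝ≥0∞), Measurable G →
      Measurable (fun q : ℝ × R3 => ∫⁻ v, G (q.1, q.2, v)) := by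
    intro G hG
    refine Measurable.lintegral_prod_right' (f := fun q : (ℝ × R3) × R3 => G (q.1.1, q.1.2, q.2)) ?_
    exact hG.comp (by fun_prop)
  rw [key (fun p => Pp d (F p.1 p.2.1) p.2.2 * collGain F p.1 p.2.1 p.2.2) (hp.mul hg),
    key (fun p => Pm d (F p.1 p.2.1) p.2.2 * collLoss F p.1 p.2.1 p.2.2) (hm.mul hl),
    key (fun p => Pp d (F p.1 p.2.1) p.2.2 * collLoss F p.1 p.2.1 p.2.2) (hp.mul hl),
    key (fun p => Pm d (F p.1 p.2.1) p.2.2 * collGain F p.1 p.2.1 p.2.2) (hm.mul hg)]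
  have a1 := mv (fun p => Pp d (F p.1 p.2.1) p.2.2 * collGain F p.1 p.2.1 p.2.2) (hp.mul hg)
  have a2 := mv (fun p => Pm d (F p.1 p.2.1) p.2.2 * collLoss F p.1 p.2.1 p.2.2) (hm.mul hl)
  have a3 := mv (fun p => Pp d (F p.1 p.2.1) p.2.2 * collLoss F p.1 p.2.1 p.2.2) (hp.mul hl)
  have a4 := mv (fun p => Pm d (F p.1 p.2.1) p.2.2 * collGain F p.1 p.2.1 p.2.2) (hm.mul hg)
  exact dbl_ident T mK1 mK2 a1 a2 a3 a4 fun s hs x =>
    entropy_ident (F := F) (t := s) (x := x) (h.meas.slice2 s x)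
      (fun v => h.nonneg s x v hs.1.le) hd

end MildSol

end Crest.Agent.R68
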