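import Crest.Agent.R68.EEnt6
import Crest.Agent.R68.EChar

/-!
R68 / EEnt7: the entropy inequality for mild solutions (helper211, Part E).
-/

set_option autoImplicit false
open MeasureTheory Filter Topology
open scoped ENNReal
open Crest.AnalysisR.VecCalc3 Crest.AnalysisR.PDE.Boltzmann

namespace Crest.Agent.R68

theorem int4 {α : Type*} [MeasurableSpace α] {μ : Measure α} {a b c e : α → ℝ}
    (ha : Integrable a μ) (hb : Integrable b μ) (hc : Integrable c μ) (he : Integrable e μ) :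
    ∫ x, (a x + b x - c x - e x) ∂μ =
      (∫ x, a x ∂μ) + (∫ x, b x ∂μ) - (∫ x, c x ∂μ) - ∫ x, e x ∂μ := by
  have h1 : Integrable (fun x => a x + b x) μ := ha.add hb
  have h2 : Integrable (fun x => a x + b x - c x) μ := h1.sub hc
  rw [integral_sub h2 he, integral_sub h1 hc, integral_add ha hb]

variable {F : ℝ → R3 → R3 → ℝ} {F0 : R3 → R3 → ℝ} {R : ℝ}

namespace MildSol

theorem charBal (h : MildSol F F0 R) {T : ℝ} (hT : 0 < T) {d : ℝ} (hd : 0 < d) (hd1 : d ≤ 1) :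
    CharBal F F0 T d := by
  obtain ⟨h1, h2, _, h4⟩ := Crest.Agent.R68E.entropy_char h hd hd1 hT
  rw [Crest.Agent.R68E.mu2_eq_muC] at h1 h2 h4
  refine ⟨h2, h1, ?_⟩
  rw [h4, ← Crest.Agent.R68E.mu3_eq, nuA_eq, nuA_Ioo_Ioc]
  refine integral_congr_ae (Eventually.of_forall fun p => ?_)
  exact mul_comm _ _

theorem ofReal_int_entD {d : ℝ} (hd : 0 ≤ d) {f : R3 → R3 → ℝ} (hf : ∀ x v, 0 ≤ f x v)
    (hi : Integrable (fun q : R3 × R3 => entD d (f q.1 q.2) (maxwellian q.2)) muC) :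
    ENNReal.ofReal (∫ q, entD d (f q.1 q.2) (maxwellian q.2) ∂muC) = HH d f := by
  unfold HH
  exact ofReal_integral_eq_lintegral_ofReal hi
    (Eventually.of_forall fun q => entD_nonneg hd (hf _ _) (maxwellian_pos _))

/-- regularised entropy balance in `ℝ≥0∞`. -/
theorem balance (h : MildSol F F0 R) {T : ℝ} (hT : 0 < T) {d : ℝ} (hd : 0 < d) (hd1 : d ≤ 1) :
    HH d (F T) + 4⁻¹ * (∫⁻ s in Set.Ioo 0 T, ∫⁻ x in cell, tri (kEN d (F s x))) =
      4⁻¹ * (∫⁻ s in Set.Ioo 0 T, ∫⁻ x in cell, tri (kN d (F s x))) + HH d F0 := by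
  obtain ⟨hiT, hi0, hbal⟩ := h.charBal hT hd hd1
  have hident := h.integrated_ident T hd
  have hg := h.meas.collGain
  have hl := h.meas.collLoss
  have hp := h.meas_Pp d
  have hm := h.meas_Pm d
  have hPp : ∀ p : ℝ × R3 × R3, Pp d (F p.1 p.2.1) p.2.2 ≤
      ENNReal.ofReal |Phi d (F p.1 p.2.1) p.2.2| := fun p =>
    ENNReal.ofReal_le_ofReal (le_abs_self _)
  have hPm : ∀ p : ℝ × R3 × R3, Pm d (F p.1 p.2.1) p.2.2 ≤
      ENNReal.ofReal |Phi d (F p.1 p.2.1) p.2.2| := fun p =>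
    ENNReal.ofReal_le_ofReal (neg_le_abs _)
  have hG : ∀ p : ℝ × R3 × R3, collGain F p.1 p.2.1 p.2.2 ≤ gl F p.1 p.2 := fun p => le_self_add
  have hL : ∀ p : ℝ × R3 × R3, collLoss F p.1 p.2.1 p.2.2 ≤ gl F p.1 p.2 := fun p => le_add_self
  have f1 := h.X_lt_top T hd hd1 hPp hG
  have f2 := h.X_lt_top T hd hd1 hPm hL
  have f3 := h.X_lt_top T hd hd1 hPp hL
  have f4 := h.X_lt_top T hd hd1 hPm hG
  set X1 := ∫⁻ p, Pp d (F p.1 p.2.1) p.2.2 * collGain F p.1 p.2.1 p.2.2 ∂nuA (Set.Ioc 0 T)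
  set X2 := ∫⁻ p, Pm d (F p.1 p.2.1) p.2.2 * collLoss F p.1 p.2.1 p.2.2 ∂nuA (Set.Ioc 0 T)
  set X3 := ∫⁻ p, Pp d (F p.1 p.2.1) p.2.2 * collLoss F p.1 p.2.1 p.2.2 ∂nuA (Set.Ioc 0 T)
  set X4 := ∫⁻ p, Pm d (F p.1 p.2.1) p.2.2 * collGain F p.1 p.2.1 p.2.2 ∂nuA (Set.Ioc 0 T)
  set TT := ∫⁻ s in Set.Ioo 0 T, ∫⁻ x in cell, tri (kEN d (F s x))
  set NN := ∫⁻ s in Set.Ioo 0 T, ∫⁻ x in cell, tri (kN d (F s x))
  -- the real integral
  have hglfin : ∀ᵐ p ∂nuA (Set.Ioc 0 T), gl F p.1 p.2 < ⊤ := by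
    have h0 := h.gl_lt_top T 0
    refine ae_lt_top h.meas_gl ?_
    refine ne_of_lt (lt_of_le_of_lt ?_ h0)
    refine lintegral_mono fun p => ?_
    rw [wt_zero, ENNReal.ofReal_one, one_mul]
  have hreal : ∫ p, Phi d (F p.1 p.2.1) p.2.2 * Qr F p.1 p.2 ∂nuA (Set.Ioc 0 T) =
      X1.toReal + X2.toReal - X3.toReal - X4.toReal := by
    have q1 := integrable_toReal_of_lintegral_ne_top (hp.mul hg).aemeasurable f1.ne
    have q2 := integrable_toReal_of_lintegral_ne_top (hm.mul hl).aemeasurable f2.ne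
    have q3 := integrable_toReal_of_lintegral_ne_top (hp.mul hl).aemeasurable f3.ne
    have q4 := integrable_toReal_of_lintegral_ne_top (hm.mul hg).aemeasurable f4.ne
    have i1 := integral_toReal (hp.mul hg).aemeasurable (ae_lt_top (hp.mul hg) f1.ne)
    have i2 := integral_toReal (hm.mul hl).aemeasurable (ae_lt_top (hm.mul hl) f2.ne)
    have i3 := integral_toReal (hp.mul hl).aemeasurable (ae_lt_top (hp.mul hl) f3.ne)
    have i4 := integral_toReal (hm.mul hg).aemeasurable (ae_lt_top (hm.mul hg) f4.ne)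
    simp only [Pi.mul_apply] at q1 q2 q3 q4 i1 i2 i3 i4
    rw [← i1, ← i2, ← i3, ← i4, ← int4 q1 q2 q3 q4]
    refine integral_congr_ae ?_
    refine Eventually.of_forall fun p => ?_
    simp only [ENNReal.toReal_mul, Qr, Pp, Pm, ENNReal.toReal_ofReal']
    have e : Phi d (F p.1 p.2.1) p.2.2 =
        max (Phi d (F p.1 p.2.1) p.2.2) 0 - max (-Phi d (F p.1 p.2.1) p.2.2) 0 := by
      rcases le_total (Phi d (F p.1 p.2.1) p.2.2) 0 with hh | hh
      · rw [max_eq_right hh, max_eq_left (by linarith)]; ring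
      · rw [max_eq_left hh, max_eq_right (by linarith)]; ring
    conv_lhs => rw [e]
    ring
  rw [hreal] at hbal
  have hnT : ∀ x v, 0 ≤ F T x v := fun x v => h.nonneg T x v hT.le
  have eT := ofReal_int_entD hd.le hnT hiT
  have e0 := ofReal_int_entD hd.le (fun x v => h.F0_nonneg x v) hi0
  have pT : 0 ≤ ∫ q, entD d (F T q.1 q.2) (maxwellian q.2) ∂muC :=
    integral_nonneg fun q => entD_nonneg hd.le (hnT _ _) (maxwellian_pos _)
  have p0 : 0 ≤ ∫ q, entD d (F0 q.1 q.2) (maxwellian q.2) ∂muC :=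
    integral_nonneg fun q => entD_nonneg hd.le (h.F0_nonneg _ _) (maxwellian_pos _)
  have hE : HH d (F T) + (X3 + X4) = HH d F0 + (X1 + X2) := by
    rw [← eT, ← e0, ← ENNReal.ofReal_toReal f1.ne, ← ENNReal.ofReal_toReal f2.ne,
      ← ENNReal.ofReal_toReal f3.ne, ← ENNReal.ofReal_toReal f4.ne,
      ← ENNReal.ofReal_add ENNReal.toReal_nonneg ENNReal.toReal_nonneg,
      ← ENNReal.ofReal_add ENNReal.toReal_nonneg ENNReal.toReal_nonneg,
      ← ENNReal.ofReal_add pT (add_nonneg ENNReal.toReal_nonneg ENNReal.toReal_nonneg),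
      ← ENNReal.ofReal_add p0 (add_nonneg ENNReal.toReal_nonneg ENNReal.toReal_nonneg)]
    congr 1
    linarith
  have hfin : 4 * (X1 + X2) + 4 * (X3 + X4) ≠ ⊤ := by
    refine ENNReal.add_ne_top.2 ⟨?_, ?_⟩
    · exact ENNReal.mul_ne_top (by norm_num) (ENNReal.add_ne_top.2 ⟨f1.ne, f2.ne⟩)
    · exact ENNReal.mul_ne_top (by norm_num) (ENNReal.add_ne_top.2 ⟨f3.ne, f4.ne⟩)
  have hsum : (TT + 4 * HH d (F T)) + (4 * (X1 + X2) + 4 * (X3 + X4)) =
      (NN + 4 * HH d F0) + (4 * (X1 + X2) + 4 * (X3 + X4)) := by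
    calc (TT + 4 * HH d (F T)) + (4 * (X1 + X2) + 4 * (X3 + X4))
        = (TT + 4 * (X1 + X2)) + 4 * (HH d (F T) + (X3 + X4)) := by ring
      _ = (NN + 4 * (X3 + X4)) + 4 * (HH d F0 + (X1 + X2)) := by rw [hident, hE]
      _ = _ := by ring
  have hcancel : TT + 4 * HH d (F T) = NN + 4 * HH d F0 := (ENNReal.add_left_inj hfin).1 hsum
  have h44 : (4⁻¹ : ℝ≥0∞) * 4 = 1 := ENNReal.inv_mul_cancel (by norm_num) (by norm_num)
  have := congrArg (fun z => 4⁻¹ * z) hcancel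
  simp only [mul_add, ← mul_assoc, h44, one_mul] at this
  rw [add_comm (HH d (F T))]
  exact this

end MildSol

end Crest.Agent.R68
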