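import Crest.Agent.R68.EEnt7

/-!
R68 / EEnt8: the entropy inequality for mild solutions, limit δ → 0 (helper211, Part E).
-/

set_option autoImplicit false
open MeasureTheory Filter Topology
open scoped ENNReal
open Crest.AnalysisR.VecCalc3 Crest.AnalysisR.PDE.Boltzmann

namespace Crest.Agent.R68

theorem relEntropy_eq (f : R3 → R3 → ℝ) : relEntropy f = HH 0 f := by
  unfold relEntropy HH muC
  refine lintegral_congr fun q => ?_
  rw [entD_zero (maxwellian_pos _)]

theorem measurable_entD' {d : ℝ} {f : R3 → R3 → ℝ}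
    (hf : Measurable (fun q : R3 × R3 => f q.1 q.2)) :
    Measurable (fun q : R3 × R3 => entD d (f q.1 q.2) (maxwellian q.2)) := by
  have hM : Measurable (fun q : R3 × R3 => maxwellian q.2) := by fun_prop
  have h1 : Measurable (fun q : R3 × R3 => f q.1 q.2 / maxwellian q.2 + d) :=
    (hf.div hM).add_const d
  unfold entD
  exact hM.mul (((h1.mul (Real.measurable_log.comp h1)).sub h1).add_const 1)

theorem nuA_iter {T : ℝ} {G : ℝ × R3 × R3 → ℝ≥0∞} (hG : Measurable G) :
    ∫⁻ p, G p ∂nuA (Set.Ioc 0 T) = ∫⁻ s in Set.Ioo 0 T, ∫⁻ x in cell, ∫⁻ v, G (s, x, v) := by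
  rw [← nuA_Ioo_Ioc, lintegral_nuA hG]
  refine lintegral_congr fun s => ?_
  exact lintegral_muC' (G := fun q => G (s, q)) (hG.comp (measurable_const.prodMk measurable_id))

/-- the sequence δ_n = 1/(n+1) -/
noncomputable def dn (n : ℕ) : ℝ := 1 / ((n : ℝ) + 1)

theorem dn_pos (n : ℕ) : 0 < dn n := by unfold dn; positivity
theorem dn_le_one (n : ℕ) : dn n ≤ 1 := by
  unfold dn
  rw [div_le_one (by positivity)]
  linarith [(Nat.cast_nonneg n : (0 : ℝ) ≤ n)]
theorem dn_tendsto : Tendsto dn atTop (𝓝 0) := tendsto_one_div_add_atTop_nhds_zero_nat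

/-- Fatou for the regularised entropies -/
theorem relEntropy_le_liminf {f : R3 → R3 → ℝ} (hf : Measurable (fun q : R3 × R3 => f q.1 q.2)) :
    relEntropy f ≤ liminf (fun n => HH (dn n) f) atTop := by
  rw [relEntropy_eq]
  unfold HH
  have h1 : ∀ q : R3 × R3, ENNReal.ofReal (entD 0 (f q.1 q.2) (maxwellian q.2)) =
      liminf (fun n => ENNReal.ofReal (entD (dn n) (f q.1 q.2) (maxwellian q.2))) atTop := by
    intro q
    have := (ENNReal.continuous_ofReal.tendsto _).comp
      (tendsto_entD dn_tendsto (f q.1 q.2) (maxwellian q.2))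
    exact this.liminf_eq.symm
  simp_rw [h1]
  exact lintegral_liminf_le fun n => (measurable_entD' hf).ennreal_ofReal

variable {F : ℝ → R3 → R3 → ℝ} {F0 : R3 → R3 → ℝ} {R : ℝ}

namespace MildSol

/-- dominated convergence for the datum -/
theorem HH_datum_tendsto (h : MildSol F F0 R) :
    Tendsto (fun n => HH (dn n) F0) atTop (𝓝 (relEntropy F0)) := by
  rw [relEntropy_eq]
  unfold HH
  have hb := Crest.Agent.R68E.integrable_maxwellian_mu2.add
    (Crest.Agent.R68E.integrable_datum h (1 + cM) (by linarith [cM_nonneg]))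
  rw [Crest.Agent.R68E.mu2_eq_muC] at hb
  refine tendsto_lintegral_of_dominated_convergence _
    (fun n => (measurable_entD' h.datum.1).ennreal_ofReal) ?_ hb.lintegral_lt_top.ne ?_
  · intro n
    refine Eventually.of_forall fun q => ENNReal.ofReal_le_ofReal ?_
    have h0 : ∀ v, 0 ≤ F0 q.1 v := fun v => h.datum.2.1 q.1 v
    have := entD_bound' (dn_pos n).le (dn_le_one n) (f := F0 q.1) h0 q.2
    simpa [add_assoc] using this
  · refine Eventually.of_forall fun q => ?_
    exact (ENNReal.continuous_ofReal.tendsto _).comp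
      (tendsto_entD dn_tendsto (F0 q.1 q.2) (maxwellian q.2))

/-- the space-time first moment is finite -/
theorem mom1_time (h : MildSol F F0 R) (T : ℝ) :
    ∫⁻ s in Set.Ioo 0 T, ∫⁻ x in cell, mom1 (F s x) < ⊤ := by
  have h1 := h.moment_time T 1
  have hm : Measurable (fun p : ℝ × R3 × R3 =>
      ENNReal.ofReal (wt 1 p.2.2) * ENNReal.ofReal (F p.1 p.2.1 p.2.2)) :=
    (by fun_prop : Measurable fun p : ℝ × R3 × R3 => ENNReal.ofReal (wt 1 p.2.2)).mul
      (Measurable.ennreal_ofReal h.meas)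
  rw [nuA_iter hm] at h1
  have h3 : ∫⁻ s in Set.Ioo 0 T, ∫⁻ x in cell, mom1 (F s x) ≤
      ∫⁻ s in Set.Ioo 0 T, 2 * ∫⁻ x in cell, ∫⁻ v, ENNReal.ofReal (wt 1 v) *
        ENNReal.ofReal (F s x v) := by
    refine setLIntegral_mono' measurableSet_Ioo fun s hs => ?_
    rw [← lintegral_const_mul' _ _ (by norm_num)]
    refine lintegral_mono fun x => ?_
    rw [← lintegral_const_mul' _ _ (by norm_num)]
    unfold mom1
    refine lintegral_mono fun v => ?_
    have hF := h.nonneg s x v hs.1.le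
    have hw := one_le_wt 1 v
    have hn := norm_le_wt_one v
    have e3 : ENNReal.ofReal (2 * (wt 1 v * F s x v)) =
        2 * (ENNReal.ofReal (wt 1 v) * ENNReal.ofReal (F s x v)) := by
      rw [ENNReal.ofReal_mul (by norm_num), ENNReal.ofReal_mul (by linarith)]
      congr 1
      norm_num
    rw [← e3]
    refine ENNReal.ofReal_le_ofReal ?_
    nlinarith
  refine lt_of_le_of_lt h3 ?_
  rw [lintegral_const_mul' _ _ (by norm_num)]
  exact ENNReal.mul_lt_top (by norm_num) h1

/-- bound of the error term -/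
theorem error_le (h : MildSol F F0 R) (T : ℝ) {d : ℝ} (hd : 0 ≤ d) (hd1 : d ≤ 1) :
    ∫⁻ s in Set.Ioo 0 T, ∫⁻ x in cell, tri (kN d (F s x)) ≤
      ENNReal.ofReal d * (4 * (sM * m1M) * (∫⁻ s in Set.Ioo 0 T, ∫⁻ x in cell, mom1 (F s x)) +
        ∫⁻ _ in Set.Ioo 0 T, ∫⁻ _ in cell, 2 * (sM * (m1M * m1M))) := by
  have hmom : Measurable (fun q : ℝ × R3 => mom1 (F q.1 q.2)) := by
    unfold mom1
    refine Measurable.lintegral_prod_right' (f := fun q : (ℝ × R3) × R3 =>
      ENNReal.ofReal ((1 + ‖q.2‖) * F q.1.1 q.1.2 q.2)) ?_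
    exact ((by fun_prop : Measurable fun q : (ℝ × R3) × R3 => 1 + ‖q.2‖).mul
      h.meas.par).ennreal_ofReal
  have hmomx : ∀ s, Measurable (fun x : R3 => mom1 (F s x)) := fun s =>
    hmom.comp (measurable_const.prodMk measurable_id)
  have hmoms : Measurable (fun s : ℝ => ∫⁻ x in cell, mom1 (F s x)) :=
    Measurable.lintegral_prod_right' (f := fun q : ℝ × R3 => mom1 (F q.1 q.2)) hmom
  have hc : (sM * m1M) ≠ ⊤ := ENNReal.mul_ne_top sM_lt_top.ne m1M_lt_top.ne
  calc ∫⁻ s in Set.Ioo 0 T, ∫⁻ x in cell, tri (kN d (F s x))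
      ≤ ∫⁻ s in Set.Ioo 0 T, ∫⁻ x in cell, ENNReal.ofReal d *
          (4 * (sM * m1M) * mom1 (F s x) + 2 * (sM * (m1M * m1M))) := by
        refine setLIntegral_mono' measurableSet_Ioo fun s hs => lintegral_mono fun x => ?_
        refine (tri_kN_le hd hd1 (h.meas.slice2 s x) (fun v => h.nonneg s x v hs.1.le)).trans ?_
        apply le_of_eq
        ring
    _ = _ := by
        have e1 : ∀ s, ∫⁻ x in cell, ENNReal.ofReal d *
            (4 * (sM * m1M) * mom1 (F s x) + 2 * (sM * (m1M * m1M))) =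
            ENNReal.ofReal d * (4 * (sM * m1M) * (∫⁻ x in cell, mom1 (F s x)) +
              ∫⁻ _ in cell, 2 * (sM * (m1M * m1M))) := by
          intro s
          rw [lintegral_const_mul' _ _ ENNReal.ofReal_ne_top,
            lintegral_add_left ((hmomx s).const_mul _), lintegral_const_mul _ (hmomx s)]
        simp_rw [e1]
        rw [lintegral_const_mul' _ _ ENNReal.ofReal_ne_top,
          lintegral_add_left (hmoms.const_mul _), lintegral_const_mul _ hmoms]

/-- the error term tends to zero -/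
theorem error_tendsto (h : MildSol F F0 R) (T : ℝ) :
    Tendsto (fun n => 4⁻¹ * ∫⁻ s in Set.Ioo 0 T, ∫⁻ x in cell, tri (kN (dn n) (F s x)))
      atTop (𝓝 0) := by
  set C : ℝ≥0∞ := 4 * (sM * m1M) * (∫⁻ s in Set.Ioo 0 T, ∫⁻ x in cell, mom1 (F s x)) +
        ∫⁻ _ in Set.Ioo 0 T, ∫⁻ _ in cell, 2 * (sM * (m1M * m1M)) with hC
  have hCfin : C ≠ ⊤ := by
    rw [hC]
    refine ENNReal.add_ne_top.2 ⟨?_, ?_⟩
    · refine ENNReal.mul_ne_top (ENNReal.mul_ne_top (by norm_num)
        (ENNReal.mul_ne_top sM_lt_top.ne m1M_lt_top.ne)) (h.mom1_time T).ne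
    · rw [lintegral_const, lintegral_const]
      refine ENNReal.mul_ne_top (ENNReal.mul_ne_top (ENNReal.mul_ne_top (by norm_num)
        (ENNReal.mul_ne_top sM_lt_top.ne (ENNReal.mul_ne_top m1M_lt_top.ne m1M_lt_top.ne))) ?_) ?_
      · have := Crest.Agent.R68E.finite_cell
        exact measure_ne_top _ _
      · simp
  have hlim : Tendsto (fun n => 4⁻¹ * (ENNReal.ofReal (dn n) * C)) atTop (𝓝 0) := by
    have h1 : Tendsto (fun n => ENNReal.ofReal (dn n)) atTop (𝓝 0) := by
      have := (ENNReal.continuous_ofReal.tendsto 0).comp dn_tendsto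
      rw [ENNReal.ofReal_zero] at this
      exact this
    have h2 := ENNReal.Tendsto.mul_const h1 (Or.inr hCfin)
    have h3 := ENNReal.Tendsto.const_mul (a := (4⁻¹ : ℝ≥0∞)) h2 (Or.inr (by simp))
    simpa using h3
  refine tendsto_of_tendsto_of_tendsto_of_le_of_le tendsto_const_nhds hlim
    (fun _ => zero_le) (fun n => ?_)
  exact mul_le_mul' le_rfl (h.error_le T (dn_pos n).le (dn_le_one n))

/-- **The entropy inequality with dissipation** for mild solutions. -/
theorem entropy_ineq (h : MildSol F F0 R) {T : ℝ} (hT : 0 ≤ T) :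
    relEntropy (F T) + (∫⁻ s in Set.Icc 0 T, dissipation (F s)) ≤ relEntropy F0 := by
  rcases hT.eq_or_lt with rfl | hT
  · have e : relEntropy (F 0) = relEntropy F0 := by
      unfold relEntropy
      simp_rw [h.init]
    rw [e]
    simp
  · have h1 := relEntropy_le_liminf (h.measurable_F T)
    have h2 := dissipation_liminf h.meas h.nonneg dn_pos dn_tendsto T
    refine (add_le_add h1 h2).trans ((liminf_add_ge _ _).trans ?_)
    have h3 : ∀ n, HH (dn n) (F T) + 4⁻¹ * (∫⁻ s in Set.Ioo 0 T, ∫⁻ x in cell,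
        tri (kEN (dn n) (F s x))) = 4⁻¹ * (∫⁻ s in Set.Ioo 0 T, ∫⁻ x in cell,
        tri (kN (dn n) (F s x))) + HH (dn n) F0 := fun n =>
      h.balance hT (dn_pos n) (dn_le_one n)
    simp_rw [h3]
    have h4 := (h.error_tendsto T).add h.HH_datum_tendsto
    rw [zero_add] at h4
    exact h4.liminf_eq.le

end MildSol

end Crest.Agent.R68
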