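import Crest.Agent.R68.EEnt8

/-!
R68 / EEnt9: the bound of mass, energy and `∫ F |log F|` (helper211, Part E).
-/

set_option autoImplicit false
open MeasureTheory Filter Topology
open scoped ENNReal
open Crest.AnalysisR.VecCalc3 Crest.AnalysisR.PDE.Boltzmann

namespace Crest.Agent.R68

/-- `z |log z| ≤ ent + 2 z (1+|v|²) + 2 exp(-(1+|v|²)/2)` -/
theorem abs_log_bound {z : ℝ} (hz : 0 ≤ z) (v : R3) :
    z * |Real.log z| ≤ entD 0 z (maxwellian v) + 2 * (z * (1 + ‖v‖ ^ 2)) +
      2 * Real.exp (-(1 / 4) * ‖v‖ ^ 2) := by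
  have hM := maxwellian_pos v
  have hent := entD_nonneg (d := 0) le_rfl hz hM
  have hv := sq_nonneg ‖v‖
  have hexp := Real.exp_pos (-(1 / 4) * ‖v‖ ^ 2)
  have hzv : 0 ≤ z * (1 + ‖v‖ ^ 2) := by positivity
  rcases hz.eq_or_lt with rfl | hz0
  · rw [zero_mul]; positivity
  rcases le_total 1 z with h1 | h1
  · -- z ≥ 1
    rw [abs_of_nonneg (Real.log_nonneg h1)]
    rw [entD_zero hM, Real.log_div hz0.ne' hM.ne']
    have hlM : Real.log (maxwellian v) ≤ 0 := by
      refine Real.log_nonpos hM.le ?_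
      unfold maxwellian
      have e1 : (2 * Real.pi) ^ (-(3 / 2 : ℝ)) ≤ 1 := by
        refine Real.rpow_le_one_of_one_le_of_nonpos ?_ (by norm_num)
        have := Real.pi_gt_three
        linarith
      have e2 : Real.exp (-‖v‖ ^ 2 / 2) ≤ 1 := Real.exp_le_one_iff.2 (by nlinarith)
      have e3 : 0 ≤ (2 * Real.pi) ^ (-(3 / 2 : ℝ)) := by positivity
      nlinarith [Real.exp_pos (-‖v‖ ^ 2 / 2)]
    have : z * Real.log (maxwellian v) ≤ 0 := mul_nonpos_of_nonneg_of_nonpos hz hlM
    nlinarith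
  · -- z ≤ 1
    have hlog : Real.log z ≤ 0 := Real.log_nonpos hz h1
    rw [abs_of_nonpos hlog]
    rcases le_total (Real.exp (-(1 + ‖v‖ ^ 2))) z with h2 | h2
    · have h3 : -(1 + ‖v‖ ^ 2) ≤ Real.log z := by
        rw [← Real.log_exp (-(1 + ‖v‖ ^ 2))]
        exact Real.log_le_log (Real.exp_pos _) h2
      have h4 : z * -Real.log z ≤ z * (1 + ‖v‖ ^ 2) :=
        mul_le_mul_of_nonneg_left (by linarith) hz
      linarith
    · -- z small
      have hs0 : 0 < Real.sqrt z := Real.sqrt_pos.2 hz0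
      have hs : Real.sqrt z * Real.sqrt z = z := Real.mul_self_sqrt hz
      have h3 : -Real.log z ≤ 2 * (1 / Real.sqrt z) := by
        have h5 := Real.one_sub_inv_le_log_of_pos hs0
        have h6 : Real.log z = 2 * Real.log (Real.sqrt z) := by
          rw [Real.log_sqrt hz]; ring
        rw [h6]
        rw [one_div]
        linarith
      have h4 : z * -Real.log z ≤ 2 * Real.sqrt z := by
        calc z * -Real.log z ≤ z * (2 * (1 / Real.sqrt z)) := mul_le_mul_of_nonneg_left h3 hz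
          _ = 2 * Real.sqrt z := by
            nth_rewrite 1 [← hs]
            field_simp
      have h5 : Real.sqrt z ≤ Real.exp (-(1 / 4) * ‖v‖ ^ 2) := by
        have h6 : Real.sqrt z ≤ Real.sqrt (Real.exp (-(1 + ‖v‖ ^ 2))) := Real.sqrt_le_sqrt h2
        have h7 : Real.sqrt (Real.exp (-(1 + ‖v‖ ^ 2))) = Real.exp (-(1 + ‖v‖ ^ 2) / 2) := by
          rw [Real.exp_half]
        rw [h7] at h6
        refine h6.trans (Real.exp_le_exp.2 ?_)
        nlinarith
      linarith

variable {F : ℝ → R3 → R3 → ℝ} {F0 : R3 → R3 → ℝ} {R : ℝ}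

namespace MildSol

theorem relEntropy_datum_lt_top (h : MildSol F F0 R) : relEntropy F0 < ⊤ := by
  rw [relEntropy_eq]
  have hi := Crest.Agent.R68E.integrable_entD_datum h (δ := 0) le_rfl zero_le_one
  rw [Crest.Agent.R68E.mu2_eq_muC] at hi
  exact hi.lintegral_lt_top

/-- the mass-energy-entropy bound, in the exact form of `IsGlobalSolution` -/
theorem mass_energy_entropy (h : MildSol F F0 R) (T : ℝ) :
    ∃ C : ℝ≥0∞, C < ⊤ ∧ ∀ t ∈ Set.Icc 0 T,
      (∫⁻ q in cell ×ˢ Set.univ, ENNReal.ofReal (F t q.1 q.2 *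
        (1 + ‖q.2‖ ^ 2 + |Real.log (F t q.1 q.2)|)) ∂(volume : Measure (R3 × R3))) ≤ C := by
  have hexpI : Integrable (fun q : R3 × R3 => 2 * Real.exp (-(1 / 4) * ‖q.2‖ ^ 2)) muC := by
    rw [muC_eq]
    have := Crest.Agent.R68E.finite_cell
    have h1 := (integrable_const (1 : ℝ) (μ := (volume : Measure R3).restrict cell)).mul_prod
      integrable_exp_quarter
    have h2 := h1.const_mul 2
    simpa using h2
  refine ⟨relEntropy F0 + 3 * momB F F0 T 2 +
    ∫⁻ q, ENNReal.ofReal (2 * Real.exp (-(1 / 4) * ‖q.2‖ ^ 2)) ∂muC, ?_, ?_⟩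
  · refine ENNReal.add_lt_top.2 ⟨ENNReal.add_lt_top.2 ⟨h.relEntropy_datum_lt_top, ?_⟩,
      hexpI.lintegral_lt_top⟩
    exact ENNReal.mul_lt_top (by norm_num) (h.momB_lt_top T 2)
  · intro t ht
    change ∫⁻ q, ENNReal.ofReal (F t q.1 q.2 * (1 + ‖q.2‖ ^ 2 + |Real.log (F t q.1 q.2)|)) ∂muC ≤ _
    have hF := h.measurable_F t
    have hent : relEntropy (F t) ≤ relEntropy F0 :=
      le_trans le_self_add (h.entropy_ineq ht.1)
    rw [relEntropy_eq] at hent
    have hmom := h.moment_le ht.1 ht.2 2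
    have mE : Measurable (fun q : R3 × R3 =>
        ENNReal.ofReal (entD 0 (F t q.1 q.2) (maxwellian q.2))) :=
      (measurable_entD' hF).ennreal_ofReal
    have mM : Measurable (fun q : R3 × R3 =>
        ENNReal.ofReal (wt 2 q.2) * ENNReal.ofReal (F t q.1 q.2)) :=
      (by fun_prop : Measurable fun q : R3 × R3 => ENNReal.ofReal (wt 2 q.2)).mul
        hF.ennreal_ofReal
    calc ∫⁻ q, ENNReal.ofReal (F t q.1 q.2 * (1 + ‖q.2‖ ^ 2 + |Real.log (F t q.1 q.2)|)) ∂muC
        ≤ ∫⁻ q, (ENNReal.ofReal (entD 0 (F t q.1 q.2) (maxwellian q.2)) +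
            3 * (ENNReal.ofReal (wt 2 q.2) * ENNReal.ofReal (F t q.1 q.2)) +
            ENNReal.ofReal (2 * Real.exp (-(1 / 4) * ‖q.2‖ ^ 2))) ∂muC := by
          refine lintegral_mono fun q => ?_
          have hz := h.nonneg t q.1 q.2 ht.1
          have hb := abs_log_bound hz q.2
          have hw := wt_two q.2
          have hE := entD_nonneg (d := 0) le_rfl hz (maxwellian_pos q.2)
          have e3 : ENNReal.ofReal (3 * (wt 2 q.2 * F t q.1 q.2)) =
              3 * (ENNReal.ofReal (wt 2 q.2) * ENNReal.ofReal (F t q.1 q.2)) := by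
            rw [ENNReal.ofReal_mul (by norm_num), ENNReal.ofReal_mul (wt_pos 2 q.2).le]
            congr 1
            norm_num
          have hwF : 0 ≤ 3 * (wt 2 q.2 * F t q.1 q.2) := by
            have := (wt_pos 2 q.2).le
            positivity
          rw [← e3, ← ENNReal.ofReal_add hE hwF, ← ENNReal.ofReal_add (add_nonneg hE hwF)
            (by positivity)]
          refine ENNReal.ofReal_le_ofReal ?_
          rw [hw]
          nlinarith
      _ = (∫⁻ q, ENNReal.ofReal (entD 0 (F t q.1 q.2) (maxwellian q.2)) ∂muC) +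
            3 * (∫⁻ q, ENNReal.ofReal (wt 2 q.2) * ENNReal.ofReal (F t q.1 q.2) ∂muC) +
            ∫⁻ q, ENNReal.ofReal (2 * Real.exp (-(1 / 4) * ‖q.2‖ ^ 2)) ∂muC := by
          have mS : Measurable (fun q : R3 × R3 =>
              ENNReal.ofReal (entD 0 (F t q.1 q.2) (maxwellian q.2)) +
              3 * (ENNReal.ofReal (wt 2 q.2) * ENNReal.ofReal (F t q.1 q.2))) :=
            mE.add (mM.const_mul 3)
          rw [lintegral_add_left mS, lintegral_add_left mE, lintegral_const_mul _ mM]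
      _ ≤ _ := by
          refine add_le_add (add_le_add hent ?_) le_rfl
          exact mul_le_mul' le_rfl hmom

end MildSol

end Crest.Agent.R68
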