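import Crest.Agent.R68.EEnt8

/-!
R68 / EEntOn: the entropy inequality on a fixed time interval with explicit hypotheses
(helper211, Part E, local version).
-/

set_option autoImplicit false
open MeasureTheory Filter Topology
open scoped ENNReal
open Crest.AnalysisR.VecCalc3 Crest.AnalysisR.PDE.Boltzmann

namespace Crest.Agent.R68.On

/-- **Fatou for the dissipation** -/
theorem dissipation_liminf {F : ℝ → R3 → R3 → ℝ} (hF : MeasF F) (T : ℝ)
    (hn : ∀ t x v, 0 ≤ t → t ≤ T → 0 ≤ F t x v) {d : ℕ → ℝ} (hd : ∀ n, 0 < d n)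
    (hd0 : Tendsto d atTop (𝓝 0)) :
    ∫⁻ s in Set.Icc 0 T, dissipation (F s) ≤
      liminf (fun n => 4⁻¹ * ∫⁻ s in Set.Ioo 0 T, ∫⁻ x in cell, tri (kEN (d n) (F s x))) atTop := by
  have e1 : ∫⁻ s in Set.Icc 0 T, dissipation (F s) = ∫⁻ s in Set.Ioo 0 T, dissipation (F s) := by
    rw [Measure.restrict_congr_set Ioo_ae_eq_Icc]
  rw [e1]
  have hmT : ∀ n, Measurable (fun q : ℝ × R3 => tri (kEN (d n) (F q.1 q.2))) := fun n =>
    measurable_tri (K := fun q : ℝ × R3 => kEN (d n) (F q.1 q.2))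
      (measurable_kEN_par (α := ℝ × R3) (g := fun q => F q.1 q.2) (d n) hF.par)
  have hmT2 : ∀ n, Measurable (fun s : ℝ => ∫⁻ x in cell, tri (kEN (d n) (F s x))) := fun n =>
    Measurable.lintegral_prod_right' (f := fun q : ℝ × R3 => tri (kEN (d n) (F q.1 q.2))) (hmT n)
  calc ∫⁻ s in Set.Ioo 0 T, dissipation (F s)
      ≤ ∫⁻ s in Set.Ioo 0 T, liminf (fun n => 4⁻¹ * ∫⁻ x in cell, tri (kEN (d n) (F s x)))
          atTop := by
        refine setLIntegral_mono' measurableSet_Ioo fun s hs => ?_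
        rw [dissipation_eq (hF.slice s)]
        have h4 : (4⁻¹ : ℝ≥0∞) ≠ ⊤ := by simp
        calc 4⁻¹ * ∫⁻ x in cell, tri (kD (F s x))
            ≤ 4⁻¹ * ∫⁻ x in cell, liminf (fun n => tri (kEN (d n) (F s x))) atTop := by
              gcongr with x
              exact tri_kD_le hd hd0 (hF.slice2 s x) (fun v => hn s x v hs.1.le hs.2.le)
          _ ≤ 4⁻¹ * liminf (fun n => ∫⁻ x in cell, tri (kEN (d n) (F s x))) atTop := by
              gcongr
              exact lintegral_liminf_le fun n => (hmT n).comp (measurable_const.prodMk measurable_id)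
          _ = liminf (fun n => 4⁻¹ * ∫⁻ x in cell, tri (kEN (d n) (F s x))) atTop := by
              exact (ENNReal.liminf_const_mul_of_ne_top h4).symm
    _ ≤ liminf (fun n => ∫⁻ s in Set.Ioo 0 T, 4⁻¹ * ∫⁻ x in cell, tri (kEN (d n) (F s x)))
          atTop := by
        exact lintegral_liminf_le fun n => (hmT2 n).const_mul _
    _ = liminf (fun n => 4⁻¹ * ∫⁻ s in Set.Ioo 0 T, ∫⁻ x in cell, tri (kEN (d n) (F s x)))
          atTop := by
        congr 1
        funext n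
        rw [lintegral_const_mul _ (hmT2 n)]


theorem integrable_datum' {F₀ : R3 → R3 → ℝ} {R : ℝ} (hD : IsAdmissibleDatum F₀ R) (C : ℝ)
    (hC : 0 ≤ C) :
    Integrable (fun q : R3 × R3 => F₀ q.1 q.2 * (C + ‖q.2‖ ^ 2 / 2 +
      Real.log (1 + F₀ q.1 q.2))) muC := by
  have hd := hD.2.2.2.2
  have hm : Measurable (fun q : R3 × R3 => F₀ q.1 q.2) := hD.1
  refine ⟨?_, ?_⟩
  · refine Measurable.aestronglyMeasurable ?_
    exact hm.mul ((measurable_const.add (by fun_prop)).add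
      (Real.measurable_log.comp (measurable_const.add hm)))
  · unfold HasFiniteIntegral
    have hle : ∀ q : R3 × R3, ‖F₀ q.1 q.2 * (C + ‖q.2‖ ^ 2 / 2 + Real.log (1 + F₀ q.1 q.2))‖ₑ ≤
        ENNReal.ofReal (C + 2) * ENNReal.ofReal (F₀ q.1 q.2 *
          (1 + ‖q.2‖ ^ 2 + |Real.log (F₀ q.1 q.2)|)) := by
      intro q
      have h0 := hD.2.1 q.1 q.2
      set z := F₀ q.1 q.2 with hz
      have hl0 : 0 ≤ Real.log (1 + z) := Real.log_nonneg (by linarith)
      have hl1 : Real.log (1 + z) ≤ 1 + |Real.log z| := by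
        rcases le_total z 1 with h1 | h1
        · have : Real.log (1 + z) ≤ Real.log 2 := Real.log_le_log (by linarith) (by linarith)
          have h2 := Real.log_two_lt_d9
          have h3 := abs_nonneg (Real.log z)
          linarith
        · have : Real.log (1 + z) ≤ Real.log (2 * z) := Real.log_le_log (by linarith) (by linarith)
          rw [Real.log_mul (by norm_num) (by linarith)] at this
          have h2 := Real.log_two_lt_d9
          have h3 := le_abs_self (Real.log z)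
          linarith
      rw [← ENNReal.ofReal_mul (by linarith), ← ofReal_norm, Real.norm_eq_abs]
      refine ENNReal.ofReal_le_ofReal ?_
      have hsq : 0 ≤ ‖q.2‖ ^ 2 := by positivity
      have habs := abs_nonneg (Real.log z)
      rw [abs_of_nonneg (mul_nonneg h0 (by positivity))]
      have : z * (C + ‖q.2‖ ^ 2 / 2 + Real.log (1 + z)) ≤
          z * ((C + 2) * (1 + ‖q.2‖ ^ 2 + |Real.log z|)) := by
        refine mul_le_mul_of_nonneg_left ?_ h0
        nlinarith [mul_nonneg hC hsq, mul_nonneg hC habs]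
      linarith
    refine lt_of_le_of_lt (lintegral_mono hle) ?_
    rw [lintegral_const_mul' _ _ ENNReal.ofReal_ne_top]
    exact ENNReal.mul_lt_top ENNReal.ofReal_lt_top hd

/-- dominated convergence for the datum -/
theorem HH_datum_tendsto' {F0 : R3 → R3 → ℝ} {R : ℝ} (hD : IsAdmissibleDatum F0 R) :
    Tendsto (fun n => HH (dn n) F0) atTop (𝓝 (relEntropy F0)) := by
  rw [relEntropy_eq]
  unfold HH
  have hM2 := Crest.Agent.R68E.integrable_maxwellian_mu2
  rw [Crest.Agent.R68E.mu2_eq_muC] at hM2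
  have hb := hM2.add
    (integrable_datum' hD (1 + cM) (by linarith [cM_nonneg]))
  refine tendsto_lintegral_of_dominated_convergence _
    (fun n => (measurable_entD' hD.1).ennreal_ofReal) ?_ hb.lintegral_lt_top.ne ?_
  · intro n
    refine Eventually.of_forall fun q => ENNReal.ofReal_le_ofReal ?_
    have h0 : ∀ v, 0 ≤ F0 q.1 v := fun v => hD.2.1 q.1 v
    have := entD_bound' (dn_pos n).le (dn_le_one n) (f := F0 q.1) h0 q.2
    simpa [add_assoc] using this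
  · refine Eventually.of_forall fun q => ?_
    exact (ENNReal.continuous_ofReal.tendsto _).comp
      (tendsto_entD dn_tendsto (F0 q.1 q.2) (maxwellian q.2))

/-- the hypotheses on the fixed interval `[0,T]` -/
structure Hyp (F : ℝ → R3 → R3 → ℝ) (F0 : R3 → R3 → ℝ) (R T : ℝ) : Prop where
  meas : MeasF F
  nonneg : ∀ t x v, 0 ≤ t → t ≤ T → 0 ≤ F t x v
  datum : IsAdmissibleDatum F0 R
  int2 : ∫⁻ p, ENNReal.ofReal (1 + ‖p.2.2‖ ^ 2 + Real.log (1 + F p.1 p.2.1 p.2.2)) *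
      gl F p.1 p.2 ∂nuA (Set.Ioc 0 T) < ⊤
  mom : ∫⁻ p, ENNReal.ofReal (wt 1 p.2.2) * ENNReal.ofReal (F p.1 p.2.1 p.2.2)
      ∂nuA (Set.Ioc 0 T) < ⊤

variable {F : ℝ → R3 → R3 → ℝ} {F0 : R3 → R3 → ℝ} {R T : ℝ}

namespace Hyp

theorem meas_gl (h : Hyp F F0 R T) : Measurable (fun p : ℝ × R3 × R3 => gl F p.1 p.2) :=
  (h.meas.collGain).add (h.meas.collLoss)

theorem measurable_F (h : Hyp F F0 R T) (t : ℝ) :
    Measurable (fun q : R3 × R3 => F t q.1 q.2) := h.meas.slice t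

theorem meas_Phi (h : Hyp F F0 R T) (d : ℝ) :
    Measurable (fun p : ℝ × R3 × R3 => Phi d (F p.1 p.2.1) p.2.2) := by
  unfold Phi
  have h1 : Measurable (fun p : ℝ × R3 × R3 => F p.1 p.2.1 p.2.2) := h.meas
  exact ((h1.div (by fun_prop)).add_const d).log

theorem meas_Pp (h : Hyp F F0 R T) (d : ℝ) :
    Measurable (fun p : ℝ × R3 × R3 => Pp d (F p.1 p.2.1) p.2.2) :=
  (h.meas_Phi d).ennreal_ofReal

theorem meas_Pm (h : Hyp F F0 R T) (d : ℝ) :
    Measurable (fun p : ℝ × R3 × R3 => Pm d (F p.1 p.2.1) p.2.2) :=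
  (h.meas_Phi d).neg.ennreal_ofReal

/-- `|Φ|` is integrable against the total collision rate -/
theorem Phi_gl_lt_top (h : Hyp F F0 R T) {d : ℝ} (hd : 0 < d) (hd1 : d ≤ 1) :
    ∫⁻ p, ENNReal.ofReal |Phi d (F p.1 p.2.1) p.2.2| * gl F p.1 p.2 ∂nuA (Set.Ioc 0 T) < ⊤ := by
  set C : ℝ := |Real.log d| + cM + 1 with hC
  have hC0 : 0 ≤ C := by have := cM_nonneg; have := abs_nonneg (Real.log d); positivity
  have hI := h.int2
  have hb : ∫⁻ p, ENNReal.ofReal |Phi d (F p.1 p.2.1) p.2.2| * gl F p.1 p.2 ∂nuA (Set.Ioc 0 T) ≤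
      ∫⁻ p, ENNReal.ofReal C * (ENNReal.ofReal (1 + ‖p.2.2‖ ^ 2 +
        Real.log (1 + F p.1 p.2.1 p.2.2)) * gl F p.1 p.2) ∂nuA (Set.Ioc 0 T) := by
    refine lintegral_mono_ae ?_
    filter_upwards [ae_nuA_mem (A := Set.Ioc 0 T) measurableSet_Ioc] with p hp
    have hn : ∀ v, 0 ≤ F p.1 p.2.1 v := fun v => h.nonneg _ _ _ hp.1.1.le hp.1.2
    have h1 := abs_Phi_le hd hd1 hn p.2.2
    have hl : 0 ≤ Real.log (1 + F p.1 p.2.1 p.2.2) := Real.log_nonneg (by linarith [hn p.2.2])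
    have h3 : |Phi d (F p.1 p.2.1) p.2.2| ≤ C * (1 + ‖p.2.2‖ ^ 2 +
        Real.log (1 + F p.1 p.2.1 p.2.2)) := by
      have hc := cM_nonneg
      have ha := abs_nonneg (Real.log d)
      have hv := sq_nonneg ‖p.2.2‖
      rw [hC]
      nlinarith [mul_nonneg (add_nonneg ha hc) hv, mul_nonneg (add_nonneg ha hc) hl]
    rw [← mul_assoc, ← ENNReal.ofReal_mul hC0]
    exact mul_le_mul' (ENNReal.ofReal_le_ofReal h3) le_rfl
  refine lt_of_le_of_lt hb ?_
  rw [lintegral_const_mul' _ _ ENNReal.ofReal_ne_top]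
  exact ENNReal.mul_lt_top ENNReal.ofReal_lt_top hI

/-- the four ENNReal integrals -/
theorem X_lt_top (h : Hyp F F0 R T) {d : ℝ} (hd : 0 < d) (hd1 : d ≤ 1)
    {A : ℝ × R3 × R3 → ℝ≥0∞} {B : ℝ × R3 × R3 → ℝ≥0∞}
    (hA : ∀ p, A p ≤ ENNReal.ofReal |Phi d (F p.1 p.2.1) p.2.2|) (hB : ∀ p, B p ≤ gl F p.1 p.2) :
    ∫⁻ p, A p * B p ∂nuA (Set.Ioc 0 T) < ⊤ :=
  lt_of_le_of_lt (lintegral_mono fun p => mul_le_mul' (hA p) (hB p)) (h.Phi_gl_lt_top hd hd1)

/-- integrated entropy identity in `ℝ≥0∞` -/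
theorem integrated_ident (h : Hyp F F0 R T) {d : ℝ} (hd : 0 < d) :
    (∫⁻ s in Set.Ioo 0 T, ∫⁻ x in cell, tri (kEN d (F s x))) +
      4 * ((∫⁻ p, Pp d (F p.1 p.2.1) p.2.2 * collGain F p.1 p.2.1 p.2.2 ∂nuA (Set.Ioc 0 T)) +
        ∫⁻ p, Pm d (F p.1 p.2.1) p.2.2 * collLoss F p.1 p.2.1 p.2.2 ∂nuA (Set.Ioc 0 T)) =
    (∫⁻ s in Set.Ioo 0 T, ∫⁻ x in cell, tri (kN d (F s x))) +
      4 * ((∫⁻ p, Pp d (F p.1 p.2.1) p.2.2 * collLoss F p.1 p.2.1 p.2.2 ∂nuA (Set.Ioc 0 T)) +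
        ∫⁻ p, Pm d (F p.1 p.2.1) p.2.2 * collGain F p.1 p.2.1 p.2.2 ∂nuA (Set.Ioc 0 T)) := by
  have hg := h.meas.collGain
  have hl := h.meas.collLoss
  have hp := h.meas_Pp d
  have hm := h.meas_Pm d
  have key : ∀ (G : ℝ × R3 × R3 → ℝ≥0∞), Measurable G →
      ∫⁻ p, G p ∂nuA (Set.Ioc 0 T) = ∫⁻ s in Set.Ioo 0 T, ∫⁻ x in cell, ∫⁻ v, G (s, x, v) := by
    intro G hG
    rw [← nuA_Ioo_Ioc, lintegral_nuA hG]
    refine lintegral_congr fun s => ?_
    exact lintegral_muC' (G := fun q => G (s, q)) (hG.comp (measurable_const.prodMk measurable_id))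
  have mK1 : Measurable (fun q : ℝ × R3 => tri (kEN d (F q.1 q.2))) :=
    measurable_tri (K := fun q : ℝ × R3 => kEN d (F q.1 q.2))
      (measurable_kEN_par (α := ℝ × R3) (g := fun q => F q.1 q.2) d h.meas.par)
  have mK2 : Measurable (fun q : ℝ × R3 => tri (kN d (F q.1 q.2))) :=
    measurable_tri (K := fun q : ℝ × R3 => kN d (F q.1 q.2))
      (measurable_kN_par (α := ℝ × R3) (g := fun q => F q.1 q.2) d h.meas.par)
  have mv : ∀ (G : ℝ × R3 × R3 → ℝ≥0∞), Measurable G →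
      Measurable (fun q : ℝ × R3 => ∫⁻ v, G (q.1, q.2, v)) := by
    intro G hG
    refine Measurable.lintegral_prod_right' (f := fun q : (ℝ × R3) × R3 => G (q.1.1, q.1.2, q.2)) ?_
    exact hG.comp (by fun_prop)
  rw [key (fun p => Pp d (F p.1 p.2.1) p.2.2 * collGain F p.1 p.2.1 p.2.2) (hp.mul hg),
    key (fun p => Pm d (F p.1 p.2.1) p.2.2 * collLoss F p.1 p.2.1 p.2.2) (hm.mul hl),
    key (fun p => Pp d (F p.1 p.2.1) p.2.2 * collLoss F p.1 p.2.1 p.2.2) (hp.mul hl),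
    key (fun p => Pm d (F p.1 p.2.1) p.2.2 * collGain F p.1 p.2.1 p.2.2) (hm.mul hg)]
  have a1 := mv (fun p => Pp d (F p.1 p.2.1) p.2.2 * collGain F p.1 p.2.1 p.2.2) (hp.mul hg)
  have a2 := mv (fun p => Pm d (F p.1 p.2.1) p.2.2 * collLoss F p.1 p.2.1 p.2.2) (hm.mul hl)
  have a3 := mv (fun p => Pp d (F p.1 p.2.1) p.2.2 * collLoss F p.1 p.2.1 p.2.2) (hp.mul hl)
  have a4 := mv (fun p => Pm d (F p.1 p.2.1) p.2.2 * collGain F p.1 p.2.1 p.2.2) (hm.mul hg)
  exact dbl_ident T mK1 mK2 a1 a2 a3 a4 fun s hs x =>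
    entropy_ident (F := F) (t := s) (x := x) (h.meas.slice2 s x)
      (fun v => h.nonneg s x v hs.1.le hs.2.le) hd

/-- regularised entropy balance in `ℝ≥0∞`. -/
theorem balance (h : Hyp F F0 R T) (hT : 0 < T) {d : ℝ} (hd : 0 < d) (hd1 : d ≤ 1)
    (hcb : CharBal F F0 T d) :
    HH d (F T) + 4⁻¹ * (∫⁻ s in Set.Ioo 0 T, ∫⁻ x in cell, tri (kEN d (F s x))) =
      4⁻¹ * (∫⁻ s in Set.Ioo 0 T, ∫⁻ x in cell, tri (kN d (F s x))) + HH d F0 := by
  obtain ⟨hiT, hi0, hbal⟩ := hcb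
  have hident := h.integrated_ident hd
  have hg := h.meas.collGain
  have hl := h.meas.collLoss
  have hp := h.meas_Pp d
  have hm := h.meas_Pm d
  have hPp : ∀ p : ℝ × R3 × R3, Pp d (F p.1 p.2.1) p.2.2 ≤
      ENNReal.ofReal |Phi d (F p.1 p.2.1) p.2.2| := fun p =>
    ENNReal.ofReal_le_ofReal (le_abs_self _)
  have hPm : ∀ p : ℝ × R3 × R3, Pm d (F p.1 p.2.1) p.2.2 ≤
      ENNReal.ofReal |Phi d (F p.1 p.2.1) p.2.2| := fun p =>
    ENNReal.ofReal_le_ofReal (neg_le_abs _)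
  have hG : ∀ p : ℝ × R3 × R3, collGain F p.1 p.2.1 p.2.2 ≤ gl F p.1 p.2 := fun p => le_self_add
  have hL : ∀ p : ℝ × R3 × R3, collLoss F p.1 p.2.1 p.2.2 ≤ gl F p.1 p.2 := fun p => le_add_self
  have f1 := h.X_lt_top hd hd1 hPp hG
  have f2 := h.X_lt_top hd hd1 hPm hL
  have f3 := h.X_lt_top hd hd1 hPp hL
  have f4 := h.X_lt_top hd hd1 hPm hG
  set X1 := ∫⁻ p, Pp d (F p.1 p.2.1) p.2.2 * collGain F p.1 p.2.1 p.2.2 ∂nuA (Set.Ioc 0 T)
  set X2 := ∫⁻ p, Pm d (F p.1 p.2.1) p.2.2 * collLoss F p.1 p.2.1 p.2.2 ∂nuA (Set.Ioc 0 T)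
  set X3 := ∫⁻ p, Pp d (F p.1 p.2.1) p.2.2 * collLoss F p.1 p.2.1 p.2.2 ∂nuA (Set.Ioc 0 T)
  set X4 := ∫⁻ p, Pm d (F p.1 p.2.1) p.2.2 * collGain F p.1 p.2.1 p.2.2 ∂nuA (Set.Ioc 0 T)
  set TT := ∫⁻ s in Set.Ioo 0 T, ∫⁻ x in cell, tri (kEN d (F s x))
  set NN := ∫⁻ s in Set.Ioo 0 T, ∫⁻ x in cell, tri (kN d (F s x))
  -- the real integral
  have hreal : ∫ p, Phi d (F p.1 p.2.1) p.2.2 * Qr F p.1 p.2 ∂nuA (Set.Ioc 0 T) =
      X1.toReal + X2.toReal - X3.toReal - X4.toReal := by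
    have q1 := integrable_toReal_of_lintegral_ne_top (hp.mul hg).aemeasurable f1.ne
    have q2 := integrable_toReal_of_lintegral_ne_top (hm.mul hl).aemeasurable f2.ne
    have q3 := integrable_toReal_of_lintegral_ne_top (hp.mul hl).aemeasurable f3.ne
    have q4 := integrable_toReal_of_lintegral_ne_top (hm.mul hg).aemeasurable f4.ne
    have i1 := integral_toReal (hp.mul hg).aemeasurable (ae_lt_top (hp.mul hg) f1.ne)
    have i2 := integral_toReal (hm.mul hl).aemeasurable (ae_lt_top (hm.mul hl) f2.ne)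
    have i3 := integral_toReal (hp.mul hl).aemeasurable (ae_lt_top (hp.mul hl) f3.ne)
    have i4 := integral_toReal (hm.mul hg).aemeasurable (ae_lt_top (hm.mul hg) f4.ne)
    simp only [Pi.mul_apply] at q1 q2 q3 q4 i1 i2 i3 i4
    rw [← i1, ← i2, ← i3, ← i4, ← int4 q1 q2 q3 q4]
    refine integral_congr_ae ?_
    refine Eventually.of_forall fun p => ?_
    simp only [ENNReal.toReal_mul, Qr, Pp, Pm, ENNReal.toReal_ofReal']
    have e : Phi d (F p.1 p.2.1) p.2.2 =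
        max (Phi d (F p.1 p.2.1) p.2.2) 0 - max (-Phi d (F p.1 p.2.1) p.2.2) 0 := by
      rcases le_total (Phi d (F p.1 p.2.1) p.2.2) 0 with hh | hh
      · rw [max_eq_right hh, max_eq_left (by linarith)]; ring
      · rw [max_eq_left hh, max_eq_right (by linarith)]; ring
    conv_lhs => rw [e]
    ring
  rw [hreal] at hbal
  have hnT : ∀ x v, 0 ≤ F T x v := fun x v => h.nonneg T x v hT.le le_rfl
  have eT := MildSol.ofReal_int_entD hd.le hnT hiT
  have e0 := MildSol.ofReal_int_entD hd.le (fun x v => h.datum.2.1 x v) hi0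
  have pT : 0 ≤ ∫ q, entD d (F T q.1 q.2) (maxwellian q.2) ∂muC :=
    integral_nonneg fun q => entD_nonneg hd.le (hnT _ _) (maxwellian_pos _)
  have p0 : 0 ≤ ∫ q, entD d (F0 q.1 q.2) (maxwellian q.2) ∂muC :=
    integral_nonneg fun q => entD_nonneg hd.le (h.datum.2.1 _ _) (maxwellian_pos _)
  have hE : HH d (F T) + (X3 + X4) = HH d F0 + (X1 + X2) := by
    rw [← eT, ← e0, ← ENNReal.ofReal_toReal f1.ne, ← ENNReal.ofReal_toReal f2.ne,
      ← ENNReal.ofReal_toReal f3.ne, ← ENNReal.ofReal_toReal f4.ne,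
      ← ENNReal.ofReal_add ENNReal.toReal_nonneg ENNReal.toReal_nonneg,
      ← ENNReal.ofReal_add ENNReal.toReal_nonneg ENNReal.toReal_nonneg,
      ← ENNReal.ofReal_add pT (add_nonneg ENNReal.toReal_nonneg ENNReal.toReal_nonneg),
      ← ENNReal.ofReal_add p0 (add_nonneg ENNReal.toReal_nonneg ENNReal.toReal_nonneg)]
    congr 1
    linarith
  have hfin : 4 * (X1 + X2) + 4 * (X3 + X4) ≠ ⊤ := by
    refine ENNReal.add_ne_top.2 ⟨?_, ?_⟩
    · exact ENNReal.mul_ne_top (by norm_num) (ENNReal.add_ne_top.2 ⟨f1.ne, f2.ne⟩)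
    · exact ENNReal.mul_ne_top (by norm_num) (ENNReal.add_ne_top.2 ⟨f3.ne, f4.ne⟩)
  have hsum : (TT + 4 * HH d (F T)) + (4 * (X1 + X2) + 4 * (X3 + X4)) =
      (NN + 4 * HH d F0) + (4 * (X1 + X2) + 4 * (X3 + X4)) := by
    calc (TT + 4 * HH d (F T)) + (4 * (X1 + X2) + 4 * (X3 + X4))
        = (TT + 4 * (X1 + X2)) + 4 * (HH d (F T) + (X3 + X4)) := by ring
      _ = (NN + 4 * (X3 + X4)) + 4 * (HH d F0 + (X1 + X2)) := by rw [hident, hE]
      _ = _ := by ring
  have hcancel : TT + 4 * HH d (F T) = NN + 4 * HH d F0 := (ENNReal.add_left_inj hfin).1 hsum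
  have h44 : (4⁻¹ : ℝ≥0∞) * 4 = 1 := ENNReal.inv_mul_cancel (by norm_num) (by norm_num)
  have := congrArg (fun z => 4⁻¹ * z) hcancel
  simp only [mul_add, ← mul_assoc, h44, one_mul] at this
  rw [add_comm (HH d (F T))]
  exact this

/-- the space-time first moment is finite -/
theorem mom1_time (h : Hyp F F0 R T) :
    ∫⁻ s in Set.Ioo 0 T, ∫⁻ x in cell, mom1 (F s x) < ⊤ := by
  have h1 := h.mom
  have hm : Measurable (fun p : ℝ × R3 × R3 =>
      ENNReal.ofReal (wt 1 p.2.2) * ENNReal.ofReal (F p.1 p.2.1 p.2.2)) :=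
    (by fun_prop : Measurable fun p : ℝ × R3 × R3 => ENNReal.ofReal (wt 1 p.2.2)).mul
      (Measurable.ennreal_ofReal h.meas)
  rw [nuA_iter hm] at h1
  have h3 : ∫⁻ s in Set.Ioo 0 T, ∫⁻ x in cell, mom1 (F s x) ≤
      ∫⁻ s in Set.Ioo 0 T, 2 * ∫⁻ x in cell, ∫⁻ v, ENNReal.ofReal (wt 1 v) *
        ENNReal.ofReal (F s x v) := by
    refine setLIntegral_mono' measurableSet_Ioo fun s hs => ?_
    rw [← lintegral_const_mul' _ _ (by norm_num)]
    refine lintegral_mono fun x => ?_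
    rw [← lintegral_const_mul' _ _ (by norm_num)]
    unfold mom1
    refine lintegral_mono fun v => ?_
    have hF := h.nonneg s x v hs.1.le hs.2.le
    have hw := one_le_wt 1 v
    have hn := norm_le_wt_one v
    have e3 : ENNReal.ofReal (2 * (wt 1 v * F s x v)) =
        2 * (ENNReal.ofReal (wt 1 v) * ENNReal.ofReal (F s x v)) := by
      rw [ENNReal.ofReal_mul (by norm_num), ENNReal.ofReal_mul (by linarith)]
      congr 1
      norm_num
    rw [← e3]
    refine ENNReal.ofReal_le_ofReal ?_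
    nlinarith
  refine lt_of_le_of_lt h3 ?_
  rw [lintegral_const_mul' _ _ (by norm_num)]
  exact ENNReal.mul_lt_top (by norm_num) h1

/-- bound of the error term -/
theorem error_le (h : Hyp F F0 R T) {d : ℝ} (hd : 0 ≤ d) (hd1 : d ≤ 1) :
    ∫⁻ s in Set.Ioo 0 T, ∫⁻ x in cell, tri (kN d (F s x)) ≤
      ENNReal.ofReal d * (4 * (sM * m1M) * (∫⁻ s in Set.Ioo 0 T, ∫⁻ x in cell, mom1 (F s x)) +
        ∫⁻ _ in Set.Ioo 0 T, ∫⁻ _ in cell, 2 * (sM * (m1M * m1M))) := by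
  have hmom : Measurable (fun q : ℝ × R3 => mom1 (F q.1 q.2)) := by
    unfold mom1
    refine Measurable.lintegral_prod_right' (f := fun q : (ℝ × R3) × R3 =>
      ENNReal.ofReal ((1 + ‖q.2‖) * F q.1.1 q.1.2 q.2)) ?_
    exact ((by fun_prop : Measurable fun q : (ℝ × R3) × R3 => 1 + ‖q.2‖).mul
      h.meas.par).ennreal_ofReal
  have hmomx : ∀ s, Measurable (fun x : R3 => mom1 (F s x)) := fun s =>
    hmom.comp (measurable_const.prodMk measurable_id)
  have hmoms : Measurable (fun s : ℝ => ∫⁻ x in cell, mom1 (F s x)) :=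
    Measurable.lintegral_prod_right' (f := fun q : ℝ × R3 => mom1 (F q.1 q.2)) hmom
  have hc : (sM * m1M) ≠ ⊤ := ENNReal.mul_ne_top sM_lt_top.ne m1M_lt_top.ne
  calc ∫⁻ s in Set.Ioo 0 T, ∫⁻ x in cell, tri (kN d (F s x))
      ≤ ∫⁻ s in Set.Ioo 0 T, ∫⁻ x in cell, ENNReal.ofReal d *
          (4 * (sM * m1M) * mom1 (F s x) + 2 * (sM * (m1M * m1M))) := by
        refine setLIntegral_mono' measurableSet_Ioo fun s hs => lintegral_mono fun x => ?_
        refine (tri_kN_le hd hd1 (h.meas.slice2 s x) (fun v => h.nonneg s x v hs.1.le hs.2.le)).trans ?_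
        apply le_of_eq
        ring
    _ = _ := by
        have e1 : ∀ s, ∫⁻ x in cell, ENNReal.ofReal d *
            (4 * (sM * m1M) * mom1 (F s x) + 2 * (sM * (m1M * m1M))) =
            ENNReal.ofReal d * (4 * (sM * m1M) * (∫⁻ x in cell, mom1 (F s x)) +
              ∫⁻ _ in cell, 2 * (sM * (m1M * m1M))) := by
          intro s
          rw [lintegral_const_mul' _ _ ENNReal.ofReal_ne_top,
            lintegral_add_left ((hmomx s).const_mul _), lintegral_const_mul _ (hmomx s)]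
        simp_rw [e1]
        rw [lintegral_const_mul' _ _ ENNReal.ofReal_ne_top,
          lintegral_add_left (hmoms.const_mul _), lintegral_const_mul _ hmoms]

/-- the error term tends to zero -/
theorem error_tendsto (h : Hyp F F0 R T) :
    Tendsto (fun n => 4⁻¹ * ∫⁻ s in Set.Ioo 0 T, ∫⁻ x in cell, tri (kN (dn n) (F s x)))
      atTop (𝓝 0) := by
  set C : ℝ≥0∞ := 4 * (sM * m1M) * (∫⁻ s in Set.Ioo 0 T, ∫⁻ x in cell, mom1 (F s x)) +
        ∫⁻ _ in Set.Ioo 0 T, ∫⁻ _ in cell, 2 * (sM * (m1M * m1M)) with hC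
  have hCfin : C ≠ ⊤ := by
    rw [hC]
    refine ENNReal.add_ne_top.2 ⟨?_, ?_⟩
    · refine ENNReal.mul_ne_top (ENNReal.mul_ne_top (by norm_num)
        (ENNReal.mul_ne_top sM_lt_top.ne m1M_lt_top.ne)) h.mom1_time.ne
    · rw [lintegral_const, lintegral_const]
      refine ENNReal.mul_ne_top (ENNReal.mul_ne_top (ENNReal.mul_ne_top (by norm_num)
        (ENNReal.mul_ne_top sM_lt_top.ne (ENNReal.mul_ne_top m1M_lt_top.ne m1M_lt_top.ne))) ?_) ?_
      · have := Crest.Agent.R68E.finite_cell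
        exact measure_ne_top _ _
      · simp
  have hlim : Tendsto (fun n => 4⁻¹ * (ENNReal.ofReal (dn n) * C)) atTop (𝓝 0) := by
    have h1 : Tendsto (fun n => ENNReal.ofReal (dn n)) atTop (𝓝 0) := by
      have := (ENNReal.continuous_ofReal.tendsto 0).comp dn_tendsto
      rw [ENNReal.ofReal_zero] at this
      exact this
    have h2 := ENNReal.Tendsto.mul_const h1 (Or.inr hCfin)
    have h3 := ENNReal.Tendsto.const_mul (a := (4⁻¹ : ℝ≥0∞)) h2 (Or.inr (by simp))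
    simpa using h3
  refine tendsto_of_tendsto_of_tendsto_of_le_of_le tendsto_const_nhds hlim
    (fun _ => zero_le) (fun n => ?_)
  exact mul_le_mul' le_rfl (h.error_le (dn_pos n).le (dn_le_one n))

/-- **The entropy inequality with dissipation** on `[0,T]`. -/
theorem entropy_core (h : Hyp F F0 R T) (hT : 0 < T)
    (hbal : ∀ d, 0 < d → d ≤ 1 → CharBal F F0 T d) :
    relEntropy (F T) + (∫⁻ s in Set.Icc 0 T, dissipation (F s)) ≤ relEntropy F0 := by
  have h1 := relEntropy_le_liminf (h.measurable_F T)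
  have h2 := dissipation_liminf h.meas T h.nonneg dn_pos dn_tendsto
  refine (add_le_add h1 h2).trans ((liminf_add_ge _ _).trans ?_)
  have h3 : ∀ n, HH (dn n) (F T) + 4⁻¹ * (∫⁻ s in Set.Ioo 0 T, ∫⁻ x in cell,
      tri (kEN (dn n) (F s x))) = 4⁻¹ * (∫⁻ s in Set.Ioo 0 T, ∫⁻ x in cell,
      tri (kN (dn n) (F s x))) + HH (dn n) F0 := fun n =>
    h.balance hT (dn_pos n) (dn_le_one n) (hbal _ (dn_pos n) (dn_le_one n))
  simp_rw [h3]
  have h4 := h.error_tendsto.add (HH_datum_tendsto' h.datum)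
  rw [zero_add] at h4
  exact h4.liminf_eq.le

end Hyp

end Crest.Agent.R68.On
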