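import Crest.Agent.R68.EL1

/-!
R68 / EL2: strong L¹ continuity in time of a mild solution (helper485, Part E).
-/

set_option autoImplicit false
open MeasureTheory Filter Topology
open scoped ENNReal
open Crest.AnalysisR.VecCalc3 Crest.AnalysisR.PDE.Boltzmann

namespace Crest.Agent.R68

namespace MildSol

variable {F : ℝ → R3 → R3 → ℝ} {F0 : R3 → R3 → ℝ} {R : ℝ}

theorem measurable_gl_char (h : MildSol F F0 R) (q : R3 × R3) :
    Measurable (fun s => gl F s (shift s q)) :=
  Measurable.comp (g := fun p : ℝ × R3 × R3 => gl F p.1 p.2) (f := fun s : ℝ => (s, shift s q))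
    h.meas_gl (measurable_id.prodMk (Measurable.shift measurable_id measurable_const))

/-- increments along characteristics -/
theorem enorm_increment_le (h : MildSol F F0 R) {s t : ℝ} (hs : 0 ≤ s) (ht : 0 ≤ t) :
    ∀ᵐ q ∂muC, ‖F s (shift s q).1 (shift s q).2 - F t (shift t q).1 (shift t q).2‖ₑ ≤
      ∫⁻ r in Set.uIoc s t, gl F r (shift r q) := by
  filter_upwards [ae_muC_of_ae (h.mild s hs), ae_muC_of_ae (h.mild t ht),
    h.ae_integrable (max s t)] with q h1 h2 hi
  have e1 : F s (shift s q).1 (shift s q).2 = F s (q.1 + s • q.2) q.2 := rfl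
  have e2 : F t (shift t q).1 (shift t q).2 = F t (q.1 + t • q.2) q.2 := rfl
  have i1 : IntervalIntegrable (fun r => Qr F r (shift r q)) volume 0 s := by
    rw [intervalIntegrable_iff_integrableOn_Ioc_of_le hs]
    exact hi.mono_set (Set.Ioc_subset_Ioc_right (le_max_left _ _))
  have i2 : IntervalIntegrable (fun r => Qr F r (shift r q)) volume 0 t := by
    rw [intervalIntegrable_iff_integrableOn_Ioc_of_le ht]
    exact hi.mono_set (Set.Ioc_subset_Ioc_right (le_max_right _ _))
  have e3 : F0 q.1 q.2 + (∫ r in (0)..s, Qr F r (shift r q)) -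
      (F0 q.1 q.2 + ∫ r in (0)..t, Qr F r (shift r q)) = ∫ r in t..s, Qr F r (shift r q) := by
    rw [← intervalIntegral.integral_interval_sub_left i1 i2]; ring
  rw [e1, e2, h1, h2, e3]
  rw [← ofReal_norm, intervalIntegral.norm_integral_eq_norm_integral_uIoc,
    ofReal_norm, Set.uIoc_comm]
  refine (enorm_integral_le_lintegral_enorm _).trans ?_
  exact lintegral_mono fun r => enorm_Qr_le F r _

theorem measurable_total (h : MildSol F F0 R) : Measurable (fun r : ℝ => ∫⁻ q, gl F r q ∂muC) :=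
  Measurable.lintegral_prod_right' (f := fun p : ℝ × R3 × R3 => gl F p.1 p.2) h.meas_gl

theorem total_lt_top (h : MildSol F F0 R) (T : ℝ) :
    ∫⁻ r in Set.Ioc 0 T, (∫⁻ q, gl F r q ∂muC) < ⊤ := by
  have h0 := h.gl_lt_top T 0
  have e : (fun p : ℝ × R3 × R3 => ENNReal.ofReal (wt 0 p.2.2) * gl F p.1 p.2) =
      fun p => gl F p.1 p.2 := by
    funext p
    rw [wt_zero, ENNReal.ofReal_one, one_mul]
  rw [e, lintegral_nuA h.meas_gl] at h0
  exact h0

theorem L1_continuous (h : MildSol F F0 R) (t : ℝ) (ht : 0 ≤ t) :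
    Tendsto (fun s => ∫⁻ q in cell ×ˢ Set.univ, ‖F s q.1 q.2 - F t q.1 q.2‖ₑ
      ∂(volume : Measure (R3 × R3))) (𝓝[Set.Ici 0] t) (𝓝 0) := by
  change Tendsto (fun s => ∫⁻ q, ‖F s q.1 q.2 - F t q.1 q.2‖ₑ ∂muC) (𝓝[Set.Ici 0] t) (𝓝 0)
  have hfin : ∫⁻ q, ‖F t q.1 q.2‖ₑ ∂muC < ⊤ := by
    have h1 := lt_of_le_of_lt (h.moment_le ht le_rfl 0) (h.momB_lt_top t 0)
    refine lt_of_le_of_lt (lintegral_mono fun q => ?_) h1
    rw [wt_zero, ENNReal.ofReal_one, one_mul, Real.enorm_eq_ofReal (h.nonneg _ _ _ ht)]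
  have hB := tendsto_shift_muC (h.measurable_F t) (h.perX_F t) hfin
  -- bound
  have hbound : ∀ s, 0 ≤ s → ∫⁻ q, ‖F s q.1 q.2 - F t q.1 q.2‖ₑ ∂muC ≤
      (∫⁻ r in Set.uIoc s t, (∫⁻ q, gl F r q ∂muC)) +
      ∫⁻ q, ‖F t (shift (s - t) q).1 (shift (s - t) q).2 - F t q.1 q.2‖ₑ ∂muC := by
    intro s hs
    have hm1 : Measurable (fun q : R3 × R3 => ‖F s q.1 q.2 - F t q.1 q.2‖ₑ) :=
      ((h.measurable_F s).sub (h.measurable_F t)).enorm
    have hp1 : PerX (fun q : R3 × R3 => ‖F s q.1 q.2 - F t q.1 q.2‖ₑ) :=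
      (h.perX_F s).comp₂ (h.perX_F t) (fun a b => ‖a - b‖ₑ)
    rw [← lintegral_shift hm1 hp1 s]
    have hstep : ∀ᵐ q ∂muC, ‖F s (shift s q).1 (shift s q).2 - F t (shift s q).1 (shift s q).2‖ₑ ≤
        (∫⁻ r in Set.uIoc s t, gl F r (shift r q)) +
        ‖F t (shift s q).1 (shift s q).2 - F t (shift t q).1 (shift t q).2‖ₑ := by
      filter_upwards [h.enorm_increment_le hs ht] with q hq
      have e : F s (shift s q).1 (shift s q).2 - F t (shift s q).1 (shift s q).2 =
          (F s (shift s q).1 (shift s q).2 - F t (shift t q).1 (shift t q).2) -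
          (F t (shift s q).1 (shift s q).2 - F t (shift t q).1 (shift t q).2) := by ring
      rw [e]
      exact enorm_sub_le.trans (add_le_add hq le_rfl)
    refine (lintegral_mono_ae hstep).trans ?_
    have hm2 : Measurable (fun q : R3 × R3 => ∫⁻ r in Set.uIoc s t, gl F r (shift r q)) :=
      Measurable.lintegral_prod_left' (f := fun p : ℝ × R3 × R3 => gl F p.1 (shift p.1 p.2))
        h.meas_gl_shift
    rw [lintegral_add_left hm2]
    refine add_le_add ?_ ?_
    · have hm3 : AEMeasurable (Function.uncurry fun (q : R3 × R3) (r : ℝ) => gl F r (shift r q))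
          (muC.prod (volume.restrict (Set.uIoc s t))) := by
        refine Measurable.aemeasurable ?_
        exact Measurable.comp (g := fun p : ℝ × R3 × R3 => gl F p.1 (shift p.1 p.2))
          (f := fun z : (R3 × R3) × ℝ => (z.2, z.1)) h.meas_gl_shift measurable_swap
      rw [lintegral_lintegral_swap hm3]
      refine lintegral_mono fun r => ?_
      have hm4 : Measurable (gl F r) :=
        Measurable.comp (g := fun p : ℝ × R3 × R3 => gl F p.1 p.2)
          (f := fun q : R3 × R3 => (r, q)) h.meas_gl measurable_prodMk_left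
      exact (lintegral_shift hm4 (h.perX_gl r) r).le
    · have hm5 : Measurable (fun q : R3 × R3 =>
          ‖F t (shift (s - t) q).1 (shift (s - t) q).2 - F t q.1 q.2‖ₑ) :=
        (((h.measurable_F t).comp (measurable_shift (s - t))).sub (h.measurable_F t)).enorm
      have hp5 : PerX (fun q : R3 × R3 =>
          ‖F t (shift (s - t) q).1 (shift (s - t) q).2 - F t q.1 q.2‖ₑ) :=
        ((h.perX_F t).shift (s - t)).comp₂ (h.perX_F t) (fun a b => ‖a - b‖ₑ)
      rw [← lintegral_shift hm5 hp5 t]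
      refine lintegral_mono fun q => ?_
      rw [shift_shift, sub_add_cancel]
  -- first term
  have hfirst : Tendsto (fun s => ∫⁻ r in Set.uIoc s t, (∫⁻ q, gl F r q ∂muC))
      (𝓝[Set.Ici 0] t) (𝓝 0) := by
    set μ : Measure ℝ := volume.restrict (Set.Ioc 0 (t + 1)) with hμ
    have h1 : Tendsto (fun s => ∫⁻ r in Set.uIoc s t, (∫⁻ q, gl F r q ∂muC) ∂μ)
        (𝓝[Set.Ici 0] t) (𝓝 0) := by
      refine tendsto_setLIntegral_zero (h.total_lt_top (t + 1)).ne ?_
      have hle : ∀ s, (μ ∘ fun s => Set.uIoc s t) s ≤ ENNReal.ofReal |s - t| := by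
        intro s
        simp only [Function.comp_apply]
        refine (Measure.restrict_apply_le _ _).trans ?_
        rw [Set.uIoc, Real.volume_Ioc, max_sub_min_eq_abs']
      refine tendsto_of_tendsto_of_tendsto_of_le_of_le tendsto_const_nhds ?_
        (fun _ => zero_le) hle
      have hc : Continuous (fun s : ℝ => ENNReal.ofReal |s - t|) :=
        ENNReal.continuous_ofReal.comp (by fun_prop)
      have := hc.tendsto t
      simp only [sub_self, abs_zero, ENNReal.ofReal_zero] at this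
      exact this.mono_left nhdsWithin_le_nhds
    refine h1.congr' ?_
    have hev : ∀ᶠ s in 𝓝[Set.Ici 0] t, s ∈ Set.Icc 0 (t + 1) := by
      have a1 : ∀ᶠ s in 𝓝[Set.Ici 0] t, s ∈ Set.Ici 0 := eventually_mem_nhdsWithin
      have a2 : ∀ᶠ s in 𝓝[Set.Ici 0] t, s ≤ t + 1 :=
        nhdsWithin_le_nhds (eventually_le_nhds (by linarith))
      filter_upwards [a1, a2] with s b1 b2
      exact ⟨b1, b2⟩
    filter_upwards [hev] with s hs
    rw [hμ, Measure.restrict_restrict measurableSet_uIoc]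
    congr 2
    rw [Set.inter_eq_left]
    intro r hr
    rw [Set.mem_uIoc] at hr
    rcases hr with hr | hr
    · exact ⟨lt_of_le_of_lt hs.1 hr.1, by linarith [hr.2]⟩
    · exact ⟨lt_of_le_of_lt ht hr.1, by linarith [hr.2, hs.2]⟩
  have hsecond : Tendsto (fun s => ∫⁻ q, ‖F t (shift (s - t) q).1 (shift (s - t) q).2 -
      F t q.1 q.2‖ₑ ∂muC) (𝓝[Set.Ici 0] t) (𝓝 0) := by
    have hc : Tendsto (fun s : ℝ => s - t) (𝓝[Set.Ici 0] t) (𝓝 0) := by
      have : Continuous (fun s : ℝ => s - t) := by fun_prop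
      have h2 := this.tendsto t
      rw [sub_self] at h2
      exact h2.mono_left nhdsWithin_le_nhds
    exact hB.comp hc
  have hsum := hfirst.add hsecond
  rw [add_zero] at hsum
  refine tendsto_of_tendsto_of_tendsto_of_le_of_le' tendsto_const_nhds hsum
    (Filter.Eventually.of_forall fun _ => zero_le) ?_
  filter_upwards [eventually_mem_nhdsWithin] with s hs
  exact hbound s hs

end MildSol

end Crest.Agent.R68
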