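import Crest.Agent.R68.EWk5

/-!
R68 / EWk6: local conservation, momentum, energy, gain/loss integrability (helper485, Part E).
-/

set_option autoImplicit false
open MeasureTheory
open scoped ENNReal ContDiff
open Crest.AnalysisR.VecCalc3 Crest.AnalysisR.PDE.Boltzmann

namespace Crest.Agent.R68

/-- the (t,x)-test functions with a velocity weight are test pairs -/
theorem testPair_of_local {ψ : R3 → ℝ} (hψ : Measurable ψ) (hb : ∀ v, |ψ v| ≤ wt 2 v)
    {η : ℝ → R3 → ℝ} (hs : ContDiff ℝ ∞ (fun p : ℝ × R3 => η p.1 p.2))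
    (hp : ∀ t, IsPeriodic3 (η t)) (hv : ∃ T : ℝ, ∀ t x, T ≤ t → η t x = 0) :
    ∃ T, TestPair (fun t q => ψ q.2 * η t q.1)
      (fun t q => ψ q.2 * transportD (fun t x _ => η t x) t q.1 q.2) T := by
  obtain ⟨T0, hv⟩ := hv
  set T := max T0 0 + 1 with hT
  have hTpos : 0 < T := by have := le_max_right T0 0; linarith
  have hT0 : T0 < T := by have := le_max_left T0 0; linarith
  have hs3 : ContDiff ℝ ∞ (fun p : ℝ × R3 × R3 => η p.1 p.2.1) := by
    have : ContDiff ℝ ∞ (fun p : ℝ × R3 × R3 => ((p.1, p.2.1) : ℝ × R3)) := by fun_prop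
    exact hs.comp this
  have hcont : Continuous (fun p : ℝ × R3 × R3 => η p.1 p.2.1) := hs3.continuous
  have hcontD := continuous_transportD (φ := fun t x _ => η t x) hs3
  have hvan1 : ∀ t x v, T ≤ t → transportD (fun t x _ => η t x) t x v = 0 := by
    intro t x v ht
    rw [transportD_eq (φ := fun t x _ => η t x) hs3]
    have h0 : (fun p : ℝ × R3 × R3 => η p.1 p.2.1) =ᶠ[nhds (t, x, v)] fun _ => 0 := by
      have : {p : ℝ × R3 × R3 | T0 < p.1} ∈ nhds (t, x, v) :=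
        (isOpen_lt continuous_const continuous_fst).mem_nhds (by simpa using lt_of_lt_of_le hT0 ht)
      filter_upwards [this] with p hp
      exact hv _ _ (le_of_lt hp)
    rw [h0.fderiv_eq]
    simp
  -- bound of the derivative
  have hK : IsCompact (Set.Icc (0 : ℝ) T ×ˢ Metric.closedBall (0 : R3) 2) :=
    isCompact_Icc.prod (isCompact_closedBall _ _)
  obtain ⟨C1, hC1⟩ := hK.exists_bound_of_continuousOn hs.continuous.continuousOn
  have hder : Continuous (fun p : ℝ × R3 => fderiv ℝ (fun p : ℝ × R3 => η p.1 p.2) p) :=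
    hs.continuous_fderiv (by norm_num)
  obtain ⟨C2, hC2⟩ := hK.exists_bound_of_continuousOn hder.continuousOn
  have htr : ∀ t x v, transportD (fun t x _ => η t x) t x v =
      fderiv ℝ (fun p : ℝ × R3 => η p.1 p.2) (t, x) (1, v) := by
    intro t x v
    rw [transportD_eq (φ := fun t x _ => η t x) hs3]
    have hd : HasFDerivAt (fun p : ℝ × R3 => η p.1 p.2)
      (fderiv ℝ (fun p : ℝ × R3 => η p.1 p.2) (t, x)) (t, x) :=
      ((hs.differentiable (by norm_num)) _).hasFDerivAt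
    have hc : HasFDerivAt (fun p : ℝ × R3 × R3 => ((p.1, p.2.1) : ℝ × R3))
        ((ContinuousLinearMap.fst ℝ ℝ (R3 × R3)).prod
          ((ContinuousLinearMap.fst ℝ R3 R3).comp (ContinuousLinearMap.snd ℝ ℝ (R3 × R3))))
        (t, x, v) := by
      exact (hasFDerivAt_fst).prodMk ((hasFDerivAt_fst (p := (x, v))).comp (t, x, v) hasFDerivAt_snd)
    have h3 : HasFDerivAt (fun p : ℝ × R3 × R3 => η p.1 p.2.1)
        ((fderiv ℝ (fun p : ℝ × R3 => η p.1 p.2) (t, x)).comp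
        ((ContinuousLinearMap.fst ℝ ℝ (R3 × R3)).prod
          ((ContinuousLinearMap.fst ℝ R3 R3).comp (ContinuousLinearMap.snd ℝ ℝ (R3 × R3)))))
        (t, x, v) := HasFDerivAt.comp (f := fun p : ℝ × R3 × R3 => ((p.1, p.2.1) : ℝ × R3))
          (g := fun p : ℝ × R3 => η p.1 p.2) (t, x, v) hd hc
    rw [h3.fderiv]
    simp
  refine ⟨T, hTpos, ?_, ?_, ?_, ?_, ?_, ?_, ?_, ?_⟩
  · exact (hψ.comp (by fun_prop : Measurable fun p : ℝ × R3 × R3 => p.2.2)).mul hcont.measurable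
  · exact (hψ.comp (by fun_prop : Measurable fun p : ℝ × R3 × R3 => p.2.2)).mul hcontD.measurable
  · intro t v x i
    simp only
    rw [hp t x i]
  · intro t
    exact (perX_snd ψ).comp₂ (perX_transportD (φ := fun t x _ => η t x)
      (fun t v => hp t) t) (fun a b => a * b)
  · intro q t
    exact (hasDerivAt_char (φ := fun t x _ => η t x) hs3 q t).const_mul (ψ q.2)
  · intro q
    have : Continuous (fun t : ℝ => ((t, (shift t q).1, (shift t q).2) : ℝ × R3 × R3)) := by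
      unfold shift; fun_prop
    have h2 : Continuous (fun t : ℝ =>
        transportD (fun t x _ => η t x) t (shift t q).1 (shift t q).2) := hcontD.comp this
    exact h2.const_mul (ψ q.2)
  · refine ⟨max C1 0 + max C2 0, 3, ?_⟩
    intro t ht x hx v
    have hx2 : x ∈ Metric.closedBall (0 : R3) 2 := by
      rw [mem_closedBall_zero_iff]; exact norm_le_two_of_cell hx
    have h1 := hC1 (t, x) ⟨ht, hx2⟩
    have h2 := hC2 (t, x) ⟨ht, hx2⟩
    simp only [Real.norm_eq_abs] at h1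
    have hw1 := one_le_wt 1 v
    have hw2 := one_le_wt 2 v
    have hw3 : wt 3 v = wt 2 v * wt 1 v := (wt_mul 2 1 v).symm
    have hC1' : 0 ≤ max C1 0 := le_max_right _ _
    have hC2' : 0 ≤ max C2 0 := le_max_right _ _
    constructor
    · simp only
      rw [abs_mul]
      have a1 : |η t x| ≤ max C1 0 := h1.trans (le_max_left _ _)
      calc |ψ v| * |η t x| ≤ wt 2 v * max C1 0 :=
            mul_le_mul (hb v) a1 (abs_nonneg _) (wt_pos 2 v).le
        _ ≤ wt 3 v * (max C1 0 + max C2 0) := by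
            refine mul_le_mul ?_ (by linarith) hC1' (wt_pos 3 v).le
            rw [hw3]; nlinarith
        _ = _ := mul_comm _ _
    · simp only
      rw [abs_mul, htr]
      have a2 : |fderiv ℝ (fun p : ℝ × R3 => η p.1 p.2) (t, x) (1, v)| ≤ max C2 0 * wt 1 v := by
        have b1 := ContinuousLinearMap.le_opNorm
          (fderiv ℝ (fun p : ℝ × R3 => η p.1 p.2) (t, x)) ((1 : ℝ), v)
        rw [Real.norm_eq_abs] at b1
        have b2 : ‖((1 : ℝ), v)‖ ≤ wt 1 v := by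
          rw [Prod.norm_mk, max_le_iff]
          exact ⟨by rw [norm_one]; exact hw1, norm_le_wt_one v⟩
        refine b1.trans (mul_le_mul (h2.trans (le_max_left _ _)) b2 (norm_nonneg _) hC2')
      calc |ψ v| * |fderiv ℝ (fun p : ℝ × R3 => η p.1 p.2) (t, x) (1, v)| ≤
            wt 2 v * (max C2 0 * wt 1 v) :=
            mul_le_mul (hb v) a2 (abs_nonneg _) (wt_pos 2 v).le
        _ = max C2 0 * wt 3 v := by rw [hw3]; ring
        _ ≤ _ := by
            refine mul_le_mul_of_nonneg_right (by linarith) (wt_pos 3 v).le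
  · intro t q ht
    constructor
    · rw [hv _ _ (hT0.le.trans ht), mul_zero]
    · rw [hvan1 _ _ _ ht, mul_zero]

namespace MildSol

variable {F : ℝ → R3 → R3 → ℝ} {F0 : R3 → R3 → ℝ} {R : ℝ}

theorem hasLocalConservation (h : MildSol F F0 R) : HasLocalConservation F F0 := by
  intro ψ hψ η hs hp hv
  obtain ⟨hm, hb, hinv⟩ := abs_inv_bounds hψ
  obtain ⟨T, tp⟩ := testPair_of_local hm hb hs hp hv
  obtain ⟨i1, i2, i3, e⟩ := h.weak_Ioi tp
  have i2' := (h.weak_Ioc tp).2.1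
  have ez : ∫ p, Qr F p.1 p.2 * (ψ p.2.2 * η p.1 p.2.1) ∂nuA (Set.Ioi 0) = 0 := by
    rw [integral_Ioi_eq_Ioc (T := T)]
    · exact h.integral_Q_inv T hm hb hinv i2'
    · intro p hp'
      have := (tp.van p.1 p.2 hp'.le).1
      rw [this, mul_zero]
  have e1 : (fun p : ℝ × R3 × R3 => F p.1 p.2.1 p.2.2 *
      (ψ p.2.2 * transportD (fun t x _ => η t x) p.1 p.2.1 p.2.2)) =
      fun p : ℝ × R3 × R3 => F p.1 p.2.1 p.2.2 * ψ p.2.2 *
        transportD (fun t x _ => η t x) p.1 p.2.1 p.2.2 := by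
    funext p; ring
  have e3 : (fun q : R3 × R3 => F0 q.1 q.2 * (ψ q.2 * η 0 q.1)) =
      fun q : R3 × R3 => F0 q.1 q.2 * ψ q.2 * η 0 q.1 := by
    funext q; ring
  rw [integral_add i1 i2, ez, add_zero] at e
  rw [e1] at i1 e
  rw [e3] at i3 e
  unfold IntegrableOn
  rw [region_eq]
  exact ⟨i1, i3, e⟩

/-- conservation of the total invariants -/
theorem total_conserved (h : MildSol F F0 R) {t : ℝ} (ht : 0 ≤ t) {ψ : R3 → ℝ}
    (hψ : Measurable ψ) (hb : ∀ v, |ψ v| ≤ wt 2 v) (hinv : IsInv ψ) :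
    Integrable (fun q : R3 × R3 => ψ q.2 * F t q.1 q.2) muC ∧
    ∫ q, ψ q.2 * F t q.1 q.2 ∂muC = ∫ q, ψ q.2 * F0 q.1 q.2 ∂muC := by
  have hi := h.integrable_F ht hψ (C := 1) (k := 2) (fun v => by rw [one_mul]; exact hb v)
  refine ⟨hi, ?_⟩
  have hi0 : Integrable (fun q : R3 × R3 => ψ q.2 * F0 q.1 q.2) muC := by
    have := h.integrable_F0 (g := fun q => ψ q.2) (hψ.comp measurable_snd) (C := 1) (k := 2)
      (Filter.Eventually.of_forall fun q => by rw [one_mul]; exact hb q.2)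
    refine this.congr (Filter.Eventually.of_forall fun q => ?_)
    simp only [mul_comm]
  have hG : Measurable (fun q : R3 × R3 => ψ q.2 * F t q.1 q.2) :=
    (hψ.comp measurable_snd).mul (h.measurable_F t)
  have hP : PerX (fun q : R3 × R3 => ψ q.2 * F t q.1 q.2) :=
    (perX_snd ψ).comp₂ (h.perX_F t) (fun a b => a * b)
  rw [← integral_shift hG hP t]
  -- the time integral
  have hQg : Measurable (fun p : ℝ × R3 × R3 => Qr F p.1 p.2 * (ψ p.2.2 * 1)) :=
    h.meas_Qr.mul ((hψ.comp (by fun_prop : Measurable fun p : ℝ × R3 × R3 => p.2.2)).mul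
      measurable_const)
  have hQi : Integrable (fun p : ℝ × R3 × R3 => Qr F p.1 p.2 * (ψ p.2.2 * 1))
      (nuA (Set.Ioc 0 t)) :=
    h.integrable_Q_time t (g := fun p : ℝ × R3 × R3 => ψ p.2.2 * 1) (C := 1) (k := 2)
      ((hψ.comp (by fun_prop : Measurable fun p : ℝ × R3 × R3 => p.2.2)).mul measurable_const)
      (Filter.Eventually.of_forall fun p => by rw [one_mul, mul_one]; exact hb _)
  have hQp : ∀ s, PerX (fun q : R3 × R3 => Qr F s q * (ψ q.2 * 1)) := fun s =>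
    (h.perX_Qr s).comp₂ (perX_snd ψ) (fun a b => a * (b * 1))
  have hQi2 : Integrable (fun p : ℝ × R3 × R3 => Qr F p.1 (shift p.1 p.2) * (ψ p.2.2 * 1))
      (nuA (Set.Ioc 0 t)) :=
    (integrable_nuA_shift (G := fun p : ℝ × R3 × R3 => Qr F p.1 p.2 * (ψ p.2.2 * 1))
      hQg hQp).2 hQi
  have hzero : ∫ p, Qr F p.1 (shift p.1 p.2) * (ψ p.2.2 * 1) ∂nuA (Set.Ioc 0 t) = 0 := by
    have z1 := h.integral_Q_inv t hψ hb hinv (η := fun _ _ => 1) hQi
    have a1 : ∫ p, Qr F p.1 p.2 * (ψ p.2.2 * 1) ∂nuA (Set.Ioc 0 t) =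
        ∫ s in Set.Ioc 0 t, (∫ q, Qr F s q * (ψ q.2 * 1) ∂muC) := by
      unfold nuA at hQi ⊢
      exact integral_prod _ hQi
    have a2 : ∫ p, Qr F p.1 (shift p.1 p.2) * (ψ p.2.2 * 1) ∂nuA (Set.Ioc 0 t) =
        ∫ s in Set.Ioc 0 t, (∫ q, Qr F s (shift s q) * (ψ q.2 * 1) ∂muC) := by
      unfold nuA at hQi2 ⊢
      exact integral_prod _ hQi2
    rw [a2]
    rw [a1] at z1
    refine Eq.trans ?_ z1
    refine integral_congr_ae (Filter.Eventually.of_forall fun s => ?_)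
    exact integral_shift (G := fun q : R3 × R3 => Qr F s q * (ψ q.2 * 1))
      (Measurable.comp (g := fun p : ℝ × R3 × R3 => Qr F p.1 p.2 * (ψ p.2.2 * 1))
        (f := fun q : R3 × R3 => (s, q)) hQg measurable_prodMk_left) (hQp s) s
  have hinner : Integrable (fun q : R3 × R3 =>
      ∫ s in Set.Ioc 0 t, Qr F s (shift s q) * (ψ q.2 * 1)) muC := by
    unfold nuA at hQi2
    exact Integrable.integral_prod_right hQi2
  have hinner0 : ∫ q, (∫ s in Set.Ioc 0 t, Qr F s (shift s q) * (ψ q.2 * 1)) ∂muC = 0 := by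
    refine Eq.trans ?_ hzero
    unfold nuA at hQi2 ⊢
    exact (integral_prod_symm _ hQi2).symm
  have hae : ∀ᵐ q ∂muC, ψ (shift t q).2 * F t (shift t q).1 (shift t q).2 =
      ψ q.2 * F0 q.1 q.2 + ∫ s in Set.Ioc 0 t, Qr F s (shift s q) * (ψ q.2 * 1) := by
    filter_upwards [ae_muC_of_ae (h.mild t ht)] with q hq
    have e : F t (shift t q).1 (shift t q).2 = F t (q.1 + t • q.2) q.2 := rfl
    have e' : (shift t q).2 = q.2 := rfl
    rw [e, e', hq, intervalIntegral.integral_of_le ht, integral_mul_const]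
    ring
  rw [integral_congr_ae hae, integral_add hi0 hinner, hinner0, add_zero]

theorem gain_loss_integrable (h : MildSol F F0 R) (T : ℝ) (k : ℕ) :
    (∫⁻ p in Set.Ioo 0 T ×ˢ (cell ×ˢ Set.univ),
        ENNReal.ofReal ((1 + ‖p.2.2‖ ^ 2) ^ (k / 2 : ℝ)) *
          (collGain F p.1 p.2.1 p.2.2 + collLoss F p.1 p.2.1 p.2.2)
        ∂(volume : Measure (ℝ × R3 × R3))) < ⊤ := by
  have := h.gl_lt_top T k
  rw [nuA_eq, nuA_Ioo_Ioc]
  exact this

theorem momentum (h : MildSol F F0 R) (t : ℝ) (ht : 0 ≤ t) (i : Fin 3) :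
    Integrable (fun q : R3 × R3 => q.2 i * F t q.1 q.2)
      ((volume : Measure (R3 × R3)).restrict (cell ×ˢ Set.univ)) ∧
      ∫ q in cell ×ˢ Set.univ, q.2 i * F t q.1 q.2 ∂(volume : Measure (R3 × R3)) =
        ∫ q in cell ×ˢ Set.univ, q.2 i * F0 q.1 q.2 ∂(volume : Measure (R3 × R3)) := by
  obtain ⟨hm, hb, hinv⟩ := abs_inv_bounds (ψ := fun v => v i) (Or.inr (Or.inl ⟨i, rfl⟩))
  exact h.total_conserved ht hm hb hinv

theorem energy_eq (h : MildSol F F0 R) (t : ℝ) (ht : 0 ≤ t) :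
    (∫⁻ q in cell ×ˢ Set.univ, ENNReal.ofReal (‖q.2‖ ^ 2 * F t q.1 q.2)
      ∂(volume : Measure (R3 × R3))) =
      ∫⁻ q in cell ×ˢ Set.univ, ENNReal.ofReal (‖q.2‖ ^ 2 * F0 q.1 q.2)
        ∂(volume : Measure (R3 × R3)) := by
  obtain ⟨hm, hb, hinv⟩ := abs_inv_bounds (ψ := fun v => ‖v‖ ^ 2 / 2) (Or.inr (Or.inr rfl))
  obtain ⟨hi, he⟩ := h.total_conserved ht hm hb hinv
  have hi0 : Integrable (fun q : R3 × R3 => ‖q.2‖ ^ 2 / 2 * F0 q.1 q.2) muC := by
    have := h.integrable_F0 (g := fun q => ‖q.2‖ ^ 2 / 2) (hm.comp measurable_snd) (C := 1) (k := 2)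
      (Filter.Eventually.of_forall fun q => by rw [one_mul]; exact hb q.2)
    refine this.congr (Filter.Eventually.of_forall fun q => ?_)
    simp only [mul_comm]
  have c1 : Integrable (fun q : R3 × R3 => ‖q.2‖ ^ 2 * F t q.1 q.2) muC := by
    refine (hi.const_mul 2).congr (Filter.Eventually.of_forall fun q => ?_)
    simp only; ring
  have c2 : Integrable (fun q : R3 × R3 => ‖q.2‖ ^ 2 * F0 q.1 q.2) muC := by
    refine (hi0.const_mul 2).congr (Filter.Eventually.of_forall fun q => ?_)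
    simp only; ring
  have e : ∫ q, ‖q.2‖ ^ 2 * F t q.1 q.2 ∂muC = ∫ q, ‖q.2‖ ^ 2 * F0 q.1 q.2 ∂muC := by
    have d1 : ∫ q, ‖q.2‖ ^ 2 * F t q.1 q.2 ∂muC = 2 * ∫ q, ‖q.2‖ ^ 2 / 2 * F t q.1 q.2 ∂muC := by
      rw [← integral_const_mul]
      refine integral_congr_ae (Filter.Eventually.of_forall fun q => ?_)
      simp only; ring
    have d2 : ∫ q, ‖q.2‖ ^ 2 * F0 q.1 q.2 ∂muC = 2 * ∫ q, ‖q.2‖ ^ 2 / 2 * F0 q.1 q.2 ∂muC := by
      rw [← integral_const_mul]
      refine integral_congr_ae (Filter.Eventually.of_forall fun q => ?_)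
      simp only; ring
    rw [d1, d2, he]
  change ∫⁻ q, ENNReal.ofReal (‖q.2‖ ^ 2 * F t q.1 q.2) ∂muC =
    ∫⁻ q, ENNReal.ofReal (‖q.2‖ ^ 2 * F0 q.1 q.2) ∂muC
  rw [← ofReal_integral_eq_lintegral_ofReal c1, ← ofReal_integral_eq_lintegral_ofReal c2, e]
  · exact Filter.Eventually.of_forall fun q => mul_nonneg (by positivity) (h.F0_nonneg _ _)
  · exact Filter.Eventually.of_forall fun q => mul_nonneg (by positivity) (h.nonneg _ _ _ ht)

end MildSol

end Crest.Agent.R68
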