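import Crest.Agent.R68.EEnt9
import Crest.Agent.R68.EWk6
import Crest.Agent.R68.EL2

/-!
R68 / EFinal: **Part E**. A nonnegative periodic mild solution with integrable weighted gain and
loss (`MildSol`) is a global solution in the sense of the frozen definition.
-/

set_option autoImplicit false
open MeasureTheory
open scoped ENNReal
open Crest.AnalysisR.VecCalc3 Crest.AnalysisR.PDE.Boltzmann

namespace Crest.Agent.R68

theorem isGlobalSolution_of_mild {F : ℝ → R3 → R3 → ℝ} {F0 : R3 → R3 → ℝ} {R : ℝ}
    (h : MildSol F F0 R) : IsGlobalSolution F F0 :=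
  ⟨h.meas, h.nonneg, h.per, h.init, h.isWeakSolution, h.hasLocalConservation,
    h.mass_energy_entropy, h.L1_continuous, h.gain_loss_integrable, h.momentum,
    fun t ht => (h.energy_eq t ht).le, fun t ht => h.entropy_ineq ht⟩

end Crest.Agent.R68
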