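import Crest.Agent.R68.EHyp

/-!
R68 / EHypOn: local-in-time version of MildSol (helper485, for Part W).
-/

set_option autoImplicit false
open MeasureTheory
open scoped ENNReal
open Crest.AnalysisR.VecCalc3 Crest.AnalysisR.PDE.Boltzmann

namespace Crest.Agent.R68

/-- A nonnegative periodic function which is a mild solution on [0,TT] with integrable weighted
gain and loss on [0,TT]. -/
structure MildSolOn (F : ℝ → R3 → R3 → ℝ) (F0 : R3 → R3 → ℝ) (R TT : ℝ) : Prop where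
  datum : IsAdmissibleDatum F0 R
  meas : MeasF F
  nonneg : ∀ t x v, 0 ≤ t → 0 ≤ F t x v
  per : ∀ t v, IsPeriodic3 (fun x => F t x v)
  init : ∀ x v, F 0 x v = F0 x v
  mild : ∀ t, 0 ≤ t → t ≤ TT → ∀ᵐ q ∂(volume : Measure (R3 × R3)),
    F t (q.1 + t • q.2) q.2 = F0 q.1 q.2 + ∫ s in (0)..t, Qr F s (shift s q)
  int : ∀ (T : ℝ) (k : ℕ), T ≤ TT → (∫⁻ p in Set.Ioo 0 T ×ˢ (cell ×ˢ Set.univ),
      ENNReal.ofReal ((1 + ‖p.2.2‖ ^ 2) ^ (k / 2 : ℝ) + Real.log (1 + F p.1 p.2.1 p.2.2)) *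
        (collGain F p.1 p.2.1 p.2.2 + collLoss F p.1 p.2.1 p.2.2)
      ∂(volume : Measure (ℝ × R3 × R3))) < ⊤

variable {F : ℝ → R3 → R3 → ℝ} {F0 : R3 → R3 → ℝ} {R TT : ℝ}

theorem MildSol.on (h : MildSol F F0 R) (TT : ℝ) : MildSolOn F F0 R TT :=
  ⟨h.datum, h.meas, h.nonneg, h.per, h.init, fun t ht _ => h.mild t ht, fun T k _ => h.int T k⟩

theorem mildSol_of_on (h : ∀ TT, MildSolOn F F0 R TT) : MildSol F F0 R :=
  ⟨(h 0).datum, (h 0).meas, (h 0).nonneg, (h 0).per, (h 0).init,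
    fun t ht => (h t).mild t ht le_rfl, fun T k => (h T).int T k le_rfl⟩

theorem MildSolOn.mono (h : MildSolOn F F0 R TT) {T : ℝ} (hT : T ≤ TT) : MildSolOn F F0 R T :=
  ⟨h.datum, h.meas, h.nonneg, h.per, h.init, fun t ht htT => h.mild t ht (htT.trans hT),
    fun T' k hT' => h.int T' k (hT'.trans hT)⟩

/-- the integrability is only needed up to the final time -/
theorem MildSolOn.mk' (hd : IsAdmissibleDatum F0 R) (hm : MeasF F)
    (hn : ∀ t x v, 0 ≤ t → 0 ≤ F t x v) (hp : ∀ t v, IsPeriodic3 (fun x => F t x v))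
    (hi : ∀ x v, F 0 x v = F0 x v)
    (hmild : ∀ t, 0 ≤ t → t ≤ TT → ∀ᵐ q ∂(volume : Measure (R3 × R3)),
      F t (q.1 + t • q.2) q.2 = F0 q.1 q.2 + ∫ s in (0)..t, Qr F s (shift s q))
    (hint : ∀ (k : ℕ), (∫⁻ p in Set.Ioo 0 TT ×ˢ (cell ×ˢ Set.univ),
      ENNReal.ofReal ((1 + ‖p.2.2‖ ^ 2) ^ (k / 2 : ℝ) + Real.log (1 + F p.1 p.2.1 p.2.2)) *
        (collGain F p.1 p.2.1 p.2.2 + collLoss F p.1 p.2.1 p.2.2)
      ∂(volume : Measure (ℝ × R3 × R3))) < ⊤) : MildSolOn F F0 R TT :=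
  ⟨hd, hm, hn, hp, hi, hmild, fun _ k hT => lt_of_le_of_lt (lintegral_mono_set
    (Set.prod_mono (Set.Ioo_subset_Ioo_right hT) le_rfl)) (hint k)⟩

end Crest.Agent.R68
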