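import Crest.Agent.R68.EWk2

/-!
R68 / EL1: continuity of translations on the phase cell, L¹ continuity in time (helper485, Part E).
-/

set_option autoImplicit false
open MeasureTheory Filter Topology
open scoped ENNReal
open Crest.AnalysisR.VecCalc3 Crest.AnalysisR.PDE.Boltzmann

namespace Crest.Agent.R68

/-- the shift as a continuous family of continuous maps -/
noncomputable def shiftC : C(ℝ, C(R3 × R3, R3 × R3)) :=
  ContinuousMap.curry ⟨fun p : ℝ × (R3 × R3) => shift p.1 p.2, by unfold shift; fun_prop⟩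

theorem shiftC_apply (t : ℝ) (q : R3 × R3) : shiftC t q = shift t q := rfl

theorem shiftC_coe (t : ℝ) : ⇑(shiftC t) = shift t := rfl

/-- continuity of free transport in L¹(ℝ³ × ℝ³) -/
theorem tendsto_shift_L1 {g : R3 × R3 → ℝ} (hg : Integrable g (volume : Measure (R3 × R3))) :
    Tendsto (fun τ : ℝ => ∫⁻ q, ‖g (shift τ q) - g q‖ₑ ∂(volume : Measure (R3 × R3)))
      (𝓝 0) (𝓝 0) := by
  have hgm : ∀ τ : ℝ, MeasurePreserving (shiftC τ) (volume : Measure (R3 × R3)) volume :=
    fun τ => measurePreserving_shift τ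
  have hcont : Tendsto (fun τ : ℝ => shiftC τ) (𝓝 0) (𝓝 (shiftC 0)) :=
    shiftC.continuous.tendsto 0
  have h := Filter.Tendsto.compMeasurePreservingLp (p := 1) (E := ℝ)
    (f := fun _ : ℝ => hg.toL1 g) (f₀ := hg.toL1 g) (g := fun τ : ℝ => shiftC τ)
    (g₀ := shiftC 0) tendsto_const_nhds hcont hgm (hgm 0) ENNReal.one_ne_top
  rw [tendsto_iff_edist_tendsto_0] at h
  refine h.congr fun τ => ?_
  rw [Lp.edist_def, eLpNorm_one_eq_lintegral_enorm]
  refine lintegral_congr_ae ?_
  have h1 := Lp.coeFn_compMeasurePreserving (hg.toL1 g) (hgm τ)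
  have h2 := Lp.coeFn_compMeasurePreserving (hg.toL1 g) (hgm 0)
  have h3 := hg.coeFn_toL1
  have h4 := (hgm τ).quasiMeasurePreserving.ae h3
  have h5 := (hgm 0).quasiMeasurePreserving.ae h3
  filter_upwards [h1, h2, h4, h5] with q a1 a2 a3 a4
  rw [Pi.sub_apply, a1, a2]
  simp only [Function.comp_apply]
  rw [a3, a4]
  simp only [shiftC_apply, shift_zero]

theorem interior_cell_nonempty : (interior cell).Nonempty := by
  refine ⟨WithLp.toLp 2 (fun _ => 1 / 2), ?_⟩
  rw [mem_interior]
  refine ⟨{x | ∀ i : Fin 3, x i ∈ Set.Ioo 0 1}, ?_, ?_, ?_⟩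
  · intro x hx i
    exact ⟨(hx i).1.le, (hx i).2⟩
  · have : {x : R3 | ∀ i : Fin 3, x i ∈ Set.Ioo 0 1} = ⋂ i : Fin 3, {x : R3 | x i ∈ Set.Ioo 0 1} := by
      ext x; simp
    rw [this]
    refine isOpen_iInter_of_finite fun i => ?_
    exact isOpen_Ioo.preimage (by fun_prop : Continuous fun x : R3 => x i)
  · intro i
    simp only
    norm_num

/-- compact sets have finitely many periods -/
theorem lintegral_compact_le {K : Set R3} (hK : IsCompact K) : ∃ N : ℕ, ∀ g : R3 → ℝ≥0∞,
    IsPeriodic3 g → ∫⁻ x in K, g x ≤ N * ∫⁻ x in cell, g x := by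
  obtain ⟨t, ht⟩ := compact_covered_by_add_left_translates hK interior_cell_nonempty
  refine ⟨t.card, fun g hg => ?_⟩
  calc ∫⁻ x in K, g x ≤ ∫⁻ x in ⋃ a ∈ t, (fun h => a + h) ⁻¹' cell, g x := lintegral_mono_set ht
    _ ≤ ∑ a ∈ t, ∫⁻ x in (fun h => a + h) ⁻¹' cell, g x := by
        have : (⋃ a ∈ t, (fun h => a + h) ⁻¹' cell) = ⋃ a : t, (fun h => (a : R3) + h) ⁻¹' cell := by
          ext x; simp
        rw [this]
        have h2 := lintegral_iUnion_le (μ := (volume : Measure R3))
          (fun a : t => (fun h => (a : R3) + h) ⁻¹' cell) g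
        rw [tsum_fintype, Finset.sum_coe_sort t
          (fun a => ∫⁻ x in (fun h => a + h) ⁻¹' cell, g x)] at h2
        exact h2
    _ = ∑ _a ∈ t, ∫⁻ x in cell, g x := by
        refine Finset.sum_congr rfl fun a _ => ?_
        have hmp := measurePreserving_add_left (volume : Measure R3) a
        have h1 := hmp.setLIntegral_comp_preimage_emb (MeasurableEquiv.addLeft a).measurableEmbedding
          (fun y => g (y + (-a))) cell
        have h2 : ∀ x, g (a + x + -a) = g x := fun x => by congr 1; abel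
        simp only [h2] at h1
        rw [h1]
        exact lintegral_cell_add hg (-a)
    _ = _ := by rw [Finset.sum_const, nsmul_eq_mul]


/-- continuity of free transport in L¹(cell × ℝ³) for periodic functions -/
theorem tendsto_shift_muC {G : R3 × R3 → ℝ} (hG : Measurable G) (hp : PerX G)
    (hfin : ∫⁻ q, ‖G q‖ₑ ∂muC < ⊤) :
    Tendsto (fun τ : ℝ => ∫⁻ q, ‖G (shift τ q) - G q‖ₑ ∂muC) (𝓝 0) (𝓝 0) := by
  -- tails
  set tail : ℕ → ℝ≥0∞ := fun n => ∫⁻ q, (if (n : ℝ) < ‖q.2‖ then ‖G q‖ₑ else 0) ∂muC with htail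
  have hmt : ∀ n : ℕ, MeasurableSet {q : R3 × R3 | (n : ℝ) < ‖q.2‖} := fun n =>
    measurableSet_lt measurable_const (by fun_prop)
  have hmtail : ∀ n : ℕ, Measurable (fun q : R3 × R3 => if (n : ℝ) < ‖q.2‖ then ‖G q‖ₑ else 0) :=
    fun n => Measurable.ite (hmt n) hG.enorm measurable_const
  have htail0 : Tendsto tail atTop (𝓝 0) := by
    have h := tendsto_lintegral_of_dominated_convergence (μ := muC)
      (F := fun (n : ℕ) (q : R3 × R3) => if (n : ℝ) < ‖q.2‖ then ‖G q‖ₑ else 0) (f := fun _ => 0)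
      (fun q => ‖G q‖ₑ) hmtail
      (fun n => Filter.Eventually.of_forall fun q => by
        simp only
        split_ifs
        · exact le_rfl
        · exact zero_le) hfin.ne
      (Filter.Eventually.of_forall fun q => by
        refine tendsto_const_nhds.congr' ?_
        obtain ⟨N, hN⟩ := exists_nat_ge ‖q.2‖
        filter_upwards [eventually_ge_atTop N] with n hn
        have : ¬ ((n : ℝ) < ‖q.2‖) := by
          push Not
          exact hN.trans (by exact_mod_cast hn)
        rw [if_neg this])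
    simpa using h
  -- truncated functions
  have hK : IsCompact (Metric.closedBall (0 : R3) 3) := isCompact_closedBall _ _
  obtain ⟨N, hN⟩ := lintegral_compact_le hK
  set S : ℕ → Set (R3 × R3) := fun n =>
    Metric.closedBall (0 : R3) 3 ×ˢ Metric.closedBall (0 : R3) (n : ℝ) with hS
  have hSm : ∀ n, MeasurableSet (S n) := fun n =>
    Metric.isClosed_closedBall.measurableSet.prod Metric.isClosed_closedBall.measurableSet
  set g : ℕ → R3 × R3 → ℝ := fun n => (S n).indicator G with hg
  have hgi : ∀ n, Integrable (g n) (volume : Measure (R3 × R3)) := by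
    intro n
    refine ⟨(hG.indicator (hSm n)).aestronglyMeasurable, ?_⟩
    rw [hasFiniteIntegral_iff_enorm]
    have h1 : ∫⁻ q, ‖g n q‖ₑ ∂(volume : Measure (R3 × R3)) ≤
        ∫⁻ q in Metric.closedBall (0 : R3) 3 ×ˢ (Set.univ : Set R3), ‖G q‖ₑ
          ∂(volume : Measure (R3 × R3)) := by
      rw [← lintegral_indicator (Metric.isClosed_closedBall.measurableSet.prod MeasurableSet.univ)]
      refine lintegral_mono fun q => ?_
      by_cases hq : q ∈ S n
      · rw [hg]
        simp only
        rw [Set.indicator_of_mem hq, Set.indicator_of_mem]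
        exact ⟨hq.1, trivial⟩
      · rw [hg]
        simp only
        rw [Set.indicator_of_notMem hq, enorm_zero]
        exact zero_le
    refine lt_of_le_of_lt h1 ?_
    rw [Measure.volume_eq_prod, ← Measure.prod_restrict, Measure.restrict_univ,
      lintegral_prod_symm _ hG.enorm.aemeasurable]
    have h2 : ∫⁻ v, (∫⁻ x in Metric.closedBall (0 : R3) 3, ‖G (x, v)‖ₑ) ≤
        ∫⁻ v, N * (∫⁻ x in cell, ‖G (x, v)‖ₑ) := by
      refine lintegral_mono fun v => ?_
      exact hN (fun x => ‖G (x, v)‖ₑ) (fun x i => by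
        have := hp v x i
        simp only at this ⊢
        rw [this])
    refine lt_of_le_of_lt h2 ?_
    rw [lintegral_const_mul]
    · rw [lintegral_muC hG.enorm] at hfin
      exact ENNReal.mul_lt_top (ENNReal.natCast_lt_top N) hfin
    · exact Measurable.lintegral_prod_left' (f := fun q : R3 × R3 => ‖G q‖ₑ) hG.enorm
  -- the main estimate
  have hmain : ∀ n : ℕ, ∀ τ : ℝ, |τ| * (n : ℝ) ≤ 1 →
      ∫⁻ q, ‖G (shift τ q) - G q‖ₑ ∂muC ≤
        (∫⁻ q, ‖g n (shift τ q) - g n q‖ₑ ∂(volume : Measure (R3 × R3))) + 2 * tail n := by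
    intro n τ hτ
    have h1 : ∀ᵐ q ∂muC, ‖G (shift τ q) - G q‖ₑ ≤ ‖g n (shift τ q) - g n q‖ₑ +
        ((if (n : ℝ) < ‖(shift τ q).2‖ then ‖G (shift τ q)‖ₑ else 0) +
          (if (n : ℝ) < ‖q.2‖ then ‖G q‖ₑ else 0)) := by
      filter_upwards [show ∀ᵐ q ∂muC, q.1 ∈ cell from by
        unfold muC
        filter_upwards [ae_restrict_mem (measurableSet_cell.prod MeasurableSet.univ)] with p hp
        exact hp.1] with q hq
      by_cases hv : (n : ℝ) < ‖q.2‖
      · have hv' : (n : ℝ) < ‖(shift τ q).2‖ := hv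
        rw [if_pos hv, if_pos hv']
        exact enorm_sub_le.trans le_add_self
      · have hv' : ¬ ((n : ℝ) < ‖(shift τ q).2‖) := hv
        rw [if_neg hv, if_neg hv', add_zero, add_zero]
        push Not at hv
        have hx : ‖q.1‖ ≤ 2 := by
          rw [EuclideanSpace.norm_eq, Fin.sum_univ_three]
          have h : ∀ i, ‖q.1 i‖ ^ 2 ≤ 1 := by
            intro i
            have h1 := (hq i).1
            have h2 := (hq i).2
            rw [Real.norm_eq_abs, sq_abs]
            nlinarith
          rw [Real.sqrt_le_left (by norm_num)]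
          have := h 0
          have := h 1
          have := h 2
          linarith
        have m1 : q ∈ S n := ⟨by rw [mem_closedBall_zero_iff]; linarith,
          by rw [mem_closedBall_zero_iff]; exact hv⟩
        have m2 : shift τ q ∈ S n := by
          refine ⟨?_, by rw [mem_closedBall_zero_iff]; exact hv⟩
          rw [mem_closedBall_zero_iff]
          have : ‖τ • q.2‖ ≤ 1 := by
            rw [norm_smul, Real.norm_eq_abs]
            exact (mul_le_mul_of_nonneg_left hv (abs_nonneg _)).trans hτ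
          calc ‖(shift τ q).1‖ ≤ ‖q.1‖ + ‖τ • q.2‖ := norm_add_le _ _
            _ ≤ 3 := by linarith
        rw [hg]
        simp only
        rw [Set.indicator_of_mem m1, Set.indicator_of_mem m2]
    refine (lintegral_mono_ae h1).trans ?_
    have hgm : Measurable (g n) := hG.indicator (hSm n)
    have hsm1 : Measurable (fun q => ‖g n (shift τ q) - g n q‖ₑ) :=
      ((hgm.comp (measurable_shift τ)).sub hgm).enorm
    have hsm2 : Measurable (fun q => if (n : ℝ) < ‖(shift τ q).2‖ then ‖G (shift τ q)‖ₑ else 0) :=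
      (hmtail n).comp (measurable_shift τ)
    rw [lintegral_add_left hsm1, lintegral_add_left hsm2]
    refine add_le_add ?_ ?_
    · unfold muC
      exact lintegral_mono' Measure.restrict_le_self le_rfl
    · have hPt : PerX (fun q : R3 × R3 => if (n : ℝ) < ‖q.2‖ then ‖G q‖ₑ else 0) :=
        (perX_snd (fun v => decide ((n : ℝ) < ‖v‖))).comp₂ hp
          (fun b a => if b = true then ‖a‖ₑ else 0) |> fun h => by simpa using h
      have := lintegral_shift (hmtail n) hPt τ
      rw [this, two_mul]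
  -- conclusion
  rw [ENNReal.tendsto_nhds_zero]
  intro ε hε
  rcases eq_or_ne ε ⊤ with rfl | hεt
  · exact Filter.Eventually.of_forall fun _ => le_top
  have hε4 : 0 < ε / 4 := ENNReal.div_pos hε.ne' (by norm_num)
  obtain ⟨n, hn⟩ := ((ENNReal.tendsto_nhds_zero.1 htail0) (ε / 4) hε4).exists
  have hcont := (ENNReal.tendsto_nhds_zero.1 (tendsto_shift_L1 (hgi n))) (ε / 4) hε4
  have hsmall : ∀ᶠ τ : ℝ in 𝓝 0, |τ| * (n : ℝ) ≤ 1 := by
    have hc : Tendsto (fun τ : ℝ => |τ| * (n : ℝ)) (𝓝 0) (𝓝 0) := by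
      have : Continuous (fun τ : ℝ => |τ| * (n : ℝ)) := by fun_prop
      simpa using this.tendsto 0
    exact hc.eventually (eventually_le_nhds (by norm_num : (0 : ℝ) < 1))
  filter_upwards [hcont, hsmall] with τ h1 h2
  refine (hmain n τ h2).trans ?_
  calc _ ≤ ε / 4 + 2 * (ε / 4) := add_le_add h1 (mul_le_mul' le_rfl hn)
    _ ≤ ε / 4 + 3 * (ε / 4) := by gcongr; norm_num
    _ = ε := by
        rw [← one_add_mul]
        have : (1 + 3 : ℝ≥0∞) = 4 := by norm_num
        rw [this]
        exact ENNReal.mul_div_cancel (by norm_num) (by norm_num)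

end Crest.Agent.R68
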