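import Crest.Agent.R68.EHypOn
import Crest.Agent.R68.EWk6

/-!
R68 / EOn: local-in-time version of EWk1-6 (helper485, Part E for Part W).
-/

set_option autoImplicit false
open MeasureTheory
open scoped ENNReal ContDiff
open Crest.AnalysisR.VecCalc3 Crest.AnalysisR.PDE.Boltzmann

namespace Crest.Agent.R68

namespace MildSolOn

open MildSol (momB C_nonneg_of_bd abs_inv_bounds)

variable {F : ℝ → R3 → R3 → ℝ} {F0 : R3 → R3 → ℝ} {R TT : ℝ}

theorem F_per (h : MildSolOn F F0 R TT) (t : ℝ) (x : R3) (i : Fin 3) :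
    F t (x + EuclideanSpace.single i 1) = F t x := funext fun v => h.per t v x i

theorem perX_gain (h : MildSolOn F F0 R TT) (t : ℝ) : PerX (fun q => collGain F t q.1 q.2) := by
  intro v x i
  simp only [collGain, h.F_per]

theorem perX_loss (h : MildSolOn F F0 R TT) (t : ℝ) : PerX (fun q => collLoss F t q.1 q.2) := by
  intro v x i
  simp only [collLoss, h.F_per]

theorem perX_gl (h : MildSolOn F F0 R TT) (t : ℝ) : PerX (gl F t) :=
  (h.perX_gain t).comp₂ (h.perX_loss t) (fun a b => a + b)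

theorem perX_Qr (h : MildSolOn F F0 R TT) (t : ℝ) : PerX (Qr F t) :=
  (h.perX_gain t).comp₂ (h.perX_loss t) (fun a b => a.toReal - b.toReal)

theorem perX_F (h : MildSolOn F F0 R TT) (t : ℝ) : PerX (fun q => F t q.1 q.2) :=
  fun v x i => h.per t v x i

theorem perX_F0 (h : MildSolOn F F0 R TT) : PerX (fun q => F0 q.1 q.2) :=
  fun v x i => h.datum.2.2.1 v x i

theorem meas_gl (h : MildSolOn F F0 R TT) : Measurable (fun p : ℝ × R3 × R3 => gl F p.1 p.2) :=
  (h.meas.collGain).add (h.meas.collLoss)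

theorem meas_Qr (h : MildSolOn F F0 R TT) : Measurable (fun p : ℝ × R3 × R3 => Qr F p.1 p.2) :=
  (h.meas.collGain.ennreal_toReal).sub (h.meas.collLoss.ennreal_toReal)

theorem meas_F0 (h : MildSolOn F F0 R TT) : Measurable (fun q : R3 × R3 => F0 q.1 q.2) := h.datum.1

theorem F0_nonneg (h : MildSolOn F F0 R TT) (x v : R3) : 0 ≤ F0 x v := h.datum.2.1 x v

/-- weighted collision rate is integrable -/
theorem gl_lt_top (h : MildSolOn F F0 R TT) (T : ℝ) (k : ℕ) (hTT : T ≤ TT := by assumption) :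
    ∫⁻ p, ENNReal.ofReal (wt k p.2.2) * gl F p.1 p.2 ∂nuA (Set.Ioc 0 T) < ⊤ := by
  refine lt_of_le_of_lt ?_ (h.int T k hTT)
  rw [nuA_eq, nuA_Ioo_Ioc]
  refine lintegral_mono_ae ?_
  have : ∀ᵐ p ∂nuA (Set.Ioc 0 T), p.1 ∈ Set.Ioc 0 T := by
    unfold nuA
    rw [Measure.ae_prod_iff_ae_ae]
    · filter_upwards [ae_restrict_mem measurableSet_Ioc] with t ht
      exact Filter.Eventually.of_forall fun _ => ht
    · exact measurable_fst measurableSet_Ioc
  filter_upwards [this] with p hp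
  refine mul_le_mul' (ENNReal.ofReal_le_ofReal ?_) le_rfl
  have : 0 ≤ Real.log (1 + F p.1 p.2.1 p.2.2) :=
    Real.log_nonneg (by linarith [h.nonneg p.1 p.2.1 p.2.2 hp.1.le])
  unfold wt
  linarith

theorem gl_shift (h : MildSolOn F F0 R TT) (A : Set ℝ) (k : ℕ) :
    ∫⁻ p, ENNReal.ofReal (wt k p.2.2) * gl F p.1 (shift p.1 p.2) ∂nuA A =
      ∫⁻ p, ENNReal.ofReal (wt k p.2.2) * gl F p.1 p.2 ∂nuA A := by
  refine lintegral_nuA_shift (G := fun p => ENNReal.ofReal (wt k p.2.2) * gl F p.1 p.2) ?_ ?_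
  · exact (by fun_prop : Measurable fun p : ℝ × R3 × R3 => ENNReal.ofReal (wt k p.2.2)).mul
      h.meas_gl
  · intro t
    exact (perX_snd (fun v => ENNReal.ofReal (wt k v))).comp₂ (h.perX_gl t) (fun a b => a * b)

theorem meas_gl_shift (h : MildSolOn F F0 R TT) :
    Measurable (fun p : ℝ × R3 × R3 => gl F p.1 (shift p.1 p.2)) :=
  Measurable.comp (g := fun p : ℝ × R3 × R3 => gl F p.1 p.2)
    (f := fun p : ℝ × R3 × R3 => (p.1, shift p.1 p.2)) h.meas_gl measurable_shiftT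

theorem meas_Qr_shift (h : MildSolOn F F0 R TT) :
    Measurable (fun p : ℝ × R3 × R3 => Qr F p.1 (shift p.1 p.2)) :=
  Measurable.comp (g := fun p : ℝ × R3 × R3 => Qr F p.1 p.2)
    (f := fun p : ℝ × R3 × R3 => (p.1, shift p.1 p.2)) h.meas_Qr measurable_shiftT

/-- total collision rate along characteristics is integrable -/
theorem gl_shift_lt_top (h : MildSolOn F F0 R TT) (T : ℝ) (hTT : T ≤ TT := by assumption) :
    ∫⁻ q, (∫⁻ t in Set.Ioc 0 T, gl F t (shift t q)) ∂muC < ⊤ := by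
  have h0 := h.gl_lt_top T 0
  rw [← h.gl_shift] at h0
  have e : (fun p : ℝ × R3 × R3 => ENNReal.ofReal (wt 0 p.2.2) * gl F p.1 (shift p.1 p.2)) =
      fun p => gl F p.1 (shift p.1 p.2) := by
    funext p
    rw [wt_zero, ENNReal.ofReal_one, one_mul]
  rw [e, lintegral_nuA' h.meas_gl_shift] at h0
  exact h0

/-- a.e. characteristic has an integrable collision rate -/
theorem ae_gl (h : MildSolOn F F0 R TT) (T : ℝ) (hTT : T ≤ TT := by assumption) :
    ∀ᵐ q ∂muC, ∫⁻ t in Set.Ioc 0 T, gl F t (shift t q) < ⊤ := by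
  refine ae_lt_top ?_ (h.gl_shift_lt_top T).ne
  exact Measurable.lintegral_prod_left' h.meas_gl_shift

theorem measurable_Qr_char (h : MildSolOn F F0 R TT) (q : R3 × R3) :
    Measurable (fun s => Qr F s (shift s q)) :=
  Measurable.comp (g := fun p : ℝ × R3 × R3 => Qr F p.1 p.2) (f := fun s : ℝ => (s, shift s q))
    h.meas_Qr (measurable_id.prodMk (Measurable.shift measurable_id measurable_const))

theorem ae_integrable (h : MildSolOn F F0 R TT) (T : ℝ) (hTT : T ≤ TT := by assumption) :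
    ∀ᵐ q ∂muC, IntegrableOn (fun s => Qr F s (shift s q)) (Set.Ioc 0 T) := by
  filter_upwards [h.ae_gl T] with q hq
  refine ⟨(h.measurable_Qr_char q).aestronglyMeasurable, ?_⟩
  rw [hasFiniteIntegral_iff_enorm]
  exact lt_of_le_of_lt (lintegral_mono fun s => enorm_Qr_le F s _) hq

theorem F0_mass (h : MildSolOn F F0 R TT) : ∫⁻ q, ENNReal.ofReal (F0 q.1 q.2) ∂muC < ⊤ := by
  refine lt_of_le_of_lt ?_ h.datum.2.2.2.2
  unfold muC
  refine lintegral_mono fun q => ENNReal.ofReal_le_ofReal ?_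
  have h0 := h.F0_nonneg q.1 q.2
  have : 1 ≤ 1 + ‖q.2‖ ^ 2 + |Real.log (F0 q.1 q.2)| := by
    have := sq_nonneg ‖q.2‖
    have := abs_nonneg (Real.log (F0 q.1 q.2))
    linarith
  nlinarith

/-- bound of the moments of the datum -/
theorem F0_moment (h : MildSolOn F F0 R TT) (k : ℕ) :
    ∫⁻ q, ENNReal.ofReal (wt k q.2) * ENNReal.ofReal (F0 q.1 q.2) ∂muC < ⊤ := by
  have : ∫⁻ q, ENNReal.ofReal (wt k q.2) * ENNReal.ofReal (F0 q.1 q.2) ∂muC ≤
      ∫⁻ q, ENNReal.ofReal ((1 + R ^ 2) ^ (k / 2 : ℝ)) * ENNReal.ofReal (F0 q.1 q.2) ∂muC := by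
    refine lintegral_mono fun q => ?_
    by_cases hq : R ≤ ‖q.2‖
    · rw [h.datum.2.2.2.1 q.1 q.2 hq]
      simp
    · exact mul_le_mul' (ENNReal.ofReal_le_ofReal (wt_mono k (le_of_not_ge hq))) le_rfl
  refine lt_of_le_of_lt this ?_
  rw [lintegral_const_mul _ h.meas_F0.ennreal_ofReal]
  exact ENNReal.mul_lt_top ENNReal.ofReal_lt_top h.F0_mass

theorem measurable_F (h : MildSolOn F F0 R TT) (t : ℝ) :
    Measurable (fun q : R3 × R3 => F t q.1 q.2) :=
  h.meas.comp (f := fun _ : R3 × R3 => t) measurable_const measurable_fst measurable_snd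

/-- pointwise bound along characteristics -/
theorem enorm_F_shift_le (h : MildSolOn F F0 R TT) {t : ℝ} (ht : 0 ≤ t) (htT : t ≤ TT) :
    ∀ᵐ q ∂muC, ENNReal.ofReal (F t (shift t q).1 (shift t q).2) ≤
      ENNReal.ofReal (F0 q.1 q.2) + ∫⁻ s in Set.Ioc 0 t, gl F s (shift s q) := by
  filter_upwards [ae_muC_of_ae (h.mild t ht htT)] with q hq
  have e : F t (shift t q).1 (shift t q).2 = F t (q.1 + t • q.2) q.2 := rfl
  rw [e, hq, intervalIntegral.integral_of_le ht]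
  refine ENNReal.ofReal_add_le.trans (add_le_add le_rfl ?_)
  refine (Real.ofReal_le_enorm _).trans ?_
  refine (enorm_integral_le_lintegral_enorm _).trans ?_
  exact lintegral_mono fun s => enorm_Qr_le F s _

theorem momB_lt_top (h : MildSolOn F F0 R TT) (T : ℝ) (k : ℕ) (hTT : T ≤ TT := by assumption) : momB F F0 T k < ⊤ :=
  ENNReal.add_lt_top.2 ⟨h.F0_moment k, h.gl_lt_top T k⟩

theorem moment_le (h : MildSolOn F F0 R TT) {t T : ℝ} (ht : 0 ≤ t) (htT : t ≤ T) (k : ℕ)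
    (hTT : T ≤ TT := by assumption) :
    ∫⁻ q, ENNReal.ofReal (wt k q.2) * ENNReal.ofReal (F t q.1 q.2) ∂muC ≤ momB F F0 T k := by
  have hG : Measurable (fun q : R3 × R3 =>
      ENNReal.ofReal (wt k q.2) * ENNReal.ofReal (F t q.1 q.2)) :=
    (by fun_prop : Measurable fun q : R3 × R3 => ENNReal.ofReal (wt k q.2)).mul
      (h.measurable_F t).ennreal_ofReal
  have hP : PerX (fun q : R3 × R3 => ENNReal.ofReal (wt k q.2) * ENNReal.ofReal (F t q.1 q.2)) :=
    (perX_snd (fun v => ENNReal.ofReal (wt k v))).comp₂ (h.perX_F t)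
      (fun a b => a * ENNReal.ofReal b)
  rw [← lintegral_shift hG hP t]
  have h1 : ∫⁻ q, ENNReal.ofReal (wt k (shift t q).2) *
      ENNReal.ofReal (F t (shift t q).1 (shift t q).2) ∂muC ≤
      ∫⁻ q, (ENNReal.ofReal (wt k q.2) * ENNReal.ofReal (F0 q.1 q.2) +
        ∫⁻ s in Set.Ioc 0 t, ENNReal.ofReal (wt k q.2) * gl F s (shift s q)) ∂muC := by
    refine lintegral_mono_ae ?_
    filter_upwards [h.enorm_F_shift_le ht (htT.trans hTT)] with q hq
    have hm : Measurable (fun s => gl F s (shift s q)) :=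
      Measurable.comp (g := fun p : ℝ × R3 × R3 => gl F p.1 p.2) (f := fun s : ℝ => (s, shift s q))
        h.meas_gl (measurable_id.prodMk (Measurable.shift measurable_id measurable_const))
    rw [lintegral_const_mul _ hm, ← mul_add]
    exact mul_le_mul' le_rfl hq
  refine h1.trans ?_
  have hm1 : Measurable (fun q : R3 × R3 => ENNReal.ofReal (wt k q.2) *
      ENNReal.ofReal (F0 q.1 q.2)) :=
    (by fun_prop : Measurable fun q : R3 × R3 => ENNReal.ofReal (wt k q.2)).mul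
      h.meas_F0.ennreal_ofReal
  rw [lintegral_add_left hm1]
  unfold momB
  refine add_le_add le_rfl ?_
  have hm2 : Measurable (fun p : ℝ × R3 × R3 =>
      ENNReal.ofReal (wt k p.2.2) * gl F p.1 (shift p.1 p.2)) :=
    (by fun_prop : Measurable fun p : ℝ × R3 × R3 => ENNReal.ofReal (wt k p.2.2)).mul
      h.meas_gl_shift
  rw [← h.gl_shift, lintegral_nuA' hm2]
  refine lintegral_mono fun q => ?_
  exact lintegral_mono_set (Set.Ioc_subset_Ioc_right htT)

/-- integrability of F(t) against polynomial weights -/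
theorem integrable_F (h : MildSolOn F F0 R TT) {t : ℝ} (ht : 0 ≤ t) (htT : t ≤ TT) {g : R3 → ℝ} (hg : Measurable g)
    {C : ℝ} {k : ℕ} (hgb : ∀ v, |g v| ≤ C * wt k v) :
    Integrable (fun q : R3 × R3 => g q.2 * F t q.1 q.2) muC := by
  refine ⟨((hg.comp measurable_snd).mul (h.measurable_F t)).aestronglyMeasurable, ?_⟩
  rw [hasFiniteIntegral_iff_enorm]
  have h1 : ∫⁻ q, ‖g q.2 * F t q.1 q.2‖ₑ ∂muC ≤
      ∫⁻ q, ENNReal.ofReal C * (ENNReal.ofReal (wt k q.2) * ENNReal.ofReal (F t q.1 q.2)) ∂muC := by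
    refine lintegral_mono fun q => ?_
    rw [enorm_mul, ← mul_assoc]
    have hC : 0 ≤ C := by
      have := hgb 0
      have h2 := wt_pos k 0
      by_contra hc
      push Not at hc
      have h3 := abs_nonneg (g 0)
      nlinarith
    refine mul_le_mul' ?_ ?_
    · rw [← ENNReal.ofReal_mul hC, Real.enorm_eq_ofReal_abs]
      exact ENNReal.ofReal_le_ofReal (hgb q.2)
    · rw [Real.enorm_eq_ofReal (h.nonneg t _ _ ht)]
  refine lt_of_le_of_lt h1 ?_
  have hG : Measurable (fun q : R3 × R3 =>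
      ENNReal.ofReal (wt k q.2) * ENNReal.ofReal (F t q.1 q.2)) :=
    (by fun_prop : Measurable fun q : R3 × R3 => ENNReal.ofReal (wt k q.2)).mul
      (h.measurable_F t).ennreal_ofReal
  rw [lintegral_const_mul _ hG]
  exact ENNReal.mul_lt_top ENNReal.ofReal_lt_top
    (lt_of_le_of_lt (h.moment_le ht le_rfl k) (h.momB_lt_top t k))

/-- the time-integrated moments -/
theorem moment_time (h : MildSolOn F F0 R TT) (T : ℝ) (k : ℕ) (hTT : T ≤ TT := by assumption) :
    ∫⁻ p, ENNReal.ofReal (wt k p.2.2) * ENNReal.ofReal (F p.1 p.2.1 p.2.2)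
      ∂nuA (Set.Ioc 0 T) < ⊤ := by
  have hG : Measurable (fun p : ℝ × R3 × R3 =>
      ENNReal.ofReal (wt k p.2.2) * ENNReal.ofReal (F p.1 p.2.1 p.2.2)) :=
    (by fun_prop : Measurable fun p : ℝ × R3 × R3 => ENNReal.ofReal (wt k p.2.2)).mul
      (Measurable.ennreal_ofReal h.meas)
  rw [lintegral_nuA hG]
  have h1 : ∫⁻ t in Set.Ioc 0 T, (∫⁻ q, ENNReal.ofReal (wt k q.2) *
      ENNReal.ofReal (F t q.1 q.2) ∂muC) ≤ ∫⁻ _ in Set.Ioc 0 T, momB F F0 T k := by
    refine setLIntegral_mono measurable_const ?_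
    intro t ht
    exact h.moment_le ht.1.le ht.2 k
  refine lt_of_le_of_lt h1 ?_
  rw [setLIntegral_const]
  exact ENNReal.mul_lt_top (h.momB_lt_top T k) (by rw [Real.volume_Ioc]; exact ENNReal.ofReal_lt_top)

/-- F·g integrable on (0,T] × cell × ℝ³ -/
theorem integrable_F_time (h : MildSolOn F F0 R TT) (T : ℝ) {g : ℝ × R3 × R3 → ℝ} (hg : Measurable g)
    {C : ℝ} {k : ℕ} (hgb : ∀ᵐ p ∂nuA (Set.Ioc 0 T), |g p| ≤ C * wt k p.2.2)
    (hTT : T ≤ TT := by assumption) :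
    Integrable (fun p : ℝ × R3 × R3 => F p.1 p.2.1 p.2.2 * g p) (nuA (Set.Ioc 0 T)) := by
  refine ⟨(Measurable.mul h.meas hg).aestronglyMeasurable, ?_⟩
  rw [hasFiniteIntegral_iff_enorm]
  have h1 : ∫⁻ p, ‖F p.1 p.2.1 p.2.2 * g p‖ₑ ∂nuA (Set.Ioc 0 T) ≤
      ∫⁻ p, ENNReal.ofReal C * (ENNReal.ofReal (wt k p.2.2) *
        ENNReal.ofReal (F p.1 p.2.1 p.2.2)) ∂nuA (Set.Ioc 0 T) := by
    refine lintegral_mono_ae ?_
    filter_upwards [hgb, ae_nuA_mem (A := Set.Ioc 0 T) measurableSet_Ioc] with p hp hm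
    have hC : 0 ≤ C := C_nonneg_of_bd (g := fun _ => g p) p.2.2 hp
    rw [enorm_mul, mul_comm, ← mul_assoc]
    refine mul_le_mul' ?_ ?_
    · rw [← ENNReal.ofReal_mul hC, Real.enorm_eq_ofReal_abs]
      exact ENNReal.ofReal_le_ofReal hp
    · rw [Real.enorm_eq_ofReal (h.nonneg _ _ _ hm.1.1.le)]
  refine lt_of_le_of_lt h1 ?_
  have hG : Measurable (fun p : ℝ × R3 × R3 =>
      ENNReal.ofReal (wt k p.2.2) * ENNReal.ofReal (F p.1 p.2.1 p.2.2)) :=
    (by fun_prop : Measurable fun p : ℝ × R3 × R3 => ENNReal.ofReal (wt k p.2.2)).mul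
      (Measurable.ennreal_ofReal h.meas)
  rw [lintegral_const_mul _ hG]
  exact ENNReal.mul_lt_top ENNReal.ofReal_lt_top (h.moment_time T k)

/-- Q·g integrable on (0,T] × cell × ℝ³ -/
theorem integrable_Q_time (h : MildSolOn F F0 R TT) (T : ℝ) {g : ℝ × R3 × R3 → ℝ} (hg : Measurable g)
    {C : ℝ} {k : ℕ} (hgb : ∀ᵐ p ∂nuA (Set.Ioc 0 T), |g p| ≤ C * wt k p.2.2)
    (hTT : T ≤ TT := by assumption) :
    Integrable (fun p : ℝ × R3 × R3 => Qr F p.1 p.2 * g p) (nuA (Set.Ioc 0 T)) := by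
  refine ⟨(Measurable.mul h.meas_Qr hg).aestronglyMeasurable, ?_⟩
  rw [hasFiniteIntegral_iff_enorm]
  have h1 : ∫⁻ p, ‖Qr F p.1 p.2 * g p‖ₑ ∂nuA (Set.Ioc 0 T) ≤
      ∫⁻ p, ENNReal.ofReal C * (ENNReal.ofReal (wt k p.2.2) * gl F p.1 p.2)
        ∂nuA (Set.Ioc 0 T) := by
    refine lintegral_mono_ae ?_
    filter_upwards [hgb] with p hp
    have hC : 0 ≤ C := C_nonneg_of_bd (g := fun _ => g p) p.2.2 hp
    rw [enorm_mul, mul_comm, ← mul_assoc]
    refine mul_le_mul' ?_ (enorm_Qr_le F _ _)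
    rw [← ENNReal.ofReal_mul hC, Real.enorm_eq_ofReal_abs]
    exact ENNReal.ofReal_le_ofReal hp
  refine lt_of_le_of_lt h1 ?_
  have hG : Measurable (fun p : ℝ × R3 × R3 => ENNReal.ofReal (wt k p.2.2) * gl F p.1 p.2) :=
    (by fun_prop : Measurable fun p : ℝ × R3 × R3 => ENNReal.ofReal (wt k p.2.2)).mul h.meas_gl
  rw [lintegral_const_mul _ hG]
  exact ENNReal.mul_lt_top ENNReal.ofReal_lt_top (h.gl_lt_top T k)

/-- F₀·g integrable on cell × ℝ³ -/
theorem integrable_F0 (h : MildSolOn F F0 R TT) {g : R3 × R3 → ℝ} (hg : Measurable g)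
    {C : ℝ} {k : ℕ} (hgb : ∀ᵐ q ∂muC, |g q| ≤ C * wt k q.2) :
    Integrable (fun q : R3 × R3 => F0 q.1 q.2 * g q) muC := by
  refine ⟨(Measurable.mul h.meas_F0 hg).aestronglyMeasurable, ?_⟩
  rw [hasFiniteIntegral_iff_enorm]
  have h1 : ∫⁻ q, ‖F0 q.1 q.2 * g q‖ₑ ∂muC ≤
      ∫⁻ q, ENNReal.ofReal C * (ENNReal.ofReal (wt k q.2) * ENNReal.ofReal (F0 q.1 q.2)) ∂muC := by
    refine lintegral_mono_ae ?_
    filter_upwards [hgb] with q hq
    have hC : 0 ≤ C := C_nonneg_of_bd (g := fun _ => g q) q.2 hq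
    rw [enorm_mul, mul_comm, ← mul_assoc]
    refine mul_le_mul' ?_ ?_
    · rw [← ENNReal.ofReal_mul hC, Real.enorm_eq_ofReal_abs]
      exact ENNReal.ofReal_le_ofReal hq
    · rw [Real.enorm_eq_ofReal (h.F0_nonneg _ _)]
  refine lt_of_le_of_lt h1 ?_
  have hG : Measurable (fun q : R3 × R3 =>
      ENNReal.ofReal (wt k q.2) * ENNReal.ofReal (F0 q.1 q.2)) :=
    (by fun_prop : Measurable fun q : R3 × R3 => ENNReal.ofReal (wt k q.2)).mul
      h.meas_F0.ennreal_ofReal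
  rw [lintegral_const_mul _ hG]
  exact ENNReal.mul_lt_top ENNReal.ofReal_lt_top (h.F0_moment k)

/-- the primitive of the collision term along characteristics is jointly measurable -/
theorem meas_primitive (h : MildSolOn F F0 R TT) :
    Measurable (fun p : ℝ × R3 × R3 => ∫ s in Set.Ioc 0 p.1, Qr F s (shift s p.2)) := by
  have e : (fun p : ℝ × R3 × R3 => ∫ s in Set.Ioc 0 p.1, Qr F s (shift s p.2)) =
      fun p : ℝ × R3 × R3 => ∫ s, (if 0 < s ∧ s ≤ p.1 then Qr F s (shift s p.2) else 0) := by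
    funext p
    rw [← integral_indicator measurableSet_Ioc]
    refine integral_congr_ae (Filter.Eventually.of_forall fun s => ?_)
    by_cases hs : 0 < s ∧ s ≤ p.1
    · simp only [if_pos hs, Set.indicator_of_mem (show s ∈ Set.Ioc 0 p.1 from hs)]
    · simp only [if_neg hs, Set.indicator_of_notMem (show s ∉ Set.Ioc 0 p.1 from hs)]
  rw [e]
  refine StronglyMeasurable.measurable ?_
  refine StronglyMeasurable.integral_prod_right' (f := fun z : (ℝ × R3 × R3) × ℝ =>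
    if 0 < z.2 ∧ z.2 ≤ z.1.1 then Qr F z.2 (shift z.2 z.1.2) else 0) ?_
  refine Measurable.stronglyMeasurable (Measurable.ite ?_ ?_ measurable_const)
  · exact (measurableSet_lt measurable_const measurable_snd).inter
      (measurableSet_le measurable_snd (by fun_prop))
  · exact Measurable.comp (g := fun p : ℝ × R3 × R3 => Qr F p.1 p.2)
      (f := fun z : (ℝ × R3 × R3) × ℝ => (z.2, shift z.2 z.1.2)) h.meas_Qr
      (measurable_snd.prodMk (Measurable.shift measurable_snd (by fun_prop)))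

/-- the mild equation, almost everywhere in (t, x, v) with the order of quantifiers exchanged -/
theorem mild_ae (h : MildSolOn F F0 R TT) (T : ℝ) (hTT : T ≤ TT := by assumption) : ∀ᵐ q ∂muC, ∀ᵐ t ∂(volume.restrict (Set.Ioc 0 T)),
    F t (shift t q).1 (shift t q).2 = F0 q.1 q.2 + ∫ s in (0)..t, Qr F s (shift s q) := by
  have hms : MeasurableSet {p : ℝ × R3 × R3 | F p.1 (shift p.1 p.2).1 (shift p.1 p.2).2 =
      F0 p.2.1 p.2.2 + ∫ s in Set.Ioc 0 p.1, Qr F s (shift s p.2)} := by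
    refine measurableSet_eq_fun ?_ ?_
    · exact h.meas.comp measurable_fst (Measurable.fst measurable_shiftT.snd)
        (Measurable.snd measurable_shiftT.snd)
    · exact (h.meas_F0.comp measurable_snd).add h.meas_primitive
  have h1 : ∀ᵐ t ∂(volume.restrict (Set.Ioc 0 T)), ∀ᵐ q ∂muC,
      (t, q) ∈ {p : ℝ × R3 × R3 | F p.1 (shift p.1 p.2).1 (shift p.1 p.2).2 =
      F0 p.2.1 p.2.2 + ∫ s in Set.Ioc 0 p.1, Qr F s (shift s p.2)} := by
    filter_upwards [ae_restrict_mem (measurableSet_Ioc (a := (0 : ℝ)) (b := T))] with t ht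
    filter_upwards [ae_muC_of_ae (h.mild t ht.1.le (ht.2.trans hTT))] with q hq
    rw [intervalIntegral.integral_of_le ht.1.le] at hq
    exact hq
  have h2 : ∀ᵐ q ∂muC, ∀ᵐ t ∂(volume.restrict (Set.Ioc 0 T)),
      (t, q) ∈ {p : ℝ × R3 × R3 | F p.1 (shift p.1 p.2).1 (shift p.1 p.2).2 =
      F0 p.2.1 p.2.2 + ∫ s in Set.Ioc 0 p.1, Qr F s (shift s p.2)} := by
    have := (Measure.ae_ae_comm hms).1 h1
    exact this
  filter_upwards [h2] with q hq
  filter_upwards [hq, ae_restrict_mem (measurableSet_Ioc (a := (0 : ℝ)) (b := T))] with t ht htm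
  rw [intervalIntegral.integral_of_le htm.1.le]
  exact ht

/-- for a.e. (t,x) the velocity integral of the weighted collision rate is finite -/
theorem ae_fin (h : MildSolOn F F0 R TT) (T : ℝ) (hTT : T ≤ TT := by assumption) : ∀ᵐ t ∂((volume : Measure ℝ).restrict (Set.Ioc 0 T)),
    ∀ᵐ x ∂((volume : Measure R3).restrict cell),
      ∫⁻ v, ENNReal.ofReal (wt 2 v) * gl F t (x, v) < ⊤ := by
  have hG : Measurable (fun p : ℝ × R3 × R3 => ENNReal.ofReal (wt 2 p.2.2) * gl F p.1 p.2) :=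
    (by fun_prop : Measurable fun p : ℝ × R3 × R3 => ENNReal.ofReal (wt 2 p.2.2)).mul h.meas_gl
  have h0 := h.gl_lt_top T 2
  rw [lintegral_nuA hG] at h0
  have hG1 : Measurable (fun t : ℝ => ∫⁻ q, ENNReal.ofReal (wt 2 q.2) * gl F t q ∂muC) :=
    Measurable.lintegral_prod_right' hG
  have h1 := ae_lt_top hG1 h0.ne
  filter_upwards [h1] with t ht
  have hGt : Measurable (fun q : R3 × R3 => ENNReal.ofReal (wt 2 q.2) * gl F t q) :=
    Measurable.comp (g := fun p : ℝ × R3 × R3 => ENNReal.ofReal (wt 2 p.2.2) * gl F p.1 p.2)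
      (f := fun q : R3 × R3 => (t, q)) hG measurable_prodMk_left
  rw [lintegral_muC' hGt] at ht
  exact ae_lt_top (Measurable.lintegral_prod_right' hGt) ht.ne

/-- orthogonality to invariants times functions of (t,x) -/
theorem integral_Q_inv (h : MildSolOn F F0 R TT) (T : ℝ) {ψ : R3 → ℝ} (hψ : Measurable ψ)
    (hb : ∀ v, |ψ v| ≤ wt 2 v) (hinv : IsInv ψ) {η : ℝ → R3 → ℝ}
    (hi : Integrable (fun p : ℝ × R3 × R3 => Qr F p.1 p.2 * (ψ p.2.2 * η p.1 p.2.1))
      (nuA (Set.Ioc 0 T)))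
    (hTT : T ≤ TT := by assumption) :
    ∫ p, Qr F p.1 p.2 * (ψ p.2.2 * η p.1 p.2.1) ∂nuA (Set.Ioc 0 T) = 0 := by
  have hi' := hi
  unfold nuA at hi ⊢
  rw [integral_prod _ hi]
  have h1 : ∀ᵐ t ∂((volume : Measure ℝ).restrict (Set.Ioc 0 T)),
      ∫ q, Qr F t q * (ψ q.2 * η t q.1) ∂muC = 0 := by
    filter_upwards [h.ae_fin T, hi.prod_right_ae] with t ht hit
    rw [muC_eq] at hit ⊢
    rw [integral_prod _ hit]
    have h2 : ∀ᵐ x ∂((volume : Measure R3).restrict cell),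
        ∫ v, Qr F t (x, v) * (ψ v * η t x) = 0 := by
      filter_upwards [ht] with x hx
      have e := invariant_real h.meas hx hψ hb hinv
      have e2 : ∀ v, Qr F t (x, v) * (ψ v * η t x) = (ψ v * Qr F t (x, v)) * η t x := by
        intro v; ring
      simp only [e2]
      rw [integral_mul_const, e, zero_mul]
    rw [integral_congr_ae h2]
    simp
  rw [integral_congr_ae h1]
  simp

/-- conservation of the total invariants -/
theorem total_conserved (h : MildSolOn F F0 R TT) {t : ℝ} (ht : 0 ≤ t) (htT : t ≤ TT) {ψ : R3 → ℝ}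
    (hψ : Measurable ψ) (hb : ∀ v, |ψ v| ≤ wt 2 v) (hinv : IsInv ψ) :
    Integrable (fun q : R3 × R3 => ψ q.2 * F t q.1 q.2) muC ∧
    ∫ q, ψ q.2 * F t q.1 q.2 ∂muC = ∫ q, ψ q.2 * F0 q.1 q.2 ∂muC := by
  have hi := h.integrable_F ht htT hψ (C := 1) (k := 2) (fun v => by rw [one_mul]; exact hb v)
  refine ⟨hi, ?_⟩
  have hi0 : Integrable (fun q : R3 × R3 => ψ q.2 * F0 q.1 q.2) muC := by
    have := h.integrable_F0 (g := fun q => ψ q.2) (hψ.comp measurable_snd) (C := 1) (k := 2)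
      (Filter.Eventually.of_forall fun q => by rw [one_mul]; exact hb q.2)
    refine this.congr (Filter.Eventually.of_forall fun q => ?_)
    simp only [mul_comm]
  have hG : Measurable (fun q : R3 × R3 => ψ q.2 * F t q.1 q.2) :=
    (hψ.comp measurable_snd).mul (h.measurable_F t)
  have hP : PerX (fun q : R3 × R3 => ψ q.2 * F t q.1 q.2) :=
    (perX_snd ψ).comp₂ (h.perX_F t) (fun a b => a * b)
  rw [← integral_shift hG hP t]
  -- the time integral
  have hQg : Measurable (fun p : ℝ × R3 × R3 => Qr F p.1 p.2 * (ψ p.2.2 * 1)) :=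
    h.meas_Qr.mul ((hψ.comp (by fun_prop : Measurable fun p : ℝ × R3 × R3 => p.2.2)).mul
      measurable_const)
  have hQi : Integrable (fun p : ℝ × R3 × R3 => Qr F p.1 p.2 * (ψ p.2.2 * 1))
      (nuA (Set.Ioc 0 t)) :=
    h.integrable_Q_time t (g := fun p : ℝ × R3 × R3 => ψ p.2.2 * 1) (C := 1) (k := 2)
      ((hψ.comp (by fun_prop : Measurable fun p : ℝ × R3 × R3 => p.2.2)).mul measurable_const)
      (Filter.Eventually.of_forall fun p => by rw [one_mul, mul_one]; exact hb _)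
  have hQp : ∀ s, PerX (fun q : R3 × R3 => Qr F s q * (ψ q.2 * 1)) := fun s =>
    (h.perX_Qr s).comp₂ (perX_snd ψ) (fun a b => a * (b * 1))
  have hQi2 : Integrable (fun p : ℝ × R3 × R3 => Qr F p.1 (shift p.1 p.2) * (ψ p.2.2 * 1))
      (nuA (Set.Ioc 0 t)) :=
    (integrable_nuA_shift (G := fun p : ℝ × R3 × R3 => Qr F p.1 p.2 * (ψ p.2.2 * 1))
      hQg hQp).2 hQi
  have hzero : ∫ p, Qr F p.1 (shift p.1 p.2) * (ψ p.2.2 * 1) ∂nuA (Set.Ioc 0 t) = 0 := by
    have z1 := h.integral_Q_inv t hψ hb hinv (η := fun _ _ => 1) hQi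
    have a1 : ∫ p, Qr F p.1 p.2 * (ψ p.2.2 * 1) ∂nuA (Set.Ioc 0 t) =
        ∫ s in Set.Ioc 0 t, (∫ q, Qr F s q * (ψ q.2 * 1) ∂muC) := by
      unfold nuA at hQi ⊢
      exact integral_prod _ hQi
    have a2 : ∫ p, Qr F p.1 (shift p.1 p.2) * (ψ p.2.2 * 1) ∂nuA (Set.Ioc 0 t) =
        ∫ s in Set.Ioc 0 t, (∫ q, Qr F s (shift s q) * (ψ q.2 * 1) ∂muC) := by
      unfold nuA at hQi2 ⊢
      exact integral_prod _ hQi2
    rw [a2]
    rw [a1] at z1
    refine Eq.trans ?_ z1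
    refine integral_congr_ae (Filter.Eventually.of_forall fun s => ?_)
    exact integral_shift (G := fun q : R3 × R3 => Qr F s q * (ψ q.2 * 1))
      (Measurable.comp (g := fun p : ℝ × R3 × R3 => Qr F p.1 p.2 * (ψ p.2.2 * 1))
        (f := fun q : R3 × R3 => (s, q)) hQg measurable_prodMk_left) (hQp s) s
  have hinner : Integrable (fun q : R3 × R3 =>
      ∫ s in Set.Ioc 0 t, Qr F s (shift s q) * (ψ q.2 * 1)) muC := by
    unfold nuA at hQi2
    exact Integrable.integral_prod_right hQi2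
  have hinner0 : ∫ q, (∫ s in Set.Ioc 0 t, Qr F s (shift s q) * (ψ q.2 * 1)) ∂muC = 0 := by
    refine Eq.trans ?_ hzero
    unfold nuA at hQi2 ⊢
    exact (integral_prod_symm _ hQi2).symm
  have hae : ∀ᵐ q ∂muC, ψ (shift t q).2 * F t (shift t q).1 (shift t q).2 =
      ψ q.2 * F0 q.1 q.2 + ∫ s in Set.Ioc 0 t, Qr F s (shift s q) * (ψ q.2 * 1) := by
    filter_upwards [ae_muC_of_ae (h.mild t ht htT)] with q hq
    have e : F t (shift t q).1 (shift t q).2 = F t (q.1 + t • q.2) q.2 := rfl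
    have e' : (shift t q).2 = q.2 := rfl
    rw [e, e', hq, intervalIntegral.integral_of_le ht, integral_mul_const]
    ring
  rw [integral_congr_ae hae, integral_add hi0 hinner, hinner0, add_zero]

theorem momentum (h : MildSolOn F F0 R TT) (t : ℝ) (ht : 0 ≤ t) (htT : t ≤ TT) (i : Fin 3) :
    Integrable (fun q : R3 × R3 => q.2 i * F t q.1 q.2)
      ((volume : Measure (R3 × R3)).restrict (cell ×ˢ Set.univ)) ∧
      ∫ q in cell ×ˢ Set.univ, q.2 i * F t q.1 q.2 ∂(volume : Measure (R3 × R3)) =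
        ∫ q in cell ×ˢ Set.univ, q.2 i * F0 q.1 q.2 ∂(volume : Measure (R3 × R3)) := by
  obtain ⟨hm, hb, hinv⟩ := abs_inv_bounds (ψ := fun v => v i) (Or.inr (Or.inl ⟨i, rfl⟩))
  exact h.total_conserved ht htT hm hb hinv

theorem energy_eq (h : MildSolOn F F0 R TT) (t : ℝ) (ht : 0 ≤ t) (htT : t ≤ TT) :
    (∫⁻ q in cell ×ˢ Set.univ, ENNReal.ofReal (‖q.2‖ ^ 2 * F t q.1 q.2)
      ∂(volume : Measure (R3 × R3))) =
      ∫⁻ q in cell ×ˢ Set.univ, ENNReal.ofReal (‖q.2‖ ^ 2 * F0 q.1 q.2)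
        ∂(volume : Measure (R3 × R3)) := by
  obtain ⟨hm, hb, hinv⟩ := abs_inv_bounds (ψ := fun v => ‖v‖ ^ 2 / 2) (Or.inr (Or.inr rfl))
  obtain ⟨hi, he⟩ := h.total_conserved ht htT hm hb hinv
  have hi0 : Integrable (fun q : R3 × R3 => ‖q.2‖ ^ 2 / 2 * F0 q.1 q.2) muC := by
    have := h.integrable_F0 (g := fun q => ‖q.2‖ ^ 2 / 2) (hm.comp measurable_snd) (C := 1) (k := 2)
      (Filter.Eventually.of_forall fun q => by rw [one_mul]; exact hb q.2)
    refine this.congr (Filter.Eventually.of_forall fun q => ?_)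
    simp only [mul_comm]
  have c1 : Integrable (fun q : R3 × R3 => ‖q.2‖ ^ 2 * F t q.1 q.2) muC := by
    refine (hi.const_mul 2).congr (Filter.Eventually.of_forall fun q => ?_)
    simp only; ring
  have c2 : Integrable (fun q : R3 × R3 => ‖q.2‖ ^ 2 * F0 q.1 q.2) muC := by
    refine (hi0.const_mul 2).congr (Filter.Eventually.of_forall fun q => ?_)
    simp only; ring
  have e : ∫ q, ‖q.2‖ ^ 2 * F t q.1 q.2 ∂muC = ∫ q, ‖q.2‖ ^ 2 * F0 q.1 q.2 ∂muC := by
    have d1 : ∫ q, ‖q.2‖ ^ 2 * F t q.1 q.2 ∂muC = 2 * ∫ q, ‖q.2‖ ^ 2 / 2 * F t q.1 q.2 ∂muC := by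
      rw [← integral_const_mul]
      refine integral_congr_ae (Filter.Eventually.of_forall fun q => ?_)
      simp only; ring
    have d2 : ∫ q, ‖q.2‖ ^ 2 * F0 q.1 q.2 ∂muC = 2 * ∫ q, ‖q.2‖ ^ 2 / 2 * F0 q.1 q.2 ∂muC := by
      rw [← integral_const_mul]
      refine integral_congr_ae (Filter.Eventually.of_forall fun q => ?_)
      simp only; ring
    rw [d1, d2, he]
  change ∫⁻ q, ENNReal.ofReal (‖q.2‖ ^ 2 * F t q.1 q.2) ∂muC =
    ∫⁻ q, ENNReal.ofReal (‖q.2‖ ^ 2 * F0 q.1 q.2) ∂muC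
  rw [← ofReal_integral_eq_lintegral_ofReal c1, ← ofReal_integral_eq_lintegral_ofReal c2, e]
  · exact Filter.Eventually.of_forall fun q => mul_nonneg (by positivity) (h.F0_nonneg _ _)
  · exact Filter.Eventually.of_forall fun q => mul_nonneg (by positivity) (h.nonneg _ _ _ ht)

end MildSolOn

end Crest.Agent.R68
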