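import Mathlib
import Crest.Agent.R68.EHyp
import Crest.Agent.R68.EShift
import Crest.Agent.R68.EChain
import Crest.Agent.R68.EEnt3
import Crest.Agent.R68.EChar
import Crest.Agent.R68.EHypOn

/-!
Row 68, part E: the entropy identity along characteristics,
`∫ φ(F t) - ∫ φ(F 0) = ∫_0^t ∫ Q(F) log(F/M + δ)`, `φ_v(z) = M(v) h(z/M(v) + δ)`.
-/

set_option autoImplicit false
open MeasureTheory Set
open scoped ENNReal NNReal Pointwise
open Crest.AnalysisR.VecCalc3 Crest.AnalysisR.PDE.Boltzmann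

namespace Crest.Agent.R68EOn

open Crest.Agent.R68E hiding perX_Qr perX_logD integrable_Q_weight integrable_Q integrable_Q_logD measurable_F₀ measurable_yy ae_integrableOn_Q ae_ae_yy ae_yy_nonneg integrable_datum integrable_entD_datum entropy_char

open Crest.Agent.R68 (MildSolOn Qr shift MeasF PerX)

variable {F : ℝ → R3 → R3 → ℝ} {F₀ : R3 → R3 → ℝ} {R TT : ℝ}

lemma perX_Qr (S : MildSolOn F F₀ R TT) (s : ℝ) : PerX (Qr F s) := by
  intro v x i
  have h : ∀ v', F s (x + EuclideanSpace.single i 1) v' = F s x v' := fun v' => S.per s v' x i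
  have hF : F s (x + EuclideanSpace.single i 1) = F s x := funext h
  simp only [Qr, collGain, collLoss, hF]

lemma perX_logD (S : MildSolOn F F₀ R TT) (δ s : ℝ) : PerX (logD F δ s) := by
  intro v x i
  have h : F s (x + EuclideanSpace.single i 1) v = F s x v := S.per s v x i
  simp only [logD, h]

/-- `Q(F)` is integrable on `(0,T) × cell × R3`, with weight `C + |v|² + log(1+F)`. -/
lemma integrable_Q_weight (S : MildSolOn F F₀ R TT) (T C : ℝ) (hC : 0 ≤ C)
    {w : ℝ × (R3 × R3) → ℝ} (hw : Measurable w)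
    (hb : ∀ p : ℝ × (R3 × R3), 0 < p.1 →
      |w p| ≤ C * ((1 + ‖p.2.2‖ ^ 2) + Real.log (1 + F p.1 p.2.1 p.2.2)))
    (hTT : T ≤ TT := by assumption) :
    Integrable (fun p : ℝ × (R3 × R3) => Qr F p.1 p.2 * w p) (mu3 T) := by
  have hint := S.int T 2 hTT
  rw [mu3_eq T] at hint
  refine ⟨((measurable_Qr S.meas).mul hw).aestronglyMeasurable, ?_⟩
  unfold HasFiniteIntegral
  have hle : ∀ᵐ p ∂(mu3 T), ‖Qr F p.1 p.2 * w p‖ₑ ≤ ENNReal.ofReal C *
      (ENNReal.ofReal ((1 + ‖p.2.2‖ ^ 2) ^ ((2 : ℕ) / 2 : ℝ) + Real.log (1 + F p.1 p.2.1 p.2.2)) *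
        (collGain F p.1 p.2.1 p.2.2 + collLoss F p.1 p.2.1 p.2.2)) := by
    have hpos : ∀ᵐ p ∂(mu3 T), 0 < p.1 := by
      have h1 : ∀ᵐ s ∂(volume.restrict (Ioo (0 : ℝ) T)), 0 < s := by
        filter_upwards [ae_restrict_mem measurableSet_Ioo] with s hs using hs.1
      exact Measure.quasiMeasurePreserving_fst.ae h1
    filter_upwards [hpos] with p hp
    have h1 : ‖Qr F p.1 p.2‖ₑ ≤ collGain F p.1 p.2.1 p.2.2 + collLoss F p.1 p.2.1 p.2.2 := by
      unfold Qr
      refine (enorm_sub_le).trans (add_le_add ?_ ?_)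
      · rw [Real.enorm_of_nonneg ENNReal.toReal_nonneg]
        exact ENNReal.ofReal_toReal_le
      · rw [Real.enorm_of_nonneg ENNReal.toReal_nonneg]
        exact ENNReal.ofReal_toReal_le
    have h2 : ‖w p‖ₑ ≤ ENNReal.ofReal C *
        ENNReal.ofReal ((1 + ‖p.2.2‖ ^ 2) ^ ((2 : ℕ) / 2 : ℝ) +
          Real.log (1 + F p.1 p.2.1 p.2.2)) := by
      rw [← ENNReal.ofReal_mul hC, ← ofReal_norm, Real.norm_eq_abs]
      refine ENNReal.ofReal_le_ofReal ?_
      have := hb p hp
      have h3 : ((1 + ‖p.2.2‖ ^ 2) ^ ((2 : ℕ) / 2 : ℝ) : ℝ) = 1 + ‖p.2.2‖ ^ 2 := by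
        norm_num
      rw [h3]; exact this
    rw [enorm_mul]
    calc ‖Qr F p.1 p.2‖ₑ * ‖w p‖ₑ ≤ (collGain F p.1 p.2.1 p.2.2 + collLoss F p.1 p.2.1 p.2.2) *
        (ENNReal.ofReal C * ENNReal.ofReal ((1 + ‖p.2.2‖ ^ 2) ^ ((2 : ℕ) / 2 : ℝ) +
          Real.log (1 + F p.1 p.2.1 p.2.2))) := mul_le_mul' h1 h2
      _ = _ := by ring
  refine lt_of_le_of_lt (lintegral_mono_ae hle) ?_
  rw [lintegral_const_mul']
  · exact ENNReal.mul_lt_top ENNReal.ofReal_lt_top hint
  · exact ENNReal.ofReal_ne_top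

lemma integrable_Q (S : MildSolOn F F₀ R TT) (T : ℝ) (hTT : T ≤ TT := by assumption) :
    Integrable (fun p : ℝ × (R3 × R3) => Qr F p.1 p.2) (mu3 T) := by
  have := integrable_Q_weight S T 1 zero_le_one (w := fun _ => 1) measurable_const (by
    intro p hp
    have h1 : 0 ≤ Real.log (1 + F p.1 p.2.1 p.2.2) :=
      Real.log_nonneg (by linarith [S.nonneg p.1 p.2.1 p.2.2 hp.le])
    rw [abs_one]
    nlinarith [sq_nonneg ‖p.2.2‖])
  simpa using this

lemma integrable_Q_logD (S : MildSolOn F F₀ R TT) {δ : ℝ} (hδ : 0 < δ) (hδ1 : δ ≤ 1) (T : ℝ)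
    (hTT : T ≤ TT := by assumption) :
    Integrable (fun p : ℝ × (R3 × R3) => Qr F p.1 p.2 * logD F δ p.1 p.2) (mu3 T) := by
  refine integrable_Q_weight S T (|Real.log δ| + 5) (by positivity)
    (measurable_logD S.meas δ) ?_
  intro p hp
  have h0 := S.nonneg p.1 p.2.1 p.2.2 hp.le
  have h1 := abs_logD_le hδ hδ1 p.2.2 h0
  have h2 : 0 ≤ Real.log (1 + F p.1 p.2.1 p.2.2) := Real.log_nonneg (by linarith)
  have h3 := abs_nonneg (Real.log δ)
  refine h1.trans ?_
  have h4 : 0 ≤ ‖p.2.2‖ ^ 2 := by positivity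
  nlinarith

lemma measurable_F₀ (S : MildSolOn F F₀ R TT) : Measurable fun q : R3 × R3 => F₀ q.1 q.2 := S.datum.1

lemma measurable_yy (S : MildSolOn F F₀ R TT) :
    Measurable fun p : (R3 × R3) × ℝ => yy F F₀ p.1 p.2 := by
  have h0 : Measurable fun p : (R3 × R3) × ℝ => F₀ p.1.1 p.1.2 :=
    (measurable_F₀ S).comp measurable_fst
  exact h0.add (measurable_primitive (measurable_Qshift S.meas))

/-- integrability along a.e. characteristic. -/
lemma ae_integrableOn_Q (S : MildSolOn F F₀ R TT) (T : ℝ) (hTT : T ≤ TT := by assumption) :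
    ∀ᵐ q ∂mu2, IntegrableOn (fun s => Qr F s (shift s q)) (Ioo 0 T) := by
  have h1 := (mp_Fl T).integrable_comp_of_integrable (integrable_Q S T)
  have h2 : Integrable (fun p : ℝ × (R3 × R3) => Qr F p.1 (shift p.1 p.2)) (mu3 T) := by
    refine h1.congr (Filter.Eventually.of_forall fun p => ?_)
    exact fl_eq_shift (perX_Qr S p.1) p.1 p.2
  exact h2.prod_left_ae

/-- a.e. characteristic: `F s (shift s q) = y(s)` for a.e. `s`. -/
lemma ae_ae_yy (S : MildSolOn F F₀ R TT) (T : ℝ) (hTT : T ≤ TT := by assumption) :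
    ∀ᵐ q ∂mu2, ∀ᵐ s ∂(volume.restrict (Ioo 0 T)), F s (shift s q).1 (shift s q).2 = yy F F₀ q s := by
  have hm : MeasurableSet {p : ℝ × (R3 × R3) |
      F p.1 (shift p.1 p.2).1 (shift p.1 p.2).2 = yy F F₀ p.2 p.1} := by
    refine measurableSet_eq_fun ?_ ?_
    · exact Crest.Agent.R68.MeasF.comp S.meas measurable_fst
        (Crest.Agent.R68.Measurable.shift measurable_fst measurable_snd).fst
        (Crest.Agent.R68.Measurable.shift measurable_fst measurable_snd).snd
    · exact (measurable_yy S).comp (measurable_snd.prodMk measurable_fst)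
  have h1 : ∀ᵐ s ∂(volume.restrict (Ioo (0 : ℝ) T)), ∀ᵐ q ∂mu2,
      F s (shift s q).1 (shift s q).2 = yy F F₀ q s := by
    filter_upwards [ae_restrict_mem measurableSet_Ioo] with s hs
    have h2 := S.mild s hs.1.le (hs.2.le.trans hTT)
    rw [← mu2_eq]
    filter_upwards [ae_restrict_of_ae h2] with q hq
    unfold yy
    rw [intervalIntegral.integral_of_le hs.1.le, integral_Ioc_eq_integral_Ioo] at hq
    exact hq
  have h3 : ∀ᵐ p ∂(mu3 T), F p.1 (shift p.1 p.2).1 (shift p.1 p.2).2 = yy F F₀ p.2 p.1 := by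
    unfold mu3
    rw [Measure.ae_prod_iff_ae_ae hm]
    exact h1
  have h4 : ∀ᵐ p ∂(mu2.prod (volume.restrict (Ioo (0 : ℝ) T))),
      F p.2 (shift p.2 p.1).1 (shift p.2 p.1).2 = yy F F₀ p.1 p.2 := by
    have hsw : MeasurePreserving Prod.swap (mu2.prod (volume.restrict (Ioo (0 : ℝ) T)))
      (mu3 T) := Measure.measurePreserving_swap
    exact hsw.quasiMeasurePreserving.ae h3
  exact Measure.ae_ae_of_ae_prod h4

/-- nonnegativity of `y` on `[0,T]` along a.e. characteristic. -/
lemma ae_yy_nonneg (S : MildSolOn F F₀ R TT) {T : ℝ} (hT : 0 < T)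
    (hTT : T ≤ TT := by assumption) :
    ∀ᵐ q ∂mu2, ∀ s ∈ Icc 0 T, 0 ≤ yy F F₀ q s := by
  filter_upwards [ae_integrableOn_Q S T, ae_ae_yy S T] with q hq1 hq2
  have hcont : ContinuousOn (yy F F₀ q) (Icc 0 T) := by
    have hi : IntervalIntegrable (fun s => Qr F s (shift s q)) volume 0 T := by
      rw [intervalIntegrable_iff_integrableOn_Ioo_of_le hT.le]; exact hq1
    have h1 : ContinuousOn (fun s => F₀ q.1 q.2 + ∫ r in (0 : ℝ)..s, Qr F r (shift r q))
        (Icc 0 T) := by
      have h2 := intervalIntegral.continuousOn_primitive_interval' hi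
        (show (0 : ℝ) ∈ uIcc 0 T by simp)
      rw [uIcc_of_le hT.le] at h2
      exact continuousOn_const.add h2
    refine h1.congr fun s hs => ?_
    unfold yy
    beta_reduce
    rw [intervalIntegral.integral_of_le hs.1, integral_Ioc_eq_integral_Ioo]
  have hae : yy F F₀ q =ᵐ[volume.restrict (Icc 0 T)] fun s => max (yy F F₀ q s) 0 := by
    rw [← restrict_Ioo_eq_restrict_Icc]
    filter_upwards [hq2, ae_restrict_mem measurableSet_Ioo] with s hs hs'
    have := S.nonneg s (shift s q).1 (shift s q).2 hs'.1.le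
    rw [hs] at this
    exact (max_eq_left this).symm
  have heq := Measure.eqOn_Icc_of_ae_eq volume hT.ne hae hcont (hcont.sup continuousOn_const)
  intro s hs
  have := heq hs
  simp only at this
  rw [this]
  exact le_max_right _ _

lemma integrable_datum (S : MildSolOn F F₀ R TT) (C : ℝ) (hC : 0 ≤ C) :
    Integrable (fun q : R3 × R3 => F₀ q.1 q.2 * (C + ‖q.2‖ ^ 2 / 2 +
      Real.log (1 + F₀ q.1 q.2))) mu2 := by
  have hd := S.datum.2.2.2.2
  rw [mu2_eq] at hd
  have hm : Measurable (fun q : R3 × R3 => F₀ q.1 q.2) := S.datum.1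
  refine ⟨?_, ?_⟩
  · refine Measurable.aestronglyMeasurable ?_
    exact hm.mul ((measurable_const.add (by fun_prop)).add
      (Real.measurable_log.comp (measurable_const.add hm)))
  · unfold HasFiniteIntegral
    have hle : ∀ q : R3 × R3, ‖F₀ q.1 q.2 * (C + ‖q.2‖ ^ 2 / 2 + Real.log (1 + F₀ q.1 q.2))‖ₑ ≤
        ENNReal.ofReal (C + 2) * ENNReal.ofReal (F₀ q.1 q.2 *
          (1 + ‖q.2‖ ^ 2 + |Real.log (F₀ q.1 q.2)|)) := by
      intro q
      have h0 := S.datum.2.1 q.1 q.2
      set z := F₀ q.1 q.2 with hz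
      have hl0 : 0 ≤ Real.log (1 + z) := Real.log_nonneg (by linarith)
      have hl1 : Real.log (1 + z) ≤ 1 + |Real.log z| := by
        rcases le_total z 1 with h1 | h1
        · have : Real.log (1 + z) ≤ Real.log 2 := Real.log_le_log (by linarith) (by linarith)
          have h2 := Real.log_two_lt_d9
          have h3 := abs_nonneg (Real.log z)
          linarith
        · have : Real.log (1 + z) ≤ Real.log (2 * z) := Real.log_le_log (by linarith) (by linarith)
          rw [Real.log_mul (by norm_num) (by linarith)] at this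
          have h2 := Real.log_two_lt_d9
          have h3 := le_abs_self (Real.log z)
          linarith
      rw [← ENNReal.ofReal_mul (by linarith), ← ofReal_norm, Real.norm_eq_abs]
      refine ENNReal.ofReal_le_ofReal ?_
      have hsq : 0 ≤ ‖q.2‖ ^ 2 := by positivity
      have habs := abs_nonneg (Real.log z)
      rw [abs_of_nonneg (mul_nonneg h0 (by positivity))]
      have : z * (C + ‖q.2‖ ^ 2 / 2 + Real.log (1 + z)) ≤
          z * ((C + 2) * (1 + ‖q.2‖ ^ 2 + |Real.log z|)) := by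
        refine mul_le_mul_of_nonneg_left ?_ h0
        nlinarith [mul_nonneg hC hsq, mul_nonneg hC habs]
      linarith
    refine lt_of_le_of_lt (lintegral_mono hle) ?_
    rw [lintegral_const_mul' _ _ ENNReal.ofReal_ne_top]
    exact ENNReal.mul_lt_top ENNReal.ofReal_lt_top hd

lemma integrable_entD_datum (S : MildSolOn F F₀ R TT) {δ : ℝ} (hδ : 0 ≤ δ) (hδ1 : δ ≤ 1) :
    Integrable (fun q : R3 × R3 => Crest.Agent.R68.entD δ (F₀ q.1 q.2) (maxwellian q.2)) mu2 := by
  have hb := integrable_maxwellian_mu2.add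
    (integrable_datum S (1 + Crest.Agent.R68.cM) (by linarith [Crest.Agent.R68.cM_nonneg]))
  refine hb.mono' (measurable_entD S.datum.1 δ).aestronglyMeasurable
    (Filter.Eventually.of_forall fun q => ?_)
  have h0 : ∀ v, 0 ≤ F₀ q.1 v := fun v => S.datum.2.1 q.1 v
  rw [Real.norm_eq_abs, abs_of_nonneg (Crest.Agent.R68.entD_nonneg hδ (h0 q.2)
    (maxwellian_pos q.2))]
  have := Crest.Agent.R68.entD_bound' hδ hδ1 (f := F₀ q.1) h0 q.2
  simpa [add_assoc] using this

/-- **Entropy identity along characteristics.** -/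
theorem entropy_char (S : MildSolOn F F₀ R TT) {δ : ℝ} (hδ : 0 < δ) (hδ1 : δ ≤ 1) {t : ℝ}
    (ht : 0 < t) (htT : t ≤ TT) :
    Integrable (fun q : R3 × R3 => Crest.Agent.R68.entD δ (F₀ q.1 q.2) (maxwellian q.2)) mu2 ∧
    Integrable (fun q : R3 × R3 => Crest.Agent.R68.entD δ (F t q.1 q.2) (maxwellian q.2)) mu2 ∧
    Integrable (fun p : ℝ × (R3 × R3) => Qr F p.1 p.2 * logD F δ p.1 p.2) (mu3 t) ∧
    (∫ q, Crest.Agent.R68.entD δ (F t q.1 q.2) (maxwellian q.2) ∂mu2) -
      ∫ q, Crest.Agent.R68.entD δ (F₀ q.1 q.2) (maxwellian q.2) ∂mu2 =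
      ∫ p, Qr F p.1 p.2 * logD F δ p.1 p.2 ∂(mu3 t) := by
  have hI0 := integrable_entD_datum S hδ.le hδ1
  have hP := integrable_Q_logD S hδ hδ1 t
  -- the integrand along characteristics
  have hPs : Integrable (fun p : ℝ × (R3 × R3) =>
      Qr F p.1 (shift p.1 p.2) * logD F δ p.1 (shift p.1 p.2)) (mu3 t) := by
    refine ((mp_Fl t).integrable_comp_of_integrable hP).congr
      (Filter.Eventually.of_forall fun p => ?_)
    have h1 := fl_eq_shift (perX_Qr S p.1) p.1 p.2
    have h2 := fl_eq_shift (perX_logD S δ p.1) p.1 p.2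
    simp only [Function.comp_apply, Fl, h1, h2]
  have hPe : ∫ p, Qr F p.1 (shift p.1 p.2) * logD F δ p.1 (shift p.1 p.2) ∂(mu3 t) =
      ∫ p, Qr F p.1 p.2 * logD F δ p.1 p.2 ∂(mu3 t) := by
    have h3 : ∀ p : ℝ × (R3 × R3),
        Qr F p.1 (shift p.1 p.2) * logD F δ p.1 (shift p.1 p.2) =
        Qr F (Fl p).1 (Fl p).2 * logD F δ (Fl p).1 (Fl p).2 := by
      intro p
      have h1 := fl_eq_shift (perX_Qr S p.1) p.1 p.2
      have h2 := fl_eq_shift (perX_logD S δ p.1) p.1 p.2
      simp only [Fl, h1, h2]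
    rw [integral_congr_ae (Filter.Eventually.of_forall h3)]
    conv_rhs => rw [← (mp_Fl t).map_eq]
    rw [integral_map (mp_Fl t).measurable.aemeasurable]
    rw [(mp_Fl t).map_eq]
    exact hP.aestronglyMeasurable
  -- swapped version
  have hsw : Integrable (fun p : (R3 × R3) × ℝ =>
      Qr F p.2 (shift p.2 p.1) * logD F δ p.2 (shift p.2 p.1))
      (mu2.prod (volume.restrict (Ioo (0 : ℝ) t))) := hPs.swap
  -- pointwise chain rule
  have hpt : ∀ᵐ q ∂mu2, Crest.Agent.R68.entD δ (F t (shift t q).1 (shift t q).2)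
        (maxwellian q.2) - Crest.Agent.R68.entD δ (F₀ q.1 q.2) (maxwellian q.2) =
      ∫ s in Ioo 0 t, Qr F s (shift s q) * logD F δ s (shift s q) := by
    have hmt : ∀ᵐ q ∂mu2, F t (shift t q).1 (shift t q).2 = yy F F₀ q t := by
      rw [← mu2_eq]
      filter_upwards [ae_restrict_of_ae (S.mild t ht.le htT)] with q hq
      unfold yy
      rw [intervalIntegral.integral_of_le ht.le, integral_Ioc_eq_integral_Ioo] at hq
      exact hq
    filter_upwards [ae_integrableOn_Q S t, ae_ae_yy S t, ae_yy_nonneg S ht, hmt]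
      with q h1 h2 h3 h4
    have hM := maxwellian_pos q.2
    have hc : -(δ * maxwellian q.2) < 0 := by
      have := mul_pos hδ hM
      linarith
    obtain ⟨-, hch⟩ := chain_rule ht.le h1 (F₀ q.1 q.2) (φ := phiD δ q.2)
      (φ' := fun z => Real.log (z / maxwellian q.2 + δ)) (c := -(δ * maxwellian q.2))
      (fun z hz => hasDerivAt_phiD δ q.2 hz) (continuousOn_logD δ q.2)
      (fun s hs => lt_of_lt_of_le hc (h3 s hs))
    rw [h4, ← phiD_eq, ← phiD_eq]
    unfold yy
    rw [hch]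
    refine setIntegral_congr_ae measurableSet_Ioo ?_
    have h2' : ∀ᵐ s : ℝ, s ∈ Ioo 0 t → F s (shift s q).1 (shift s q).2 = yy F F₀ q s :=
      (ae_restrict_iff' measurableSet_Ioo).1 h2
    filter_upwards [h2'] with s hs hst
    have h5 := hs hst
    unfold yy at h5
    unfold logD
    rw [h5]
    have h6 : (shift s q).2 = q.2 := rfl
    rw [h6, mul_comm]
  have hint_s : Integrable (fun q => ∫ s in Ioo 0 t,
      Qr F s (shift s q) * logD F δ s (shift s q)) mu2 := hsw.integral_prod_left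
  have hIt_shift : Integrable (fun q : R3 × R3 => Crest.Agent.R68.entD δ
      (F t (shift t q).1 (shift t q).2) (maxwellian q.2)) mu2 := by
    refine (hI0.add hint_s).congr ?_
    filter_upwards [hpt] with q hq
    simp only [Pi.add_apply]
    linarith
  have hper : PerX (fun q : R3 × R3 => Crest.Agent.R68.entD δ (F t q.1 q.2) (maxwellian q.2)) := by
    intro v x i
    have h : F t (x + EuclideanSpace.single i 1) v = F t x v := S.per t v x i
    simp only [h]
  have hmeasFt : Measurable fun q : R3 × R3 => F t q.1 q.2 :=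
    Crest.Agent.R68.MeasF.comp S.meas measurable_const measurable_fst measurable_snd
  have hmt := measurable_entD hmeasFt δ
  have hfl : ∀ q, Crest.Agent.R68.entD δ (F t (fl t q).1 (fl t q).2) (maxwellian (fl t q).2) =
      Crest.Agent.R68.entD δ (F t (shift t q).1 (shift t q).2) (maxwellian q.2) :=
    fun q => fl_eq_shift hper t q
  have hIt : Integrable (fun q : R3 × R3 =>
      Crest.Agent.R68.entD δ (F t q.1 q.2) (maxwellian q.2)) mu2 := by
    rw [← (mp_fl t).integrable_comp hmt.aestronglyMeasurable]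
    exact hIt_shift.congr (Filter.Eventually.of_forall fun q => (hfl q).symm)
  have hIte : ∫ q, Crest.Agent.R68.entD δ (F t q.1 q.2) (maxwellian q.2) ∂mu2 =
      ∫ q, Crest.Agent.R68.entD δ (F t (shift t q).1 (shift t q).2) (maxwellian q.2) ∂mu2 := by
    rw [← integral_congr_ae (Filter.Eventually.of_forall hfl)]
    conv_lhs => rw [← (mp_fl t).map_eq]
    rw [integral_map (mp_fl t).measurable.aemeasurable]
    rw [(mp_fl t).map_eq]
    exact hmt.aestronglyMeasurable
  refine ⟨hI0, hIt, hP, ?_⟩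
  rw [hIte, ← integral_sub hIt_shift hI0, integral_congr_ae hpt, ← hPe]
  rw [← integral_prod (μ := mu2) (ν := volume.restrict (Ioo (0 : ℝ) t))
    (fun p : (R3 × R3) × ℝ => Qr F p.2 (shift p.2 p.1) * logD F δ p.2 (shift p.2 p.1)) hsw]
  unfold mu3
  rw [← integral_prod_swap]
  rfl

end Crest.Agent.R68EOn
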