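import Crest.Agent.R68.EHyp

/-!
R68 / EWk1: basic consequences of the hypotheses MildSol (helper485, Part E).
-/

set_option autoImplicit false
open MeasureTheory
open scoped ENNReal
open Crest.AnalysisR.VecCalc3 Crest.AnalysisR.PDE.Boltzmann

namespace Crest.Agent.R68

/-- time set × phase cell -/
noncomputable def nuA (A : Set ℝ) : Measure (ℝ × R3 × R3) :=
  ((volume : Measure ℝ).restrict A).prod muC

instance (A : Set ℝ) : SFinite (nuA A) := by unfold nuA; infer_instance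

theorem nuA_eq (A : Set ℝ) :
    (volume : Measure (ℝ × R3 × R3)).restrict (A ×ˢ (cell ×ˢ Set.univ)) = nuA A := by
  unfold nuA muC
  rw [Measure.prod_restrict, ← Measure.volume_eq_prod]

theorem region_eq : (volume : Measure (ℝ × R3 × R3)).restrict region = nuA (Set.Ioi 0) := by
  unfold region
  exact nuA_eq _

theorem nuA_Ioo_Ioc (T : ℝ) : nuA (Set.Ioo 0 T) = nuA (Set.Ioc 0 T) := by
  unfold nuA
  rw [Measure.restrict_congr_set Ioo_ae_eq_Ioc]

theorem lintegral_nuA {A : Set ℝ} {G : ℝ × R3 × R3 → ℝ≥0∞} (hG : Measurable G) :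
    ∫⁻ p, G p ∂nuA A = ∫⁻ t in A, ∫⁻ q, G (t, q) ∂muC := by
  unfold nuA
  rw [lintegral_prod _ hG.aemeasurable]

theorem lintegral_nuA' {A : Set ℝ} {G : ℝ × R3 × R3 → ℝ≥0∞} (hG : Measurable G) :
    ∫⁻ p, G p ∂nuA A = ∫⁻ q, (∫⁻ t in A, G (t, q)) ∂muC := by
  unfold nuA
  rw [lintegral_prod_symm _ hG.aemeasurable]

@[fun_prop]
theorem measurable_shiftT : Measurable (fun p : ℝ × R3 × R3 => (p.1, shift p.1 p.2)) :=
  measurable_fst.prodMk (Measurable.shift measurable_fst measurable_snd)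

theorem lintegral_nuA_shift {A : Set ℝ} {G : ℝ × R3 × R3 → ℝ≥0∞} (hG : Measurable G)
    (hp : ∀ t, PerX (fun q => G (t, q))) :
    ∫⁻ p, G (p.1, shift p.1 p.2) ∂nuA A = ∫⁻ p, G p ∂nuA A := by
  have hGm : Measurable (fun p : ℝ × R3 × R3 => G (p.1, shift p.1 p.2)) :=
    hG.comp measurable_shiftT
  rw [lintegral_nuA hGm, lintegral_nuA hG]
  refine lintegral_congr fun t => ?_
  exact lintegral_shift (G := fun q => G (t, q)) (hG.comp measurable_prodMk_left) (hp t) t

theorem integrable_nuA_shift {A : Set ℝ} {G : ℝ × R3 × R3 → ℝ} (hG : Measurable G)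
    (hp : ∀ t, PerX (fun q => G (t, q))) :
    Integrable (fun p => G (p.1, shift p.1 p.2)) (nuA A) ↔ Integrable G (nuA A) := by
  have hGm : Measurable (fun p : ℝ × R3 × R3 => G (p.1, shift p.1 p.2)) :=
    hG.comp measurable_shiftT
  have h := lintegral_nuA_shift (A := A) (G := fun p => ‖G p‖ₑ) hG.enorm
    (fun t => (hp t).comp _)
  constructor
  · intro hi
    refine ⟨hG.aestronglyMeasurable, ?_⟩
    have := hi.2
    rw [hasFiniteIntegral_iff_enorm] at this ⊢
    rwa [h] at this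
  · intro hi
    refine ⟨hGm.aestronglyMeasurable, ?_⟩
    have := hi.2
    rw [hasFiniteIntegral_iff_enorm] at this ⊢
    rwa [h]

/-- total collision rate -/
noncomputable def gl (F : ℝ → R3 → R3 → ℝ) (t : ℝ) (q : R3 × R3) : ℝ≥0∞ :=
  collGain F t q.1 q.2 + collLoss F t q.1 q.2

theorem enorm_Qr_le (F : ℝ → R3 → R3 → ℝ) (t : ℝ) (q : R3 × R3) : ‖Qr F t q‖ₑ ≤ gl F t q := by
  unfold Qr gl
  refine (enorm_sub_le).trans (add_le_add ?_ ?_)
  · rw [Real.enorm_eq_ofReal ENNReal.toReal_nonneg]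
    exact ENNReal.ofReal_toReal_le
  · rw [Real.enorm_eq_ofReal ENNReal.toReal_nonneg]
    exact ENNReal.ofReal_toReal_le

/-- polynomial weight -/
noncomputable def wt (k : ℕ) (v : R3) : ℝ := (1 + ‖v‖ ^ 2) ^ (k / 2 : ℝ)

theorem wt_pos (k : ℕ) (v : R3) : 0 < wt k v := by unfold wt; positivity

theorem one_le_wt (k : ℕ) (v : R3) : 1 ≤ wt k v := by
  unfold wt
  refine Real.one_le_rpow ?_ (by positivity)
  nlinarith [sq_nonneg ‖v‖]

theorem wt_zero (v : R3) : wt 0 v = 1 := by simp [wt]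

theorem wt_two (v : R3) : wt 2 v = 1 + ‖v‖ ^ 2 := by simp [wt]

@[fun_prop]
theorem continuous_wt (k : ℕ) : Continuous (wt k) := by
  unfold wt
  refine Continuous.rpow_const (by fun_prop) fun v => ?_
  right
  positivity

@[fun_prop]
theorem measurable_wt (k : ℕ) : Measurable (wt k) := (continuous_wt k).measurable

theorem wt_mono (k : ℕ) {v : R3} {r : ℝ} (hv : ‖v‖ ≤ r) : wt k v ≤ (1 + r ^ 2) ^ (k / 2 : ℝ) := by
  unfold wt
  refine Real.rpow_le_rpow (by positivity) ?_ (by positivity)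
  have := norm_nonneg v
  nlinarith

theorem wt_mul (k l : ℕ) (v : R3) : wt k v * wt l v = wt (k + l) v := by
  unfold wt
  rw [← Real.rpow_add (by positivity)]
  congr 1
  push_cast
  ring

theorem norm_le_wt_one (v : R3) : ‖v‖ ≤ wt 1 v := by
  unfold wt
  have h : (1 + ‖v‖ ^ 2) ^ (((1 : ℕ) : ℝ) / 2) = Real.sqrt (1 + ‖v‖ ^ 2) := by
    rw [Real.sqrt_eq_rpow]; norm_num
  rw [h]
  refine Real.le_sqrt_of_sq_le ?_
  linarith

namespace MildSol

variable {F : ℝ → R3 → R3 → ℝ} {F0 : R3 → R3 → ℝ} {R : ℝ}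

theorem F_per (h : MildSol F F0 R) (t : ℝ) (x : R3) (i : Fin 3) :
    F t (x + EuclideanSpace.single i 1) = F t x := funext fun v => h.per t v x i

theorem perX_gain (h : MildSol F F0 R) (t : ℝ) : PerX (fun q => collGain F t q.1 q.2) := by
  intro v x i
  simp only [collGain, h.F_per]

theorem perX_loss (h : MildSol F F0 R) (t : ℝ) : PerX (fun q => collLoss F t q.1 q.2) := by
  intro v x i
  simp only [collLoss, h.F_per]

theorem perX_gl (h : MildSol F F0 R) (t : ℝ) : PerX (gl F t) :=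
  (h.perX_gain t).comp₂ (h.perX_loss t) (fun a b => a + b)

theorem perX_Qr (h : MildSol F F0 R) (t : ℝ) : PerX (Qr F t) :=
  (h.perX_gain t).comp₂ (h.perX_loss t) (fun a b => a.toReal - b.toReal)

theorem perX_F (h : MildSol F F0 R) (t : ℝ) : PerX (fun q => F t q.1 q.2) :=
  fun v x i => h.per t v x i

theorem perX_F0 (h : MildSol F F0 R) : PerX (fun q => F0 q.1 q.2) :=
  fun v x i => h.datum.2.2.1 v x i

theorem meas_gl (h : MildSol F F0 R) : Measurable (fun p : ℝ × R3 × R3 => gl F p.1 p.2) :=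
  (h.meas.collGain).add (h.meas.collLoss)

theorem meas_Qr (h : MildSol F F0 R) : Measurable (fun p : ℝ × R3 × R3 => Qr F p.1 p.2) :=
  (h.meas.collGain.ennreal_toReal).sub (h.meas.collLoss.ennreal_toReal)

theorem meas_F0 (h : MildSol F F0 R) : Measurable (fun q : R3 × R3 => F0 q.1 q.2) := h.datum.1

theorem F0_nonneg (h : MildSol F F0 R) (x v : R3) : 0 ≤ F0 x v := h.datum.2.1 x v

/-- weighted collision rate is integrable -/
theorem gl_lt_top (h : MildSol F F0 R) (T : ℝ) (k : ℕ) :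
    ∫⁻ p, ENNReal.ofReal (wt k p.2.2) * gl F p.1 p.2 ∂nuA (Set.Ioc 0 T) < ⊤ := by
  refine lt_of_le_of_lt ?_ (h.int T k)
  rw [nuA_eq, nuA_Ioo_Ioc]
  refine lintegral_mono_ae ?_
  have : ∀ᵐ p ∂nuA (Set.Ioc 0 T), p.1 ∈ Set.Ioc 0 T := by
    unfold nuA
    rw [Measure.ae_prod_iff_ae_ae]
    · filter_upwards [ae_restrict_mem measurableSet_Ioc] with t ht
      exact Filter.Eventually.of_forall fun _ => ht
    · exact measurable_fst measurableSet_Ioc
  filter_upwards [this] with p hp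
  refine mul_le_mul' (ENNReal.ofReal_le_ofReal ?_) le_rfl
  have : 0 ≤ Real.log (1 + F p.1 p.2.1 p.2.2) :=
    Real.log_nonneg (by linarith [h.nonneg p.1 p.2.1 p.2.2 hp.1.le])
  unfold wt
  linarith

theorem gl_shift (h : MildSol F F0 R) (A : Set ℝ) (k : ℕ) :
    ∫⁻ p, ENNReal.ofReal (wt k p.2.2) * gl F p.1 (shift p.1 p.2) ∂nuA A =
      ∫⁻ p, ENNReal.ofReal (wt k p.2.2) * gl F p.1 p.2 ∂nuA A := by
  refine lintegral_nuA_shift (G := fun p => ENNReal.ofReal (wt k p.2.2) * gl F p.1 p.2) ?_ ?_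
  · exact (by fun_prop : Measurable fun p : ℝ × R3 × R3 => ENNReal.ofReal (wt k p.2.2)).mul
      h.meas_gl
  · intro t
    exact (perX_snd (fun v => ENNReal.ofReal (wt k v))).comp₂ (h.perX_gl t) (fun a b => a * b)

theorem meas_gl_shift (h : MildSol F F0 R) :
    Measurable (fun p : ℝ × R3 × R3 => gl F p.1 (shift p.1 p.2)) :=
  Measurable.comp (g := fun p : ℝ × R3 × R3 => gl F p.1 p.2)
    (f := fun p : ℝ × R3 × R3 => (p.1, shift p.1 p.2)) h.meas_gl measurable_shiftT

theorem meas_Qr_shift (h : MildSol F F0 R) :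
    Measurable (fun p : ℝ × R3 × R3 => Qr F p.1 (shift p.1 p.2)) :=
  Measurable.comp (g := fun p : ℝ × R3 × R3 => Qr F p.1 p.2)
    (f := fun p : ℝ × R3 × R3 => (p.1, shift p.1 p.2)) h.meas_Qr measurable_shiftT

/-- total collision rate along characteristics is integrable -/
theorem gl_shift_lt_top (h : MildSol F F0 R) (T : ℝ) :
    ∫⁻ q, (∫⁻ t in Set.Ioc 0 T, gl F t (shift t q)) ∂muC < ⊤ := by
  have h0 := h.gl_lt_top T 0
  rw [← h.gl_shift] at h0
  have e : (fun p : ℝ × R3 × R3 => ENNReal.ofReal (wt 0 p.2.2) * gl F p.1 (shift p.1 p.2)) =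
      fun p => gl F p.1 (shift p.1 p.2) := by
    funext p
    rw [wt_zero, ENNReal.ofReal_one, one_mul]
  rw [e, lintegral_nuA' h.meas_gl_shift] at h0
  exact h0

/-- a.e. characteristic has an integrable collision rate -/
theorem ae_gl (h : MildSol F F0 R) (T : ℝ) :
    ∀ᵐ q ∂muC, ∫⁻ t in Set.Ioc 0 T, gl F t (shift t q) < ⊤ := by
  refine ae_lt_top ?_ (h.gl_shift_lt_top T).ne
  exact Measurable.lintegral_prod_left' h.meas_gl_shift

theorem measurable_Qr_char (h : MildSol F F0 R) (q : R3 × R3) :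
    Measurable (fun s => Qr F s (shift s q)) :=
  Measurable.comp (g := fun p : ℝ × R3 × R3 => Qr F p.1 p.2) (f := fun s : ℝ => (s, shift s q))
    h.meas_Qr (measurable_id.prodMk (Measurable.shift measurable_id measurable_const))

theorem ae_integrable (h : MildSol F F0 R) (T : ℝ) :
    ∀ᵐ q ∂muC, IntegrableOn (fun s => Qr F s (shift s q)) (Set.Ioc 0 T) := by
  filter_upwards [h.ae_gl T] with q hq
  refine ⟨(h.measurable_Qr_char q).aestronglyMeasurable, ?_⟩
  rw [hasFiniteIntegral_iff_enorm]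
  exact lt_of_le_of_lt (lintegral_mono fun s => enorm_Qr_le F s _) hq

end MildSol

end Crest.Agent.R68
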