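import Crest.Agent.R68.EWk1

/-!
R68 / EWk2: moments of a mild solution (helper485, Part E).
-/

set_option autoImplicit false
open MeasureTheory
open scoped ENNReal
open Crest.AnalysisR.VecCalc3 Crest.AnalysisR.PDE.Boltzmann

namespace Crest.Agent.R68

namespace MildSol

variable {F : ℝ → R3 → R3 → ℝ} {F0 : R3 → R3 → ℝ} {R : ℝ}

theorem F0_mass (h : MildSol F F0 R) : ∫⁻ q, ENNReal.ofReal (F0 q.1 q.2) ∂muC < ⊤ := by
  refine lt_of_le_of_lt ?_ h.datum.2.2.2.2
  unfold muC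
  refine lintegral_mono fun q => ENNReal.ofReal_le_ofReal ?_
  have h0 := h.F0_nonneg q.1 q.2
  have : 1 ≤ 1 + ‖q.2‖ ^ 2 + |Real.log (F0 q.1 q.2)| := by
    have := sq_nonneg ‖q.2‖
    have := abs_nonneg (Real.log (F0 q.1 q.2))
    linarith
  nlinarith

/-- bound of the moments of the datum -/
theorem F0_moment (h : MildSol F F0 R) (k : ℕ) :
    ∫⁻ q, ENNReal.ofReal (wt k q.2) * ENNReal.ofReal (F0 q.1 q.2) ∂muC < ⊤ := by
  have : ∫⁻ q, ENNReal.ofReal (wt k q.2) * ENNReal.ofReal (F0 q.1 q.2) ∂muC ≤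
      ∫⁻ q, ENNReal.ofReal ((1 + R ^ 2) ^ (k / 2 : ℝ)) * ENNReal.ofReal (F0 q.1 q.2) ∂muC := by
    refine lintegral_mono fun q => ?_
    by_cases hq : R ≤ ‖q.2‖
    · rw [h.datum.2.2.2.1 q.1 q.2 hq]
      simp
    · exact mul_le_mul' (ENNReal.ofReal_le_ofReal (wt_mono k (le_of_not_ge hq))) le_rfl
  refine lt_of_le_of_lt this ?_
  rw [lintegral_const_mul _ h.meas_F0.ennreal_ofReal]
  exact ENNReal.mul_lt_top ENNReal.ofReal_lt_top h.F0_mass

theorem measurable_F (h : MildSol F F0 R) (t : ℝ) :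
    Measurable (fun q : R3 × R3 => F t q.1 q.2) :=
  h.meas.comp (f := fun _ : R3 × R3 => t) measurable_const measurable_fst measurable_snd

/-- pointwise bound along characteristics -/
theorem enorm_F_shift_le (h : MildSol F F0 R) {t : ℝ} (ht : 0 ≤ t) :
    ∀ᵐ q ∂muC, ENNReal.ofReal (F t (shift t q).1 (shift t q).2) ≤
      ENNReal.ofReal (F0 q.1 q.2) + ∫⁻ s in Set.Ioc 0 t, gl F s (shift s q) := by
  filter_upwards [ae_muC_of_ae (h.mild t ht)] with q hq
  have e : F t (shift t q).1 (shift t q).2 = F t (q.1 + t • q.2) q.2 := rfl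
  rw [e, hq, intervalIntegral.integral_of_le ht]
  refine ENNReal.ofReal_add_le.trans (add_le_add le_rfl ?_)
  refine (Real.ofReal_le_enorm _).trans ?_
  refine (enorm_integral_le_lintegral_enorm _).trans ?_
  exact lintegral_mono fun s => enorm_Qr_le F s _

/-- the moment bound on [0,T] -/
noncomputable def momB (F : ℝ → R3 → R3 → ℝ) (F0 : R3 → R3 → ℝ) (T : ℝ) (k : ℕ) : ℝ≥0∞ :=
  (∫⁻ q, ENNReal.ofReal (wt k q.2) * ENNReal.ofReal (F0 q.1 q.2) ∂muC) +
    ∫⁻ p, ENNReal.ofReal (wt k p.2.2) * gl F p.1 p.2 ∂nuA (Set.Ioc 0 T)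

theorem momB_lt_top (h : MildSol F F0 R) (T : ℝ) (k : ℕ) : momB F F0 T k < ⊤ :=
  ENNReal.add_lt_top.2 ⟨h.F0_moment k, h.gl_lt_top T k⟩

theorem moment_le (h : MildSol F F0 R) {t T : ℝ} (ht : 0 ≤ t) (htT : t ≤ T) (k : ℕ) :
    ∫⁻ q, ENNReal.ofReal (wt k q.2) * ENNReal.ofReal (F t q.1 q.2) ∂muC ≤ momB F F0 T k := by
  have hG : Measurable (fun q : R3 × R3 =>
      ENNReal.ofReal (wt k q.2) * ENNReal.ofReal (F t q.1 q.2)) :=
    (by fun_prop : Measurable fun q : R3 × R3 => ENNReal.ofReal (wt k q.2)).mul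
      (h.measurable_F t).ennreal_ofReal
  have hP : PerX (fun q : R3 × R3 => ENNReal.ofReal (wt k q.2) * ENNReal.ofReal (F t q.1 q.2)) :=
    (perX_snd (fun v => ENNReal.ofReal (wt k v))).comp₂ (h.perX_F t)
      (fun a b => a * ENNReal.ofReal b)
  rw [← lintegral_shift hG hP t]
  have h1 : ∫⁻ q, ENNReal.ofReal (wt k (shift t q).2) *
      ENNReal.ofReal (F t (shift t q).1 (shift t q).2) ∂muC ≤
      ∫⁻ q, (ENNReal.ofReal (wt k q.2) * ENNReal.ofReal (F0 q.1 q.2) +
        ∫⁻ s in Set.Ioc 0 t, ENNReal.ofReal (wt k q.2) * gl F s (shift s q)) ∂muC := by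
    refine lintegral_mono_ae ?_
    filter_upwards [h.enorm_F_shift_le ht] with q hq
    have hm : Measurable (fun s => gl F s (shift s q)) :=
      Measurable.comp (g := fun p : ℝ × R3 × R3 => gl F p.1 p.2) (f := fun s : ℝ => (s, shift s q))
        h.meas_gl (measurable_id.prodMk (Measurable.shift measurable_id measurable_const))
    rw [lintegral_const_mul _ hm, ← mul_add]
    exact mul_le_mul' le_rfl hq
  refine h1.trans ?_
  have hm1 : Measurable (fun q : R3 × R3 => ENNReal.ofReal (wt k q.2) *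
      ENNReal.ofReal (F0 q.1 q.2)) :=
    (by fun_prop : Measurable fun q : R3 × R3 => ENNReal.ofReal (wt k q.2)).mul
      h.meas_F0.ennreal_ofReal
  rw [lintegral_add_left hm1]
  unfold momB
  refine add_le_add le_rfl ?_
  have hm2 : Measurable (fun p : ℝ × R3 × R3 =>
      ENNReal.ofReal (wt k p.2.2) * gl F p.1 (shift p.1 p.2)) :=
    (by fun_prop : Measurable fun p : ℝ × R3 × R3 => ENNReal.ofReal (wt k p.2.2)).mul
      h.meas_gl_shift
  rw [← h.gl_shift, lintegral_nuA' hm2]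
  refine lintegral_mono fun q => ?_
  exact lintegral_mono_set (Set.Ioc_subset_Ioc_right htT)

/-- integrability of F(t) against polynomial weights -/
theorem integrable_F (h : MildSol F F0 R) {t : ℝ} (ht : 0 ≤ t) {g : R3 → ℝ} (hg : Measurable g)
    {C : ℝ} {k : ℕ} (hgb : ∀ v, |g v| ≤ C * wt k v) :
    Integrable (fun q : R3 × R3 => g q.2 * F t q.1 q.2) muC := by
  refine ⟨((hg.comp measurable_snd).mul (h.measurable_F t)).aestronglyMeasurable, ?_⟩
  rw [hasFiniteIntegral_iff_enorm]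
  have h1 : ∫⁻ q, ‖g q.2 * F t q.1 q.2‖ₑ ∂muC ≤
      ∫⁻ q, ENNReal.ofReal C * (ENNReal.ofReal (wt k q.2) * ENNReal.ofReal (F t q.1 q.2)) ∂muC := by
    refine lintegral_mono fun q => ?_
    rw [enorm_mul, ← mul_assoc]
    have hC : 0 ≤ C := by
      have := hgb 0
      have h2 := wt_pos k 0
      by_contra hc
      push Not at hc
      have h3 := abs_nonneg (g 0)
      nlinarith
    refine mul_le_mul' ?_ ?_
    · rw [← ENNReal.ofReal_mul hC, Real.enorm_eq_ofReal_abs]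
      exact ENNReal.ofReal_le_ofReal (hgb q.2)
    · rw [Real.enorm_eq_ofReal (h.nonneg t _ _ ht)]
  refine lt_of_le_of_lt h1 ?_
  have hG : Measurable (fun q : R3 × R3 =>
      ENNReal.ofReal (wt k q.2) * ENNReal.ofReal (F t q.1 q.2)) :=
    (by fun_prop : Measurable fun q : R3 × R3 => ENNReal.ofReal (wt k q.2)).mul
      (h.measurable_F t).ennreal_ofReal
  rw [lintegral_const_mul _ hG]
  exact ENNReal.mul_lt_top ENNReal.ofReal_lt_top
    (lt_of_le_of_lt (h.moment_le ht le_rfl k) (h.momB_lt_top t k))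

/-- the time-integrated moments -/
theorem moment_time (h : MildSol F F0 R) (T : ℝ) (k : ℕ) :
    ∫⁻ p, ENNReal.ofReal (wt k p.2.2) * ENNReal.ofReal (F p.1 p.2.1 p.2.2)
      ∂nuA (Set.Ioc 0 T) < ⊤ := by
  have hG : Measurable (fun p : ℝ × R3 × R3 =>
      ENNReal.ofReal (wt k p.2.2) * ENNReal.ofReal (F p.1 p.2.1 p.2.2)) :=
    (by fun_prop : Measurable fun p : ℝ × R3 × R3 => ENNReal.ofReal (wt k p.2.2)).mul
      (Measurable.ennreal_ofReal h.meas)
  rw [lintegral_nuA hG]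
  have h1 : ∫⁻ t in Set.Ioc 0 T, (∫⁻ q, ENNReal.ofReal (wt k q.2) *
      ENNReal.ofReal (F t q.1 q.2) ∂muC) ≤ ∫⁻ _ in Set.Ioc 0 T, momB F F0 T k := by
    refine setLIntegral_mono measurable_const ?_
    intro t ht
    exact h.moment_le ht.1.le ht.2 k
  refine lt_of_le_of_lt h1 ?_
  rw [setLIntegral_const]
  exact ENNReal.mul_lt_top (h.momB_lt_top T k) (by rw [Real.volume_Ioc]; exact ENNReal.ofReal_lt_top)

end MildSol

end Crest.Agent.R68
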