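import Crest.Agent.R68.EWk3

/-!
R68 / EWk4: test functions are test pairs; IsWeakSolution (helper485, Part E).
-/

set_option autoImplicit false
open MeasureTheory
open scoped ENNReal ContDiff
open Crest.AnalysisR.VecCalc3 Crest.AnalysisR.PDE.Boltzmann

namespace Crest.Agent.R68

theorem norm_le_two_of_cell {x : R3} (hx : x ∈ cell) : ‖x‖ ≤ 2 := by
  rw [EuclideanSpace.norm_eq, Fin.sum_univ_three]
  have h : ∀ i, ‖x i‖ ^ 2 ≤ 1 := by
    intro i
    have h1 := (hx i).1
    have h2 := (hx i).2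
    rw [Real.norm_eq_abs, sq_abs]
    nlinarith
  rw [Real.sqrt_le_left (by norm_num)]
  have := h 0
  have := h 1
  have := h 2
  linarith

theorem fderiv_sum_single (L : R3 →L[ℝ] ℝ) (v : R3) :
    ∑ i : Fin 3, v i * L (EuclideanSpace.single i 1) = L v := by
  have hv : v = ∑ i : Fin 3, v i • EuclideanSpace.single i (1 : ℝ) := by
    ext j
    rw [Fin.sum_univ_three]
    fin_cases j <;> simp
  conv_rhs => rw [hv]
  rw [map_sum]
  simp only [map_smul, smul_eq_mul]

section smoothTXV

variable {φ : ℝ → R3 → R3 → ℝ}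

/-- total derivative along the transport direction -/
theorem transportD_eq (hφ : ContDiff ℝ ∞ (fun p : ℝ × R3 × R3 => φ p.1 p.2.1 p.2.2))
    (t : ℝ) (x v : R3) :
    transportD φ t x v =
      fderiv ℝ (fun p : ℝ × R3 × R3 => φ p.1 p.2.1 p.2.2) (t, x, v) (1, v, 0) := by
  set Ψ : ℝ × R3 × R3 → ℝ := fun p => φ p.1 p.2.1 p.2.2 with hΨ
  have hd : Differentiable ℝ Ψ := hφ.differentiable (by norm_num)
  have hF : HasFDerivAt Ψ (fderiv ℝ Ψ (t, x, v)) (t, x, v) := (hd _).hasFDerivAt
  have h1 : HasDerivAt (fun s => φ s x v) (fderiv ℝ Ψ (t, x, v) (1, 0, 0)) t := by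
    have hc : HasDerivAt (fun s : ℝ => ((s, x, v) : ℝ × R3 × R3)) (1, 0, 0) t := by
      exact (hasDerivAt_id t).prodMk ((hasDerivAt_const t x).prodMk (hasDerivAt_const t v))
    exact hF.comp_hasDerivAt t hc
  have h2 : HasFDerivAt (fun y => φ t y v)
      ((fderiv ℝ Ψ (t, x, v)).comp ((0 : R3 →L[ℝ] ℝ).prod ((ContinuousLinearMap.id ℝ R3).prod 0)))
      x := by
    have hc : HasFDerivAt (fun y : R3 => ((t, y, v) : ℝ × R3 × R3))
        ((0 : R3 →L[ℝ] ℝ).prod ((ContinuousLinearMap.id ℝ R3).prod 0)) x := by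
      exact (hasFDerivAt_const t x).prodMk ((hasFDerivAt_id x).prodMk (hasFDerivAt_const v x))
    exact HasFDerivAt.comp x hF hc
  unfold transportD pderiv
  rw [h1.deriv, h2.fderiv]
  rw [fderiv_sum_single]
  simp only [ContinuousLinearMap.comp_apply, ContinuousLinearMap.prod_apply,
    zero_apply, ContinuousLinearMap.id_apply]
  rw [← map_add]
  simp

theorem hasDerivAt_char (hφ : ContDiff ℝ ∞ (fun p : ℝ × R3 × R3 => φ p.1 p.2.1 p.2.2))
    (q : R3 × R3) (t : ℝ) :
    HasDerivAt (fun s => φ s (shift s q).1 (shift s q).2)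
      (transportD φ t (shift t q).1 (shift t q).2) t := by
  rw [transportD_eq hφ]
  set Ψ : ℝ × R3 × R3 → ℝ := fun p => φ p.1 p.2.1 p.2.2 with hΨ
  have hd : Differentiable ℝ Ψ := hφ.differentiable (by norm_num)
  have hF : HasFDerivAt Ψ (fderiv ℝ Ψ (t, (shift t q).1, (shift t q).2))
    (t, (shift t q).1, (shift t q).2) := (hd _).hasFDerivAt
  have hc : HasDerivAt (fun s : ℝ => ((s, (shift s q).1, (shift s q).2) : ℝ × R3 × R3))
      (1, (shift t q).2, 0) t := by
    have h1 : HasDerivAt (fun s : ℝ => q.1 + s • q.2) q.2 t := by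
      have := ((hasDerivAt_id t).smul_const q.2).const_add q.1
      simpa using this
    exact (hasDerivAt_id t).prodMk (h1.prodMk (hasDerivAt_const t q.2))
  exact hF.comp_hasDerivAt t hc

theorem continuous_transportD (hφ : ContDiff ℝ ∞ (fun p : ℝ × R3 × R3 => φ p.1 p.2.1 p.2.2)) :
    Continuous (fun p : ℝ × R3 × R3 => transportD φ p.1 p.2.1 p.2.2) := by
  have e : (fun p : ℝ × R3 × R3 => transportD φ p.1 p.2.1 p.2.2) = fun p =>
      fderiv ℝ (fun p : ℝ × R3 × R3 => φ p.1 p.2.1 p.2.2) p (1, p.2.2, 0) := by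
    funext p
    rw [transportD_eq hφ]
  rw [e]
  have h1 : Continuous (fun p : ℝ × R3 × R3 =>
      fderiv ℝ (fun p : ℝ × R3 × R3 => φ p.1 p.2.1 p.2.2) p) :=
    hφ.continuous_fderiv (by norm_num)
  exact h1.clm_apply (by fun_prop)

theorem perX_transportD (hp : ∀ t v, IsPeriodic3 (fun x => φ t x v)) (t : ℝ) :
    PerX (fun q => transportD φ t q.1 q.2) := by
  intro v x i
  have h1 : ∀ s, φ s (x + EuclideanSpace.single i 1) v = φ s x v := fun s => hp s v x i
  have h2 : ∀ j, pderiv (fun y => φ t y v) j (x + EuclideanSpace.single i 1) =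
      pderiv (fun y => φ t y v) j x := by
    intro j
    unfold pderiv
    have e : (fun y => φ t (y + EuclideanSpace.single i 1) v) = fun y => φ t y v :=
      funext fun y => hp t v y i
    have := fderiv_comp_add_right (𝕜 := ℝ) (f := fun y => φ t y v) (x := x)
      (EuclideanSpace.single i 1)
    rw [e] at this
    rw [this]
  simp only [transportD, h1, h2]

theorem testPair_of_test (hφ : IsTestFunction φ) :
    ∃ T, TestPair (fun t q => φ t q.1 q.2) (fun t q => transportD φ t q.1 q.2) T := by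
  obtain ⟨hs, hp, T0, R0, hv⟩ := hφ
  set T := max T0 0 + 1 with hT
  have hTpos : 0 < T := by have := le_max_right T0 0; linarith
  have hT0 : T0 < T := by have := le_max_left T0 0; linarith
  have hcont : Continuous (fun p : ℝ × R3 × R3 => φ p.1 p.2.1 p.2.2) := hs.continuous
  have hcontD := continuous_transportD hs
  -- vanishing of the derivative
  have hvan1 : ∀ t x v, T ≤ t → transportD φ t x v = 0 := by
    intro t x v ht
    rw [transportD_eq hs]
    have h0 : (fun p : ℝ × R3 × R3 => φ p.1 p.2.1 p.2.2) =ᶠ[nhds (t, x, v)] fun _ => 0 := by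
      have : {p : ℝ × R3 × R3 | T0 < p.1} ∈ nhds (t, x, v) :=
        (isOpen_lt continuous_const continuous_fst).mem_nhds (by simpa using lt_of_lt_of_le hT0 ht)
      filter_upwards [this] with p hp
      exact hv _ _ _ (Or.inl (le_of_lt hp))
    rw [h0.fderiv_eq]
    simp
  have hvan2 : ∀ t x v, R0 < ‖v‖ → transportD φ t x v = 0 := by
    intro t x v ht
    rw [transportD_eq hs]
    have h0 : (fun p : ℝ × R3 × R3 => φ p.1 p.2.1 p.2.2) =ᶠ[nhds (t, x, v)] fun _ => 0 := by
      have : {p : ℝ × R3 × R3 | R0 < ‖p.2.2‖} ∈ nhds (t, x, v) :=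
        (isOpen_lt continuous_const (by fun_prop)).mem_nhds (by simpa using ht)
      filter_upwards [this] with p hp
      exact hv _ _ _ (Or.inr (le_of_lt hp))
    rw [h0.fderiv_eq]
    simp
  have hK : IsCompact (Set.Icc (0 : ℝ) T ×ˢ
      (Metric.closedBall (0 : R3) 2 ×ˢ Metric.closedBall (0 : R3) R0)) :=
    isCompact_Icc.prod ((isCompact_closedBall _ _).prod (isCompact_closedBall _ _))
  obtain ⟨C1, hC1⟩ := hK.exists_bound_of_continuousOn hcont.continuousOn
  obtain ⟨C2, hC2⟩ := hK.exists_bound_of_continuousOn hcontD.continuousOn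
  refine ⟨T, hTpos, hcont.measurable, hcontD.measurable, fun t v => hp t v, perX_transportD hp,
    hasDerivAt_char hs, ?_, ?_, ?_⟩
  · intro q
    have : Continuous (fun t : ℝ => ((t, (shift t q).1, (shift t q).2) : ℝ × R3 × R3)) := by
      unfold shift; fun_prop
    exact hcontD.comp this
  · refine ⟨max (max C1 C2) 0, 0, ?_⟩
    intro t ht x hx v
    rw [wt_zero, mul_one]
    have hx2 : x ∈ Metric.closedBall (0 : R3) 2 := by
      rw [mem_closedBall_zero_iff]; exact norm_le_two_of_cell hx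
    by_cases hvR : ‖v‖ ≤ R0
    · have hmem : ((t, x, v) : ℝ × R3 × R3) ∈ (Set.Icc (0 : ℝ) T ×ˢ
        (Metric.closedBall (0 : R3) 2 ×ˢ Metric.closedBall (0 : R3) R0)) :=
        ⟨ht, hx2, by rw [mem_closedBall_zero_iff]; exact hvR⟩
      have h1 := hC1 _ hmem
      have h2 := hC2 _ hmem
      simp only [Real.norm_eq_abs] at h1 h2
      exact ⟨h1.trans ((le_max_left _ _).trans (le_max_left _ _)),
        h2.trans ((le_max_right _ _).trans (le_max_left _ _))⟩
    · push Not at hvR
      simp only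
      rw [hv t x v (Or.inr hvR.le), hvan2 t x v hvR, abs_zero]
      exact ⟨le_max_right _ _, le_max_right _ _⟩
  · intro t q ht
    exact ⟨hv _ _ _ (Or.inl (hT0.le.trans ht)), hvan1 _ _ _ ht⟩

end smoothTXV

theorem MildSol.isWeakSolution {F : ℝ → R3 → R3 → ℝ} {F0 : R3 → R3 → ℝ} {R : ℝ}
    (h : MildSol F F0 R) : IsWeakSolution F F0 := by
  intro φ hφ
  obtain ⟨T, tp⟩ := testPair_of_test hφ
  obtain ⟨i1, i2, i3, e⟩ := h.weak_Ioi tp
  unfold IntegrableOn
  rw [region_eq]
  exact ⟨i1, i2, i3, e⟩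

end Crest.Agent.R68
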