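import Crest.Agent.R68.EWk4
import Crest.Agent.R68.EWeak

/-!
R68 / EWk5: collision invariants, local conservation, momentum and energy (helper485, Part E).
-/

set_option autoImplicit false
open MeasureTheory
open scoped ENNReal ContDiff
open Crest.AnalysisR.VecCalc3 Crest.AnalysisR.PDE.Boltzmann

namespace Crest.Agent.R68

/-- collision invariant -/
def IsInv (ψ : R3 → ℝ) : Prop :=
  ∀ v vs w : R3, ‖w‖ = 1 → ψ (postVel v vs w) + ψ (postVelStar v vs w) = ψ v + ψ vs

theorem isInv_one : IsInv (fun _ => 1) := fun _ _ _ _ => rfl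

theorem isInv_coord (i : Fin 3) : IsInv (fun v => v i) := by
  intro v vs w _
  have := congrArg (fun u : R3 => u i) (post_add v vs w)
  simpa using this

theorem isInv_energy : IsInv (fun v => ‖v‖ ^ 2 / 2) := by
  intro v vs w hw
  have := post_norm_sq hw v vs
  simp only
  linarith

theorem ofReal_parts {a b c d : ℝ} (h : c + d = a + b) :
    ENNReal.ofReal c + ENNReal.ofReal d + (ENNReal.ofReal (-a) + ENNReal.ofReal (-b)) =
    ENNReal.ofReal a + ENNReal.ofReal b + (ENNReal.ofReal (-c) + ENNReal.ofReal (-d)) := by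
  have e : ∀ x : ℝ, ENNReal.ofReal x = ENNReal.ofReal (max x 0) := by
    intro x
    rcases le_total x 0 with hx | hx
    · rw [max_eq_right hx, ENNReal.ofReal_zero, ENNReal.ofReal_of_nonpos hx]
    · rw [max_eq_left hx]
  rw [e a, e b, e c, e d, e (-a), e (-b), e (-c), e (-d)]
  rw [← ENNReal.ofReal_add (le_max_right _ _) (le_max_right _ _),
    ← ENNReal.ofReal_add (le_max_right _ _) (le_max_right _ _),
    ← ENNReal.ofReal_add (le_max_right _ _) (le_max_right _ _),
    ← ENNReal.ofReal_add (le_max_right _ _) (le_max_right _ _),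
    ← ENNReal.ofReal_add (by positivity) (by positivity),
    ← ENNReal.ofReal_add (by positivity) (by positivity)]
  congr 1
  have m : ∀ x : ℝ, max x 0 - max (-x) 0 = x := by
    intro x
    rcases le_total x 0 with hx | hx
    · rw [max_eq_right hx, max_eq_left (by linarith)]; ring
    · rw [max_eq_left hx, max_eq_right (by linarith)]; ring
  have := m a
  have := m b
  have := m c
  have := m d
  linarith

/-- the collision operator is orthogonal to invariants -/
theorem invariant_real {F : ℝ → R3 → R3 → ℝ} {t : ℝ} {x : R3} (hF : MeasF F)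
    (hfin : ∫⁻ v, ENNReal.ofReal (wt 2 v) * gl F t (x, v) < ⊤)
    {ψ : R3 → ℝ} (hψ : Measurable ψ) (hb : ∀ v, |ψ v| ≤ wt 2 v) (hinv : IsInv ψ) :
    ∫ v, ψ v * Qr F t (x, v) = 0 := by
  have hf : Measurable (F t x) :=
    hF.comp (f := fun _ : R3 => t) (g := fun _ => x) measurable_const measurable_const measurable_id
  have hmg : Measurable (fun v => collGain F t x v) :=
    Measurable.comp (g := fun p : ℝ × R3 × R3 => collGain F p.1 p.2.1 p.2.2)
      (f := fun v : R3 => (t, x, v)) hF.collGain (by fun_prop)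
  have hml : Measurable (fun v => collLoss F t x v) :=
    Measurable.comp (g := fun p : ℝ × R3 × R3 => collLoss F p.1 p.2.1 p.2.2)
      (f := fun v : R3 => (t, x, v)) hF.collLoss (by fun_prop)
  have hw1 : ∀ v, (1 : ℝ≥0∞) ≤ ENNReal.ofReal (wt 2 v) := by
    intro v
    rw [← ENNReal.ofReal_one]
    exact ENNReal.ofReal_le_ofReal (one_le_wt 2 v)
  have hmgl : Measurable (fun v => gl F t (x, v)) := hmg.add hml
  -- a.e. finiteness
  have hae : ∀ᵐ v, gl F t (x, v) < ⊤ := by
    refine ae_lt_top hmgl ?_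
    refine (lt_of_le_of_lt (lintegral_mono fun v => ?_) hfin).ne
    calc gl F t (x, v) = 1 * gl F t (x, v) := (one_mul _).symm
      _ ≤ _ := mul_le_mul' (hw1 v) le_rfl
  -- finiteness of the four integrals
  have hfinG : ∀ χ : R3 → ℝ, (∀ v, χ v ≤ wt 2 v) →
      ∫⁻ v, ENNReal.ofReal (χ v) * collGain F t x v < ⊤ := by
    intro χ hχ
    refine lt_of_le_of_lt (lintegral_mono fun v => ?_) hfin
    exact mul_le_mul' (ENNReal.ofReal_le_ofReal (hχ v)) (le_add_right le_rfl)
  have hfinL : ∀ χ : R3 → ℝ, (∀ v, χ v ≤ wt 2 v) →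
      ∫⁻ v, ENNReal.ofReal (χ v) * collLoss F t x v < ⊤ := by
    intro χ hχ
    refine lt_of_le_of_lt (lintegral_mono fun v => ?_) hfin
    exact mul_le_mul' (ENNReal.ofReal_le_ofReal (hχ v)) (le_add_left le_rfl)
  have hb1 : ∀ v, ψ v ≤ wt 2 v := fun v => (le_abs_self _).trans (hb v)
  have hb2 : ∀ v, -ψ v ≤ wt 2 v := fun v => (neg_le_abs _).trans (hb v)
  -- integrals of ψ·gain and ψ·loss
  have hint : ∀ g : R3 → ℝ≥0∞, Measurable g → (∀ᵐ v, g v < ⊤) →
      (∀ χ : R3 → ℝ, (∀ v, χ v ≤ wt 2 v) → ∫⁻ v, ENNReal.ofReal (χ v) * g v < ⊤) →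
      Integrable (fun v => ψ v * (g v).toReal) ∧
      ∫ v, ψ v * (g v).toReal = (∫⁻ v, ENNReal.ofReal (ψ v) * g v).toReal -
        (∫⁻ v, ENNReal.ofReal (-ψ v) * g v).toReal := by
    intro g hg hgae hgf
    have hi : Integrable (fun v => ψ v * (g v).toReal) := by
      refine ⟨(hψ.mul hg.ennreal_toReal).aestronglyMeasurable, ?_⟩
      rw [hasFiniteIntegral_iff_enorm]
      refine lt_of_le_of_lt (lintegral_mono fun v => ?_) (hgf (fun v => |ψ v|) hb)
      rw [enorm_mul, Real.enorm_eq_ofReal_abs, Real.enorm_eq_ofReal ENNReal.toReal_nonneg]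
      exact mul_le_mul' le_rfl ENNReal.ofReal_toReal_le
    refine ⟨hi, ?_⟩
    rw [integral_eq_lintegral_pos_part_sub_lintegral_neg_part hi]
    congr 2
    · refine lintegral_congr_ae ?_
      filter_upwards [hgae] with v hv
      rw [ENNReal.ofReal_mul' ENNReal.toReal_nonneg, ENNReal.ofReal_toReal hv.ne]
    · refine lintegral_congr_ae ?_
      filter_upwards [hgae] with v hv
      rw [← neg_mul, ENNReal.ofReal_mul' ENNReal.toReal_nonneg, ENNReal.ofReal_toReal hv.ne]
  have haeG : ∀ᵐ v, collGain F t x v < ⊤ := by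
    filter_upwards [hae] with v hv
    exact lt_of_le_of_lt (le_add_right le_rfl) hv
  have haeL : ∀ᵐ v, collLoss F t x v < ⊤ := by
    filter_upwards [hae] with v hv
    exact lt_of_le_of_lt (le_add_left le_rfl) hv
  obtain ⟨iG, eG⟩ := hint _ hmg haeG hfinG
  obtain ⟨iL, eL⟩ := hint _ hml haeL hfinL
  have e0 : ∫ v, ψ v * Qr F t (x, v) =
      (∫ v, ψ v * (collGain F t x v).toReal) - ∫ v, ψ v * (collLoss F t x v).toReal := by
    rw [← integral_sub iG iL]
    refine integral_congr_ae (Filter.Eventually.of_forall fun v => ?_)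
    simp only [Qr]
    ring
  have key := invariant_lintegral hf (φ := fun v => ENNReal.ofReal (ψ v))
    (ψ := fun v => ENNReal.ofReal (-ψ v)) hψ.ennreal_ofReal hψ.neg.ennreal_ofReal
    (fun v vs w hw => ofReal_parts (hinv v vs w hw))
  have f1 := (hfinG _ hb1).ne
  have f2 := (hfinL _ hb2).ne
  have f3 := (hfinL _ hb1).ne
  have f4 := (hfinG _ hb2).ne
  have key2 := congrArg ENNReal.toReal key
  rw [ENNReal.toReal_add f1 f2, ENNReal.toReal_add f3 f4] at key2
  rw [e0, eG, eL]
  linarith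

namespace MildSol

variable {F : ℝ → R3 → R3 → ℝ} {F0 : R3 → R3 → ℝ} {R : ℝ}

theorem abs_inv_bounds {ψ : R3 → ℝ}
    (h : ψ = (fun _ => 1) ∨ (∃ i : Fin 3, ψ = fun v => v i) ∨ ψ = fun v => ‖v‖ ^ 2 / 2) :
    Measurable ψ ∧ (∀ v, |ψ v| ≤ wt 2 v) ∧ IsInv ψ := by
  rcases h with h | ⟨i, h⟩ | h
  · subst h
    refine ⟨measurable_const, fun v => ?_, isInv_one⟩
    rw [abs_one]; exact one_le_wt 2 v
  · subst h
    refine ⟨by fun_prop, fun v => ?_, isInv_coord i⟩
    rw [wt_two]
    have h1 : |v i| ≤ ‖v‖ := by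
      have := PiLp.norm_apply_le v i
      simpa using this
    nlinarith [sq_nonneg (‖v‖ - 1), norm_nonneg v]
  · subst h
    refine ⟨by fun_prop, fun v => ?_, isInv_energy⟩
    rw [wt_two, abs_of_nonneg (by positivity)]
    nlinarith [sq_nonneg ‖v‖]

/-- for a.e. (t,x) the velocity integral of the weighted collision rate is finite -/
theorem ae_fin (h : MildSol F F0 R) (T : ℝ) : ∀ᵐ t ∂((volume : Measure ℝ).restrict (Set.Ioc 0 T)),
    ∀ᵐ x ∂((volume : Measure R3).restrict cell),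
      ∫⁻ v, ENNReal.ofReal (wt 2 v) * gl F t (x, v) < ⊤ := by
  have hG : Measurable (fun p : ℝ × R3 × R3 => ENNReal.ofReal (wt 2 p.2.2) * gl F p.1 p.2) :=
    (by fun_prop : Measurable fun p : ℝ × R3 × R3 => ENNReal.ofReal (wt 2 p.2.2)).mul h.meas_gl
  have h0 := h.gl_lt_top T 2
  rw [lintegral_nuA hG] at h0
  have hG1 : Measurable (fun t : ℝ => ∫⁻ q, ENNReal.ofReal (wt 2 q.2) * gl F t q ∂muC) :=
    Measurable.lintegral_prod_right' hG
  have h1 := ae_lt_top hG1 h0.ne
  filter_upwards [h1] with t ht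
  have hGt : Measurable (fun q : R3 × R3 => ENNReal.ofReal (wt 2 q.2) * gl F t q) :=
    Measurable.comp (g := fun p : ℝ × R3 × R3 => ENNReal.ofReal (wt 2 p.2.2) * gl F p.1 p.2)
      (f := fun q : R3 × R3 => (t, q)) hG measurable_prodMk_left
  rw [lintegral_muC' hGt] at ht
  exact ae_lt_top (Measurable.lintegral_prod_right' hGt) ht.ne

/-- orthogonality to invariants times functions of (t,x) -/
theorem integral_Q_inv (h : MildSol F F0 R) (T : ℝ) {ψ : R3 → ℝ} (hψ : Measurable ψ)
    (hb : ∀ v, |ψ v| ≤ wt 2 v) (hinv : IsInv ψ) {η : ℝ → R3 → ℝ}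
    (hi : Integrable (fun p : ℝ × R3 × R3 => Qr F p.1 p.2 * (ψ p.2.2 * η p.1 p.2.1))
      (nuA (Set.Ioc 0 T))) :
    ∫ p, Qr F p.1 p.2 * (ψ p.2.2 * η p.1 p.2.1) ∂nuA (Set.Ioc 0 T) = 0 := by
  have hi' := hi
  unfold nuA at hi ⊢
  rw [integral_prod _ hi]
  have h1 : ∀ᵐ t ∂((volume : Measure ℝ).restrict (Set.Ioc 0 T)),
      ∫ q, Qr F t q * (ψ q.2 * η t q.1) ∂muC = 0 := by
    filter_upwards [h.ae_fin T, hi.prod_right_ae] with t ht hit
    rw [muC_eq] at hit ⊢
    rw [integral_prod _ hit]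
    have h2 : ∀ᵐ x ∂((volume : Measure R3).restrict cell),
        ∫ v, Qr F t (x, v) * (ψ v * η t x) = 0 := by
      filter_upwards [ht] with x hx
      have e := invariant_real h.meas hx hψ hb hinv
      have e2 : ∀ v, Qr F t (x, v) * (ψ v * η t x) = (ψ v * Qr F t (x, v)) * η t x := by
        intro v; ring
      simp only [e2]
      rw [integral_mul_const, e, zero_mul]
    rw [integral_congr_ae h2]
    simp
  rw [integral_congr_ae h1]
  simp

end MildSol

end Crest.Agent.R68
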