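import Crest.Agent.R68.Defs

/-! Row 68, PART F (helper195).  One-dimensional exact substitution for linear (Hubble type) cold
streams, and iterated integrals over `R3`. -/

set_option autoImplicit false

namespace Crest.Agent.R68.Fuel

open MeasureTheory Crest.AnalysisR.VecCalc3
open scoped ENNReal

/-! ### Affine substitution -/

theorem lint_affine {a : ℝ} (ha : a ≠ 0) (b : ℝ) (f : ℝ → ℝ≥0∞) :
    ∫⁻ v, f v = ENNReal.ofReal |a| * ∫⁻ s, f (a * s + b) := by
  have h1 : ∫⁻ s, f (a * s + b) = ∫⁻ y, f (y + b) ∂(Measure.map (fun x => a * x) volume) := by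
    have h0 := (Homeomorph.mulLeft₀ a ha).measurableEmbedding.lintegral_map (μ := volume)
      (fun y : ℝ => f (y + b))
    exact h0.symm
  have h2 : ∫⁻ v, f v = ∫⁻ y, f (y + b) := (lintegral_add_right_eq_self f b).symm
  rw [h1, h2]
  conv_lhs => rw [← Real.smul_map_volume_mul_left ha]
  rw [lintegral_smul_measure]
  rfl

/-- the velocities of a stream with strain `κ`, thickness `η`, label in `I`, seen at `(t, x)` -/
def slab (κ η t x : ℝ) (I : Set ℝ) : Set ℝ := {v | x - t * v ∈ I ∧ |v - κ * (x - t * v)| < η}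

theorem mem_slab {κ η t x : ℝ} {I : Set ℝ} {v : ℝ} :
    v ∈ slab κ η t x I ↔ x - t * v ∈ I ∧ |v - κ * (x - t * v)| < η := Iff.rfl

theorem measurableSet_slab2 {κ η : ℝ} {I : Set ℝ} (hI : MeasurableSet I) :
    MeasurableSet {p : ℝ × ℝ × ℝ | p.2.2 ∈ slab κ η p.1 p.2.1 I} := by
  have h1 : Measurable fun p : ℝ × ℝ × ℝ => p.2.1 - p.1 * p.2.2 := by fun_prop
  have h2 : Measurable fun p : ℝ × ℝ × ℝ => |p.2.2 - κ * (p.2.1 - p.1 * p.2.2)| := by fun_prop
  exact (h1 hI).inter (measurableSet_lt h2 measurable_const)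

theorem measurableSet_slab {κ η t x : ℝ} {I : Set ℝ} (hI : MeasurableSet I) :
    MeasurableSet (slab κ η t x I) := by
  have h : Measurable fun v : ℝ => (t, x, v) := by fun_prop
  exact h (measurableSet_slab2 (κ := κ) (η := η) hI)

/-- **Exact substitution**: `v = (κ x + η s) / (1 + κ t)`, label `(x - t η s) / (1 + κ t)`. -/
theorem lint_slab {κ η t : ℝ} (hκ : 0 ≤ κ) (ht : 0 ≤ t) (hη : 0 < η) (x : ℝ) (I : Set ℝ)
    (g : ℝ → ℝ≥0∞) :
    ∫⁻ v, (slab κ η t x I).indicator g v = ENNReal.ofReal (η / (1 + κ * t)) *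
      ∫⁻ s, ({s : ℝ | |s| < 1 ∧ (x - t * (η * s)) / (1 + κ * t) ∈ I}).indicator
        (fun s => g ((κ * x + η * s) / (1 + κ * t))) s := by
  have h0 : 0 < 1 + κ * t := by positivity
  have h1 : η / (1 + κ * t) ≠ 0 := (div_pos hη h0).ne'
  rw [lint_affine h1 (κ * x / (1 + κ * t)), abs_of_pos (div_pos hη h0)]
  congr 1
  refine lintegral_congr fun s => ?_
  have h2 : η / (1 + κ * t) * s + κ * x / (1 + κ * t) = (κ * x + η * s) / (1 + κ * t) := by
    field_simp; ring
  rw [h2]
  have h3 : x - t * ((κ * x + η * s) / (1 + κ * t)) = (x - t * (η * s)) / (1 + κ * t) := by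
    field_simp; ring
  have h4 : (κ * x + η * s) / (1 + κ * t) - κ * ((x - t * (η * s)) / (1 + κ * t)) = η * s := by
    field_simp; ring
  have h5 : (κ * x + η * s) / (1 + κ * t) ∈ slab κ η t x I ↔
      s ∈ {s : ℝ | |s| < 1 ∧ (x - t * (η * s)) / (1 + κ * t) ∈ I} := by
    rw [mem_slab, h3, h4, abs_mul, abs_of_pos hη, Set.mem_ofPred_eq]
    constructor
    · rintro ⟨h5, h6⟩
      exact ⟨by nlinarith, h5⟩
    · rintro ⟨h5, h6⟩
      exact ⟨h6, by nlinarith⟩
  by_cases h6 : (κ * x + η * s) / (1 + κ * t) ∈ slab κ η t x I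
  · rw [Set.indicator_of_mem h6, Set.indicator_of_mem (h5.1 h6)]
  · rw [Set.indicator_of_notMem h6, Set.indicator_of_notMem fun h => h6 (h5.2 h)]

theorem volume_slab_le {κ η t : ℝ} (hκ : 0 ≤ κ) (ht : 0 ≤ t) (hη : 0 < η) (x : ℝ) {I : Set ℝ}
    (hI : MeasurableSet I) : volume (slab κ η t x I) ≤ ENNReal.ofReal (2 * η / (1 + κ * t)) := by
  rw [← lintegral_indicator_one (measurableSet_slab hI)]
  have h := lint_slab hκ ht hη x I (fun _ => 1)
  have h2 : (slab κ η t x I).indicator (1 : ℝ → ℝ≥0∞) = (slab κ η t x I).indicator fun _ => 1 := rfl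
  rw [h2, h]
  have h3 : ∫⁻ s, ({s : ℝ | |s| < 1 ∧ (x - t * (η * s)) / (1 + κ * t) ∈ I}).indicator
      (fun _ => (1 : ℝ≥0∞)) s ≤ 2 := by
    calc ∫⁻ s, ({s : ℝ | |s| < 1 ∧ (x - t * (η * s)) / (1 + κ * t) ∈ I}).indicator
          (fun _ => (1 : ℝ≥0∞)) s ≤ ∫⁻ s, (Set.Ioo (-1 : ℝ) 1).indicator
            (fun _ => (1 : ℝ≥0∞)) s := by
          refine lintegral_mono fun s => Set.indicator_le_indicator_of_subset ?_ (fun _ => zero_le) s
          rintro s ⟨hs, -⟩
          exact abs_lt.1 hs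
      _ = volume (Set.Ioo (-1 : ℝ) 1) := lintegral_indicator_one measurableSet_Ioo
      _ ≤ 2 := by rw [Real.volume_Ioo]; norm_num
  calc _ ≤ ENNReal.ofReal (η / (1 + κ * t)) * 2 := mul_le_mul_right h3 _
    _ = _ := by
      rw [show (2 : ℝ≥0∞) = ENNReal.ofReal 2 by norm_num, ← ENNReal.ofReal_mul (by positivity)]
      congr 1
      ring

/-- in a slab the velocity is close to the stream velocity -/
theorem slab_abs_lt {κ η t x v : ℝ} {I : Set ℝ} (hκ : 0 ≤ κ) (ht : 0 ≤ t)
    (h : v ∈ slab κ η t x I) : |v - κ * x / (1 + κ * t)| < η / (1 + κ * t) := by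
  have h0 : 0 < 1 + κ * t := by positivity
  have h1 : v - κ * x / (1 + κ * t) = (v - κ * (x - t * v)) / (1 + κ * t) := by
    field_simp; ring
  rw [h1, abs_div, abs_of_pos h0]
  exact div_lt_div_of_pos_right h.2 h0

/-! ### Iterated integrals over `R3` -/

/-- the point of `R3` with given coordinates -/
noncomputable def vec (a b c : ℝ) : R3 := WithLp.toLp 2 ![a, b, c]

@[simp] theorem vec_zero (a b c : ℝ) : vec a b c 0 = a := rfl
@[simp] theorem vec_one (a b c : ℝ) : vec a b c 1 = b := rfl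
@[simp] theorem vec_two (a b c : ℝ) : vec a b c 2 = c := rfl

theorem measurable_vec {α : Type*} [MeasurableSpace α] {f g h : α → ℝ} (hf : Measurable f)
    (hg : Measurable g) (hh : Measurable h) : Measurable fun x => vec (f x) (g x) (h x) := by
  unfold vec
  refine (PiLp.volume_preserving_toLp (Fin 3)).measurable.comp ?_
  refine measurable_pi_iff.2 fun i => ?_
  fin_cases i
  · exact hf
  · exact hg
  · exact hh

theorem lintegral_R3 (f : R3 → ℝ≥0∞) (hf : Measurable f) :
    ∫⁻ v, f v = ∫⁻ a, ∫⁻ b, ∫⁻ c, f (vec a b c) := by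
  have h1 := (PiLp.volume_preserving_toLp (Fin 3)).lintegral_comp hf
  rw [← h1]
  have hf1 : Measurable fun y : Fin 3 → ℝ => f (WithLp.toLp 2 y) :=
    hf.comp (PiLp.volume_preserving_toLp (Fin 3)).measurable
  have h2 := (volume_preserving_piFinSuccAbove (fun _ : Fin 3 => ℝ) 0).symm.lintegral_comp hf1
  rw [← h2, MeasureTheory.Measure.volume_eq_prod, lintegral_prod]
  · refine lintegral_congr fun a => ?_
    have hf2 : Measurable fun y : Fin 2 → ℝ => f (WithLp.toLp 2
        ((MeasurableEquiv.piFinSuccAbove (fun _ : Fin 3 => ℝ) 0).symm (a, y))) :=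
      hf1.comp ((MeasurableEquiv.measurable _).comp (by fun_prop))
    have h3 := (volume_preserving_finTwoArrow ℝ).symm.lintegral_comp hf2
    rw [← h3, MeasureTheory.Measure.volume_eq_prod, lintegral_prod]
    · refine lintegral_congr fun b => lintegral_congr fun c => ?_
      congr 1
      ext i
      fin_cases i <;> rfl
    · exact (hf2.comp (MeasurableEquiv.measurable _)).aemeasurable
  · exact (hf1.comp (MeasurableEquiv.measurable _)).aemeasurable

theorem measurable_vec_apply (i : Fin 3) : Measurable fun v : R3 => v i := by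
  fun_prop

end Crest.Agent.R68.Fuel
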