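/-
Row 68 (S0091), Part F: the rotation between the standard frame of the torus ℝ³/ℤ³ and the
golden frame in which the fuel lives.
`rot x = ((φ x₀ - x₁)/s, (x₀ + φ x₁)/s, x₂)`, a linear isometry equivalence of ℝ³.
`lat k = (γ1 k, γ2 k, 0)` the lattice vectors in the golden frame.
-/
import Mathlib
import Crest.Prelude.Def_VecCalc3
import Crest.Prelude.Def_HardSphereBoltzmann
import Crest.Agent.R68.FLat

set_option autoImplicit false

namespace Crest.Agent.R68.FLat

open Real MeasureTheory Crest.AnalysisR.VecCalc3 Crest.AnalysisR.PDE.Boltzmann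

/-- the golden rotation of ℝ³ (third coordinate unchanged). -/
noncomputable def rot : R3 ≃ₗᵢ[ℝ] R3 where
  toFun x := !₂[(goldenRatio * x 0 - x 1) / s, (x 0 + goldenRatio * x 1) / s, x 2]
  invFun x := !₂[(goldenRatio * x 0 + x 1) / s, (-x 0 + goldenRatio * x 1) / s, x 2]
  map_add' x y := by
    ext i; fin_cases i <;> simp <;> ring
  map_smul' c x := by
    ext i; fin_cases i <;> simp <;> ring
  left_inv x := by
    have hs : s ≠ 0 := s_pos.ne'
    have h := s_sq
    ext i
    fin_cases i
    · show (goldenRatio * ((goldenRatio * x 0 - x 1) / s) + (x 0 + goldenRatio * x 1) / s) / s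
        = x 0
      generalize goldenRatio = p at h ⊢
      field_simp
      linear_combination (-(x.ofLp 0)) * h
    · show (-((goldenRatio * x 0 - x 1) / s) + goldenRatio * ((x 0 + goldenRatio * x 1) / s)) / s
        = x 1
      generalize goldenRatio = p at h ⊢
      field_simp
      linear_combination (-(x.ofLp 1)) * h
    · simp
  right_inv x := by
    have hs : s ≠ 0 := s_pos.ne'
    have h := s_sq
    ext i
    fin_cases i
    · show (goldenRatio * ((goldenRatio * x 0 + x 1) / s) - (-x 0 + goldenRatio * x 1) / s) / s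
        = x 0
      generalize goldenRatio = p at h ⊢
      field_simp
      linear_combination (-(x.ofLp 0)) * h
    · show ((goldenRatio * x 0 + x 1) / s + goldenRatio * ((-x 0 + goldenRatio * x 1) / s)) / s
        = x 1
      generalize goldenRatio = p at h ⊢
      field_simp
      linear_combination (-(x.ofLp 1)) * h
    · simp
  norm_map' x := by
    have hs : s ≠ 0 := s_pos.ne'
    have h := s_sq
    rw [EuclideanSpace.norm_eq, EuclideanSpace.norm_eq]
    congr 1
    simp only [Real.norm_eq_abs, sq_abs, Fin.sum_univ_three]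
    show ((goldenRatio * x 0 - x 1) / s) ^ 2 + ((x 0 + goldenRatio * x 1) / s) ^ 2 + (x 2) ^ 2
      = (x 0) ^ 2 + (x 1) ^ 2 + (x 2) ^ 2
    generalize goldenRatio = p at h ⊢
    field_simp
    linear_combination (-(x.ofLp 0 ^ 2) - x.ofLp 1 ^ 2) * h

lemma rot_0 (x : R3) : rot x 0 = (goldenRatio * x 0 - x 1) / s := rfl
lemma rot_1 (x : R3) : rot x 1 = (x 0 + goldenRatio * x 1) / s := rfl
lemma rot_2 (x : R3) : rot x 2 = x 2 := rfl
lemma rot_symm_0 (x : R3) : rot.symm x 0 = (goldenRatio * x 0 + x 1) / s := rfl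
lemma rot_symm_1 (x : R3) : rot.symm x 1 = (-x 0 + goldenRatio * x 1) / s := rfl
lemma rot_symm_2 (x : R3) : rot.symm x 2 = x 2 := rfl

/-- the lattice vector of `k` in the golden frame. -/
noncomputable def lat (k : ℤ × ℤ) : R3 := !₂[γ1 k, γ2 k, 0]

@[simp] lemma lat_0 (k : ℤ × ℤ) : lat k 0 = γ1 k := rfl
@[simp] lemma lat_1 (k : ℤ × ℤ) : lat k 1 = γ2 k := rfl
@[simp] lemma lat_2 (k : ℤ × ℤ) : lat k 2 = 0 := rfl

@[simp] lemma lat_zero : lat 0 = 0 := by
  ext i; fin_cases i <;> simp [lat]

lemma lat_add (k l : ℤ × ℤ) : lat (k + l) = lat k + lat l := by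
  ext i; fin_cases i
  · simpa [lat] using γ1_add k l
  · simpa [lat] using γ2_add k l
  · simp [lat]

lemma lat_neg (k : ℤ × ℤ) : lat (-k) = -lat k := by
  ext i; fin_cases i
  · simpa [lat] using γ1_neg k
  · simpa [lat] using γ2_neg k
  · simp [lat]

/-- the standard lattice vector. -/
noncomputable def std (k : ℤ × ℤ) : R3 := !₂[(k.1 : ℝ), (k.2 : ℝ), 0]

lemma rot_std (k : ℤ × ℤ) : rot (std k) = lat k := by
  ext i; fin_cases i
  · simp [rot_0, std, lat, γ1]
  · simp [rot_1, std, lat, γ2]
  · simp [rot_2, std, lat]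

lemma rot_single0 : rot (EuclideanSpace.single 0 1) = lat (1, 0) := by
  rw [← rot_std]; congr 1
  ext i; fin_cases i <;> simp [std]

lemma rot_single1 : rot (EuclideanSpace.single 1 1) = lat (0, 1) := by
  rw [← rot_std]; congr 1
  ext i; fin_cases i <;> simp [std]

lemma rot_single2 : rot (EuclideanSpace.single 2 1) = EuclideanSpace.single 2 1 := by
  ext i; fin_cases i
  · simp [rot_0]
  · simp [rot_1]
  · simp [rot_2]

lemma norm_lat (k : ℤ × ℤ) : ‖lat k‖ ^ 2 = (k.1 : ℝ) ^ 2 + (k.2 : ℝ) ^ 2 := by
  rw [← rot_std, LinearIsometryEquiv.norm_map, EuclideanSpace.norm_sq_eq]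
  simp [std, Fin.sum_univ_three]

/-- transfer of periodicity: golden-lattice periodic functions that do not depend on the third
coordinate become 1-periodic in the standard frame. -/
lemma isPeriodic3_comp_rot {α : Type*} (g : R3 → α)
    (h1 : ∀ x, ∀ k : ℤ × ℤ, g (x + lat k) = g x)
    (h2 : ∀ x, ∀ c : ℝ, g (x + EuclideanSpace.single 2 c) = g x) :
    IsPeriodic3 (fun x => g (rot x)) := by
  intro x i
  have e : ∀ i : Fin 3, rot (x + EuclideanSpace.single i 1)
      = rot x + rot (EuclideanSpace.single i 1) := fun i => map_add _ _ _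
  fin_cases i
  · show g (rot (x + EuclideanSpace.single 0 1)) = g (rot x)
    rw [e, rot_single0, h1]
  · show g (rot (x + EuclideanSpace.single 1 1)) = g (rot x)
    rw [e, rot_single1, h1]
  · show g (rot (x + EuclideanSpace.single 2 1)) = g (rot x)
    rw [e, rot_single2, h2]

lemma rot_mp : MeasurePreserving rot (volume : Measure R3) volume := rot.measurePreserving

lemma rot_symm_mp : MeasurePreserving rot.symm (volume : Measure R3) volume :=
  rot.symm.measurePreserving

end Crest.Agent.R68.FLat
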