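/-
Row 68 (S0091), Part F: superposition formula: the fuel is a superposition over the labels
`(j, a, y, θ)` of free particles, with mass `K da dy dθ/8`.
-/
import Mathlib
import Crest.Agent.R68.FLab
import Crest.Agent.R68.FProd

set_option autoImplicit false

namespace Crest.Agent.R68

open Real MeasureTheory Set
open scoped ENNReal
open Crest.AnalysisR.VecCalc3 Crest.AnalysisR.PDE.Boltzmann

/-- the thermal box. -/
def box : Set R3 := {θ | ∀ i : Fin 3, |θ i| < 1}

lemma measurableSet_box' (u : R3) (η : ℝ) : MeasurableSet {v : R3 | ∀ i : Fin 3, |v i - u i| < η} := by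
  have : {v : R3 | ∀ i : Fin 3, |v i - u i| < η} = ⋂ i : Fin 3, {v : R3 | |v i - u i| < η} := by
    ext v; simp
  rw [this]
  refine MeasurableSet.iInter fun i => measurableSet_lt ?_ measurable_const
  exact ((Fuel.measurable_vec_apply i).sub_const _).abs

lemma measurableSet_box : MeasurableSet box := by
  have := measurableSet_box' 0 1
  simpa [box] using this

/-- scaling and translation in `R3`. -/
lemma lint_affine3 {η : ℝ} (hη : 0 < η) (u : R3) (F : R3 → ℝ≥0∞) :
    ∫⁻ v, F v = ENNReal.ofReal (η ^ 3) * ∫⁻ θ, F (u + η • θ) := by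
  have hη0 : η ≠ 0 := hη.ne'
  have h1 : ∫⁻ θ, F (u + η • θ) = ∫⁻ y, F (u + y) ∂(Measure.map (fun x : R3 => η • x) volume) := by
    have h0 := (Homeomorph.smulOfNeZero η hη0).measurableEmbedding.lintegral_map
      (μ := (volume : Measure R3)) (fun y : R3 => F (u + y))
    exact h0.symm
  have h2 : ∫⁻ v, F v = ∫⁻ y, F (u + y) := (lintegral_add_left_eq_self F u).symm
  rw [h1, h2, Measure.map_addHaar_smul volume hη0, lintegral_smul_measure]
  rw [finrank_euclideanSpace, Fintype.card_fin, smul_eq_mul, ← mul_assoc,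
    ← ENNReal.ofReal_mul (by positivity), abs_of_pos (by positivity),
    mul_inv_cancel₀ (by positivity), ENNReal.ofReal_one, one_mul]

/-- integral over a small box around `u`. -/
lemma lint_box {η : ℝ} (hη : 0 < η) (u : R3) (g : R3 → ℝ≥0∞) :
    ∫⁻ v in {v : R3 | ∀ i : Fin 3, |v i - u i| < η}, g v
      = ENNReal.ofReal (η ^ 3) * ∫⁻ θ in box, g (u + η • θ) := by
  rw [← lintegral_indicator (measurableSet_box' u η), lint_affine3 hη u,
    ← lintegral_indicator measurableSet_box]
  congr 2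
  ext θ
  have : u + η • θ ∈ {v : R3 | ∀ i : Fin 3, |v i - u i| < η} ↔ θ ∈ box := by
    simp only [mem_ofPred_eq, box, PiLp.add_apply, PiLp.smul_apply, smul_eq_mul,
      add_sub_cancel_left, abs_mul, abs_of_pos hη]
    refine forall_congr' fun i => ?_
    rw [mul_lt_iff_lt_one_right hη]
  by_cases h : θ ∈ box
  · rw [indicator_of_mem (this.2 h), indicator_of_mem h]
  · rw [indicator_of_notMem (fun h' => h (this.1 h')), indicator_of_notMem h]

/-- velocity of the particle with label `(j,a,y,θ)`. -/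
noncomputable def Ulab (P : Par) (j : ℕ) (a y : ℝ) (θ : R3) : R3 :=
  !₂[P.c * a / P.dl, y, wj j] + etaj P.p j • θ

/-- position at time `t` of the particle with label `(j,a,y,θ)`. -/
noncomputable def Xlab (P : Par) (j : ℕ) (t a y : ℝ) (θ : R3) : P2 :=
  (a, y * rr a) + t • bar (Ulab P j a y θ)

lemma Ulab_0 (P : Par) (j : ℕ) (a y : ℝ) (θ : R3) :
    Ulab P j a y θ 0 = P.c * a / P.dl + etaj P.p j * θ 0 := rfl
lemma Ulab_1 (P : Par) (j : ℕ) (a y : ℝ) (θ : R3) :
    Ulab P j a y θ 1 = y + etaj P.p j * θ 1 := rfl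
lemma Ulab_2 (P : Par) (j : ℕ) (a y : ℝ) (θ : R3) :
    Ulab P j a y θ 2 = wj j + etaj P.p j * θ 2 := rfl
lemma Xlab_fst (P : Par) (j : ℕ) (t a y : ℝ) (θ : R3) :
    (Xlab P j t a y θ).1 = a + t * (P.c * a / P.dl + etaj P.p j * θ 0) := rfl
lemma Xlab_snd (P : Par) (j : ℕ) (t a y : ℝ) (θ : R3) :
    (Xlab P j t a y θ).2 = y * rr a + t * (y + etaj P.p j * θ 1) := rfl

lemma Par.dl_pos {P : Par} (h : 1 ≤ P.j0) : 0 < P.dl := by
  unfold Par.dl
  have : (1 : ℝ) ≤ P.j0 := by exact_mod_cast h
  have : 0 < √(2 * (P.j0 : ℝ)) := Real.sqrt_pos.2 (by linarith)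
  positivity

lemma lab_zero {P : Par} (h : 1 ≤ P.j0) (x : P2) : lab P 0 x = x.1 := by
  have := (Par.dl_pos h).ne'
  unfold lab
  rw [mul_zero, add_zero]
  exact mul_div_cancel_left₀ _ this

lemma uvec_zero {P : Par} (h : 1 ≤ P.j0) (s a y : ℝ) (ha : a ≠ 0) :
    uvec P s 0 (a, y * rr a) = !₂[P.c * a / P.dl, y, s] := by
  unfold uvec
  rw [lab_zero h, mul_zero, add_zero, zero_add, mul_div_cancel_right₀ _ (rr_pos ha).ne']

/-- velocity integral of the fuel of lane `j` at time `0`. -/
lemma lint_phi0j {P : Par} (hK : 0 ≤ P.K) (j : ℕ) {x : P2} (hx : x.1 ∈ lane j)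
    (hx2 : |x.2| < P.Y * rr x.1) (g : R3 → ℝ≥0∞) :
    ∫⁻ v, ENNReal.ofReal (phi0j P j x v) * g v =
      ENNReal.ofReal (P.K * chij j x.1 * ky P (x.2 / rr x.1) / (8 * rr x.1)) *
        ∫⁻ θ in box, g (uvec P (wj j) 0 x + etaj P.p j • θ) := by
  have hη := etaj_pos P.p j
  have hr := rr_pos (lane_ne hx)
  have h1 : ∀ v, ENNReal.ofReal (phi0j P j x v) * g v =
      ({v : R3 | ∀ i : Fin 3, |v i - uvec P (wj j) 0 x i| < etaj P.p j}.indicator
        (fun v => ENNReal.ofReal (P.K * chij j x.1 * ky P (x.2 / rr x.1) /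
          (8 * rr x.1 * etaj P.p j ^ 3)) * g v)) v := by
    intro v
    by_cases h : ∀ i : Fin 3, |v i - uvec P (wj j) 0 x i| < etaj P.p j
    · rw [indicator_of_mem (by exact h)]
      unfold phi0j
      rw [if_pos ⟨hx, hx2, h⟩]
    · rw [indicator_of_notMem (by exact h)]
      unfold phi0j
      rw [if_neg (fun h' => h h'.2.2), ENNReal.ofReal_zero, zero_mul]
  simp_rw [h1]
  rw [lintegral_indicator (measurableSet_box' _ _), lintegral_const_mul' _ _ ENNReal.ofReal_ne_top,
    lint_box hη, ← mul_assoc, ← ENNReal.ofReal_mul (phi0j_amp_nonneg hK j x)]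
  congr 2
  field_simp

/-- measurability of `(a, y) ↦ ∫ g(x, u + ηθ) dθ`. -/
lemma measurable_boxint (P : Par) (j : ℕ) {G : P2 → R3 → ℝ≥0∞}
    (hG : Measurable (fun q : P2 × R3 => G q.1 q.2)) :
    Measurable (fun q : ℝ × ℝ => ∫⁻ θ in box, G (q.1, q.2 * rr q.1) (Ulab P j q.1 q.2 θ)) := by
  apply Measurable.lintegral_prod_right'
    (f := fun z : (ℝ × ℝ) × R3 => G (z.1.1, z.1.2 * rr z.1.1) (Ulab P j z.1.1 z.1.2 z.2))
  refine hG.comp (Measurable.prodMk ?_ ?_)
  · unfold rr; fun_prop
  · refine Measurable.add ?_ ?_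
    · have := Fuel.measurable_vec (α := (ℝ × ℝ) × R3) (f := fun z => P.c * z.1.1 / P.dl)
        (g := fun z => z.1.2) (h := fun _ => wj j) (by fun_prop) (by fun_prop) (by fun_prop)
      exact this
    · exact (measurable_snd (α := ℝ × ℝ) (β := R3)).const_smul (etaj P.p j)

/-- superposition formula at time zero, one lane. -/
theorem lane_superposition_zero {P : Par} (hK : 0 ≤ P.K) (hj0 : 1 ≤ P.j0) (j : ℕ)
    {G : P2 → R3 → ℝ≥0∞} (hG : Measurable (fun q : P2 × R3 => G q.1 q.2)) :
    ∫⁻ x : P2, ∫⁻ v, ENNReal.ofReal (phi0j P j x v) * G x v =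
      ∫⁻ a in lane j, ∫⁻ y in {y : ℝ | |y| < P.Y}, ∫⁻ θ in box,
        ENNReal.ofReal (P.K * chij j a * ky P y / 8) * G (a, y * rr a) (Ulab P j a y θ) := by
  have hm : Measurable (fun x : P2 => ∫⁻ v, ENNReal.ofReal (phi0j P j x v) * G x v) := by
    apply Measurable.lintegral_prod_right'
      (f := fun z : P2 × R3 => ENNReal.ofReal (phi0j P j z.1 z.2) * G z.1 z.2)
    exact (measurable_phi0j P j).ennreal_ofReal.mul hG
  rw [Measure.volume_eq_prod, lintegral_prod _ hm.aemeasurable]
  rw [← lintegral_indicator (measurableSet_lane j)]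
  refine lintegral_congr fun a => ?_
  by_cases ha : a ∈ lane j
  · rw [indicator_of_mem ha]
    have ha0 := lane_ne ha
    have hr := rr_pos ha0
    rw [Fuel.lint_affine hr.ne' 0]
    simp only [add_zero]
    rw [abs_of_pos hr, ← lintegral_const_mul' _ _ ENNReal.ofReal_ne_top]
    have hYs : MeasurableSet {y : ℝ | |y| < P.Y} :=
      measurableSet_lt measurable_norm measurable_const
    rw [← lintegral_indicator hYs]
    refine lintegral_congr fun y => ?_
    have hiff : |rr a * y| < P.Y * rr a ↔ |y| < P.Y := by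
      rw [abs_mul, abs_of_pos hr, mul_comm]
      exact mul_lt_mul_iff_left₀ hr
    by_cases hy : |y| < P.Y
    · rw [indicator_of_mem (show y ∈ {y : ℝ | |y| < P.Y} from hy)]
      have h2 := lint_phi0j hK j (x := (a, rr a * y)) ha (hiff.2 hy) (G (a, rr a * y))
      rw [h2]
      have h3 : uvec P (wj j) 0 (a, rr a * y) = !₂[P.c * a / P.dl, y, wj j] := by
        rw [mul_comm (rr a) y]; exact uvec_zero hj0 _ _ _ ha0
      have h4 : rr a * (P.K * chij j (a, rr a * y).1 * ky P ((a, rr a * y).2 / rr (a, rr a * y).1) /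
          (8 * rr (a, rr a * y).1)) = P.K * chij j a * ky P y / 8 := by
        show rr a * (P.K * chij j a * ky P (rr a * y / rr a) / (8 * rr a))
          = P.K * chij j a * ky P y / 8
        rw [mul_div_cancel_left₀ _ hr.ne']
        field_simp
      rw [h3, ← mul_assoc, ← ENNReal.ofReal_mul hr.le, h4,
        lintegral_const_mul' _ _ ENNReal.ofReal_ne_top, mul_comm (rr a) y]
      rfl
    · rw [indicator_of_notMem (show y ∉ {y : ℝ | |y| < P.Y} from hy)]
      have : ∀ v, ENNReal.ofReal (phi0j P j (a, rr a * y) v) * G (a, rr a * y) v = 0 := by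
        intro v
        rw [phi0j_eq_zero' (fun h => hy (hiff.1 h)), ENNReal.ofReal_zero, zero_mul]
      simp only [this, lintegral_zero, mul_zero]
  · rw [indicator_of_notMem ha]
    have : ∀ (y : ℝ) (v : R3), ENNReal.ofReal (phi0j P j (a, y) v) * G (a, y) v = 0 := by
      intro y v
      rw [phi0j_eq_zero (x := (a, y)) ha, ENNReal.ofReal_zero, zero_mul]
    simp only [this, lintegral_zero]

/-- free transport in phase space preserves the measure (lintegral form). -/
lemma lintegral_transport (t : ℝ) {F : P2 → R3 → ℝ≥0∞}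
    (hF : Measurable (fun q : P2 × R3 => F q.1 q.2)) :
    ∫⁻ x : P2, ∫⁻ v, F x v = ∫⁻ x : P2, ∫⁻ v, F (x + t • bar v) v := by
  have hbar : Measurable (bar : R3 → P2) := by
    unfold bar; exact (Fuel.measurable_vec_apply 0).prodMk (Fuel.measurable_vec_apply 1)
  rw [lintegral_lintegral_swap hF.aemeasurable]
  have hF2 : Measurable (fun q : P2 × R3 => F (q.1 + t • bar q.2) q.2) := by
    refine hF.comp (Measurable.prodMk ?_ measurable_snd)
    exact measurable_fst.add ((hbar.comp measurable_snd).const_smul t)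
  rw [lintegral_lintegral_swap (f := fun x v => F (x + t • bar v) v) hF2.aemeasurable]
  refine lintegral_congr fun v => ?_
  exact (lintegral_add_right_eq_self (fun x => F x v) (t • bar v)).symm

lemma measurable_bar : Measurable (bar : R3 → P2) := by
  unfold bar; exact (Fuel.measurable_vec_apply 0).prodMk (Fuel.measurable_vec_apply 1)

/-- SUPERPOSITION, one lane, one image, time `t`. -/
theorem lane_superposition {P : Par} (hK : 0 ≤ P.K) (hj0 : 1 ≤ P.j0) (j : ℕ) (t : ℝ)
    {f : P2 → R3 → ℝ≥0∞} (hf : Measurable (fun q : P2 × R3 => f q.1 q.2)) :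
    ∫⁻ x : P2, ∫⁻ v, ENNReal.ofReal (phi0j P j (x - t • bar v) v) * f x v =
      ∫⁻ a in lane j, ∫⁻ y in {y : ℝ | |y| < P.Y}, ∫⁻ θ in box,
        ENNReal.ofReal (P.K * chij j a * ky P y / 8) * f (Xlab P j t a y θ) (Ulab P j a y θ) := by
  have hm1 : Measurable (fun q : P2 × R3 =>
      ENNReal.ofReal (phi0j P j (q.1 - t • bar q.2) q.2) * f q.1 q.2) := by
    refine Measurable.mul (Measurable.ennreal_ofReal ?_) hf
    refine (measurable_phi0j P j).comp (Measurable.prodMk ?_ measurable_snd)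
    exact measurable_fst.sub ((measurable_bar.comp measurable_snd).const_smul t)
  rw [lintegral_transport t hm1]
  simp only [add_sub_cancel_right]
  have hm2 : Measurable (fun q : P2 × R3 => f (q.1 + t • bar q.2) q.2) := by
    refine hf.comp (Measurable.prodMk ?_ measurable_snd)
    exact measurable_fst.add ((measurable_bar.comp measurable_snd).const_smul t)
  exact lane_superposition_zero hK hj0 j (G := fun x v => f (x + t • bar v) v) hm2

/-- SUPERPOSITION, all lanes, one image. -/
theorem phi0_superposition {P : Par} (hK : 0 ≤ P.K) (hj0 : 1 ≤ P.j0) (t : ℝ)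
    {f : P2 → R3 → ℝ≥0∞} (hf : Measurable (fun q : P2 × R3 => f q.1 q.2)) :
    ∫⁻ x : P2, ∫⁻ v, ENNReal.ofReal (phi0 P (x - t • bar v) v) * f x v =
      ∑' j : ℕ, if P.j0 ≤ j then ∫⁻ a in lane j, ∫⁻ y in {y : ℝ | |y| < P.Y}, ∫⁻ θ in box,
        ENNReal.ofReal (P.K * chij j a * ky P y / 8) * f (Xlab P j t a y θ) (Ulab P j a y θ) else 0 := by
  have hm : ∀ j, Measurable (fun q : P2 × R3 =>
      (if P.j0 ≤ j then ENNReal.ofReal (phi0j P j (q.1 - t • bar q.2) q.2) else 0) * f q.1 q.2) := by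
    intro j
    refine Measurable.mul ?_ hf
    split_ifs
    · refine Measurable.ennreal_ofReal ?_
      refine (measurable_phi0j P j).comp (Measurable.prodMk ?_ measurable_snd)
      exact measurable_fst.sub ((measurable_bar.comp measurable_snd).const_smul t)
    · exact measurable_const
  have h1 : ∀ (x : P2) (v : R3), ENNReal.ofReal (phi0 P (x - t • bar v) v) * f x v =
      ∑' j : ℕ, (if P.j0 ≤ j then ENNReal.ofReal (phi0j P j (x - t • bar v) v) else 0) * f x v := by
    intro x v
    rw [ofReal_phi0, ENNReal.tsum_mul_right]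
  simp_rw [h1]
  have h2 : ∀ x : P2, ∫⁻ v, ∑' j : ℕ,
      (if P.j0 ≤ j then ENNReal.ofReal (phi0j P j (x - t • bar v) v) else 0) * f x v =
      ∑' j : ℕ, ∫⁻ v, (if P.j0 ≤ j then ENNReal.ofReal (phi0j P j (x - t • bar v) v) else 0)
        * f x v := by
    intro x
    rw [lintegral_tsum]
    intro j
    exact ((hm j).comp (measurable_prodMk_left (x := x))).aemeasurable
  simp_rw [h2]
  rw [lintegral_tsum]
  · refine tsum_congr fun j => ?_
    split_ifs with hj
    · exact lane_superposition hK hj0 j t hf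
    · simp
  · intro j
    exact ((hm j).lintegral_prod_right').aemeasurable

end Crest.Agent.R68
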