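/-
Row 68 (S0091), Part F: the periodic fuel: at most one image, measurability, periodicity,
free transport, superposition over the labels on the cell, total mass.
-/
import Mathlib
import Crest.Agent.R68.FSup

set_option autoImplicit false

namespace Crest.Agent.R68

open Real MeasureTheory Set
open scoped ENNReal
open Crest.AnalysisR.VecCalc3 Crest.AnalysisR.PDE.Boltzmann

/-- smallness of the period-one support of the initial fuel: needs `5 ≤ j0`, `2 Y ≤ j0`. -/
lemma norm_lt_of_phi0_ne_zero {P : Par} (hj0 : 5 ≤ P.j0) (hY0 : 0 ≤ P.Y) (hY : 2 * P.Y ≤ P.j0)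
    {z : P2} {v : R3} (h : phi0 P z v ≠ 0) : ‖z‖ < 7 / 20 := by
  obtain ⟨j, hj, hz, hz2, -, -⟩ := phi0_ne_zero h
  have hj2 : (5 : ℝ) ≤ P.j0 := by exact_mod_cast hj0
  have hjj : (P.j0 : ℝ) ≤ j := by exact_mod_cast hj
  have h1 := rr_lt_of_mem_lane (show 1 ≤ j by omega) hz
  have h1' : rr z.1 < 1 / (2 * P.j0) := h1.trans_le (by
    apply one_div_le_one_div_of_le <;> linarith)
  have h2 : 1 / (2 * (P.j0 : ℝ)) ≤ 1 / 10 := by
    apply one_div_le_one_div_of_le <;> linarith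
  have h3 : |z.1| < 7 / 20 := by
    apply abs_lt_of_sq_lt_sq _ (by norm_num)
    have : z.1 ^ 2 = rr z.1 := rfl
    rw [this]; norm_num; linarith
  have h4 : |z.2| ≤ 1 / 4 := by
    refine hz2.le.trans ?_
    calc P.Y * rr z.1 ≤ P.Y * (1 / (2 * P.j0)) := by gcongr
      _ ≤ (P.j0 / 2) * (1 / (2 * P.j0)) := by gcongr; linarith
      _ = 1 / 4 := by
          have : (P.j0 : ℝ) ≠ 0 := by linarith
          field_simp; norm_num
  rw [Prod.norm_def, max_lt_iff, Real.norm_eq_abs, Real.norm_eq_abs]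
  exact ⟨h3, by linarith⟩

/-- at most one image contributes. -/
lemma phi_image_unique {P : Par} (hj0 : 5 ≤ P.j0) (hY0 : 0 ≤ P.Y) (hY : 2 * P.Y ≤ P.j0)
    {t : ℝ} {x : P2} {v : R3} {k l : ℤ × ℤ} (hk : phi0 P (x + latt k - t • bar v) v ≠ 0)
    (hl : phi0 P (x + latt l - t • bar v) v ≠ 0) : k = l := by
  have h1 := norm_lt_of_phi0_ne_zero hj0 hY0 hY hk
  have h2 := norm_lt_of_phi0_ne_zero hj0 hY0 hY hl
  apply latt_unique (x := x - t • bar v)
  · rwa [sub_add_eq_add_sub]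
  · rwa [sub_add_eq_add_sub]

lemma phi_eq_of_ne {P : Par} (hj0 : 5 ≤ P.j0) (hY0 : 0 ≤ P.Y) (hY : 2 * P.Y ≤ P.j0)
    {t : ℝ} {x : P2} {v : R3} {k : ℤ × ℤ} (hk : phi0 P (x + latt k - t • bar v) v ≠ 0) :
    phi P t x v = phi0 P (x + latt k - t • bar v) v := by
  unfold phi
  rw [tsum_eq_single k]
  intro l hl
  by_contra h
  exact hl (phi_image_unique hj0 hY0 hY h hk)

lemma phi_eq_zero_of {P : Par} {t : ℝ} {x : P2} {v : R3}
    (h : ∀ k, phi0 P (x + latt k - t • bar v) v = 0) : phi P t x v = 0 := by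
  unfold phi
  simp only [h, tsum_zero]

lemma phi_nonneg' {P : Par} (hK : 0 ≤ P.K) (t : ℝ) (x : P2) (v : R3) : 0 ≤ phi P t x v :=
  tsum_nonneg fun _ => phi0_nonneg hK _ _

lemma ofReal_phi {P : Par} (hj0 : 5 ≤ P.j0) (hY0 : 0 ≤ P.Y) (hY : 2 * P.Y ≤ P.j0)
    (t : ℝ) (x : P2) (v : R3) :
    ENNReal.ofReal (phi P t x v) =
      ∑' k : ℤ × ℤ, ENNReal.ofReal (phi0 P (x + latt k - t • bar v) v) := by
  by_cases h : ∃ k, phi0 P (x + latt k - t • bar v) v ≠ 0
  · obtain ⟨k, hk⟩ := h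
    rw [phi_eq_of_ne hj0 hY0 hY hk, tsum_eq_single k]
    intro l hl
    have : phi0 P (x + latt l - t • bar v) v = 0 := by
      by_contra h'
      exact hl (phi_image_unique hj0 hY0 hY h' hk)
    rw [this, ENNReal.ofReal_zero]
  · push Not at h
    rw [phi_eq_zero_of h, ENNReal.ofReal_zero]
    symm
    rw [ENNReal.tsum_eq_zero]
    intro k
    rw [h k, ENNReal.ofReal_zero]

/-- free transport of the fuel. -/
lemma phi_transport' (P : Par) (t : ℝ) (x : P2) (v : R3) :
    phi P t x v = phi P 0 (x - t • bar v) v := by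
  unfold phi
  refine tsum_congr fun k => ?_
  rw [zero_smul, sub_zero, sub_add_eq_add_sub]

lemma phi_transport_add (P : Par) (t s : ℝ) (x : P2) (v : R3) :
    phi P (t + s) (x + s • bar v) v = phi P t x v := by
  unfold phi
  refine tsum_congr fun k => ?_
  congr 1
  rw [add_smul]; abel

lemma perG_phi (P : Par) (t : ℝ) (v : R3) : PerG (fun x => phi P t x v) := by
  intro x l
  show phi P t (x + latt l) v = phi P t x v
  unfold phi
  rw [← (Equiv.addLeft l).tsum_eq (fun k => phi0 P (x + latt k - t • bar v) v)]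
  refine tsum_congr fun k => ?_
  simp only [Equiv.coe_addLeft, latt_add]
  congr 1
  abel

lemma measurable_phi' {P : Par} (hj0 : 5 ≤ P.j0) (hY0 : 0 ≤ P.Y) (hY : 2 * P.Y ≤ P.j0)
    (hK : 0 ≤ P.K) : Measurable (fun q : ℝ × P2 × R3 => phi P q.1 q.2.1 q.2.2) := by
  have h : (fun q : ℝ × P2 × R3 => phi P q.1 q.2.1 q.2.2) = fun q =>
      (∑' k : ℤ × ℤ, ENNReal.ofReal (phi0 P (q.2.1 + latt k - q.1 • bar q.2.2) q.2.2)).toReal := by
    funext q
    rw [← ofReal_phi hj0 hY0 hY, ENNReal.toReal_ofReal (phi_nonneg' hK _ _ _)]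
  rw [h]
  refine Measurable.ennreal_toReal (Measurable.tsum fun k => Measurable.ennreal_ofReal ?_)
  refine (measurable_phi0 P).comp (Measurable.prodMk ?_ (measurable_snd.comp measurable_snd))
  refine Measurable.sub ?_ ?_
  · exact ((measurable_fst.comp measurable_snd).add_const _)
  · exact measurable_fst.smul (measurable_bar.comp (measurable_snd.comp measurable_snd))

lemma measurable_phi_t {P : Par} (hj0 : 5 ≤ P.j0) (hY0 : 0 ≤ P.Y) (hY : 2 * P.Y ≤ P.j0)
    (hK : 0 ≤ P.K) (t : ℝ) : Measurable (fun q : P2 × R3 => phi P t q.1 q.2) :=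
  Measurable.of_uncurry_left (f := fun (t : ℝ) (q : P2 × R3) => phi P t q.1 q.2)
    (measurable_phi' hj0 hY0 hY hK)

lemma measurable_phi0_transport (P : Par) (t : ℝ) :
    Measurable (fun q : P2 × R3 => phi0 P (q.1 - t • bar q.2) q.2) := by
  have h1 : Measurable (fun q : P2 × R3 => (q.1 - t • bar q.2, q.2)) :=
    (measurable_fst.sub ((measurable_bar.comp measurable_snd).const_smul t)).prodMk measurable_snd
  exact (measurable_phi0 P).comp h1

/-- unfolding at fixed velocity. -/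
lemma phi_unfold_v {P : Par} (hj0 : 5 ≤ P.j0) (hY0 : 0 ≤ P.Y) (hY : 2 * P.Y ≤ P.j0) (t : ℝ)
    {g : P2 → ℝ≥0∞} (hg : Measurable g) (hp : PerG g) (v : R3) :
    ∫⁻ x in cellG, ENNReal.ofReal (phi P t x v) * g x =
      ∫⁻ x, ENNReal.ofReal (phi0 P (x - t • bar v) v) * g x := by
  have hmv : Measurable (fun x : P2 => ENNReal.ofReal (phi0 P (x - t • bar v) v)) :=
    ((measurable_phi0_transport P t).comp (measurable_prodMk_right (y := v))).ennreal_ofReal
  rw [← lintegral_cellG_tsum_mul hmv hg hp]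
  refine lintegral_congr fun x => ?_
  congr 1
  exact ofReal_phi hj0 hY0 hY t x v

/-- SUPERPOSITION on the cell: the periodic fuel against a periodic function. -/
theorem phi_superposition {P : Par} (hK : 0 ≤ P.K) (hj0 : 5 ≤ P.j0) (hY0 : 0 ≤ P.Y)
    (hY : 2 * P.Y ≤ P.j0) (t : ℝ) {f : P2 → R3 → ℝ≥0∞}
    (hf : Measurable (fun q : P2 × R3 => f q.1 q.2)) (hp : ∀ v, PerG (fun x => f x v)) :
    ∫⁻ x in cellG, ∫⁻ v, ENNReal.ofReal (phi P t x v) * f x v =
      ∑' j : ℕ, if P.j0 ≤ j then ∫⁻ a in lane j, ∫⁻ y in {y : ℝ | |y| < P.Y}, ∫⁻ θ in box,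
        ENNReal.ofReal (P.K * chij j a * ky P y / 8) * f (Xlab P j t a y θ) (Ulab P j a y θ) else 0 := by
  rw [← phi0_superposition hK (by omega) t hf]
  have hm1 : Measurable (fun q : P2 × R3 => ENNReal.ofReal (phi P t q.1 q.2) * f q.1 q.2) :=
    (measurable_phi_t hj0 hY0 hY hK t).ennreal_ofReal.mul hf
  have hm2 : Measurable (fun q : P2 × R3 =>
      ENNReal.ofReal (phi0 P (q.1 - t • bar q.2) q.2) * f q.1 q.2) :=
    (measurable_phi0_transport P t).ennreal_ofReal.mul hf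
  rw [lintegral_lintegral_swap (f := fun x v => ENNReal.ofReal (phi0 P (x - t • bar v) v) * f x v)
    hm2.aemeasurable]
  rw [lintegral_lintegral_swap (f := fun x v => ENNReal.ofReal (phi P t x v) * f x v)
    hm1.aemeasurable]
  refine lintegral_congr fun v => ?_
  exact phi_unfold_v hj0 hY0 hY t (hf.comp (measurable_prodMk_right (y := v))) (hp v) v

lemma volume_box : volume box = 8 := by
  have h : box = (WithLp.ofLp : R3 → (Fin 3 → ℝ)) ⁻¹' (Set.univ.pi fun _ : Fin 3 => Ioo (-1 : ℝ) 1) := by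
    ext θ
    simp only [box, mem_ofPred_eq, mem_preimage, mem_pi, mem_univ, forall_const, mem_Ioo, abs_lt]
  rw [h, (PiLp.volume_preserving_ofLp (Fin 3)).measure_preimage
    (MeasurableSet.univ_pi fun _ => measurableSet_Ioo).nullMeasurableSet, Real.volume_pi_Ioo]
  simp only [Fin.prod_univ_three]
  rw [← ENNReal.ofReal_mul (by norm_num), ← ENNReal.ofReal_mul (by norm_num)]
  norm_num

end Crest.Agent.R68
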