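import Crest.Agent.R68.IKInp

/-! Row 68: re-export of `IKInp` (helper819). -/
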