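import Mathlib
import Crest.Agent.R68.A1
import Crest.Agent.R68.EChain

/-!
Row 68, PART I (helper858), module 1: exponential form ⟹ integral form in one time variable.
-/

set_option autoImplicit false
open MeasureTheory Set Filter
open scoped ENNReal Topology

noncomputable section

namespace Crest.Agent.R68.I

open Crest.Agent.R68.A (en en_zero en_top en_add en_le_one en_coe_ofReal measurable_en
  measurable_lintegral_Ioo)

/-- `n(s,t) = ∫_s^t ν`. -/
def nn (ν : ℝ → ℝ≥0∞) (s t : ℝ) : ℝ≥0∞ := ∫⁻ r in Ioo s t, ν r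

lemma nn_mono_right (ν : ℝ → ℝ≥0∞) {s t u : ℝ} (h : t ≤ u) : nn ν s t ≤ nn ν s u :=
  lintegral_mono_set (Ioo_subset_Ioo_right h)

lemma nn_mono_left (ν : ℝ → ℝ≥0∞) {r s t : ℝ} (h : r ≤ s) : nn ν s t ≤ nn ν r t :=
  lintegral_mono_set (Ioo_subset_Ioo_left h)

lemma nn_self (ν : ℝ → ℝ≥0∞) (s : ℝ) : nn ν s s = 0 := by simp [nn]

lemma nn_add (ν : ℝ → ℝ≥0∞) {r s t : ℝ} (h1 : r ≤ s) (h2 : s ≤ t) :
    nn ν r t = nn ν r s + nn ν s t := by
  unfold nn
  have e1 : ∀ a b : ℝ, ∫⁻ x in Ioo a b, ν x = ∫⁻ x in Ioc a b, ν x := fun a b => by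
    rw [restrict_Ioo_eq_restrict_Ioc]
  rw [e1, e1, e1, ← Ioc_union_Ioc_eq_Ioc h1 h2, lintegral_union measurableSet_Ioc]
  exact Ioc_disjoint_Ioc_of_le le_rfl

/-- `en(n(r,t)) + ∫_r^t ν(s) en(n(r,s)) ds = 1`. -/
theorem en_add_int {ν : ℝ → ℝ≥0∞} (hν : Measurable ν) {r t : ℝ} (hrt : r ≤ t)
    (hfin : nn ν r t ≠ ⊤) :
    en (nn ν r t) + ∫⁻ s in Ioo r t, ν s * en (nn ν r s) = 1 := by
  -- shift to `[0, t - r]`
  wlog hr : r = 0 generalizing r t ν with H
  · have h1 := H (ν := fun s => ν (s + r)) (by fun_prop) (r := 0) (t := t - r) (by linarith) ?_ rfl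
    · have e : ∀ u, nn (fun s => ν (s + r)) 0 u = nn ν r (u + r) := by
        intro u
        unfold nn
        have := (measurePreserving_add_right (volume : Measure ℝ) r).setLIntegral_comp_preimage_emb
          (measurableEmbedding_addRight r) ν (Ioo r (u + r))
        rw [← this]
        congr 2
        ext s; simp
      rw [e, sub_add_cancel] at h1
      have e2 : ∫⁻ s in Ioo 0 (t - r), ν (s + r) * en (nn (fun s => ν (s + r)) 0 s) =
          ∫⁻ s in Ioo r t, ν s * en (nn ν r s) := by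
        have := (measurePreserving_add_right (volume : Measure ℝ) r).setLIntegral_comp_preimage_emb
          (measurableEmbedding_addRight r) (fun s => ν s * en (nn ν r s)) (Ioo r t)
        rw [← this]
        have e3 : (fun x => x + r) ⁻¹' Ioo r t = Ioo 0 (t - r) := by
          ext s; simp [lt_sub_iff_add_lt]
        rw [e3]
        refine lintegral_congr fun s => ?_
        rw [e]
      rw [e2] at h1
      exact h1
    · have e : nn (fun s => ν (s + r)) 0 (t - r) = nn ν r t := by
        unfold nn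
        have := (measurePreserving_add_right (volume : Measure ℝ) r).setLIntegral_comp_preimage_emb
          (measurableEmbedding_addRight r) ν (Ioo r t)
        rw [← this]
        have e3 : (fun x => x + r) ⁻¹' Ioo r t = Ioo 0 (t - r) := by
          ext s; simp [lt_sub_iff_add_lt]
        rw [e3]
      rw [e]; exact hfin
  subst hr
  -- real version
  set q : ℝ → ℝ := fun s => (ν s).toReal with hq
  have hae : ∀ᵐ s ∂(volume.restrict (Ioo 0 t)), ν s < ⊤ := ae_lt_top hν hfin
  have hqi : IntegrableOn q (Ioo 0 t) := integrable_toReal_of_lintegral_ne_top hν.aemeasurable hfin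
  have hn : ∀ s ∈ Icc 0 t, nn ν 0 s = ENNReal.ofReal (∫ u in Ioo 0 s, q u) := by
    intro s hs
    have hae' : ∀ᵐ u ∂(volume.restrict (Ioo 0 s)), ν u < ⊤ :=
      ae_mono (Measure.restrict_mono (Ioo_subset_Ioo_right hs.2) le_rfl) hae
    have hfin' : nn ν 0 s ≠ ⊤ := ne_top_of_le_ne_top hfin (nn_mono_right ν hs.2)
    rw [integral_toReal hν.aemeasurable hae']
    exact (ENNReal.ofReal_toReal hfin').symm
  have hpos : ∀ s, 0 ≤ ∫ u in Ioo 0 s, q u := fun s =>
    integral_nonneg fun u => ENNReal.toReal_nonneg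
  obtain ⟨hI, hc⟩ := R68E.chain_rule hrt hqi 0 (φ := fun z => Real.exp (-z))
    (φ' := fun z => -Real.exp (-z)) (c := -1)
    (fun z _ => by
      have := (hasDerivAt_neg z).exp
      simpa using this)
    (by fun_prop) (fun s _ => by have := hpos s; linarith)
  simp only [zero_add, neg_zero, Real.exp_zero] at hI hc
  have h1 : ∫⁻ s in Ioo 0 t, ν s * en (nn ν 0 s) =
      ENNReal.ofReal (∫ s in Ioo 0 t, Real.exp (-∫ u in Ioo 0 s, q u) * q s) := by
    have hI2 : IntegrableOn (fun s => Real.exp (-∫ u in Ioo 0 s, q u) * q s) (Ioo 0 t) := by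
      refine hI.neg.congr (Eventually.of_forall fun s => ?_)
      simp
    rw [ofReal_integral_eq_lintegral_ofReal hI2 (Eventually.of_forall fun s =>
      mul_nonneg (Real.exp_pos _).le ENNReal.toReal_nonneg)]
    refine setLIntegral_congr_fun_ae measurableSet_Ioo ?_
    have hae2 : ∀ᵐ s : ℝ, s ∈ Ioo 0 t → ν s < ⊤ := (ae_restrict_iff' measurableSet_Ioo).1 hae
    filter_upwards [hae2] with s hs hst
    rw [hn s ⟨hst.1.le, hst.2.le⟩, en_coe_ofReal (hpos s), ENNReal.ofReal_mul (Real.exp_pos _).le,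
      ENNReal.ofReal_toReal (hs hst).ne, mul_comm]
  rw [h1, hn t ⟨hrt, le_rfl⟩, en_coe_ofReal (hpos t),
    ← ENNReal.ofReal_add (Real.exp_pos _).le]
  · rw [← ENNReal.ofReal_one]
    congr 1
    have h2 : ∫ s in Ioo 0 t, Real.exp (-∫ u in Ioo 0 s, q u) * q s =
        - ∫ s in Ioo 0 t, -Real.exp (-∫ u in Ioo 0 s, q u) * q s := by
      rw [← integral_neg]
      refine integral_congr_ae (Eventually.of_forall fun s => ?_)
      simp
    rw [h2, ← hc]
    ring
  · exact integral_nonneg fun s => mul_nonneg (Real.exp_pos _).le ENNReal.toReal_nonneg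

/-- **exponential form ⟹ integral form**, one time variable. -/
theorem expo_integral {ν q : ℝ → ℝ≥0∞} (hν : Measurable ν) (hq : Measurable q) {t : ℝ}
    (ht : 0 ≤ t) (hfin : nn ν 0 t ≠ ⊤) (y0 : ℝ≥0∞) {y : ℝ → ℝ≥0∞}
    (hy : ∀ᵐ s ∂(volume.restrict (Ioo 0 t)),
      y s = y0 * en (nn ν 0 s) + ∫⁻ r in Ioo 0 s, en (nn ν r s) * q r)
    (hyt : y t = y0 * en (nn ν 0 t) + ∫⁻ r in Ioo 0 t, en (nn ν r t) * q r) :
    y t + ∫⁻ s in Ioo 0 t, y s * ν s = y0 + ∫⁻ s in Ioo 0 t, q s := by
  have hnm : Measurable fun p : ℝ × ℝ => nn ν p.1 p.2 := by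
    unfold nn
    exact measurable_lintegral_Ioo (α := ℝ × ℝ) (q := fun z => ν z.2) (by fun_prop)
      measurable_fst measurable_snd
  have hem : Measurable fun p : ℝ × ℝ => en (nn ν p.1 p.2) := measurable_en.comp hnm
  -- the triangle
  set K : ℝ × ℝ → ℝ≥0∞ := {p : ℝ × ℝ | p.2 < p.1}.indicator
    (fun p => ν p.1 * (en (nn ν p.2 p.1) * q p.2)) with hK
  have hKm : Measurable K := by
    refine Measurable.indicator ?_ (measurableSet_lt measurable_snd measurable_fst)
    exact (hν.comp measurable_fst).mul ((hem.comp (measurable_snd.prodMk measurable_fst)).mul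
      (hq.comp measurable_snd))
  have h1 : ∫⁻ s in Ioo 0 t, y s * ν s =
      (∫⁻ s in Ioo 0 t, y0 * (ν s * en (nn ν 0 s))) + ∫⁻ s in Ioo 0 t, ∫⁻ r in Ioo 0 t, K (s, r) := by
    rw [← lintegral_add_left]
    · refine lintegral_congr_ae ?_
      filter_upwards [hy, ae_restrict_mem measurableSet_Ioo] with s hs hst
      rw [hs, add_mul]
      congr 1
      · ring
      · have e1 : ∫⁻ r in Ioo 0 t, K (s, r) = ∫⁻ r in Ioo 0 s, ν s * (en (nn ν r s) * q r) := by
          have e2 : (fun r => K (s, r)) = (Iio s).indicator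
              (fun r => ν s * (en (nn ν r s) * q r)) := by
            funext r
            simp only [hK]
            by_cases h : r < s
            · rw [indicator_of_mem (show (s, r) ∈ {p : ℝ × ℝ | p.2 < p.1} from h),
                indicator_of_mem (show r ∈ Iio s from h)]
            · rw [indicator_of_notMem (show (s, r) ∉ {p : ℝ × ℝ | p.2 < p.1} from h),
                indicator_of_notMem (show r ∉ Iio s from h)]
          rw [e2, lintegral_indicator measurableSet_Iio, Measure.restrict_restrict measurableSet_Iio]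
          congr 2
          ext r
          simp only [mem_inter_iff, mem_Iio, mem_Ioo]
          constructor
          · rintro ⟨h1, h2, h3⟩; exact ⟨h2, h1⟩
          · rintro ⟨h1, h2⟩; exact ⟨h2, h1, h2.trans hst.2⟩
        rw [e1, lintegral_const_mul]
        · ring
        · exact (hem.comp (measurable_id.prodMk measurable_const)).mul hq
    · exact measurable_const.mul (hν.mul (hem.comp (measurable_const.prodMk measurable_id)))
  have h2 : ∫⁻ s in Ioo 0 t, ∫⁻ r in Ioo 0 t, K (s, r) =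
      ∫⁻ r in Ioo 0 t, q r * ∫⁻ s in Ioo r t, ν s * en (nn ν r s) := by
    rw [lintegral_lintegral_swap (f := fun s r => K (s, r)) hKm.aemeasurable]
    refine lintegral_congr_ae ?_
    filter_upwards [ae_restrict_mem measurableSet_Ioo] with r hr
    have e2 : (fun s => K (s, r)) = (Ioi r).indicator
        (fun s => ν s * (en (nn ν r s) * q r)) := by
      funext s
      simp only [hK]
      by_cases h : r < s
      · rw [indicator_of_mem (show (s, r) ∈ {p : ℝ × ℝ | p.2 < p.1} from h),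
          indicator_of_mem (show s ∈ Ioi r from h)]
      · rw [indicator_of_notMem (show (s, r) ∉ {p : ℝ × ℝ | p.2 < p.1} from h),
          indicator_of_notMem (show s ∉ Ioi r from h)]
    have e3 : ∫⁻ s in Ioo 0 t, K (s, r) = ∫⁻ s in Ioo r t, ν s * (en (nn ν r s) * q r) := by
      rw [e2, lintegral_indicator measurableSet_Ioi, Measure.restrict_restrict measurableSet_Ioi]
      congr 2
      ext s
      simp only [mem_inter_iff, mem_Ioi, mem_Ioo]
      constructor
      · rintro ⟨h1, h2, h3⟩; exact ⟨h1, h3⟩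
      · rintro ⟨h1, h2⟩; exact ⟨h1, hr.1.trans h1, h2⟩
    have hm : Measurable fun s => ν s * en (nn ν r s) :=
      hν.mul (hem.comp (measurable_const.prodMk measurable_id))
    rw [e3, ← lintegral_const_mul _ hm]
    refine lintegral_congr fun s => ?_
    ring
  have hJ : ∫⁻ s in Ioo 0 t, y0 * (ν s * en (nn ν 0 s)) =
      y0 * ∫⁻ s in Ioo 0 t, ν s * en (nn ν 0 s) := by
    have hm : Measurable fun s => ν s * en (nn ν 0 s) :=
      hν.mul (hem.comp (measurable_const.prodMk measurable_id))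
    exact lintegral_const_mul _ hm
  rw [h1, h2, hyt, hJ]
  have h3 := en_add_int hν ht hfin
  have h4 : ∫⁻ r in Ioo 0 t, q r = (∫⁻ r in Ioo 0 t, en (nn ν r t) * q r) +
      ∫⁻ r in Ioo 0 t, q r * ∫⁻ s in Ioo r t, ν s * en (nn ν r s) := by
    rw [← lintegral_add_left]
    · refine setLIntegral_congr_fun measurableSet_Ioo fun r hr => ?_
      have hfr : nn ν r t ≠ ⊤ := ne_top_of_le_ne_top hfin (nn_mono_left ν hr.1.le)
      have h5 := en_add_int hν hr.2.le hfr
      rw [mul_comm (en (nn ν r t)), ← mul_add, h5, mul_one]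
    · exact (hem.comp (measurable_id.prodMk measurable_const)).mul hq
  have h5 : y0 * en (nn ν 0 t) + y0 * ∫⁻ s in Ioo 0 t, ν s * en (nn ν 0 s) = y0 := by
    rw [← mul_add, h3, mul_one]
  rw [h4]
  calc y0 * en (nn ν 0 t) + (∫⁻ r in Ioo 0 t, en (nn ν r t) * q r) +
        (y0 * (∫⁻ s in Ioo 0 t, ν s * en (nn ν 0 s)) +
          ∫⁻ r in Ioo 0 t, q r * ∫⁻ s in Ioo r t, ν s * en (nn ν r s))
      = (y0 * en (nn ν 0 t) + y0 * ∫⁻ s in Ioo 0 t, ν s * en (nn ν 0 s)) +
        ((∫⁻ r in Ioo 0 t, en (nn ν r t) * q r) +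
          ∫⁻ r in Ioo 0 t, q r * ∫⁻ s in Ioo r t, ν s * en (nn ν r s)) := by ring
    _ = _ := by rw [h5]

end Crest.Agent.R68.I
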