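import Crest.Agent.R68.IntLg

/-!
Row 68, PART I (helper858), module 4: velocity integrals (moments with poles, potential of a
sphere, gain against a pole).
-/

set_option autoImplicit false
open MeasureTheory Set Filter Metric
open scoped ENNReal Topology Real
open Crest.AnalysisR.VecCalc3 Crest.AnalysisR.PDE.Boltzmann

noncomputable section

namespace Crest.Agent.R68.I

open Crest.Agent.R68.K2

/-- `1 + |v|` -/
def qv (v : R3) : ℝ≥0∞ := 1 + ENNReal.ofReal ‖v‖

/-- `e^{-|v|}` -/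
def em (v : R3) : ℝ≥0∞ := ENNReal.ofReal (Real.exp (-‖v‖))

@[fun_prop]
lemma measurable_qv : Measurable qv := by unfold qv; fun_prop

@[fun_prop]
lemma measurable_em : Measurable em := by unfold em; fun_prop

lemma qv_eq (v : R3) : qv v = ENNReal.ofReal (1 + ‖v‖) := by
  unfold qv
  rw [ENNReal.ofReal_add zero_le_one (norm_nonneg _), ENNReal.ofReal_one]

lemma one_le_qv (v : R3) : 1 ≤ qv v := le_self_add

lemma qv_ne_top (v : R3) : qv v ≠ ⊤ := by rw [qv_eq]; exact ENNReal.ofReal_ne_top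

lemma pow_le_factorial_exp (k : ℕ) {x : ℝ} (hx : 0 ≤ x) : x ^ k ≤ k.factorial * Real.exp x := by
  have h := Real.pow_div_factorial_le_exp x hx k
  rwa [div_le_iff₀ (by positivity), mul_comm] at h

lemma qv_pow_em_le (k : ℕ) (v : R3) : qv v ^ k * em v ≤ ENNReal.ofReal (Real.exp 1 * k.factorial) := by
  rw [qv_eq, em, ← ENNReal.ofReal_pow (by positivity), ← ENNReal.ofReal_mul (by positivity)]
  apply ENNReal.ofReal_le_ofReal
  have h := pow_le_factorial_exp k (x := 1 + ‖v‖) (by positivity)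
  calc (1 + ‖v‖) ^ k * Real.exp (-‖v‖) ≤ (k.factorial * Real.exp (1 + ‖v‖)) * Real.exp (-‖v‖) := by
        gcongr
    _ = Real.exp 1 * k.factorial := by
        rw [Real.exp_add, Real.exp_neg]
        field_simp

/-- `∫ (1+|v|)^k e^{-|v|}` -/
def JJ (k : ℕ) : ℝ≥0∞ := ∫⁻ v, qv v ^ k * em v

lemma JJ_lt_top (k : ℕ) : JJ k < ⊤ := by
  have h1 : (∫⁻ x : R3, ENNReal.ofReal ((1 + ‖x‖) ^ (-(4 : ℝ)))) < ⊤ :=
    finite_integral_one_add_norm (by simp; norm_num)
  have h2 : ∀ v : R3, qv v ^ k * em v ≤ ENNReal.ofReal (Real.exp 1 * (k + 4).factorial) *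
      ENNReal.ofReal ((1 + ‖v‖) ^ (-(4 : ℝ))) := by
    intro v
    have h3 := qv_pow_em_le (k + 4) v
    have h4 : (0 : ℝ) < 1 + ‖v‖ := by positivity
    have h5 : ENNReal.ofReal ((1 + ‖v‖) ^ (-(4 : ℝ))) = (qv v ^ 4)⁻¹ := by
      rw [Real.rpow_neg h4.le, ENNReal.ofReal_inv_of_pos (by positivity), qv_eq,
        ← ENNReal.ofReal_pow h4.le]
      norm_cast
    rw [h5]
    have h6 : qv v ^ 4 ≠ 0 := pow_ne_zero _ (zero_lt_one.trans_le (one_le_qv v)).ne'
    have h7 : qv v ^ 4 ≠ ⊤ := ENNReal.pow_ne_top (qv_ne_top v)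
    calc qv v ^ k * em v = (qv v ^ (k + 4) * em v) * (qv v ^ 4)⁻¹ := by
          rw [pow_add, mul_assoc, mul_assoc, mul_comm (em v), ← mul_assoc (qv v ^ 4),
            ENNReal.mul_inv_cancel h6 h7, one_mul]
      _ ≤ _ := by gcongr
  unfold JJ
  refine (lintegral_mono h2).trans_lt ?_
  rw [lintegral_const_mul' _ _ ENNReal.ofReal_ne_top]
  exact ENNReal.mul_lt_top ENNReal.ofReal_lt_top h1

/-! ### poles -/

/-- `|v-u|^{-a}` -/
def pa (a : ℝ) (u v : R3) : ℝ≥0∞ := ENNReal.ofReal ‖v - u‖ ^ (-a)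

@[fun_prop]
lemma measurable_pa (a : ℝ) (u : R3) : Measurable (pa a u) := by unfold pa; fun_prop

lemma pa_le_one {a : ℝ} (ha : 0 ≤ a) {u v : R3} (h : 1 ≤ ‖v - u‖) : pa a u v ≤ 1 := by
  unfold pa
  rw [ENNReal.rpow_neg]
  apply ENNReal.inv_le_one.2
  calc (1 : ℝ≥0∞) = 1 ^ a := (ENNReal.one_rpow a).symm
    _ ≤ _ := by
        apply ENNReal.rpow_le_rpow _ ha
        rwa [ENNReal.one_le_ofReal]

lemma pk_eq_pa (u v : R3) : pk ‖v - u‖ = pa (3 / 2) u v := rfl

/-- powers of `y = |v-u|^{-1/2}` -/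
lemma pa_eq_pow (n : ℕ) (u v : R3) : pa (n / 2) u v = pa (1 / 2) u v ^ n := by
  unfold pa
  rw [← ENNReal.rpow_natCast, ← ENNReal.rpow_mul]
  congr 1
  ring

lemma sq_le_add (y : ℝ≥0∞) : y ^ 2 ≤ 1 + y ^ 5 := by
  rcases le_total y 1 with h | h
  · exact (pow_le_one₀ zero_le h).trans le_self_add
  · exact (pow_le_pow_right₀ h (by norm_num)).trans le_add_self

lemma cube_le_add (y : ℝ≥0∞) : y ^ 3 ≤ 1 + y ^ 5 := by
  rcases le_total y 1 with h | h
  · exact (pow_le_one₀ zero_le h).trans le_self_add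
  · exact (pow_le_pow_right₀ h (by norm_num)).trans le_add_self

lemma mix_le_add (y z : ℝ≥0∞) : y ^ 3 * z ^ 2 ≤ y ^ 5 + z ^ 5 := by
  rcases le_total y z with h | h
  · calc y ^ 3 * z ^ 2 ≤ z ^ 3 * z ^ 2 := by gcongr
      _ = z ^ 5 := by ring
      _ ≤ _ := le_add_self
  · calc y ^ 3 * z ^ 2 ≤ y ^ 3 * y ^ 2 := by gcongr
      _ = y ^ 5 := by ring
      _ ≤ _ := le_self_add

/-- `(1 + Σ r_i^{-3/2}) (1 + Σ r_j^{-1}) ≤ (2+2m)(1 + Σ r_i^{-5/2})` -/
lemma Sw_mul_le {ι : Type} [Fintype ι] (u : ι → R3) (v : R3) :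
    Sw u v * (1 + ∑ i, pa 1 (u i) v) ≤
      (2 + 2 * Fintype.card ι) * (1 + ∑ i, pa (5 / 2) (u i) v) := by
  set y : ι → ℝ≥0∞ := fun i => pa (1 / 2) (u i) v with hy
  have e1 : ∀ i, pa 1 (u i) v = y i ^ 2 := fun i => by
    have := pa_eq_pow 2 (u i) v; norm_num at this; exact this
  have e2 : ∀ i, pk ‖v - u i‖ = y i ^ 3 := fun i => by
    rw [pk_eq_pa]; have := pa_eq_pow 3 (u i) v; norm_num at this; exact this
  have e3 : ∀ i, pa (5 / 2) (u i) v = y i ^ 5 := fun i => by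
    have := pa_eq_pow 5 (u i) v; norm_num at this; exact this
  unfold Sw
  simp_rw [e1, e2, e3]
  set m : ℝ≥0∞ := (Fintype.card ι : ℝ≥0∞) with hm
  set S5 : ℝ≥0∞ := ∑ i, y i ^ 5 with hS5
  have h2 : ∑ i, y i ^ 2 ≤ m + S5 := by
    calc ∑ i, y i ^ 2 ≤ ∑ i, (1 + y i ^ 5) := Finset.sum_le_sum fun i _ => sq_le_add _
      _ = m + S5 := by
        rw [Finset.sum_add_distrib, Finset.sum_const, Finset.card_univ, nsmul_eq_mul, mul_one]
  have h3 : ∑ i, y i ^ 3 ≤ m + S5 := by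
    calc ∑ i, y i ^ 3 ≤ ∑ i, (1 + y i ^ 5) := Finset.sum_le_sum fun i _ => cube_le_add _
      _ = m + S5 := by
        rw [Finset.sum_add_distrib, Finset.sum_const, Finset.card_univ, nsmul_eq_mul, mul_one]
  have h4 : (∑ i, y i ^ 3) * ∑ j, y j ^ 2 ≤ 2 * m * S5 := by
    rw [Finset.sum_mul_sum]
    calc ∑ i, ∑ j, y i ^ 3 * y j ^ 2 ≤ ∑ i, ∑ j, (y i ^ 5 + y j ^ 5) :=
          Finset.sum_le_sum fun i _ => Finset.sum_le_sum fun j _ => mix_le_add _ _
      _ = 2 * m * S5 := by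
        simp_rw [Finset.sum_add_distrib, Finset.sum_const, Finset.card_univ, nsmul_eq_mul]
        rw [← Finset.mul_sum]
        ring
  calc (1 + ∑ i, y i ^ 3) * (1 + ∑ j, y j ^ 2)
      = 1 + ∑ i, y i ^ 3 + ∑ j, y j ^ 2 + (∑ i, y i ^ 3) * ∑ j, y j ^ 2 := by ring
    _ ≤ 1 + (m + S5) + (m + S5) + 2 * m * S5 := by gcongr
    _ ≤ 1 + (m + S5) + (m + S5) + 2 * m * S5 + 1 := le_self_add
    _ = (2 + 2 * m) * (1 + S5) := by ring

/-- moments with poles -/
theorem lint_poles (k : ℕ) : ∃ C : ℝ≥0∞, C < ⊤ ∧ ∀ {ι : Type} [Fintype ι] (u : ι → R3),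
    ∫⁻ v, qv v ^ k * em v * (1 + ∑ i, pa (5 / 2) (u i) v) ≤ C * (1 + Fintype.card ι) := by
  refine ⟨JJ k + ENNReal.ofReal (Real.exp 1 * k.factorial) * ENNReal.ofReal (8 * π),
    ENNReal.add_lt_top.2 ⟨JJ_lt_top k, ENNReal.mul_lt_top ENNReal.ofReal_lt_top
      ENNReal.ofReal_lt_top⟩, ?_⟩
  intro ι _ u
  set B : R3 → ℝ≥0∞ := (ball (0 : R3) 1).indicator (fun z => ENNReal.ofReal ‖z‖ ^ (-(5 / 2) : ℝ))
    with hB
  have hBm : Measurable B := Measurable.indicator (by fun_prop) measurableSet_ball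
  have hle : ∀ i v, pa (5 / 2) (u i) v ≤ 1 + B (v - u i) := by
    intro i v
    by_cases hv : v - u i ∈ ball (0 : R3) 1
    · rw [hB, indicator_of_mem hv]
      exact le_add_self
    · have : 1 ≤ ‖v - u i‖ := not_lt.1 fun h => hv (mem_ball_zero_iff.2 h)
      exact (pa_le_one (by norm_num) this).trans le_self_add
  set C0 : ℝ≥0∞ := ENNReal.ofReal (Real.exp 1 * k.factorial) with hC0
  have hwm : Measurable fun v => qv v ^ k * em v := by fun_prop
  calc ∫⁻ v, qv v ^ k * em v * (1 + ∑ i, pa (5 / 2) (u i) v)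
      ≤ ∫⁻ v, ((1 + Fintype.card ι) * (qv v ^ k * em v) + C0 * ∑ i, B (v - u i)) := by
        refine lintegral_mono fun v => ?_
        calc qv v ^ k * em v * (1 + ∑ i, pa (5 / 2) (u i) v)
            ≤ qv v ^ k * em v * (1 + ∑ i, (1 + B (v - u i))) := by
              gcongr with i _; exact hle i v
          _ = (1 + Fintype.card ι) * (qv v ^ k * em v) +
              (qv v ^ k * em v) * ∑ i, B (v - u i) := by
              rw [Finset.sum_add_distrib, Finset.sum_const, Finset.card_univ, nsmul_eq_mul, mul_one]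
              ring
          _ ≤ _ := by gcongr; exact qv_pow_em_le k v
    _ = (1 + Fintype.card ι) * JJ k + C0 * ∑ i : ι, ENNReal.ofReal (8 * π) := by
        rw [lintegral_add_left (hwm.const_mul _), lintegral_const_mul _ hwm, JJ,
          lintegral_const_mul]
        · congr 2
          rw [lintegral_finsetSum]
          · refine Finset.sum_congr rfl fun i _ => ?_
            rw [lintegral_sub_right_eq_self (fun v => B v) (u i), lintegral_ball_52]
          · intro i _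
            exact hBm.comp (by fun_prop)
        · exact Finset.measurable_sum _ fun i _ => hBm.comp (by fun_prop)
    _ = (1 + Fintype.card ι) * JJ k + C0 * (Fintype.card ι * ENNReal.ofReal (8 * π)) := by
        rw [Finset.sum_const, Finset.card_univ, nsmul_eq_mul]
    _ ≤ (1 + Fintype.card ι) * JJ k + C0 * ((1 + Fintype.card ι) * ENNReal.ofReal (8 * π)) := by
        gcongr; exact le_add_self
    _ = _ := by ring

/-! ### potential of a sphere -/

lemma lintegral_rpow_Ioo' {s b : ℝ} (hs : -1 < s) (hb : 0 ≤ b) :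
    ∫⁻ r in Ioo (0 : ℝ) b, ENNReal.ofReal (r ^ s) = ENNReal.ofReal (b ^ (s + 1) / (s + 1)) := by
  have h1 : IntervalIntegrable (fun r : ℝ => r ^ s) volume 0 b :=
    intervalIntegral.intervalIntegrable_rpow' hs
  have h2 : ∫ r in (0 : ℝ)..b, r ^ s = b ^ (s + 1) / (s + 1) := by
    rw [integral_rpow (Or.inl hs), Real.zero_rpow (by linarith)]
    ring
  rw [← h2, intervalIntegral.integral_of_le hb, integral_Ioc_eq_integral_Ioo,
    ofReal_integral_eq_lintegral_ofReal]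
  · exact (h1.1).mono_set Ioo_subset_Ioc_self
  · filter_upwards [ae_restrict_mem measurableSet_Ioo] with r hr
    exact Real.rpow_nonneg hr.1.le s

lemma lint_arc : ∫⁻ t in Ioo (-1 : ℝ) 1, ENNReal.ofReal (√(1 - t ^ 2)) ^ (-1 : ℝ) ≤
    ENNReal.ofReal (4 * √2) := by
  have h0 : ∀ t ∈ Ioo (-1 : ℝ) 1, ENNReal.ofReal (√(1 - t ^ 2)) ^ (-1 : ℝ) ≤
      ENNReal.ofReal ((1 - t) ^ (-(1 / 2) : ℝ)) + ENNReal.ofReal ((t + 1) ^ (-(1 / 2) : ℝ)) := by
    intro t ht
    have h1 : 0 < 1 - t := by linarith [ht.2]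
    have h2 : 0 < t + 1 := by linarith [ht.1]
    have h3 : 0 < 1 - t ^ 2 := by nlinarith
    rw [ENNReal.ofReal_rpow_of_pos (Real.sqrt_pos.2 h3), Real.sqrt_eq_rpow, ← Real.rpow_mul h3.le]
    rw [show (1 / 2 : ℝ) * -1 = -(1 / 2) by norm_num]
    rcases le_total t 0 with h | h
    · refine le_trans ?_ le_add_self
      apply ENNReal.ofReal_le_ofReal
      apply Real.rpow_le_rpow_of_nonpos h2 (by nlinarith) (by norm_num)
    · refine le_trans ?_ le_self_add
      apply ENNReal.ofReal_le_ofReal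
      apply Real.rpow_le_rpow_of_nonpos h1 (by nlinarith) (by norm_num)
  calc _ ≤ ∫⁻ t in Ioo (-1 : ℝ) 1, (ENNReal.ofReal ((1 - t) ^ (-(1 / 2) : ℝ)) +
        ENNReal.ofReal ((t + 1) ^ (-(1 / 2) : ℝ))) := setLIntegral_mono' measurableSet_Ioo h0
    _ = (∫⁻ t in Ioo (-1 : ℝ) 1, ENNReal.ofReal ((1 - t) ^ (-(1 / 2) : ℝ))) +
        ∫⁻ t in Ioo (-1 : ℝ) 1, ENNReal.ofReal ((t + 1) ^ (-(1 / 2) : ℝ)) := by
        rw [lintegral_add_left (by fun_prop)]
    _ = ENNReal.ofReal (2 * √2) + ENNReal.ofReal (2 * √2) := by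
        have hI : ∫⁻ r in Ioo (0 : ℝ) 2, ENNReal.ofReal (r ^ (-(1 / 2) : ℝ)) =
            ENNReal.ofReal (2 * √2) := by
          rw [lintegral_rpow_Ioo' (by norm_num) (by norm_num)]
          congr 1
          rw [Real.sqrt_eq_rpow]; norm_num; ring
        congr 1
        · rw [← hI]
          have := (Measure.measurePreserving_sub_left (volume : Measure ℝ) 1).setLIntegral_comp_preimage_emb
            (MeasurableEquiv.subLeft (1 : ℝ)).measurableEmbedding
            (fun r => ENNReal.ofReal (r ^ (-(1 / 2) : ℝ))) (Ioo 0 2)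
          rw [← this]
          congr 2
          ext t
          simp only [mem_preimage, mem_Ioo]
          constructor <;> rintro ⟨h1, h2⟩ <;> constructor <;> linarith
        · rw [← hI]
          have := (measurePreserving_add_right (volume : Measure ℝ) 1).setLIntegral_comp_preimage_emb
            (measurableEmbedding_addRight 1)
            (fun r => ENNReal.ofReal (r ^ (-(1 / 2) : ℝ))) (Ioo 0 2)
          rw [← this]
          congr 2
          ext t
          simp only [mem_preimage, mem_Ioo]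
          constructor <;> rintro ⟨h1, h2⟩ <;> constructor <;> linarith
    _ = _ := by rw [← ENNReal.ofReal_add (by positivity) (by positivity)]; congr 1; ring

end Crest.Agent.R68.I
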