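import Crest.Agent.R68.IntA

/-!
Row 68, PART I (helper858), module 5: gain against a pole, profile bound.
-/

set_option autoImplicit false
open MeasureTheory Set Filter Metric
open scoped ENNReal Topology Real
open Crest.AnalysisR.VecCalc3 Crest.AnalysisR.PDE.Boltzmann

noncomputable section

namespace Crest.Agent.R68.I

open Crest.Agent.R68.K2

/-- constant of the sphere potential -/
def Csph : ℝ≥0∞ := ENNReal.ofReal (2 * π) * ENNReal.ofReal (4 * √2)

lemma Csph_lt_top : Csph < ⊤ := ENNReal.mul_lt_top ENNReal.ofReal_lt_top ENNReal.ofReal_lt_top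

lemma sphere_potential {ρ : ℝ} (hρ : 0 ≤ ρ) (a : R3) :
    ENNReal.ofReal ρ * ∫⁻ s, ENNReal.ofReal ‖a + ρ • s‖ ^ (-1 : ℝ) ∂sphereMeasure ≤ Csph := by
  rcases hρ.eq_or_lt with h0 | h0
  · rw [← h0]; simp
  obtain ⟨e, he, hae⟩ : ∃ e : R3, ‖e‖ = 1 ∧ a = ‖a‖ • e := by
    by_cases ha : a = 0
    · exact ⟨ez, norm_ez, by rw [ha]; simp⟩
    · refine ⟨‖a‖⁻¹ • a, ?_, ?_⟩
      · rw [norm_smul, norm_inv, norm_norm, inv_mul_cancel₀ (norm_ne_zero_iff.2 ha)]
      · rw [smul_smul, mul_inv_cancel₀ (norm_ne_zero_iff.2 ha), one_smul]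
  set f : ℝ → ℝ≥0∞ := fun t => ENNReal.ofReal (√(1 - t ^ 2)) ^ (-1 : ℝ) with hf
  have hfm : Measurable f := by rw [hf]; fun_prop
  have h1 : ∀ᵐ s ∂sphereMeasure, ENNReal.ofReal ‖a + ρ • s‖ ^ (-1 : ℝ) ≤
      (ENNReal.ofReal ρ)⁻¹ * f (inner ℝ e s) := by
    filter_upwards [ae_sphereMeasure] with s hs
    have h2 : ρ * √(1 - (inner ℝ e s : ℝ) ^ 2) ≤ ‖a + ρ • s‖ := by
      apply le_of_sq_le_sq _ (norm_nonneg _)
      have h3 : (inner ℝ e s : ℝ) ^ 2 ≤ 1 := by
        have := abs_real_inner_le_norm e s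
        rw [he, hs, mul_one] at this
        rw [← sq_abs]
        exact pow_le_one₀ (abs_nonneg _) this
      rw [mul_pow, Real.sq_sqrt (by linarith), norm_add_sq_real, norm_smul, hs, mul_one,
        inner_smul_right, Real.norm_of_nonneg h0.le]
      have h4 : (inner ℝ a s : ℝ) = ‖a‖ * inner ℝ e s := by
        conv_lhs => rw [hae]
        rw [real_inner_smul_left]
      rw [h4]
      nlinarith [sq_nonneg (‖a‖ + ρ * (inner ℝ e s : ℝ))]
    have h5 : (ENNReal.ofReal ρ)⁻¹ = ENNReal.ofReal ρ ^ (-1 : ℝ) := (ENNReal.rpow_neg_one _).symm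
    rw [h5, hf]
    simp only
    rw [← ENNReal.mul_rpow_of_ne_top ENNReal.ofReal_ne_top ENNReal.ofReal_ne_top,
      ← ENNReal.ofReal_mul h0.le, ENNReal.rpow_neg_one, ENNReal.rpow_neg_one]
    exact ENNReal.inv_le_inv.2 (ENNReal.ofReal_le_ofReal h2)
  calc _ ≤ ENNReal.ofReal ρ * ∫⁻ s, (ENNReal.ofReal ρ)⁻¹ * f (inner ℝ e s) ∂sphereMeasure := by
        exact mul_le_mul' le_rfl (lintegral_mono_ae h1)
    _ = ENNReal.ofReal ρ * ((ENNReal.ofReal ρ)⁻¹ * ∫⁻ s, f (inner ℝ e s) ∂sphereMeasure) := by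
        have hfm2 : Measurable fun s : R3 => f (inner ℝ e s) := hfm.comp (by fun_prop)
        rw [lintegral_const_mul _ hfm2]
    _ = ∫⁻ s, f (inner ℝ e s) ∂sphereMeasure := by
        rw [← mul_assoc, ENNReal.mul_inv_cancel (by simpa using h0) ENNReal.ofReal_ne_top, one_mul]
    _ = ENNReal.ofReal (2 * π) * ∫⁻ t in Ioo (-1 : ℝ) 1, f t := lintegral_sphere_inner he hfm
    _ ≤ Csph := by
        unfold Csph
        gcongr
        exact lint_arc

lemma measurable_Qp' {f g : R3 → ℝ≥0∞} (hf : Measurable f) (hg : Measurable g) :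
    Measurable (Qp f g) := R68.measurable_Qp hf hg

lemma measurable_Lc' {g : R3 → ℝ≥0∞} (hg : Measurable g) : Measurable (Lc g) := by
  have : Lc g = fun v => ENNReal.ofReal (2 * π) * ∫⁻ vs, ENNReal.ofReal ‖v - vs‖ * g vs := by
    funext v; exact R68.Lc_eq hg v
  rw [this]
  refine Measurable.const_mul ?_ _
  exact Measurable.lintegral_prod_right' (f := fun p : R3 × R3 => ENNReal.ofReal ‖p.1 - p.2‖ * g p.2)
    (by fun_prop)

/-- gain against a pole -/
lemma lint_gain_pole {g : R3 → ℝ≥0∞} (hg : Measurable g) (u : R3) :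
    ∫⁻ v, pa 1 u v * Qp g g v ≤ Csph * (∫⁻ v, g v) ^ 2 := by
  rw [lintegral_mul_Qp_sigma (measurable_pa 1 u) hg hg]
  calc _ ≤ ∫⁻ v, ∫⁻ vs, g v * g vs * Csph := by
        refine lintegral_mono fun v => lintegral_mono fun vs => ?_
        refine mul_le_mul' le_rfl ?_
        have h := sphere_potential (ρ := ‖v - vs‖ / 2) (by positivity) ((1 / 2 : ℝ) • (v + vs) - u)
        refine le_trans (le_of_eq ?_) h
        congr 1
        refine lintegral_congr fun s => ?_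
        unfold pa
        congr 3
        abel
    _ = Csph * (∫⁻ v, g v) ^ 2 := by
        have h1 : ∀ v, ∫⁻ vs, g v * g vs * Csph = g v * (∫⁻ vs, g vs) * Csph := by
          intro v
          rw [lintegral_mul_const _ (hg.const_mul _), lintegral_const_mul _ hg]
        simp_rw [h1]
        rw [lintegral_mul_const _ (hg.mul_const _), lintegral_mul_const _ hg]
        ring

/-! ### moments -/

lemma Lc_le_qv {g : R3 → ℝ≥0∞} (hg : Measurable g) (v : R3) :
    Lc g v ≤ ENNReal.ofReal (2 * π) * (qv v * ∫⁻ vs, qv vs * g vs) := by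
  rw [R68.Lc_eq hg]
  gcongr
  rw [← lintegral_const_mul _ (by fun_prop)]
  refine lintegral_mono fun vs => ?_
  have : ENNReal.ofReal ‖v - vs‖ ≤ qv v * qv vs := by
    rw [qv_eq, qv_eq, ← ENNReal.ofReal_mul (by positivity)]
    apply ENNReal.ofReal_le_ofReal
    have := norm_sub_le v vs
    nlinarith [norm_nonneg v, norm_nonneg vs]
  calc _ ≤ qv v * qv vs * g vs := by gcongr
    _ = _ := by ring

/-- the weight `(1+|v|²)^{k/2}` -/
def wk (k : ℕ) (v : R3) : ℝ≥0∞ := ENNReal.ofReal ((1 + ‖v‖ ^ 2) ^ (k / 2 : ℝ))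

@[fun_prop]
lemma measurable_wk (k : ℕ) : Measurable (wk k) := by unfold wk; fun_prop

lemma wk_le_qv (k : ℕ) (v : R3) : wk k v ≤ qv v ^ k := by
  unfold wk
  rw [qv_eq, ← ENNReal.ofReal_pow (by positivity)]
  apply ENNReal.ofReal_le_ofReal
  have h0 : 0 ≤ 1 + ‖v‖ := by positivity
  have h1 : (1 + ‖v‖ ^ 2) ≤ (1 + ‖v‖) ^ 2 := by nlinarith [norm_nonneg v]
  calc (1 + ‖v‖ ^ 2) ^ (k / 2 : ℝ) ≤ ((1 + ‖v‖) ^ 2) ^ (k / 2 : ℝ) :=
        Real.rpow_le_rpow (by positivity) h1 (by positivity)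
    _ = (1 + ‖v‖) ^ k := by
        rw [← Real.rpow_natCast, ← Real.rpow_mul h0, ← Real.rpow_natCast]
        congr 1
        push_cast; ring

/-- weight after a collision -/
lemma wk_post_le (k : ℕ) {v vs w : R3} (hw : ‖w‖ = 1) :
    wk k (postVel v vs w) ≤ qv v ^ k * qv vs ^ k := by
  unfold wk
  rw [qv_eq, qv_eq, ← mul_pow, ← ENNReal.ofReal_mul (by positivity),
    ← ENNReal.ofReal_pow (by positivity)]
  apply ENNReal.ofReal_le_ofReal
  have h0 : 0 ≤ (1 + ‖v‖) * (1 + ‖vs‖) := by positivity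
  have h1 : 1 + ‖postVel v vs w‖ ^ 2 ≤ ((1 + ‖v‖) * (1 + ‖vs‖)) ^ 2 := by
    have h := post_norm_sq hw v vs
    have h2 : ‖postVel v vs w‖ ^ 2 ≤ ‖v‖ ^ 2 + ‖vs‖ ^ 2 := by
      have := sq_nonneg ‖postVelStar v vs w‖
      linarith
    have h3 : 0 ≤ ‖v‖ := norm_nonneg _
    have h4 : 0 ≤ ‖vs‖ := norm_nonneg _
    have h5 : (0:ℝ) ≤ ‖v‖ * ‖vs‖ := mul_nonneg h3 h4
    nlinarith [mul_nonneg h5 h3, mul_nonneg h5 h4, mul_nonneg h5 h5]
  calc (1 + ‖postVel v vs w‖ ^ 2) ^ (k / 2 : ℝ) ≤ (((1 + ‖v‖) * (1 + ‖vs‖)) ^ 2) ^ (k / 2 : ℝ) :=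
        Real.rpow_le_rpow (by positivity) h1 (by positivity)
    _ = ((1 + ‖v‖) * (1 + ‖vs‖)) ^ k := by
        rw [← Real.rpow_natCast, ← Real.rpow_mul h0, ← Real.rpow_natCast]
        congr 1
        push_cast; ring

lemma lint_wk_gain (k : ℕ) {g : R3 → ℝ≥0∞} (hg : Measurable g) :
    ∫⁻ v, wk k v * Qp g g v ≤ ENNReal.ofReal (2 * π) * (∫⁻ v, qv v ^ (k + 1) * g v) ^ 2 := by
  rw [lintegral_mul_Qp (measurable_wk k) hg hg]
  have hb : ∀ v vs : R3, ∫⁻ w, ENNReal.ofReal |inner ℝ (v - vs) w| * wk k (postVel v vs w)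
      ∂sphereMeasure ≤ ENNReal.ofReal (2 * π) * (qv v ^ (k + 1) * qv vs ^ (k + 1)) := by
    intro v vs
    calc _ ≤ ∫⁻ w, ENNReal.ofReal |inner ℝ (v - vs) w| * (qv v ^ k * qv vs ^ k) ∂sphereMeasure := by
          refine lintegral_mono_ae ?_
          filter_upwards [ae_sphereMeasure] with w hw
          gcongr
          exact wk_post_le k hw
      _ = ENNReal.ofReal (2 * π * ‖v - vs‖) * (qv v ^ k * qv vs ^ k) := lintegral_abs_inner_mul _ _
      _ ≤ ENNReal.ofReal (2 * π) * (qv v * qv vs) * (qv v ^ k * qv vs ^ k) := by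
          gcongr
          rw [ENNReal.ofReal_mul (by positivity)]
          gcongr
          rw [qv_eq, qv_eq, ← ENNReal.ofReal_mul (by positivity)]
          apply ENNReal.ofReal_le_ofReal
          have := norm_sub_le v vs
          nlinarith [norm_nonneg v, norm_nonneg vs]
      _ = _ := by ring
  calc _ ≤ ∫⁻ v, ∫⁻ vs, g v * g vs * (ENNReal.ofReal (2 * π) * (qv v ^ (k + 1) * qv vs ^ (k + 1))) :=
        lintegral_mono fun v => lintegral_mono fun vs => by gcongr; exact hb v vs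
    _ = ∫⁻ v, ∫⁻ vs, ENNReal.ofReal (2 * π) * (qv v ^ (k + 1) * g v) * (qv vs ^ (k + 1) * g vs) := by
        refine lintegral_congr fun v => lintegral_congr fun vs => ?_
        ring
    _ = _ := by
        have h1 : ∀ v, ∫⁻ vs, ENNReal.ofReal (2 * π) * (qv v ^ (k + 1) * g v) *
            (qv vs ^ (k + 1) * g vs) = ENNReal.ofReal (2 * π) * (qv v ^ (k + 1) * g v) *
              ∫⁻ vs, qv vs ^ (k + 1) * g vs := fun v => lintegral_const_mul _ (by fun_prop)
        simp_rw [h1]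
        rw [lintegral_mul_const _ (by fun_prop), lintegral_const_mul _ (by fun_prop)]
        ring

lemma lint_wk_loss (k : ℕ) {g : R3 → ℝ≥0∞} (hg : Measurable g) :
    ∫⁻ v, wk k v * (g v * Lc g v) ≤ ENNReal.ofReal (2 * π) * (∫⁻ v, qv v ^ (k + 1) * g v) ^ 2 := by
  have h0 : ∫⁻ vs, qv vs * g vs ≤ ∫⁻ v, qv v ^ (k + 1) * g v := by
    refine lintegral_mono fun v => ?_
    gcongr
    calc qv v = 1 * qv v := (one_mul _).symm
      _ ≤ qv v ^ k * qv v := by gcongr; exact one_le_pow₀ (one_le_qv v)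
      _ = qv v ^ (k + 1) := (pow_succ _ _).symm
  calc _ ≤ ∫⁻ v, ENNReal.ofReal (2 * π) * (∫⁻ v, qv v ^ (k + 1) * g v) * (qv v ^ (k + 1) * g v) := by
        refine lintegral_mono fun v => ?_
        calc wk k v * (g v * Lc g v) ≤ qv v ^ k * (g v * (ENNReal.ofReal (2 * π) *
              (qv v * ∫⁻ vs, qv vs * g vs))) := by
              gcongr
              · exact wk_le_qv k v
              · exact Lc_le_qv hg v
          _ ≤ qv v ^ k * (g v * (ENNReal.ofReal (2 * π) *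
              (qv v * ∫⁻ v, qv v ^ (k + 1) * g v))) := by gcongr
          _ = _ := by ring
    _ = _ := by
        rw [lintegral_const_mul _ (by fun_prop)]
        ring

end Crest.Agent.R68.I
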