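import Crest.Agent.R68.IntB

/-!
Row 68, PART I (helper858), module 6: the profile bound (weights `(1+|v|²)^{k/2} + log(1+g)`).
-/

set_option autoImplicit false
open MeasureTheory Set Filter Metric
open scoped ENNReal Topology Real
open Crest.AnalysisR.VecCalc3 Crest.AnalysisR.PDE.Boltzmann

noncomputable section

namespace Crest.Agent.R68.I

open Crest.Agent.R68.K2

lemma em_le_one (v : R3) : em v ≤ 1 := by
  unfold em
  rw [ENNReal.ofReal_le_one, Real.exp_le_one_iff]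
  simp

lemma lg_Sw_le {ι : Type} [Fintype ι] (u : ι → R3) (v : R3) :
    lg (Sw u v) ≤ ENNReal.ofReal (3 / 2) * (1 + ∑ i, pa 1 (u i) v) := by
  unfold Sw
  refine (lg_add_le _ _).trans ?_
  have h1 : lg (∑ i, pk ‖v - u i‖) ≤ ∑ i, lg (pk ‖v - u i‖) := by
    classical
    induction (Finset.univ : Finset ι) using Finset.induction_on with
    | empty => simp
    | insert a s ha ih =>
      rw [Finset.sum_insert ha, Finset.sum_insert ha]
      exact (lg_add_le _ _).trans (by gcongr)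
  have h2 : lg 1 ≤ ENNReal.ofReal (3 / 2) := by
    refine (lg_le_self 1).trans ?_
    rw [ENNReal.one_le_ofReal]; norm_num
  calc lg 1 + lg (∑ i, pk ‖v - u i‖) ≤ ENNReal.ofReal (3 / 2) +
        ∑ i, ENNReal.ofReal (3 / 2) * pa 1 (u i) v := by
        gcongr
        refine h1.trans (Finset.sum_le_sum fun i _ => ?_)
        exact lg_pk_le _
    _ = _ := by rw [← Finset.mul_sum]; ring

lemma lg_h_le {ι : Type} [Fintype ι] (u : ι → R3) {A : ℝ≥0∞} {a : ℝ≥0∞} {v : R3}
    (h : a ≤ A * (Sw u v * em v)) :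
    lg a ≤ (A + ENNReal.ofReal (3 / 2)) * (1 + ∑ i, pa 1 (u i) v) := by
  calc lg a ≤ lg (A * (Sw u v * em v)) := lg_mono h
    _ ≤ lg (A * Sw u v) := by
        apply lg_mono
        gcongr
        calc Sw u v * em v ≤ Sw u v * 1 := by gcongr; exact em_le_one v
          _ = _ := mul_one _
    _ ≤ lg A + lg (Sw u v) := lg_mul_le _ _
    _ ≤ A * 1 + ENNReal.ofReal (3 / 2) * (1 + ∑ i, pa 1 (u i) v) := by
        gcongr
        · rw [mul_one]; exact lg_le_self A
        · exact lg_Sw_le u v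
    _ ≤ A * (1 + ∑ i, pa 1 (u i) v) + ENNReal.ofReal (3 / 2) * (1 + ∑ i, pa 1 (u i) v) := by
        gcongr; exact le_self_add
    _ = _ := by ring

/-- **profile bound** -/
theorem profile_bound (R : ℝ) (hR : 0 ≤ R) {A : ℝ≥0∞} (hA : A ≠ ⊤) (k M : ℕ) :
    ∃ C : ℝ≥0∞, C < ⊤ ∧ ∀ {ι : Type} [Fintype ι], Fintype.card ι ≤ M → ∀ (u : ι → R3)
      {c h g : R3 → ℝ≥0∞}, Measurable c → Measurable h → Measurable g →
      (∀ v, c v ≠ 0 → ‖v‖ ≤ R) → (∀ v, h v ≤ A * (Sw u v * em v)) →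
      ∀ {Ψ n : ℝ≥0∞}, (∀ v, lg (c v) ≤ Ψ) → (∫⁻ v, c v ≤ n) → (∀ v, g v ≤ c v + h v) →
      ∫⁻ v, (wk k v + lg (g v)) * (Qp g g v + g v * Lc g v) ≤ C * ((1 + Ψ) * (1 + n) ^ 2) := by
  choose J hJ hJ' using fun j => lint_poles j
  set A' : ℝ≥0∞ := A + ENNReal.ofReal (3 / 2) with hA'
  have hA't : A' ≠ ⊤ := by rw [hA']; finiteness
  -- moment constants
  set K : ℕ → ℝ≥0∞ := fun j => ENNReal.ofReal (1 + R) ^ j + A * ((2 + 2 * M) * (J j * (1 + M)))
    with hK
  have hKt : ∀ j, K j < ⊤ := by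
    intro j
    rw [hK]
    refine ENNReal.add_lt_top.2 ⟨ENNReal.pow_lt_top ENNReal.ofReal_lt_top,
      ENNReal.mul_lt_top hA.lt_top (ENNReal.mul_lt_top (by finiteness)
        (ENNReal.mul_lt_top (hJ j) (by finiteness)))⟩
  set D : ℝ≥0∞ := 2 * ENNReal.ofReal (1 + R) + 2 * (A * (A' * ((2 + 2 * M) * (J 1 * (1 + M)))))
    with hD
  have hDt : D < ⊤ := by
    rw [hD]
    refine ENNReal.add_lt_top.2 ⟨by finiteness, ENNReal.mul_lt_top (by finiteness)
      (ENNReal.mul_lt_top hA.lt_top (ENNReal.mul_lt_top hA't.lt_top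
        (ENNReal.mul_lt_top (by finiteness) (ENNReal.mul_lt_top (hJ 1) (by finiteness)))))⟩
  set P2 : ℝ≥0∞ := ENNReal.ofReal (2 * π) with hP2
  have hP2t : P2 < ⊤ := ENNReal.ofReal_lt_top
  refine ⟨P2 * K (k + 1) ^ 2 + P2 * K (k + 1) ^ 2 + ((1 + A') * (P2 * K 1 ^ 2) +
    A' * (M * (Csph * K 0 ^ 2))) + P2 * (K 1 * D), ?_, ?_⟩
  · have h1 := (hKt (k + 1)).ne
    have h2 := (hKt 1).ne
    have h3 := (hKt 0).ne
    have h4 := Csph_lt_top.ne
    have h5 := hDt.ne
    have h6 := hP2t.ne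
    have a1 : P2 * K (k + 1) ^ 2 ≠ ⊤ := ENNReal.mul_ne_top h6 (ENNReal.pow_ne_top h1)
    have a2 : (1 + A') * (P2 * K 1 ^ 2) ≠ ⊤ := ENNReal.mul_ne_top
      (ENNReal.add_ne_top.2 ⟨ENNReal.one_ne_top, hA't⟩)
      (ENNReal.mul_ne_top h6 (ENNReal.pow_ne_top h2))
    have a3 : A' * (M * (Csph * K 0 ^ 2)) ≠ ⊤ := ENNReal.mul_ne_top hA't
      (ENNReal.mul_ne_top (ENNReal.natCast_ne_top M) (ENNReal.mul_ne_top h4 (ENNReal.pow_ne_top h3)))
    have a4 : P2 * (K 1 * D) ≠ ⊤ := ENNReal.mul_ne_top h6 (ENNReal.mul_ne_top h2 h5)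
    exact lt_top_iff_ne_top.2 (ENNReal.add_ne_top.2 ⟨ENNReal.add_ne_top.2
      ⟨ENNReal.add_ne_top.2 ⟨a1, a1⟩, ENNReal.add_ne_top.2 ⟨a2, a3⟩⟩, a4⟩)
  intro ι _ hcard u c h g hcm hhm hgm hc hh Ψ n hΨ hn hg
  have hcard' : (Fintype.card ι : ℝ≥0∞) ≤ M := by exact_mod_cast hcard
  -- moments
  have hcq : ∀ j v, qv v ^ j * c v ≤ ENNReal.ofReal (1 + R) ^ j * c v := by
    intro j v
    by_cases hv : c v = 0
    · simp [hv]
    · gcongr
      rw [qv_eq]
      apply ENNReal.ofReal_le_ofReal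
      linarith [hc v hv]
  have hSw1 : ∀ v, Sw u v ≤ (2 + 2 * M) * (1 + ∑ i, pa (5 / 2) (u i) v) := by
    intro v
    calc Sw u v = Sw u v * 1 := (mul_one _).symm
      _ ≤ Sw u v * (1 + ∑ i, pa 1 (u i) v) := by gcongr; exact le_self_add
      _ ≤ _ := Sw_mul_le u v
      _ ≤ _ := by gcongr
  have mom : ∀ j, ∫⁻ v, qv v ^ j * g v ≤ K j * (1 + n) := by
    intro j
    calc ∫⁻ v, qv v ^ j * g v ≤ ∫⁻ v, (ENNReal.ofReal (1 + R) ^ j * c v +
          A * ((2 + 2 * M) * (qv v ^ j * em v * (1 + ∑ i, pa (5 / 2) (u i) v)))) := by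
          refine lintegral_mono fun v => ?_
          calc qv v ^ j * g v ≤ qv v ^ j * (c v + h v) := by gcongr; exact hg v
            _ = qv v ^ j * c v + qv v ^ j * h v := mul_add _ _ _
            _ ≤ ENNReal.ofReal (1 + R) ^ j * c v + qv v ^ j * (A * (((2 + 2 * M) *
                (1 + ∑ i, pa (5 / 2) (u i) v)) * em v)) := by
                refine add_le_add (hcq j v) ?_
                gcongr
                exact (hh v).trans (by gcongr; exact hSw1 v)
            _ = _ := by ring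
      _ = ENNReal.ofReal (1 + R) ^ j * (∫⁻ v, c v) +
          A * ((2 + 2 * M) * ∫⁻ v, qv v ^ j * em v * (1 + ∑ i, pa (5 / 2) (u i) v)) := by
          rw [lintegral_add_left (by fun_prop), lintegral_const_mul _ hcm,
            lintegral_const_mul' _ _ hA, lintegral_const_mul' _ _ (by finiteness)]
      _ ≤ ENNReal.ofReal (1 + R) ^ j * n + A * ((2 + 2 * M) * (J j * (1 + M))) := by
          gcongr
          exact (hJ' j u).trans (by gcongr)
      _ ≤ ENNReal.ofReal (1 + R) ^ j * (1 + n) + A * ((2 + 2 * M) * (J j * (1 + M))) * (1 + n) := by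
          refine add_le_add ?_ (le_mul_of_one_le_right zero_le le_self_add)
          gcongr
          exact le_add_self
      _ = _ := by rw [hK]; ring
  have hlgg : ∀ v, lg (g v) ≤ Ψ + A' * (1 + ∑ i, pa 1 (u i) v) := by
    intro v
    calc lg (g v) ≤ lg (c v + h v) := lg_mono (hg v)
      _ ≤ lg (c v) + lg (h v) := lg_add_le _ _
      _ ≤ _ := by gcongr; exacts [hΨ v, lg_h_le u (hh v)]
  have mQ := measurable_Qp' hgm hgm
  have mL := measurable_Lc' hgm
  -- total gain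
  have hgain0 : ∫⁻ v, Qp g g v ≤ P2 * (K 1 * (1 + n)) ^ 2 := by
    have h1 := lint_wk_gain 0 hgm
    have h2 : ∀ v, wk 0 v = 1 := by intro v; simp [wk]
    simp only [h2, one_mul, zero_add] at h1
    refine h1.trans ?_
    gcongr
    exact mom 1
  have hg0 : ∫⁻ v, g v ≤ K 0 * (1 + n) := by
    have := mom 0
    simpa using this
  -- four terms
  have T1 : ∫⁻ v, wk k v * Qp g g v ≤ P2 * (K (k + 1) * (1 + n)) ^ 2 :=
    (lint_wk_gain k hgm).trans (by gcongr; exact mom (k + 1))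
  have T2 : ∫⁻ v, wk k v * (g v * Lc g v) ≤ P2 * (K (k + 1) * (1 + n)) ^ 2 :=
    (lint_wk_loss k hgm).trans (by gcongr; exact mom (k + 1))
  have T3 : ∫⁻ v, lg (g v) * Qp g g v ≤ (Ψ + A') * (P2 * (K 1 * (1 + n)) ^ 2) +
      A' * (M * (Csph * (K 0 * (1 + n)) ^ 2)) := by
    calc ∫⁻ v, lg (g v) * Qp g g v ≤ ∫⁻ v, ((Ψ + A') * Qp g g v +
          A' * ∑ i, pa 1 (u i) v * Qp g g v) := by
          refine lintegral_mono fun v => ?_
          calc lg (g v) * Qp g g v ≤ (Ψ + A' * (1 + ∑ i, pa 1 (u i) v)) * Qp g g v := by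
                gcongr; exact hlgg v
            _ = _ := by rw [← Finset.sum_mul]; ring
      _ = (Ψ + A') * (∫⁻ v, Qp g g v) + A' * ∑ i, ∫⁻ v, pa 1 (u i) v * Qp g g v := by
          rw [lintegral_add_left (by fun_prop), lintegral_const_mul _ mQ, lintegral_const_mul' _ _ hA't,
            lintegral_finsetSum]
          intro i _
          fun_prop
      _ ≤ (Ψ + A') * (P2 * (K 1 * (1 + n)) ^ 2) + A' * ∑ _i : ι, Csph * (K 0 * (1 + n)) ^ 2 := by
          gcongr with i _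
          exact (lint_gain_pole hgm (u i)).trans (by gcongr)
      _ ≤ _ := by
          rw [Finset.sum_const, Finset.card_univ, nsmul_eq_mul]
          gcongr
  have T4 : ∫⁻ v, lg (g v) * (g v * Lc g v) ≤ P2 * (K 1 * (1 + n)) * (D * ((1 + Ψ) * (1 + n))) := by
    have e1 : ∀ v, lg (g v) * (g v * Lc g v) ≤ P2 * (K 1 * (1 + n)) * (qv v * (g v * lg (g v))) := by
      intro v
      calc lg (g v) * (g v * Lc g v) ≤ lg (g v) * (g v * (P2 * (qv v * ∫⁻ vs, qv vs * g vs))) := by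
            gcongr; exact Lc_le_qv hgm v
        _ ≤ lg (g v) * (g v * (P2 * (qv v * (K 1 * (1 + n))))) := by
            gcongr
            have := mom 1
            simpa using this
        _ = _ := by ring
    have e2 : ∀ v, qv v * (g v * lg (g v)) ≤ 2 * (ENNReal.ofReal (1 + R) * (Ψ * c v)) +
        2 * (A * (A' * ((2 + 2 * M) * (qv v ^ 1 * em v * (1 + ∑ i, pa (5 / 2) (u i) v))))) := by
      intro v
      calc qv v * (g v * lg (g v)) ≤ qv v * ((c v + h v) * lg (c v + h v)) := by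
            gcongr
            · exact hg v
            · exact lg_mono (hg v)
        _ ≤ qv v * (2 * (c v * lg (c v)) + 2 * (h v * lg (h v))) := by
            gcongr; exact add_mul_lg_le _ _
        _ = 2 * ((qv v ^ 1 * c v) * lg (c v)) + 2 * (qv v * (h v * lg (h v))) := by ring
        _ ≤ 2 * ((ENNReal.ofReal (1 + R) ^ 1 * c v) * Ψ) + 2 * (qv v * ((A * (Sw u v * em v)) *
            (A' * (1 + ∑ i, pa 1 (u i) v)))) := by
            refine add_le_add (mul_le_mul' le_rfl (mul_le_mul' (hcq 1 v) (hΨ v)))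
              (mul_le_mul' le_rfl (mul_le_mul' le_rfl (mul_le_mul' (hh v) (lg_h_le u (hh v)))))
        _ = 2 * (ENNReal.ofReal (1 + R) * (Ψ * c v)) + 2 * (A * (A' * (qv v * em v *
            (Sw u v * (1 + ∑ i, pa 1 (u i) v))))) := by ring
        _ ≤ 2 * (ENNReal.ofReal (1 + R) * (Ψ * c v)) + 2 * (A * (A' * (qv v * em v *
            ((2 + 2 * M) * (1 + ∑ i, pa (5 / 2) (u i) v))))) := by
            refine add_le_add le_rfl (mul_le_mul' le_rfl (mul_le_mul' le_rfl (mul_le_mul' le_rfl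
              (mul_le_mul' le_rfl ?_))))
            exact (Sw_mul_le u v).trans (by gcongr)
        _ = _ := by ring
    have hlgm : Measurable fun v => lg (g v) := measurable_lg.comp hgm
    calc _ ≤ ∫⁻ v, P2 * (K 1 * (1 + n)) * (2 * (ENNReal.ofReal (1 + R) * (Ψ * c v)) +
        2 * (A * (A' * ((2 + 2 * M) * (qv v ^ 1 * em v * (1 + ∑ i, pa (5 / 2) (u i) v)))))) :=
          lintegral_mono fun v => (e1 v).trans (by gcongr; exact e2 v)
      _ = P2 * (K 1 * (1 + n)) * (2 * (ENNReal.ofReal (1 + R) * (Ψ * ∫⁻ v, c v)) +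
          2 * (A * (A' * ((2 + 2 * M) * ∫⁻ v, qv v ^ 1 * em v * (1 + ∑ i, pa (5 / 2) (u i) v))))) := by
          rw [lintegral_const_mul _ (by fun_prop), lintegral_add_left (by fun_prop),
            lintegral_const_mul _ (by fun_prop), lintegral_const_mul _ (by fun_prop),
            lintegral_const_mul _ (by fun_prop), lintegral_const_mul _ (by fun_prop),
            lintegral_const_mul _ (by fun_prop), lintegral_const_mul _ (by fun_prop),
            lintegral_const_mul _ (by fun_prop)]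
      _ ≤ P2 * (K 1 * (1 + n)) * (2 * (ENNReal.ofReal (1 + R) * (Ψ * n)) +
          2 * (A * (A' * ((2 + 2 * M) * (J 1 * (1 + M)))))) := by
          gcongr
          exact (hJ' 1 u).trans (by gcongr)
      _ ≤ P2 * (K 1 * (1 + n)) * (2 * (ENNReal.ofReal (1 + R) * ((1 + Ψ) * (1 + n))) +
          2 * (A * (A' * ((2 + 2 * M) * (J 1 * (1 + M))))) * ((1 + Ψ) * (1 + n))) := by
          refine mul_le_mul' le_rfl (add_le_add ?_ (le_mul_of_one_le_right zero_le ?_))
          · gcongr <;> exact le_add_self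
          · calc (1 : ℝ≥0∞) = 1 * 1 := (one_mul 1).symm
              _ ≤ _ := by gcongr <;> exact le_self_add
      _ = _ := by rw [hD]; ring
  have hlgm : Measurable fun v => lg (g v) := measurable_lg.comp hgm
  calc ∫⁻ v, (wk k v + lg (g v)) * (Qp g g v + g v * Lc g v)
      = (∫⁻ v, wk k v * Qp g g v) + (∫⁻ v, wk k v * (g v * Lc g v)) +
        (∫⁻ v, lg (g v) * Qp g g v) + ∫⁻ v, lg (g v) * (g v * Lc g v) := by
        rw [← lintegral_add_left (by fun_prop), ← lintegral_add_left (by fun_prop),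
          ← lintegral_add_left (by fun_prop)]
        refine lintegral_congr fun v => ?_
        ring
    _ ≤ P2 * (K (k + 1) * (1 + n)) ^ 2 + P2 * (K (k + 1) * (1 + n)) ^ 2 +
        ((Ψ + A') * (P2 * (K 1 * (1 + n)) ^ 2) + A' * (M * (Csph * (K 0 * (1 + n)) ^ 2))) +
        P2 * (K 1 * (1 + n)) * (D * ((1 + Ψ) * (1 + n))) := by gcongr
    _ ≤ P2 * K (k + 1) ^ 2 * ((1 + Ψ) * (1 + n) ^ 2) + P2 * K (k + 1) ^ 2 * ((1 + Ψ) * (1 + n) ^ 2) +
        ((1 + A') * (P2 * K 1 ^ 2) * ((1 + Ψ) * (1 + n) ^ 2) +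
          A' * (M * (Csph * K 0 ^ 2)) * ((1 + Ψ) * (1 + n) ^ 2)) +
        P2 * (K 1 * D) * ((1 + Ψ) * (1 + n) ^ 2) := by
        have hone : (1 : ℝ≥0∞) ≤ 1 + Ψ := le_self_add
        have b1 : ∀ X : ℝ≥0∞, X * (1 + n) ^ 2 ≤ X * ((1 + Ψ) * (1 + n) ^ 2) := by
          intro X
          calc X * (1 + n) ^ 2 = X * (1 * (1 + n) ^ 2) := by ring
            _ ≤ _ := by gcongr
        have b2 : Ψ + A' ≤ (1 + A') * (1 + Ψ) := by
          calc Ψ + A' ≤ Ψ + A' + (1 + A' * Ψ) := le_self_add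
            _ = _ := by ring
        gcongr ?_ + ?_ + (?_ + ?_) + ?_
        · rw [mul_pow, ← mul_assoc]; exact b1 _
        · rw [mul_pow, ← mul_assoc]; exact b1 _
        · calc (Ψ + A') * (P2 * (K 1 * (1 + n)) ^ 2) ≤ ((1 + A') * (1 + Ψ)) *
                (P2 * (K 1 * (1 + n)) ^ 2) := by gcongr
            _ = _ := by ring
        · calc A' * (M * (Csph * (K 0 * (1 + n)) ^ 2)) = A' * (M * (Csph * K 0 ^ 2)) * (1 + n) ^ 2 := by
                ring
            _ ≤ _ := b1 _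
        · apply le_of_eq; ring
    _ = _ := by ring

end Crest.Agent.R68.I
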