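import Crest.Agent.R68.IntC
import Crest.Agent.R68.ZDefs
import Crest.Agent.R68.A2
import Crest.Agent.R68.FCell

/-!
Row 68, PART I (helper858), module 7: from profile bounds to the space-time integral `MildG.int`.
-/

set_option autoImplicit false
open MeasureTheory Set Filter Metric
open scoped ENNReal Topology Real
open Crest.AnalysisR.VecCalc3 Crest.AnalysisR.PDE.Boltzmann

noncomputable section

namespace Crest.Agent.R68.I

open Crest.Agent.R68.K2 Crest.Agent.R68.A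

/-- `a b² ≤ a⁹ + b^{9/4}` -/
lemma mul_sq_le (a b : ℝ≥0∞) : a * b ^ 2 ≤ a ^ (9 : ℝ) + b ^ (9 / 4 : ℝ) := by
  by_cases hb0 : b = 0
  · subst hb0; simp
  by_cases ha0 : a = 0
  · subst ha0; simp
  rcases le_total a (b ^ (1 / 4 : ℝ)) with h | h
  · refine le_trans ?_ le_add_self
    calc a * b ^ 2 ≤ b ^ (1 / 4 : ℝ) * b ^ (2 : ℝ) := by
          gcongr
          norm_cast
      _ = b ^ (9 / 4 : ℝ) := by
          rw [← ENNReal.rpow_add_of_nonneg _ _ (by norm_num) (by norm_num)]; norm_num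
  · refine le_trans ?_ le_self_add
    have h2 : b ≤ a ^ (4 : ℝ) := by
      calc b = (b ^ (1 / 4 : ℝ)) ^ (4 : ℝ) := by rw [← ENNReal.rpow_mul]; norm_num
        _ ≤ _ := ENNReal.rpow_le_rpow h (by norm_num)
    calc a * b ^ 2 ≤ a ^ (1 : ℝ) * (a ^ (4 : ℝ)) ^ (2 : ℝ) := by
          rw [ENNReal.rpow_one]
          gcongr
          calc b ^ 2 = b ^ (2 : ℝ) := by norm_cast
            _ ≤ _ := ENNReal.rpow_le_rpow h2 (by norm_num)
      _ = a ^ (9 : ℝ) := by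
          rw [← ENNReal.rpow_mul, ← ENNReal.rpow_add_of_nonneg _ _ (by norm_num) (by norm_num)]
          norm_num

/-- space-time weight of the integral -/
lemma int_integrand_eq {G : ℝ → P2 → R3 → ℝ} {t : ℝ} {x : P2} {v : R3} (k : ℕ)
    (h0 : 0 ≤ G t x v) :
    ENNReal.ofReal ((1 + ‖v‖ ^ 2) ^ (k / 2 : ℝ) + Real.log (1 + G t x v)) *
      (gainG G t x v + lossG G t x v) =
    (wk k v + lg (ENNReal.ofReal (G t x v))) *
      (Qp (fun z => ENNReal.ofReal (G t x z)) (fun z => ENNReal.ofReal (G t x z)) v +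
        ENNReal.ofReal (G t x v) * Lc (fun z => ENNReal.ofReal (G t x z)) v) := by
  rw [ENNReal.ofReal_add (by positivity) (Real.log_nonneg (by linarith)), lg_ofReal h0]
  rfl

theorem int_of_profile {G : ℝ → P2 → R3 → ℝ}
    (hG : Measurable (fun p : ℝ × P2 × R3 => G p.1 p.2.1 p.2.2))
    (hG0 : ∀ t x v, 0 ≤ t → 0 ≤ G t x v) {T : ℝ} (k : ℕ) {M : ℕ} {R : ℝ} (hR : 0 ≤ R) {A : ℝ≥0∞}
    (hA : A ≠ ⊤) {c h : ℝ → P2 → R3 → ℝ≥0∞} {Ψ n : ℝ → P2 → ℝ≥0∞}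
    (hcm : ∀ t ∈ Ioo 0 T, ∀ x, Measurable (c t x)) (hhm : ∀ t ∈ Ioo 0 T, ∀ x, Measurable (h t x))
    (hc : ∀ t ∈ Ioo 0 T, ∀ x v, c t x v ≠ 0 → ‖v‖ ≤ R)
    (hh : ∀ t ∈ Ioo 0 T, ∀ x, ∃ (ι : Type) (_ : Fintype ι) (u : ι → R3), Fintype.card ι ≤ M ∧
      ∀ v, h t x v ≤ A * (Sw u v * em v))
    (hΨ : ∀ t ∈ Ioo 0 T, ∀ x v, lg (c t x v) ≤ Ψ t x)
    (hn : ∀ t ∈ Ioo 0 T, ∀ x, ∫⁻ v, c t x v ≤ n t x)
    (hGle : ∀ t ∈ Ioo 0 T, ∀ x v, ENNReal.ofReal (G t x v) ≤ c t x v + h t x v)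
    (hfin : ∫⁻ t in Ioo 0 T, ∫⁻ x in cellG, (1 + Ψ t x) * (1 + n t x) ^ 2 < ⊤) :
    (∫⁻ p in Ioo 0 T ×ˢ (cellG ×ˢ (Set.univ : Set R3)),
      ENNReal.ofReal ((1 + ‖p.2.2‖ ^ 2) ^ (k / 2 : ℝ) + Real.log (1 + G p.1 p.2.1 p.2.2)) *
        (gainG G p.1 p.2.1 p.2.2 + lossG G p.1 p.2.1 p.2.2)) < ⊤ := by
  obtain ⟨C, hC, hprof⟩ := profile_bound R hR hA k M
  set F : ℝ → P2 → R3 → ℝ≥0∞ := fun t x v => (wk k v + lg (ENNReal.ofReal (G t x v))) *
      (Qp (fun z => ENNReal.ofReal (G t x z)) (fun z => ENNReal.ofReal (G t x z)) v +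
        ENNReal.ofReal (G t x v) * Lc (fun z => ENNReal.ofReal (G t x z)) v) with hF
  have hGe : Meas3 (fun t x v => ENNReal.ofReal (G t x v)) := ENNReal.measurable_ofReal.comp hG
  have hFm : Measurable (fun p : ℝ × P2 × R3 => F p.1 p.2.1 p.2.2) := by
    have h1 : Measurable (fun p : ℝ × P2 × R3 => wk k p.2.2) := by fun_prop
    have h2 : Measurable (fun p : ℝ × P2 × R3 => lg (ENNReal.ofReal (G p.1 p.2.1 p.2.2))) :=
      measurable_lg.comp hGe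
    exact (h1.add h2).mul (Measurable.add (meas3_Qp hGe hGe) (Measurable.mul hGe (meas3_Lc hGe)))
  have e1 : (∫⁻ p in Ioo 0 T ×ˢ (cellG ×ˢ (Set.univ : Set R3)),
      ENNReal.ofReal ((1 + ‖p.2.2‖ ^ 2) ^ (k / 2 : ℝ) + Real.log (1 + G p.1 p.2.1 p.2.2)) *
        (gainG G p.1 p.2.1 p.2.2 + lossG G p.1 p.2.1 p.2.2)) =
      ∫⁻ p in Ioo 0 T ×ˢ (cellG ×ˢ (Set.univ : Set R3)), F p.1 p.2.1 p.2.2 := by
    refine setLIntegral_congr_fun (measurableSet_Ioo.prod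
      (measurableSet_cellG.prod MeasurableSet.univ)) fun p hp => ?_
    exact int_integrand_eq k (hG0 _ _ _ hp.1.1.le)
  rw [e1]
  have e2 : ∫⁻ p in Ioo 0 T ×ˢ (cellG ×ˢ (Set.univ : Set R3)), F p.1 p.2.1 p.2.2 =
      ∫⁻ t in Ioo 0 T, ∫⁻ x in cellG, ∫⁻ v, F t x v := by
    rw [show (volume : Measure (ℝ × P2 × R3)) = volume.prod (volume.prod volume) from rfl,
      ← Measure.prod_restrict, ← Measure.prod_restrict, Measure.restrict_univ,
      lintegral_prod _ hFm.aemeasurable]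
    refine lintegral_congr fun t => ?_
    rw [lintegral_prod]
    exact (hFm.comp (f := fun q : P2 × R3 => (t, q.1, q.2)) (by fun_prop)).aemeasurable
  rw [e2]
  refine lt_of_le_of_lt ?_ (ENNReal.mul_lt_top hC hfin)
  rw [← lintegral_const_mul' _ _ hC.ne]
  refine setLIntegral_mono' measurableSet_Ioo fun t ht => ?_
  rw [← lintegral_const_mul' _ _ hC.ne]
  refine lintegral_mono fun x => ?_
  obtain ⟨ι, _, u, hcard, hu⟩ := hh t ht x
  have hgm : Measurable fun z => ENNReal.ofReal (G t x z) := hGe.slice t x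
  exact hprof hcard u (hcm t ht x) (hhm t ht x) hgm (hc t ht x) hu (hΨ t ht x) (hn t ht x)
    (hGle t ht x)

end Crest.Agent.R68.I
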