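import Crest.Agent.R68.IntD
import Crest.Agent.R68.FSum
import Crest.Agent.R68.CSize1

/-!
Row 68, PART I (helper858), module 8: lattice/lane sums.
-/

set_option autoImplicit false
open MeasureTheory Set Filter Metric
open scoped ENNReal Topology Real
open Crest.AnalysisR.VecCalc3 Crest.AnalysisR.PDE.Boltzmann

noncomputable section

namespace Crest.Agent.R68.I

open Crest.Agent.R68.Fuel

variable {P : Par}

/-! ### lanes -/

lemma bj_pos (j : ℕ) : 0 < bj j := by unfold bj; positivity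

lemma bj_le_one (j : ℕ) : bj j ≤ 1 := Fuel.inv_le_one' j

/-- length of a lane -/
lemma volume_laneE_le {j : ℕ} (hj : 1 ≤ j) : volume (laneE j) ≤ ENNReal.ofReal (5 * bj j ^ (3 / 2 : ℝ)) := by
  have hjr : (1 : ℝ) ≤ j := by exact_mod_cast hj
  set n : ℝ := 2 * (j : ℝ) + 1 with hn
  have hn3 : 3 ≤ n := by rw [hn]; linarith
  set b : ℝ := √(1 / (2 * (j : ℝ) + 399 / 200)) with hb
  set B : ℝ := √(1 / (2 * (j : ℝ) + 1 / 200)) with hB
  have hb2 : b ^ 2 = 1 / (2 * (j : ℝ) + 399 / 200) := Real.sq_sqrt (by positivity)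
  have hB2 : B ^ 2 = 1 / (2 * (j : ℝ) + 1 / 200) := Real.sq_sqrt (by positivity)
  have hb0 : 0 < b := Real.sqrt_pos.2 (by positivity)
  have hB0 : 0 < B := Real.sqrt_pos.2 (by positivity)
  have hsub : laneE j ⊆ Ioo b B ∪ Ioo (-B) (-b) := by
    rintro a ⟨ha0, h1, h2⟩
    have ha2 : 0 < a ^ 2 := by positivity
    have h3 : |a| < B := by
      apply abs_lt_of_sq_lt_sq _ hB0.le
      rw [hB2, lt_div_iff₀ (by positivity)]
      rw [lt_div_iff₀ ha2] at h1
      linarith
    have h4 : b < |a| := by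
      apply lt_of_pow_lt_pow_left₀ 2 (abs_nonneg a)
      rw [hb2, sq_abs, div_lt_iff₀ (by positivity)]
      rw [div_lt_iff₀ ha2] at h2
      linarith
    rcases le_total 0 a with h | h
    · rw [abs_of_nonneg h] at h3 h4
      exact Or.inl ⟨h4, h3⟩
    · rw [abs_of_nonpos h] at h3 h4
      exact Or.inr ⟨by linarith, by linarith⟩
  have hlen : 2 * (B - b) ≤ 5 * bj j ^ (3 / 2 : ℝ) := by
    have h1 : (B - b) * (B + b) ≤ 5 / 2 / n ^ 2 := by
      have : (B - b) * (B + b) = B ^ 2 - b ^ 2 := by ring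
      rw [this, hB2, hb2, show 2 * (j : ℝ) + 399 / 200 = n + 199 / 200 by rw [hn]; ring,
        show 2 * (j : ℝ) + 1 / 200 = n - 199 / 200 by rw [hn]; ring,
        div_sub_div _ _ (by linarith) (by linarith), div_le_div_iff₀ (by nlinarith) (by positivity)]
      nlinarith
    have hs : 0 < √n := Real.sqrt_pos.2 (by linarith)
    have hs2 : √n ^ 2 = n := Real.sq_sqrt (by linarith)
    have h2 : 1 / (2 * √n) ≤ b := by
      rw [hb]
      apply Real.le_sqrt_of_sq_le
      rw [div_pow, one_pow, mul_pow, hs2]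
      apply one_div_le_one_div_of_le (by positivity)
      rw [hn]; linarith
    have h3 : 1 / √n ≤ B + b := by
      have hbB : b ≤ B := Real.sqrt_le_sqrt (by
        apply one_div_le_one_div_of_le (by positivity); linarith)
      have : 1 / √n = 1 / (2 * √n) + 1 / (2 * √n) := by field_simp; ring
      rw [this]; linarith
    have h4 : B - b ≤ 5 / 2 / n ^ 2 * √n := by
      have hbB : 0 ≤ B - b := sub_nonneg.2 (Real.sqrt_le_sqrt (by
        apply one_div_le_one_div_of_le (by positivity); linarith))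
      have h5 : (B - b) * (1 / √n) ≤ 5 / 2 / n ^ 2 := (mul_le_mul_of_nonneg_left h3 hbB).trans h1
      have h6 : (B - b) = (B - b) * (1 / √n) * √n := by field_simp
      rw [h6]
      gcongr
    have h7 : bj j ^ (3 / 2 : ℝ) = √n / n ^ 2 := by
      have hn0 : 0 < n := by linarith
      unfold bj
      rw [← hn, one_div, Real.inv_rpow hn0.le, Real.sqrt_eq_rpow, ← Real.rpow_natCast,
        ← Real.rpow_sub hn0, ← Real.rpow_neg hn0.le]
      norm_num
    rw [h7]
    calc 2 * (B - b) ≤ 2 * (5 / 2 / n ^ 2 * √n) := by linarith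
      _ = 5 * (√n / n ^ 2) := by ring
  calc volume (laneE j) ≤ volume (Ioo b B ∪ Ioo (-B) (-b)) := measure_mono hsub
    _ ≤ volume (Ioo b B) + volume (Ioo (-B) (-b)) := measure_union_le _ _
    _ = ENNReal.ofReal (2 * (B - b)) := by
        rw [Real.volume_Ioo, Real.volume_Ioo, show -b - -B = B - b by ring, ← ENNReal.ofReal_add]
        · congr 1; ring
        · exact sub_nonneg.2 (Real.sqrt_le_sqrt (by
            apply one_div_le_one_div_of_le (by positivity); linarith))
        · exact sub_nonneg.2 (Real.sqrt_le_sqrt (by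
            apply one_div_le_one_div_of_le (by positivity); linarith))
    _ ≤ _ := ENNReal.ofReal_le_ofReal hlen

lemma tsum_bj_lt_top {s : ℝ} (hs : 1 < s) : ∑' j : ℕ, ENNReal.ofReal (bj j ^ s) < ⊤ := by
  have h1 : Summable fun n : ℕ => 1 / ((n : ℝ) + 1) ^ s := by
    have := (Real.summable_one_div_nat_rpow (p := s)).2 hs
    have h2 := (summable_nat_add_iff 1).2 this
    simpa using h2
  have h2 : Summable fun j : ℕ => bj j ^ s := by
    refine Summable.of_nonneg_of_le (fun j => Real.rpow_nonneg (bj_pos j).le s) (fun j => ?_) h1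
    have hj : (0 : ℝ) ≤ j := Nat.cast_nonneg j
    unfold bj
    rw [Real.div_rpow zero_le_one (by positivity), Real.one_rpow]
    apply one_div_le_one_div_of_le (by positivity)
    apply Real.rpow_le_rpow (by positivity) (by linarith) (by linarith)
  exact h2.tsum_ofReal_lt_top

/-! ### zones -/

/-- spatial zone of lane `j` (one image) -/
def zx (P : Par) (j : ℕ) (t : ℝ) (y : P2) : Prop :=
  P.j0 ≤ j ∧ lab P t y ∈ laneE j ∧ |y.2| ≤ 2 * P.Y * (t + rr (lab P t y))

lemma measurable_lab (P : Par) : Measurable fun p : ℝ × P2 => lab P p.1 p.2 := by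
  unfold lab; fun_prop

lemma measurableSet_zx (P : Par) (j : ℕ) : MeasurableSet {p : ℝ × P2 | zx P j p.1 p.2} := by
  have h1 : {p : ℝ × P2 | zx P j p.1 p.2} = {_p : ℝ × P2 | P.j0 ≤ j} ∩
      ((fun p : ℝ × P2 => lab P p.1 p.2) ⁻¹' laneE j ∩
      {p : ℝ × P2 | |p.2.2| ≤ 2 * P.Y * (p.1 + rr (lab P p.1 p.2))}) := by
    ext p; rfl
  rw [h1]
  refine (MeasurableSet.const _).inter ((measurable_lab P (measurableSet_laneE j)).inter
    (measurableSet_le (by fun_prop) ?_))
  exact measurable_const.mul (measurable_fst.add (measurable_rr.comp (measurable_lab P)))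

lemma laneE_rr {j : ℕ} (hj : 1 ≤ j) {a : ℝ} (ha : a ∈ laneE j) : rr a ≤ 2 * bj j := by
  have h1 := laneE_upper ha
  have h2 : (1 : ℝ) ≤ j := by exact_mod_cast hj
  unfold rr bj
  rw [mul_one_div, le_div_iff₀ (by positivity)]
  nlinarith [sq_nonneg a]

/-- the area of a zone -/
lemma volume_zx_le (h : P.Ok) (j : ℕ) {t : ℝ} (ht : 0 ≤ t) :
    volume {y : P2 | zx P j t y} ≤
      ENNReal.ofReal (8 * P.Y * (t + bj j)) * (ENNReal.ofReal (1 + P.kap * t) *
        ENNReal.ofReal (5 * bj j ^ (3 / 2 : ℝ))) := by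
  by_cases hj : P.j0 ≤ j
  swap
  · have : {y : P2 | zx P j t y} = ∅ := by
      ext y; simp only [mem_ofPred_eq, mem_empty_iff_false, iff_false]
      exact fun hy => hj hy.1
    rw [this]; simp
  have hj1 : 1 ≤ j := (Ok.j1 h).trans hj
  have hY := h.Y0
  have hm : MeasurableSet {y : P2 | zx P j t y} := by
    have : Measurable fun y : P2 => (t, y) := by fun_prop
    exact this (measurableSet_zx P j)
  have hd := Ok.dlp h
  have hc := h.c0
  have hlab : ∀ y : P2, lab P t y = P.dl / (P.dl + P.c * t) * y.1 := fun y => by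
    unfold lab; ring
  set q : ℝ := P.dl / (P.dl + P.c * t) with hq
  have hq0 : 0 < q := by positivity
  have hqi : q⁻¹ = 1 + P.kap * t := by
    rw [hq, Par.kap, inv_div]; field_simp
  rw [show (volume : Measure P2) = (volume : Measure ℝ).prod volume from rfl,
    Measure.prod_apply hm]
  have hsec : ∀ y1 : ℝ, volume (Prod.mk y1 ⁻¹' {y : P2 | zx P j t y}) ≤
      ((fun y1 : ℝ => q * y1) ⁻¹' laneE j).indicator
        (fun _ => ENNReal.ofReal (8 * P.Y * (t + bj j))) y1 := by
    intro y1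
    by_cases hy : q * y1 ∈ laneE j
    · rw [indicator_of_mem (show y1 ∈ (fun y1 : ℝ => q * y1) ⁻¹' laneE j from hy)]
      have hr := laneE_rr hj1 hy
      have hsub : Prod.mk y1 ⁻¹' {y : P2 | zx P j t y} ⊆
          Icc (-(4 * P.Y * (t + bj j))) (4 * P.Y * (t + bj j)) := by
        intro y2 hy2
        have h3 := hy2.2.2
        rw [hlab] at h3
        simp only at h3
        rw [mem_Icc, ← abs_le]
        refine h3.trans ?_
        have hb := bj_pos j
        have : t + rr (q * y1) ≤ 2 * (t + bj j) := by linarith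
        nlinarith
      refine (measure_mono hsub).trans ?_
      rw [Real.volume_Icc]
      apply ENNReal.ofReal_le_ofReal
      linarith
    · rw [indicator_of_notMem (show y1 ∉ (fun y1 : ℝ => q * y1) ⁻¹' laneE j from hy)]
      have : Prod.mk y1 ⁻¹' {y : P2 | zx P j t y} = ∅ := by
        ext y2
        simp only [mem_preimage, mem_ofPred_eq, mem_empty_iff_false, iff_false]
        intro h3
        apply hy
        have h4 := h3.2.1
        rwa [hlab] at h4
      rw [this]; simp
  refine (lintegral_mono hsec).trans ?_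
  rw [lintegral_indicator ((measurable_const_mul q) (measurableSet_laneE j)), setLIntegral_const]
  gcongr
  rw [Real.volume_preimage_mul_left hq0.ne', abs_of_pos (inv_pos.2 hq0), hqi]
  gcongr
  exact volume_laneE_le hj1

/-! ### overlap -/

/-- bound for the position in a zone -/
lemma norm_le_of_zx (h : P.Ok) {j : ℕ} {t T : ℝ} (ht : 0 ≤ t) (htT : t ≤ T) {y : P2}
    (hz : zx P j t y) : ‖y‖ ≤ (1 + P.kap * T) + 2 * P.Y * (T + 1) := by
  obtain ⟨hj, hl, h2⟩ := hz
  have hj1 : 1 ≤ j := (Ok.j1 h).trans hj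
  have hd := Ok.dlp h
  have hd20 := Ok.dl20 h
  have hY := h.Y0
  have hk := Ok.kap0 h
  have h3 := laneE_lt_dl (Ok.j1 h) hj hl
  have hlab : y.1 = (1 + P.kap * t) * lab P t y := by
    have hc := h.c0
    unfold lab Par.kap
    field_simp
  have hrr : rr (lab P t y) ≤ 1 := by
    unfold rr
    rw [← sq_abs]
    have := abs_nonneg (lab P t y)
    nlinarith
  rw [Prod.norm_def, max_le_iff, Real.norm_eq_abs, Real.norm_eq_abs]
  have hkt : P.kap * t ≤ P.kap * T := by gcongr
  have hkt0 : 0 ≤ P.kap * t := by positivity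
  constructor
  · rw [hlab, abs_mul, abs_of_nonneg (by positivity)]
    have h4 : |lab P t y| ≤ 1 := by linarith
    have h5 : (1 + P.kap * t) * |lab P t y| ≤ (1 + P.kap * t) * 1 := by gcongr
    have h6 : 0 ≤ 2 * P.Y * (T + 1) := by have := ht.trans htT; positivity
    linarith
  · have h7 : 2 * P.Y * (t + rr (lab P t y)) ≤ 2 * P.Y * (T + 1) := by gcongr
    linarith

/-- at each point at most `M` pairs (image, lane) -/
lemma exists_overlap (h : P.Ok) (T : ℝ) : ∃ M : ℕ, ∀ t ∈ Ioo 0 T, ∀ x : P2,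
    ∃ S : Finset ((ℤ × ℤ) × ℕ), S.card ≤ M ∧ ∀ i, zx P i.2 t (x + latt i.1) → i ∈ S := by
  classical
  rcases le_or_gt T 0 with hT | hT
  · exact ⟨0, fun t ht => by linarith [ht.1, ht.2]⟩
  set L : ℝ := (1 + P.kap * T) + 2 * P.Y * (T + 1) with hL
  have hL0 : 0 ≤ L := by
    have := Ok.kap0 h
    have := h.Y0
    positivity
  obtain ⟨M, hM⟩ := exists_nat_ge ((3 * L + 1) ^ 2)
  refine ⟨M, fun t ht x => ?_⟩
  set K := (finite_latt_near x L).toFinset with hK
  set f : ℤ × ℤ → (ℤ × ℤ) × ℕ := fun k =>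
    (k, if h : ∃ j, zx P j t (x + latt k) then h.choose else 0) with hf
  refine ⟨K.image f, ?_, ?_⟩
  · have h1 := ncard_latt_near x hL0
    rw [Set.ncard_eq_toFinset_card _ (finite_latt_near x L)] at h1
    have h2 : ((K.image f).card : ℝ) ≤ M := by
      calc ((K.image f).card : ℝ) ≤ K.card := by exact_mod_cast Finset.card_image_le
        _ ≤ (3 * L + 1) ^ 2 := h1
        _ ≤ M := hM
    exact_mod_cast h2
  · rintro ⟨k, j⟩ hz
    rw [Finset.mem_image]
    refine ⟨k, ?_, ?_⟩
    · rw [hK, Set.Finite.mem_toFinset, mem_ofPred_eq]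
      exact norm_le_of_zx h ht.1.le ht.2.le hz
    · rw [hf]
      simp only [Prod.mk.injEq, true_and]
      have hex : ∃ j, zx P j t (x + latt k) := ⟨j, hz⟩
      rw [dif_pos hex]
      exact laneE_unique hex.choose_spec.2.1 hz.2.1

/-! ### sums over images and lanes -/

open scoped Classical in
/-- `Σ_{k,j} 1_{zone j}(x + latt k) w_j(t)` -/
def sumW (P : Par) (w : ℕ → ℝ → ℝ≥0∞) (t : ℝ) (x : P2) : ℝ≥0∞ :=
  ∑' i : (ℤ × ℤ) × ℕ, if zx P i.2 t (x + latt i.1) then w i.2 t else 0

lemma tsum_rpow_le {ι : Type} {f : ι → ℝ≥0∞} {S : Finset ι} (hS : ∀ i, f i ≠ 0 → i ∈ S) {M : ℕ}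
    (hM : S.card ≤ M) {p : ℝ} (hp : 0 < p) : (∑' i, f i) ^ p ≤ (M : ℝ≥0∞) ^ p * ∑' i, f i ^ p := by
  rw [tsum_eq_sum (s := S) (fun i hi => by by_contra h; exact hi (hS i h))]
  by_cases hne : S.Nonempty
  · obtain ⟨i0, hi0, hmax⟩ := S.exists_max_image f hne
    have h1 : ∑ i ∈ S, f i ≤ M * f i0 := by
      calc ∑ i ∈ S, f i ≤ ∑ _i ∈ S, f i0 := Finset.sum_le_sum fun i hi => hmax i hi
        _ = S.card * f i0 := by rw [Finset.sum_const, nsmul_eq_mul]
        _ ≤ M * f i0 := by gcongr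
    calc (∑ i ∈ S, f i) ^ p ≤ (M * f i0) ^ p := ENNReal.rpow_le_rpow h1 hp.le
      _ = (M : ℝ≥0∞) ^ p * f i0 ^ p := ENNReal.mul_rpow_of_nonneg _ _ hp.le
      _ ≤ _ := by
          gcongr
          exact ENNReal.le_tsum i0
  · rw [Finset.not_nonempty_iff_eq_empty.1 hne, Finset.sum_empty, ENNReal.zero_rpow_of_pos hp]
    exact bot_le

lemma sumW_rpow_le (w : ℕ → ℝ → ℝ≥0∞) {t : ℝ} {x : P2} {S : Finset ((ℤ × ℤ) × ℕ)} {M : ℕ}
    (hM : S.card ≤ M) (hS : ∀ i, zx P i.2 t (x + latt i.1) → i ∈ S) {p : ℝ} (hp : 0 < p) :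
    (sumW P w t x) ^ p ≤ (M : ℝ≥0∞) ^ p * sumW P (fun j t => w j t ^ p) t x := by
  classical
  unfold sumW
  refine (tsum_rpow_le (S := S) (fun i hi => ?_) hM hp).trans (le_of_eq ?_)
  · apply hS
    by_contra h
    rw [if_neg h] at hi
    exact hi rfl
  · congr 1
    refine tsum_congr fun i => ?_
    split_ifs
    · rfl
    · exact ENNReal.zero_rpow_of_pos hp

lemma measurable_sumW_term {w : ℝ → ℝ≥0∞} (hw : Measurable w) (i : (ℤ × ℤ) × ℕ) :
    Measurable fun p : ℝ × P2 => open scoped Classical in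
      if zx P i.2 p.1 (p.2 + latt i.1) then w p.1 else 0 := by
  classical
  refine Measurable.ite ?_ (hw.comp measurable_fst) measurable_const
  have : Measurable fun p : ℝ × P2 => (p.1, p.2 + latt i.1) := by fun_prop
  exact this (measurableSet_zx P i.2)

lemma measurable_sumW {w : ℕ → ℝ → ℝ≥0∞} (hw : ∀ j, Measurable (w j)) :
    Measurable fun p : ℝ × P2 => sumW P w p.1 p.2 := by
  unfold sumW
  exact Measurable.tsum fun i => measurable_sumW_term (hw i.2) i

lemma lint_sumW {w : ℕ → ℝ → ℝ≥0∞} (t : ℝ) :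
    ∫⁻ x in cellG, sumW P w t x = ∑' j, w j t * volume {y : P2 | zx P j t y} := by
  classical
  have hm : ∀ j, MeasurableSet {y : P2 | zx P j t y} := fun j => by
    have : Measurable fun y : P2 => (t, y) := by fun_prop
    exact this (measurableSet_zx P j)
  have h1 : ∀ x, sumW P w t x = ∑' j : ℕ, ∑' k : ℤ × ℤ,
      ({y : P2 | zx P j t y}.indicator (fun _ => w j t)) (x + latt k) := by
    intro x
    unfold sumW
    rw [ENNReal.tsum_prod', ENNReal.tsum_comm]
    refine tsum_congr fun j => tsum_congr fun k => ?_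
    rfl
  simp_rw [h1]
  rw [lintegral_tsum]
  · refine tsum_congr fun j => ?_
    rw [lintegral_cellG_tsum (measurable_const.indicator (hm j)), lintegral_indicator (hm j),
      setLIntegral_const]
  · intro j
    refine Measurable.aemeasurable (Measurable.tsum fun k => ?_)
    exact (measurable_const.indicator (hm j)).comp (by fun_prop)

end Crest.Agent.R68.I
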