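import Crest.Agent.R68.IntE
import Crest.Agent.R68.CSize3
import Crest.Agent.R68.ColdW2
import Crest.Agent.R68.ColdMeas

/-!
Row 68, PART I (helper858), module 9: the cold majorant: density, logarithm, finiteness of the sums.
-/

set_option autoImplicit false
open MeasureTheory Set Filter Metric
open scoped ENNReal Topology Real
open Crest.AnalysisR.VecCalc3 Crest.AnalysisR.PDE.Boltzmann

noncomputable section

namespace Crest.Agent.R68.I

open Crest.Agent.R68.Fuel Crest.Agent.R68.A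

variable {P : Par}

/-! ### finiteness of the sums -/

/-- weight of the logarithm -/
def w1 (CL : ℝ) (j : ℕ) (_t : ℝ) : ℝ≥0∞ := ENNReal.ofReal (CL * bj j ^ (-(1 / 36) : ℝ))

/-- weight of the density -/
def w2 (CN : ℝ) (j : ℕ) (t : ℝ) : ℝ≥0∞ := ENNReal.ofReal (CN / (t + bj j))

lemma one_add_rpow_le (a : ℝ≥0∞) {p : ℝ} (hp : 0 ≤ p) :
    (1 + a) ^ p ≤ (2 : ℝ≥0∞) ^ p * (1 + a ^ p) := by
  rcases le_total a 1 with h | h
  · calc (1 + a) ^ p ≤ (2 : ℝ≥0∞) ^ p := by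
          apply ENNReal.rpow_le_rpow _ hp
          rw [← one_add_one_eq_two]; gcongr
      _ = (2 : ℝ≥0∞) ^ p * 1 := (mul_one _).symm
      _ ≤ _ := by gcongr; exact le_self_add
  · calc (1 + a) ^ p ≤ (2 * a) ^ p := by
          apply ENNReal.rpow_le_rpow _ hp
          rw [two_mul]; gcongr
      _ = (2 : ℝ≥0∞) ^ p * a ^ p := ENNReal.mul_rpow_of_nonneg _ _ hp
      _ ≤ _ := by gcongr; exact le_add_self

lemma term1_le (h : P.Ok) {CL T t : ℝ} (hCL : 0 ≤ CL) (ht : t ∈ Ioo 0 T) (j : ℕ) :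
    w1 CL j t ^ (9 : ℝ) * volume {y : P2 | zx P j t y} ≤
      ENNReal.ofReal (CL ^ 9 * (8 * P.Y * (T + 1)) * (1 + P.kap * T) * 5) *
        ENNReal.ofReal (bj j ^ (5 / 4 : ℝ)) := by
  have hb := bj_pos j
  have hb1 := bj_le_one j
  have hY := h.Y0
  have hk := Ok.kap0 h
  have hT : 0 < T := ht.1.trans ht.2
  refine (mul_le_mul' le_rfl (volume_zx_le h j ht.1.le)).trans ?_
  unfold w1
  rw [ENNReal.ofReal_rpow_of_nonneg (by positivity) (by norm_num), ← ENNReal.ofReal_mul (by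
      have := ht.1; positivity), ← ENNReal.ofReal_mul (by have := ht.1; positivity),
    ← ENNReal.ofReal_mul (by positivity), ← ENNReal.ofReal_mul (by positivity)]
  apply ENNReal.ofReal_le_ofReal
  have e1 : (CL * bj j ^ (-(1 / 36) : ℝ)) ^ (9 : ℝ) = CL ^ 9 * bj j ^ (-(1 / 4) : ℝ) := by
    rw [Real.mul_rpow hCL (by positivity), ← Real.rpow_mul hb.le]
    norm_num
  rw [e1]
  have e2 : bj j ^ (5 / 4 : ℝ) = bj j ^ (-(1 / 4) : ℝ) * bj j ^ (3 / 2 : ℝ) := by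
    rw [← Real.rpow_add hb]; norm_num
  rw [e2]
  have ht0 := ht.1
  have h1 : 8 * P.Y * (t + bj j) ≤ 8 * P.Y * (T + 1) := by
    have := ht.2; gcongr
  have h2 : 1 + P.kap * t ≤ 1 + P.kap * T := by
    have := ht.2; gcongr
  calc CL ^ 9 * bj j ^ (-(1 / 4) : ℝ) * (8 * P.Y * (t + bj j) * ((1 + P.kap * t) *
        (5 * bj j ^ (3 / 2 : ℝ))))
      ≤ CL ^ 9 * bj j ^ (-(1 / 4) : ℝ) * (8 * P.Y * (T + 1) * ((1 + P.kap * T) *
        (5 * bj j ^ (3 / 2 : ℝ)))) := by gcongr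
    _ = _ := by ring

lemma term2_le (h : P.Ok) {CN T t : ℝ} (hCN : 0 ≤ CN) (ht : t ∈ Ioo 0 T) (j : ℕ) :
    w2 CN j t ^ (9 / 4 : ℝ) * volume {y : P2 | zx P j t y} ≤
      ENNReal.ofReal (CN ^ (9 / 4 : ℝ) * (8 * P.Y) * (1 + P.kap * T) * 5) *
        (ENNReal.ofReal (bj j ^ (9 / 8 : ℝ)) * ENNReal.ofReal (t ^ (-(7 / 8) : ℝ))) := by
  have hb := bj_pos j
  have hb1 := bj_le_one j
  have hY := h.Y0
  have hk := Ok.kap0 h
  have ht0 := ht.1
  have hT : 0 < T := ht.1.trans ht.2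
  refine (mul_le_mul' le_rfl (volume_zx_le h j ht.1.le)).trans ?_
  unfold w2
  rw [ENNReal.ofReal_rpow_of_nonneg (by positivity) (by norm_num), ← ENNReal.ofReal_mul (by
      positivity), ← ENNReal.ofReal_mul (by positivity),
    ← ENNReal.ofReal_mul (by positivity), ← ENNReal.ofReal_mul (by positivity),
    ← ENNReal.ofReal_mul (by positivity)]
  apply ENNReal.ofReal_le_ofReal
  have hs : 0 < t + bj j := by positivity
  have e1 : (CN / (t + bj j)) ^ (9 / 4 : ℝ) * (t + bj j) =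
      CN ^ (9 / 4 : ℝ) * (t + bj j) ^ (-(5 / 4) : ℝ) := by
    rw [Real.div_rpow hCN hs.le, div_mul_eq_mul_div, mul_div_assoc]
    congr 1
    rw [div_eq_mul_inv, ← Real.rpow_neg hs.le]
    nth_rewrite 1 [← Real.rpow_one (t + bj j)]
    rw [← Real.rpow_add hs]; norm_num
  have e2 : (t + bj j) ^ (-(5 / 4) : ℝ) ≤ bj j ^ (-(3 / 8) : ℝ) * t ^ (-(7 / 8) : ℝ) := by
    have : (t + bj j) ^ (-(5 / 4) : ℝ) = (t + bj j) ^ (-(3 / 8) : ℝ) * (t + bj j) ^ (-(7 / 8) : ℝ) := by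
      rw [← Real.rpow_add hs]; norm_num
    rw [this]
    exact mul_le_mul (Real.rpow_le_rpow_of_nonpos hb (by linarith) (by norm_num))
      (Real.rpow_le_rpow_of_nonpos ht0 (by linarith) (by norm_num)) (by positivity) (by positivity)
  have e3 : bj j ^ (9 / 8 : ℝ) = bj j ^ (-(3 / 8) : ℝ) * bj j ^ (3 / 2 : ℝ) := by
    rw [← Real.rpow_add hb]; norm_num
  rw [e3]
  have h2 : 1 + P.kap * t ≤ 1 + P.kap * T := by
    have := ht.2; gcongr
  calc (CN / (t + bj j)) ^ (9 / 4 : ℝ) * (8 * P.Y * (t + bj j) * ((1 + P.kap * t) *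
        (5 * bj j ^ (3 / 2 : ℝ))))
      = (CN / (t + bj j)) ^ (9 / 4 : ℝ) * (t + bj j) * (8 * P.Y * ((1 + P.kap * t) *
        (5 * bj j ^ (3 / 2 : ℝ)))) := by ring
    _ = CN ^ (9 / 4 : ℝ) * (t + bj j) ^ (-(5 / 4) : ℝ) * (8 * P.Y * ((1 + P.kap * t) *
        (5 * bj j ^ (3 / 2 : ℝ)))) := by rw [e1]
    _ ≤ CN ^ (9 / 4 : ℝ) * (bj j ^ (-(3 / 8) : ℝ) * t ^ (-(7 / 8) : ℝ)) * (8 * P.Y *
        ((1 + P.kap * T) * (5 * bj j ^ (3 / 2 : ℝ)))) := by gcongr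
    _ = _ := by ring

theorem fin_sum (h : P.Ok) (T : ℝ) {CL CN : ℝ} (hCL : 0 ≤ CL) (hCN : 0 ≤ CN) :
    ∫⁻ t in Ioo 0 T, ∫⁻ x in cellG, (1 + sumW P (w1 CL) t x) * (1 + sumW P (w2 CN) t x) ^ 2 < ⊤ := by
  obtain ⟨M, hM⟩ := exists_overlap h T
  set D1 : ℝ≥0∞ := ENNReal.ofReal (CL ^ 9 * (8 * P.Y * (T + 1)) * (1 + P.kap * T) * 5) with hD1
  set D2 : ℝ≥0∞ := ENNReal.ofReal (CN ^ (9 / 4 : ℝ) * (8 * P.Y) * (1 + P.kap * T) * 5) with hD2
  set S1 : ℝ≥0∞ := ∑' j : ℕ, ENNReal.ofReal (bj j ^ (5 / 4 : ℝ)) with hS1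
  set S2 : ℝ≥0∞ := ∑' j : ℕ, ENNReal.ofReal (bj j ^ (9 / 8 : ℝ)) with hS2
  have hS1t : S1 < ⊤ := tsum_bj_lt_top (by norm_num)
  have hS2t : S2 < ⊤ := tsum_bj_lt_top (by norm_num)
  have m1 : ∀ j, Measurable (w1 CL j) := fun j => by unfold w1; fun_prop
  have m2 : ∀ j, Measurable (w2 CN j) := fun j => by unfold w2; fun_prop
  have key : ∀ t ∈ Ioo 0 T, ∫⁻ x in cellG, (1 + sumW P (w1 CL) t x) * (1 + sumW P (w2 CN) t x) ^ 2 ≤
      (2 : ℝ≥0∞) ^ (9 : ℝ) * (1 + (M : ℝ≥0∞) ^ (9 : ℝ) * (D1 * S1)) +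
      (2 : ℝ≥0∞) ^ (9 / 4 : ℝ) * (1 + (M : ℝ≥0∞) ^ (9 / 4 : ℝ) *
        (D2 * (S2 * ENNReal.ofReal (t ^ (-(7 / 8) : ℝ))))) := by
    intro t ht
    have hsl : Measurable fun x : P2 => (t, x) := by fun_prop
    have mm1 : Measurable fun x => sumW P (fun j t => w1 CL j t ^ (9 : ℝ)) t x :=
      (measurable_sumW (P := P) (w := fun j t => w1 CL j t ^ (9 : ℝ))
        (fun j => (m1 j).pow_const _)).comp hsl
    have mm2 : Measurable fun x => sumW P (fun j t => w2 CN j t ^ (9 / 4 : ℝ)) t x :=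
      (measurable_sumW (P := P) (w := fun j t => w2 CN j t ^ (9 / 4 : ℝ))
        (fun j => (m2 j).pow_const _)).comp hsl
    calc ∫⁻ x in cellG, (1 + sumW P (w1 CL) t x) * (1 + sumW P (w2 CN) t x) ^ 2
        ≤ ∫⁻ x in cellG, ((2 : ℝ≥0∞) ^ (9 : ℝ) * (1 + (M : ℝ≥0∞) ^ (9 : ℝ) *
            sumW P (fun j t => w1 CL j t ^ (9 : ℝ)) t x) +
          (2 : ℝ≥0∞) ^ (9 / 4 : ℝ) * (1 + (M : ℝ≥0∞) ^ (9 / 4 : ℝ) *
            sumW P (fun j t => w2 CN j t ^ (9 / 4 : ℝ)) t x)) := by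
          refine lintegral_mono fun x => ?_
          obtain ⟨S, hS, hS'⟩ := hM t ht x
          calc _ ≤ (1 + sumW P (w1 CL) t x) ^ (9 : ℝ) + (1 + sumW P (w2 CN) t x) ^ (9 / 4 : ℝ) :=
                mul_sq_le _ _
            _ ≤ (2 : ℝ≥0∞) ^ (9 : ℝ) * (1 + sumW P (w1 CL) t x ^ (9 : ℝ)) +
                (2 : ℝ≥0∞) ^ (9 / 4 : ℝ) * (1 + sumW P (w2 CN) t x ^ (9 / 4 : ℝ)) := by
                gcongr
                · exact one_add_rpow_le _ (by norm_num)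
                · exact one_add_rpow_le _ (by norm_num)
            _ ≤ _ := by
                gcongr
                · exact sumW_rpow_le _ hS hS' (by norm_num)
                · exact sumW_rpow_le _ hS hS' (by norm_num)
      _ = (2 : ℝ≥0∞) ^ (9 : ℝ) * (1 + (M : ℝ≥0∞) ^ (9 : ℝ) *
            ∫⁻ x in cellG, sumW P (fun j t => w1 CL j t ^ (9 : ℝ)) t x) +
          (2 : ℝ≥0∞) ^ (9 / 4 : ℝ) * (1 + (M : ℝ≥0∞) ^ (9 / 4 : ℝ) *
            ∫⁻ x in cellG, sumW P (fun j t => w2 CN j t ^ (9 / 4 : ℝ)) t x) := by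
          have hcell : ∫⁻ _x in cellG, (1 : ℝ≥0∞) = 1 := by
            rw [setLIntegral_const, volume_cellG, mul_one]
          have a1 : Measurable fun x => 1 + (M : ℝ≥0∞) ^ (9 : ℝ) *
              sumW P (fun j t => w1 CL j t ^ (9 : ℝ)) t x := measurable_const.add (mm1.const_mul _)
          have a2 : Measurable fun x => 1 + (M : ℝ≥0∞) ^ (9 / 4 : ℝ) *
              sumW P (fun j t => w2 CN j t ^ (9 / 4 : ℝ)) t x := measurable_const.add (mm2.const_mul _)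
          have a3 : Measurable fun x => (2 : ℝ≥0∞) ^ (9 : ℝ) * (1 + (M : ℝ≥0∞) ^ (9 : ℝ) *
              sumW P (fun j t => w1 CL j t ^ (9 : ℝ)) t x) := a1.const_mul _
          rw [lintegral_add_left a3, lintegral_const_mul _ a1, lintegral_const_mul _ a2,
            lintegral_add_left measurable_const, lintegral_add_left measurable_const,
            lintegral_const_mul _ mm1, lintegral_const_mul _ mm2, hcell]
      _ ≤ _ := by
          gcongr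
          · rw [lint_sumW, hS1, ← ENNReal.tsum_mul_left]
            exact ENNReal.tsum_le_tsum fun j => term1_le h hCL ht j
          · rw [lint_sumW, hS2, ← ENNReal.tsum_mul_right, ← ENNReal.tsum_mul_left]
            exact ENNReal.tsum_le_tsum fun j => term2_le h hCN ht j
  refine (setLIntegral_mono' measurableSet_Ioo key).trans_lt ?_
  have hI : ∫⁻ t in Ioo 0 T, ENNReal.ofReal (t ^ (-(7 / 8) : ℝ)) < ⊤ := by
    rcases le_or_gt T 0 with hT | hT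
    · rw [Ioo_eq_empty (not_lt.2 hT)]; simp
    · rw [lintegral_rpow_Ioo' (by norm_num) hT.le]
      exact ENNReal.ofReal_lt_top
  have hmt : Measurable fun t : ℝ => ENNReal.ofReal (t ^ (-(7 / 8) : ℝ)) := by fun_prop
  rw [lintegral_add_left measurable_const, setLIntegral_const,
    lintegral_const_mul _ (by fun_prop), lintegral_add_left measurable_const,
    lintegral_const_mul _ (by fun_prop), lintegral_const_mul _ (by fun_prop),
    lintegral_const_mul _ hmt, setLIntegral_const]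
  have hvol : volume (Ioo (0 : ℝ) T) < ⊤ := by rw [Real.volume_Ioo]; exact ENNReal.ofReal_lt_top
  have hp1 : (2 : ℝ≥0∞) ^ (9 : ℝ) < ⊤ := ENNReal.rpow_lt_top_of_nonneg (by norm_num) (by norm_num)
  have hp2 : (2 : ℝ≥0∞) ^ (9 / 4 : ℝ) < ⊤ := ENNReal.rpow_lt_top_of_nonneg (by norm_num) (by norm_num)
  have hp3 : (M : ℝ≥0∞) ^ (9 : ℝ) < ⊤ := ENNReal.rpow_lt_top_of_nonneg (by norm_num) (by simp)
  have hp4 : (M : ℝ≥0∞) ^ (9 / 4 : ℝ) < ⊤ := ENNReal.rpow_lt_top_of_nonneg (by norm_num) (by simp)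
  refine ENNReal.add_lt_top.2 ⟨ENNReal.mul_lt_top (ENNReal.mul_lt_top hp1 (ENNReal.add_lt_top.2
    ⟨ENNReal.one_lt_top, ENNReal.mul_lt_top hp3 (ENNReal.mul_lt_top ENNReal.ofReal_lt_top hS1t)⟩)) hvol,
    ENNReal.mul_lt_top hp2 (ENNReal.add_lt_top.2 ⟨ENNReal.mul_lt_top ENNReal.one_lt_top hvol,
      ENNReal.mul_lt_top hp4 (ENNReal.mul_lt_top ENNReal.ofReal_lt_top
        (ENNReal.mul_lt_top hS2t hI))⟩)⟩

end Crest.Agent.R68.I
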