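import Crest.Agent.R68.IntF

/-!
Row 68, PART I (helper858), module 10: the cold majorant per lane; `MildG.int` from the class bound.
-/

set_option autoImplicit false
open MeasureTheory Set Filter Metric
open scoped ENNReal Topology Real
open Crest.AnalysisR.VecCalc3 Crest.AnalysisR.PDE.Boltzmann

noncomputable section

namespace Crest.Agent.R68.I

open Crest.Agent.R68.Fuel Crest.Agent.R68.A

variable {P : Par}

/-- one lane, one image of the cold majorant -/
def sj (P : Par) (j : ℕ) (t : ℝ) (y : P2) (v : R3) : ℝ≥0∞ :=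
  ENNReal.ofReal (phs P j t y v) + warmj P j t y v

lemma meas3_sj (P : Par) (j : ℕ) : Meas3 (sj P j) :=
  Measurable.add (ENNReal.measurable_ofReal.comp (measurable_phs P j)) (ColdM.meas3_warmj P j)

lemma coldS_eq (h : P.Ok) (t : ℝ) (x : P2) (v : R3) :
    coldS P t x v = ∑' i : (ℤ × ℤ) × ℕ, sj P i.2 t (x + latt i.1) v := by
  unfold coldS phiE warm sj
  have e1 := ENNReal.tsum_prod' (f := fun i : (ℤ × ℤ) × ℕ =>
    ENNReal.ofReal (phs P i.2 t (x + latt i.1) v))
  have e2 := ENNReal.tsum_prod' (f := fun i : (ℤ × ℤ) × ℕ => warmj P i.2 t (x + latt i.1) v)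
  rw [ofReal_phi h, ENNReal.tsum_add, e1, e2]

lemma zx_of_LZ (h : ColdPar C.C0 P) {j : ℕ} {t : ℝ} (ht : 0 ≤ t) {y : P2} (hz : C.LZ P j t y) :
    zx P j t y := by
  refine ⟨hz.1, C.lab_mem_laneE h hz, hz.2.2.trans ?_⟩
  have hj := hz.1
  have h1 := C.slack_small2 h hj (n := 2) (by norm_num)
  have hb := bj_pos j
  have hb1 := bj_le_one j
  have h2 : bj j ^ 2 ≤ 1 := pow_le_one₀ hb.le hb1
  have hY := h.Y
  have hr := rr_nonneg (lab P t y)
  have : P.Y + rhoj P.p j * tauj P.p j / bj j ^ 2 ≤ 2 * P.Y := by linarith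
  gcongr

lemma sj_ne (h : P.Ok) (hc : ColdPar C.C0 P) {j : ℕ} {t : ℝ} (ht : 0 ≤ t) {y : P2} {v : R3}
    (h0 : sj P j t y v ≠ 0) : zx P j t y ∧ ‖v‖ ≤ P.Y + 5 := by
  unfold sj at h0
  by_cases h1 : ENNReal.ofReal (phs P j t y v) = 0
  · rw [h1, zero_add] at h0
    have hz : Ztj P j t y v := by
      by_contra h2
      exact h0 (by unfold warmj; rw [if_neg h2])
    exact ⟨zx_of_LZ hc ht (C.LZ_of_Ztj hz), by have := C.norm_lt_of_warmj hc ht h0; linarith⟩
  · have h2 : R68.phij P j t y v ≠ 0 := by rw [ColdW.phij_eq h]; exact h1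
    have hz := ColdW.Ztj_of_phij h hc.p ht h2
    refine ⟨zx_of_LZ hc ht (C.LZ_of_Ztj hz), ?_⟩
    have h3 : phs P j t y v ≠ 0 := fun h4 => h1 (by rw [h4]; simp)
    obtain ⟨hj, hv⟩ := mem_of_phs_ne h3
    exact C.norm_le_of_lset h hj hv

/-- supremum of one lane -/
lemma sj_le (h : P.Ok) (hc : ColdPar C.C0 P) {j : ℕ} {t : ℝ} (ht : 0 ≤ t) (y : P2) (v : R3) :
    sj P j t y v ≤ ENNReal.ofReal (2 * P.K * bj j ^ (-((3 * P.p + 1 : ℕ) : ℝ))) := by
  have hb := bj_pos j
  have hb1 := bj_le_one j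
  have hK : 0 ≤ P.K := h.K0
  have hg : gaussj P j t y v ≤ ENNReal.ofReal (P.K * bj j ^ (-((3 * P.p + 1 : ℕ) : ℝ))) := by
    unfold gaussj
    apply ENNReal.ofReal_le_ofReal
    have he : Real.exp (-‖v - uvec P (wj j) t y‖ ^ 2 / (4 * etaj P.p j ^ 2)) ≤ 1 := by
      rw [Real.exp_le_one_iff]
      apply div_nonpos_of_nonpos_of_nonneg
      · have := sq_nonneg ‖v - uvec P (wj j) t y‖; linarith
      · positivity
    have hη : etaj P.p j = bj j ^ P.p := rfl
    have e : P.K / (bj j * etaj P.p j ^ 3) = P.K * bj j ^ (-((3 * P.p + 1 : ℕ) : ℝ)) := by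
      rw [hη, Real.rpow_neg hb.le, Real.rpow_natCast, ← pow_mul, div_eq_mul_inv]
      congr 2
      ring
    rw [e]
    calc _ ≤ P.K * bj j ^ (-((3 * P.p + 1 : ℕ) : ℝ)) * 1 := by gcongr
      _ = _ := mul_one _
  have h1 : ENNReal.ofReal (phs P j t y v) ≤ gaussj P j t y v := by
    rw [← ColdW.phij_eq h]; exact ColdW.phij_le_gaussj h j ht y v
  have h2 : warmj P j t y v ≤ gaussj P j t y v := by
    unfold warmj
    split_ifs
    · calc ENNReal.ofReal (kapj P.p j) * gaussj P j t y v ≤ 1 * gaussj P j t y v := by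
            gcongr
            rw [ENNReal.ofReal_le_one]
            exact (C.kapj_le hc j).trans (pow_le_one₀ hb.le hb1)
        _ = _ := one_mul _
    · exact bot_le
  calc sj P j t y v ≤ gaussj P j t y v + gaussj P j t y v := add_le_add h1 h2
    _ ≤ _ := by
      rw [show 2 * P.K * bj j ^ (-((3 * P.p + 1 : ℕ) : ℝ)) =
        P.K * bj j ^ (-((3 * P.p + 1 : ℕ) : ℝ)) + P.K * bj j ^ (-((3 * P.p + 1 : ℕ) : ℝ)) by ring,
        ENNReal.ofReal_add (by positivity) (by positivity)]
      exact add_le_add hg hg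

/-- density of one lane -/
lemma lint_sj_le (h : P.Ok) (hc : ColdPar C.C0 P) {j : ℕ} {t T : ℝ} (ht : t ∈ Ioo 0 T) (y : P2) :
    ∫⁻ v, sj P j t y v ≤ w2 (2 * P.K + (T + 1)) j t := by
  have hb := bj_pos j
  have hb1 := bj_le_one j
  have hK : 0 ≤ P.K := h.K0
  have ht0 := ht.1
  have htT := ht.2
  have hpos : 0 < t + bj j := by positivity
  have hm : Measurable fun v => ENNReal.ofReal (phs P j t y v) :=
    ENNReal.measurable_ofReal.comp ((measurable_phs P j).comp
      (by fun_prop : Measurable fun v : R3 => (t, y, v)))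
  unfold sj
  rw [lintegral_add_left hm]
  by_cases hj : P.j0 ≤ j
  · have hj1 : 1 ≤ j := (Ok.j1 h).trans hj
    have h1 : ∫⁻ v, ENNReal.ofReal (phs P j t y v) ≤ ENNReal.ofReal (2 * P.K / (t + bj j)) := by
      have := lint_phij_le h j ht0.le y (g := fun _ => 1) measurable_const
        (A := ENNReal.ofReal (2 * P.K / (t + bj j))) (B := 1) (fun a ha => by
          apply ENNReal.ofReal_le_ofReal
          have h2 := (C.lane_sq hj1 ha).1
          have hra : bj j / 2 ≤ rr a := h2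
          have hk := Ok.kap0 h
          unfold dens
          rw [one_add_kap]
          have h3 : (t + bj j) / 2 ≤ (t + rr a) * (1 + P.kap * t) := by
            have h5 : 0 ≤ t + rr a := by linarith
            have h4 : t + rr a ≤ (t + rr a) * (1 + P.kap * t) := by
              have := mul_nonneg h5 (mul_nonneg hk ht0.le)
              linarith
            linarith
          calc P.K / ((t + rr a) * (1 + P.kap * t)) ≤ P.K / ((t + bj j) / 2) := by
                gcongr
            _ = 2 * P.K / (t + bj j) := by field_simp) (fun _ _ => le_rfl)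
      simp only [mul_one] at this
      refine le_trans (lintegral_mono fun v => ?_) this
      rw [phs_of_le hj]
    have h2 : ∫⁻ v, warmj P j t y v ≤ ENNReal.ofReal ((T + 1) / (t + bj j)) := by
      refine (C.lintegral_warmj hc hj t y).trans (ENNReal.ofReal_le_ofReal ?_)
      refine (pow_le_one₀ hb.le hb1).trans ?_
      rw [le_div_iff₀ hpos]; linarith
    refine (add_le_add h1 h2).trans ?_
    unfold w2
    rw [← ENNReal.ofReal_add (by positivity) (by
      have : 0 < T + 1 := by linarith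
      positivity), ← add_div]
  · have h1 : ∀ v, ENNReal.ofReal (phs P j t y v) = 0 := by
      intro v; unfold phs; rw [if_neg hj]; simp
    have h2 : ∀ v, warmj P j t y v = 0 := by
      intro v; unfold warmj
      rw [if_neg fun hz => hj hz.1]
    simp [h1, h2]

/-- logarithm of one lane -/
lemma lg_sj_le (h : P.Ok) (hc : ColdPar C.C0 P) : ∃ CL : ℝ, 0 ≤ CL ∧ ∀ (j : ℕ) (t : ℝ), 0 ≤ t →
    ∀ (y : P2) (v : R3), lg (sj P j t y v) ≤ w1 CL j t := by
  set m : ℝ := ((3 * P.p + 1 : ℕ) : ℝ) with hm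
  have hm1 : 1 ≤ m := by rw [hm]; push_cast; have : (0:ℝ) ≤ P.p := Nat.cast_nonneg _; linarith
  set κ : ℝ := 1 / (36 * m) with hκ
  have hκ0 : 0 < κ := by positivity
  have hκ1 : κ ≤ 1 := by
    rw [hκ, div_le_one (by positivity)]; linarith
  have hK : 0 ≤ P.K := h.K0
  refine ⟨1 / κ * (2 * P.K) ^ κ, by positivity, fun j t ht y v => ?_⟩
  have hb := bj_pos j
  refine (lg_mono (sj_le h hc ht y v)).trans ((lg_le_rpow _ hκ0 hκ1).trans ?_)
  rw [ENNReal.ofReal_rpow_of_nonneg (by positivity) hκ0.le, ← ENNReal.ofReal_mul (by positivity)]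
  unfold w1
  apply ENNReal.ofReal_le_ofReal
  rw [Real.mul_rpow (by positivity) (by positivity), ← Real.rpow_mul hb.le]
  have : -m * κ = -(1 / 36) := by rw [hκ]; field_simp
  rw [this, mul_assoc]

lemma lg_sum_le {ι : Type} (S : Finset ι) (f : ι → ℝ≥0∞) : lg (∑ i ∈ S, f i) ≤ ∑ i ∈ S, lg (f i) := by
  classical
  induction S using Finset.induction_on with
  | empty => simp
  | insert a s ha ih =>
    rw [Finset.sum_insert ha, Finset.sum_insert ha]
    exact (lg_add_le _ _).trans (by gcongr)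

theorem cold_profile (h : P.Ok) (hc : ColdPar C.C0 P) (T : ℝ) : ∃ CL CN : ℝ, 0 ≤ CL ∧ 0 ≤ CN ∧
    (∀ t ∈ Ioo 0 T, ∀ x v, coldS P t x v ≠ 0 → ‖v‖ ≤ P.Y + 5) ∧
    (∀ t ∈ Ioo 0 T, ∀ x v, lg (coldS P t x v) ≤ sumW P (w1 CL) t x) ∧
    (∀ t ∈ Ioo 0 T, ∀ x, ∫⁻ v, coldS P t x v ≤ sumW P (w2 CN) t x) := by
  classical
  obtain ⟨CL, hCL, hlg⟩ := lg_sj_le h hc
  obtain ⟨M, hM⟩ := exists_overlap h T
  refine ⟨CL, max 0 (2 * P.K + (T + 1)), hCL, le_max_left _ _, ?_, ?_, ?_⟩
  · intro t ht x v hne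
    rw [coldS_eq h] at hne
    by_contra h1
    apply hne
    rw [ENNReal.tsum_eq_zero]
    intro i
    by_contra h2
    exact h1 (sj_ne h hc ht.1.le h2).2
  · intro t ht x v
    obtain ⟨S, -, hS⟩ := hM t ht x
    rw [coldS_eq h, tsum_eq_sum (s := S)]
    · refine (lg_sum_le S _).trans ?_
      unfold sumW
      refine le_trans (Finset.sum_le_sum fun i _ => ?_) (ENNReal.sum_le_tsum S)
      by_cases hz : zx P i.2 t (x + latt i.1)
      · rw [if_pos hz]
        exact hlg i.2 t ht.1.le _ v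
      · rw [if_neg hz]
        have : sj P i.2 t (x + latt i.1) v = 0 := by
          by_contra h2
          exact hz (sj_ne h hc ht.1.le h2).1
        rw [this]; simp
    · intro i hi
      by_contra h2
      exact hi (hS i (sj_ne h hc ht.1.le h2).1)
  · intro t ht x
    have hT : 0 < T := ht.1.trans ht.2
    have hmax : max 0 (2 * P.K + (T + 1)) = 2 * P.K + (T + 1) := max_eq_right (by
      have := h.K0; positivity)
    rw [hmax]
    simp_rw [coldS_eq h]
    have hmeas : ∀ i : (ℤ × ℤ) × ℕ, AEMeasurable (fun v => sj P i.2 t (x + latt i.1) v) volume :=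
      fun i => (Meas3.slice (meas3_sj P i.2) t (x + latt i.1)).aemeasurable
    rw [lintegral_tsum hmeas]
    unfold sumW
    refine ENNReal.tsum_le_tsum fun i => ?_
    by_cases hz : zx P i.2 t (x + latt i.1)
    · rw [if_pos hz]
      exact lint_sj_le h hc ht _
    · rw [if_neg hz]
      have : ∀ v, sj P i.2 t (x + latt i.1) v = 0 := by
        intro v
        by_contra h2
        exact hz (sj_ne h hc ht.1.le h2).1
      simp [this]

end Crest.Agent.R68.I
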