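import Crest.Agent.R68.IntG
import Crest.Agent.R68.Int2
import Crest.Agent.R68.Pole
import Crest.Agent.R68.ZOn

/-!
Row 68, PART I (helper858), module 11: class bound ⟹ integrability; finiteness along flights.
-/

set_option autoImplicit false
open MeasureTheory Set Filter Metric
open scoped ENNReal Topology Real
open Crest.AnalysisR.VecCalc3 Crest.AnalysisR.PDE.Boltzmann

noncomputable section

namespace Crest.Agent.R68.I

open Crest.Agent.R68.A Crest.Agent.R68.K2

variable {P : Par}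

lemma poleOk (h : P.Ok) : Pole.Ok P where
  j0 := le_trans (by norm_num) h.j0
  c0 := h.c0
  c1 := h.c1
  dlc := by
    have h1 := h.kap1
    have h2 := Fuel.Ok.dlp h
    unfold Par.kap at h1
    rwa [le_div_iff₀ h2, one_mul] at h1
  Y0 := h.Y0

lemma pk_div {C : ℝ} (hC : 0 < C) {r : ℝ} (hr : 0 ≤ r) :
    pk (r / C) = ENNReal.ofReal (C ^ (3 / 2 : ℝ)) * pk r := by
  rcases hr.eq_or_lt with h | h
  · rw [← h]
    have h0 : pk 0 = ⊤ := by
      unfold pk
      rw [ENNReal.ofReal_zero, ENNReal.zero_rpow_of_neg (by norm_num)]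
    rw [zero_div, h0, ENNReal.mul_top]
    have : 0 < C ^ (3 / 2 : ℝ) := by positivity
    simpa using this
  · rw [pk_eq (by positivity), pk_eq h, ← ENNReal.ofReal_mul (by positivity)]
    congr 1
    rw [Real.div_rpow h.le hC.le, Real.rpow_neg hC.le (3 / 2), div_inv_eq_mul, mul_comm]

/-- constant of the pole bound -/
def CP (Y : ℝ) : ℝ≥0∞ := ENNReal.ofReal ((10 + 12 * Y) ^ (3 / 2 : ℝ))

/-- `D^{-3/2}` is bounded by finitely many poles -/
lemma Dm_le_Sw (h : P.Ok) {T t : ℝ} (ht : t ∈ Ioo 0 T) {M : ℕ}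
    (hM : 2 * (3 * ((P.Y + 2) * (T + P.dl)) + 1) ^ 2 ≤ M) (x : P2) :
    ∃ (ι : Type) (_ : Fintype ι) (u : ι → R3), Fintype.card ι ≤ M ∧
      ∀ v, Dm P t x v ≤ CP P.Y * Sw u v := by
  classical
  have hO := poleOk h
  have hY := h.Y0
  have hd := Fuel.Ok.dlp h
  set S : Finset ((ℤ × ℤ) × ℝ) := Pole.near P t x ×ˢ ({1, -1} : Finset ℝ) with hS
  refine ⟨S, inferInstance, fun i => uvec P i.1.2 t (x + latt i.1.1), ?_, fun v => ?_⟩
  · have h1 := Pole.card_near_le hO ht.1.le x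
    have h2 : (Fintype.card S : ℝ) ≤ M := by
      rw [Fintype.card_coe, hS, Finset.card_product]
      have h3 : ((({1, -1} : Finset ℝ).card : ℕ) : ℝ) ≤ 2 := by
        exact_mod_cast Finset.card_le_two
      push_cast
      calc ((Pole.near P t x).card : ℝ) * ((({1, -1} : Finset ℝ).card : ℕ) : ℝ)
          ≤ (3 * ((P.Y + 2) * (t + P.dl)) + 1) ^ 2 * 2 := by gcongr
        _ ≤ 2 * (3 * ((P.Y + 2) * (T + P.dl)) + 1) ^ 2 := by
            have h4 := ht.1
            have h5 := ht.2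
            have h6 : 3 * ((P.Y + 2) * (t + P.dl)) + 1 ≤ 3 * ((P.Y + 2) * (T + P.dl)) + 1 := by
              gcongr
            have h7 : 0 ≤ 3 * ((P.Y + 2) * (t + P.dl)) + 1 := by positivity
            nlinarith
        _ ≤ M := hM
    exact_mod_cast h2
  · have hC1 : (1 : ℝ) ≤ 10 + 12 * P.Y := by linarith
    have hCP : 1 ≤ CP P.Y := by
      unfold CP
      rw [ENNReal.one_le_ofReal]
      exact Real.one_le_rpow hC1 (by norm_num)
    rcases Pole.exists_pole hO ht.1.le x v with h1 | ⟨k, hk, s, hs, hle⟩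
    · unfold Dm
      rw [h1, ENNReal.ofReal_one, ENNReal.one_rpow]
      calc (1 : ℝ≥0∞) = 1 * 1 := (one_mul 1).symm
        _ ≤ _ := by gcongr; unfold Sw; exact le_self_add
    · have hmem : ((k, s) : (ℤ × ℤ) × ℝ) ∈ S := by
        rw [hS, Finset.mem_product]
        refine ⟨hk, ?_⟩
        rcases hs with rfl | rfl <;> simp
      calc Dm P t x v = pk (Dw P t x v) := rfl
        _ ≤ pk (‖v - uvec P s t (x + latt k)‖ / (10 + 12 * P.Y)) := by
            apply pk_anti
            rw [div_le_iff₀ (by linarith)]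
            linarith
        _ = CP P.Y * pk ‖v - uvec P s t (x + latt k)‖ := pk_div (by linarith) (norm_nonneg _)
        _ ≤ _ := by
            refine mul_le_mul' le_rfl ?_
            unfold Sw
            refine le_trans ?_ le_add_self
            have hsl := Finset.single_le_sum (s := (Finset.univ : Finset S))
              (f := fun i : S => pk ‖v - uvec P i.1.2 t (x + latt i.1.1)‖)
              (fun _ _ => zero_le) (Finset.mem_univ (⟨(k, s), hmem⟩ : S))
            exact hsl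

lemma CP_ne_top (Y : ℝ) : CP Y ≠ ⊤ := ENNReal.ofReal_ne_top

lemma Sw_ne_top {ι : Type} [Fintype ι] (u : ι → R3) {v : R3} (hv : ∀ i, v ≠ u i) : Sw u v ≠ ⊤ := by
  unfold Sw
  refine ENNReal.add_ne_top.2 ⟨ENNReal.one_ne_top, ?_⟩
  rw [ENNReal.sum_ne_top]
  intro i _
  have : 0 < ‖v - u i‖ := norm_pos_iff.2 (sub_ne_zero.2 (hv i))
  rw [pk_eq this]
  exact ENNReal.ofReal_ne_top

lemma ae_Dm_ne_top (h : P.Ok) {t : ℝ} (ht : 0 < t) (x : P2) : ∀ᵐ v : R3, Dm P t x v ≠ ⊤ := by
  obtain ⟨M, hM⟩ := exists_nat_ge (2 * (3 * ((P.Y + 2) * ((t + 1) + P.dl)) + 1) ^ 2)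
  obtain ⟨ι, _, u, -, hu⟩ := Dm_le_Sw h (T := t + 1) ⟨ht, by linarith⟩ hM x
  have h1 : ∀ᵐ v : R3, ∀ i, v ≠ u i := by
    rw [ae_all_iff]
    intro i
    rw [ae_iff]
    simp
  filter_upwards [h1] with v hv
  exact ne_top_of_le_ne_top (ENNReal.mul_ne_top (CP_ne_top _) (Sw_ne_top u hv)) (hu v)

lemma meas3_coldS (h : P.Ok) : Meas3 (coldS P) :=
  Measurable.add (Fuel.measurable_ofReal_phi h) (ColdM.meas3_warm P)

/-- **integrability from the class bound** -/
theorem int_of_class (h : P.Ok) (hc : ColdPar C.C0 P) {G : ℝ → P2 → R3 → ℝ}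
    (hG : Measurable (fun p : ℝ × P2 × R3 => G p.1 p.2.1 p.2.2))
    (hG0 : ∀ t x v, 0 ≤ t → 0 ≤ G t x v) {T : ℝ} {A : ℝ≥0∞} (hA : A ≠ ⊤)
    (hcl : ∀ t ∈ Ioo 0 T, ∀ x v,
      ENNReal.ofReal (G t x v) ≤ coldS P t x v + A * (Dm P t x v * em v)) (k : ℕ) :
    (∫⁻ p in Ioo 0 T ×ˢ (cellG ×ˢ (Set.univ : Set R3)),
      ENNReal.ofReal ((1 + ‖p.2.2‖ ^ 2) ^ (k / 2 : ℝ) + Real.log (1 + G p.1 p.2.1 p.2.2)) *
        (gainG G p.1 p.2.1 p.2.2 + lossG G p.1 p.2.1 p.2.2)) < ⊤ := by
  obtain ⟨CL, CN, hCL, hCN, h1, h2, h3⟩ := cold_profile h hc T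
  obtain ⟨M, hM⟩ := exists_nat_ge (2 * (3 * ((P.Y + 2) * (T + P.dl)) + 1) ^ 2)
  have hY := h.Y0
  have hmS := meas3_coldS h
  have hGe : Meas3 (fun t x v => ENNReal.ofReal (G t x v)) := ENNReal.measurable_ofReal.comp hG
  refine int_of_profile hG hG0 k (M := M) (R := P.Y + 5) (by positivity)
    (A := A * CP P.Y) (ENNReal.mul_ne_top hA (CP_ne_top _)) (c := coldS P)
    (h := fun t x v => ENNReal.ofReal (G t x v) - coldS P t x v)
    (Ψ := sumW P (w1 CL)) (n := sumW P (w2 CN))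
    (fun t _ x => hmS.slice t x) (fun t _ x => (hGe.slice t x).sub (hmS.slice t x)) h1 ?_ h2 h3
    (fun t _ x v => le_add_tsub) (fin_sum h T hCL hCN)
  intro t ht x
  obtain ⟨ι, inst, u, hcard, hu⟩ := Dm_le_Sw h ht hM x
  refine ⟨ι, inst, u, hcard, fun v => ?_⟩
  calc ENNReal.ofReal (G t x v) - coldS P t x v ≤ A * (Dm P t x v * em v) :=
        tsub_le_iff_left.2 (hcl t ht x v)
    _ ≤ A * ((CP P.Y * Sw u v) * em v) := by gcongr; exact hu v
    _ = _ := by ring

/-! ### a.e. statements by periodicity -/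

lemma ae_of_ae_cellG {Q : P2 → Prop} (hm : MeasurableSet {x | Q x})
    (hp : ∀ x k, Q (x + latt k) ↔ Q x) (h : ∀ᵐ x ∂(volume.restrict cellG), Q x) : ∀ᵐ x : P2, Q x := by
  have h1 : ∫⁻ x, ({x | Q x}ᶜ).indicator (fun _ => (1 : ℝ≥0∞)) x = 0 := by
    rw [lintegral_eq_tsum_cellG, ENNReal.tsum_eq_zero]
    intro k
    have hmi : Measurable fun x : P2 => ({x | Q x}ᶜ).indicator (fun _ => (1 : ℝ≥0∞)) (x + latt k) :=
      (measurable_const.indicator hm.compl).comp (by fun_prop : Measurable fun x : P2 => x + latt k)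
    rw [lintegral_eq_zero_iff hmi]
    filter_upwards [h] with x hx
    have : x + latt k ∉ ({x | Q x}ᶜ : Set P2) := by
      simp only [mem_compl_iff, mem_ofPred_eq, not_not]
      exact (hp x k).2 hx
    simp [indicator_of_notMem this]
  rw [lintegral_indicator hm.compl, setLIntegral_const, one_mul] at h1
  rw [ae_iff]
  exact h1

lemma ae_flight_fin {g : ℝ → P2 → R3 → ℝ≥0∞} (hg : Meas3 g)
    (hper : ∀ t v, PerG (fun x => g t x v)) {T : ℝ}
    (hfin : ∫⁻ p in Ioo 0 T ×ˢ (cellG ×ˢ (Set.univ : Set R3)), g p.1 p.2.1 p.2.2 < ⊤) :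
    ∀ᵐ p : P2 × R3, ∫⁻ s in Ioo 0 T, g s (p.1 + s • bar p.2) p.2 < ⊤ := by
  set J : P2 → R3 → ℝ≥0∞ := fun x v => ∫⁻ s in Ioo 0 T, g s (x + s • bar v) v with hJ
  have hm1 : Measurable fun p : (P2 × R3) × ℝ => g p.2 (p.1.1 + p.2 • bar p.1.2) p.1.2 :=
    hg.comp (by fun_prop) (by fun_prop) (by fun_prop)
  have hJm : Measurable fun p : P2 × R3 => J p.1 p.2 := hm1.lintegral_prod_right'
  have hJs : MeasurableSet {p : P2 × R3 | J p.1 p.2 < ⊤} := measurableSet_lt hJm measurable_const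
  have hJper : ∀ v, PerG (fun x => J x v) := by
    intro v x k
    show J (x + latt k) v = J x v
    refine lintegral_congr fun s => ?_
    have := hper s v (x + s • bar v) k
    rw [show x + latt k + s • bar v = x + s • bar v + latt k by abel]
    exact this
  -- total integral
  have e1 : ∫⁻ v, ∫⁻ x in cellG, J x v =
      ∫⁻ p in Ioo 0 T ×ˢ (cellG ×ˢ (Set.univ : Set R3)), g p.1 p.2.1 p.2.2 := by
    rw [show (volume : Measure (ℝ × P2 × R3)) = volume.prod (volume.prod volume) from rfl,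
      ← Measure.prod_restrict, ← Measure.prod_restrict, Measure.restrict_univ,
      lintegral_prod _ (Measurable.aemeasurable hg)]
    have e2 : ∀ s : ℝ, ∫⁻ q, g s q.1 q.2 ∂((volume : Measure P2).restrict cellG).prod
        (volume : Measure R3) = ∫⁻ v, ∫⁻ x in cellG, g s x v := by
      intro s
      have hms : Measurable fun q : P2 × R3 => g s q.1 q.2 :=
        hg.comp (by fun_prop) (by fun_prop) (by fun_prop)
      rw [lintegral_prod_symm _ hms.aemeasurable]
    simp_rw [e2]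
    have hm3 : Measurable fun q : (ℝ × R3) × P2 => g q.1.1 q.2 q.1.2 :=
      hg.comp (by fun_prop) (by fun_prop) (by fun_prop)
    have hm4 : Measurable fun q : ℝ × R3 => ∫⁻ x in cellG, g q.1 x q.2 := hm3.lintegral_prod_right'
    rw [lintegral_lintegral_swap (f := fun (s : ℝ) (v : R3) => ∫⁻ x in cellG, g s x v)
      hm4.aemeasurable]
    refine lintegral_congr fun v => ?_
    have hm5 : Measurable fun q : P2 × ℝ => g q.2 (q.1 + q.2 • bar v) v :=
      hg.comp (by fun_prop) (by fun_prop) (by fun_prop)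
    rw [hJ]
    simp only
    rw [lintegral_lintegral_swap (f := fun (x : P2) (s : ℝ) => g s (x + s • bar v) v)
      hm5.aemeasurable]
    refine lintegral_congr fun s => ?_
    exact lintegral_cellG_add (g := fun x => g s x v)
      (hg.comp (by fun_prop) (by fun_prop) (by fun_prop)) (hper s v) (s • bar v)
  rw [← e1] at hfin
  have hm6 : Measurable fun v => ∫⁻ x in cellG, J x v := by
    have : Measurable fun q : R3 × P2 => J q.2 q.1 :=
      hJm.comp (by fun_prop : Measurable fun q : R3 × P2 => (q.2, q.1))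
    exact this.lintegral_prod_right'
  have h1 : ∀ᵐ v : R3, ∀ᵐ x : P2, J x v < ⊤ := by
    filter_upwards [ae_lt_top hm6 hfin.ne] with v hv
    have hJv : Measurable fun x => J x v :=
      hJm.comp (by fun_prop : Measurable fun x : P2 => (x, v))
    refine ae_of_ae_cellG (Q := fun x => J x v < ⊤) (measurableSet_lt hJv measurable_const) ?_
      (ae_lt_top hJv hv.ne)
    intro x k
    rw [show J (x + latt k) v = J x v from hJper v x k]
  have h2 : ∀ᵐ x : P2, ∀ᵐ v : R3, J x v < ⊤ :=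
    (Measure.ae_ae_comm (p := fun x v => J x v < ⊤) hJs).2 h1
  exact (Measure.ae_prod_mem_iff_ae_ae_mem hJs).2 h2

end Crest.Agent.R68.I
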