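import Crest.Agent.R68.IntH

/-!
Row 68, PART I (helper858), module 12: class bound + mild form in `[0,∞]` ⟹ `MildGOn`, `MildG`.
-/

set_option autoImplicit false
open MeasureTheory Set Filter Metric
open scoped ENNReal Topology Real
open Crest.AnalysisR.VecCalc3 Crest.AnalysisR.PDE.Boltzmann

noncomputable section

namespace Crest.Agent.R68.I

open Crest.Agent.R68.A Crest.Agent.R68.K2

variable {P : Par}

/-- mild form in `[0,∞]` up to time `TT` -/
def MildE (F : ℝ → P2 → R3 → ℝ≥0∞) (TT : ℝ) : Prop :=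
  ∀ t ∈ Icc 0 TT, ∀ᵐ p : P2 × R3,
    F t (p.1 + t • bar p.2) p.2 +
      ∫⁻ s in Ioo 0 t, Lc (F s (p.1 + s • bar p.2)) p.2 * F s (p.1 + s • bar p.2) p.2 =
    F 0 p.1 p.2 +
      ∫⁻ s in Ioo 0 t, Qp (F s (p.1 + s • bar p.2)) (F s (p.1 + s • bar p.2)) p.2

/-! ### replacing `f` by `ofReal (toReal f)` -/

lemma Qp_eq_zero_left {f g : R3 → ℝ≥0∞} (hf : Measurable f) (hg : Measurable g)
    (h : f =ᵐ[volume] 0) (v : R3) : Qp f g v = 0 := by
  rw [Qp_carleman' hf hg]
  have : ∫⁻ u, ENNReal.ofReal ‖u - v‖⁻¹ * f u * planeInt g v (‖u - v‖⁻¹ • (u - v)) = ∫⁻ _u : R3, 0 := by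
    refine lintegral_congr_ae ?_
    filter_upwards [h] with u hu
    rw [hu]; simp
  rw [this]; simp

lemma Qp_eq_zero_right {f g : R3 → ℝ≥0∞} (hf : Measurable f) (hg : Measurable g)
    (h : g =ᵐ[volume] 0) (v : R3) : Qp f g v = 0 := by
  rw [Qp_comm hf hg]; exact Qp_eq_zero_left hg hf h v

lemma Qp_congr_ae {f f' : R3 → ℝ≥0∞} (hf : Measurable f) (hf' : Measurable f')
    (hle : ∀ v, f' v ≤ f v) (h : f =ᵐ[volume] f') (v : R3) : Qp f f v = Qp f' f' v := by
  set d : R3 → ℝ≥0∞ := fun v => f v - f' v with hd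
  have hdm : Measurable d := hf.sub hf'
  have hd0 : d =ᵐ[volume] 0 := by
    filter_upwards [h] with v hv
    simp [hd, hv]
  have hfd : f = fun z => f' z + d z := by
    funext z
    exact (add_tsub_cancel_of_le (hle z)).symm
  have e1 : Qp f f v = Qp f' f' v + Qp f' d v + (Qp d f' v + Qp d d v) := by
    have hmm : Measurable fun z => f' z + d z := hf'.add hdm
    conv_lhs => rw [hfd]
    rw [Qp_add_left hf' hmm, Qp_add_right hf' hf', Qp_add_right hdm hf']
  rw [e1, Qp_eq_zero_right hf' hdm hd0, Qp_eq_zero_left hdm hf' hd0, Qp_eq_zero_left hdm hdm hd0]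
  simp

lemma Lc_congr_ae {f f' : R3 → ℝ≥0∞} (h : f =ᵐ[volume] f') (v : R3) : Lc f v = Lc f' v := by
  unfold Lc
  refine lintegral_congr_ae ?_
  filter_upwards [h] with vs hvs
  rw [hvs]

lemma ofReal_toReal_le (a : ℝ≥0∞) : ENNReal.ofReal a.toReal ≤ a := ENNReal.ofReal_toReal_le

/-! ### a.e. finiteness in the class -/

lemma sumW_lt_top (h : P.Ok) {T t : ℝ} (ht : t ∈ Ioo 0 T) (x : P2) {CN : ℝ} :
    sumW P (w2 CN) t x < ⊤ := by
  classical
  obtain ⟨M, hM⟩ := exists_overlap h T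
  obtain ⟨S, -, hS⟩ := hM t ht x
  unfold sumW
  rw [tsum_eq_sum (s := S)]
  · rw [ENNReal.sum_lt_top]
    intro i _
    split_ifs
    · unfold w2; exact ENNReal.ofReal_lt_top
    · simp
  · intro i hi
    rw [if_neg fun hz => hi (hS i hz)]

lemma ae_coldS_ne_top (h : P.Ok) (hc : ColdPar C.C0 P) {t : ℝ} (ht : 0 < t) (x : P2) :
    ∀ᵐ v : R3, coldS P t x v ≠ ⊤ := by
  obtain ⟨CL, CN, -, -, -, -, h3⟩ := cold_profile h hc (t + 1)
  have ht' : t ∈ Ioo 0 (t + 1) := ⟨ht, by linarith⟩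
  have h4 := (h3 t ht' x).trans_lt (sumW_lt_top h ht' x)
  filter_upwards [ae_lt_top ((meas3_coldS h).slice t x) h4.ne] with v hv
  exact hv.ne

lemma ae_ne_top_of_class (h : P.Ok) (hc : ColdPar C.C0 P) {F : ℝ → P2 → R3 → ℝ≥0∞} {A : ℝ≥0∞}
    (hA : A ≠ ⊤) {t : ℝ} (ht : 0 < t) {x : P2}
    (hcl : ∀ v, F t x v ≤ coldS P t x v + A * (Dm P t x v * em v)) : ∀ᵐ v : R3, F t x v ≠ ⊤ := by
  filter_upwards [ae_coldS_ne_top h hc ht x, ae_Dm_ne_top h ht x] with v h1 h2
  refine ne_top_of_le_ne_top (ENNReal.add_ne_top.2 ⟨h1, ENNReal.mul_ne_top hA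
    (ENNReal.mul_ne_top h2 ?_)⟩) (hcl v)
  unfold em; exact ENNReal.ofReal_ne_top

/-! ### the theorem -/

theorem mildGOn_of_class (h : P.Ok) (hc : ColdPar C.C0 P) {F : ℝ → P2 → R3 → ℝ≥0∞}
    (hF : Meas3 F) (hper : ∀ t v, PerG (fun x => F t x v)) {G0 : P2 → R3 → ℝ} {R TT : ℝ}
    (hG0 : DatumG G0 R) (h0 : ∀ x v, F 0 x v = ENNReal.ofReal (G0 x v)) {A : ℝ≥0∞} (hA : A ≠ ⊤)
    (hcl : ∀ t ∈ Ioo 0 TT, ∀ x v, F t x v ≤ coldS P t x v + A * (Dm P t x v * em v))
    (hmild : MildE F TT) :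
    MildGOn (fun t x v => (F t x v).toReal) G0 R TT := by
  set G : ℝ → P2 → R3 → ℝ := fun t x v => (F t x v).toReal with hG
  have hGm : Measurable (fun p : ℝ × P2 × R3 => G p.1 p.2.1 p.2.2) :=
    ENNReal.measurable_toReal.comp hF
  have hG0' : ∀ t x v, 0 ≤ t → 0 ≤ G t x v := fun _ _ _ _ => ENNReal.toReal_nonneg
  have hclG : ∀ t ∈ Ioo 0 TT, ∀ x v,
      ENNReal.ofReal (G t x v) ≤ coldS P t x v + A * (Dm P t x v * em v) :=
    fun t ht x v => (ofReal_toReal_le _).trans (hcl t ht x v)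
  have hint := int_of_class h hc hGm hG0' hA hclG
  have hGe : Meas3 (fun t x v => ENNReal.ofReal (G t x v)) := ENNReal.measurable_ofReal.comp hGm
  -- gain and loss of G in terms of F
  have hgain : ∀ s ∈ Ioo 0 TT, ∀ y v, gainG G s y v = Qp (F s y) (F s y) v := by
    intro s hs y v
    unfold gainG
    refine (Qp_congr_ae (hF.slice s y) (hGe.slice s y) (fun z => ofReal_toReal_le _) ?_ v).symm
    filter_upwards [ae_ne_top_of_class h hc hA hs.1 (hcl s hs y)] with z hz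
    exact (ENNReal.ofReal_toReal hz).symm
  have hLc : ∀ s ∈ Ioo 0 TT, ∀ y v, Lc (fun z => ENNReal.ofReal (G s y z)) v = Lc (F s y) v := by
    intro s hs y v
    refine Lc_congr_ae ?_ v
    filter_upwards [ae_ne_top_of_class h hc hA hs.1 (hcl s hs y)] with z hz
    exact ENNReal.ofReal_toReal hz
  have hgm : Meas3 (fun s y v => gainG G s y v) := meas3_Qp hGe hGe
  have hlm : Meas3 (fun s y v => lossG G s y v) := Measurable.mul hGe (meas3_Lc hGe)
  have hGper : ∀ t v, PerG (fun x => G t x v) := by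
    intro t v x k
    show (F t (x + latt k) v).toReal = (F t x v).toReal
    rw [show F t (x + latt k) v = F t x v from hper t v x k]
  have hgper : ∀ t v, PerG (fun x => gainG G t x v + lossG G t x v) := by
    intro t v x k
    have e : ∀ z, G t (x + latt k) z = G t x z := fun z => hGper t z x k
    show gainG G t (x + latt k) v + lossG G t (x + latt k) v = gainG G t x v + lossG G t x v
    unfold gainG lossG
    simp_rw [e]
  -- finiteness along flights
  have hfin0 : ∫⁻ p in Ioo 0 TT ×ˢ (cellG ×ˢ (Set.univ : Set R3)),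
      (gainG G p.1 p.2.1 p.2.2 + lossG G p.1 p.2.1 p.2.2) < ⊤ := by
    refine lt_of_le_of_lt ?_ (hint 0)
    refine setLIntegral_mono' (measurableSet_Ioo.prod
      (measurableSet_cellG.prod MeasurableSet.univ)) fun p hp => ?_
    have hone : (1 : ℝ≥0∞) ≤ ENNReal.ofReal ((1 + ‖p.2.2‖ ^ 2) ^ ((0 : ℕ) / 2 : ℝ) +
        Real.log (1 + G p.1 p.2.1 p.2.2)) := by
      rw [ENNReal.one_le_ofReal]
      have h1 : 0 ≤ Real.log (1 + G p.1 p.2.1 p.2.2) :=
        Real.log_nonneg (by have := hG0' p.1 p.2.1 p.2.2 hp.1.1.le; linarith)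
      simp only [Nat.cast_zero, zero_div, Real.rpow_zero]
      linarith
    calc _ = 1 * (gainG G p.1 p.2.1 p.2.2 + lossG G p.1 p.2.1 p.2.2) := (one_mul _).symm
      _ ≤ _ := by gcongr
  have hfl := ae_flight_fin (g := fun s y v => gainG G s y v + lossG G s y v)
    (Measurable.add hgm hlm) hgper hfin0
  refine ⟨hG0, hGm, hG0', hGper, ?_, ?_, hint⟩
  · intro x v
    show (F 0 x v).toReal = G0 x v
    rw [h0, ENNReal.toReal_ofReal (hG0.nonneg x v)]
  · intro t ht htT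
    -- finiteness of F along flights
    have hFm : MeasurableSet {z : ℝ × P2 × R3 | F z.1 z.2.1 z.2.2 ≠ ⊤} := by
      have : {z : ℝ × P2 × R3 | F z.1 z.2.1 z.2.2 ≠ ⊤} =
          ((fun z : ℝ × P2 × R3 => F z.1 z.2.1 z.2.2) ⁻¹' {⊤})ᶜ := by ext z; simp
      rw [this]
      exact (hF (measurableSet_singleton _)).compl
    have hFae : ∀ s ∈ Ioo 0 t, ∀ᵐ p : P2 × R3, F s p.1 p.2 ≠ ⊤ := by
      intro s hs
      have hs' : s ∈ Ioo 0 TT := ⟨hs.1, hs.2.trans_le htT⟩
      have hms : MeasurableSet {p : P2 × R3 | F s p.1 p.2 ≠ ⊤} :=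
        (by fun_prop : Measurable fun p : P2 × R3 => (s, p.1, p.2)) hFm
      refine (Measure.ae_prod_mem_iff_ae_ae_mem hms).2 (Eventually.of_forall fun x => ?_)
      exact ae_ne_top_of_class h hc hA hs.1 (hcl s hs' x)
    have hFfl := ae_flight3 (Q := fun s x v => F s x v ≠ ⊤) (T := t) hFm hFae
    filter_upwards [hmild t ⟨ht, htT⟩, hfl, hFfl] with p hp hp2 hp3
    obtain ⟨x, v⟩ := p
    simp only at hp hp2 hp3 ⊢
    have mgn : Measurable fun s : ℝ => gainG G s (x + s • bar v) v :=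
      hgm.comp (by fun_prop) (by fun_prop) (by fun_prop)
    have mls : Measurable fun s : ℝ => lossG G s (x + s • bar v) v :=
      hlm.comp (by fun_prop) (by fun_prop) (by fun_prop)
    have hsub : ∀ f : ℝ → ℝ≥0∞, ∫⁻ s in Ioo 0 t, f s ≤ ∫⁻ s in Ioo 0 TT, f s := fun f =>
      lintegral_mono_set (Ioo_subset_Ioo_right htT)
    have hgf : ∫⁻ s in Ioo 0 t, gainG G s (x + s • bar v) v ≠ ⊤ := by
      refine ne_top_of_le_ne_top hp2.ne ((lintegral_mono fun s => ?_).trans (hsub _))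
      exact le_self_add
    have hlf : ∫⁻ s in Ioo 0 t, lossG G s (x + s • bar v) v ≠ ⊤ := by
      refine ne_top_of_le_ne_top hp2.ne ((lintegral_mono fun s => ?_).trans (hsub _))
      exact le_add_self
    have e1 : ∫⁻ s in Ioo 0 t, Qp (F s (x + s • bar v)) (F s (x + s • bar v)) v =
        ∫⁻ s in Ioo 0 t, gainG G s (x + s • bar v) v := by
      refine setLIntegral_congr_fun measurableSet_Ioo fun s hs => ?_
      exact (hgain s ⟨hs.1, hs.2.trans_le htT⟩ _ _).symm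
    have e2 : ∫⁻ s in Ioo 0 t, Lc (F s (x + s • bar v)) v * F s (x + s • bar v) v =
        ∫⁻ s in Ioo 0 t, lossG G s (x + s • bar v) v := by
      refine setLIntegral_congr_fun_ae measurableSet_Ioo ?_
      have hae2 : ∀ᵐ s : ℝ, s ∈ Ioo 0 t → F s (x + s • bar v) v ≠ ⊤ :=
        (ae_restrict_iff' measurableSet_Ioo).1 hp3
      filter_upwards [hae2] with s hs hst
      unfold lossG
      rw [hLc s ⟨hst.1, hst.2.trans_le htT⟩, show ENNReal.ofReal (G s (x + s • bar v) v) =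
        F s (x + s • bar v) v from ENNReal.ofReal_toReal (hs hst), mul_comm]
    rw [e1, e2, h0] at hp
    -- to real numbers
    have hFt : F t (x + t • bar v) v ≠ ⊤ := by
      intro hcon
      rw [hcon, top_add] at hp
      exact (ENNReal.add_ne_top.2 ⟨ENNReal.ofReal_ne_top, hgf⟩) hp.symm
    have hr := congrArg ENNReal.toReal hp
    rw [ENNReal.toReal_add hFt hlf, ENNReal.toReal_add ENNReal.ofReal_ne_top hgf,
      ENNReal.toReal_ofReal (hG0.nonneg x v)] at hr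
    have hgae : ∀ᵐ s ∂(volume.restrict (Ioo 0 t)), gainG G s (x + s • bar v) v < ⊤ :=
      ae_lt_top mgn hgf
    have hlae : ∀ᵐ s ∂(volume.restrict (Ioo 0 t)), lossG G s (x + s • bar v) v < ⊤ :=
      ae_lt_top mls hlf
    rw [← integral_toReal mgn.aemeasurable hgae, ← integral_toReal mls.aemeasurable hlae] at hr
    rw [intervalIntegral.integral_of_le ht, integral_Ioc_eq_integral_Ioo, integral_sub
      (integrable_toReal_of_lintegral_ne_top mgn.aemeasurable hgf)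
      (integrable_toReal_of_lintegral_ne_top mls.aemeasurable hlf)]
    show (F t (x + t • bar v) v).toReal = _
    linarith

theorem mildG_of_class (h : P.Ok) (hc : ColdPar C.C0 P) {F : ℝ → P2 → R3 → ℝ≥0∞}
    (hF : Meas3 F) (hper : ∀ t v, PerG (fun x => F t x v)) {G0 : P2 → R3 → ℝ} {R : ℝ}
    (hG0 : DatumG G0 R) (h0 : ∀ x v, F 0 x v = ENNReal.ofReal (G0 x v))
    (hcl : ∀ TT : ℝ, ∃ A : ℝ≥0∞, A ≠ ⊤ ∧
      ∀ t ∈ Ioo 0 TT, ∀ x v, F t x v ≤ coldS P t x v + A * (Dm P t x v * em v))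
    (hmild : ∀ TT : ℝ, MildE F TT) :
    MildG (fun t x v => (F t x v).toReal) G0 R := by
  refine mildG_of_on fun TT => ?_
  obtain ⟨A, hA, hA'⟩ := hcl TT
  exact mildGOn_of_class h hc hF hper hG0 h0 hA hA' (hmild TT)

end Crest.Agent.R68.I
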