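import Crest.Agent.R68.K2b
import Crest.Agent.R68.Carl4
import Crest.Agent.R68.Defs

/-!
Row 68, PART I (helper858), module 3: `lg a = log (1 + a)` on `[0,∞]`.
-/

set_option autoImplicit false
open MeasureTheory Set Filter Metric
open scoped ENNReal Topology Real
open Crest.AnalysisR.VecCalc3 Crest.AnalysisR.PDE.Boltzmann

noncomputable section

namespace Crest.Agent.R68.I

open scoped Classical in
/-- `log (1 + a)` on `[0,∞]` -/
def lg (a : ℝ≥0∞) : ℝ≥0∞ := if a = ⊤ then ⊤ else ENNReal.ofReal (Real.log (1 + a.toReal))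

@[simp] lemma lg_top : lg ⊤ = ⊤ := by simp [lg]

@[simp] lemma lg_zero : lg 0 = 0 := by simp [lg]

lemma lg_ofReal {x : ℝ} (hx : 0 ≤ x) : lg (ENNReal.ofReal x) = ENNReal.ofReal (Real.log (1 + x)) := by
  simp [lg, ENNReal.toReal_ofReal hx]

lemma measurable_lg : Measurable lg := by
  unfold lg
  refine Measurable.ite (measurableSet_singleton _) measurable_const ?_
  exact (Real.measurable_log.comp (measurable_const.add ENNReal.measurable_toReal)).ennreal_ofReal

lemma lg_mono {a b : ℝ≥0∞} (h : a ≤ b) : lg a ≤ lg b := by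
  by_cases hb : b = ⊤
  · subst hb; simp
  · have ha : a ≠ ⊤ := ne_top_of_le_ne_top hb h
    unfold lg
    rw [if_neg ha, if_neg hb]
    apply ENNReal.ofReal_le_ofReal
    apply Real.log_le_log
    · have := ENNReal.toReal_nonneg (a := a); linarith
    · have := (ENNReal.toReal_le_toReal ha hb).2 h; linarith

lemma lg_add_le (a b : ℝ≥0∞) : lg (a + b) ≤ lg a + lg b := by
  by_cases ha : a = ⊤
  · subst ha; simp
  by_cases hb : b = ⊤
  · subst hb; simp
  unfold lg
  rw [if_neg (ENNReal.add_ne_top.2 ⟨ha, hb⟩), if_neg ha, if_neg hb, ENNReal.toReal_add ha hb]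
  have h1 := ENNReal.toReal_nonneg (a := a)
  have h2 := ENNReal.toReal_nonneg (a := b)
  rw [← ENNReal.ofReal_add (Real.log_nonneg (by linarith)) (Real.log_nonneg (by linarith)),
    ← Real.log_mul (by linarith) (by linarith)]
  apply ENNReal.ofReal_le_ofReal
  apply Real.log_le_log (by linarith)
  nlinarith

lemma lg_mul_le (a b : ℝ≥0∞) : lg (a * b) ≤ lg a + lg b := by
  by_cases ha : a = ⊤
  · subst ha; simp
  by_cases hb : b = ⊤
  · subst hb; simp
  unfold lg
  rw [if_neg (ENNReal.mul_ne_top ha hb), if_neg ha, if_neg hb, ENNReal.toReal_mul]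
  have h1 := ENNReal.toReal_nonneg (a := a)
  have h2 := ENNReal.toReal_nonneg (a := b)
  rw [← ENNReal.ofReal_add (Real.log_nonneg (by linarith)) (Real.log_nonneg (by linarith)),
    ← Real.log_mul (by linarith) (by linarith)]
  apply ENNReal.ofReal_le_ofReal
  have h3 := mul_nonneg h1 h2
  apply Real.log_le_log (by linarith)
  nlinarith

lemma lg_le_self (a : ℝ≥0∞) : lg a ≤ a := by
  by_cases ha : a = ⊤
  · subst ha; simp
  unfold lg
  rw [if_neg ha]
  conv_rhs => rw [← ENNReal.ofReal_toReal ha]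
  apply ENNReal.ofReal_le_ofReal
  have h1 := ENNReal.toReal_nonneg (a := a)
  have := Real.log_le_sub_one_of_pos (show 0 < 1 + a.toReal by linarith)
  linarith

lemma lg_ne_top {a : ℝ≥0∞} (ha : a ≠ ⊤) : lg a ≠ ⊤ := ne_top_of_le_ne_top ha (lg_le_self a)

/-- `a lg b + b lg a ≤ a lg a + b lg b` in the weak form -/
lemma mul_lg_le (a b : ℝ≥0∞) : a * lg b ≤ a * lg a + b * lg b := by
  rcases le_total a b with h | h
  · exact (mul_le_mul' h le_rfl).trans le_add_self
  · exact (mul_le_mul' le_rfl (lg_mono h)).trans le_self_add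

lemma add_mul_lg_le (a b : ℝ≥0∞) : (a + b) * lg (a + b) ≤ 2 * (a * lg a) + 2 * (b * lg b) := by
  calc (a + b) * lg (a + b) ≤ (a + b) * (lg a + lg b) := by gcongr; exact lg_add_le a b
    _ = a * lg a + b * lg b + a * lg b + b * lg a := by ring
    _ ≤ a * lg a + b * lg b + a * lg b + b * lg a := le_rfl
    _ ≤ 2 * (a * lg a) + 2 * (b * lg b) := by
        have h : a * lg b + b * lg a ≤ a * lg a + b * lg b := by
          by_cases ha : a = ⊤
          · subst ha
            simp only [lg_top]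
            have : (⊤ : ℝ≥0∞) * ⊤ + b * lg b = ⊤ := by simp
            rw [this]; exact le_top
          by_cases hb : b = ⊤
          · subst hb
            simp only [lg_top]
            have : a * lg a + (⊤ : ℝ≥0∞) * ⊤ = ⊤ := by simp
            rw [this]; exact le_top
          have hla := lg_ne_top ha
          have hlb := lg_ne_top hb
          rw [← ENNReal.toReal_le_toReal (by finiteness) (by finiteness),
            ENNReal.toReal_add (by finiteness) (by finiteness),
            ENNReal.toReal_add (by finiteness) (by finiteness)]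
          simp only [ENNReal.toReal_mul]
          rcases le_total a b with h | h
          · have h1 := (ENNReal.toReal_le_toReal ha hb).2 h
            have h2 := (ENNReal.toReal_le_toReal hla hlb).2 (lg_mono h)
            nlinarith
          · have h1 := (ENNReal.toReal_le_toReal hb ha).2 h
            have h2 := (ENNReal.toReal_le_toReal hlb hla).2 (lg_mono h)
            nlinarith
        calc a * lg a + b * lg b + a * lg b + b * lg a
            = (a * lg a + b * lg b) + (a * lg b + b * lg a) := by ring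
          _ ≤ (a * lg a + b * lg b) + (a * lg a + b * lg b) := by gcongr
          _ = _ := by ring

/-- `log (1 + x) ≤ x ^ κ / κ` -/
lemma log_one_add_le_rpow {x κ : ℝ} (hx : 0 ≤ x) (hκ : 0 < κ) (hκ1 : κ ≤ 1) :
    Real.log (1 + x) ≤ x ^ κ / κ := by
  rw [le_div_iff₀ hκ, mul_comm, ← Real.log_rpow (by linarith)]
  have h1 : (1 + x) ^ κ ≤ 1 + x ^ κ := by
    obtain ⟨y, rfl⟩ : ∃ y : NNReal, (y : ℝ) = x := ⟨⟨x, hx⟩, rfl⟩
    have h2 := NNReal.rpow_add_le_add_rpow (1 : NNReal) y hκ.le hκ1
    rw [NNReal.one_rpow] at h2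
    exact_mod_cast h2
  calc Real.log ((1 + x) ^ κ) ≤ Real.log (1 + x ^ κ) :=
        Real.log_le_log (by positivity) h1
    _ ≤ x ^ κ := by
        have := Real.log_le_sub_one_of_pos (show 0 < 1 + x ^ κ by positivity)
        linarith

lemma lg_le_rpow (a : ℝ≥0∞) {κ : ℝ} (hκ : 0 < κ) (hκ1 : κ ≤ 1) :
    lg a ≤ ENNReal.ofReal (1 / κ) * a ^ κ := by
  by_cases ha : a = ⊤
  · subst ha
    rw [ENNReal.top_rpow_of_pos hκ, ENNReal.mul_top (by positivity)]
    exact le_top
  have h1 := ENNReal.toReal_nonneg (a := a)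
  have h2 : a ^ κ = ENNReal.ofReal (a.toReal ^ κ) := by
    conv_lhs => rw [← ENNReal.ofReal_toReal ha]
    rw [ENNReal.ofReal_rpow_of_nonneg h1 hκ.le]
  unfold lg
  rw [if_neg ha, h2, ← ENNReal.ofReal_mul (by positivity)]
  apply ENNReal.ofReal_le_ofReal
  refine (log_one_add_le_rpow h1 hκ hκ1).trans (le_of_eq ?_)
  ring

open Crest.Agent.R68.K2 in
/-- `lg (|z|^{-3/2}) ≤ (3/2) |z|^{-1}` -/
lemma lg_pk_le (x : ℝ) : lg (pk x) ≤ ENNReal.ofReal (3 / 2) * ENNReal.ofReal x ^ (-1 : ℝ) := by
  have h := lg_le_rpow (pk x) (κ := 2 / 3) (by norm_num) (by norm_num)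
  have h2 : pk x ^ (2 / 3 : ℝ) = ENNReal.ofReal x ^ (-1 : ℝ) := by
    unfold pk
    rw [← ENNReal.rpow_mul]; norm_num
  rw [h2] at h
  refine h.trans (le_of_eq ?_)
  norm_num

end Crest.Agent.R68.I
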