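import Crest.Agent.R68.WGlue3
import Crest.Agent.R68.IntI

/-!
# Row 68, PART I (helper858), module 13: `IntOut`
-/

set_option autoImplicit false
open MeasureTheory Set Filter
open scoped ENNReal NNReal Topology
open Crest.AnalysisR.VecCalc3 Crest.AnalysisR.PDE.Boltzmann

noncomputable section

namespace Crest.Agent.R68.WP

open Crest.Agent.R68.A (en Meas3 meas3_Lc Lc_add)

theorem IntOut_holds {Y : ℝ} (hY : 1 ≤ Y) : IntOut Y := by
  intro K ey hK hey _
  filter_upwards [eventually_ge_atTop 512] with p hp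
  filter_upwards [ev_Ok K Y ey p (by linarith) (by linarith) hey (by omega),
    ev_ColdPar K Y ey p C.C0 hK hY hp] with j0 hok hcp
  intro F G0 R T hT hFm hper hG0 h0 hcl hmild
  obtain ⟨A, hA, hcl⟩ := hcl
  refine I.mildGOn_of_class hok hcp hFm hper hG0 h0 hA
    (fun t ht x v => hcl t ⟨ht.1, ht.2.le⟩ x v) ?_
  intro t ht
  filter_upwards [hmild t ht] with q hq
  rw [h0]
  exact hq

end Crest.Agent.R68.WP
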