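import Crest.Agent.R68.Carl2
import Crest.Agent.R68.K2a

/-!
R68 / K2b (helper616): radial integrals in velocity space and the bilinear Gaussian estimate.
-/

set_option autoImplicit false
open MeasureTheory Set Metric
open scoped ENNReal Real
open Crest.AnalysisR.VecCalc3 Crest.AnalysisR.PDE.Boltzmann

namespace Crest.Agent.R68.K2

theorem lintegral_ball_52 :
    ∫⁻ z : R3, (ball (0 : R3) 1).indicator (fun z => ENNReal.ofReal ‖z‖ ^ (-(5 / 2) : ℝ)) z
      = ENNReal.ofReal (8 * π) := by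
  have hm : Measurable ((ball (0 : R3) 1).indicator
      (fun z : R3 => ENNReal.ofReal ‖z‖ ^ (-(5 / 2) : ℝ))) :=
    Measurable.indicator (by fun_prop) measurableSet_ball
  rw [lintegral_polar hm]
  have h1 : ∀ r ∈ Ioi (0 : ℝ), ENNReal.ofReal (r ^ 2) * ∫⁻ w, (ball (0 : R3) 1).indicator
      (fun z : R3 => ENNReal.ofReal ‖z‖ ^ (-(5 / 2) : ℝ)) (r • w) ∂sphereMeasure
      = (Ioo (0 : ℝ) 1).indicator (fun r => ENNReal.ofReal (4 * π) *
          ENNReal.ofReal (r ^ (-(1 / 2) : ℝ))) r := by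
    intro r hr
    have hr' : (0 : ℝ) < r := hr
    by_cases h3 : r < 1
    · rw [indicator_of_mem (show r ∈ Ioo (0 : ℝ) 1 from ⟨hr, h3⟩)]
      have h4 : ∫⁻ w, (ball (0 : R3) 1).indicator
          (fun z : R3 => ENNReal.ofReal ‖z‖ ^ (-(5 / 2) : ℝ)) (r • w) ∂sphereMeasure
          = ∫⁻ w, ENNReal.ofReal r ^ (-(5 / 2) : ℝ) ∂sphereMeasure := by
        refine lintegral_congr_ae ?_
        filter_upwards [ae_sphereMeasure] with w hw
        have h5 : ‖r • w‖ = r := by rw [norm_smul, hw, mul_one, Real.norm_of_nonneg hr'.le]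
        rw [indicator_of_mem (by rw [mem_ball_zero_iff, h5]; exact h3), h5]
      rw [h4, lintegral_const, sphereMeasure_univ, ENNReal.ofReal_rpow_of_pos hr',
        mul_comm (ENNReal.ofReal (r ^ (-(5 / 2) : ℝ))), ← mul_assoc, mul_comm (ENNReal.ofReal (r ^ 2)),
        mul_assoc, ← ENNReal.ofReal_mul (by positivity)]
      congr 2
      rw [← Real.rpow_natCast, ← Real.rpow_add hr']
      norm_num
    · rw [indicator_of_notMem (show r ∉ Ioo (0 : ℝ) 1 from fun h => h3 h.2)]
      have h4 : ∫⁻ w, (ball (0 : R3) 1).indicator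
          (fun z : R3 => ENNReal.ofReal ‖z‖ ^ (-(5 / 2) : ℝ)) (r • w) ∂sphereMeasure
          = ∫⁻ w, 0 ∂sphereMeasure := by
        refine lintegral_congr_ae ?_
        filter_upwards [ae_sphereMeasure] with w hw
        have h5 : ‖r • w‖ = r := by rw [norm_smul, hw, mul_one, Real.norm_of_nonneg hr'.le]
        rw [indicator_of_notMem (by rw [mem_ball_zero_iff, h5]; exact h3)]
      rw [h4]; simp
  rw [setLIntegral_congr_fun measurableSet_Ioi h1, lintegral_indicator measurableSet_Ioo,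
    Measure.restrict_restrict measurableSet_Ioo, inter_eq_left.2 Ioo_subset_Ioi_self,
    lintegral_const_mul _ (by fun_prop), lintegral_rpow_Ioo (by norm_num),
    ← ENNReal.ofReal_mul (by positivity)]
  congr 1
  ring

theorem abs_le_exp_sq {α : ℝ} (hα : 0 < α) (x : ℝ) :
    |x| * Real.exp (-α * x ^ 2) ≤ (1 / √α) * Real.exp (-(α / 2) * x ^ 2) := by
  have h1 : √α * |x| ≤ Real.exp (α / 2 * x ^ 2) := by
    have h2 := Real.add_one_le_exp (α / 2 * x ^ 2)
    have h3 : (√α * |x|) ^ 2 = α * x ^ 2 := by rw [mul_pow, Real.sq_sqrt hα.le, sq_abs]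
    nlinarith [sq_nonneg (√α * |x| - 1)]
  have h4 : Real.exp (-α * x ^ 2) = Real.exp (-(α / 2) * x ^ 2) * Real.exp (-(α / 2) * x ^ 2) := by
    rw [← Real.exp_add]; congr 1; ring
  have h5 : Real.exp (α / 2 * x ^ 2) * Real.exp (-(α / 2) * x ^ 2) = 1 := by
    rw [← Real.exp_add, ← Real.exp_zero]; congr 1; ring
  have hs : 0 < √α := Real.sqrt_pos.2 hα
  rw [h4, one_div, ← mul_le_mul_iff_right₀ hs, ← mul_assoc, ← mul_assoc, ← mul_assoc,
    mul_inv_cancel₀ hs.ne', one_mul]
  have h6 : √α * |x| * Real.exp (-(α / 2) * x ^ 2) ≤ 1 := by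
    rw [← h5]
    exact mul_le_mul_of_nonneg_right h1 (Real.exp_pos _).le
  nlinarith [Real.exp_pos (-(α / 2) * x ^ 2)]

theorem lintegral_abs_gauss {α : ℝ} (hα : 0 < α) :
    ∫⁻ x : ℝ, ENNReal.ofReal (|x| * Real.exp (-α * x ^ 2))
      ≤ ENNReal.ofReal (1 / √α * √(π / (α / 2))) := by
  calc _ ≤ ∫⁻ x : ℝ, ENNReal.ofReal (1 / √α) * ENNReal.ofReal (Real.exp (-(α / 2) * x ^ 2)) := by
        apply lintegral_mono
        intro x
        beta_reduce
        rw [← ENNReal.ofReal_mul (by positivity)]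
        exact ENNReal.ofReal_le_ofReal (abs_le_exp_sq hα x)
    _ = _ := by
        rw [lintegral_const_mul _ (by fun_prop), lintegral_gauss1 (by positivity),
          ← ENNReal.ofReal_mul (by positivity)]

/-- radial constants -/
noncomputable def Crad (α : ℝ) : ℝ := 1 / √α * √(π / (α / 2)) + √(π / α)

theorem Crad_nonneg (α : ℝ) : 0 ≤ Crad α := by unfold Crad; positivity

theorem lintegral_radial {α : ℝ} (hα : 0 < α) (s : ℝ) :
    ∫⁻ r in Ioi (0 : ℝ), ENNReal.ofReal (r * Real.exp (-α * (s + r) ^ 2))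
      ≤ ENNReal.ofReal (Crad α * (1 + |s|)) := by
  calc _ ≤ ∫⁻ r : ℝ, (ENNReal.ofReal (|s + r| * Real.exp (-α * (s + r) ^ 2)) +
          ENNReal.ofReal |s| * ENNReal.ofReal (Real.exp (-α * (s + r) ^ 2))) := by
        refine (setLIntegral_mono' measurableSet_Ioi fun r hr => ?_).trans
          (setLIntegral_le_lintegral _ _)
        rw [← ENNReal.ofReal_mul (abs_nonneg _), ← ENNReal.ofReal_add (by positivity) (by positivity)]
        apply ENNReal.ofReal_le_ofReal
        rw [← add_mul]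
        apply mul_le_mul_of_nonneg_right _ (Real.exp_pos _).le
        calc r = (s + r) + -s := by ring
          _ ≤ |s + r| + |s| := add_le_add (le_abs_self _) (neg_le_abs s)
    _ = (∫⁻ r : ℝ, ENNReal.ofReal (|r| * Real.exp (-α * r ^ 2))) +
          ENNReal.ofReal |s| * ∫⁻ r : ℝ, ENNReal.ofReal (Real.exp (-α * r ^ 2)) := by
        rw [lintegral_add_left (by fun_prop), lintegral_const_mul _ (by fun_prop),
          lintegral_add_left_eq_self (fun r : ℝ => ENNReal.ofReal (|r| * Real.exp (-α * r ^ 2))) s,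
          lintegral_add_left_eq_self (fun r : ℝ => ENNReal.ofReal (Real.exp (-α * r ^ 2))) s]
    _ ≤ ENNReal.ofReal (1 / √α * √(π / (α / 2))) + ENNReal.ofReal |s| * ENNReal.ofReal (√(π / α)) := by
        gcongr
        · exact lintegral_abs_gauss hα
        · exact (lintegral_gauss1 hα).le
    _ ≤ _ := by
        rw [← ENNReal.ofReal_mul (abs_nonneg _), ← ENNReal.ofReal_add (by positivity) (by positivity)]
        apply ENNReal.ofReal_le_ofReal
        unfold Crad
        have h1 : 0 ≤ 1 / √α * √(π / (α / 2)) := by positivity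
        have h2 : 0 ≤ √(π / α) := by positivity
        nlinarith [abs_nonneg s]

/-- `∫ |z|⁻¹ exp(-α ⟨v+z, z/|z|⟩²) dz ≤ C (1+|v|)` -/
theorem lintegral_R2 {α : ℝ} (hα : 0 < α) (v : R3) :
    ∫⁻ z : R3, ENNReal.ofReal ‖z‖⁻¹ *
        ENNReal.ofReal (Real.exp (-α * (inner ℝ (v + z) (‖z‖⁻¹ • z) : ℝ) ^ 2))
      ≤ ENNReal.ofReal (4 * π * Crad α * (1 + ‖v‖)) := by
  have hm : Measurable fun z : R3 => ENNReal.ofReal ‖z‖⁻¹ *
        ENNReal.ofReal (Real.exp (-α * (inner ℝ (v + z) (‖z‖⁻¹ • z) : ℝ) ^ 2)) := by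
    fun_prop
  rw [lintegral_polar' hm]
  calc _ ≤ ∫⁻ w, ENNReal.ofReal (Crad α * (1 + ‖v‖)) ∂sphereMeasure := by
        refine lintegral_mono_ae ?_
        filter_upwards [ae_sphereMeasure] with w hw
        have h1 : ∀ r ∈ Ioi (0 : ℝ), ENNReal.ofReal (r ^ 2) * (ENNReal.ofReal ‖r • w‖⁻¹ *
          ENNReal.ofReal (Real.exp (-α * (inner ℝ (v + r • w) (‖r • w‖⁻¹ • r • w) : ℝ) ^ 2)))
            = ENNReal.ofReal (r * Real.exp (-α * ((inner ℝ v w : ℝ) + r) ^ 2)) := by
          intro r hr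
          have hr' : (0 : ℝ) < r := hr
          have h5 : ‖r • w‖ = r := by rw [norm_smul, hw, mul_one, Real.norm_of_nonneg hr'.le]
          have h6 : (inner ℝ (v + r • w) w : ℝ) = inner ℝ v w + r := by
            rw [inner_add_left, real_inner_smul_left, real_inner_self_eq_norm_sq, hw]; ring
          rw [h5, smul_smul, inv_mul_cancel₀ hr'.ne', one_smul, h6, ← mul_assoc,
            ← ENNReal.ofReal_mul (by positivity), ← ENNReal.ofReal_mul (by positivity)]
          congr 2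
          field_simp
        rw [setLIntegral_congr_fun measurableSet_Ioi h1]
        refine (lintegral_radial hα _).trans (ENNReal.ofReal_le_ofReal ?_)
        have h7 : |(inner ℝ v w : ℝ)| ≤ ‖v‖ := abs_inner_le_of_unit hw v
        have := Crad_nonneg α
        nlinarith
    _ = _ := by
        rw [lintegral_const, sphereMeasure_univ, ← ENNReal.ofReal_mul
          (mul_nonneg (Crad_nonneg α) (by positivity))]
        congr 1; ring

/-- `∫_{|v+z-a|<1} |z|⁻¹ |v+z-a|^{-3/2} dz ≤ 16 π` -/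
theorem lintegral_two_poles (c : R3) :
    ∫⁻ z : R3, ENNReal.ofReal ‖z‖⁻¹ * (ball (0 : R3) 1).indicator (fun y => pk ‖y‖) (z + c)
      ≤ ENNReal.ofReal (16 * π) := by
  set F : R3 → ℝ≥0∞ := (ball (0 : R3) 1).indicator
    (fun z => ENNReal.ofReal ‖z‖ ^ (-(5 / 2) : ℝ)) with hF
  have hFm : Measurable F := Measurable.indicator (by fun_prop) measurableSet_ball
  have key : ∀ a : ℝ≥0∞, a ^ (-(5 / 2) : ℝ) = a ^ (-1 : ℝ) * a ^ (-(3 / 2) : ℝ) := by
    intro a
    by_cases ha : a = 0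
    · subst ha
      rw [ENNReal.zero_rpow_of_neg (by norm_num), ENNReal.zero_rpow_of_neg (by norm_num),
        ENNReal.zero_rpow_of_neg (by norm_num), ENNReal.top_mul_top]
    · by_cases ha' : a = ⊤
      · subst ha'
        rw [ENNReal.top_rpow_of_neg (by norm_num), ENNReal.top_rpow_of_neg (by norm_num), zero_mul]
      · rw [← ENNReal.rpow_add _ _ ha ha']; norm_num
  have hinv : ∀ z : R3, ENNReal.ofReal ‖z‖⁻¹ ≤ ENNReal.ofReal ‖z‖ ^ (-1 : ℝ) := by
    intro z
    by_cases hz : z = 0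
    · subst hz; simp
    · have hz' : 0 < ‖z‖ := norm_pos_iff.2 hz
      rw [ENNReal.ofReal_rpow_of_pos hz', Real.rpow_neg_one]
  have hle : ∀ z : R3, ENNReal.ofReal ‖z‖⁻¹ *
      (ball (0 : R3) 1).indicator (fun y => pk ‖y‖) (z + c) ≤ F z + F (z + c) := by
    intro z
    by_cases hy : z + c ∈ ball (0 : R3) 1
    · rw [indicator_of_mem hy]
      rcases le_total ‖z + c‖ ‖z‖ with h | h
      · refine le_trans ?_ le_add_self
        rw [hF, indicator_of_mem hy, key]
        unfold pk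
        gcongr
        refine (hinv z).trans ?_
        rw [ENNReal.rpow_neg_one, ENNReal.rpow_neg_one]
        exact ENNReal.inv_le_inv.2 (ENNReal.ofReal_le_ofReal h)
      · refine le_trans ?_ le_self_add
        have hz : z ∈ ball (0 : R3) 1 := by
          rw [mem_ball_zero_iff] at hy ⊢
          exact h.trans_lt hy
        rw [hF, indicator_of_mem hz, key]
        gcongr
        · exact hinv z
        · exact pk_anti h
    · rw [indicator_of_notMem hy, mul_zero]; exact zero_le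
  calc _ ≤ ∫⁻ z : R3, (F z + F (z + c)) := lintegral_mono hle
    _ = ENNReal.ofReal (8 * π) + ENNReal.ofReal (8 * π) := by
        rw [lintegral_add_left hFm, lintegral_add_right_eq_self F c, hF, lintegral_ball_52]
    _ = _ := by
        rw [← ENNReal.ofReal_add (by positivity) (by positivity)]; congr 1; ring

/-- plane integral of the pole weight times a Gaussian -/
theorem planeInt_est {ι : Type*} [Fintype ι] {α : ℝ} (hα : 0 < α) (u : ι → R3) (v y n : R3)
    (hn : ‖n‖ = 1) :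
    planeInt (fun b => Sw u b * ENNReal.ofReal (Real.exp (-α * ‖y + (b - v)‖ ^ 2))) v n
      ≤ Cpl α (Fintype.card ι) * ENNReal.ofReal (Real.exp (-α * (inner ℝ y n : ℝ) ^ 2)) := by
  set b1 : R3 := rot n (vec3 1 0 0) with hb1
  set b2 : R3 := rot n (vec3 0 1 0) with hb2
  have h1 : ‖b1‖ = 1 := by rw [hb1, norm_rot, norm_vec3]; norm_num
  have h2 : ‖b2‖ = 1 := by rw [hb2, norm_rot, norm_vec3]; norm_num
  have h12 : (inner ℝ b1 b2 : ℝ) = 0 := by
    rw [hb1, hb2, inner_rot, inner_vec3]; norm_num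
  have hez : ez = vec3 0 0 1 := by
    apply vec3_ext <;> simp [ez]
  have hn1 : (inner ℝ n b1 : ℝ) = 0 := by
    conv_lhs => rw [← rot_ez hn]
    rw [hb1, inner_rot, hez, inner_vec3]; norm_num
  have hn2 : (inner ℝ n b2 : ℝ) = 0 := by
    conv_lhs => rw [← rot_ez hn]
    rw [hb2, inner_rot, hez, inner_vec3]; norm_num
  have hp : ∀ p : ℝ × ℝ, rot n (vec3 p.1 p.2 0) = p.1 • b1 + p.2 • b2 := by
    intro p
    rw [hb1, hb2, ← map_smul, ← map_smul, ← map_add]
    congr 1
    rw [vec3_smul, vec3_smul, vec3_add]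
    apply vec3_ext <;> simp
  unfold planeInt
  have h := plane_est hα u hn h1 h2 hn1 hn2 h12 v y
  refine le_trans (le_of_eq ?_) h
  refine lintegral_congr fun p => ?_
  rw [hp]
  beta_reduce
  rw [add_sub_cancel_left]

/-- Gaussian -/
noncomputable def ga (α : ℝ) (v : R3) : ℝ≥0∞ := ENNReal.ofReal (Real.exp (-α * ‖v‖ ^ 2))

theorem measurable_ga (α : ℝ) : Measurable (ga α) := by unfold ga; fun_prop

/-- constant of the bilinear estimate -/
noncomputable def Cbil (α : ℝ) (m m' : ℕ) : ℝ≥0∞ :=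
  2 * Cpl α m' * ((1 + m) * ENNReal.ofReal (4 * π * Crad α) + m * ENNReal.ofReal (16 * π))

theorem Cbil_lt_top (α : ℝ) (m m' : ℕ) : Cbil α m m' < ⊤ := by
  unfold Cbil
  refine ENNReal.mul_lt_top (ENNReal.mul_lt_top (by simp) (Cpl_lt_top _ _)) ?_
  refine ENNReal.add_lt_top.2 ⟨ENNReal.mul_lt_top ?_ ENNReal.ofReal_lt_top,
    ENNReal.mul_lt_top (ENNReal.natCast_lt_top m) ENNReal.ofReal_lt_top⟩
  exact ENNReal.add_lt_top.2 ⟨by simp, ENNReal.natCast_lt_top m⟩

end Crest.Agent.R68.K2
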