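import Crest.Agent.R68.K2c

/-!
R68 / K2d (helper616): loss term (K2.4) and the concrete weights (K2.5).
-/

set_option autoImplicit false
open MeasureTheory Set Metric
open scoped ENNReal Real
open Crest.AnalysisR.VecCalc3 Crest.AnalysisR.PDE.Boltzmann

namespace Crest.Agent.R68.K2

theorem Lc_eq (g : R3 → ℝ≥0∞) (v : R3) :
    Lc g v = ∫⁻ vs, ENNReal.ofReal (2 * π * ‖v - vs‖) * g vs := by
  unfold Lc
  exact lintegral_congr fun vs => lintegral_abs_inner_mul _ _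

theorem lintegral_ga {α : ℝ} (hα : 0 < α) : ∫⁻ y : R3, ga α y = ENNReal.ofReal ((π / α) ^ (3 / 2 : ℝ)) := by
  have h := GaussianFourier.integral_rexp_neg_mul_sq_norm (V := R3) hα
  rw [finrank_R3] at h
  have hint : Integrable (fun y : R3 => Real.exp (-α * ‖y‖ ^ 2)) := by
    by_contra hc
    rw [integral_undef hc] at h
    have : 0 < (π / α) ^ ((3 : ℕ) / 2 : ℝ) := Real.rpow_pos_of_pos (by positivity) _
    rw [← h] at this
    exact lt_irrefl _ this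
  unfold ga
  rw [← ofReal_integral_eq_lintegral_ofReal hint (Filter.Eventually.of_forall fun y => (Real.exp_pos _).le),
    h]
  norm_num

theorem one_add_mul_ga {α : ℝ} (hα : 0 < α) (y : R3) :
    ENNReal.ofReal (1 + ‖y‖) * ga α y ≤ ENNReal.ofReal (1 + 1 / √α) * ga (α / 2) y := by
  unfold ga
  rw [← ENNReal.ofReal_mul (by positivity), ← ENNReal.ofReal_mul (by positivity)]
  apply ENNReal.ofReal_le_ofReal
  have h1 := abs_le_exp_sq hα ‖y‖
  rw [abs_of_nonneg (norm_nonneg _)] at h1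
  have h2 : Real.exp (-α * ‖y‖ ^ 2) ≤ Real.exp (-(α / 2) * ‖y‖ ^ 2) := by
    apply Real.exp_le_exp.2
    nlinarith [sq_nonneg ‖y‖]
  nlinarith

theorem ga_le_one {α : ℝ} (hα : 0 ≤ α) (y : R3) : ga α y ≤ 1 := by
  unfold ga
  rw [ENNReal.ofReal_le_one, Real.exp_le_one_iff]
  nlinarith [sq_nonneg ‖y‖]

theorem pk_le_52 {x : ℝ} (hx : x ≤ 1) : pk x ≤ ENNReal.ofReal x ^ (-(5 / 2) : ℝ) := by
  unfold pk
  rw [ENNReal.rpow_neg, ENNReal.rpow_neg]
  apply ENNReal.inv_le_inv.2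
  exact ENNReal.rpow_le_rpow_of_exponent_ge (ENNReal.ofReal_le_one.2 hx) (by norm_num)

/-- constant of the loss estimate -/
noncomputable def Clos (α : ℝ) (m : ℕ) : ℝ≥0∞ :=
  ENNReal.ofReal (2 * π) * (ENNReal.ofReal (1 + 1 / √α) *
    ((1 + m) * ENNReal.ofReal ((π / (α / 2)) ^ (3 / 2 : ℝ)) + m * ENNReal.ofReal (8 * π)))

theorem Clos_lt_top (α : ℝ) (m : ℕ) : Clos α m < ⊤ := by
  unfold Clos
  refine ENNReal.mul_lt_top ENNReal.ofReal_lt_top (ENNReal.mul_lt_top ENNReal.ofReal_lt_top ?_)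
  refine ENNReal.add_lt_top.2 ⟨ENNReal.mul_lt_top ?_ ENNReal.ofReal_lt_top,
    ENNReal.mul_lt_top (ENNReal.natCast_lt_top m) ENNReal.ofReal_lt_top⟩
  exact ENNReal.add_lt_top.2 ⟨by simp, ENNReal.natCast_lt_top m⟩

theorem lintegral_Sw_ga {ι : Type*} [Fintype ι] {α : ℝ} (hα : 0 < α) (u : ι → R3) :
    ∫⁻ y : R3, Sw u y * ga α y ≤ (1 + Fintype.card ι) * ENNReal.ofReal ((π / α) ^ (3 / 2 : ℝ)) +
      Fintype.card ι * ENNReal.ofReal (8 * π) := by
  have h0 : Measurable ((ball (0 : R3) 1).indicator (fun y : R3 => pk ‖y‖)) :=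
    (measurable_pk.comp (by fun_prop)).indicator measurableSet_ball
  have h2 : ∀ i, Measurable fun y : R3 => (ball (0 : R3) 1).indicator (fun y => pk ‖y‖) (y - u i) :=
    fun i => h0.comp (by fun_prop)
  calc _ ≤ ∫⁻ y : R3, ((1 + Fintype.card ι : ℝ≥0∞) * ga α y +
        ∑ i, (ball (0 : R3) 1).indicator (fun y => pk ‖y‖) (y - u i)) := by
        apply lintegral_mono
        intro y
        beta_reduce
        calc _ ≤ ((1 + Fintype.card ι : ℝ≥0∞) +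
              ∑ i, (ball (0 : R3) 1).indicator (fun y => pk ‖y‖) (y - u i)) * ga α y := by
              gcongr
              exact Sw_le u y
          _ ≤ _ := by
              rw [add_mul]
              gcongr
              exact mul_le_of_le_one_right zero_le (ga_le_one hα.le y)
    _ = (1 + Fintype.card ι : ℝ≥0∞) * (∫⁻ y : R3, ga α y) +
        ∑ i, ∫⁻ y : R3, (ball (0 : R3) 1).indicator (fun y => pk ‖y‖) (y - u i) := by
        rw [lintegral_add_left ((measurable_ga α).const_mul _),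
          lintegral_const_mul _ (measurable_ga α),
          lintegral_finsetSum _ (fun i _ => h2 i)]
    _ ≤ (1 + Fintype.card ι : ℝ≥0∞) * ENNReal.ofReal ((π / α) ^ (3 / 2 : ℝ)) +
        ∑ i : ι, ENNReal.ofReal (8 * π) := by
        refine add_le_add (mul_le_mul_right (lintegral_ga hα).le _)
          (Finset.sum_le_sum fun i _ => ?_)
        · rw [lintegral_sub_right_eq_self ((ball (0 : R3) 1).indicator (fun y => pk ‖y‖)) (u i),
            ← lintegral_ball_52]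
          apply lintegral_mono
          intro y
          beta_reduce
          by_cases hy : y ∈ ball (0 : R3) 1
          · rw [indicator_of_mem hy, indicator_of_mem hy]
            exact pk_le_52 (mem_ball_zero_iff.1 hy).le
          · rw [indicator_of_notMem hy]; exact zero_le
    _ = _ := by rw [Finset.sum_const, Finset.card_univ, nsmul_eq_mul]

/-- **(K2.4)** loss -/
theorem Lc_hot {ι : Type*} [Fintype ι] {α : ℝ} (hα : 0 < α) (u : ι → R3) {g : R3 → ℝ≥0∞}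
    {A : ℝ≥0∞} (hg : ∀ y, g y ≤ A * (Sw u y * ga α y)) (v : R3) :
    Lc g v ≤ Clos α (Fintype.card ι) * A * (1 + ENNReal.ofReal ‖v‖) := by
  rw [Lc_eq]
  calc _ ≤ ∫⁻ y, (ENNReal.ofReal (2 * π) * (1 + ENNReal.ofReal ‖v‖) * A *
        ENNReal.ofReal (1 + 1 / √α)) * (Sw u y * ga (α / 2) y) := by
        apply lintegral_mono
        intro y
        beta_reduce
        have h1 : ENNReal.ofReal (2 * π * ‖v - y‖) ≤
            ENNReal.ofReal (2 * π) * ((1 + ENNReal.ofReal ‖v‖) * ENNReal.ofReal (1 + ‖y‖)) := by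
          rw [← ENNReal.ofReal_one, ← ENNReal.ofReal_add zero_le_one (norm_nonneg _),
            ← ENNReal.ofReal_mul (by positivity), ← ENNReal.ofReal_mul (by positivity)]
          apply ENNReal.ofReal_le_ofReal
          gcongr
          have := norm_sub_le v y
          nlinarith [norm_nonneg v, norm_nonneg y, mul_nonneg (norm_nonneg v) (norm_nonneg y)]
        calc _ ≤ (ENNReal.ofReal (2 * π) * ((1 + ENNReal.ofReal ‖v‖) * ENNReal.ofReal (1 + ‖y‖))) *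
              (A * (Sw u y * ga α y)) := mul_le_mul' h1 (hg y)
          _ = (ENNReal.ofReal (2 * π) * (1 + ENNReal.ofReal ‖v‖) * A) * Sw u y *
              (ENNReal.ofReal (1 + ‖y‖) * ga α y) := by ring
          _ ≤ (ENNReal.ofReal (2 * π) * (1 + ENNReal.ofReal ‖v‖) * A) * Sw u y *
              (ENNReal.ofReal (1 + 1 / √α) * ga (α / 2) y) := mul_le_mul_right (one_add_mul_ga hα y) _
          _ = _ := by ring
    _ = (ENNReal.ofReal (2 * π) * (1 + ENNReal.ofReal ‖v‖) * A *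
        ENNReal.ofReal (1 + 1 / √α)) * ∫⁻ y, (Sw u y * ga (α / 2) y) :=
        lintegral_const_mul _ ((measurable_Sw u).mul (measurable_ga _))
    _ ≤ (ENNReal.ofReal (2 * π) * (1 + ENNReal.ofReal ‖v‖) * A *
        ENNReal.ofReal (1 + 1 / √α)) * ((1 + Fintype.card ι) *
          ENNReal.ofReal ((π / (α / 2)) ^ (3 / 2 : ℝ)) + Fintype.card ι * ENNReal.ofReal (8 * π)) :=
        mul_le_mul_right (lintegral_Sw_ga (by positivity) u) _
    _ = _ := by unfold Clos; ring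

/-! ### concrete weights (K2.5) -/

/-- outer Gaussian weight -/
noncomputable def omE (g1 g2 ζ : ℝ) (v : R3) : ℝ≥0∞ :=
  ENNReal.ofReal (Real.exp (-g1 * ‖v‖ ^ 2 - g2 * (max ‖v‖ ζ) ^ 2))

theorem omE_le_ga {g1 g2 ζ : ℝ} (h2 : 0 ≤ g2) (v : R3) : omE g1 g2 ζ v ≤ ga g1 v := by
  unfold omE ga
  apply ENNReal.ofReal_le_ofReal
  apply Real.exp_le_exp.2
  have : 0 ≤ g2 * (max ‖v‖ ζ) ^ 2 := by positivity
  linarith

theorem max_sq {a ζ : ℝ} (ha : 0 ≤ a) (hζ : 0 ≤ ζ) : (max a ζ) ^ 2 = max (a ^ 2) (ζ ^ 2) := by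
  rcases le_total a ζ with h | h
  · rw [max_eq_right h, max_eq_right (by gcongr)]
  · rw [max_eq_left h, max_eq_left (by gcongr)]

/-- (K2.5 i) -/
theorem ga_mul_ga_post (g : ℝ) {v vs w : R3} (hw : ‖w‖ = 1) :
    ga g (postVel v vs w) * ga g (postVelStar v vs w) ≤ ga g v * ga g vs := by
  unfold ga
  rw [← ENNReal.ofReal_mul (Real.exp_pos _).le, ← ENNReal.ofReal_mul (Real.exp_pos _).le,
    ← Real.exp_add, ← Real.exp_add]
  apply ENNReal.ofReal_le_ofReal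
  apply Real.exp_le_exp.2
  have h := post_norm_sq hw v vs
  have hp : g * (‖postVel v vs w‖ ^ 2 + ‖postVelStar v vs w‖ ^ 2) = g * (‖v‖ ^ 2 + ‖vs‖ ^ 2) := by
    rw [h]
  linarith

/-- (K2.5 ii) `E × E → E` -/
theorem omE_mul_omE_post {g1 g2 ζ : ℝ} (h2 : 0 ≤ g2) (hζ : 0 ≤ ζ) {v vs w : R3} (hw : ‖w‖ = 1) :
    omE g1 g2 ζ (postVel v vs w) * omE g1 g2 ζ (postVelStar v vs w) ≤ omE g1 g2 ζ v * ga g1 vs := by
  unfold omE ga
  rw [← ENNReal.ofReal_mul (Real.exp_pos _).le, ← ENNReal.ofReal_mul (Real.exp_pos _).le,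
    ← Real.exp_add, ← Real.exp_add]
  apply ENNReal.ofReal_le_ofReal
  apply Real.exp_le_exp.2
  have h := post_norm_sq hw v vs
  rw [max_sq (norm_nonneg _) hζ, max_sq (norm_nonneg _) hζ, max_sq (norm_nonneg _) hζ]
  have h3 : max (‖v‖ ^ 2) (ζ ^ 2) ≤
      max (‖postVel v vs w‖ ^ 2) (ζ ^ 2) + max (‖postVelStar v vs w‖ ^ 2) (ζ ^ 2) := by
    apply max_le
    · have a1 := le_max_left (‖postVel v vs w‖ ^ 2) (ζ ^ 2)
      have a2 := le_max_left (‖postVelStar v vs w‖ ^ 2) (ζ ^ 2)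
      nlinarith [sq_nonneg ‖vs‖]
    · have a1 := le_max_right (‖postVel v vs w‖ ^ 2) (ζ ^ 2)
      have a2 := le_max_left (‖postVelStar v vs w‖ ^ 2) (ζ ^ 2)
      nlinarith [sq_nonneg ‖postVelStar v vs w‖]
  have h4 := mul_le_mul_of_nonneg_left h3 h2
  have hp : g1 * (‖postVel v vs w‖ ^ 2 + ‖postVelStar v vs w‖ ^ 2) = g1 * (‖v‖ ^ 2 + ‖vs‖ ^ 2) := by
    rw [h]
  linarith

/-- (K2.5 ii) `gauss × E → E` if the first exponent is at least `g1 + g2` -/
theorem ga_mul_omE_post {g g1 g2 ζ : ℝ} (h2 : 0 ≤ g2) (hζ : 0 ≤ ζ) (hg : g1 + g2 ≤ g)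
    {v vs w : R3} (hw : ‖w‖ = 1) :
    ga g (postVel v vs w) * omE g1 g2 ζ (postVelStar v vs w) ≤ omE g1 g2 ζ v * ga g1 vs := by
  unfold omE ga
  rw [← ENNReal.ofReal_mul (Real.exp_pos _).le, ← ENNReal.ofReal_mul (Real.exp_pos _).le,
    ← Real.exp_add, ← Real.exp_add]
  apply ENNReal.ofReal_le_ofReal
  apply Real.exp_le_exp.2
  have h := post_norm_sq hw v vs
  rw [max_sq (norm_nonneg _) hζ, max_sq (norm_nonneg _) hζ]
  have h3 : max (‖v‖ ^ 2) (ζ ^ 2) ≤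
      ‖postVel v vs w‖ ^ 2 + max (‖postVelStar v vs w‖ ^ 2) (ζ ^ 2) := by
    apply max_le
    · have a2 := le_max_left (‖postVelStar v vs w‖ ^ 2) (ζ ^ 2)
      nlinarith [sq_nonneg ‖vs‖]
    · have a2 := le_max_right (‖postVelStar v vs w‖ ^ 2) (ζ ^ 2)
      nlinarith [sq_nonneg ‖postVel v vs w‖]
  have h4 := mul_le_mul_of_nonneg_left h3 h2
  have h5 : (g1 + g2) * ‖postVel v vs w‖ ^ 2 ≤ g * ‖postVel v vs w‖ ^ 2 := by gcongr
  have hp : g1 * (‖postVel v vs w‖ ^ 2 + ‖postVelStar v vs w‖ ^ 2) = g1 * (‖v‖ ^ 2 + ‖vs‖ ^ 2) := by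
    rw [h]
  linarith

/-- (K2.5 ii) mirror image -/
theorem omE_mul_ga_post {g g1 g2 ζ : ℝ} (h2 : 0 ≤ g2) (hζ : 0 ≤ ζ) (hg : g1 + g2 ≤ g)
    {v vs w : R3} (hw : ‖w‖ = 1) :
    omE g1 g2 ζ (postVel v vs w) * ga g (postVelStar v vs w) ≤ omE g1 g2 ζ v * ga g1 vs := by
  unfold omE ga
  rw [← ENNReal.ofReal_mul (Real.exp_pos _).le, ← ENNReal.ofReal_mul (Real.exp_pos _).le,
    ← Real.exp_add, ← Real.exp_add]
  apply ENNReal.ofReal_le_ofReal
  apply Real.exp_le_exp.2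
  have h := post_norm_sq hw v vs
  rw [max_sq (norm_nonneg _) hζ, max_sq (norm_nonneg _) hζ]
  have h3 : max (‖v‖ ^ 2) (ζ ^ 2) ≤
      ‖postVelStar v vs w‖ ^ 2 + max (‖postVel v vs w‖ ^ 2) (ζ ^ 2) := by
    apply max_le
    · have a2 := le_max_left (‖postVel v vs w‖ ^ 2) (ζ ^ 2)
      nlinarith [sq_nonneg ‖vs‖]
    · have a2 := le_max_right (‖postVel v vs w‖ ^ 2) (ζ ^ 2)
      nlinarith [sq_nonneg ‖postVelStar v vs w‖]
  have h4 := mul_le_mul_of_nonneg_left h3 h2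
  have h5 : (g1 + g2) * ‖postVelStar v vs w‖ ^ 2 ≤ g * ‖postVelStar v vs w‖ ^ 2 := by gcongr
  have hp : g1 * (‖postVel v vs w‖ ^ 2 + ‖postVelStar v vs w‖ ^ 2) = g1 * (‖v‖ ^ 2 + ‖vs‖ ^ 2) := by
    rw [h]
  linarith

/-- (K2.5) cold partner -/
theorem omE_cold_post {g1 g2 ζ R' : ℝ} (h1 : 0 ≤ g1) (h2 : 0 ≤ g2) (hζ : 0 ≤ ζ)
    {v vs w : R3} (hw : ‖w‖ = 1) (hR : ‖postVel v vs w‖ ≤ R') :
    omE g1 g2 ζ (postVelStar v vs w) ≤
      ENNReal.ofReal (Real.exp ((g1 + g2) * R' ^ 2)) * omE g1 g2 ζ v * ga g1 vs := by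
  unfold omE ga
  rw [← ENNReal.ofReal_mul (Real.exp_pos _).le, ← ENNReal.ofReal_mul (by positivity),
    ← Real.exp_add, ← Real.exp_add]
  apply ENNReal.ofReal_le_ofReal
  apply Real.exp_le_exp.2
  have h := post_norm_sq hw v vs
  have hR2 : ‖postVel v vs w‖ ^ 2 ≤ R' ^ 2 := by gcongr
  rw [max_sq (norm_nonneg _) hζ, max_sq (norm_nonneg _) hζ]
  have h3 : max (‖v‖ ^ 2) (ζ ^ 2) ≤ R' ^ 2 + max (‖postVelStar v vs w‖ ^ 2) (ζ ^ 2) := by
    apply max_le
    · have a2 := le_max_left (‖postVelStar v vs w‖ ^ 2) (ζ ^ 2)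
      nlinarith [sq_nonneg ‖vs‖]
    · have a2 := le_max_right (‖postVelStar v vs w‖ ^ 2) (ζ ^ 2)
      nlinarith [sq_nonneg R']
  have h4 := mul_le_mul_of_nonneg_left h3 h2
  have h5 := mul_le_mul_of_nonneg_left hR2 h1
  have hp : g1 * (‖postVel v vs w‖ ^ 2 + ‖postVelStar v vs w‖ ^ 2) = g1 * (‖v‖ ^ 2 + ‖vs‖ ^ 2) := by
    rw [h]
  linarith

/-- (K2.5) cold partner, pure Gaussian -/
theorem ga_cold_post {g R' : ℝ} (h1 : 0 ≤ g) {v vs w : R3} (hw : ‖w‖ = 1)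
    (hR : ‖postVel v vs w‖ ≤ R') :
    ga g (postVelStar v vs w) ≤ ENNReal.ofReal (Real.exp (g * R' ^ 2)) * ga g v * ga g vs := by
  unfold ga
  rw [← ENNReal.ofReal_mul (Real.exp_pos _).le, ← ENNReal.ofReal_mul (by positivity),
    ← Real.exp_add, ← Real.exp_add]
  apply ENNReal.ofReal_le_ofReal
  apply Real.exp_le_exp.2
  have h := post_norm_sq hw v vs
  have hR2 : ‖postVel v vs w‖ ^ 2 ≤ R' ^ 2 := by gcongr
  have h5 := mul_le_mul_of_nonneg_left hR2 h1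
  have hp : g * (‖postVel v vs w‖ ^ 2 + ‖postVelStar v vs w‖ ^ 2) = g * (‖v‖ ^ 2 + ‖vs‖ ^ 2) := by
    rw [h]
  linarith

end Crest.Agent.R68.K2
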