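import Crest.Agent.R68.K4a
import Crest.Agent.R68.Carl4
import Crest.Agent.R68.CGauss

/-!
# Row 68, K4b (helper616): hot × hot gains and hot losses with the weights of `Defs`

All constants are explicit reals depending only on `Y` and the Gaussian exponent.
-/

set_option autoImplicit false
open MeasureTheory Set Metric
open scoped ENNReal Real
open Crest.AnalysisR.VecCalc3 Crest.AnalysisR.PDE.Boltzmann

noncomputable section

namespace Crest.Agent.R68.K4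

open Crest.Agent.R68.K2 Crest.Agent.R68.DPole

/-- constant of the pole lemma -/
def Cd (Y : ℝ) : ℝ≥0∞ := ENNReal.ofReal ((8 + 6 * Y) ^ 2)

theorem Cd_lt_top (Y : ℝ) : Cd Y < ⊤ := ENNReal.ofReal_lt_top

/-- constant of the hot gain (extended form) -/
def CQe (Y g : ℝ) : ℝ≥0∞ :=
  ENNReal.ofReal (Real.exp 1) * (Cbil (g / 4) (Np Y * 2) (Np Y * 2) * Cd Y * Cd Y)

theorem CQe_lt_top (Y g : ℝ) : CQe Y g < ⊤ :=
  ENNReal.mul_lt_top ENNReal.ofReal_lt_top
    (ENNReal.mul_lt_top (ENNReal.mul_lt_top (Cbil_lt_top _ _ _) (Cd_lt_top _)) (Cd_lt_top _))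

/-- constant of the hot gain -/
def CQ (Y g : ℝ) : ℝ := (CQe Y g).toReal

theorem CQ_nonneg (Y g : ℝ) : 0 ≤ CQ Y g := ENNReal.toReal_nonneg

theorem ofReal_CQ (Y g : ℝ) : ENNReal.ofReal (CQ Y g) = CQe Y g :=
  ENNReal.ofReal_toReal (CQe_lt_top Y g).ne

/-- constant of the hot loss (extended form) -/
def CLe (Y g : ℝ) : ℝ≥0∞ := Clos (g / 4) (Np Y * 2) * Cd Y

theorem CLe_lt_top (Y g : ℝ) : CLe Y g < ⊤ := ENNReal.mul_lt_top (Clos_lt_top _ _) (Cd_lt_top _)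

/-- constant of the hot loss -/
def CL (Y g : ℝ) : ℝ := (CLe Y g).toReal

theorem CL_nonneg (Y g : ℝ) : 0 ≤ CL Y g := ENNReal.toReal_nonneg

theorem ofReal_CL (Y g : ℝ) : ENNReal.ofReal (CL Y g) = CLe Y g :=
  ENNReal.ofReal_toReal (CLe_lt_top Y g).ne

theorem one_add_ofReal (v : R3) : 1 + ENNReal.ofReal ‖v‖ = ENNReal.ofReal (1 + ‖v‖) := by
  rw [ENNReal.ofReal_add zero_le_one (norm_nonneg _), ENNReal.ofReal_one]

variable {P : Par} {t : ℝ}

/-- abstract hot × hot estimate with the weight `D^{-3/2}` -/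
theorem Qp_Dm_Dm (hP : ParD P) (ht : 0 ≤ t) (ht1 : t ≤ 1) (x : P2) {α : ℝ} (hα : 0 < α)
    {om1 om2 : R3 → ℝ≥0∞} {om : ℝ≥0∞} (v : R3)
    (hom : ∀ vs w : R3, ‖w‖ = 1 →
      om1 (postVel v vs w) * om2 (postVelStar v vs w) ≤ om * ga α vs) :
    Qp (fun y => om1 y * Dm P t x y) (fun y => om2 y * Dm P t x y) v ≤
      Cbil α (Np P.Y * 2) (Np P.Y * 2) * Cd P.Y * Cd P.Y * (1 + ENNReal.ofReal ‖v‖) * om := by
  obtain ⟨u, hu⟩ := exists_Sw hP ht ht1 x
  have h := Qp_hot (f := fun y => om1 y * Dm P t x y) (g := fun y => om2 y * Dm P t x y)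
    (om1 := om1) (om2 := om2) (om := fun _ => om) (A := Cd P.Y) (A' := Cd P.Y) hα u u v
    (fun y => by
      calc om1 y * Dm P t x y ≤ om1 y * (Cd P.Y * Sw u y) := mul_le_mul_right (hu y) _
        _ = _ := by ring)
    (fun y => by
      calc om2 y * Dm P t x y ≤ om2 y * (Cd P.Y * Sw u y) := mul_le_mul_right (hu y) _
        _ = _ := by ring) hom
  rw [card_ix] at h
  exact h

/-- abstract loss estimate with the weight `D^{-3/2}` -/
theorem Lc_Dm (hP : ParD P) (ht : 0 ≤ t) (ht1 : t ≤ 1) (x : P2) {α : ℝ} (hα : 0 < α)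
    {om1 : R3 → ℝ≥0∞} {A : ℝ≥0∞} (v : R3) (hom : ∀ y, om1 y ≤ A * ga α y) :
    Lc (fun y => om1 y * Dm P t x y) v ≤
      Clos α (Np P.Y * 2) * Cd P.Y * A * (1 + ENNReal.ofReal ‖v‖) := by
  obtain ⟨u, hu⟩ := exists_Sw hP ht ht1 x
  have h := Lc_hot (g := fun y => om1 y * Dm P t x y) (A := Cd P.Y * A) hα u
    (fun y => by
      calc om1 y * Dm P t x y ≤ (A * ga α y) * (Cd P.Y * Sw u y) := mul_le_mul' (hom y) (hu y)
        _ = _ := by ring) v
  rw [card_ix] at h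
  refine h.trans_eq ?_
  ring

theorem le_mul_Dm (P : Par) (t : ℝ) (x : P2) (v : R3) (a : ℝ≥0∞) : a ≤ a * Dm P t x v :=
  le_mul_of_one_le_right zero_le (K.one_le_Dm P t x v)

/-- common last step of the gain estimates -/
theorem gain_fin {Y g : ℝ} {om B : ℝ≥0∞} {v : R3} (h : om ≤ ENNReal.ofReal (Real.exp 1) * B) :
    Cbil (g / 4) (Np Y * 2) (Np Y * 2) * Cd Y * Cd Y * (1 + ENNReal.ofReal ‖v‖) * om ≤
      ENNReal.ofReal (CQ Y g * (1 + ‖v‖)) * B := by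
  rw [ENNReal.ofReal_mul (CQ_nonneg _ _), ofReal_CQ, ← one_add_ofReal]
  unfold CQe
  calc _ ≤ Cbil (g / 4) (Np Y * 2) (Np Y * 2) * Cd Y * Cd Y * (1 + ENNReal.ofReal ‖v‖) *
        (ENNReal.ofReal (Real.exp 1) * B) := mul_le_mul_right h _
    _ = _ := by ring

theorem le_exp_one_mul (a : ℝ≥0∞) : a ≤ ENNReal.ofReal (Real.exp 1) * a := by
  refine le_mul_of_one_le_left zero_le ?_
  rw [← ENNReal.ofReal_one]
  exact ENNReal.ofReal_le_ofReal (Real.one_le_exp zero_le_one)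

/-! ### gains -/

theorem Qp_Z_Z (hP : ParD P) (ht : 0 ≤ t) (ht1 : t ≤ 1) {g : ℝ} (hg : 1 / 50 ≤ g) (x : P2)
    (v : R3) :
    Qp (Zw P g t x) (Zw P g t x) v ≤ ENNReal.ofReal (CQ P.Y g * (1 + ‖v‖)) * Zw P g t x v := by
  have h := Qp_Dm_Dm hP ht ht1 x (α := g / 4) (by linarith) (om1 := fun y => ENNReal.ofReal (gau g t y))
    (om2 := fun y => ENNReal.ofReal (gau g t y)) (om := ENNReal.ofReal (gau g t v)) v (by
      intro vs w hw
      simp only [gau_eq_ga]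
      refine (ga_mul_ga_post _ hw).trans ?_
      exact mul_le_mul_right (ga_anti (by linarith [half_le hg ht1]) vs) _)
  refine h.trans (gain_fin ?_)
  exact (le_mul_Dm P t x v _).trans (le_exp_one_mul _)

/-- `Z × EE → EE` -/
theorem Qp_Z_B2 (hP : ParD P) (ht : 0 ≤ t) (ht1 : t ≤ 1) {g g1 g2 b : ℝ} (hg1 : 1 / 50 ≤ g1)
    (hg2 : 0 ≤ g2) (hg : g1 + g2 ≤ g) (x : P2) (v : R3) :
    Qp (Zw P g t x) (B2 P g1 g2 b t x) v ≤
      ENNReal.ofReal (CQ P.Y g1 * (1 + ‖v‖)) * B2 P g1 g2 b t x v := by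
  have hζ : 0 ≤ distG x / t := div_nonneg (distG_nonneg x) ht
  have h := Qp_Dm_Dm hP ht ht1 x (α := g1 / 4) (by linarith)
    (om1 := fun y => ENNReal.ofReal (gau g t y))
    (om2 := fun y => ENNReal.ofReal (t ^ b) * omE (g1 - √t / 100) g2 (distG x / t) y)
    (om := ENNReal.ofReal (t ^ b) * omE (g1 - √t / 100) g2 (distG x / t) v) v (by
      intro vs w hw
      simp only [gau_eq_ga]
      calc _ = ENNReal.ofReal (t ^ b) * (ga (g - √t / 100) (postVel v vs w) *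
            omE (g1 - √t / 100) g2 (distG x / t) (postVelStar v vs w)) := by ring
        _ ≤ ENNReal.ofReal (t ^ b) * (omE (g1 - √t / 100) g2 (distG x / t) v *
            ga (g1 - √t / 100) vs) := by
            exact mul_le_mul_right (ga_mul_omE_post (g := g - √t / 100) (g1 := g1 - √t / 100)
              hg2 hζ (by linarith) hw) _
        _ ≤ ENNReal.ofReal (t ^ b) * (omE (g1 - √t / 100) g2 (distG x / t) v *
            ga (g1 / 4) vs) := by
            gcongr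
            exact ga_anti (by linarith [half_le hg1 ht1]) vs
        _ = _ := by ring)
  have e : B2 P g1 g2 b t x = fun y =>
      (ENNReal.ofReal (t ^ b) * omE (g1 - √t / 100) g2 (distG x / t) y) * Dm P t x y := by
    funext y; exact B2_eq_omE P g1 g2 b t x y
  rw [e]
  refine h.trans (gain_fin ?_)
  exact (le_mul_Dm P t x v _).trans (le_exp_one_mul _)

/-- `EE × Z → EE` -/
theorem Qp_B2_Z (hP : ParD P) (ht : 0 ≤ t) (ht1 : t ≤ 1) {g g1 g2 b : ℝ} (hg1 : 1 / 50 ≤ g1)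
    (hg2 : 0 ≤ g2) (hg : g1 + g2 ≤ g) (x : P2) (v : R3) :
    Qp (B2 P g1 g2 b t x) (Zw P g t x) v ≤
      ENNReal.ofReal (CQ P.Y g1 * (1 + ‖v‖)) * B2 P g1 g2 b t x v := by
  rw [Qp_comm (measurable_B2_v hP g1 g2 b ht x) (measurable_Zw_v hP g ht x)]
  exact Qp_Z_B2 hP ht ht1 hg1 hg2 hg x v

/-- `EE × EE → EE`, with the additional power of `t` -/
theorem Qp_B2_B2 (hP : ParD P) (ht : 0 ≤ t) (ht1 : t ≤ 1) {g1 g2 b b' : ℝ} (hg1 : 1 / 50 ≤ g1)
    (hg2 : 0 ≤ g2) (x : P2) (v : R3) :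
    Qp (B2 P g1 g2 b t x) (B2 P g1 g2 b' t x) v ≤
      ENNReal.ofReal (CQ P.Y g1 * (1 + ‖v‖)) * (ENNReal.ofReal (t ^ b) * B2 P g1 g2 b' t x v) := by
  have hζ : 0 ≤ distG x / t := div_nonneg (distG_nonneg x) ht
  have h := Qp_Dm_Dm hP ht ht1 x (α := g1 / 4) (by linarith)
    (om1 := fun y => ENNReal.ofReal (t ^ b) * omE (g1 - √t / 100) g2 (distG x / t) y)
    (om2 := fun y => ENNReal.ofReal (t ^ b') * omE (g1 - √t / 100) g2 (distG x / t) y)
    (om := ENNReal.ofReal (t ^ b) * (ENNReal.ofReal (t ^ b') *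
      omE (g1 - √t / 100) g2 (distG x / t) v)) v (by
      intro vs w hw
      calc _ = ENNReal.ofReal (t ^ b) * ENNReal.ofReal (t ^ b') *
            (omE (g1 - √t / 100) g2 (distG x / t) (postVel v vs w) *
            omE (g1 - √t / 100) g2 (distG x / t) (postVelStar v vs w)) := by ring
        _ ≤ ENNReal.ofReal (t ^ b) * ENNReal.ofReal (t ^ b') *
            (omE (g1 - √t / 100) g2 (distG x / t) v * ga (g1 - √t / 100) vs) := by
            exact mul_le_mul_right (omE_mul_omE_post hg2 hζ hw) _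
        _ ≤ ENNReal.ofReal (t ^ b) * ENNReal.ofReal (t ^ b') *
            (omE (g1 - √t / 100) g2 (distG x / t) v * ga (g1 / 4) vs) := by
            gcongr
            exact ga_anti (by linarith [half_le hg1 ht1]) vs
        _ = _ := by ring)
  have e : ∀ b : ℝ, B2 P g1 g2 b t x = fun y =>
      (ENNReal.ofReal (t ^ b) * omE (g1 - √t / 100) g2 (distG x / t) y) * Dm P t x y := by
    intro b; funext y; exact B2_eq_omE P g1 g2 b t x y
  rw [e b, e b']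
  refine h.trans (gain_fin ?_)
  refine le_trans ?_ (le_exp_one_mul _)
  rw [← mul_assoc (ENNReal.ofReal (t ^ b)) _ (Dm P t x v)]
  exact le_mul_Dm P t x v _

/-- `B1 × B1 → B1` -/
theorem Qp_B1_B1 (hP : ParD P) (ht : 0 ≤ t) (ht1 : t ≤ 1) {Lam rh g b : ℝ} (hg : 1 / 50 ≤ g)
    (hrh : 0 < rh) (hb : 1 ≤ b) (hL : 8 * b * (b + 1) ≤ g * Lam) (x : P2) (v : R3) :
    Qp (B1 P Lam rh g b t x) (B1 P Lam rh g b t x) v ≤
      ENNReal.ofReal (CQ P.Y g * (1 + ‖v‖)) * B1 P Lam rh g b t x v := by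
  have hL0 : 0 < Lam := by
    by_contra hc
    push Not at hc
    have h1 : g * Lam ≤ 0 := mul_nonpos_of_nonneg_of_nonpos (by linarith) hc
    have h2 : 0 < 8 * b * (b + 1) := by positivity
    linarith
  have hrat : b * (b + 1) / Lam ≤ g / 8 := by
    rw [div_le_div_iff₀ hL0 (by norm_num)]
    linarith
  have h := Qp_Dm_Dm hP ht ht1 x (α := g / 4) (by linarith)
    (om1 := fun y => omB Lam rh g b t x y) (om2 := fun y => omB Lam rh g b t x y)
    (om := ENNReal.ofReal (Real.exp 1) * omB Lam rh g b t x v) v (by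
      intro vs w hw
      refine (mul_le_mul_right (omB_le_ga hL0.le ht (by linarith) x _) _).trans ?_
      unfold omB ga
      have hpn := post_norm_sq hw v vs
      have h1 := K.Th_coll (Lam := Lam) (b := b) (ρ := rh ^ 2) (s := t) hL0 hb (by positivity) ht x
        v vs (postVel v vs w) (by nlinarith [sq_nonneg ‖postVelStar v vs w‖])
      have hT0 : 0 ≤ (min 1 (Th Lam t x v / rh ^ 2)) ^ b :=
        Real.rpow_nonneg (K.minTh_nonneg hL0.le ht x v) _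
      rw [← ENNReal.ofReal_mul (mul_nonneg (Real.rpow_nonneg (K.minTh_nonneg hL0.le ht x _) _)
        (K.gau_pos _ _ _).le), ← ENNReal.ofReal_mul (by positivity), ← ENNReal.ofReal_mul
        (mul_nonneg (by positivity) (mul_nonneg hT0 (K.gau_pos _ _ _).le))]
      apply ENNReal.ofReal_le_ofReal
      unfold gau
      have hsum : ‖postVel v vs w‖ ^ 2 + ‖postVelStar v vs w‖ ^ 2 = ‖v‖ ^ 2 + ‖vs‖ ^ 2 := by
        linarith
      calc (min 1 (Th Lam t x (postVel v vs w) / rh ^ 2)) ^ b *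
            Real.exp (-(g - √t / 100) * ‖postVel v vs w‖ ^ 2) *
            Real.exp (-(g - √t / 100) * ‖postVelStar v vs w‖ ^ 2)
          = (min 1 (Th Lam t x (postVel v vs w) / rh ^ 2)) ^ b *
            Real.exp (-(g - √t / 100) * (‖v‖ ^ 2 + ‖vs‖ ^ 2)) := by
            rw [mul_assoc, ← Real.exp_add, ← hsum]; congr 2; ring
        _ ≤ (Real.exp (1 + b * (b + 1) / Lam * t * ‖vs‖ ^ 2) *
            (min 1 (Th Lam t x v / rh ^ 2)) ^ b) *
            Real.exp (-(g - √t / 100) * (‖v‖ ^ 2 + ‖vs‖ ^ 2)) := by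
            exact mul_le_mul_of_nonneg_right h1 (Real.exp_pos _).le
        _ = (min 1 (Th Lam t x v / rh ^ 2)) ^ b *
            (Real.exp (1 + b * (b + 1) / Lam * t * ‖vs‖ ^ 2) *
            Real.exp (-(g - √t / 100) * (‖v‖ ^ 2 + ‖vs‖ ^ 2))) := by ring
        _ ≤ (min 1 (Th Lam t x v / rh ^ 2)) ^ b *
            (Real.exp 1 * Real.exp (-(g - √t / 100) * ‖v‖ ^ 2) *
              Real.exp (-(g / 4) * ‖vs‖ ^ 2)) := by
            apply mul_le_mul_of_nonneg_left _ hT0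
            rw [← Real.exp_add, ← Real.exp_add, ← Real.exp_add]
            apply Real.exp_le_exp.2
            have h3 := half_le hg ht1
            have h4 : b * (b + 1) / Lam * t ≤ g / 8 := by
              calc b * (b + 1) / Lam * t ≤ b * (b + 1) / Lam * 1 := by gcongr
                _ ≤ g / 8 := by rw [mul_one]; exact hrat
            have h5 := mul_le_mul_of_nonneg_right h4 (sq_nonneg ‖vs‖)
            have h6 := mul_le_mul_of_nonneg_right h3 (sq_nonneg ‖vs‖)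
            nlinarith [sq_nonneg ‖vs‖]
        _ = _ := by ring)
  refine h.trans (gain_fin ?_)
  gcongr
  exact le_mul_Dm P t x v _

/-- `B1 × B2 → B2` -/
theorem Qp_B1_B2 (hP : ParD P) (ht : 0 ≤ t) (ht1 : t ≤ 1) {Lam rh g b g1 g2 b' : ℝ}
    (hL : 0 ≤ Lam) (hb : 0 ≤ b) (hg1 : 1 / 50 ≤ g1) (hg2 : 0 ≤ g2) (hg : g1 + g2 ≤ g) (x : P2)
    (v : R3) :
    Qp (B1 P Lam rh g b t x) (B2 P g1 g2 b' t x) v ≤
      ENNReal.ofReal (CQ P.Y g1 * (1 + ‖v‖)) * B2 P g1 g2 b' t x v :=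
  (C.Qp_mono (fun y => B1_le_Zw P hL ht hb x y) (fun _ => le_rfl) v).trans
    (Qp_Z_B2 hP ht ht1 hg1 hg2 hg x v)

/-- `B2 × B1 → B2` -/
theorem Qp_B2_B1 (hP : ParD P) (ht : 0 ≤ t) (ht1 : t ≤ 1) {Lam rh g b g1 g2 b' : ℝ}
    (hL : 0 ≤ Lam) (hb : 0 ≤ b) (hg1 : 1 / 50 ≤ g1) (hg2 : 0 ≤ g2) (hg : g1 + g2 ≤ g) (x : P2)
    (v : R3) :
    Qp (B2 P g1 g2 b' t x) (B1 P Lam rh g b t x) v ≤
      ENNReal.ofReal (CQ P.Y g1 * (1 + ‖v‖)) * B2 P g1 g2 b' t x v :=
  (C.Qp_mono (fun _ => le_rfl) (fun y => B1_le_Zw P hL ht hb x y) v).trans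
    (Qp_B2_Z hP ht ht1 hg1 hg2 hg x v)

/-! ### losses -/

theorem Lc_Z (hP : ParD P) (ht : 0 ≤ t) (ht1 : t ≤ 1) {g : ℝ} (hg : 1 / 50 ≤ g) (x : P2)
    (v : R3) : Lc (Zw P g t x) v ≤ ENNReal.ofReal (CL P.Y g * (1 + ‖v‖)) := by
  have h := Lc_Dm hP ht ht1 x (α := g / 4) (by linarith) (A := 1)
    (om1 := fun y => ENNReal.ofReal (gau g t y)) v (by
      intro y
      rw [gau_eq_ga, one_mul]
      exact ga_anti (by linarith [half_le hg ht1]) y)
  rw [ENNReal.ofReal_mul (CL_nonneg _ _), ofReal_CL, ← one_add_ofReal]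
  refine h.trans_eq ?_
  unfold CLe
  ring

theorem Lc_B1 (hP : ParD P) (ht : 0 ≤ t) (ht1 : t ≤ 1) {Lam rh g b : ℝ} (hL : 0 ≤ Lam)
    (hb : 0 ≤ b) (hg : 1 / 50 ≤ g) (x : P2) (v : R3) :
    Lc (B1 P Lam rh g b t x) v ≤ ENNReal.ofReal (CL P.Y g * (1 + ‖v‖)) :=
  (C.Lc_mono (fun y => B1_le_Zw P hL ht hb x y) v).trans (Lc_Z hP ht ht1 hg x v)

theorem omE_le_exp_mul_ga {g1 g2 ζ : ℝ} (h2 : 0 ≤ g2) (hζ : 0 ≤ ζ) (v : R3) :
    omE g1 g2 ζ v ≤ ENNReal.ofReal (Real.exp (-g2 * ζ ^ 2)) * ga g1 v := by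
  unfold omE ga
  rw [← ENNReal.ofReal_mul (Real.exp_pos _).le, ← Real.exp_add]
  apply ENNReal.ofReal_le_ofReal
  apply Real.exp_le_exp.2
  have h1 : ζ ^ 2 ≤ (max ‖v‖ ζ) ^ 2 := by
    gcongr
    exact le_max_right _ _
  nlinarith [mul_le_mul_of_nonneg_left h1 h2]

theorem Lc_B2 (hP : ParD P) (ht : 0 ≤ t) (ht1 : t ≤ 1) {g1 g2 b : ℝ} (hg1 : 1 / 50 ≤ g1)
    (hg2 : 0 ≤ g2) (x : P2) (v : R3) :
    Lc (B2 P g1 g2 b t x) v ≤ ENNReal.ofReal (CL P.Y g1 * (1 + ‖v‖)) *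
      (ENNReal.ofReal (t ^ b) * ENNReal.ofReal (Real.exp (-g2 * (distG x / t) ^ 2))) := by
  have hζ : 0 ≤ distG x / t := div_nonneg (distG_nonneg x) ht
  have h := Lc_Dm hP ht ht1 x (α := g1 / 4) (by linarith)
    (A := ENNReal.ofReal (t ^ b) * ENNReal.ofReal (Real.exp (-g2 * (distG x / t) ^ 2)))
    (om1 := fun y => ENNReal.ofReal (t ^ b) * omE (g1 - √t / 100) g2 (distG x / t) y) v (by
      intro y
      calc _ ≤ ENNReal.ofReal (t ^ b) * (ENNReal.ofReal (Real.exp (-g2 * (distG x / t) ^ 2)) *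
            ga (g1 - √t / 100) y) := mul_le_mul_right (omE_le_exp_mul_ga hg2 hζ y) _
        _ ≤ ENNReal.ofReal (t ^ b) * (ENNReal.ofReal (Real.exp (-g2 * (distG x / t) ^ 2)) *
            ga (g1 / 4) y) := by
            gcongr
            exact ga_anti (by linarith [half_le hg1 ht1]) y
        _ = _ := by ring)
  have e : B2 P g1 g2 b t x = fun y =>
      (ENNReal.ofReal (t ^ b) * omE (g1 - √t / 100) g2 (distG x / t) y) * Dm P t x y := by
    funext y; exact B2_eq_omE P g1 g2 b t x y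
  rw [e, ENNReal.ofReal_mul (CL_nonneg _ _), ofReal_CL, ← one_add_ofReal]
  refine h.trans_eq ?_
  unfold CLe
  ring

end Crest.Agent.R68.K4
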