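import Crest.Agent.R68.K4c
import Crest.Agent.R68.KC
import Crest.Agent.R68.KC2
import Crest.Agent.R68.NHyp

/-!
# Row 68, K4d (helper616): the structure `N.KInp` for `Mc = 2 coldS`, `Wm = warm`
-/

set_option autoImplicit false
open MeasureTheory Set Filter
open scoped ENNReal Real
open Crest.AnalysisR.VecCalc3 Crest.AnalysisR.PDE.Boltzmann

noncomputable section

namespace Crest.Agent.R68.K4

open Crest.Agent.R68.K2 Crest.Agent.R68.DPole
open Crest.Agent.R68.N (tx Zg EE ev ez2 KInp)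

variable {P : Par}

theorem parD_of_Ok (h : P.Ok) : ParD P where
  Y := h.Y0
  c := h.c0
  c1 := h.c1
  dlc := by
    have hd : 0 < P.dl := Fuel.Ok.dlp h
    have hk := h.kap1
    unfold Par.kap at hk
    rw [le_div_iff₀ hd] at hk
    linarith
  j0 := le_trans (by norm_num) h.j0

/-- size of the warm majorant, 906's form (`n = p / 32`) -/
structure WSq (P : Par) (T : ℝ) (n : ℕ) : Prop where
  supp : ∀ t, 0 ≤ t → t ≤ T → ∀ x v, warm P t x v ≠ 0 → ‖v‖ < P.Y + 3
  mass : ∀ t, 0 ≤ t → t ≤ T → ∀ x, (∫⁻ v, warm P t x v) ≤ ENNReal.ofReal (distG x ^ n)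
  newt : ∀ t, 0 ≤ t → t ≤ T → ∀ x v, (∫⁻ v', warm P t x v' / ENNReal.ofReal ‖v - v'‖) ≤
    ENNReal.ofReal (distG x ^ n) * Dm P t x v

theorem distG_pow_le_one (x : P2) (n : ℕ) : ENNReal.ofReal (distG x ^ n) ≤ 1 := by
  rw [ENNReal.ofReal_le_one]
  exact pow_le_one₀ (distG_nonneg x) (distG_le_one x)

theorem WSq.wsz {T : ℝ} {n : ℕ} (h : WSq P T n) : KC.WSz P T where
  supp := h.supp
  mass t ht hT x := (h.mass t ht hT x).trans (distG_pow_le_one x n)
  newt t ht hT x v := (h.newt t ht hT x v).trans (by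
    calc _ ≤ 1 * Dm P t x v := mul_le_mul_left (distG_pow_le_one x n) _
      _ = _ := one_mul _)

theorem distG_pow_le_tx {t : ℝ} (ht : 0 ≤ t) (x : P2) (n : ℕ) :
    ENNReal.ofReal (distG x ^ n) ≤ tx n t x := by
  unfold tx
  apply ENNReal.ofReal_le_ofReal
  rw [Real.rpow_natCast]
  exact pow_le_pow_left₀ (distG_nonneg x) (by linarith) n

/-- measurability in the velocity -/
theorem measurable_warm_v (t : ℝ) (x : P2) : Measurable (warm P t x) := by
  have hj : ∀ (k : ℤ × ℤ) (j : ℕ), Measurable fun v => warmj P j t (x + latt k) v := by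
    intro k j
    unfold warmj gaussj
    refine Measurable.ite ?_ (by fun_prop) measurable_const
    have h1 : MeasurableSet {v : R3 | ‖v - uvec P (wj j) t (x + latt k)‖ < 2 * rhoj P.p j} :=
      measurableSet_lt (by fun_prop) measurable_const
    exact (MeasurableSet.const _).inter ((MeasurableSet.const _).inter
      ((MeasurableSet.const _).inter h1))
  unfold warm
  exact Measurable.tsum fun k => Measurable.tsum fun j => hj k j

theorem measurable_coldS_v (h : P.Ok) (t : ℝ) (x : P2) : Measurable (coldS P t x) := by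
  unfold coldS
  exact (KC.measurable_phiE h t x).add (measurable_warm_v t x)

/-- the constant of `KInp` -/
def CKI (P : Par) (g g1 g2 : ℝ) : ℝ :=
  (CC P.Y g1 (g1 + g2) (P.Y + 5) + CC P.Y g g (P.Y + 5)) * (2 * KC.CN P + 1) +
  2 * π * (P.Y + 6) * (2 * KC.Cm P + 2 * KC.Cq P + 1) + CQ P.Y g1 + CL P.Y g1 + CL P.Y g

theorem rad_le {R : ℝ} (hR : 0 ≤ R) (v : R3) :
    ENNReal.ofReal (2 * π * (R + ‖v‖)) ≤ ENNReal.ofReal (2 * π * (R + 1)) * ev v := by
  unfold ev
  rw [one_add_ofReal, ← ENNReal.ofReal_mul (by positivity)]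
  apply ENNReal.ofReal_le_ofReal
  rw [mul_assoc (2 * π)]
  have := norm_nonneg v
  have h2 : R + ‖v‖ ≤ (R + 1) * (1 + ‖v‖) := by nlinarith
  exact mul_le_mul_of_nonneg_left h2 (by positivity)

theorem kInp (h : P.Ok) (hY : 1 ≤ P.Y) {T : ℝ} (hT1 : T ≤ 1) {n : ℕ} (hW : WSq P T n)
    {g g1 g2 : ℝ} (hg1 : 1 / 50 ≤ g1) (hg2 : 0 ≤ g2) (hg : g1 + g2 ≤ g) :
    KInp P T (fun t x v => 2 * coldS P t x v) (warm P) n g g1 g2
      (ENNReal.ofReal (CKI P g g1 g2)) := by
  have hP : ParD P := parD_of_Ok h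
  have hWz := hW.wsz
  have hY0 := h.Y0
  have hCN := (KC.CN_pos h).le
  have hCm := (KC.Cm_pos h).le
  have hCq := KC.Cq_nonneg h
  have a1 := CC_nonneg P.Y g1 (g1 + g2) (P.Y + 5)
  have a2 := CC_nonneg P.Y g g (P.Y + 5)
  have a3 := CQ_nonneg P.Y g1
  have a4 := CL_nonneg P.Y g1
  have a5 := CL_nonneg P.Y g
  have b1 : 0 ≤ (CC P.Y g1 (g1 + g2) (P.Y + 5) + CC P.Y g g (P.Y + 5)) * (2 * KC.CN P + 1) := by
    positivity
  have b2 : 0 ≤ 2 * π * (P.Y + 6) * (2 * KC.Cm P + 2 * KC.Cq P + 1) := by positivity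
  have hgg : 1 / 50 ≤ g := by linarith
  -- support and measurability of the cold partner
  have hcm : ∀ t x, Measurable fun v => 2 * coldS P t x v := fun t x =>
    (measurable_coldS_v h t x).const_mul 2
  have hcs : ∀ t, 0 ≤ t → t ≤ T → ∀ x y, P.Y + 5 < ‖y‖ → 2 * coldS P t x y = 0 := by
    intro t ht hT x y hy
    rw [KC.coldS_supp h hWz ht hT hy, mul_zero]
  have hws : ∀ t, 0 ≤ t → t ≤ T → ∀ x y, P.Y + 5 < ‖y‖ → warm P t x y = 0 := fun t ht hT x y hy =>
    KC.warm_supp hWz ht hT (by linarith)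
  have hN : ∀ t, 0 < t → t ≤ T → ∀ x v, ∫⁻ u, (2 * coldS P t x u) * ENNReal.ofReal ‖v - u‖⁻¹ ≤
      ENNReal.ofReal (2 * KC.CN P) * ENNReal.ofReal (1 / t) * Dm P t x v := by
    intro t ht hT x v
    have h1 := KC.newt_coldS_le h hT1 hWz ht hT x v
    calc ∫⁻ u, (2 * coldS P t x u) * ENNReal.ofReal ‖v - u‖⁻¹
        = 2 * C.newt (coldS P t x) v := by
          unfold C.newt
          rw [← lintegral_const_mul' _ _ (by norm_num)]
          refine lintegral_congr fun u => ?_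
          ring
      _ ≤ 2 * (ENNReal.ofReal (KC.CN P / t) * Dm P t x v) := mul_le_mul_right h1 _
      _ = _ := by
          rw [show (2 : ℝ≥0∞) = ENNReal.ofReal 2 by norm_num, ← mul_assoc,
            ← ENNReal.ofReal_mul (by norm_num), ← ENNReal.ofReal_mul (by positivity)]
          congr 2
          ring
  have hNw : ∀ t, 0 ≤ t → t ≤ T → ∀ x v, ∫⁻ u, warm P t x u * ENNReal.ofReal ‖v - u‖⁻¹ ≤
      tx n t x * Dm P t x v := by
    intro t ht hT x v
    refine le_trans (lintegral_mono fun u => ?_) ((hW.newt t ht hT x v).trans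
      (mul_le_mul_left (distG_pow_le_tx ht x n) _))
    rw [ENNReal.div_eq_inv_mul, mul_comm]
    exact mul_le_mul_left (KC.ofReal_inv_le _) _
  have hmul : ∀ {a b : ℝ}, 0 ≤ a → 0 ≤ b → a * b ≤ CKI P g g1 g2 →
      ENNReal.ofReal a * ENNReal.ofReal b ≤ ENNReal.ofReal (CKI P g g1 g2) := by
    intro a b ha _ hab
    rw [← ENNReal.ofReal_mul ha]
    exact ENNReal.ofReal_le_ofReal hab
  refine ⟨ENNReal.ofReal_ne_top, ?_, ?_, ?_, ?_, ?_, ?_, ?_, ?_, ?_⟩
  · intro t ht x v
    have h1 := Qp_cold_B2 hP ht.1.le (ht.2.trans hT1) (b := 0) hg1 hg2 (hcm t x)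
      (hcs t ht.1.le ht.2 x) x v (hN t ht.1 ht.2 x v)
    refine le_trans le_self_add (h1.trans ?_)
    change _ ≤ _ * B2 P g1 g2 0 t x v
    refine mul_le_mul_left ?_ _
    rw [← mul_assoc]
    refine mul_le_mul_left (hmul a1 (by positivity) ?_) _
    unfold CKI
    nlinarith [mul_nonneg a1 hCN, mul_nonneg a2 hCN]
  · intro t ht x v
    have h1 := Qp_cold_Z hP ht.1.le (ht.2.trans hT1) hgg (hcm t x)
      (hcs t ht.1.le ht.2 x) x v (hN t ht.1 ht.2 x v)
    refine le_trans le_self_add (h1.trans ?_)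
    change _ ≤ _ * Zw P g t x v
    refine mul_le_mul_left ?_ _
    rw [← mul_assoc]
    refine mul_le_mul_left (hmul a2 (by positivity) ?_) _
    unfold CKI
    nlinarith [mul_nonneg a1 hCN, mul_nonneg a2 hCN]
  · intro t ht x v
    have h1 := Lc_cold (hcs t ht.1.le ht.2 x) v
    have h2 := KC.mass_coldS_le h hT1 hWz ht.1 ht.2 x
    have ht0 := ht.1
    calc Lc (fun v => 2 * coldS P t x v) v
        ≤ ENNReal.ofReal (2 * π * (P.Y + 5 + ‖v‖)) * ∫⁻ u, 2 * coldS P t x u := h1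
      _ ≤ (ENNReal.ofReal (2 * π * (P.Y + 5 + 1)) * ev v) *
          (ENNReal.ofReal (2 * KC.Cm P) * ENNReal.ofReal (1 / t)) := by
          refine mul_le_mul' (rad_le (by linarith) v) ?_
          rw [lintegral_const_mul' _ _ (by norm_num)]
          refine (mul_le_mul_right h2 _).trans_eq ?_
          rw [show (2 : ℝ≥0∞) = ENNReal.ofReal 2 by norm_num,
            ← ENNReal.ofReal_mul (by norm_num), ← ENNReal.ofReal_mul (by positivity)]
          congr 1
          ring
      _ = (ENNReal.ofReal (2 * π * (P.Y + 5 + 1)) * ENNReal.ofReal (2 * KC.Cm P)) *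
          ENNReal.ofReal (1 / t) * ev v := by ring
      _ ≤ _ := by
          refine mul_le_mul_left (mul_le_mul_left (hmul (by positivity) (by positivity) ?_) _) _
          unfold CKI
          nlinarith [mul_nonneg (mul_nonneg Real.pi_pos.le (by linarith : 0 ≤ P.Y + 6)) hCq,
            mul_nonneg Real.pi_pos.le (by linarith : 0 ≤ P.Y + 6)]
  · intro t ht x v
    have h1 := Lc_cold (hcs t ht.1.le ht.2 x) v
    have h2 := KC.sq_mul_mass_coldS h hY hT1 hWz ht.1 ht.2 x
    calc ENNReal.ofReal ((t + distG x) ^ 2) * Lc (fun v => 2 * coldS P t x v) v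
        ≤ ENNReal.ofReal ((t + distG x) ^ 2) *
          (ENNReal.ofReal (2 * π * (P.Y + 5 + ‖v‖)) * ∫⁻ u, 2 * coldS P t x u) :=
          mul_le_mul_right h1 _
      _ = ENNReal.ofReal (2 * π * (P.Y + 5 + ‖v‖)) *
          (2 * (ENNReal.ofReal ((t + distG x) ^ 2) * ∫⁻ u, coldS P t x u)) := by
          rw [lintegral_const_mul' _ _ (by norm_num)]; ring
      _ ≤ (ENNReal.ofReal (2 * π * (P.Y + 5 + 1)) * ev v) * (2 * ENNReal.ofReal (KC.Cq P)) :=
          mul_le_mul' (rad_le (by linarith) v) (mul_le_mul_right h2 _)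
      _ = (ENNReal.ofReal (2 * π * (P.Y + 5 + 1)) * ENNReal.ofReal (2 * KC.Cq P)) * ev v := by
          rw [ENNReal.ofReal_mul (p := 2) (by norm_num), show ENNReal.ofReal 2 = 2 by norm_num]
          ring
      _ ≤ _ := by
          refine mul_le_mul_left (hmul (by positivity) (by positivity) ?_) _
          unfold CKI
          nlinarith [mul_nonneg (mul_nonneg Real.pi_pos.le (by linarith : 0 ≤ P.Y + 6)) hCm,
            mul_nonneg Real.pi_pos.le (by linarith : 0 ≤ P.Y + 6)]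
  · intro t ht x v
    have h1 := Qp_Z_B2 hP ht.1.le (ht.2.trans hT1) (b := 0) hg1 hg2 hg x v
    refine h1.trans ?_
    change _ ≤ _ * B2 P g1 g2 0 t x v
    refine mul_le_mul_left ?_ _
    unfold ev
    rw [ENNReal.ofReal_mul a3, one_add_ofReal]
    refine mul_le_mul_left (ENNReal.ofReal_le_ofReal ?_) _
    unfold CKI
    linarith
  · intro t ht x v
    have h1 := Lc_B2 hP ht.1.le (ht.2.trans hT1) (b := 0) hg1 hg2 x v
    refine h1.trans ?_
    rw [Real.rpow_zero, ENNReal.ofReal_one, one_mul]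
    unfold ez2 ev
    refine mul_le_mul_left ?_ _
    rw [ENNReal.ofReal_mul a4, one_add_ofReal]
    refine mul_le_mul_left (ENNReal.ofReal_le_ofReal ?_) _
    unfold CKI
    linarith
  · intro t ht x v
    have h1 := Lc_Z hP ht.1.le (ht.2.trans hT1) hgg x v
    refine h1.trans ?_
    unfold ev
    rw [ENNReal.ofReal_mul a5, one_add_ofReal]
    refine mul_le_mul_left (ENNReal.ofReal_le_ofReal ?_) _
    unfold CKI
    linarith
  · intro t ht x v
    have h1 := Qp_cold_B2 hP ht.1.le (ht.2.trans hT1) (b := 0) hg1 hg2 (measurable_warm_v t x)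
      (hws t ht.1.le ht.2 x) x v (hNw t ht.1.le ht.2 x v)
    refine le_trans le_self_add (h1.trans ?_)
    change _ ≤ _ * B2 P g1 g2 0 t x v
    refine mul_le_mul_left (mul_le_mul_left (ENNReal.ofReal_le_ofReal ?_) _) _
    unfold CKI
    nlinarith [mul_nonneg a1 hCN, mul_nonneg a2 hCN]
  · intro t ht x v
    have h1 := Lc_cold (hws t ht.1.le ht.2 x) v
    have h2 := (hW.mass t ht.1.le ht.2 x).trans (distG_pow_le_tx ht.1.le x n)
    calc Lc (warm P t x) v
        ≤ ENNReal.ofReal (2 * π * (P.Y + 5 + ‖v‖)) * ∫⁻ u, warm P t x u := h1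
      _ ≤ (ENNReal.ofReal (2 * π * (P.Y + 5 + 1)) * ev v) * tx n t x :=
          mul_le_mul' (rad_le (by linarith) v) h2
      _ = ENNReal.ofReal (2 * π * (P.Y + 5 + 1)) * tx n t x * ev v := by ring
      _ ≤ _ := by
          refine mul_le_mul_left (mul_le_mul_left (ENNReal.ofReal_le_ofReal ?_) _) _
          unfold CKI
          nlinarith [mul_nonneg (mul_nonneg Real.pi_pos.le (by linarith : 0 ≤ P.Y + 6)) hCm,
            mul_nonneg (mul_nonneg Real.pi_pos.le (by linarith : 0 ≤ P.Y + 6)) hCq,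
            mul_nonneg Real.pi_pos.le (by linarith : 0 ≤ P.Y + 6)]

end Crest.Agent.R68.K4
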