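import Crest.Agent.R68.Defs
import Crest.Agent.R68.FLattice

/-!
# Row 68, PART K1 + K3 (helper819): INTERFACE (statements only; never import this file in proofs;
proofs in `R68/K1*.lean`, `R68/K3*.lean` under the same names without `Iface`)
-/

set_option autoImplicit false
open MeasureTheory Set
open scoped ENNReal
open Crest.AnalysisR.VecCalc3 Crest.AnalysisR.PDE.Boltzmann

noncomputable section

namespace Crest.Agent.R68.KIface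

/-! ### K1: the weights along flights -/

/-- `dΘ/dt ≥ 1` along every flight -/
theorem Th_flight {Lam s t : ℝ} (hL : 0 < Lam) (hs : 0 ≤ s) (hst : s ≤ t) (x : P2) (v : R3) :
    Th Lam s (x - (t - s) • bar v) v + (t - s) ≤ Th Lam t x v := sorry

/-- collisional stability of the `Θ`-factor: incoming velocity `z`, outgoing `v`, partner out `vs`,
`|z|² ≤ |v|² + |vs|²`. For `Lam ≥ b(b+1)/δ` the loss is `e·exp(δ s |vs|²)`. -/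
theorem Th_coll {Lam b ρ s : ℝ} (hL : 0 < Lam) (hb : 1 ≤ b) (hρ : 0 < ρ) (hs : 0 ≤ s) (x : P2)
    (v vs z : R3) (hz : ‖z‖ ^ 2 ≤ ‖v‖ ^ 2 + ‖vs‖ ^ 2) :
    (min 1 (Th Lam s x z / ρ)) ^ b ≤
      Real.exp (1 + b * (b + 1) / Lam * s * ‖vs‖ ^ 2) * (min 1 (Th Lam s x v / ρ)) ^ b := sorry

theorem gau_flight {g s t : ℝ} (v : R3) :
    gau g s v = gau g t v * Real.exp (-((√t - √s) / 100) * ‖v‖ ^ 2) := sorry

/-- absorbing `1+|v|` in the decreasing Gaussian exponent -/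
theorem lintegral_absorb {t : ℝ} (ht : 0 < t) (ht1 : t ≤ 1) (v : R3) :
    ∫⁻ s in Ioo 0 t, ENNReal.ofReal ((1 + ‖v‖) * Real.exp (-((√t - √s) / 100) * ‖v‖ ^ 2)) ≤
      ENNReal.ofReal (16 * t ^ (3 / 4 : ℝ)) := sorry

/-- `Θ` on the fuel zone (enlarged: `|y| ≤ 2Y`, `|a| ≤ 2 dl`) -/
theorem Th_fuel (P : Par) {Lam t : ℝ} (hY : 1 ≤ P.Y) (hc : 0 ≤ P.c) (hc1 : P.c ≤ 1) (hj : 2 ≤ P.j0)
    (hL : 100 * P.Y ^ 2 ≤ Lam) (ht : 0 ≤ t) (ht1 : t ≤ 1) (x : P2) (k : ℤ × ℤ) (v : R3)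
    (hx : |lab P t (x + latt k)| ≤ 2 * P.dl) (hy : |(x + latt k).2| ≤ 2 * P.Y * (t + rr (lab P t (x + latt k)))) :
    Th Lam t x v ≤ (t + rr (lab P t (x + latt k))) * (2 + t * ‖v‖ ^ 2) := sorry

/-- the hot envelopes increase along flights -/
theorem B1_flight (P : Par) {Lam rh g b s t : ℝ} (hL : 0 < Lam) (hb : 0 ≤ b) (hc : 0 ≤ P.c)
    (hs : 0 ≤ s) (hst : s ≤ t) (x : P2) (v : R3) :
    B1 P Lam rh g b s (x - (t - s) • bar v) v ≤ B1 P Lam rh g b t x v := sorry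

theorem B2_flight (P : Par) {g1 g2 b s t : ℝ} (hg : 0 ≤ g2) (hc : 0 ≤ P.c)
    (hs : 0 < s) (hst : s ≤ t) (x : P2) (v : R3) :
    B2 P g1 g2 b s (x - (t - s) • bar v) v ≤ ENNReal.ofReal ((s / t) ^ b) * B2 P g1 g2 b t x v := sorry

/-- 208's (K4) -/
theorem omega_flight {g2 s t : ℝ} (hg : 0 ≤ g2) (hs : 0 < s) (hst : s ≤ t) (x : P2) (v : R3) :
    Real.exp (g2 * (max ‖v‖ (distG x / t)) ^ 2) ≤
      Real.exp (g2 * (max ‖v‖ (distG (x - (t - s) • bar v) / s)) ^ 2) := sorry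

/-! ### K3: time integrals -/

/-- sources with the fuel rate: `ρ(s,x) Θ(s,x,v) ≤ C1 (1 + s|v|²)`.  In applications
`ρ(s,x) = Σ_k 1_{fuel zone}(x + latt k) / (s + r)`; `T/rh² = rh`. -/
theorem Duh_rate_B1 (P : Par) {Lam rh g b T C1 : ℝ} (hL : 0 < Lam) (hb : 1 ≤ b) (hrh : 0 < rh)
    (hT : 0 < T) (hT1 : T ≤ 1) (hc : 0 ≤ P.c) (hC1 : 0 ≤ C1)
    (ρ : ℝ → P2 → ℝ) (hρ0 : ∀ s x, 0 ≤ ρ s x)
    (hρ : ∀ s x v, 0 < s → s ≤ T → ρ s x * Th Lam s x v ≤ C1 * (1 + s * ‖v‖ ^ 2))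
    {t : ℝ} (ht : 0 < t) (htT : t ≤ T) (x : P2) (v : R3) :
    Duh (fun s x v => ENNReal.ofReal (ρ s x) * B1 P Lam rh g b s x v) t x v ≤
      ENNReal.ofReal (C1 * (1 / b + T / rh ^ 2 + 400 * √T)) * B1 P Lam rh g b t x v := sorry

/-- hot x hot and loss terms: the factor `1+|v|` -/
theorem Duh_lin_B1 (P : Par) {Lam rh g b : ℝ} (hL : 0 < Lam) (hb : 0 ≤ b)
    (hc : 0 ≤ P.c) {t : ℝ} (ht : 0 < t) (ht1 : t ≤ 1) (x : P2) (v : R3) :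
    Duh (fun s x v => ENNReal.ofReal (1 + ‖v‖) * B1 P Lam rh g b s x v) t x v ≤
      ENNReal.ofReal (16 * t ^ (3 / 4 : ℝ)) * B1 P Lam rh g b t x v := sorry

theorem Duh_rate_B2 (P : Par) {g1 g2 b : ℝ} (hb : 0 < b) (hg : 0 ≤ g2) (hc : 0 ≤ P.c)
    {t : ℝ} (ht : 0 < t) (x : P2) (v : R3) :
    Duh (fun s x v => ENNReal.ofReal (1 / s) * B2 P g1 g2 b s x v) t x v ≤
      ENNReal.ofReal (1 / b) * B2 P g1 g2 b t x v := sorry

theorem Duh_lin_B2 (P : Par) {g1 g2 b : ℝ} (hb : 0 ≤ b) (hg : 0 ≤ g2) (hc : 0 ≤ P.c)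
    {t : ℝ} (ht : 0 < t) (ht1 : t ≤ 1) (x : P2) (v : R3) :
    Duh (fun s x v => ENNReal.ofReal (1 + ‖v‖) * B2 P g1 g2 b s x v) t x v ≤
      ENNReal.ofReal (16 * t ^ (3 / 4 : ℝ)) * B2 P g1 g2 b t x v := sorry

end Crest.Agent.R68.KIface
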