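import Mathlib

/-!
Row 68, PART L (helper944): from an almost everywhere fixed point of a monotone operator to an
everywhere fixed point; exact periodicity.
-/

set_option autoImplicit false
set_option linter.unusedSectionVars false
open MeasureTheory Filter
open scoped ENNReal Topology

namespace Crest.Agent.R68.L

variable {X : Type*} [MeasurableSpace X]

theorem fix_meas_iInf {F : ℕ → X → ℝ≥0∞} (hF : ∀ n, Measurable (F n)) :
    Measurable (⨅ n, F n) := by
  have h : (⨅ n, F n) = fun x => ⨅ n, F n x := by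
    funext x
    rw [iInf_apply]
  rw [h]
  exact Measurable.iInf hF

theorem fix_meas_iSup {ι : Type*} [Countable ι] {F : ι → X → ℝ≥0∞}
    (hF : ∀ n, Measurable (F n)) : Measurable (⨆ n, F n) := by
  have h : (⨆ n, F n) = fun x => ⨆ n, F n x := by
    funext x
    rw [iSup_apply]
  rw [h]
  exact Measurable.iSup hF

section iterate

variable {T : (X → ℝ≥0∞) → (X → ℝ≥0∞)}

theorem fix_iter_meas (hmeas : ∀ f, Measurable f → Measurable (T f)) {f : X → ℝ≥0∞}
    (hf : Measurable f) (k : ℕ) : Measurable (T^[k] f) := by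
  induction k with
  | zero => exact hf
  | succ k ih => rw [Function.iterate_succ_apply']; exact hmeas _ ih

theorem fix_iter_mono (hmeas : ∀ f, Measurable f → Measurable (T f))
    (hmono : ∀ f g, Measurable f → Measurable g → f ≤ g → T f ≤ T g) {f g : X → ℝ≥0∞}
    (hf : Measurable f) (hg : Measurable g) (h : f ≤ g) (k : ℕ) : T^[k] f ≤ T^[k] g := by
  induction k with
  | zero => exact h
  | succ k ih =>
    rw [Function.iterate_succ_apply', Function.iterate_succ_apply']
    exact hmono _ _ (fix_iter_meas hmeas hf k) (fix_iter_meas hmeas hg k) ih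

theorem fix_iter_ae (hmeas : ∀ f, Measurable f → Measurable (T f)) {μ : Measure X}
    (hnull : ∀ f g, Measurable f → Measurable g → f =ᵐ[μ] g → T f =ᵐ[μ] T g) {f g : X → ℝ≥0∞}
    (hf : Measurable f) (hg : Measurable g) (h : f =ᵐ[μ] g) (k : ℕ) :
    T^[k] f =ᵐ[μ] T^[k] g := by
  induction k with
  | zero => exact h
  | succ k ih =>
    rw [Function.iterate_succ_apply', Function.iterate_succ_apply']
    exact hnull _ _ (fix_iter_meas hmeas hf k) (fix_iter_meas hmeas hg k) ih

end iterate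

/-- `inf_{k ≥ n} T^k f` -/
noncomputable def tailInf (T : (X → ℝ≥0∞) → (X → ℝ≥0∞)) (f : X → ℝ≥0∞) (n : ℕ) : X → ℝ≥0∞ :=
  ⨅ k : ℕ, T^[n + k] f

/-- `liminf_k T^k f` -/
noncomputable def limInf (T : (X → ℝ≥0∞) → (X → ℝ≥0∞)) (f : X → ℝ≥0∞) : X → ℝ≥0∞ :=
  ⨆ n : ℕ, tailInf T f n

/-- the everywhere fixed point `inf_k T^k (liminf_j T^j f)` -/
noncomputable def fixPt (T : (X → ℝ≥0∞) → (X → ℝ≥0∞)) (f : X → ℝ≥0∞) : X → ℝ≥0∞ :=
  ⨅ k : ℕ, T^[k] (limInf T f)

section fix

variable {T : (X → ℝ≥0∞) → (X → ℝ≥0∞)}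

theorem tailInf_mono (f : X → ℝ≥0∞) : Monotone (tailInf T f) := by
  intro m n hmn
  refine le_iInf fun k => ?_
  obtain ⟨d, rfl⟩ := Nat.exists_eq_add_of_le hmn
  have := iInf_le (fun k : ℕ => T^[m + k] f) (d + k)
  rwa [show m + (d + k) = m + d + k by ring] at this

theorem tailInf_meas (hmeas : ∀ f, Measurable f → Measurable (T f)) {f : X → ℝ≥0∞}
    (hf : Measurable f) (n : ℕ) : Measurable (tailInf T f n) :=
  fix_meas_iInf (fun k => fix_iter_meas hmeas hf (n + k))

theorem limInf_meas (hmeas : ∀ f, Measurable f → Measurable (T f)) {f : X → ℝ≥0∞}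
    (hf : Measurable f) : Measurable (limInf T f) :=
  fix_meas_iSup (fun n => tailInf_meas hmeas hf n)

theorem fixPt_meas (hmeas : ∀ f, Measurable f → Measurable (T f)) {f : X → ℝ≥0∞}
    (hf : Measurable f) : Measurable (fixPt T f) :=
  fix_meas_iInf (fun k => fix_iter_meas hmeas (limInf_meas hmeas hf) k)

theorem T_limInf_le (hmeas : ∀ f, Measurable f → Measurable (T f))
    (hmono : ∀ f g, Measurable f → Measurable g → f ≤ g → T f ≤ T g)
    (hsup : ∀ f : ℕ → X → ℝ≥0∞, (∀ n, Measurable (f n)) → Monotone f →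
      T (⨆ n, f n) ≤ ⨆ n, T (f n))
    {f : X → ℝ≥0∞} (hf : Measurable f) : T (limInf T f) ≤ limInf T f := by
  refine (hsup _ (fun n => tailInf_meas hmeas hf n) (tailInf_mono f)).trans ?_
  refine iSup_le fun n => ?_
  refine le_trans ?_ (le_iSup (tailInf T f) (n + 1))
  refine le_iInf fun k => ?_
  have h1 : tailInf T f n ≤ T^[n + k] f := iInf_le (fun k : ℕ => T^[n + k] f) k
  have h2 := hmono _ _ (tailInf_meas hmeas hf n) (fix_iter_meas hmeas hf (n + k)) h1
  rwa [← Function.iterate_succ_apply' T, show (n + k).succ = n + 1 + k by omega] at h2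

theorem limInf_le {W f : X → ℝ≥0∞} (hW : ∀ k, T^[k] f ≤ W) : limInf T f ≤ W :=
  iSup_le fun n => (iInf_le (fun k : ℕ => T^[n + k] f) 0).trans (hW _)

theorem fixPt_le_limInf (f : X → ℝ≥0∞) : fixPt T f ≤ limInf T f :=
  iInf_le (fun k : ℕ => T^[k] (limInf T f)) 0

theorem T_fixPt (hmeas : ∀ f, Measurable f → Measurable (T f))
    (hmono : ∀ f g, Measurable f → Measurable g → f ≤ g → T f ≤ T g)
    (hsup : ∀ f : ℕ → X → ℝ≥0∞, (∀ n, Measurable (f n)) → Monotone f →
      T (⨆ n, f n) ≤ ⨆ n, T (f n))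
    {W : X → ℝ≥0∞}
    (hinf : ∀ f : ℕ → X → ℝ≥0∞, (∀ n, Measurable (f n)) → Antitone f → f 0 ≤ W →
      ⨅ n, T (f n) ≤ T (⨅ n, f n))
    {f : X → ℝ≥0∞} (hf : Measurable f) (hW : ∀ k, T^[k] f ≤ W) :
    T (fixPt T f) = fixPt T f := by
  have hFm := limInf_meas hmeas hf
  have hle := T_limInf_le hmeas hmono hsup hf
  have hanti : Antitone fun k : ℕ => T^[k] (limInf T f) := by
    refine antitone_nat_of_succ_le fun k => ?_
    rw [Function.iterate_succ_apply]
    exact fix_iter_mono hmeas hmono (hmeas _ hFm) hFm hle k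
  have hshift : (⨅ k : ℕ, T^[k + 1] (limInf T f)) = fixPt T f := by
    refine le_antisymm (le_iInf fun k => ?_) (le_iInf fun k => ?_)
    · exact (iInf_le (fun k : ℕ => T^[k + 1] (limInf T f)) k).trans (hanti (Nat.le_succ k))
    · exact iInf_le (fun k : ℕ => T^[k] (limInf T f)) (k + 1)
  refine le_antisymm ?_ ?_
  · refine le_trans ?_ hshift.le
    refine le_iInf fun k => ?_
    rw [Function.iterate_succ_apply']
    exact hmono _ _ (fixPt_meas hmeas hf) (fix_iter_meas hmeas hFm k)
      (iInf_le (fun k : ℕ => T^[k] (limInf T f)) k)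
  · have h1 := hinf (fun k => T^[k] (limInf T f)) (fun k => fix_iter_meas hmeas hFm k) hanti
      (limInf_le hW)
    refine le_trans ?_ h1
    rw [← hshift]
    refine le_iInf fun k => ?_
    have := iInf_le (fun k : ℕ => T^[k + 1] (limInf T f)) k
    rwa [Function.iterate_succ_apply'] at this

theorem limInf_ae {μ : Measure X} {f : X → ℝ≥0∞} (hae : ∀ k, T^[k] f =ᵐ[μ] f) :
    limInf T f =ᵐ[μ] f := by
  have h : ∀ᵐ x ∂μ, ∀ k, T^[k] f x = f x := ae_all_iff.2 hae
  filter_upwards [h] with x hx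
  simp only [limInf, tailInf, iSup_apply, iInf_apply]
  simp [hx]

theorem fixPt_ae (hmeas : ∀ f, Measurable f → Measurable (T f)) {μ : Measure X}
    (hnull : ∀ f g, Measurable f → Measurable g → f =ᵐ[μ] g → T f =ᵐ[μ] T g)
    {f : X → ℝ≥0∞} (hf : Measurable f) (hae : T f =ᵐ[μ] f) : fixPt T f =ᵐ[μ] f := by
  have hk : ∀ k, T^[k] f =ᵐ[μ] f := by
    intro k
    induction k with
    | zero => exact ae_eq_refl _
    | succ k ih =>
      rw [Function.iterate_succ_apply]
      exact (fix_iter_ae hmeas hnull (hmeas _ hf) hf hae k).trans ih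
  have hF := limInf_ae (T := T) hk
  have hFk : ∀ k, T^[k] (limInf T f) =ᵐ[μ] f := fun k =>
    (fix_iter_ae hmeas hnull (limInf_meas hmeas hf) hf hF k).trans (hk k)
  have h : ∀ᵐ x ∂μ, ∀ k, T^[k] (limInf T f) x = f x := ae_all_iff.2 hFk
  filter_upwards [h] with x hx
  simp only [fixPt, iInf_apply]
  simp [hx]

/-- Periodicity of the fixed point. `S` is a transformation of the space commuting with `T`. -/
theorem fixPt_comp {S : X → X} (hT : ∀ f, T (f ∘ S) = T f ∘ S) {f : X → ℝ≥0∞}
    (hS : f ∘ S = f) : fixPt T f ∘ S = fixPt T f := by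
  have hit : ∀ (k : ℕ) (g : X → ℝ≥0∞), T^[k] (g ∘ S) = T^[k] g ∘ S := by
    intro k
    induction k with
    | zero => intro g; rfl
    | succ k ih =>
      intro g
      rw [Function.iterate_succ_apply, Function.iterate_succ_apply, hT, ih]
  have h1 : ∀ k, T^[k] f ∘ S = T^[k] f := fun k => by rw [← hit, hS]
  have h2 : limInf T f ∘ S = limInf T f := by
    funext x
    simp only [limInf, tailInf, Function.comp_apply, iSup_apply, iInf_apply]
    refine iSup_congr fun n => iInf_congr fun k => ?_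
    exact congrFun (h1 (n + k)) x
  have h3 : ∀ k, T^[k] (limInf T f) ∘ S = T^[k] (limInf T f) := fun k => by rw [← hit, h2]
  funext x
  simp only [fixPt, Function.comp_apply, iInf_apply]
  refine iInf_congr fun k => ?_
  exact congrFun (h3 k) x

/-- the same when `T` commutes with `S` only on measurable functions -/
theorem fixPt_comp' (hmeas : ∀ f, Measurable f → Measurable (T f)) {S : X → X}
    (hT : ∀ f, Measurable f → T (f ∘ S) = T f ∘ S) {f : X → ℝ≥0∞}
    (hf : Measurable f) (hS : f ∘ S = f) : fixPt T f ∘ S = fixPt T f := by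
  have hit : ∀ (k : ℕ) (g : X → ℝ≥0∞), Measurable g → T^[k] (g ∘ S) = T^[k] g ∘ S := by
    intro k
    induction k with
    | zero => intro g _; rfl
    | succ k ih =>
      intro g hg
      rw [Function.iterate_succ_apply, Function.iterate_succ_apply, hT _ hg, ih _ (hmeas _ hg)]
  have h1 : ∀ k, T^[k] f ∘ S = T^[k] f := fun k => by rw [← hit _ _ hf, hS]
  have h2 : limInf T f ∘ S = limInf T f := by
    funext x
    simp only [limInf, tailInf, Function.comp_apply, iSup_apply, iInf_apply]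
    refine iSup_congr fun n => iInf_congr fun k => ?_
    exact congrFun (h1 (n + k)) x
  have h3 : ∀ k, T^[k] (limInf T f) ∘ S = T^[k] (limInf T f) := fun k => by
    rw [← hit _ _ (limInf_meas hmeas hf), h2]
  funext x
  simp only [fixPt, Function.comp_apply, iInf_apply]
  refine iInf_congr fun k => ?_
  exact congrFun (h3 k) x

end fix

/-- **From an a.e. fixed point to an everywhere fixed point.**
`T` is a monotone operator on measurable functions with monotone continuity (`hsup`), decreasing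
continuity below `W` (`hinf`) and the null property (`hnull`). If `T f = f` a.e. and all iterates
`T^k f` are `≤ W` everywhere, there is an everywhere fixed point `g = f` a.e., `g ≤ W`; for every
measure `ν` for which `T` maps `μ`-a.e. equality to `ν`-a.e. equality (time slices), `g = T f`
`ν`-a.e.; and `g` is invariant under every measurable transformation `S` commuting with `T` and
leaving `f` invariant. -/
theorem exists_everywhere_fix {T : (X → ℝ≥0∞) → (X → ℝ≥0∞)} {μ : Measure X}
    (hmeas : ∀ f, Measurable f → Measurable (T f))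
    (hmono : ∀ f g, Measurable f → Measurable g → f ≤ g → T f ≤ T g)
    (hsup : ∀ f : ℕ → X → ℝ≥0∞, (∀ n, Measurable (f n)) → Monotone f →
      T (⨆ n, f n) ≤ ⨆ n, T (f n))
    {W : X → ℝ≥0∞}
    (hinf : ∀ f : ℕ → X → ℝ≥0∞, (∀ n, Measurable (f n)) → Antitone f → f 0 ≤ W →
      ⨅ n, T (f n) ≤ T (⨅ n, f n))
    (hnull : ∀ f g, Measurable f → Measurable g → f =ᵐ[μ] g → T f =ᵐ[μ] T g)
    {f : X → ℝ≥0∞} (hf : Measurable f) (hW : ∀ k, T^[k] f ≤ W) (hae : T f =ᵐ[μ] f) :
    ∃ g : X → ℝ≥0∞, Measurable g ∧ g ≤ W ∧ T g = g ∧ g =ᵐ[μ] f ∧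
      (∀ ν : Measure X, (∀ f g, Measurable f → Measurable g → f =ᵐ[μ] g → T f =ᵐ[ν] T g) →
        g =ᵐ[ν] T f) ∧
      (∀ S : X → X, Measurable S → (∀ f, Measurable f → T (f ∘ S) = T f ∘ S) →
        f ∘ S = f → g ∘ S = g) := by
  have hfix := T_fixPt hmeas hmono hsup hinf hf hW
  have hgm := fixPt_meas (T := T) hmeas hf
  have hgf := fixPt_ae hmeas hnull hf hae
  refine ⟨fixPt T f, hgm, (fixPt_le_limInf f).trans (limInf_le hW), hfix, hgf, ?_, ?_⟩
  · intro ν hν
    have := hν _ _ hgm hf hgf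
    rwa [hfix] at this
  · intro S _ hT hS
    exact fixPt_comp' hmeas hT hf hS

/-- **Exact periodicity.** If `f` is a.e. invariant under a countable group of transformations,
the supremum of its translates is exactly invariant, equal to `f` a.e. and below every invariant
majorant of `f`. -/
theorem exists_exact_periodic {ι : Type*} [AddCommGroup ι] [Countable ι] {μ : Measure X}
    {S : ι → X → X} (hS0 : S 0 = id) (hSadd : ∀ i j x, S (i + j) x = S i (S j x))
    (hSm : ∀ i, Measurable (S i)) {f : X → ℝ≥0∞} (hf : Measurable f)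
    (hae : ∀ i, f ∘ S i =ᵐ[μ] f) :
    ∃ g : X → ℝ≥0∞, Measurable g ∧ (∀ i, g ∘ S i = g) ∧ g =ᵐ[μ] f ∧ f ≤ g ∧
      (∀ W : X → ℝ≥0∞, f ≤ W → (∀ i, W ∘ S i = W) → g ≤ W) := by
  refine ⟨⨆ i, f ∘ S i, fix_meas_iSup (fun i => hf.comp (hSm i)), ?_, ?_, ?_, ?_⟩
  · intro i
    funext x
    simp only [Function.comp_apply, iSup_apply]
    refine (Equiv.addRight i).iSup_congr fun j => ?_
    simp only [Equiv.coe_addRight]
    rw [hSadd]
  · have h : ∀ᵐ x ∂μ, ∀ i, (f ∘ S i) x = f x := ae_all_iff.2 hae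
    filter_upwards [h] with x hx
    simp only [iSup_apply]
    rw [iSup_congr hx, iSup_const]
  · have h := le_iSup (fun i => f ∘ S i) 0
    simpa [hS0] using h
  · intro W hfW hW
    refine iSup_le fun i => ?_
    intro x
    have h1 := hfW (S i x)
    have h2 := congrFun (hW i) x
    simp only [Function.comp_apply] at h2 ⊢
    rwa [h2] at h1

/-- decreasing continuity of an integral operator, in the form used for `hinf` -/
theorem lintegral_iInf_ge {α : Type*} [MeasurableSpace α] {ν : Measure α}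
    {F : ℕ → α → ℝ≥0∞} (hF : ∀ n, Measurable (F n)) (hanti : Antitone F)
    (hfin : ∫⁻ a, F 0 a ∂ν ≠ ⊤) :
    ⨅ n, ∫⁻ a, F n a ∂ν ≤ ∫⁻ a, ⨅ n, F n a ∂ν :=
  (lintegral_iInf hF hanti hfin).ge

end Crest.Agent.R68.L
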