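import Crest.Agent.R68.LUlt2

/-!
# Row 68, Part L: uniqueness and invariance of the weak limit
-/

set_option autoImplicit false
open MeasureTheory Set Filter
open scoped ENNReal Topology

noncomputable section

namespace Crest.Agent.R68.L

variable {Ω : Type*} [MeasurableSpace Ω] {μ : Measure Ω}

/-- two functions below a finite weight that agree against all test functions are a.e. equal -/
theorem ae_eq_of_test [SigmaFinite μ] {W : Ω → ℝ≥0∞} (hW : Measurable W)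
    (hWfin : ∀ᵐ x ∂μ, W x ≠ ∞) {g h : Ω → ℝ≥0∞} (hg : Measurable g) (hh : Measurable h)
    (heq : ∀ κ : Ω → ℝ≥0∞, Measurable κ → ∫⁻ x, κ x * W x ∂μ ≠ ∞ →
      ∫⁻ x, g x * κ x ∂μ = ∫⁻ x, h x * κ x ∂μ) : g =ᵐ[μ] h := by
  have hsf : SigmaFinite (μ.withDensity W) := SigmaFinite.withDensity_of_ne_top hWfin
  obtain ⟨w, hw0, hwm, hwi⟩ := exists_pos_lintegral_lt_of_sigmaFinite (μ.withDensity W)
    (ε := 1) one_ne_zero
  set w' : Ω → ℝ≥0∞ := fun x => (w x : ℝ≥0∞) with hw'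
  have hw'm : Measurable w' := hwm.coe_nnreal_ennreal
  have hw'0 : ∀ x, w' x ≠ 0 := fun x => by
    simp only [hw', ne_eq, ENNReal.coe_eq_zero]; exact (hw0 x).ne'
  have hw't : ∀ x, w' x ≠ ∞ := fun x => ENNReal.coe_ne_top
  have hint : ∫⁻ x, w' x * W x ∂μ ≠ ∞ := by
    have e := lintegral_withDensity_eq_lintegral_mul μ hW hw'm
    have : ∫⁻ x, w' x * W x ∂μ = ∫⁻ x, w' x ∂(μ.withDensity W) := by
      rw [e]
      refine lintegral_congr fun x => ?_
      simp only [Pi.mul_apply]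
      ring
    rw [this]
    exact ne_top_of_lt hwi
  have h1 : (fun x => g x * w' x) =ᵐ[μ] fun x => h x * w' x := by
    refine ae_eq_of_forall_setLIntegral_eq_of_sigmaFinite (hg.mul hw'm) (hh.mul hw'm) ?_
    intro s hs _
    have hk := heq (s.indicator w') (hw'm.indicator hs) ?_
    · have e : ∀ f : Ω → ℝ≥0∞, ∫⁻ x, f x * s.indicator w' x ∂μ = ∫⁻ x in s, f x * w' x ∂μ := by
        intro f
        rw [← lintegral_indicator hs]
        refine lintegral_congr fun x => ?_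
        by_cases hx : x ∈ s <;> simp [hx]
      rw [← e, ← e]
      exact hk
    · refine ne_top_of_le_ne_top hint (lintegral_mono fun x => ?_)
      gcongr
      exact indicator_le_self s w' x
  filter_upwards [h1] with x hx
  exact (ENNReal.mul_left_inj (hw'0 x) (hw't x)).1 hx

/-- invariance of weak limits -/
theorem weak_limit_invariant [SigmaFinite μ] {U : Filter ℕ} [U.NeBot] {W : Ω → ℝ≥0∞}
    (hW : Measurable W) (hWfin : ∀ᵐ x ∂μ, W x ≠ ∞) {H : ℕ → Ω → ℝ≥0∞} {g : Ω → ℝ≥0∞}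
    (hH : ∀ n, Measurable (H n)) (hg : Measurable g)
    (hlim : ∀ κ : Ω → ℝ≥0∞, Measurable κ → ∫⁻ x, κ x * W x ∂μ ≠ ∞ →
        Tendsto (fun n => ∫⁻ x, H n x * κ x ∂μ) U (𝓝 (∫⁻ x, g x * κ x ∂μ)))
    {S S' : Ω → Ω} (hS : MeasurePreserving S μ μ) (hS' : Measurable S')
    (hSS' : ∀ x, S' (S x) = x) (hWS : ∀ x, W (S x) = W x) (hHS : ∀ n x, H n (S x) = H n x) :
    g ∘ S =ᵐ[μ] g := by
  refine ae_eq_of_test hW hWfin (hg.comp hS.measurable) hg ?_
  intro κ hκ hint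
  have e0 : ∀ f : Ω → ℝ≥0∞, Measurable f →
      ∫⁻ x, f (S x) * κ x ∂μ = ∫⁻ x, f x * κ (S' x) ∂μ := by
    intro f hf
    have := hS.lintegral_comp (f := fun y => f y * κ (S' y)) (hf.mul (hκ.comp hS'))
    rw [← this]
    refine lintegral_congr fun x => ?_
    rw [hSS']
  have hint' : ∫⁻ x, κ (S' x) * W x ∂μ ≠ ∞ := by
    have := e0 W hW
    have e1 : ∫⁻ x, κ (S' x) * W x ∂μ = ∫⁻ x, κ x * W x ∂μ := by
      calc ∫⁻ x, κ (S' x) * W x ∂μ = ∫⁻ x, W x * κ (S' x) ∂μ :=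
            lintegral_congr fun x => mul_comm _ _
        _ = ∫⁻ x, W (S x) * κ x ∂μ := this.symm
        _ = ∫⁻ x, κ x * W x ∂μ := lintegral_congr fun x => by rw [hWS, mul_comm]
    rw [e1]
    exact hint
  have l1 := hlim (fun x => κ (S' x)) (hκ.comp hS') hint'
  have l2 := hlim κ hκ hint
  have e2 : (fun n => ∫⁻ x, H n x * κ (S' x) ∂μ) = fun n => ∫⁻ x, H n x * κ x ∂μ := by
    funext n
    rw [← e0 (H n) (hH n)]
    refine lintegral_congr fun x => by rw [hHS]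
  rw [e2] at l1
  have e3 := tendsto_nhds_unique l1 l2
  show ∫⁻ x, g (S x) * κ x ∂μ = _
  rw [e0 g hg]
  exact e3

end Crest.Agent.R68.L
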