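import Crest.Agent.R68.K2d
import Crest.Agent.R68.FCell
import Crest.Agent.R68.DPoles3

/-!
Row 68, PART L (helper944): masses. `(K3)` of note 10436: the mass of the weight `B2 _ g1 g2 0` at
time `s` is `≤ C s²`; a periodic function integrated over a small ball is at most its cell integral.
-/

set_option autoImplicit false
open MeasureTheory Set Filter Topology Metric
open scoped ENNReal Real
open Crest.AnalysisR.VecCalc3 Crest.AnalysisR.PDE.Boltzmann

noncomputable section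

namespace Crest.Agent.R68.LMass

open Crest.Agent.R68.K2 Crest.Agent.R68.DPole

/-! ### position integrals -/

/-- a periodic function integrated over a ball of radius `< 7/20` -/
theorem lintegral_ball_le {f : P2 → ℝ≥0∞} (hf : Measurable f) (hp : PerG f) (x : P2) {ρ : ℝ}
    (hρ : ρ < 7 / 20) :
    ∫⁻ y in {y : P2 | ‖y - x‖ ≤ ρ}, f y ≤ ∫⁻ y in cellG, f y := by
  have hS : MeasurableSet {y : P2 | ‖y - x‖ ≤ ρ} :=
    measurableSet_le (by fun_prop) measurable_const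
  have h1 := lintegral_cellG_tsum_mul (g := {y : P2 | ‖y - x‖ ≤ ρ}.indicator 1)
    (measurable_one.indicator hS) hf hp
  have h2 : ∫⁻ y in {y : P2 | ‖y - x‖ ≤ ρ}, f y =
      ∫⁻ y, {y : P2 | ‖y - x‖ ≤ ρ}.indicator 1 y * f y := by
    rw [← lintegral_indicator hS]
    refine lintegral_congr fun y => ?_
    by_cases hy : y ∈ {y : P2 | ‖y - x‖ ≤ ρ}
    · rw [indicator_of_mem hy, indicator_of_mem hy]; simp
    · rw [indicator_of_notMem hy, indicator_of_notMem hy]; simp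
  rw [h2, ← h1]
  refine lintegral_mono fun y => ?_
  refine mul_le_of_le_one_left zero_le ?_
  -- at most one translate lies in the ball
  by_cases hex : ∃ k : ℤ × ℤ, ‖y + latt k - x‖ ≤ ρ
  · obtain ⟨k, hk⟩ := hex
    rw [tsum_eq_single k]
    · exact indicator_le (fun _ _ => le_rfl) _
    · intro l hl
      refine indicator_of_notMem ?_ _
      intro hmem
      apply hl
      have hl' : ‖y + latt l - x‖ ≤ ρ := hmem
      refine latt_unique (x := y - x) ?_ ?_
      · rw [show y - x + latt l = y + latt l - x by abel]; linarith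
      · rw [show y - x + latt k = y + latt k - x by abel]; linarith
  · push Not at hex
    have : (∑' k : ℤ × ℤ, ({y : P2 | ‖y - x‖ ≤ ρ}.indicator (1 : P2 → ℝ≥0∞)) (y + latt k)) = 0 := by
      rw [ENNReal.tsum_eq_zero]
      intro k
      refine indicator_of_notMem ?_ _
      exact not_le.2 (hex k)
    rw [this]
    exact zero_le

/-- Gaussian in the distance to the lattice -/
theorem lintegral_gau_dist {g s : ℝ} (hg : 0 < g) (hs : 0 < s) :
    ∫⁻ x in cellG, ENNReal.ofReal (Real.exp (-g * (distG x / s) ^ 2)) ≤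
      ENNReal.ofReal (2 * π / g * s ^ 2) := by
  set G : P2 → ℝ≥0∞ := fun x => ENNReal.ofReal (Real.exp (-(g / (2 * s ^ 2)) * (x.1 ^ 2 + x.2 ^ 2)))
    with hG
  have hGm : Measurable G := by rw [hG]; fun_prop
  have h1 : ∀ x : P2, ENNReal.ofReal (Real.exp (-g * (distG x / s) ^ 2)) ≤
      ∑' k : ℤ × ℤ, G (x + latt k) := by
    intro x
    obtain ⟨k, hk⟩ := exists_distG_eq x
    refine le_trans ?_ (ENNReal.le_tsum k)
    rw [hG]
    apply ENNReal.ofReal_le_ofReal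
    apply Real.exp_le_exp.2
    have h2 := sq_add_sq_le_norm (x + latt k)
    rw [hk]
    have h3 : -g * (‖x + latt k‖ / s) ^ 2 = -(g / (2 * s ^ 2)) * (2 * ‖x + latt k‖ ^ 2) := by
      field_simp
    rw [h3]
    have h4 : 0 ≤ g / (2 * s ^ 2) := by positivity
    nlinarith
  calc ∫⁻ x in cellG, ENNReal.ofReal (Real.exp (-g * (distG x / s) ^ 2))
      ≤ ∫⁻ x in cellG, ∑' k : ℤ × ℤ, G (x + latt k) := lintegral_mono fun x => h1 x
    _ = ∫⁻ x, G x := lintegral_cellG_tsum hGm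
    _ = ENNReal.ofReal (π / (g / (2 * s ^ 2))) := by
        rw [hG]
        exact lintegral_gauss2 (by positivity)
    _ = _ := by
        congr 1
        field_simp

/-! ### velocity integrals -/

/-- constant of the velocity integral of `D^{-3/2}` -/
def Cv (Y α : ℝ) (m : ℕ) : ℝ≥0∞ :=
  ENNReal.ofReal ((8 + 6 * Y) ^ 2) * ((2 * m + 1) *
    (2 * ENNReal.ofReal ((π / α) ^ (3 / 2 : ℝ)) + ENNReal.ofReal (8 * π)))

theorem Cv_ne_top (Y α : ℝ) (m : ℕ) : Cv Y α m ≠ ⊤ := by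
  unfold Cv
  refine ENNReal.mul_ne_top ENNReal.ofReal_ne_top (ENNReal.mul_ne_top ?_ ?_)
  · refine ENNReal.add_ne_top.2 ⟨ENNReal.mul_ne_top (by norm_num) (ENNReal.natCast_ne_top m), by simp⟩
  · exact ENNReal.add_ne_top.2 ⟨ENNReal.mul_ne_top (by norm_num) ENNReal.ofReal_ne_top,
      ENNReal.ofReal_ne_top⟩

theorem lintegral_pk_ga {α : ℝ} (hα : 0 < α) (u : R3) :
    ∫⁻ v : R3, pk ‖v - u‖ * ga α v ≤
      2 * ENNReal.ofReal ((π / α) ^ (3 / 2 : ℝ)) + ENNReal.ofReal (8 * π) := by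
  have h := lintegral_Sw_ga hα (fun _ : Unit => u)
  simp only [Fintype.card_unit, Nat.cast_one, one_mul] at h
  have h2 : (1 : ℝ≥0∞) + 1 = 2 := by norm_num
  rw [h2] at h
  refine le_trans (lintegral_mono fun v => ?_) h
  gcongr
  unfold Sw
  simp

theorem lintegral_Dm_ga {P : Par} (hP : ParD P) {t : ℝ} (ht : 0 ≤ t) (x : P2) {α : ℝ}
    (hα : 0 < α) {m : ℕ} (hm : (KKf P t x).card ≤ m) :
    ∫⁻ v : R3, Dm P t x v * ga α v ≤ Cv P.Y α m := by
  set E : ℝ≥0∞ := 2 * ENNReal.ofReal ((π / α) ^ (3 / 2 : ℝ)) + ENNReal.ofReal (8 * π) with hE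
  have hmk : ∀ u : R3, Measurable fun v : R3 => pk ‖v - u‖ * ga α v := fun u =>
    (measurable_pk.comp (by fun_prop)).mul (measurable_ga α)
  have h1 : ∀ v : R3, Dm P t x v * ga α v ≤ ENNReal.ofReal ((8 + 6 * P.Y) ^ 2) *
      (ga α v + ∑ k ∈ KKf P t x, (pk ‖v - uvec P 1 t (x + latt k)‖ * ga α v +
        pk ‖v - uvec P (-1) t (x + latt k)‖ * ga α v)) := by
    intro v
    have h2 := Dm_le_Spole hP ht x v
    calc Dm P t x v * ga α v ≤ (ENNReal.ofReal ((8 + 6 * P.Y) ^ 2) * Spole P t x v) * ga α v := by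
          gcongr
      _ = _ := by
          unfold Spole
          rw [mul_assoc, add_mul, one_mul, Finset.sum_mul]
          congr 2
          refine Finset.sum_congr rfl fun k _ => ?_
          rw [add_mul]
          rfl
  calc ∫⁻ v : R3, Dm P t x v * ga α v
      ≤ ∫⁻ v : R3, ENNReal.ofReal ((8 + 6 * P.Y) ^ 2) *
        (ga α v + ∑ k ∈ KKf P t x, (pk ‖v - uvec P 1 t (x + latt k)‖ * ga α v +
        pk ‖v - uvec P (-1) t (x + latt k)‖ * ga α v)) := lintegral_mono h1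
    _ = ENNReal.ofReal ((8 + 6 * P.Y) ^ 2) * ((∫⁻ v : R3, ga α v) +
        ∑ k ∈ KKf P t x, ((∫⁻ v : R3, pk ‖v - uvec P 1 t (x + latt k)‖ * ga α v) +
        ∫⁻ v : R3, pk ‖v - uvec P (-1) t (x + latt k)‖ * ga α v)) := by
        rw [lintegral_const_mul _ (by
            refine (measurable_ga α).add (Finset.measurable_sum _ fun k _ => ?_)
            exact (hmk _).add (hmk _)),
          lintegral_add_left (measurable_ga α)]
        congr 2
        rw [lintegral_finsetSum]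
        · refine Finset.sum_congr rfl fun k _ => ?_
          exact lintegral_add_left (hmk _) _
        · intro k _
          exact (hmk _).add (hmk _)
    _ ≤ ENNReal.ofReal ((8 + 6 * P.Y) ^ 2) * (E + ∑ k ∈ KKf P t x, (E + E)) := by
        gcongr with k _
        · rw [lintegral_ga hα, hE]
          refine le_trans ?_ le_self_add
          rw [two_mul]
          exact le_self_add
        · exact lintegral_pk_ga hα _
        · exact lintegral_pk_ga hα _
    _ = ENNReal.ofReal ((8 + 6 * P.Y) ^ 2) * ((2 * ((KKf P t x).card : ℝ≥0∞) + 1) * E) := by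
        rw [Finset.sum_const, nsmul_eq_mul]
        congr 1
        ring
    _ ≤ Cv P.Y α m := by
        unfold Cv
        rw [← hE]
        gcongr

/-! ### the mass of `B2` -/

theorem one_add_pow_four_le {g : ℝ} (hg : 0 < g) (y : ℝ) (_hy : 0 ≤ y) :
    (1 + y) ^ 4 ≤ (8 + 256 / g ^ 2) * Real.exp (g / 4 * y ^ 2) := by
  have h1 : (1 + y) ^ 4 ≤ 8 + 8 * y ^ 4 := by
    nlinarith [sq_nonneg (y - 1), sq_nonneg (y ^ 2 - 1), sq_nonneg (y * (y - 1)),
      sq_nonneg (y ^ 2 - y)]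
  have h2 : 1 ≤ Real.exp (g / 4 * y ^ 2) := Real.one_le_exp (by positivity)
  have h3 : (g / 4 * y ^ 2) ^ 2 / 2 ≤ Real.exp (g / 4 * y ^ 2) := by
    have := Real.quadratic_le_exp_of_nonneg (x := g / 4 * y ^ 2) (by positivity)
    have h4 : 0 ≤ g / 4 * y ^ 2 := by positivity
    linarith
  have h5 : y ^ 4 ≤ 32 / g ^ 2 * Real.exp (g / 4 * y ^ 2) := by
    have h6 : y ^ 4 = 32 / g ^ 2 * ((g / 4 * y ^ 2) ^ 2 / 2) := by
      field_simp; ring
    rw [h6]
    gcongr
  calc (1 + y) ^ 4 ≤ 8 + 8 * y ^ 4 := h1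
    _ ≤ 8 * Real.exp (g / 4 * y ^ 2) + 8 * (32 / g ^ 2 * Real.exp (g / 4 * y ^ 2)) := by gcongr; linarith
    _ = _ := by ring

/-- constant of the mass of `B2`; depends on `Y, g1, g2` only -/
def CM (Y g1 g2 : ℝ) : ℝ≥0∞ :=
  ENNReal.ofReal (8 + 256 / g1 ^ 2) * Cv Y (g1 / 4) 1 * ENNReal.ofReal (2 * π / g2)

theorem CM_ne_top (Y g1 g2 : ℝ) : CM Y g1 g2 ≠ ⊤ :=
  ENNReal.mul_ne_top (ENNReal.mul_ne_top ENNReal.ofReal_ne_top (Cv_ne_top _ _ _))
    ENNReal.ofReal_ne_top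

/-- pointwise bound of `(1+|v|)^4 B2_0` -/
theorem B2_pointwise (P : Par) {g1 g2 s : ℝ} (hg1 : 0 < g1) (hg2 : 0 ≤ g2) (hs : 0 < s)
    (hsg : √s / 100 ≤ g1 / 2) (x : P2) (v : R3) :
    ENNReal.ofReal ((1 + ‖v‖) ^ 4) * B2 P g1 g2 0 s x v ≤
      ENNReal.ofReal (8 + 256 / g1 ^ 2) * (ENNReal.ofReal (Real.exp (-g2 * (distG x / s) ^ 2)) *
        (Dm P s x v * ga (g1 / 4) v)) := by
  unfold B2 ga
  rw [Real.rpow_zero, one_mul]
  have h1 : (1 + ‖v‖) ^ 4 * (gau g1 s v * Real.exp (-g2 * (max ‖v‖ (distG x / s)) ^ 2)) ≤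
      (8 + 256 / g1 ^ 2) * (Real.exp (-g2 * (distG x / s) ^ 2) *
        Real.exp (-(g1 / 4) * ‖v‖ ^ 2)) := by
    have h2 := one_add_pow_four_le hg1 ‖v‖ (norm_nonneg v)
    have h3 : gau g1 s v ≤ Real.exp (-(g1 / 2) * ‖v‖ ^ 2) := by
      unfold gau
      apply Real.exp_le_exp.2
      nlinarith [sq_nonneg ‖v‖]
    have h4 : Real.exp (-g2 * (max ‖v‖ (distG x / s)) ^ 2) ≤ Real.exp (-g2 * (distG x / s) ^ 2) := by
      apply Real.exp_le_exp.2
      have h5 : (distG x / s) ^ 2 ≤ (max ‖v‖ (distG x / s)) ^ 2 := by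
        have : 0 ≤ distG x / s := div_nonneg (distG_nonneg x) hs.le
        gcongr
        exact le_max_right _ _
      nlinarith
    have h6 : Real.exp (-(g1 / 2) * ‖v‖ ^ 2) =
        Real.exp (-(g1 / 4) * ‖v‖ ^ 2) * Real.exp (-(g1 / 4 * ‖v‖ ^ 2)) := by
      rw [← Real.exp_add]; congr 1; ring
    have h7 : Real.exp (g1 / 4 * ‖v‖ ^ 2) * Real.exp (-(g1 / 4 * ‖v‖ ^ 2)) = 1 := by
      rw [← Real.exp_add]; simp
    calc (1 + ‖v‖) ^ 4 * (gau g1 s v * Real.exp (-g2 * (max ‖v‖ (distG x / s)) ^ 2))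
        ≤ ((8 + 256 / g1 ^ 2) * Real.exp (g1 / 4 * ‖v‖ ^ 2)) *
          ((Real.exp (-(g1 / 4) * ‖v‖ ^ 2) * Real.exp (-(g1 / 4 * ‖v‖ ^ 2))) *
            Real.exp (-g2 * (distG x / s) ^ 2)) := by
          rw [← h6]
          have h8 : 0 ≤ gau g1 s v := (Real.exp_pos _).le
          gcongr
      _ = (8 + 256 / g1 ^ 2) * (Real.exp (-g2 * (distG x / s) ^ 2) *
          Real.exp (-(g1 / 4) * ‖v‖ ^ 2)) *
          (Real.exp (g1 / 4 * ‖v‖ ^ 2) * Real.exp (-(g1 / 4 * ‖v‖ ^ 2))) := by ring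
      _ = _ := by rw [h7, mul_one]
  calc ENNReal.ofReal ((1 + ‖v‖) ^ 4) *
        (ENNReal.ofReal (gau g1 s v * Real.exp (-g2 * (max ‖v‖ (distG x / s)) ^ 2)) * Dm P s x v)
      = ENNReal.ofReal ((1 + ‖v‖) ^ 4 * (gau g1 s v *
          Real.exp (-g2 * (max ‖v‖ (distG x / s)) ^ 2))) * Dm P s x v := by
        rw [ENNReal.ofReal_mul (p := (1 + ‖v‖) ^ 4) (by positivity), mul_assoc]
    _ ≤ ENNReal.ofReal ((8 + 256 / g1 ^ 2) * (Real.exp (-g2 * (distG x / s) ^ 2) *
        Real.exp (-(g1 / 4) * ‖v‖ ^ 2))) * Dm P s x v := by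
        gcongr
    _ = _ := by
        rw [ENNReal.ofReal_mul (by positivity), ENNReal.ofReal_mul (Real.exp_pos _).le]
        ring

/-- **(K3)** `∫_cell ∫ (1+|v|)^4 B2_0(s) ≤ C_M s²`. -/
theorem mass_B2 {P : Par} (hP : ParD P) {g1 g2 s : ℝ} (hg1 : 0 < g1) (hg2 : 0 < g2) (hs : 0 < s)
    (hsg : √s / 100 ≤ g1 / 2) (hsm : (P.Y + 2) * (s + P.dl) < 7 / 20) :
    ∫⁻ x in cellG, ∫⁻ v : R3, ENNReal.ofReal ((1 + ‖v‖) ^ 4) * B2 P g1 g2 0 s x v ≤
      CM P.Y g1 g2 * ENNReal.ofReal (s ^ 2) := by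
  have hDm : ∀ x : P2, Measurable fun v : R3 => Dm P s x v * ga (g1 / 4) v := by
    intro x
    have h := measurable_Dm_t hP.Y hs.le
    exact (h.comp (by fun_prop : Measurable fun v : R3 => ((x, v) : P2 × R3))).mul (measurable_ga _)
  calc ∫⁻ x in cellG, ∫⁻ v : R3, ENNReal.ofReal ((1 + ‖v‖) ^ 4) * B2 P g1 g2 0 s x v
      ≤ ∫⁻ x in cellG, ENNReal.ofReal (8 + 256 / g1 ^ 2) *
          (ENNReal.ofReal (Real.exp (-g2 * (distG x / s) ^ 2)) * Cv P.Y (g1 / 4) 1) := by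
        refine lintegral_mono fun x => ?_
        calc ∫⁻ v : R3, ENNReal.ofReal ((1 + ‖v‖) ^ 4) * B2 P g1 g2 0 s x v
            ≤ ∫⁻ v : R3, ENNReal.ofReal (8 + 256 / g1 ^ 2) *
              (ENNReal.ofReal (Real.exp (-g2 * (distG x / s) ^ 2)) *
              (Dm P s x v * ga (g1 / 4) v)) :=
              lintegral_mono fun v => B2_pointwise P hg1 hg2.le hs hsg x v
          _ = ENNReal.ofReal (8 + 256 / g1 ^ 2) *
              (ENNReal.ofReal (Real.exp (-g2 * (distG x / s) ^ 2)) *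
              ∫⁻ v : R3, Dm P s x v * ga (g1 / 4) v) := by
              rw [lintegral_const_mul _ ((hDm x).const_mul _), lintegral_const_mul _ (hDm x)]
          _ ≤ _ := by
              gcongr
              exact lintegral_Dm_ga hP hs.le x (by positivity) (card_KKf_le_one hsm x)
    _ = ENNReal.ofReal (8 + 256 / g1 ^ 2) * ((∫⁻ x in cellG,
          ENNReal.ofReal (Real.exp (-g2 * (distG x / s) ^ 2))) * Cv P.Y (g1 / 4) 1) := by
        have hm : Measurable fun x : P2 => ENNReal.ofReal (Real.exp (-g2 * (distG x / s) ^ 2)) := by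
          have := measurable_distG
          fun_prop
        rw [lintegral_const_mul _ (hm.mul_const _), lintegral_mul_const _ hm]
    _ ≤ ENNReal.ofReal (8 + 256 / g1 ^ 2) * (ENNReal.ofReal (2 * π / g2 * s ^ 2) *
          Cv P.Y (g1 / 4) 1) := by
        gcongr
        exact lintegral_gau_dist hg2 hs
    _ = _ := by
        unfold CM
        rw [ENNReal.ofReal_mul (by positivity)]
        ring

end Crest.Agent.R68.LMass
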