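import Crest.Agent.R68.LDefs
import Crest.Agent.R68.DOp2

/-!
# Row 68, Part L: restart identity, crude Neumann bound, null sets, periodicity, comparison
(helper813)
-/

set_option autoImplicit false
open MeasureTheory Set Filter
open scoped ENNReal Topology
open Crest.AnalysisR.VecCalc3 Crest.AnalysisR.PDE.Boltzmann

noncomputable section

namespace Crest.Agent.R68.L

open Crest.Agent.R68.A

variable {φ : Den}

/-- undamped Duhamel integral from time `τ` -/
def Duhf (τ : ℝ) (q : Den) : Den := fun t x v =>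
  ∫⁻ s in Ioo τ t, q s (x - (t - s) • bar v) v

theorem flight_flight (x : P2) (v : R3) (t r s : ℝ) :
    x - (t - r) • bar v - (r - s) • bar v = x - (t - s) • bar v := by
  module

/-! ### restart -/

theorem Acc_split {s r t : ℝ} (h1 : s ≤ r) (h2 : r ≤ t) (x : P2) (v : R3) :
    Acc φ s t x v = Acc φ s r (x - (t - r) • bar v) v + Acc φ r t x v := by
  unfold A.Acc
  simp only [flight_flight]
  exact D.lintegral_Ioo_split h1 h2

theorem Dam_restart (hφ : Meas3 φ) {q : Den} (hq : Meas3 q) {τ t : ℝ} (h0 : 0 ≤ τ) (h1 : τ ≤ t)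
    (x : P2) (v : R3) :
    Dam φ q t x v = en (Acc φ τ t x v) * Dam φ q τ (x - (t - τ) • bar v) v +
      ∫⁻ s in Ioo τ t, en (Acc φ s t x v) * q s (x - (t - s) • bar v) v := by
  unfold Dam
  rw [D.lintegral_Ioo_split h0 h1]
  congr 1
  rw [← lintegral_const_mul _ (measurable_Dam_integrand hφ hq τ (x - (t - τ) • bar v) v)]
  refine setLIntegral_congr_fun measurableSet_Ioo fun s hs => ?_
  simp only [flight_flight]
  rw [Acc_split hs.2.le h1, en_add]
  ring

theorem Dam_le_restart (hφ : Meas3 φ) {q : Den} (hq : Meas3 q) {τ t : ℝ} (h0 : 0 ≤ τ)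
    (h1 : τ ≤ t) (x : P2) (v : R3) :
    Dam φ q t x v ≤ Dam φ q τ (x - (t - τ) • bar v) v + Duhf τ q t x v := by
  rw [Dam_restart hφ hq h0 h1]
  refine add_le_add ?_ ?_
  · exact mul_le_of_le_one_left' (en_le_one _)
  · exact lintegral_mono fun s => mul_le_of_le_one_left' (en_le_one _)

theorem Dam_le_Duhf {q : Den} (t : ℝ) (x : P2) (v : R3) : Dam φ q t x v ≤ Duhf 0 q t x v :=
  lintegral_mono fun _ => mul_le_of_le_one_left' (en_le_one _)

/-- restart inequality for solutions of `H = T H + Dam σ` -/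
theorem le_restart (hφ : Meas3 φ) {H σ : Den} (hH : Meas3 H) (hσ : Meas3 σ)
    (heq : ∀ t x v, H t x v = TL φ H t x v + Dam φ σ t x v) {τ t : ℝ} (h0 : 0 ≤ τ)
    (h1 : τ ≤ t) (x : P2) (v : R3) :
    H t x v ≤ H τ (x - (t - τ) • bar v) v +
      Duhf τ (fun t x v => Gf φ H t x v + σ t x v) t x v := by
  have h : ∀ t x v, H t x v = Dam φ (fun t x v => Gf φ H t x v + σ t x v) t x v := by
    intro t x v
    rw [heq, Dam_add hφ (meas3_Gf hφ hH)]
    rfl
  rw [h t x v, h τ]
  exact Dam_le_restart hφ (Meas3.add (meas3_Gf hφ hH) hσ) h0 h1 x v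

/-! ### the crude Neumann bound -/

theorem lintegral_log_pow {τ0 t C : ℝ} (hτ : 0 < τ0) (ht : τ0 ≤ t) (hC : 0 ≤ C) {A : ℝ} (hA : 0 ≤ A)
    (n : ℕ) :
    ∫⁻ s in Ioo τ0 t, ENNReal.ofReal (A * (C * Real.log (s / τ0)) ^ n / n.factorial) *
      ENNReal.ofReal (C / s) =
      ENNReal.ofReal (A * (C * Real.log (t / τ0)) ^ (n + 1) / (n + 1).factorial) := by
  have hder : ∀ s ∈ uIcc τ0 t, HasDerivAt
      (fun s => A * (C * Real.log (s / τ0)) ^ (n + 1) / (n + 1).factorial)
      (A * (C * Real.log (s / τ0)) ^ n / n.factorial * (C / s)) s := by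
    intro s hs
    rw [uIcc_of_le ht] at hs
    have hs0 : 0 < s := hτ.trans_le hs.1
    have h1 : HasDerivAt (fun s => s / τ0) (1 / τ0) s := (hasDerivAt_id s).div_const τ0
    have h2 := h1.log (div_pos hs0 hτ).ne'
    have h3 := ((h2.const_mul C).pow (n + 1)).const_mul A
    have h4 := h3.div_const ((n + 1).factorial : ℝ)
    refine h4.congr_deriv ?_
    rw [Nat.factorial_succ]
    push_cast
    have : (n.factorial : ℝ) ≠ 0 := by exact_mod_cast Nat.factorial_ne_zero n
    have h5 : ((n : ℝ) + 1) ≠ 0 := by positivity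
    field_simp
  have hcont : ContinuousOn (fun s => A * (C * Real.log (s / τ0)) ^ n / n.factorial * (C / s))
      (uIcc τ0 t) := by
    rw [uIcc_of_le ht]
    have hne : ∀ s ∈ Icc τ0 t, s ≠ 0 := fun s hs => (hτ.trans_le hs.1).ne'
    have hlog : ContinuousOn (fun s => Real.log (s / τ0)) (Icc τ0 t) := by
      refine ContinuousOn.log (by fun_prop) fun s hs => ?_
      exact (div_pos (hτ.trans_le hs.1) hτ).ne'
    exact (((hlog.const_smul C).pow n).const_smul A |>.div_const _).mul
      (continuousOn_const.div continuousOn_id hne)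
  have hint := intervalIntegral.integral_eq_sub_of_hasDerivAt hder hcont.intervalIntegrable
  have hnn : ∀ s ∈ Ioo τ0 t, 0 ≤ A * (C * Real.log (s / τ0)) ^ n / n.factorial * (C / s) := by
    intro s hs
    have hs0 : 0 < s := hτ.trans hs.1
    have : 0 ≤ Real.log (s / τ0) := Real.log_nonneg ((one_le_div hτ).2 hs.1.le)
    positivity
  have e1 : ∫⁻ s in Ioo τ0 t, ENNReal.ofReal (A * (C * Real.log (s / τ0)) ^ n / n.factorial) *
      ENNReal.ofReal (C / s) = ∫⁻ s in Ioo τ0 t,
      ENNReal.ofReal (A * (C * Real.log (s / τ0)) ^ n / n.factorial * (C / s)) := by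
    refine setLIntegral_congr_fun measurableSet_Ioo fun s hs => ?_
    have hs0 : 0 < s := hτ.trans hs.1
    have : 0 ≤ Real.log (s / τ0) := Real.log_nonneg ((one_le_div hτ).2 hs.1.le)
    rw [← ENNReal.ofReal_mul (by positivity)]
  rw [e1, ← ofReal_integral_eq_lintegral_ofReal]
  · rw [← integral_Ioc_eq_integral_Ioo, ← intervalIntegral.integral_of_le ht, hint]
    congr 1
    have : Real.log (τ0 / τ0) = 0 := by rw [div_self hτ.ne', Real.log_one]
    rw [this]
    simp
  · have := hcont.intervalIntegrable (μ := volume)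
    rw [intervalIntegrable_iff_integrableOn_Ioo_of_le ht] at this
    exact this
  · rw [EventuallyLE, ae_restrict_iff' measurableSet_Ioo]
    exact Eventually.of_forall hnn

theorem Gf_smul_le (hφ : Meas3 φ) {h E : Den} (hE : Meas3 E) {s : ℝ} {x : P2} {c : ℝ≥0∞}
    (hle : ∀ v, h s x v ≤ c * E s x v) (v : R3) : Gf φ h s x v ≤ c * Gf φ E s x v := by
  unfold Gf
  have h1 : Qp (φ s x) (h s x) v ≤ Qp (φ s x) (fun z => c * E s x z) v :=
    A.Qp_mono (fun _ => le_rfl) hle v
  rw [Qp_const_mul_right' (hφ.slice s x) (hE.slice s x)] at h1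
  calc 2 * Qp (φ s x) (h s x) v ≤ 2 * (c * Qp (φ s x) (E s x) v) := mul_le_mul' le_rfl h1
    _ = _ := by ring

theorem Gf_eq_zero {h : Den} {s : ℝ} {x : P2} (hz : ∀ v, h s x v = 0) (v : R3) :
    Gf φ h s x v = 0 := by
  unfold Gf
  have : h s x = fun _ => 0 := by funext z; exact hz z
  rw [this]
  simp [Qp]

section crude

variable {E : Den} {T τ0 C A : ℝ}

/-- the crude Neumann bound for sources vanishing before `τ0` -/
theorem iter_crude (hφ : Meas3 φ) (hE : Meas3 E)
    (hmono : ∀ s t x v, 0 < s → s ≤ t → t ≤ T → E s (x - (t - s) • bar v) v ≤ E t x v)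
    (hC : 0 ≤ C) (hA : 0 ≤ A)
    (hG : ∀ s x v, 0 < s → s ≤ T → Gf φ E s x v ≤ ENNReal.ofReal (C / s) * E s x v)
    (hτ : 0 < τ0) {u : Den}
    (hu0 : ∀ t x v, t ≤ τ0 → u t x v = 0)
    (hu : ∀ t x v, 0 < t → t ≤ T → u t x v ≤ ENNReal.ofReal A * E t x v) (n : ℕ) :
    (∀ t x v, t ≤ τ0 → (TL φ)^[n] u t x v = 0) ∧
    ∀ t x v, τ0 ≤ t → t ≤ T → (TL φ)^[n] u t x v ≤
      ENNReal.ofReal (A * (C * Real.log (t / τ0)) ^ n / n.factorial) * E t x v := by
  induction n with
  | zero =>
    refine ⟨hu0, fun t x v h1 h2 => ?_⟩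
    simpa using hu t x v (hτ.trans_le h1) h2
  | succ n ih =>
    obtain ⟨ih0, ih1⟩ := ih
    have hz : ∀ s x v, s ≤ τ0 → Gf φ ((TL φ)^[n] u) s x v = 0 := fun s x v hs =>
      Gf_eq_zero (fun v => ih0 s x v hs) v
    refine ⟨fun t x v ht => ?_, fun t x v h1 h2 => ?_⟩
    · rw [Function.iterate_succ_apply']
      show Dam φ (Gf φ ((TL φ)^[n] u)) t x v = 0
      unfold Dam
      rw [setLIntegral_congr_fun (g := fun _ => 0) measurableSet_Ioo]
      · simp
      · intro s hs
        simp only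
        rw [hz _ _ _ (hs.2.le.trans ht), mul_zero]
    · rw [Function.iterate_succ_apply']
      refine (Dam_le_Duhf t x v).trans ?_
      unfold Duhf
      rw [D.lintegral_Ioo_split hτ.le h1]
      have e0 : ∫⁻ s in Ioo 0 τ0, Gf φ ((TL φ)^[n] u) s (x - (t - s) • bar v) v = 0 := by
        rw [setLIntegral_congr_fun (g := fun _ => 0) measurableSet_Ioo]
        · simp
        · intro s hs
          exact hz _ _ _ hs.2.le
      rw [e0, zero_add]
      calc ∫⁻ s in Ioo τ0 t, Gf φ ((TL φ)^[n] u) s (x - (t - s) • bar v) v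
          ≤ ∫⁻ s in Ioo τ0 t, (ENNReal.ofReal (A * (C * Real.log (s / τ0)) ^ n / n.factorial) *
              ENNReal.ofReal (C / s)) * E t x v := by
            refine setLIntegral_mono_ae' measurableSet_Ioo (Eventually.of_forall fun s hs => ?_)
            have hs0 : 0 < s := hτ.trans hs.1
            have hsT : s ≤ T := hs.2.le.trans h2
            have g1 := Gf_smul_le hφ hE (h := (TL φ)^[n] u) (s := s)
              (x := x - (t - s) • bar v)
              (c := ENNReal.ofReal (A * (C * Real.log (s / τ0)) ^ n / n.factorial))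
              (fun v' => ih1 s _ v' hs.1.le hsT) v
            refine g1.trans ?_
            rw [mul_assoc]
            refine mul_le_mul' le_rfl ?_
            exact (hG s _ v hs0 hsT).trans (mul_le_mul' le_rfl (hmono s t x v hs0 hs.2.le h2))
        _ = (∫⁻ s in Ioo τ0 t, ENNReal.ofReal (A * (C * Real.log (s / τ0)) ^ n / n.factorial) *
              ENNReal.ofReal (C / s)) * E t x v := by
            rw [lintegral_mul_const]
            have m1 : Measurable fun s : ℝ => Real.log (s / τ0) :=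
              Real.measurable_log.comp (by fun_prop)
            have m2 : Measurable fun s : ℝ => C / s := by fun_prop
            exact (by fun_prop : Measurable fun s : ℝ =>
              ENNReal.ofReal (A * (C * Real.log (s / τ0)) ^ n / n.factorial) *
                ENNReal.ofReal (C / s))
        _ = _ := by rw [lintegral_log_pow hτ h1 hC hA n]

/-- crude bound of the solution for sources vanishing before `τ0` -/
theorem sol_crude (hφ : Meas3 φ) (hE : Meas3 E)
    (hmono : ∀ s t x v, 0 < s → s ≤ t → t ≤ T → E s (x - (t - s) • bar v) v ≤ E t x v)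
    (hC : 0 ≤ C) (hA : 0 ≤ A)
    (hG : ∀ s x v, 0 < s → s ≤ T → Gf φ E s x v ≤ ENNReal.ofReal (C / s) * E s x v)
    (hτ : 0 < τ0) {σ : Den}
    (hσ0 : ∀ t x v, t ≤ τ0 → σ t x v = 0)
    (hσ : ∀ t x v, 0 < t → t ≤ T → σ t x v ≤ ENNReal.ofReal A * E t x v) {t : ℝ} (h1 : τ0 ≤ t)
    (h2 : t ≤ T) (x : P2) (v : R3) :
    sol φ σ t x v ≤ ENNReal.ofReal (A * T * (t / τ0) ^ C) * E t x v := by
  have hT : 0 < T := hτ.trans_le (h1.trans h2)
  have hD0 : ∀ t x v, t ≤ τ0 → Dam φ σ t x v = 0 := by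
    intro t x v ht
    unfold Dam
    rw [setLIntegral_congr_fun (g := fun _ => 0) measurableSet_Ioo]
    · simp
    · intro s hs
      simp only
      rw [hσ0 _ _ _ (hs.2.le.trans ht), mul_zero]
  have hD : ∀ t x v, 0 < t → t ≤ T → Dam φ σ t x v ≤ ENNReal.ofReal (A * T) * E t x v := by
    intro t x v ht htT
    refine (Dam_le_Duhf t x v).trans ?_
    unfold Duhf
    calc ∫⁻ s in Ioo 0 t, σ s (x - (t - s) • bar v) v
        ≤ ∫⁻ _ in Ioo 0 t, ENNReal.ofReal A * E t x v := by
          refine setLIntegral_mono_ae' measurableSet_Ioo (Eventually.of_forall fun s hs => ?_)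
          exact (hσ s _ v hs.1 (hs.2.le.trans htT)).trans
            (mul_le_mul' le_rfl (hmono s t x v hs.1 hs.2.le htT))
      _ = ENNReal.ofReal A * E t x v * ENNReal.ofReal t := by
          rw [lintegral_const, Measure.restrict_apply MeasurableSet.univ, univ_inter,
            Real.volume_Ioo, sub_zero]
      _ ≤ ENNReal.ofReal A * E t x v * ENNReal.ofReal T :=
          mul_le_mul' le_rfl (ENNReal.ofReal_le_ofReal htT)
      _ = _ := by
          rw [ENNReal.ofReal_mul hA]
          ring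
  have hit := fun n => (iter_crude hφ hE hmono hC (mul_nonneg hA hT.le) hG hτ hD0 hD n).2 t x v h1 h2
  unfold sol
  have hL : 0 ≤ Real.log (t / τ0) := Real.log_nonneg ((one_le_div hτ).2 h1)
  calc ∑' n : ℕ, (TL φ)^[n] (Dam φ σ) t x v
      ≤ ∑' n : ℕ, ENNReal.ofReal (A * T * (C * Real.log (t / τ0)) ^ n / n.factorial) * E t x v :=
        ENNReal.tsum_le_tsum hit
    _ = (∑' n : ℕ, ENNReal.ofReal (A * T * (C * Real.log (t / τ0)) ^ n / n.factorial)) * E t x v :=
        ENNReal.tsum_mul_right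
    _ = _ := by
        congr 1
        have hs : Summable fun n : ℕ => (C * Real.log (t / τ0)) ^ n / (n.factorial : ℝ) :=
          Real.summable_pow_div_factorial _
        have h3 : ∀ n : ℕ, A * T * (C * Real.log (t / τ0)) ^ n / n.factorial =
            A * T * ((C * Real.log (t / τ0)) ^ n / n.factorial) := fun n => by ring
        simp only [h3]
        rw [← ENNReal.ofReal_tsum_of_nonneg (fun n => by positivity) (hs.mul_left _), tsum_mul_left]
        congr 2
        have := NormedSpace.expSeries_div_hasSum_exp (𝔸 := ℝ) (C * Real.log (t / τ0))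
        rw [this.tsum_eq, ← Real.exp_eq_exp_ℝ, Real.rpow_def_of_pos (div_pos (hτ.trans_le h1) hτ)]
        ring_nf

end crude

/-! ### null sets -/

/-- an a.e. property in space-time holds, for EVERY `t`, along a.e. flight ending at time `t` -/
theorem ae_flight {Pr : D.Ph → Prop} (h : ∀ᵐ p : D.Ph, Pr p) (t : ℝ) :
    ∀ᵐ z : P2 × R3, ∀ᵐ s : ℝ, Pr (s, z.1 - (t - s) • bar z.2, z.2) := by
  obtain ⟨S, hsub, hsm, hs0⟩ :=
    exists_measurable_superset_of_null (show volume {p : D.Ph | ¬ Pr p} = 0 from h)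
  have hm : Measurable fun q : (P2 × R3) × ℝ => S.indicator (fun _ => (1 : ℝ≥0∞))
      ((q.2, q.1.1 - (t - q.2) • bar q.1.2, q.1.2) : D.Ph) := by
    refine (measurable_const.indicator hsm).comp ?_
    have : Measurable bar := D.measurable_bar
    fun_prop
  have hz : ∫⁻ z : P2 × R3, ∫⁻ s : ℝ, S.indicator (fun _ => (1 : ℝ≥0∞))
      ((s, z.1 - (t - s) • bar z.2, z.2) : D.Ph) = 0 := by
    rw [lintegral_lintegral_swap hm.aemeasurable]
    have h1 : ∀ s : ℝ, ∫⁻ z : P2 × R3, S.indicator (fun _ => (1 : ℝ≥0∞))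
        ((s, z.1 - (t - s) • bar z.2, z.2) : D.Ph) =
        ∫⁻ z : P2 × R3, S.indicator (fun _ => (1 : ℝ≥0∞)) ((s, z.1, z.2) : D.Ph) := by
      intro s
      have hm1 : Measurable fun z : P2 × R3 => S.indicator (fun _ => (1 : ℝ≥0∞))
          ((s, z.1 - (t - s) • bar z.2, z.2) : D.Ph) := by
        refine (measurable_const.indicator hsm).comp ?_
        have : Measurable bar := D.measurable_bar
        fun_prop
      have hm2 : Measurable fun z : P2 × R3 => S.indicator (fun _ => (1 : ℝ≥0∞))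
          ((s, z.1, z.2) : D.Ph) := (measurable_const.indicator hsm).comp (by fun_prop)
      rw [Measure.volume_eq_prod, lintegral_prod_symm _ hm1.aemeasurable,
        lintegral_prod_symm _ hm2.aemeasurable]
      refine lintegral_congr fun v => ?_
      exact lintegral_sub_right_eq_self (μ := (volume : Measure P2))
        (fun x => S.indicator (fun _ => (1 : ℝ≥0∞)) ((s, x, v) : D.Ph)) ((t - s) • bar v)
    simp only [h1]
    have hS : ∀ᵐ p : D.Ph, p ∉ S := by rw [ae_iff]; simpa using hs0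
    have h2 : ∫⁻ p : D.Ph, S.indicator (fun _ => (1 : ℝ≥0∞)) p = 0 := by
      rw [lintegral_congr_ae (g := fun _ => 0)]
      · simp
      · filter_upwards [hS] with p hp
        simp [hp]
    rw [Measure.volume_eq_prod, lintegral_prod _
      (measurable_const.indicator hsm).aemeasurable] at h2
    exact h2
  have hm' : Measurable fun z : P2 × R3 => ∫⁻ s : ℝ, S.indicator (fun _ => (1 : ℝ≥0∞))
      ((s, z.1 - (t - s) • bar z.2, z.2) : D.Ph) := hm.lintegral_prod_right'
  have h3 := (lintegral_eq_zero_iff hm').1 hz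
  filter_upwards [h3] with z hz'
  have hm2 : Measurable fun s : ℝ => S.indicator (fun _ => (1 : ℝ≥0∞))
      ((s, z.1 - (t - s) • bar z.2, z.2) : D.Ph) := hm.comp (by fun_prop : Measurable fun s : ℝ =>
        ((z, s) : (P2 × R3) × ℝ))
  have h4 := (lintegral_eq_zero_iff hm2).1 hz'
  filter_upwards [h4] with s hs
  by_contra hc
  have : ((s, z.1 - (t - s) • bar z.2, z.2) : D.Ph) ∈ S := hsub hc
  simp [this] at hs

/-- a.e. equality in space-time passes to a.e. equality of `Dam` at EVERY time -/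
theorem Dam_congr_every {q q' : Den}
    (h : ∀ᵐ p : D.Ph, 0 < p.1 → q p.1 p.2.1 p.2.2 = q' p.1 p.2.1 p.2.2) (t : ℝ) :
    ∀ᵐ z : P2 × R3, Dam φ q t z.1 z.2 = Dam φ q' t z.1 z.2 := by
  filter_upwards [ae_flight h t] with z hz
  unfold Dam
  refine lintegral_congr_ae ?_
  rw [EventuallyEq, ae_restrict_iff' measurableSet_Ioo]
  filter_upwards [hz] with s hs hmem
  rw [hs hmem.1]

theorem Gf_congr_ae (hφ : Meas3 φ) {q q' : Den} (hq : Meas3 q) (hq' : Meas3 q')
    (h : ∀ᵐ p : D.Ph, 0 < p.1 → q p.1 p.2.1 p.2.2 = q' p.1 p.2.1 p.2.2) :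
    ∀ᵐ p : D.Ph, 0 < p.1 → Gf φ q p.1 p.2.1 p.2.2 = Gf φ q' p.1 p.2.1 p.2.2 := by
  have h1 : (fun p : D.Ph => q p.1 p.2.1 p.2.2) =ᵐ[D.muP (Ioi 0) (volume : Measure P2)]
      fun p : D.Ph => q' p.1 p.2.1 p.2.2 := by
    rw [EventuallyEq, D.ae_muP_iff measurableSet_Ioi, D.muP_univ]
    exact h
  have h2 := D.Gq_congr_ae (I := Ioi 0) (m := (volume : Measure P2))
    (f := fun p : D.Ph => φ p.1 p.2.1 p.2.2) (f' := fun p : D.Ph => φ p.1 p.2.1 p.2.2)
    hφ hφ hq hq' (EventuallyEq.refl _ _) h1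
  rw [EventuallyEq, D.ae_muP_iff measurableSet_Ioi, D.muP_univ] at h2
  filter_upwards [h2] with p hp hp0
  have h3 := hp hp0
  unfold Gf
  show 2 * Qp (φ p.1 p.2.1) (q p.1 p.2.1) p.2.2 = 2 * Qp (φ p.1 p.2.1) (q' p.1 p.2.1) p.2.2
  unfold D.Gq at h3
  rw [h3]

/-- a.e. equality in space-time passes to a.e. equality of `TL` at EVERY time -/
theorem TL_congr_every (hφ : Meas3 φ) {q q' : Den} (hq : Meas3 q) (hq' : Meas3 q')
    (h : ∀ᵐ p : D.Ph, 0 < p.1 → q p.1 p.2.1 p.2.2 = q' p.1 p.2.1 p.2.2) (t : ℝ) :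
    ∀ᵐ z : P2 × R3, TL φ q t z.1 z.2 = TL φ q' t z.1 z.2 :=
  Dam_congr_every (Gf_congr_ae hφ hq hq' h) t

/-! ### periodicity -/

/-- periodicity of densities -/
def PerD (f : Den) : Prop := ∀ t v, PerG fun x => f t x v

theorem PerD.flight {f : Den} (hf : PerD f) (s t : ℝ) (x : P2) (v : R3) (k : ℤ × ℤ) :
    f s (x + latt k - (t - s) • bar v) v = f s (x - (t - s) • bar v) v := by
  have h := hf s v (x - (t - s) • bar v) k
  simp only at h
  rw [← h]
  congr 1
  module

theorem PerD.Gf (hφ : PerD φ) {h : Den} (hh : PerD h) : PerD (Gf φ h) := by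
  intro t v x k
  unfold L.Gf
  have e1 : φ t (x + latt k) = φ t x := by funext z; exact hφ t z x k
  have e2 : h t (x + latt k) = h t x := by funext z; exact hh t z x k
  simp only [e1, e2]

theorem PerD.Acc (hφ : PerD φ) (s t : ℝ) (x : P2) (v : R3) (k : ℤ × ℤ) :
    A.Acc φ s t (x + latt k) v = A.Acc φ s t x v := by
  unfold A.Acc
  refine lintegral_congr fun τ => ?_
  have e1 : φ τ (x + latt k - (t - τ) • bar v) = φ τ (x - (t - τ) • bar v) := by
    funext z
    have h := hφ τ z (x - (t - τ) • bar v) k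
    simp only at h
    rw [← h]
    congr 1
    module
  rw [e1]

theorem PerD.Dam (hφ : PerD φ) {q : Den} (hq : PerD q) : PerD (Dam φ q) := by
  intro t v x k
  unfold L.Dam
  simp only
  refine lintegral_congr fun s => ?_
  rw [hφ.Acc, hq.flight]

theorem PerD.TL (hφ : PerD φ) {q : Den} (hq : PerD q) : PerD (TL φ q) := hφ.Dam (hφ.Gf hq)

theorem PerD.iter (hφ : PerD φ) {q : Den} (hq : PerD q) (n : ℕ) : PerD ((L.TL φ)^[n] q) := by
  induction n with
  | zero => exact hq
  | succ n ih => rw [Function.iterate_succ_apply']; exact hφ.TL ih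

theorem PerD.sol (hφ : PerD φ) {σ : Den} (hσ : PerD σ) : PerD (sol φ σ) := by
  intro t v x k
  unfold L.sol
  exact tsum_congr fun n => hφ.iter (hφ.Dam hσ) n t v x k

/-! ### comparison of subsolutions -/

theorem le_psum_add (hφ : Meas3 φ) {H σ : Den} (hH : Meas3 H)
    (hle : ∀ t x v, H t x v ≤ TL φ H t x v + Dam φ σ t x v) (n : ℕ) (t : ℝ) (x : P2) (v : R3) :
    H t x v ≤ psum φ σ n t x v + (TL φ)^[n] H t x v := by
  induction n generalizing t x v with
  | zero => simp [psum]
  | succ n ih =>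
    have h1 : (TL φ)^[n] H t x v ≤ (TL φ)^[n] (fun t x v => TL φ H t x v + Dam φ σ t x v) t x v :=
      iter_mono hle n t x v
    rw [iter_add hφ (meas3_TL hφ hH)] at h1
    calc H t x v ≤ psum φ σ n t x v + (TL φ)^[n] H t x v := ih t x v
      _ ≤ psum φ σ n t x v + ((TL φ)^[n] (TL φ H) t x v + (TL φ)^[n] (Dam φ σ) t x v) :=
          add_le_add le_rfl h1
      _ = psum φ σ (n + 1) t x v + (TL φ)^[n + 1] H t x v := by
          rw [Function.iterate_succ_apply]
          simp only [psum, Finset.sum_range_succ]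
          ring

/-- subsolutions are bounded by `sol` wherever the series of iterates is finite -/
theorem le_sol (hφ : Meas3 φ) {H σ : Den} (hH : Meas3 H)
    (hle : ∀ t x v, H t x v ≤ TL φ H t x v + Dam φ σ t x v) {t : ℝ} {x : P2} {v : R3}
    (hfin : (∑' n : ℕ, (TL φ)^[n] H t x v) ≠ ⊤) : H t x v ≤ sol φ σ t x v := by
  have hlim : Tendsto (fun n => (TL φ)^[n] H t x v) atTop (𝓝 0) :=
    ENNReal.tendsto_atTop_zero_of_tsum_ne_top hfin
  have h3 : Tendsto (fun n => sol φ σ t x v + (TL φ)^[n] H t x v) atTop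
      (𝓝 (sol φ σ t x v + 0)) := tendsto_const_nhds.add hlim
  rw [add_zero] at h3
  refine ge_of_tendsto' h3 fun n => ?_
  refine (le_psum_add hφ hH hle n t x v).trans (add_le_add ?_ le_rfl)
  rw [sol_eq_iSup]
  exact le_iSup (fun N => psum φ σ N t x v) n

end Crest.Agent.R68.L
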