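import Crest.Agent.R68.LX2
import Crest.Agent.R68.LNeu
import Crest.Agent.R68.LMass
import Crest.Agent.R68.K3
import Crest.Agent.R68.FCell

/-!
# Row 68, Part L: the ancient solution from (X2) and the slaving theorem
-/

set_option autoImplicit false
open MeasureTheory Set Filter
open scoped ENNReal Topology
open Crest.AnalysisR.VecCalc3 Crest.AnalysisR.PDE.Boltzmann

noncomputable section

namespace Crest.Agent.R68.L

open Crest.Agent.R68.A Crest.Agent.R68.DPole Crest.Agent.R68.LMass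
open Crest.Agent.R68.K2 (ga measurable_ga)

/-- the weight `B2` with exponent `b`, cut to `t > 0` (measurable everywhere) -/
def WW (P : Par) (g1 g2 b : ℝ) : Den := fun t x v => if 0 < t then B2 P g1 g2 b t x v else 0

theorem WW_pos {P : Par} {g1 g2 b t : ℝ} (ht : 0 < t) (x : P2) (v : R3) :
    WW P g1 g2 b t x v = B2 P g1 g2 b t x v := if_pos ht

theorem meas3_WW {P : Par} (hY : 0 < P.Y) (g1 g2 b : ℝ) : Meas3 (WW P g1 g2 b) := by
  have h1 : Measurable fun p : XX => if 0 < p.1 then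
      ENNReal.ofReal (p.1 ^ b * gau g1 p.1 p.2.2 *
        Real.exp (-g2 * (max ‖p.2.2‖ (distG p.2.1 / p.1)) ^ 2)) *
        (if 0 ≤ p.1 then Dm P p.1 p.2.1 p.2.2 else 1) else 0 := by
    refine Measurable.ite (measurableSet_lt measurable_const measurable_fst) ?_ measurable_const
    refine Measurable.mul ?_ (measurable_Dm hY)
    have h2 : Measurable fun p : XX => distG p.2.1 :=
      measurable_distG.comp (measurable_fst.comp measurable_snd)
    unfold gau
    fun_prop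
  unfold Meas3
  convert h1 using 2 with p
  unfold WW B2
  by_cases hp : 0 < p.1
  · simp only [hp, hp.le, if_true]
  · simp only [hp, if_false]

theorem PerF_B2 (P : Par) (g1 g2 b : ℝ) : PerF (B2 P g1 g2 b) := by
  intro t v x k
  show B2 P g1 g2 b t (x + latt k) v = B2 P g1 g2 b t x v
  unfold B2
  rw [distG_add_latt]
  have := perG_Dm P t v x k
  simp only at this
  rw [this]

theorem PerF_WW (P : Par) (g1 g2 b : ℝ) : PerF (WW P g1 g2 b) := by
  intro t v x k
  have := PerF_B2 P g1 g2 b t v x k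
  simp only at this
  show WW P g1 g2 b t (x + latt k) v = WW P g1 g2 b t x v
  unfold WW
  rw [this]

theorem B2_shift {P : Par} {g1 g2 b c t : ℝ} (ht : 0 < t) (x : P2) (v : R3) :
    B2 P g1 g2 (b + c) t x v = ENNReal.ofReal (t ^ c) * B2 P g1 g2 b t x v := by
  unfold B2
  rw [Real.rpow_add ht, ← mul_assoc, ← ENNReal.ofReal_mul (by positivity)]
  congr 2
  ring

/-- `D` is positive for almost every velocity -/
theorem ae_Dm_ne_top {P : Par} (hP : ParD P) {t : ℝ} (ht : 0 ≤ t) (x : P2) :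
    ∀ᵐ v : R3, Dm P t x v ≠ ⊤ := by
  have h := lintegral_Dm_ga hP ht x (α := 1) one_pos (m := (KKf P t x).card) le_rfl
  have hm : Measurable fun v : R3 => Dm P t x v * ga 1 v :=
    ((measurable_Dm_t hP.Y ht).comp
      (by fun_prop : Measurable fun v : R3 => ((x, v) : P2 × R3))).mul (measurable_ga _)
  have h2 := ae_lt_top hm (ne_top_of_le_ne_top (Cv_ne_top _ _ _) h)
  filter_upwards [h2] with v hv
  intro hD
  rw [hD] at hv
  have h0 : ga 1 v ≠ 0 := by
    unfold ga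
    simp [Real.exp_pos]
  rw [ENNReal.top_mul h0] at hv
  exact lt_irrefl _ hv

/-- the hot operator on the weight -/
theorem TL_WW_le {P : Par} {g1 g2 b t0 CK : ℝ} (hg2 : 0 ≤ g2) (hb : 0 < b)
    (hCK : 0 ≤ CK)
    (hK2 : ∀ s ∈ Ioc 0 t0, ∀ x v, Gf (phiE P) (B2 P g1 g2 b) s x v ≤
      ENNReal.ofReal (CK / s) * B2 P g1 g2 b s x v) {t : ℝ} (ht : t ∈ Ioc 0 t0) (x : P2) (v : R3) :
    TL (phiE P) (WW P g1 g2 b) t x v ≤ ENNReal.ofReal (CK / b) * WW P g1 g2 b t x v := by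
  rw [WW_pos ht.1]
  have h1 : TL (phiE P) (WW P g1 g2 b) t x v ≤
      ENNReal.ofReal CK * Duh (fun s x v => ENNReal.ofReal (1 / s) * B2 P g1 g2 b s x v) t x v := by
    refine (Dam_le_Duhf t x v).trans ?_
    unfold Duhf Duh
    rw [← lintegral_const_mul' _ _ ENNReal.ofReal_ne_top]
    refine setLIntegral_mono_ae' measurableSet_Ioo (Eventually.of_forall fun s hs => ?_)
    have e : Gf (phiE P) (WW P g1 g2 b) s (x - (t - s) • bar v) v =
        Gf (phiE P) (B2 P g1 g2 b) s (x - (t - s) • bar v) v := by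
      refine le_antisymm (Gf_mono_at (fun z => ?_) v) (Gf_mono_at (fun z => ?_) v)
      · rw [WW_pos hs.1]
      · rw [WW_pos hs.1]
    rw [e]
    refine (hK2 s ⟨hs.1, hs.2.le.trans ht.2⟩ _ v).trans ?_
    rw [← mul_assoc, ← ENNReal.ofReal_mul hCK]
    have : CK / s = CK * (1 / s) := by ring
    rw [this]
  refine h1.trans ?_
  refine (mul_le_mul' le_rfl (K.Duh_rate_B2 P hb hg2 ht.1 x v)).trans ?_
  rw [← mul_assoc, ← ENNReal.ofReal_mul hCK]
  have : CK / b = CK * (1 / b) := by ring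
  rw [this]

/-- the seed disappears -/
theorem Dam_seed_le {P : Par} {g1 g2 a t0 τ : ℝ} {CH : ℝ≥0∞} (hg2 : 0 ≤ g2) (ha : 3 ≤ a)
    (hτ : 0 < τ) {σ : Den} (hsupp : ∀ t x v, (t ≤ τ ∨ 2 * τ ≤ t) → σ t x v = 0)
    (hbd : ∀ t ∈ Ioc 0 t0, ∀ x v, σ t x v ≤ CH * B2 P g1 g2 (a - 3) t x v) {t : ℝ}
    (ht : t ∈ Ioc 0 t0) (x : P2) (v : R3) :
    Dam (phiE P) σ t x v ≤ CH * ENNReal.ofReal (τ / t) * B2 P g1 g2 (a - 2) t x v := by
  refine (Dam_le_Duhf t x v).trans ?_
  unfold Duhf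
  have h1 : ∫⁻ s in Ioo 0 t, σ s (x - (t - s) • bar v) v ≤
      ∫⁻ s in Ioo 0 t, (Ioo τ (2 * τ)).indicator
        (fun _ => CH * B2 P g1 g2 (a - 3) t x v) s := by
    refine setLIntegral_mono_ae' measurableSet_Ioo (Eventually.of_forall fun s hs => ?_)
    by_cases h : s ∈ Ioo τ (2 * τ)
    · rw [indicator_of_mem h]
      refine (hbd s ⟨hs.1, hs.2.le.trans ht.2⟩ _ v).trans ?_
      refine mul_le_mul' le_rfl ((K.B2_flight P hg2 hs.1 hs.2.le x v).trans ?_)
      refine mul_le_of_le_one_left' ?_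
      rw [← ENNReal.ofReal_one]
      refine ENNReal.ofReal_le_ofReal (Real.rpow_le_one ?_ ?_ (by linarith))
      · exact div_nonneg hs.1.le ht.1.le
      · exact (div_le_one ht.1).2 hs.2.le
    · rw [indicator_of_notMem h]
      have : s ≤ τ ∨ 2 * τ ≤ s := by
        by_contra hc
        push Not at hc
        exact h ⟨hc.1, hc.2⟩
      rw [hsupp _ _ _ this]
  refine h1.trans ?_
  have h2 : ∫⁻ s in Ioo 0 t, (Ioo τ (2 * τ)).indicator
        (fun _ => CH * B2 P g1 g2 (a - 3) t x v) s ≤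
      CH * B2 P g1 g2 (a - 3) t x v * ENNReal.ofReal τ := by
    refine (setLIntegral_le_lintegral _ _).trans ?_
    rw [lintegral_indicator measurableSet_Ioo, lintegral_const, Measure.restrict_apply
      MeasurableSet.univ, univ_inter, Real.volume_Ioo]
    have : 2 * τ - τ = τ := by ring
    rw [this]
  refine h2.trans_eq ?_
  have e : B2 P g1 g2 (a - 3) t x v = ENNReal.ofReal (t ^ (-1 : ℝ)) * B2 P g1 g2 (a - 2) t x v := by
    have := B2_shift (P := P) (g1 := g1) (g2 := g2) (b := a - 2) (c := -1) ht.1 x v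
    rw [← this]
    congr 1
    ring
  rw [e, Real.rpow_neg_one, div_eq_mul_inv, ENNReal.ofReal_mul hτ.le]
  ring

/-- `E = CE * B2 (a-2)` -/
theorem ancient_of_X2 {P : Par} {g1 g2 t0 a CK : ℝ} (hP : ParD P) (hg1 : 0 < g1) (hg2 : 0 < g2)
    (ht01 : t0 ≤ 1) (hsg : √t0 / 100 ≤ g1 / 2)
    (hsm : (P.Y + 2) * (t0 + P.dl) < 7 / 20) (ha : 3 ≤ a) (hCK : 0 ≤ CK)
    (hφ : Meas3 (phiE P)) (pφ : PerF (phiE P)) (hN : NullOK (phiE P)) (hN2 : TwoOK (phiE P))
    (hK2 : ∀ s ∈ Ioc 0 t0, ∀ x v, Gf (phiE P) (B2 P g1 g2 (a - 2)) s x v ≤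
      ENNReal.ofReal (CK / s) * B2 P g1 g2 (a - 2) s x v)
    {CH c0 : ℝ≥0∞} {tau : ℕ → ℝ} {sg : ℕ → Den} (hX : X2Out P g1 g2 t0 a CH c0 tau sg)
    {CE : ℝ≥0∞} (hCE : CE ≠ ⊤) (hCE1 : 1 ≤ CE)
    (hsol : ∀ n, ∀ t ∈ Ioc 0 t0, ∀ x v,
      sol (phiE P) (sg n) t x v ≤ CE * B2 P g1 g2 (a - 2) t x v) :
    ∃ H : Den, Meas3 H ∧ PerF H ∧ (∀ t ∈ Ioc 0 t0, ∀ x v, H t x v = TL (phiE P) H t x v) ∧
      (∃ C : ℝ≥0∞, C ≠ ⊤ ∧ ∀ t ∈ Ioc 0 t0, ∀ x v, H t x v ≤ C * B2 P g1 g2 (a - 2) t x v) ∧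
      0 < ∫⁻ t in Ioo 0 t0, ∫⁻ x in cellG, ∫⁻ v, H t x v := by
  set E : Den := fun t x v => CE * WW P g1 g2 (a - 2) t x v with hE
  have hEm : Meas3 E := Meas3.const_mul (meas3_WW hP.Y g1 g2 (a - 2)) CE
  have pE : PerF E := by
    intro t v x k
    have := PerF_WW P g1 g2 (a - 2) t v x k
    simp only at this
    show CE * WW P g1 g2 (a - 2) t (x + latt k) v = CE * WW P g1 g2 (a - 2) t x v
    rw [this]
  have hEpos : ∀ {t : ℝ}, 0 < t → ∀ x v, E t x v = CE * B2 P g1 g2 (a - 2) t x v := by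
    intro t ht x v
    simp only [hE, WW_pos ht]
  have hEfin : ∀ᵐ p : XX, 0 < p.1 → p.1 < t0 → unc E p ≠ ∞ := by
    have hms : MeasurableSet {p : XX | 0 < p.1 → unc E p ≠ ∞} := by
      have e : {p : XX | 0 < p.1 → unc E p ≠ ∞} = {p : XX | 0 < p.1}ᶜ ∪ (unc E ⁻¹' {∞})ᶜ := by
        ext p
        simp only [mem_ofPred_eq, mem_union, mem_compl_iff, mem_preimage, mem_singleton_iff]
        tauto
      rw [e]
      exact (measurableSet_lt measurable_const measurable_fst).compl.union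
        (hEm (measurableSet_singleton _)).compl
    have h1 : ∀ᵐ p : XX, 0 < p.1 → unc E p ≠ ∞ := by
      have : (volume : Measure XX) = (volume : Measure ℝ).prod
          ((volume : Measure P2).prod (volume : Measure R3)) := rfl
      rw [this, Measure.ae_prod_iff_ae_ae hms]
      refine Eventually.of_forall fun t => ?_
      have hms2 : MeasurableSet {q : P2 × R3 | 0 < t → unc E (t, q) ≠ ∞} :=
        measurable_prodMk_left hms
      rw [Measure.ae_prod_iff_ae_ae hms2]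
      refine Eventually.of_forall fun x => ?_
      by_cases ht : 0 < t
      · filter_upwards [ae_Dm_ne_top hP ht.le x] with v hv _
        show E t x v ≠ ∞
        rw [hEpos ht]
        exact ENNReal.mul_ne_top hCE (ENNReal.mul_ne_top ENNReal.ofReal_ne_top hv)
      · exact Eventually.of_forall fun v h => absurd h ht
    filter_upwards [h1] with p hp h2 _
    exact hp h2
  have hTE : ∀ t ∈ Ioc 0 t0, ∀ x v, TL (phiE P) E t x v ≤
      ENNReal.ofReal (CK / (a - 2)) * E t x v := by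
    intro t ht x v
    have h1 : TL (phiE P) E t x v = CE * TL (phiE P) (WW P g1 g2 (a - 2)) t x v := by
      rw [hE, TL_smul hφ (meas3_WW hP.Y g1 g2 (a - 2))]
    rw [h1]
    calc CE * TL (phiE P) (WW P g1 g2 (a - 2)) t x v
        ≤ CE * (ENNReal.ofReal (CK / (a - 2)) * WW P g1 g2 (a - 2) t x v) :=
          mul_le_mul' le_rfl (TL_WW_le hg2.le (by linarith) hCK hK2 ht x v)
      _ = _ := by simp only [hE]; ring
  have hDam : ∀ᵐ p : XX, 0 < p.1 → p.1 < t0 →
      Tendsto (fun n => unc (Dam (phiE P) (sg n)) p / unc E p) atTop (𝓝 0) := by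
    refine Eventually.of_forall fun p h0 h1 => ?_
    have hle : ∀ n, unc (Dam (phiE P) (sg n)) p / unc E p ≤ CH * ENNReal.ofReal (tau n / p.1) := by
      intro n
      refine ENNReal.div_le_of_le_mul ?_
      have h2 := Dam_seed_le (P := P) (g1 := g1) hg2.le ha (hX.tau_pos n) (hX.supp n) (hX.bd n)
        (t := p.1) ⟨h0, h1.le⟩ p.2.1 p.2.2
      refine h2.trans ?_
      show _ ≤ CH * ENNReal.ofReal (tau n / p.1) * E p.1 p.2.1 p.2.2
      rw [hEpos h0]
      refine mul_le_mul' le_rfl ?_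
      exact le_mul_of_one_le_left' hCE1
    have hlim : Tendsto (fun n => CH * ENNReal.ofReal (tau n / p.1)) atTop (𝓝 0) := by
      have h3 : Tendsto (fun n => tau n / p.1) atTop (𝓝 0) := by
        simpa using hX.tau_lim.div_const p.1
      have h4 : Tendsto (fun n => ENNReal.ofReal (tau n / p.1)) atTop (𝓝 (ENNReal.ofReal 0)) :=
        (ENNReal.continuous_ofReal.tendsto 0).comp h3
      rw [ENNReal.ofReal_zero] at h4
      have h5 := ENNReal.Tendsto.const_mul (a := CH) h4 (Or.inr hX.CH_ne)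
      simpa using h5
    exact tendsto_of_tendsto_of_tendsto_of_le_of_le tendsto_const_nhds hlim
      (fun n => zero_le) hle
  -- mass of the weight
  have hmassE : ∀ t ∈ Ioo 0 t0, ∫⁻ x in cellG, ∫⁻ v, ENNReal.ofReal (1 + ‖v‖ ^ 4) * E t x v ≤
      CE * CM P.Y g1 g2 := by
    intro t ht
    have hs1 : √t / 100 ≤ g1 / 2 := by
      have := Real.sqrt_le_sqrt ht.2.le
      linarith
    have hs2 : (P.Y + 2) * (t + P.dl) < 7 / 20 := by
      have h5 : 0 < P.Y + 2 := by have := hP.Y; linarith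
      have := mul_le_mul_of_nonneg_left (add_le_add_left ht.2.le P.dl) h5.le
      linarith
    have h1 := LMass.mass_B2 hP hg1 hg2 ht.1 hs1 hs2
    have h2 : ∫⁻ x in cellG, ∫⁻ v, ENNReal.ofReal (1 + ‖v‖ ^ 4) * E t x v ≤
        ∫⁻ x in cellG, ∫⁻ v : R3, CE * (ENNReal.ofReal ((1 + ‖v‖) ^ 4) * B2 P g1 g2 0 t x v) := by
      refine lintegral_mono fun x => lintegral_mono fun v => ?_
      rw [hEpos ht.1]
      have h3 : ENNReal.ofReal (1 + ‖v‖ ^ 4) ≤ ENNReal.ofReal ((1 + ‖v‖) ^ 4) := by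
        refine ENNReal.ofReal_le_ofReal ?_
        have := norm_nonneg v
        nlinarith [pow_nonneg this 2, pow_nonneg this 3]
      have h4 : B2 P g1 g2 (a - 2) t x v ≤ B2 P g1 g2 0 t x v := by
        have e := B2_shift (P := P) (g1 := g1) (g2 := g2) (b := 0) (c := a - 2) ht.1 x v
        rw [zero_add] at e
        rw [e]
        refine mul_le_of_le_one_left' ?_
        rw [← ENNReal.ofReal_one]
        exact ENNReal.ofReal_le_ofReal
          (Real.rpow_le_one ht.1.le (ht.2.le.trans ht01) (by linarith))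
      calc ENNReal.ofReal (1 + ‖v‖ ^ 4) * (CE * B2 P g1 g2 (a - 2) t x v)
          ≤ ENNReal.ofReal ((1 + ‖v‖) ^ 4) * (CE * B2 P g1 g2 0 t x v) :=
            mul_le_mul' h3 (mul_le_mul' le_rfl h4)
        _ = _ := by ring
    refine h2.trans ?_
    have h6 : ∫⁻ x in cellG, ∫⁻ v : R3,
        CE * (ENNReal.ofReal ((1 + ‖v‖) ^ 4) * B2 P g1 g2 0 t x v) =
        CE * ∫⁻ x in cellG, ∫⁻ v : R3, ENNReal.ofReal ((1 + ‖v‖) ^ 4) * B2 P g1 g2 0 t x v := by
      rw [← lintegral_const_mul' _ _ hCE]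
      refine lintegral_congr fun x => ?_
      rw [lintegral_const_mul' _ _ hCE]
    rw [h6]
    refine mul_le_mul' le_rfl (h1.trans ?_)
    refine mul_le_of_le_one_right' ?_
    rw [← ENNReal.ofReal_one]
    exact ENNReal.ofReal_le_ofReal (by nlinarith [ht.1, ht.2])
  have hEint : ∫⁻ t in Ioo 0 t0, ∫⁻ x in cellG, ∫⁻ v, ENNReal.ofReal (1 + ‖v‖ ^ 4) * E t x v ≠
      ∞ := by
    refine ne_top_of_le_ne_top ?_ (setLIntegral_mono_ae' measurableSet_Ioo
      (Eventually.of_forall hmassE))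
    rw [lintegral_const]
    refine ENNReal.mul_ne_top (ENNReal.mul_ne_top hCE (CM_ne_top _ _ _)) ?_
    rw [Measure.restrict_apply MeasurableSet.univ, univ_inter, Real.volume_Ioo]
    exact ENNReal.ofReal_ne_top
  obtain ⟨H, h1, h2, h3, h4, h5⟩ := exists_ancient_abs (E := E) hφ hEm pφ pE hN hN2 (t0 := t0)
    hEfin (C := ENNReal.ofReal (CK / (a - 2))) ENNReal.ofReal_ne_top hTE sg hX.meas hX.per
    (fun n t ht x v => by rw [hEpos ht.1]; exact hsol n t ht x v) hDam
    (κ := fun _ _ v => ENNReal.ofReal (1 + ‖v‖ ^ 4))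
    (by unfold Meas3; fun_prop) hX.c0_pos hX.low measurableSet_cellG hEint
  refine ⟨H, h1, h2, h3, ⟨ENNReal.ofReal (CK / (a - 2)) ^ 2 * CE,
    ENNReal.mul_ne_top (ENNReal.pow_ne_top ENNReal.ofReal_ne_top) hCE, fun t ht x v => ?_⟩, h5⟩
  have := h4 t ht x v
  rw [hEpos ht.1] at this
  rw [mul_assoc]
  exact this

end Crest.Agent.R68.L
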