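import Crest.Agent.R68.LNeu
import Crest.Agent.R68.K3
import Crest.Agent.R68.Carl4
import Crest.Agent.R68.NHyp

/-!
# Row 68, PART N (helper559): extension of the linear theory from `(0,t0]` to `(0,T]`
-/

set_option autoImplicit false
open MeasureTheory Set Filter
open scoped ENNReal Topology
open Crest.AnalysisR.VecCalc3 Crest.AnalysisR.PDE.Boltzmann

noncomputable section

namespace Crest.Agent.R68.ND

open Crest.Agent.R68.A (en Meas3)
open Crest.Agent.R68.N (Fld PerF)
open Crest.Agent.R68.L (TL TL_tsum TL_add TL_smul meas3_TL meas3_iter)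

variable {φ : Fld}

/-- Neumann series `∑ T^m f` -/
def neuL (φ f : Fld) : Fld := fun t x v => ∑' m : ℕ, (TL φ)^[m] f t x v

theorem meas3_neuL (hφ : Meas3 φ) {f : Fld} (hf : Meas3 f) : Meas3 (neuL φ f) :=
  Measurable.tsum (fun n => meas3_iter hφ hf n)

theorem neuL_eq (hφ : Meas3 φ) {f : Fld} (hf : Meas3 f) (t : ℝ) (x : P2) (v : R3) :
    neuL φ f t x v = f t x v + TL φ (neuL φ f) t x v := by
  have h1 : TL φ (neuL φ f) = fun t x v => ∑' n : ℕ, TL φ ((TL φ)^[n] f) t x v :=
    TL_tsum hφ (fun n => (TL φ)^[n] f) (fun n => meas3_iter hφ hf n)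
  rw [h1]
  show (∑' n : ℕ, (TL φ)^[n] f t x v) = _
  rw [tsum_eq_zero_add' ENNReal.summable]
  congr 1
  simp only [Function.iterate_succ_apply']

/-- `T` only uses earlier times -/
theorem TL_mono_lt {h k : Fld} {t : ℝ} (hhk : ∀ s ∈ Ioo 0 t, ∀ y z, h s y z ≤ k s y z) (x : P2)
    (v : R3) : TL φ h t x v ≤ TL φ k t x v :=
  L.Dam_mono_at (fun s hs => L.Gf_mono_at (fun z => hhk s hs _ z) v)

theorem TL_congr_lt {h k : Fld} {t : ℝ} (hhk : ∀ s ∈ Ioo 0 t, ∀ y z, h s y z = k s y z) (x : P2)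
    (v : R3) : TL φ h t x v = TL φ k t x v :=
  le_antisymm (TL_mono_lt (fun s hs y z => (hhk s hs y z).le) x v)
    (TL_mono_lt (fun s hs y z => (hhk s hs y z).ge) x v)

theorem iter_congr_lt {h k : Fld} {T : ℝ} (hhk : ∀ s, 0 < s → s ≤ T → ∀ y z, h s y z = k s y z)
    (m : ℕ) : ∀ s, 0 < s → s ≤ T → ∀ y z, (TL φ)^[m] h s y z = (TL φ)^[m] k s y z := by
  induction m with
  | zero => exact hhk
  | succ m ih =>
    intro s hs hsT y z
    rw [Function.iterate_succ_apply', Function.iterate_succ_apply']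
    exact TL_congr_lt (fun r hr y z => ih r hr.1 (hr.2.le.trans hsT) y z) y z

theorem neuL_congr_lt {h k : Fld} {T : ℝ} (hhk : ∀ s, 0 < s → s ≤ T → ∀ y z, h s y z = k s y z)
    {s : ℝ} (hs : 0 < s) (hsT : s ≤ T) (y : P2) (z : R3) : neuL φ h s y z = neuL φ k s y z :=
  tsum_congr fun m => iter_congr_lt hhk m s hs hsT y z

theorem TL_zero (t : ℝ) (x : P2) (v : R3) : TL φ (fun _ _ _ => 0) t x v = 0 := by
  have hz : ∀ s y z, L.Gf φ (fun _ _ _ => 0) s y z = 0 := fun s y z =>
    L.Gf_eq_zero (fun _ => rfl) z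
  show L.Dam φ (L.Gf φ (fun _ _ _ => 0)) t x v = 0
  unfold L.Dam
  simp [hz]

theorem TL_sum (hφ : Meas3 φ) (h : ℕ → Fld) (hh : ∀ n, Meas3 (h n)) (N : ℕ) :
    TL φ (fun t x v => ∑ n ∈ Finset.range N, h n t x v) =
      fun t x v => ∑ n ∈ Finset.range N, TL φ (h n) t x v := by
  induction N with
  | zero =>
    funext t x v
    simp only [Finset.range_zero, Finset.sum_empty]
    exact TL_zero t x v
  | succ N ih =>
    simp only [Finset.sum_range_succ]
    have hm : Meas3 (fun t x v => ∑ n ∈ Finset.range N, h n t x v) :=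
      Finset.measurable_sum _ (fun n _ => hh n)
    have e := TL_add (φ := φ) hφ (h := fun t x v => ∑ n ∈ Finset.range N, h n t x v)
      (k := h N) hm
    rw [e, ih]

theorem psum_succ' (hφ : Meas3 φ) {f : Fld} (hf : Meas3 f) (N : ℕ) (t : ℝ) (x : P2) (v : R3) :
    (∑ m ∈ Finset.range (N + 1), (TL φ)^[m] f t x v) =
      f t x v + TL φ (fun t x v => ∑ m ∈ Finset.range N, (TL φ)^[m] f t x v) t x v := by
  rw [TL_sum hφ _ (fun n => meas3_iter hφ hf n), Finset.sum_range_succ']
  rw [add_comm]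
  congr 1
  refine Finset.sum_congr rfl fun m _ => ?_
  rw [Function.iterate_succ_apply']

/-- supersolutions on `(0,T]` dominate the Neumann series -/
theorem neuL_le (hφ : Meas3 φ) {f H : Fld} (hf : Meas3 f) {T : ℝ}
    (hle : ∀ t, 0 < t → t ≤ T → ∀ x v, f t x v + TL φ H t x v ≤ H t x v) :
    ∀ t, 0 < t → t ≤ T → ∀ x v, neuL φ f t x v ≤ H t x v := by
  have key : ∀ N : ℕ, ∀ t, 0 < t → t ≤ T → ∀ x v,
      (∑ m ∈ Finset.range N, (TL φ)^[m] f t x v) ≤ H t x v := by
    intro N
    induction N with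
    | zero => intro t _ _ x v; simp
    | succ N ih =>
      intro t ht htT x v
      rw [psum_succ' hφ hf]
      refine le_trans ?_ (hle t ht htT x v)
      gcongr
      exact TL_mono_lt (fun s hs y z => ih s hs.1 (hs.2.le.trans htT) y z) x v
  intro t ht htT x v
  unfold neuL
  rw [ENNReal.tsum_eq_iSup_nat]
  exact iSup_le fun N => key N t ht htT x v

/-- hypotheses on the weight -/
structure WtHyp (φ E : Fld) (T C : ℝ) : Prop where
  meas : Meas3 (fun t x v => if 0 < t then E t x v else 0)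
  mono : ∀ s t x v, 0 < s → s ≤ t → t ≤ T → E s (x - (t - s) • bar v) v ≤ E t x v
  C0 : 0 < C
  G : ∀ s x v, 0 < s → s ≤ T → L.Gf φ E s x v ≤ ENNReal.ofReal (C / s) * E s x v

variable {E : Fld} {T C : ℝ}

theorem WtHyp.slice (hW : WtHyp φ E T C) {t : ℝ} (ht : 0 < t) (x : P2) : Measurable (E t x) := by
  have h := hW.meas.slice t x
  simpa [ht] using h

theorem Gf_smul_le' (hφ : Meas3 φ) (hW : WtHyp φ E T C) {h : Fld} {s : ℝ} (hs : 0 < s) {x : P2}
    {c : ℝ≥0∞} (hle : ∀ v, h s x v ≤ c * E s x v) (v : R3) :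
    L.Gf φ h s x v ≤ c * L.Gf φ E s x v := by
  unfold L.Gf
  have h1 : Qp (φ s x) (h s x) v ≤ Qp (φ s x) (fun z => c * E s x z) v :=
    A.Qp_mono (fun _ => le_rfl) hle v
  rw [L.Qp_const_mul_right' (hφ.slice s x) (hW.slice hs x)] at h1
  calc 2 * Qp (φ s x) (h s x) v ≤ 2 * (c * Qp (φ s x) (E s x) v) := mul_le_mul' le_rfl h1
    _ = _ := by ring

/-- `T` on weights `(D₁ s^{β₁} + D₂ s^{β₂}) E` -/
theorem TL_le_pow (hφ : Meas3 φ) (hW : WtHyp φ E T C) {f : Fld} {D1 D2 β1 β2 : ℝ} (hD1 : 0 ≤ D1)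
    (hD2 : 0 ≤ D2) (hβ1 : 0 < β1) (hβ2 : 0 < β2) {t : ℝ} (ht : 0 < t) (htT : t ≤ T)
    (hf : ∀ s ∈ Ioo 0 t, ∀ y z, f s y z ≤ ENNReal.ofReal (D1 * s ^ β1 + D2 * s ^ β2) * E s y z)
    (x : P2) (v : R3) :
    TL φ f t x v ≤ ENNReal.ofReal (C * D1 * t ^ β1 / β1 + C * D2 * t ^ β2 / β2) * E t x v := by
  have hC := hW.C0
  show L.Dam φ (L.Gf φ f) t x v ≤ _
  refine (L.Dam_le_Duhf t x v).trans ?_
  unfold L.Duhf
  have h1 : ∀ s ∈ Ioo 0 t, L.Gf φ f s (x - (t - s) • bar v) v ≤
      (ENNReal.ofReal (C * D1 * t ^ β1) * ENNReal.ofReal (1 / s * (s / t) ^ β1) +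
        ENNReal.ofReal (C * D2 * t ^ β2) * ENNReal.ofReal (1 / s * (s / t) ^ β2)) * E t x v := by
    intro s hs
    have hs0 : 0 < s := hs.1
    refine (Gf_smul_le' hφ hW hs0 (fun z => hf s hs _ z) v).trans ?_
    calc ENNReal.ofReal (D1 * s ^ β1 + D2 * s ^ β2) * L.Gf φ E s (x - (t - s) • bar v) v
        ≤ ENNReal.ofReal (D1 * s ^ β1 + D2 * s ^ β2) *
          (ENNReal.ofReal (C / s) * E t x v) := by
          gcongr
          refine (hW.G s _ v hs0 (hs.2.le.trans htT)).trans ?_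
          gcongr
          exact hW.mono s t x v hs0 hs.2.le htT
      _ = _ := by
          rw [← mul_assoc]
          congr 1
          rw [← ENNReal.ofReal_mul (by positivity), ← ENNReal.ofReal_mul (by positivity),
            ← ENNReal.ofReal_mul (by positivity), ← ENNReal.ofReal_add (by positivity)
              (by positivity)]
          congr 1
          rw [Real.div_rpow hs0.le ht.le, Real.div_rpow hs0.le ht.le]
          have e1 : t ^ β1 ≠ 0 := (Real.rpow_pos_of_pos ht _).ne'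
          have e2 : t ^ β2 ≠ 0 := (Real.rpow_pos_of_pos ht _).ne'
          field_simp
  refine (setLIntegral_mono' measurableSet_Ioo h1).trans ?_
  rw [lintegral_mul_const _ (by fun_prop), lintegral_add_left (by fun_prop),
    lintegral_const_mul _ (by fun_prop), lintegral_const_mul _ (by fun_prop)]
  refine mul_le_mul' ?_ le_rfl
  rw [ENNReal.ofReal_add (by positivity) (by positivity)]
  refine add_le_add ?_ ?_
  · calc ENNReal.ofReal (C * D1 * t ^ β1) * ∫⁻ s in Ioo 0 t, ENNReal.ofReal (1 / s * (s / t) ^ β1)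
        ≤ ENNReal.ofReal (C * D1 * t ^ β1) * ENNReal.ofReal (1 / β1) := by
          gcongr
          exact K.lintegral_rpow_le hβ1 ht
      _ = _ := by
          rw [← ENNReal.ofReal_mul (by positivity)]
          congr 1
          ring
  · calc ENNReal.ofReal (C * D2 * t ^ β2) * ∫⁻ s in Ioo 0 t, ENNReal.ofReal (1 / s * (s / t) ^ β2)
        ≤ ENNReal.ofReal (C * D2 * t ^ β2) * ENNReal.ofReal (1 / β2) := by
          gcongr
          exact K.lintegral_rpow_le hβ2 ht
      _ = _ := by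
          rw [← ENNReal.ofReal_mul (by positivity)]
          congr 1
          ring

/-- extension of the bound of the Neumann series from `(0,t0]` to `(0,T]` -/
theorem neuL_ext (hφ : Meas3 φ) (hW : WtHyp φ E T C) {f : Fld} (hf : Meas3 f) {t0 b A C1 : ℝ}
    (ht0 : 0 < t0) (ht0T : t0 ≤ T) (hb : 0 < b) (hA : 0 ≤ A) (hC1 : 0 ≤ C1)
    (hfA : ∀ t, 0 < t → t ≤ T → ∀ x v, f t x v ≤ ENNReal.ofReal A * E t x v)
    (hN : ∀ t, 0 < t → t ≤ t0 → ∀ x v, neuL φ f t x v ≤ ENNReal.ofReal (C1 * t ^ b) * E t x v) :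
    ∃ B : ℝ, 0 ≤ B ∧ ∀ t, t0 < t → t ≤ T → ∀ x v, neuL φ f t x v ≤ ENNReal.ofReal B * E t x v := by
  classical
  have hC := hW.C0
  have hT : 0 < T := ht0.trans_le ht0T
  set lam : ℝ := 2 * C with hlam
  set B : ℝ := 2 * (A + C * C1 * T ^ b / b) with hB
  have hB0 : 0 ≤ B := by positivity
  -- the supersolution
  set H : Fld := fun t x v => if t ≤ t0 then neuL φ f t x v else
    ENNReal.ofReal (B * (t / t0) ^ lam) * E t x v with hH
  have hHle : ∀ s, 0 < s → s ≤ T → ∀ y z,
      H s y z ≤ ENNReal.ofReal (C1 * s ^ b + B * t0 ^ (-lam) * s ^ lam) * E s y z := by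
    intro s hs hsT y z
    have hp : 0 ≤ t0 ^ (-lam) := by positivity
    have hp2 : 0 ≤ s ^ lam := by positivity
    have hp3 : 0 ≤ s ^ b := by positivity
    simp only [hH]
    split_ifs with h
    · refine (hN s hs h y z).trans ?_
      gcongr
      have : 0 ≤ B * t0 ^ (-lam) * s ^ lam := by positivity
      linarith
    · gcongr
      rw [Real.div_rpow hs.le ht0.le, Real.rpow_neg ht0.le]
      have : 0 ≤ C1 * s ^ b := by positivity
      have e : B * (s ^ lam / t0 ^ lam) = B * (t0 ^ lam)⁻¹ * s ^ lam := by ring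
      rw [e]
      linarith
  have hsup : ∀ t, 0 < t → t ≤ T → ∀ x v, f t x v + TL φ H t x v ≤ H t x v := by
    intro t ht htT x v
    by_cases h : t ≤ t0
    · have e1 : TL φ H t x v = TL φ (neuL φ f) t x v := by
        refine TL_congr_lt (fun s hs y z => ?_) x v
        simp only [hH, if_pos (hs.2.le.trans h)]
      rw [e1, ← neuL_eq hφ hf]
      simp only [hH, if_pos h]
      exact le_rfl
    · have h' : t0 < t := not_le.1 h
      have e1 := TL_le_pow hφ hW (f := H) (D1 := C1) (D2 := B * t0 ^ (-lam)) (β1 := b) (β2 := lam)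
        hC1 (by positivity) hb (by positivity) ht htT
        (fun s hs y z => hHle s hs.1 (hs.2.le.trans htT) y z) x v
      simp only [hH, if_neg h]
      calc f t x v + TL φ H t x v
          ≤ ENNReal.ofReal A * E t x v + ENNReal.ofReal (C * C1 * t ^ b / b +
              C * (B * t0 ^ (-lam)) * t ^ lam / lam) * E t x v :=
            add_le_add (hfA t ht htT x v) e1
        _ = ENNReal.ofReal (A + (C * C1 * t ^ b / b +
              C * (B * t0 ^ (-lam)) * t ^ lam / lam)) * E t x v := by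
            rw [← add_mul, ← ENNReal.ofReal_add hA (by positivity)]
        _ ≤ ENNReal.ofReal (B * (t / t0) ^ lam) * E t x v := by
            gcongr
            have e2 : t ^ b ≤ T ^ b := Real.rpow_le_rpow ht.le htT hb.le
            have e3 : 1 ≤ (t / t0) ^ lam :=
              Real.one_le_rpow ((one_le_div ht0).2 h'.le) (by positivity)
            have e4 : C * (B * t0 ^ (-lam)) * t ^ lam / lam = B * (t / t0) ^ lam / 2 := by
              rw [Real.div_rpow ht.le ht0.le, Real.rpow_neg ht0.le, hlam]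
              field_simp
            have e5 : C * C1 * t ^ b / b ≤ C * C1 * T ^ b / b := by gcongr
            rw [e4]
            have e6 : A + C * C1 * T ^ b / b = B / 2 := by rw [hB]; ring
            nlinarith
  refine ⟨B * (T / t0) ^ lam, by positivity, fun t ht htT x v => ?_⟩
  have ht0' : 0 < t := ht0.trans ht
  refine (neuL_le hφ hf hsup t ht0' htT x v).trans ?_
  simp only [hH, if_neg (not_le.2 ht)]
  gcongr

end Crest.Agent.R68.ND
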