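import Crest.Agent.R68.LAncF
import Crest.Agent.R68.LNull
import Crest.Agent.R68.NExt

/-!
# Row 68, Part L: bridge between Part N's `TT P` and `TL (phiE P)`; null sets
-/

set_option autoImplicit false
open MeasureTheory Set Filter
open scoped ENNReal Topology
open Crest.AnalysisR.VecCalc3 Crest.AnalysisR.PDE.Boltzmann

noncomputable section

namespace Crest.Agent.R68.L

open Crest.Agent.R68.A

variable {P : Par}

theorem NGf_eq (hφ : Meas3 (phiE P)) {f : Den} {t : ℝ} {x : P2} (hf : Measurable (f t x))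
    (v : R3) : N.Gf P f t x v = Gf (phiE P) f t x v := by
  show Qp (phiE P t x) (f t x) v + Qp (f t x) (phiE P t x) v = 2 * Qp (phiE P t x) (f t x) v
  rw [Qp_comm hf (hφ.slice t x), two_mul]

theorem NDam_eq (q : Den) (t : ℝ) (x : P2) (v : R3) :
    N.Dam (N.nuf P) q t x v = Dam (phiE P) q t x v := rfl

/-- Part N's operator on functions that are measurable for positive times -/
theorem TT_eq {f f' : Den} (hφ : Meas3 (phiE P)) (hf' : Meas3 f') {t : ℝ}
    (h : ∀ s ∈ Ioo 0 t, ∀ y z, f s y z = f' s y z) (x : P2) (v : R3) :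
    N.TT P f t x v = TL (phiE P) f' t x v := by
  show Dam (phiE P) (N.Gf P f) t x v = Dam (phiE P) (Gf (phiE P) f') t x v
  have key : ∀ s ∈ Ioo 0 t, ∀ y z, N.Gf P f s y z = Gf (phiE P) f' s y z := by
    intro s hs y z
    have e : f s y = f' s y := by funext z; exact h s hs y z
    have hm : Measurable (f s y) := by rw [e]; exact hf'.slice s y
    rw [NGf_eq hφ hm]
    simp only [Gf, e]
  refine le_antisymm (Dam_mono_at fun s hs => ?_) (Dam_mono_at fun s hs => ?_)
  · rw [key s hs]
  · rw [key s hs]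

theorem TT_iter_eq {f f' : Den} (hφ : Meas3 (phiE P)) (hf' : Meas3 f') {T : ℝ}
    (h : ∀ s, 0 < s → s ≤ T → ∀ y z, f s y z = f' s y z) (m : ℕ) :
    ∀ s, 0 < s → s ≤ T → ∀ y z, (N.TT P)^[m] f s y z = (TL (phiE P))^[m] f' s y z := by
  induction m with
  | zero => exact h
  | succ m ih =>
    intro s hs hsT y z
    rw [Function.iterate_succ_apply', Function.iterate_succ_apply']
    exact TT_eq hφ (meas3_iter hφ hf' m)
      (fun r hr y z => ih r hr.1 (hr.2.le.trans hsT) y z) y z

/-! ### null sets -/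

theorem nullOK {φ : Den} (hφ : Meas3 φ) : NullOK φ := by
  intro f hf h
  have h0 : Meas3 (fun _ _ _ => (0 : ℝ≥0∞)) := measurable_const
  have hm : Meas3 (TL φ f) := meas3_TL hφ hf
  have hms : MeasurableSet {p : XX | unc (TL φ f) p = 0} := hm (measurableSet_singleton 0)
  have : (volume : Measure XX) = (volume : Measure ℝ).prod
      ((volume : Measure P2).prod (volume : Measure R3)) := rfl
  rw [this, Measure.ae_prod_iff_ae_ae hms]
  refine Eventually.of_forall fun t => ?_
  have hms2 : MeasurableSet {q : P2 × R3 | unc (TL φ f) (t, q) = 0} :=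
    measurable_prodMk_left hms
  rw [Measure.ae_prod_iff_ae_ae hms2]
  refine Eventually.of_forall fun x => ?_
  have h1 := TL_ae_vel hφ hf h0 (h.mono fun p hp _ => hp) t x
  filter_upwards [h1] with v hv
  show TL φ f t x v = 0
  rw [hv]
  exact ND.TL_zero t x v

theorem twoOK {φ : Den} (hφ : Meas3 φ) : TwoOK φ :=
  fun _ _ hf hg h => TL_TL_congr hφ hf hg h

end Crest.Agent.R68.L
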