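import Crest.Agent.R68.LBridge

/-!
# Row 68, Part L: extension of the ancient solution from `(0,t0]` to `(0,T]`
-/

set_option autoImplicit false
open MeasureTheory Set Filter
open scoped ENNReal Topology
open Crest.AnalysisR.VecCalc3 Crest.AnalysisR.PDE.Boltzmann

noncomputable section

namespace Crest.Agent.R68.L

open Crest.Agent.R68.A
open Crest.Agent.R68.ND (neuL neuL_eq neuL_ext WtHyp meas3_neuL TL_congr_lt TL_zero)

variable {φ E : Den} {T C : ℝ}

/-- extension of a solution of `H = TL H` from `(0,t0]` to `(0,T]` -/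
theorem exists_ext (hφ : Meas3 φ) (pφ : PerF φ) (hW : WtHyp φ E T C) {t0 : ℝ} (ht0 : 0 < t0)
    (ht0T : t0 ≤ T) {H : Den} (hH : Meas3 H) (pH : PerF H)
    (heq : ∀ t ∈ Ioc 0 t0, ∀ x v, H t x v = TL φ H t x v) {c : ℝ} (hc : 0 < c) {A : ℝ}
    (hA : 0 ≤ A)
    (hle : ∀ t ∈ Ioc 0 t0, ∀ x v, H t x v ≤ ENNReal.ofReal (A * t ^ c) * E t x v) :
    ∃ (G : Den) (B : ℝ), 0 ≤ B ∧ Meas3 G ∧ PerF G ∧ (∀ t ∈ Ioc 0 t0, ∀ x v, G t x v = H t x v) ∧
      (∀ t ∈ Ioc 0 T, ∀ x v, G t x v = TL φ G t x v) ∧
      (∀ t ∈ Ioc 0 T, ∀ x v, G t x v ≤ ENNReal.ofReal (B * t ^ c) * E t x v) := by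
  classical
  have hT : 0 < T := ht0.trans_le ht0T
  have hC := hW.C0
  -- `H` cut to `(0,t0]`
  set K : Den := fun t x v => if 0 < t ∧ t ≤ t0 then H t x v else 0 with hK
  have hKm : Meas3 K := by
    unfold Meas3
    refine Measurable.ite ?_ hH measurable_const
    exact (measurableSet_lt measurable_const measurable_fst).inter
      (measurableSet_le measurable_fst measurable_const)
  have pK : PerF K := by
    intro t v x k
    have := pH t v x k
    simp only at this
    show K t (x + latt k) v = K t x v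
    simp only [hK]
    rw [this]
  have hKpos : ∀ t ∈ Ioc 0 t0, ∀ x v, K t x v = H t x v := by
    intro t ht x v
    simp only [hK, ht.1, ht.2, and_self, if_true]
  -- the source of the continuation
  set f : Den := fun t x v => if t0 < t then TL φ K t x v else 0 with hf
  have hfm : Meas3 f := by
    unfold Meas3
    refine Measurable.ite ?_ (meas3_TL hφ hKm) measurable_const
    exact measurableSet_lt measurable_const measurable_fst
  have pf : PerF f := by
    intro t v x k
    have := PerF_TL pφ pK t v x k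
    simp only at this
    show f t (x + latt k) v = f t x v
    simp only [hf]
    rw [this]
  have hf0 : ∀ t, t ≤ t0 → ∀ x v, f t x v = 0 := by
    intro t ht x v
    simp only [hf, not_lt.2 ht, if_false]
  have hKle : ∀ s ∈ Ioo 0 T, ∀ x v, K s x v ≤ ENNReal.ofReal (A * s ^ c + 0 * s ^ (1 : ℝ)) *
      E s x v := by
    intro s hs x v
    rw [zero_mul, add_zero]
    simp only [hK]
    split_ifs with h
    · exact hle s h x v
    · exact zero_le
  have hTK : ∀ t, 0 < t → t ≤ T → ∀ x v, TL φ K t x v ≤
      ENNReal.ofReal (C * A * T ^ c / c) * E t x v := by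
    intro t ht htT x v
    have h1 := ND.TL_le_pow hφ hW (f := K) (D1 := A) (D2 := 0) (β1 := c) (β2 := 1) hA le_rfl hc
      one_pos ht htT (fun s hs y z => hKle s ⟨hs.1, hs.2.trans_le htT⟩ y z) x v
    refine h1.trans ?_
    refine mul_le_mul' (ENNReal.ofReal_le_ofReal ?_) le_rfl
    have : t ^ c ≤ T ^ c := Real.rpow_le_rpow ht.le htT hc.le
    have h2 : C * A * t ^ c / c ≤ C * A * T ^ c / c := by gcongr
    simpa using h2
  have hfA : ∀ t, 0 < t → t ≤ T → ∀ x v, f t x v ≤ ENNReal.ofReal (C * A * T ^ c / c) *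
      E t x v := by
    intro t ht htT x v
    simp only [hf]
    split_ifs
    · exact hTK t ht htT x v
    · exact zero_le
  -- the series vanishes up to `t0`
  have hN0 : ∀ t, t ≤ t0 → ∀ x v, neuL φ f t x v = 0 := by
    have key : ∀ m : ℕ, ∀ t, t ≤ t0 → ∀ x v, (TL φ)^[m] f t x v = 0 := by
      intro m
      induction m with
      | zero => exact hf0
      | succ m ih =>
        intro t ht x v
        rw [Function.iterate_succ_apply',
          TL_congr_lt (k := fun _ _ _ => 0) (fun s hs y z => ih s (hs.2.le.trans ht) y z)]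
        exact TL_zero t x v
    intro t ht x v
    unfold neuL
    simp [key _ t ht]
  have hN : ∀ t, 0 < t → t ≤ t0 → ∀ x v, neuL φ f t x v ≤ ENNReal.ofReal (0 * t ^ c) *
      E t x v := by
    intro t _ ht x v
    rw [hN0 t ht]
    exact zero_le
  obtain ⟨B, hB, hNB⟩ := neuL_ext hφ hW hfm ht0 ht0T hc (A := C * A * T ^ c / c)
    (by positivity) le_rfl hfA hN
  have pN : PerF (neuL φ f) := by
    intro t v x k
    show neuL φ f t (x + latt k) v = neuL φ f t x v
    unfold neuL
    congr 1
    funext n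
    exact PerF_iter pφ pf n t v x k
  set G : Den := fun t x v => K t x v + neuL φ f t x v with hG
  have hGm : Meas3 G := Meas3.add hKm (meas3_neuL hφ hfm)
  have hG1 : ∀ t ∈ Ioc 0 t0, ∀ x v, G t x v = H t x v := by
    intro t ht x v
    simp only [hG, hN0 t ht.2, add_zero, hKpos t ht]
  refine ⟨G, max A (B / t0 ^ c), le_max_of_le_left hA, hGm, ?_, hG1, ?_, ?_⟩
  · intro t v x k
    have h1 := pK t v x k
    have h2 := pN t v x k
    simp only at h1 h2
    show K t (x + latt k) v + neuL φ f t (x + latt k) v = K t x v + neuL φ f t x v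
    rw [h1, h2]
  · intro t ht x v
    by_cases h : t ≤ t0
    · rw [hG1 t ⟨ht.1, h⟩, heq t ⟨ht.1, h⟩]
      exact TL_congr_lt (fun s hs y z => (hG1 s ⟨hs.1, hs.2.le.trans h⟩ y z).symm) x v
    · have h' : t0 < t := not_le.1 h
      have e1 : TL φ G t x v = TL φ K t x v + TL φ (neuL φ f) t x v := by
        rw [hG, TL_add hφ hKm]
      have e2 : K t x v = 0 := by
        simp only [hK]
        rw [if_neg (fun hh => h hh.2)]
      have e3 : f t x v = TL φ K t x v := by simp only [hf, h', if_true]
      rw [e1, ← e3, ← neuL_eq hφ hfm]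
      show K t x v + neuL φ f t x v = _
      rw [e2, zero_add]
  · intro t ht x v
    by_cases h : t ≤ t0
    · rw [hG1 t ⟨ht.1, h⟩]
      refine (hle t ⟨ht.1, h⟩ x v).trans ?_
      gcongr
      · exact Real.rpow_nonneg ht.1.le c
      · exact le_max_left _ _
    · have h' : t0 < t := not_le.1 h
      have e2 : K t x v = 0 := by
        simp only [hK]
        rw [if_neg (fun hh => h hh.2)]
      have e4 : G t x v = neuL φ f t x v := by
        show K t x v + neuL φ f t x v = _
        rw [e2, zero_add]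
      rw [e4]
      refine (hNB t h' ht.2 x v).trans ?_
      refine mul_le_mul' (ENNReal.ofReal_le_ofReal ?_) le_rfl
      have h3 : t0 ^ c ≤ t ^ c := Real.rpow_le_rpow ht0.le h'.le hc.le
      have h4 : 0 < t0 ^ c := Real.rpow_pos_of_pos ht0 c
      calc B = B / t0 ^ c * t0 ^ c := by field_simp
        _ ≤ B / t0 ^ c * t ^ c := by gcongr
        _ ≤ max A (B / t0 ^ c) * t ^ c := by
            gcongr
            · exact Real.rpow_nonneg ht.1.le c
            · exact le_max_right _ _

end Crest.Agent.R68.L
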