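import Crest.Agent.R68.LSol1

/-!
# Row 68, PART L (helper685): theorem L1 (`SOL`): no power loss for the linear hot equation
-/

set_option autoImplicit false
open MeasureTheory Set Filter Topology
open scoped ENNReal
open Crest.AnalysisR.VecCalc3 Crest.AnalysisR.PDE.Boltzmann

noncomputable section

namespace Crest.Agent.R68.L

open Crest.Agent.R68.A (Meas3 en Acc)

variable {φ : Den}

/-- input X1: bound of the mass of solutions whose source is cut at a positive time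
(`be` = upper exponent) -/
def MassBound (P : Par) (φ : Den) (g1 g2 t0 be : ℝ) (CX : ℝ≥0∞) : Prop :=
  ∀ (H σ : Den) (τ0 : ℝ) (A : ℝ≥0∞), Meas3 H → Meas3 σ → PerD H → PerD σ → 0 < τ0 → A ≠ ⊤ →
    (∀ t x v, H t x v = TL φ H t x v + Dam φ σ t x v) →
    (∀ t x v, t ≤ τ0 → H t x v = 0) → (∀ t x v, t ≤ τ0 → σ t x v = 0) →
    (∀ t x v, 0 < t → t ≤ t0 → H t x v ≤ A * EE P g1 g2 t x v) →
    (∀ t x v, 0 < t → t ≤ t0 → σ t x v ≤ A * EE P g1 g2 t x v) →
    ∀ t, 0 < t → t ≤ t0 → ∫⁻ x in cellG, ∫⁻ v, H t x v ≤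
      CX * ∫⁻ s in Ioo 0 t, ENNReal.ofReal ((t / s) ^ be) *
        ∫⁻ x in cellG, ∫⁻ v, ENNReal.ofReal ((1 + ‖v‖) ^ 4) * σ s x v

/-- input K3: mass of the envelope -/
def MassEE (P : Par) (g1 g2 t0 : ℝ) (CM : ℝ≥0∞) : Prop :=
  ∀ s, 0 < s → s ≤ t0 → ∫⁻ x in cellG, ∫⁻ v : R3, ENNReal.ofReal ((1 + ‖v‖) ^ 4) *
    EE P g1 g2 s x v ≤ CM * ENNReal.ofReal (s ^ 2)

/-! ### vanishing -/

theorem Dam_eq_zero {q : Den} {T : ℝ} (hq : ∀ t x v, 0 < t → t ≤ T → q t x v = 0) {t : ℝ} (ht : t ≤ T)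
    (x : P2) (v : R3) : Dam φ q t x v = 0 := by
  unfold Dam
  rw [setLIntegral_congr_fun (g := fun _ => 0) measurableSet_Ioo]
  · simp
  · intro s hs
    simp only
    rw [hq s _ _ hs.1 (hs.2.le.trans ht), mul_zero]

theorem sol_eq_zero {σ : Den} {T : ℝ} (hσ : ∀ t x v, 0 < t → t ≤ T → σ t x v = 0) {t : ℝ}
    (ht : t ≤ T) (x : P2) (v : R3) : sol φ σ t x v = 0 := by
  have key : ∀ n : ℕ, ∀ t x v, t ≤ T → (TL φ)^[n] (Dam φ σ) t x v = 0 := by
    intro n
    induction n with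
    | zero => intro t x v ht; exact Dam_eq_zero hσ ht x v
    | succ n ih =>
      intro t x v ht
      rw [Function.iterate_succ_apply']
      exact Dam_eq_zero (fun s y w _ hs => Gf_eq_zero (fun v => ih s y v hs) w) ht x v
  unfold sol
  rw [ENNReal.tsum_eq_zero]
  exact fun n => key n t x v ht

/-! ### the cut source -/

/-- source cut at `τ` -/
def cutS (τ : ℝ) (σ : Den) : Den := fun t x v => if τ < t then σ t x v else 0

theorem meas3_cutS {σ : Den} (hσ : Meas3 σ) (τ : ℝ) : Meas3 (cutS τ σ) := by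
  unfold Meas3 cutS
  exact Measurable.ite (measurableSet_lt measurable_const measurable_fst) hσ measurable_const

theorem perD_cutS {σ : Den} (hσ : PerD σ) (τ : ℝ) : PerD (cutS τ σ) := by
  intro t v x k
  unfold cutS
  dsimp only
  rw [show σ t (x + latt k) v = σ t x v from hσ t v x k]

theorem cutS_le {σ : Den} (τ t : ℝ) (x : P2) (v : R3) : cutS τ σ t x v ≤ σ t x v := by
  unfold cutS
  split_ifs
  · exact le_rfl
  · exact bot_le

theorem cutS_zero {σ : Den} {τ t : ℝ} (h : t ≤ τ) (x : P2) (v : R3) : cutS τ σ t x v = 0 := by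
  unfold cutS
  rw [if_neg (not_lt.2 h)]

theorem sol_eq_iSup_cut (hφ : Meas3 φ) {σ : Den} (hσ : Meas3 σ) (t : ℝ) (x : P2) (v : R3) :
    sol φ σ t x v = ⨆ n : ℕ, sol φ (cutS (1 / ((n : ℝ) + 1)) σ) t x v := by
  have hmono : ∀ t x v, Monotone (fun n : ℕ => cutS (1 / ((n : ℝ) + 1)) σ t x v) := by
    intro t x v m n hmn
    have h1 : 1 / ((n : ℝ) + 1) ≤ 1 / ((m : ℝ) + 1) := by
      apply one_div_le_one_div_of_le (by positivity)
      have : (m : ℝ) ≤ n := by exact_mod_cast hmn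
      linarith
    unfold cutS
    dsimp only
    split_ifs with h2 h3
    · exact le_rfl
    · exact absurd (h1.trans_lt h2) h3
    · exact bot_le
    · exact le_rfl
  rw [← sol_iSup hφ _ (fun n => meas3_cutS hσ _) hmono t x v]
  have hD : Dam φ σ = Dam φ (fun t x v => ⨆ n : ℕ, cutS (1 / ((n : ℝ) + 1)) σ t x v) := by
    funext t x v
    unfold Dam
    refine setLIntegral_congr_fun measurableSet_Ioo fun s hs => ?_
    dsimp only
    congr 1
    refine le_antisymm ?_ (iSup_le fun n => cutS_le _ _ _ _)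
    obtain ⟨n, hn⟩ := exists_nat_one_div_lt hs.1
    refine le_trans ?_ (le_iSup _ n)
    unfold cutS
    rw [if_pos hn]
  unfold sol
  rw [hD]

/-! ### mass of the solution -/

lemma lint_mass {b be t : ℝ} (hb : be < b + 2) (ht : 0 < t) :
    (∫⁻ s in Ioo (0 : ℝ) t, ENNReal.ofReal ((t / s) ^ be) * ENNReal.ofReal (s ^ (b + 1))) ≤
      ENNReal.ofReal (t ^ (b + 2) / (b + 2 - be)) := by
  have h1 : ∀ s ∈ Ioo (0 : ℝ) t, ENNReal.ofReal ((t / s) ^ be) * ENNReal.ofReal (s ^ (b + 1)) =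
      ENNReal.ofReal (t ^ be) * ENNReal.ofReal (s ^ (b + 1 - be)) := by
    intro s hs
    have hs0 : 0 < s := hs.1
    rw [← ENNReal.ofReal_mul (by positivity), ← ENNReal.ofReal_mul (by positivity)]
    congr 1
    rw [Real.div_rpow ht.le hs0.le, Real.rpow_sub hs0]
    ring
  rw [setLIntegral_congr_fun measurableSet_Ioo h1, lintegral_const_mul' _ _ ENNReal.ofReal_ne_top]
  have hint : IntervalIntegrable (fun s : ℝ => s ^ (b + 1 - be)) volume 0 t :=
    intervalIntegral.intervalIntegrable_rpow' (by linarith)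
  have h2 : (∫⁻ s in Ioc (0 : ℝ) t, ENNReal.ofReal (s ^ (b + 1 - be))) =
      ENNReal.ofReal (∫ s in (0 : ℝ)..t, s ^ (b + 1 - be)) := by
    rw [intervalIntegral.integral_of_le ht.le]
    rw [ofReal_integral_eq_lintegral_ofReal hint.1]
    filter_upwards [ae_restrict_mem measurableSet_Ioc] with s hs
    exact Real.rpow_nonneg hs.1.le _
  calc ENNReal.ofReal (t ^ be) * ∫⁻ s in Ioo (0 : ℝ) t, ENNReal.ofReal (s ^ (b + 1 - be))
      ≤ ENNReal.ofReal (t ^ be) * ENNReal.ofReal (∫ s in (0 : ℝ)..t, s ^ (b + 1 - be)) := by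
        rw [← h2]
        gcongr
        exact Ioo_subset_Ioc_self
    _ ≤ _ := by
        rw [← ENNReal.ofReal_mul (by positivity)]
        apply ENNReal.ofReal_le_ofReal
        rw [integral_rpow (Or.inl (by linarith)), show b + 1 - be + 1 = b + 2 - be by ring,
          Real.zero_rpow (by linarith), sub_zero, mul_div_assoc', ← Real.rpow_add ht]
        ring_nf
        exact le_rfl

variable {P : Par} {g1 g2 t0 be b : ℝ} {CX CM A : ℝ≥0∞}

/-- mass of a solution with source `σ ≤ A t^{b-1} EE` -/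
theorem mass_sol (hM : MassBound P φ g1 g2 t0 be CX) (hE : MassEE P g1 g2 t0 CM) (hb : be < b + 2)
    (hA : A ≠ ⊤) {H σ : Den} {τ0 : ℝ} {A2 : ℝ≥0∞} (hH : Meas3 H) (hσ : Meas3 σ)
    (pH : PerD H) (pσ : PerD σ) (hτ : 0 < τ0) (hA2 : A2 ≠ ⊤)
    (heq : ∀ t x v, H t x v = TL φ H t x v + Dam φ σ t x v)
    (hH0 : ∀ t x v, t ≤ τ0 → H t x v = 0) (hσ0 : ∀ t x v, t ≤ τ0 → σ t x v = 0)
    (hHA : ∀ t x v, 0 < t → t ≤ t0 → H t x v ≤ A2 * EE P g1 g2 t x v)
    (hσA : ∀ t x v, 0 < t → t ≤ t0 → σ t x v ≤ A2 * EE P g1 g2 t x v)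
    (hσb : ∀ t x v, 0 < t → t ≤ t0 → σ t x v ≤ A * ENNReal.ofReal (t ^ (b - 1)) * EE P g1 g2 t x v)
    {t : ℝ} (ht : 0 < t) (ht0 : t ≤ t0) :
    ∫⁻ x in cellG, ∫⁻ v, H t x v ≤
      A * (CX * CM * ENNReal.ofReal (1 / (b + 2 - be))) * ENNReal.ofReal (t ^ (b + 2)) := by
  have h1 : ∀ s ∈ Ioo (0 : ℝ) t, ENNReal.ofReal ((t / s) ^ be) *
      (∫⁻ x in cellG, ∫⁻ v, ENNReal.ofReal ((1 + ‖v‖) ^ 4) * σ s x v) ≤
      A * CM * (ENNReal.ofReal ((t / s) ^ be) * ENNReal.ofReal (s ^ (b + 1))) := by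
    intro s hs
    have hs0 : 0 < s := hs.1
    have hst : s ≤ t0 := hs.2.le.trans ht0
    have hAs : A * ENNReal.ofReal (s ^ (b - 1)) ≠ ⊤ := ENNReal.mul_ne_top hA ENNReal.ofReal_ne_top
    have h2 : (∫⁻ x in cellG, ∫⁻ v, ENNReal.ofReal ((1 + ‖v‖) ^ 4) * σ s x v) ≤
        A * ENNReal.ofReal (s ^ (b - 1)) * (CM * ENNReal.ofReal (s ^ 2)) := by
      calc (∫⁻ x in cellG, ∫⁻ v, ENNReal.ofReal ((1 + ‖v‖) ^ 4) * σ s x v)
          ≤ ∫⁻ x in cellG, ∫⁻ v, A * ENNReal.ofReal (s ^ (b - 1)) *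
            (ENNReal.ofReal ((1 + ‖v‖) ^ 4) * EE P g1 g2 s x v) := by
            refine lintegral_mono fun x => lintegral_mono fun v => ?_
            calc ENNReal.ofReal ((1 + ‖v‖) ^ 4) * σ s x v ≤ ENNReal.ofReal ((1 + ‖v‖) ^ 4) *
                (A * ENNReal.ofReal (s ^ (b - 1)) * EE P g1 g2 s x v) := by
                  gcongr; exact hσb s x v hs0 hst
              _ = _ := by ring
        _ = A * ENNReal.ofReal (s ^ (b - 1)) *
            ∫⁻ x in cellG, ∫⁻ v, (ENNReal.ofReal ((1 + ‖v‖) ^ 4) * EE P g1 g2 s x v) := by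
            rw [← lintegral_const_mul' _ _ hAs]
            refine lintegral_congr fun x => ?_
            rw [← lintegral_const_mul' _ _ hAs]
        _ ≤ _ := by
            gcongr
            exact hE s hs0 hst
    calc _ ≤ ENNReal.ofReal ((t / s) ^ be) *
          (A * ENNReal.ofReal (s ^ (b - 1)) * (CM * ENNReal.ofReal (s ^ 2))) := by gcongr
      _ = A * CM * (ENNReal.ofReal ((t / s) ^ be) *
          (ENNReal.ofReal (s ^ (b - 1)) * ENNReal.ofReal (s ^ 2))) := by ring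
      _ = _ := by
          rw [← ENNReal.ofReal_mul (p := s ^ (b - 1)) (by positivity)]
          congr 3
          rw [← Real.rpow_natCast s 2, ← Real.rpow_add hs0]
          norm_num
          ring_nf
  calc ∫⁻ x in cellG, ∫⁻ v, H t x v
      ≤ CX * ∫⁻ s in Ioo 0 t, ENNReal.ofReal ((t / s) ^ be) *
        ∫⁻ x in cellG, ∫⁻ v, ENNReal.ofReal ((1 + ‖v‖) ^ 4) * σ s x v :=
        hM H σ τ0 A2 hH hσ pH pσ hτ hA2 heq hH0 hσ0 hHA hσA t ht ht0
    _ ≤ CX * ∫⁻ s in Ioo 0 t, A * CM * (ENNReal.ofReal ((t / s) ^ be) * ENNReal.ofReal (s ^ (b + 1))) := by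
        refine mul_le_mul' le_rfl ?_
        exact lintegral_mono_ae ((ae_restrict_mem measurableSet_Ioo).mono h1)
    _ = CX * (A * CM * ∫⁻ s in Ioo 0 t, (ENNReal.ofReal ((t / s) ^ be) * ENNReal.ofReal (s ^ (b + 1)))) := by
        rw [lintegral_const_mul]
        have : Measurable fun s : ℝ => (t / s) ^ be := by fun_prop
        fun_prop
    _ ≤ CX * (A * CM * ENNReal.ofReal (t ^ (b + 2) / (b + 2 - be))) := by
        gcongr
        exact lint_mass hb ht
    _ = _ := by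
        rw [show t ^ (b + 2) / (b + 2 - be) = 1 / (b + 2 - be) * t ^ (b + 2) by ring,
          ENNReal.ofReal_mul (div_nonneg zero_le_one (by linarith))]
        ring

end Crest.Agent.R68.L
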