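import Crest.Agent.R68.LX2
import Crest.Agent.R68.LSol2
import Crest.Agent.R68.Params

/-!
# Row 68, Part L: the three inputs of `LOut` (final parameters `par K Y ey p j0`)

* `SOut` : window theorem (Part S: 262, 653, 813, 312, ...) = field `S` of 685's `SInput`;
* `X1Out` : upper exponent (105) = 685's `MassBound`;
* `X2Out'` : lower exponent (546, 330, ...) = `X2Out`.
-/

set_option autoImplicit false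
open MeasureTheory Set Filter
open scoped ENNReal Topology
open Crest.AnalysisR.VecCalc3 Crest.AnalysisR.PDE.Boltzmann

noncomputable section

namespace Crest.Agent.R68.L

/-- field `S` of `SInput` / `SlaveHyp` -/
def SField (P : Par) (g1 t0 V0 lam R : ℝ) (eS CS : ℝ≥0∞) : Prop :=
  ∀ (h : ℝ → P2 → R3 → ℝ≥0∞), Measurable (fun p : ℝ × P2 × R3 => h p.1 p.2.1 p.2.2) →
    ∀ (t : ℝ) (x : P2) (v : R3) (b1 b2 : ℝ≥0∞), 0 < t → t ≤ t0 → ‖v‖ ≤ V0 → b1 ≠ ⊤ →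
    (∀ s ∈ Icc (t * (1 - lam)) t, ∀ y w, h s y w ≤
      b1 * (Dm P s y w * ENNReal.ofReal (Real.exp (-(g1 - √t / 100) * ‖w‖ ^ 2)))) →
    (∀ s ∈ Icc (t * (1 - lam)) t, (∫⁻ y in Metric.closedBall x (R * t),
      ∫⁻ w in Metric.closedBall (0 : R3) R, h s y w) ≤ b2) →
    ((DG (Gf (phiE P)) (t * (1 - lam)))^[4] h) t x v ≤
      Dm P t x v * ENNReal.ofReal (Real.exp (-(g1 - √t / 100) * ‖v‖ ^ 2)) *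
        (eS * b1 + CS * ENNReal.ofReal (t ^ (-2 : ℝ)) * b2)

/-- **Part S** -/
def SOut (Y g1 : ℝ) : Prop :=
  ∀ V0 L ε : ℝ, 0 < V0 → 0 < L → 0 < ε → ∃ K0 : ℝ, ∀ K : ℝ, K0 ≤ K →
    ∃ (R : ℝ) (CS : ℝ≥0∞), 0 ≤ R ∧ CS ≠ ⊤ ∧ ∀ ey : ℝ, 0 < ey → ey ≤ 1 / 100 →
      ∀ᶠ p : ℕ in atTop, ∀ᶠ j0 : ℕ in atTop, ∃ t00 : ℝ, 0 < t00 ∧ ∀ t0 : ℝ, 0 < t0 → t0 ≤ t00 →
        SField (par K Y ey p j0) g1 t0 V0 (L / K) R (ENNReal.ofReal ε) CS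

/-- **X1** -/
def X1Out (Y g1 g2 : ℝ) : Prop :=
  ∃ K0 : ℝ, ∀ K : ℝ, K0 ≤ K → ∀ ey : ℝ, 0 < ey → ey ≤ 1 / 100 →
    ∀ᶠ p : ℕ in atTop, ∀ᶠ j0 : ℕ in atTop, ∃ t00 : ℝ, 0 < t00 ∧ ∀ t0 : ℝ, 0 < t0 → t0 ≤ t00 →
      ∃ CX : ℝ≥0∞, CX ≠ ⊤ ∧
        MassBound (par K Y ey p j0) (phiE (par K Y ey p j0)) g1 g2 t0 (56 / 5 * K) CX

/-- **X2** -/
def X2Out' (Y g1 g2 : ℝ) : Prop :=
  ∃ K0 : ℝ, ∀ K : ℝ, K0 ≤ K → ∃ ey : ℝ, 0 < ey ∧ ey ≤ 1 / 100 ∧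
    ∀ᶠ p : ℕ in atTop, ∀ᶠ j0 : ℕ in atTop, ∃ t00 : ℝ, 0 < t00 ∧ ∀ t0 : ℝ, 0 < t0 → t0 ≤ t00 →
      ∃ (CH c0 : ℝ≥0∞) (tau : ℕ → ℝ) (sg : ℕ → Den),
        X2Out (par K Y ey p j0) g1 g2 t0 (119 / 20 * K) CH c0 tau sg

end Crest.Agent.R68.L
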