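import Crest.Agent.R68.LSlave2

/-!
# Row 68, PART L (helper685): the slaving theorem L2 (note 10436), improvement step

Everything is stated for SEQUENCES `h_{k+1} ≤ T h_k + Dam σ` (helper944's request); a solution of
the linear equation is the constant sequence.
-/

set_option autoImplicit false
open MeasureTheory Set
open scoped ENNReal
open Crest.AnalysisR.VecCalc3 Crest.AnalysisR.PDE.Boltzmann

noncomputable section

namespace Crest.Agent.R68.L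

/-- inputs (K1), (K2), (K4), (S) of note 10436 with their constants:
`CK` = `C_T K`, `kV` = `C_T K V / V0`, window `[t(1-λ), t]`, cut radius `R`, `cU = e^{g₂U²}` -/
structure SlaveHyp (P : Par) (g1 g2 t0 : ℝ)
    (Gf : (ℝ → P2 → R3 → ℝ≥0∞) → ℝ → P2 → R3 → ℝ≥0∞)
    (CK kV V0 lam R : ℝ) (cU eS CS : ℝ≥0∞) : Prop where
  lin : GLin Gf (EE P g1 g2)
  measE : ∀ (τ t : ℝ) (x : P2) (v : R3), 0 < τ →
    AEMeasurable (fun s => Gf (EE P g1 g2) s (x - (t - s) • bar v) v) (volume.restrict (Ioo τ t))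
  K1 : ∀ (s t : ℝ) (x : P2) (v : R3), 0 < s → s ≤ t → t ≤ t0 →
    Dm P s (x - (t - s) • bar v) v ≤ Dm P t x v
  K2 : ∀ (s : ℝ) (x : P2) (v : R3), 0 < s → s ≤ t0 →
    Gf (EE P g1 g2) s x v ≤ ENNReal.ofReal (CK / s) * EE P g1 g2 s x v
  K2V : ∀ (s : ℝ) (x : P2) (v : R3), 0 < s → s ≤ t0 → V0 ≤ ‖v‖ →
    Gf (EE P g1 g2) s x v ≤ ENNReal.ofReal (kV / s) * EE P g1 g2 s x v
  K4 : ∀ (h : ℝ → P2 → R3 → ℝ≥0∞) (s : ℝ) (x : P2) (v : R3), 0 < s →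
      om g2 s x v * Gf h s x v ≤ cU * Gf (fun s x v => om g2 s x v * h s x v) s x v
  S : ∀ (h : ℝ → P2 → R3 → ℝ≥0∞), Measurable (fun p : ℝ × P2 × R3 => h p.1 p.2.1 p.2.2) →
    ∀ (t : ℝ) (x : P2) (v : R3) (b1 b2 : ℝ≥0∞), 0 < t → t ≤ t0 → ‖v‖ ≤ V0 → b1 ≠ ⊤ →
    (∀ s ∈ Icc (t * (1 - lam)) t, ∀ y w, h s y w ≤
      b1 * (Dm P s y w * ENNReal.ofReal (Real.exp (-(g1 - √t / 100) * ‖w‖ ^ 2)))) →
    (∀ s ∈ Icc (t * (1 - lam)) t, (∫⁻ y in Metric.closedBall x (R * t),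
      ∫⁻ w in Metric.closedBall (0 : R3) R, h s y w) ≤ b2) →
    ((DG Gf (t * (1 - lam)))^[4] h) t x v ≤
      Dm P t x v * ENNReal.ofReal (Real.exp (-(g1 - √t / 100) * ‖v‖ ^ 2)) *
        (eS * b1 + CS * ENNReal.ofReal (t ^ (-2 : ℝ)) * b2)

/-- the numerical conditions on the constants (satisfied by first choosing `V0`, then `lam`, `eS`,
then `Z0`) -/
structure SlaveNum (g2 t0 CK kV V0 lam R Z0 b rho0 : ℝ) (cU eS : ℝ≥0∞) : Prop where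
  hg2 : 0 < g2
  hb : 1 ≤ b
  hCK : 0 ≤ CK
  hkV : 0 ≤ kV
  hR : 0 ≤ R
  hRt : R * t0 ≤ rho0
  hcU : cU ≠ ⊤
  hZ0 : 0 < Z0
  hZ0V : 2 * V0 ≤ Z0
  hlam0 : 0 < lam
  hlam1 : lam ≤ 1 / 2
  n1 : kV / b ≤ 1 / 8
  n2 : CK / (g2 * Z0 ^ 2) ≤ 1 / 8
  n3 : (1 - lam) ^ b * (∑ i ∈ Finset.range 4, (CK * (2 * lam)) ^ i) ≤ 1 / 8
  n4 : cU ^ 4 * eS ≤ ENNReal.ofReal (1 / 8)

/-- hypotheses on the sequence `H` and the source in L2 -/
structure SlaveSeq (P : Par) (g1 g2 t0 b : ℝ)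
    (Gf : (ℝ → P2 → R3 → ℝ≥0∞) → ℝ → P2 → R3 → ℝ≥0∞) (rho0 : ℝ) (A AM : ℝ≥0∞)
    (H : ℕ → ℝ → P2 → R3 → ℝ≥0∞) (sg : ℝ → P2 → R3 → ℝ≥0∞) : Prop where
  meas : ∀ k, Measurable (fun p : ℝ × P2 × R3 => H k p.1 p.2.1 p.2.2)
  src : ∀ (s : ℝ) (x : P2) (v : R3), 0 < s → s ≤ t0 →
    sg s x v ≤ A * ENNReal.ofReal (s ^ (b - 1)) * EE P g1 g2 s x v
  eq0 : ∀ (k : ℕ) (t : ℝ) (x : P2) (v : R3), 0 < t → t ≤ t0 →
    H (k + 1) t x v ≤ Du 0 (Gf (H k)) t x v + Du 0 sg t x v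
  eqτ : ∀ (k : ℕ) (τ t : ℝ) (x : P2) (v : R3), 0 < τ → τ < t → t ≤ t0 →
    H (k + 1) t x v ≤ H (k + 1) τ (x - (t - τ) • bar v) v + Du τ (Gf (H k)) t x v + Du τ sg t x v
  mass : ∀ (k : ℕ) (s : ℝ) (x : P2), 1 ≤ k → 0 < s → s ≤ t0 →
    (∫⁻ y in Metric.closedBall x rho0, ∫⁻ w, H k s y w) ≤ AM * ENNReal.ofReal (s ^ (b + 2))

variable {P : Par} {g1 g2 t0 : ℝ} {Gf : (ℝ → P2 → R3 → ℝ≥0∞) → ℝ → P2 → R3 → ℝ≥0∞}
  {CK kV V0 lam R Z0 : ℝ} {cU eS CS : ℝ≥0∞} {b rho0 : ℝ} {A AM : ℝ≥0∞}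
  {H : ℕ → ℝ → P2 → R3 → ℝ≥0∞} {sg : ℝ → P2 → R3 → ℝ≥0∞}

/-- bound of the gain along a flight when `h ≤ c t^b EE` and `Gf EE ≤ (k/s) EE` at that velocity -/
lemma Du_gain_le (hS : SlaveHyp P g1 g2 t0 Gf CK kV V0 lam R cU eS CS) (hg2 : 0 ≤ g2)
    {h : ℝ → P2 → R3 → ℝ≥0∞} {c : ℝ≥0∞} (hc : c ≠ ⊤)
    (hh : ∀ s x v, 0 < s → s ≤ t0 → h s x v ≤ c * ENNReal.ofReal (s ^ b) * EE P g1 g2 s x v)
    {k : ℝ} (hk : 0 ≤ k) {t : ℝ} {x : P2} {v : R3} (ht0 : t ≤ t0) (q : ℝ)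
    (hq : ∀ s, 0 < s → s ≤ t → mm t x v ^ 2 + q * ((t - s) / t) ≤ mm s (x - (t - s) • bar v) v ^ 2)
    (hK : ∀ s x', 0 < s → s ≤ t0 →
      Gf (EE P g1 g2) s x' v ≤ ENNReal.ofReal (k / s) * EE P g1 g2 s x' v) :
    Du 0 (Gf h) t x v ≤ c * ENNReal.ofReal k *
      (∫⁻ s in Ioo (0 : ℝ) t, ENNReal.ofReal (s ^ (b - 1) * Real.exp (-(g2 * q) * ((t - s) / t)))) *
        EE P g1 g2 t x v := by
  unfold Du
  rw [mul_assoc, ← lintegral_mul_const _ (by fun_prop),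
    ← lintegral_const_mul' _ _ (ENNReal.mul_ne_top hc ENNReal.ofReal_ne_top)]
  refine lintegral_mono_ae ((ae_restrict_mem measurableSet_Ioo).mono fun s hs => ?_)
  obtain ⟨hs0, hst⟩ := hs
  have hsb : ENNReal.ofReal (s ^ b) ≠ ⊤ := ENNReal.ofReal_ne_top
  have h1 := hS.lin.le (c * ENNReal.ofReal (s ^ b)) s (x - (t - s) • bar v) h (EE P g1 g2)
    (ENNReal.mul_ne_top hc hsb) (fun w => hh s _ w hs0 (hst.le.trans ht0)) v
  have h2 := hK s (x - (t - s) • bar v) hs0 (hst.le.trans ht0)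
  have h3 := EE_flight_far (P := P) (g1 := g1) hg2 (q := q * ((t - s) / t)) hst.le
    (hS.K1 s t x v hs0 hst.le ht0) (hq s hs0 hst.le)
  refine h1.trans ?_
  calc c * ENNReal.ofReal (s ^ b) * Gf (EE P g1 g2) s (x - (t - s) • bar v) v
      ≤ c * ENNReal.ofReal (s ^ b) * (ENNReal.ofReal (k / s) *
        (ENNReal.ofReal (Real.exp (-g2 * (q * ((t - s) / t)))) * EE P g1 g2 t x v)) := by
        gcongr
        exact h2.trans (mul_le_mul' le_rfl h3)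
    _ = c * (ENNReal.ofReal (s ^ b) * ENNReal.ofReal (k / s) *
        ENNReal.ofReal (Real.exp (-g2 * (q * ((t - s) / t))))) * EE P g1 g2 t x v := by ring
    _ = c * (ENNReal.ofReal k * ENNReal.ofReal (s ^ (b - 1) * Real.exp (-(g2 * q) * ((t - s) / t)))) *
          EE P g1 g2 t x v := by
        rw [← ENNReal.ofReal_mul (by positivity), ← ENNReal.ofReal_mul (by positivity),
          ← ENNReal.ofReal_mul hk]
        congr 3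
        rw [Real.rpow_sub_one hs0.ne']
        have : -g2 * (q * ((t - s) / t)) = -(g2 * q) * ((t - s) / t) := by ring
        rw [this]
        ring
    _ = _ := by ring

/-- the source along a flight, started anywhere -/
lemma Du_src_le (hS : SlaveHyp P g1 g2 t0 Gf CK kV V0 lam R cU eS CS) (hg2 : 0 ≤ g2) (hb : 1 ≤ b)
    (hA : A ≠ ⊤)
    (hsrc : ∀ (s : ℝ) (x : P2) (v : R3), 0 < s → s ≤ t0 →
      sg s x v ≤ A * ENNReal.ofReal (s ^ (b - 1)) * EE P g1 g2 s x v)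
    {τ t : ℝ} (hτ : 0 ≤ τ) (ht : 0 < t) (ht0 : t ≤ t0) (x : P2) (v : R3) :
    Du τ sg t x v ≤ A * ENNReal.ofReal (t ^ b) * EE P g1 g2 t x v := by
  unfold Du
  calc ∫⁻ s in Ioo τ t, sg s (x - (t - s) • bar v) v
      ≤ ∫⁻ s in Ioo (0 : ℝ) t, sg s (x - (t - s) • bar v) v :=
        lintegral_mono_set (Ioo_subset_Ioo_left hτ)
    _ ≤ ∫⁻ s in Ioo (0 : ℝ) t, A * (ENNReal.ofReal (s ^ (b - 1)) * EE P g1 g2 t x v) := by
        refine lintegral_mono_ae ((ae_restrict_mem measurableSet_Ioo).mono fun s hs => ?_)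
        refine (hsrc s _ v hs.1 (hs.2.le.trans ht0)).trans ?_
        rw [mul_assoc]
        gcongr
        exact EE_flight hg2 hs.1 hs.2.le (hS.K1 s t x v hs.1 hs.2.le ht0)
    _ = A * ((∫⁻ s in Ioo (0 : ℝ) t, ENNReal.ofReal (s ^ (b - 1))) * EE P g1 g2 t x v) := by
        rw [lintegral_const_mul' _ _ hA, lintegral_mul_const _ (by fun_prop)]
    _ ≤ A * (ENNReal.ofReal (t ^ b) * EE P g1 g2 t x v) := by
        gcongr
        refine (lint_pow hb ht).trans (ENNReal.ofReal_le_ofReal ?_)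
        exact div_le_self (by positivity) hb
    _ = _ := by ring

/-- crude step: `h ≤ c t^b EE` implies `Du 0 (Gf h) ≤ (CK/b) c t^b EE` -/
lemma Du_gain_crude (hS : SlaveHyp P g1 g2 t0 Gf CK kV V0 lam R cU eS CS)
    (hg2 : 0 ≤ g2) (hb : 1 ≤ b) {k : ℝ} (hk : 0 ≤ k)
    {h : ℝ → P2 → R3 → ℝ≥0∞} {c : ℝ≥0∞} (hc : c ≠ ⊤)
    (hh : ∀ s x v, 0 < s → s ≤ t0 → h s x v ≤ c * ENNReal.ofReal (s ^ b) * EE P g1 g2 s x v)
    {t : ℝ} (ht : 0 < t) (ht0 : t ≤ t0) (x : P2) (v : R3)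
    (hK : ∀ s x', 0 < s → s ≤ t0 →
      Gf (EE P g1 g2) s x' v ≤ ENNReal.ofReal (k / s) * EE P g1 g2 s x' v) :
    Du 0 (Gf h) t x v ≤ ENNReal.ofReal (k / b) * c * ENNReal.ofReal (t ^ b) * EE P g1 g2 t x v := by
  refine (Du_gain_le hS hg2 hc hh hk ht0 0 (fun s hs hst => ?_) hK).trans ?_
  · rw [zero_mul, add_zero]
    exact pow_le_pow_left₀ (mm_nonneg _ _ _) (mm_flight hs hst x v) 2
  · calc _ ≤ c * ENNReal.ofReal k * ENNReal.ofReal (t ^ b / b) * EE P g1 g2 t x v := by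
          gcongr
          refine le_trans (le_of_eq ?_) (lint_pow hb ht)
          simp
      _ = _ := by
          rw [mul_assoc c, ← ENNReal.ofReal_mul hk,
            show k * (t ^ b / b) = k / b * t ^ b by ring,
            ENNReal.ofReal_mul (div_nonneg hk (by linarith))]
          ring

end Crest.Agent.R68.L
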