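import Crest.Agent.R68.LMass

/-!
Row 68, PART L (helper944): local masses (balls of radius `< 7/20`).
-/

set_option autoImplicit false
open MeasureTheory Set Filter Topology Metric
open scoped ENNReal Real
open Crest.AnalysisR.VecCalc3 Crest.AnalysisR.PDE.Boltzmann

noncomputable section

namespace Crest.Agent.R68.LMass

open Crest.Agent.R68.K2 Crest.Agent.R68.DPole

/-- a periodic function integrated over a closed ball of radius `< 7/20` -/
theorem lintegral_closedBall_le {f : P2 → ℝ≥0∞} (hf : Measurable f) (hp : PerG f) (x : P2) {ρ : ℝ}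
    (hρ : ρ < 7 / 20) :
    ∫⁻ y in closedBall x ρ, f y ≤ ∫⁻ y in cellG, f y := by
  have h : closedBall x ρ = {y : P2 | ‖y - x‖ ≤ ρ} := by
    ext y
    rw [mem_closedBall, dist_eq_norm]
    rfl
  rw [h]
  exact lintegral_ball_le hf hp x hρ

theorem measurable_B2_t {P : Par} (hY : 0 < P.Y) (g1 g2 b : ℝ) {t : ℝ} (ht : 0 ≤ t) :
    Measurable (fun q : P2 × R3 => B2 P g1 g2 b t q.1 q.2) := by
  unfold B2 gau
  have h1 := measurable_Dm_t hY ht
  have h2 := measurable_distG
  refine Measurable.mul ?_ h1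
  apply Measurable.ennreal_ofReal
  have h3 : Measurable fun q : P2 × R3 => distG q.1 := h2.comp measurable_fst
  fun_prop

theorem perG_B2 (P : Par) (g1 g2 b t : ℝ) (v : R3) : PerG (fun x => B2 P g1 g2 b t x v) := by
  intro x k
  unfold B2
  have h1 : Dm P t (x + latt k) v = Dm P t x v := perG_Dm P t v x k
  have h2 : distG (x + latt k) = distG x := distG_add_latt x k
  simp only [h1, h2]

/-- **local (K3)** -/
theorem mass_B2_ball {P : Par} (hP : ParD P) {g1 g2 s ρ : ℝ} (hg1 : 0 < g1) (hg2 : 0 < g2)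
    (hs : 0 < s) (hsg : √s / 100 ≤ g1 / 2) (hsm : (P.Y + 2) * (s + P.dl) < 7 / 20)
    (hρ : ρ < 7 / 20) (x : P2) :
    ∫⁻ y in closedBall x ρ, ∫⁻ w : R3, B2 P g1 g2 0 s y w ≤
      CM P.Y g1 g2 * ENNReal.ofReal (s ^ 2) := by
  have hm := measurable_B2_t hP.Y g1 g2 0 hs.le
  have h1 : Measurable fun y : P2 => ∫⁻ w : R3, B2 P g1 g2 0 s y w := hm.lintegral_prod_right'
  have h2 : PerG fun y : P2 => ∫⁻ w : R3, B2 P g1 g2 0 s y w := by
    intro y k
    refine lintegral_congr fun w => ?_
    exact perG_B2 P g1 g2 0 s w y k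
  refine (lintegral_closedBall_le h1 h2 x hρ).trans ((lintegral_mono fun y => ?_).trans
    (mass_B2 hP hg1 hg2 hs hsg hsm))
  refine lintegral_mono fun w => ?_
  refine le_mul_of_one_le_left zero_le ?_
  rw [← ENNReal.ofReal_one]
  apply ENNReal.ofReal_le_ofReal
  have : (1 : ℝ) ≤ 1 + ‖w‖ := by linarith [norm_nonneg w]
  exact one_le_pow₀ this

/-- local mass of a periodic density on balls is at most its mass on the cell -/
theorem local_mass_le {h : P2 → R3 → ℝ≥0∞} (hh : Measurable fun q : P2 × R3 => h q.1 q.2)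
    (hp : ∀ v, PerG fun x => h x v) (x : P2) {ρ : ℝ} (hρ : ρ < 7 / 20) (S : Set R3) :
    ∫⁻ y in closedBall x ρ, ∫⁻ w in S, h y w ≤ ∫⁻ y in cellG, ∫⁻ w, h y w := by
  have h1 : Measurable fun y : P2 => ∫⁻ w : R3, h y w := hh.lintegral_prod_right'
  have h2 : PerG fun y : P2 => ∫⁻ w : R3, h y w := by
    intro y k
    refine lintegral_congr fun w => ?_
    exact hp w y k
  refine le_trans (lintegral_mono fun y => ?_) (lintegral_closedBall_le h1 h2 x hρ)
  exact setLIntegral_le_lintegral _ _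

end Crest.Agent.R68.LMass
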