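import Crest.Agent.R68.NExt
import Crest.Agent.R68.LK
import Crest.Agent.R68.LMass2
import Crest.Agent.R68.LAnc
import Crest.Agent.R68.LNull

/-!
# Row 68, PART N (helper559): the hypotheses `LInp` on `(0,T]` from Part L on `(0,t0]`
-/

set_option autoImplicit false
open MeasureTheory Set Filter
open scoped ENNReal Topology
open Crest.AnalysisR.VecCalc3 Crest.AnalysisR.PDE.Boltzmann

noncomputable section

namespace Crest.Agent.R68.ND

open Crest.Agent.R68.A (en Meas3)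
open Crest.Agent.R68.N (Fld PerF TT EE nuf LInp)
open Crest.Agent.R68.L (TL TL_tsum TL_add TL_smul meas3_TL meas3_iter sol)

/-! ### bridge `TT P = TL (phiE P)` -/

theorem TT_eq_TL {P : Par} (hφ : Meas3 (Crest.Agent.R68.phiE P)) {g g' : Fld} (hg' : Meas3 g') {t : ℝ}
    (h : ∀ s ∈ Ioo 0 t, ∀ y z, g s y z = g' s y z) (x : P2) (v : R3) :
    TT P g t x v = TL (Crest.Agent.R68.phiE P) g' t x v := by
  show (∫⁻ s in Ioo 0 t, en (Crest.Agent.R68.N.acc (nuf P) s t x v) * Crest.Agent.R68.N.Gf P g s (x - (t - s) • bar v) v) =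
    ∫⁻ s in Ioo 0 t, en (A.Acc (Crest.Agent.R68.phiE P) s t x v) *
      L.Gf (Crest.Agent.R68.phiE P) g' s (x - (t - s) • bar v) v
  refine setLIntegral_congr_fun measurableSet_Ioo fun s hs => ?_
  have h1 : Crest.Agent.R68.N.Gf P g s (x - (t - s) • bar v) v =
      L.Gf (Crest.Agent.R68.phiE P) g' s (x - (t - s) • bar v) v := by
    unfold N.Gf L.Gf
    have e : g s (x - (t - s) • bar v) = g' s (x - (t - s) • bar v) := by
      funext z; exact h s hs _ z
    rw [e, Qp_comm (hg'.slice _ _) (hφ.slice _ _), two_mul]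
  rw [h1]
  rfl

theorem TT_iter_eq {P : Par} (hφ : Meas3 (Crest.Agent.R68.phiE P)) {g g' : Fld} (hg' : Meas3 g') {T : ℝ}
    (h : ∀ s, 0 < s → s ≤ T → ∀ y z, g s y z = g' s y z) (m : ℕ) :
    ∀ s, 0 < s → s ≤ T → ∀ y z, (TT P)^[m] g s y z = (TL (Crest.Agent.R68.phiE P))^[m] g' s y z := by
  induction m with
  | zero => exact h
  | succ m ih =>
    intro s hs hsT y z
    rw [Function.iterate_succ_apply', Function.iterate_succ_apply']
    exact TT_eq_TL hφ (meas3_iter hφ hg' m) (fun r hr y z => ih r hr.1 (hr.2.le.trans hsT) y z) y z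

/-! ### the weight `EE` -/

/-- the weight `D s^b EE` cut to positive times -/
def cw (P : Par) (g1 g2 b : ℝ) : Fld := fun t x v => if 0 < t then B2 P g1 g2 b t x v else 0

theorem meas3_cw {P : Par} (hY : 0 < P.Y) (g1 g2 b : ℝ) : Meas3 (cw P g1 g2 b) := by
  have h0 := DPole.measurable_Dm hY
  have h2 := measurable_distG
  have h3 : Measurable fun q : ℝ × P2 × R3 => distG q.2.1 := h2.comp (by fun_prop)
  have h1 : Measurable fun q : ℝ × P2 × R3 => ENNReal.ofReal (q.1 ^ b * gau g1 q.1 q.2.2 *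
      Real.exp (-g2 * (max ‖q.2.2‖ (distG q.2.1 / q.1)) ^ 2)) := by
    unfold gau
    have h4 : Measurable fun q : ℝ × P2 × R3 => q.1 ^ b := measurable_fst.pow_const b
    fun_prop
  have h5 : Measurable fun q : ℝ × P2 × R3 => if 0 < q.1 then
      ENNReal.ofReal (q.1 ^ b * gau g1 q.1 q.2.2 *
      Real.exp (-g2 * (max ‖q.2.2‖ (distG q.2.1 / q.1)) ^ 2)) *
      (if 0 ≤ q.1 then Dm P q.1 q.2.1 q.2.2 else 1) else 0 :=
    Measurable.ite (measurableSet_lt measurable_const measurable_fst) (h1.mul h0) measurable_const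
  show Measurable fun q : ℝ × P2 × R3 => cw P g1 g2 b q.1 q.2.1 q.2.2
  convert h5 using 2 with q
  unfold cw B2
  by_cases h : 0 < q.1
  · simp [h, h.le]
  · simp [h]

theorem perF_cw (P : Par) (g1 g2 b : ℝ) : PerF (cw P g1 g2 b) := by
  intro t v x k
  unfold cw
  have h := LMass.perG_B2 P g1 g2 b t v x k
  simp only at h ⊢
  rw [h]

theorem B2_eq_EE (P : Par) (g1 g2 b : ℝ) {t : ℝ} (ht : 0 < t) (x : P2) (v : R3) :
    B2 P g1 g2 b t x v = ENNReal.ofReal (t ^ b) * EE P g1 g2 t x v := by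
  unfold EE B2
  rw [Real.rpow_zero, one_mul, ← mul_assoc, ← ENNReal.ofReal_mul (by positivity), mul_assoc (t ^ b)]

theorem EE_flight (P : Par) {g1 g2 : ℝ} (hg : 0 ≤ g2) {s t : ℝ} (hs : 0 < s) (hst : s ≤ t) (x : P2)
    (v : R3) : EE P g1 g2 s (x - (t - s) • bar v) v ≤ EE P g1 g2 t x v := by
  have := K.B2_flight P (g1 := g1) (b := 0) hg hs hst x v
  unfold EE
  simpa using this

theorem wtHyp_EE {P : Par} (h : P.Ok) {g1 g2 T : ℝ} (hg1 : 0 < g1) (hg2 : 0 ≤ g2) (hT1 : T ≤ 1)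
    (hTg : √T / 100 ≤ g1 / 2) :
    WtHyp (Crest.Agent.R68.phiE P) (EE P g1 g2) T (L.CT P.Y g1 g2 * P.K + 1) where
  meas := by
    have := meas3_cw (L.parD_of_ok h).Y g1 g2 0
    exact this
  mono := fun s t x v hs hst _ => EE_flight P hg2 hs hst x v
  C0 := by
    have := L.CT_nonneg P.Y g1 g2
    have := h.K0
    positivity
  G := by
    intro s x v hs hsT
    have hs1 : s ≤ 1 := hsT.trans hT1
    have hsg : √s / 100 ≤ g1 / 2 := by
      have := Real.sqrt_le_sqrt hsT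
      linarith
    refine (L.K2_Gf h (b := 0) hg1 hg2 hs hs1 hsg x v).trans ?_
    show _ ≤ _ * B2 P g1 g2 0 s x v
    gcongr
    have h1 : 0 < L.VV P.Y := by
      unfold L.VV
      have := h.Y0
      positivity
    have h2 : L.VV P.Y / max (L.VV P.Y) ‖v‖ ≤ 1 := by
      rw [div_le_one (lt_max_of_lt_left h1)]
      exact le_max_left _ _
    have h3 := L.CT_nonneg P.Y g1 g2
    have h4 := h.K0
    calc L.CT P.Y g1 g2 * P.K / s * (L.VV P.Y / max (L.VV P.Y) ‖v‖)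
        ≤ L.CT P.Y g1 g2 * P.K / s * 1 := by gcongr
      _ ≤ _ := by
          rw [mul_one]
          gcongr
          linarith

/-! ### the Neumann series of the weight on `(0,T]` -/

/-- `LInp.neu` on `(0,T]` from the bound of `sol` on `(0,t0]` -/
theorem neu_T {P : Par} (h : P.Ok) {T t0 g1 g2 b : ℝ} (hg1 : 0 < g1) (hg2 : 0 ≤ g2)
    (hT1 : T ≤ 1) (hTg : √T / 100 ≤ g1 / 2) (ht0 : 0 < t0) (ht0T : t0 ≤ T) (hb : 0 < b)
    (hsol : ∃ C : ℝ≥0∞, C ≠ ⊤ ∧ ∀ (σ : Fld) (A : ℝ≥0∞), Meas3 σ → PerF σ →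
      (∀ t ∈ Ioc 0 t0, ∀ x v, σ t x v ≤ A * B2 P g1 g2 (b - 1) t x v) →
      ∀ t ∈ Ioc 0 t0, ∀ x v, sol (Crest.Agent.R68.phiE P) σ t x v ≤ C * A * B2 P g1 g2 b t x v) :
    ∃ CL : ℝ≥0∞, CL ≠ ⊤ ∧ ∀ t ∈ Ioc 0 T, ∀ x v,
      ∑' m : ℕ, (TT P)^[m] (fun s y z => ENNReal.ofReal (s ^ b) * EE P g1 g2 s y z) t x v ≤
        CL * ENNReal.ofReal (t ^ b) * EE P g1 g2 t x v := by
  have hφ : Meas3 (Crest.Agent.R68.phiE P) := L.meas3_phiE h
  have hφp : PerF (Crest.Agent.R68.phiE P) := L.perG_phiE P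
  have hW := wtHyp_EE h hg1 hg2 hT1 hTg
  set f : Fld := cw P g1 g2 b with hf
  have hfm : Meas3 f := meas3_cw (L.parD_of_ok h).Y g1 g2 b
  have hfp : PerF f := perF_cw P g1 g2 b
  have hfe : ∀ s, 0 < s → ∀ y z, f s y z = ENNReal.ofReal (s ^ b) * EE P g1 g2 s y z := by
    intro s hs y z
    rw [hf]
    simp only [cw, if_pos hs]
    exact B2_eq_EE P g1 g2 b hs y z
  -- the series in terms of `TL`
  have hser : ∀ t ∈ Ioc 0 T, ∀ x v,
      (∑' m : ℕ, (TT P)^[m] (fun s y z => ENNReal.ofReal (s ^ b) * EE P g1 g2 s y z) t x v) =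
      neuL (Crest.Agent.R68.phiE P) f t x v := by
    intro t ht x v
    unfold neuL
    refine tsum_congr fun m => ?_
    exact TT_iter_eq hφ hfm (T := T) (fun s hs _ y z => (hfe s hs y z).symm) m t ht.1 ht.2 x v
  -- on `(0,t0]`
  obtain ⟨C, hC, hsol⟩ := hsol
  set CE : ℝ := L.CT P.Y g1 g2 * P.K + 1 with hCE
  have hCE0 : 0 < CE := hW.C0
  have hGf : ∀ t, 0 < t → t ≤ T → ∀ x v, L.Gf (Crest.Agent.R68.phiE P) f t x v ≤
      ENNReal.ofReal CE * B2 P g1 g2 (b - 1) t x v := by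
    intro t ht htT x v
    have h1 := Gf_smul_le' hφ hW (h := f) ht (x := x) (c := ENNReal.ofReal (t ^ b))
      (fun z => (hfe t ht x z).le) v
    refine h1.trans ?_
    calc ENNReal.ofReal (t ^ b) * L.Gf (Crest.Agent.R68.phiE P) (EE P g1 g2) t x v
        ≤ ENNReal.ofReal (t ^ b) * (ENNReal.ofReal (CE / t) * EE P g1 g2 t x v) := by
          gcongr
          exact hW.G t x v ht htT
      _ = _ := by
          rw [B2_eq_EE P g1 g2 (b - 1) ht, ← mul_assoc, ← mul_assoc,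
            ← ENNReal.ofReal_mul (by positivity), ← ENNReal.ofReal_mul (by positivity)]
          congr 2
          rw [Real.rpow_sub ht, Real.rpow_one]
          field_simp
  have hN0 : ∀ t ∈ Ioc 0 t0, ∀ x v, neuL (Crest.Agent.R68.phiE P) f t x v ≤
      (1 + C * ENNReal.ofReal CE) * (ENNReal.ofReal (t ^ b) * EE P g1 g2 t x v) := by
    intro t ht x v
    have h1 : neuL (Crest.Agent.R68.phiE P) f t x v =
        f t x v + sol (Crest.Agent.R68.phiE P) (L.Gf (Crest.Agent.R68.phiE P) f) t x v :=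
      L.tsum_iter_eq f t x v
    have h2 := hsol (L.Gf (Crest.Agent.R68.phiE P) f) (ENNReal.ofReal CE)
      (L.meas3_Gf hφ hfm) (L.PerF_Gf hφp hfp)
      (fun s hs y z => hGf s hs.1 (hs.2.trans ht0T) y z) t ht x v
    rw [h1, add_mul, one_mul, hfe t ht.1]
    refine add_le_add le_rfl (h2.trans (le_of_eq ?_))
    rw [B2_eq_EE P g1 g2 b ht.1]
  -- a real constant
  set C1 : ℝ := (1 + C * ENNReal.ofReal CE).toReal with hC1
  have hC1t : (1 + C * ENNReal.ofReal CE) ≠ ⊤ :=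
    ENNReal.add_ne_top.2 ⟨ENNReal.one_ne_top, ENNReal.mul_ne_top hC ENNReal.ofReal_ne_top⟩
  have hC1e : ENNReal.ofReal C1 = 1 + C * ENNReal.ofReal CE := ENNReal.ofReal_toReal hC1t
  have hC10 : 0 ≤ C1 := ENNReal.toReal_nonneg
  have hT : 0 < T := ht0.trans_le ht0T
  have hfA : ∀ t, 0 < t → t ≤ T → ∀ x v, f t x v ≤ ENNReal.ofReal (T ^ b) * EE P g1 g2 t x v := by
    intro t ht htT x v
    rw [hfe t ht]
    gcongr
  obtain ⟨B, hB0, hB⟩ := neuL_ext hφ hW hfm (t0 := t0) (b := b) (A := T ^ b) (C1 := C1) ht0 ht0T hb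
    (by positivity) hC10 hfA (fun t ht htt x v => by
      refine (hN0 t ⟨ht, htt⟩ x v).trans (le_of_eq ?_)
      rw [ENNReal.ofReal_mul hC10, hC1e, mul_assoc])
  refine ⟨ENNReal.ofReal C1 + ENNReal.ofReal (B / t0 ^ b),
    ENNReal.add_ne_top.2 ⟨ENNReal.ofReal_ne_top, ENNReal.ofReal_ne_top⟩, fun t ht x v => ?_⟩
  rw [hser t ht, add_mul, add_mul]
  by_cases htt : t ≤ t0
  · refine le_trans ?_ le_self_add
    refine (hN0 t ⟨ht.1, htt⟩ x v).trans (le_of_eq ?_)
    rw [hC1e, mul_assoc]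
  · refine le_trans ?_ le_add_self
    have htt' : t0 < t := not_le.1 htt
    refine (hB t htt' ht.2 x v).trans ?_
    have h3 : ENNReal.ofReal B ≤ ENNReal.ofReal (B / t0 ^ b) * ENNReal.ofReal (t ^ b) := by
      rw [← ENNReal.ofReal_mul (by positivity)]
      apply ENNReal.ofReal_le_ofReal
      have h4 : t0 ^ b ≤ t ^ b := Real.rpow_le_rpow ht0.le htt'.le hb.le
      have h5 : 0 < t0 ^ b := by positivity
      rw [div_mul_eq_mul_div, le_div_iff₀ h5]
      gcongr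
    gcongr

end Crest.Agent.R68.ND
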