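import Crest.Agent.R68.LSol4
import Crest.Agent.R68.LAncF
import Crest.Agent.R68.LBridge
import Crest.Agent.R68.LExt
import Crest.Agent.R68.NExt2
import Crest.Agent.R68.Main0
import Crest.Agent.R68.LProps

/-!
# Row 68, PART L (helper685): assembly, for one fixed parameter set
-/

set_option autoImplicit false
open MeasureTheory Set Filter Topology
open scoped ENNReal
open Crest.AnalysisR.VecCalc3 Crest.AnalysisR.PDE.Boltzmann

noncomputable section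

namespace Crest.Agent.R68.L

open Crest.Agent.R68.A (Meas3 en Acc)

variable {P : Par}

/-- everything on `(0,t0]` is extended to `(0,T]` -/
theorem lInp_of (h : P.Ok) {T t0 g1 g2 g1' g2' a b : ℝ} (hg1 : 0 < g1) (hg2 : 0 ≤ g2)
    (hg1' : 0 < g1') (hg2' : 0 ≤ g2') (hT1 : T ≤ 1) (hTg : √T / 100 ≤ g1 / 2)
    (hTg' : √T / 100 ≤ g1' / 2) (ht0 : 0 < t0) (ht0T : t0 ≤ T) (ha : 2 < a) (hb : 0 < b)
    (hanc : ∃ H : Den, Meas3 H ∧ PerF H ∧ (∀ t ∈ Ioc 0 t0, ∀ x v, H t x v = TL (phiE P) H t x v) ∧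
      (∃ C : ℝ≥0∞, C ≠ ⊤ ∧ ∀ t ∈ Ioc 0 t0, ∀ x v, H t x v ≤ C * B2 P g1 g2 (a - 2) t x v) ∧
      0 < ∫⁻ t in Ioo 0 t0, ∫⁻ x in cellG, ∫⁻ v, H t x v)
    (hsol : ∃ C : ℝ≥0∞, C ≠ ⊤ ∧ ∀ (σ : Den) (A : ℝ≥0∞), Meas3 σ → PerD σ →
      (∀ t ∈ Ioc 0 t0, ∀ x v, σ t x v ≤ A * B2 P g1' g2' (b - 1) t x v) →
      ∀ t ∈ Ioc 0 t0, ∀ x v, sol (phiE P) σ t x v ≤ C * A * B2 P g1' g2' b t x v) :
    ∃ (Hs : N.Fld) (CL : ℝ≥0∞), N.LInp P T Hs g1 g2 g1' g2' a b CL := by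
  have hφ : Meas3 (phiE P) := meas3_phiE h
  have pφ : PerF (phiE P) := fun t v => perG_phiE P t v
  obtain ⟨H, mH, pH, eH, ⟨C, hC, hHC⟩, hpos⟩ := hanc
  have hW := ND.wtHyp_EE h hg1 hg2 hT1 hTg
  have hle : ∀ t ∈ Ioc 0 t0, ∀ x v, H t x v ≤
      ENNReal.ofReal (C.toReal * t ^ (a - 2)) * N.EE P g1 g2 t x v := by
    intro t ht x v
    refine (hHC t ht x v).trans ?_
    rw [ENNReal.ofReal_mul ENNReal.toReal_nonneg, ENNReal.ofReal_toReal hC,
      B2_env P g1 g2 (a - 2) ht.1.le, mul_assoc]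
    exact le_rfl
  obtain ⟨G, B, hB, mG, pG, hGH, hGeq, hGle⟩ := exists_ext (φ := phiE P) (E := N.EE P g1 g2) hφ pφ hW
    ht0 ht0T mH pH eH (c := a - 2) (by linarith) (A := C.toReal) ENNReal.toReal_nonneg hle
  obtain ⟨CL, hCL, hneu⟩ := ND.neu_T h hg1' hg2' hT1 hTg' ht0 ht0T hb hsol
  refine ⟨G, max CL (ENNReal.ofReal B), ?_⟩
  refine
  { ne := max_ne_top hCL ENNReal.ofReal_ne_top
    neu := fun t ht x v => (hneu t ht x v).trans ?_
    meas := mG
    per := pG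
    eqn := fun t ht x v => ?_
    le := fun t ht x v => ?_
    pos := ?_ }
  · gcongr
    exact le_max_left _ _
  · rw [TT_eq (f := G) (f' := G) hφ mG (fun s _ y z => rfl) x v]
    exact hGeq t ht x v
  · refine (hGle t ht x v).trans ?_
    rw [ENNReal.ofReal_mul hB]
    gcongr
    exact le_max_right _ _
  · intro hae
    apply hpos.ne'
    have h1 : ∀ᵐ t : ℝ, ∀ᵐ q : P2 × R3, t ∈ Ioo 0 T → G t q.1 q.2 = 0 :=
      Measure.ae_ae_of_ae_prod hae
    rw [← lintegral_zero (μ := volume.restrict (Ioo (0 : ℝ) t0))]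
    refine lintegral_congr_ae ?_
    filter_upwards [ae_restrict_of_ae h1, ae_restrict_mem measurableSet_Ioo] with t h2 ht
    have htT : t ∈ Ioo 0 T := ⟨ht.1, ht.2.trans_le ht0T⟩
    have h3 : ∀ᵐ x : P2, ∀ᵐ v : R3, G t x v = 0 := by
      refine Measure.ae_ae_of_ae_prod (p := fun q : P2 × R3 => G t q.1 q.2 = 0) ?_
      filter_upwards [h2] with q hq using hq htT
    rw [← lintegral_zero (μ := volume.restrict cellG)]
    refine lintegral_congr_ae ?_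
    filter_upwards [ae_restrict_of_ae h3] with x hx
    rw [← lintegral_zero (μ := (volume : Measure R3))]
    refine lintegral_congr_ae ?_
    filter_upwards [hx] with v hv
    rw [← hGH t ⟨ht.1, ht.2.le⟩ x v, hv]

/-- the ancient solution from X2 and Part S -/
theorem ancient_of (h : P.Ok) {t0 g1 g2 a V0 L R Z0 rho0 : ℝ} {eS CS : ℝ≥0∞}
    (hg1 : 0 < g1) (hg2 : 0 < g2) (ht01 : t0 ≤ 1) (htg : √t0 / 100 ≤ g1 / 2)
    (hsm : (P.Y + 2) * (t0 + P.dl) < 7 / 20) (ha : 3 ≤ a) (hV0 : 0 < V0)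
    (hN : SlaveNum g2 t0 (CT P.Y g1 g2 * P.K) (CT P.Y g1 g2 * P.K * VV P.Y / V0) V0 (L / P.K) R Z0
      (a - 2) rho0 (cUe P.Y g2) eS)
    (hS : SWindow P (phiE P) g1 t0 V0 (L / P.K) R eS CS) (hCS : CS ≠ ⊤) (hrho : rho0 < 7 / 20)
    (hX : ∃ (CH c0 : ℝ≥0∞) (tau : ℕ → ℝ) (sg : ℕ → Den), X2Out P g1 g2 t0 a CH c0 tau sg) :
    ∃ H : Den, Meas3 H ∧ PerF H ∧ (∀ t ∈ Ioc 0 t0, ∀ x v, H t x v = TL (phiE P) H t x v) ∧
      (∃ C : ℝ≥0∞, C ≠ ⊤ ∧ ∀ t ∈ Ioc 0 t0, ∀ x v, H t x v ≤ C * B2 P g1 g2 (a - 2) t x v) ∧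
      0 < ∫⁻ t in Ioo 0 t0, ∫⁻ x in cellG, ∫⁻ v, H t x v := by
  have hφ : Meas3 (phiE P) := meas3_phiE h
  have pφ : PerF (phiE P) := fun t v => perG_phiE P t v
  obtain ⟨CH, c0, tau, sg, hX⟩ := hX
  have hI := sInput_of h hg1 hg2.le ht01 htg hV0 hS
  set K := C0 g2 (CT P.Y g1 g2 * P.K) (L / P.K) R Z0 (cUe P.Y g2) CS (CH + 1) CH with hK
  have hCH1 : CH + 1 ≠ ⊤ := ENNReal.add_ne_top.2 ⟨hX.CH_ne, ENNReal.one_ne_top⟩
  have hKt : K ≠ ⊤ := C0_ne_top hCH1 hX.CH_ne hN.hcU hCS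
  refine ancient_of_X2 (parD_of_ok h) hg1 hg2 ht01 htg hsm ha
    (CK := CT P.Y g1 g2 * P.K) (mul_nonneg (CT_nonneg _ _ _) h.K0) hφ pφ (nullOK hφ) (twoOK hφ)
    (fun s hs x v => ?_) hX (CE := 2 * K + 1) (ENNReal.add_ne_top.2
      ⟨ENNReal.mul_ne_top (by norm_num) hKt, ENNReal.one_ne_top⟩) le_add_self (fun n t ht x v => ?_)
  · refine (K2_Gf h hg1 hg2.le hs.1 (hs.2.trans ht01)
      ((div_le_div_of_nonneg_right (Real.sqrt_le_sqrt hs.2) (by norm_num)).trans htg) x v).trans ?_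
    refine mul_le_mul' (ENNReal.ofReal_le_ofReal ?_) le_rfl
    have hC := CT_nonneg P.Y g1 g2
    have hK0 := h.K0
    have hY := h.Y0
    have hV : 0 < VV P.Y := by unfold VV; positivity
    have hs0 := hs.1
    apply mul_le_of_le_one_right (by positivity)
    rw [div_le_one (lt_of_lt_of_le hV (le_max_left _ _))]
    exact le_max_left _ _
  · refine (sol_slave hI hN hCS (hX.meas n) hCH1 (by simp) hX.CH_ne (hX.tau_pos n)
      (fun s y w hs => hX.supp n s y w (Or.inl hs)) (fun s y w hs hs0 => ?_)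
      (fun s y hs hs0 => ?_) ht.1 ht.2 x v).trans ?_
    · refine (hX.bd n s ⟨hs, hs0⟩ y w).trans ?_
      rw [B2_env P g1 g2 (a - 3) hs.le, show a - 3 = a - 2 - 1 by ring, mul_assoc (CH + 1)]
      gcongr
      exact le_self_add
    · have mH : Meas3 (sol (phiE P) (sg n)) := meas3_sol hφ (hX.meas n)
      have pH : PerD (sol (phiE P) (sg n)) := PerD.sol pφ (hX.per n)
      have h4 := LMass.lintegral_ball_le (f := fun y => ∫⁻ w, sol (phiE P) (sg n) s y w)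
        (Measurable.lintegral_prod_right' (f := fun q : P2 × R3 => sol (phiE P) (sg n) s q.1 q.2)
          (mH.comp measurable_const measurable_fst measurable_snd))
        (fun y k => by
          refine lintegral_congr fun w => ?_
          exact pH s w y k) y hrho
      have e : Metric.closedBall y rho0 = {z : P2 | ‖z - y‖ ≤ rho0} := by
        ext z; rw [Metric.mem_closedBall, dist_eq_norm]; rfl
      rw [e]
      refine h4.trans (le_trans ?_ ((hX.mom n s ⟨hs, hs0⟩).trans ?_))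
      · unfold Mom
        refine lintegral_mono fun y => lintegral_mono fun w => ?_
        refine le_mul_of_one_le_left' ?_
        rw [← ENNReal.ofReal_one]
        apply ENNReal.ofReal_le_ofReal
        have : 0 ≤ ‖w‖ ^ 4 := by positivity
        linarith
      · rw [show a - 2 + 2 = a by ring]
    · rw [B2_env P g1 g2 (a - 2) ht.1.le, ← hK, mul_assoc (2 * K)]
      gcongr
      exact le_self_add

end Crest.Agent.R68.L
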