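import Crest.Agent.R68.LGlueA

/-!
# Row 68, PART L (helper685): `LOut` from the outputs of Part S and Part X
-/

set_option autoImplicit false
open MeasureTheory Set Filter Topology
open scoped ENNReal
open Crest.AnalysisR.VecCalc3 Crest.AnalysisR.PDE.Boltzmann

noncomputable section

namespace Crest.Agent.R68.L

open Crest.Agent.R68.A (Meas3 en Acc)

lemma mul_small {R t : ℝ} (hR : 0 ≤ R) (ht : t ≤ 1 / (4 * (R + 1))) : R * t ≤ 1 / 4 := by
  calc R * t ≤ R * (1 / (4 * (R + 1))) := mul_le_mul_of_nonneg_left ht hR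
    _ ≤ 1 / 4 := by
      rw [mul_one_div, div_le_div_iff₀ (by positivity) (by norm_num)]
      linarith

/-- **`LOut` from the outputs of Parts S and X** -/
theorem LOut_of {Y : ℝ} (hY : 1 ≤ Y) (hS1 : SOut Y (1 / 25)) (hS2 : SOut Y (1 / 50))
    (hX1 : X1Out Y (1 / 50) (1 / 50)) (hX2 : X2Out' Y (1 / 25) (1 / 25)) : Main0.LOut Y := by
  have hVV : 0 ≤ VV Y := by unfold VV; positivity
  obtain ⟨V1, L1, hV1, hL1, hnum1⟩ := exists_slaveNum (CT := CT Y (1 / 25) (1 / 25)) (VV := VV Y)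
    (g2 := 1 / 25) (CT_nonneg _ _ _) hVV (by norm_num)
  obtain ⟨V2, L2, hV2, hL2, hnum2⟩ := exists_slaveNum (CT := CT Y (1 / 50) (1 / 50)) (VV := VV Y)
    (g2 := 1 / 50) (CT_nonneg _ _ _) hVV (by norm_num)
  obtain ⟨K1, hS1⟩ := hS1 V1 L1 (epsS Y (1 / 25)) hV1 (by linarith) (epsS_pos _ _)
  obtain ⟨K2, hS2⟩ := hS2 V2 L2 (epsS Y (1 / 50)) hV2 (by linarith) (epsS_pos _ _)
  obtain ⟨K3, hX1⟩ := hX1
  obtain ⟨K4, hX2⟩ := hX2
  refine ⟨max (max (max K1 K2) (max K3 K4)) (max (max (2 * L1) (2 * L2)) 40), fun K hK => ?_⟩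
  have hKa := (le_max_left _ _).trans hK
  have hKb := (le_max_right _ _).trans hK
  have hK1 : K1 ≤ K := ((le_max_left _ _).trans (le_max_left _ _)).trans hKa
  have hK2 : K2 ≤ K := ((le_max_right _ _).trans (le_max_left _ _)).trans hKa
  have hK3 : K3 ≤ K := ((le_max_left _ _).trans (le_max_right _ _)).trans hKa
  have hK4 : K4 ≤ K := ((le_max_right _ _).trans (le_max_right _ _)).trans hKa
  have hKL1 : 2 * L1 ≤ K := ((le_max_left _ _).trans (le_max_left _ _)).trans hKb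
  have hKL2 : 2 * L2 ≤ K := ((le_max_right _ _).trans (le_max_left _ _)).trans hKb
  have hK40 : 40 ≤ K := (le_max_right _ _).trans hKb
  obtain ⟨ey, hey0, hey1, hX2⟩ := hX2 K hK4
  obtain ⟨R1, CS1, hR1, hCS1, hS1⟩ := hS1 K hK1
  obtain ⟨R2, CS2, hR2, hCS2, hS2⟩ := hS2 K hK2
  set a : ℝ := 119 / 20 * K with ha
  obtain ⟨Z1, hnum1⟩ := hnum1 K (a - 2) hKL1 (by rw [ha]; linarith)
  obtain ⟨Z2, hnum2⟩ := hnum2 K (2 * (a - 2)) hKL2 (by rw [ha]; linarith)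
  refine ⟨ey, hey0, hey1, a, 2 * (a - 2), by rw [ha]; linarith, by rw [ha]; linarith, le_rfl, ?_⟩
  filter_upwards [hS1 ey hey0 hey1, hS2 ey hey0 hey1, hX1 K hK3 ey hey0 hey1, hX2,
    eventually_ge_atTop 3] with p hp1 hp2 hp3 hp4 hp5
  have hYp : 0 < 1 / (8 * (Y + 2)) := by positivity
  filter_upwards [hp1, hp2, hp3, hp4, ev_Ok K Y ey p (by linarith) (by linarith) hey0 hp5,
    ev_T1_le (show (0 : ℝ) < 1 by norm_num), ev_dl_le hYp, eventually_ge_atTop 1] with j0 hj1 hj2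
    hj3 hj4 hOk hT1 hdl hj
  obtain ⟨s1, hs1, hW1⟩ := hj1
  obtain ⟨s2, hs2, hW2⟩ := hj2
  obtain ⟨s3, hs3, hM⟩ := hj3
  obtain ⟨s4, hs4, hX2⟩ := hj4
  set P : Par := par K Y ey p j0 with hP
  have hT0 : 0 < T1j j0 := T1j_pos hj
  set t0 : ℝ := min (min (min s1 s2) (min s3 s4)) (min (min (1 / (4 * (R1 + 1))) (1 / (4 * (R2 + 1))))
    (min (1 / (8 * (Y + 2))) (T1j j0))) with ht0d
  have ht0 : 0 < t0 := by
    refine lt_min (lt_min (lt_min hs1 hs2) (lt_min hs3 hs4)) (lt_min (lt_min ?_ ?_) (lt_min hYp hT0))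
    · positivity
    · positivity
  have ha1 : t0 ≤ min (min s1 s2) (min s3 s4) := min_le_left _ _
  have ha2 : t0 ≤ min (min (1 / (4 * (R1 + 1))) (1 / (4 * (R2 + 1))))
    (min (1 / (8 * (Y + 2))) (T1j j0)) := min_le_right _ _
  have h1 : t0 ≤ s1 := ha1.trans ((min_le_left _ _).trans (min_le_left _ _))
  have h2 : t0 ≤ s2 := ha1.trans ((min_le_left _ _).trans (min_le_right _ _))
  have h3 : t0 ≤ s3 := ha1.trans ((min_le_right _ _).trans (min_le_left _ _))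
  have h4 : t0 ≤ s4 := ha1.trans ((min_le_right _ _).trans (min_le_right _ _))
  have h5 : t0 ≤ 1 / (4 * (R1 + 1)) := ha2.trans ((min_le_left _ _).trans (min_le_left _ _))
  have h6 : t0 ≤ 1 / (4 * (R2 + 1)) := ha2.trans ((min_le_left _ _).trans (min_le_right _ _))
  have h7 : t0 ≤ 1 / (8 * (Y + 2)) := ha2.trans ((min_le_right _ _).trans (min_le_left _ _))
  have h8 : t0 ≤ T1j j0 := ha2.trans ((min_le_right _ _).trans (min_le_right _ _))
  have ht01 : t0 ≤ 1 := h8.trans hT1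
  have hsq : √t0 ≤ 1 := by rw [Real.sqrt_le_one]; exact ht01
  have hsqT : √(T1j j0) ≤ 1 := by rw [Real.sqrt_le_one]; exact hT1
  obtain ⟨CX, hCX, hM⟩ := hM t0 ht0 h3
  have hsm : (P.Y + 2) * (t0 + P.dl) < 7 / 20 := by
    have h9 : P.dl ≤ 1 / (8 * (Y + 2)) := hdl
    have h10 : P.Y = Y := rfl
    rw [h10]
    have hY2 : 0 < Y + 2 := by linarith
    calc (Y + 2) * (t0 + P.dl) ≤ (Y + 2) * (1 / (8 * (Y + 2)) + 1 / (8 * (Y + 2))) := by gcongr
      _ = 1 / 4 := by field_simp; norm_num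
      _ < 7 / 20 := by norm_num
  have hN1 := hnum1 t0 R1 (1 / 4) (cUe Y (1 / 25)) (ENNReal.ofReal (epsS Y (1 / 25))) hR1
    (mul_small hR1 h5) ENNReal.ofReal_ne_top (cUe_epsS _ _)
  have hN2 := hnum2 t0 R2 (1 / 4) (cUe Y (1 / 50)) (ENNReal.ofReal (epsS Y (1 / 50))) hR2
    (mul_small hR2 h6) ENNReal.ofReal_ne_top (cUe_epsS _ _)
  refine lInp_of (P := P) hOk (t0 := t0) (by norm_num) (by norm_num) (by norm_num) (by norm_num) hT1
    (by linarith) (by linarith) ht0 h8 (by rw [ha]; linarith) (by rw [ha]; linarith) ?_ ?_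
  · exact ancient_of (P := P) hOk (by norm_num) (by norm_num) ht01 (by linarith) hsm
      (by rw [ha]; linarith) hV1 hN1 (hW1 t0 ht0 h1) hCS1 (by norm_num) (hX2 t0 ht0 h4)
  · exact solBound_of (P := P) hOk (by norm_num) (by norm_num) ht01 (by linarith) hsm hV2 hN2
      (hW2 t0 ht0 h2) hCS2 (by norm_num) hM hCX (by rw [ha]; linarith)

end Crest.Agent.R68.L
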