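import Crest.Agent.R68.LDefs

/-!
# Row 68, PART L (helper208): INTERFACE (statements with `sorry`; never import this file in proofs)

Objects (all landed, sorry-free, in `R68/LDefs.lean`, namespace `Crest.Agent.R68.L`):
`phiE P` free fuel, `Gf φ h = 2 Qp φ h`, `Dam φ q` damped Duhamel integral (damping `Lc φ`),
`TL φ h = Dam φ (Gf φ h)`, `sol φ σ = Σ (TL φ)^n (Dam φ σ)`.
The final theorems will be in `R68/LSol.lean`, `R68/LAnc.lean`, `R68/LFinal.lean`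
(namespace `Crest.Agent.R68.L`, same names).
-/

set_option autoImplicit false
open MeasureTheory Set
open scoped ENNReal
open Crest.AnalysisR.VecCalc3 Crest.AnalysisR.PDE.Boltzmann

noncomputable section

namespace Crest.Agent.R68.LIface

open Crest.Agent.R68.A (Meas3)
open Crest.Agent.R68.L (Den phiE Gf Dam TL sol)

/-- `Γ`-periodic in position -/
def PerF (f : Den) : Prop := ∀ (t : ℝ) (v : R3), PerG (fun x => f t x v)

/-- OUTPUT OF PART L for one pair of Gaussian exponents `g1, g2`, time horizon `t0`, and one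
exponent `b` (the theorem `exists_LOut` gives it for all `b` allowed, e.g. `b = a - 2` and
`b = 2(a-2)`). -/
structure SolBound (P : Par) (g1 g2 t0 b : ℝ) : Prop where
  bound : ∃ C : ℝ≥0∞, C ≠ ⊤ ∧ ∀ (σ : Den) (A : ℝ≥0∞), Meas3 σ → PerF σ →
    (∀ t ∈ Ioc 0 t0, ∀ x v, σ t x v ≤ A * B2 P g1 g2 (b - 1) t x v) →
    ∀ t ∈ Ioc 0 t0, ∀ x v, sol (phiE P) σ t x v ≤ C * A * B2 P g1 g2 b t x v

/-- existence of the ancient solution -/
structure Ancient (P : Par) (g1 g2 t0 a : ℝ) (H : Den) : Prop where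
  meas : Meas3 H
  per : PerF H
  eqn : ∀ t ∈ Ioc 0 t0, ∀ x v, H t x v = TL (phiE P) H t x v
  bound : ∃ C : ℝ≥0∞, C ≠ ⊤ ∧ ∀ t ∈ Ioc 0 t0, ∀ x v, H t x v ≤ C * B2 P g1 g2 (a - 2) t x v
  pos : 0 < ∫⁻ t in Ioo 0 t0, ∫⁻ x in cellG, ∫⁻ v, H t x v

/-- THE FINAL THEOREM OF PART L (order of the constants: 913, 14:33). `Y, g1, g2` are fixed first,
then `K ≥ K0`, then `ey ≤ eymax`, then `p`, then `c ≤ cmax`, then `j0 ≥ jmin`, then `t0`.
Upper exponent (X1) `56/5 * K`, lower exponent (X2) `a = 119/20 * K`. For several pairs `(g1,g2)`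
take the max/min of the constants (everything is monotone: smaller `t0` is allowed). -/
theorem exists_LOut (Y g1 g2 : ℝ) (hY : 1 ≤ Y) (hg2 : 0 < g2) (hg21 : g2 ≤ g1) (hg1 : g1 ≤ 1) :
    ∃ K0 : ℝ, ∀ K : ℝ, K0 ≤ K → ∃ eymax : ℝ, 0 < eymax ∧ ∀ ey : ℝ, 0 < ey → ey ≤ eymax →
      ∀ p : ℕ, 256 ≤ p → ∃ cmax : ℝ, 0 < cmax ∧ ∃ jmin : ℕ, ∀ P : Par, P.K = K → P.Y = Y →
        P.ey = ey → P.p = p → 0 < P.c → P.c ≤ cmax → P.dl ≤ P.c → jmin ≤ P.j0 →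
        ∃ t0 : ℝ, 0 < t0 ∧ t0 ≤ 1 ∧
          (∀ b : ℝ, 59 / 10 * K ≤ b → 56 / 5 * K - 2 < b → SolBound P g1 g2 t0 b) ∧
          (∀ t1, 0 < t1 → t1 ≤ t0 → ∃ H, Ancient P g1 g2 t1 (119 / 20 * K) H) := sorry

/-- consequence used by Part N: the geometric series of `T` on the weight -/
theorem tsum_iter_le {P : Par} {g1 g2 t0 b : ℝ} (h : SolBound P g1 g2 t0 b)
    (hK2 : ∃ C : ℝ≥0∞, C ≠ ⊤ ∧ ∀ t ∈ Ioc 0 t0, ∀ x v,
      Gf (phiE P) (B2 P g1 g2 b) t x v ≤ C * B2 P g1 g2 (b - 1) t x v) :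
    ∃ C : ℝ≥0∞, C ≠ ⊤ ∧ ∀ t ∈ Ioc 0 t0, ∀ x v,
      ∑' n : ℕ, (TL (phiE P))^[n] (B2 P g1 g2 b) t x v ≤ C * B2 P g1 g2 b t x v := sorry

/-- `TL` ignores null sets (a.e. on `ℝ × P2 × R3`), and `TL ∘ TL` of an a.e. modification is the
same everywhere -/
theorem TL_TL_congr {φ f g : Den} (hφ : Meas3 φ) (hf : Meas3 f) (hg : Meas3 g)
    (h : ∀ᵐ p : ℝ × P2 × R3, f p.1 p.2.1 p.2.2 = g p.1 p.2.1 p.2.2) :
    TL φ (TL φ f) = TL φ (TL φ g) := sorry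

end Crest.Agent.R68.LIface
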