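import Crest.Agent.R68.LNull
import Crest.Agent.R68.DPoles

/-!
# Row 68, Part L: the geometric series of `T` on a weight

`tsum_iter_le` : a bound of the solution operator `sol` in the class of a weight `B` gives
`Σ Tⁿ B ≤ (1 + C) B` (used by Part N).  Only times in `(0,t0]` matter.
-/

set_option autoImplicit false
open MeasureTheory Set Filter
open scoped ENNReal
open Crest.AnalysisR.VecCalc3 Crest.AnalysisR.PDE.Boltzmann

noncomputable section

namespace Crest.Agent.R68.L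

open Crest.Agent.R68.A

variable {φ : Den}

/-- a density cut to the time interval `(0,t0]` -/
def cutD (t0 : ℝ) (f : Den) : Den := fun t x v => if 0 < t ∧ t ≤ t0 then f t x v else 0

theorem cutD_of_mem {t0 : ℝ} {f : Den} {t : ℝ} (ht : t ∈ Ioc 0 t0) (x : P2) (v : R3) :
    cutD t0 f t x v = f t x v := by
  simp [cutD, ht.1, ht.2]

theorem cutD_le (t0 : ℝ) (f : Den) (t : ℝ) (x : P2) (v : R3) : cutD t0 f t x v ≤ f t x v := by
  unfold cutD
  split_ifs
  · exact le_rfl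
  · exact zero_le

theorem perD_cutD {t0 : ℝ} {f : Den} (hf : PerD f) : PerD (cutD t0 f) := by
  intro t v x k
  have h : f t (x + latt k) v = f t x v := hf t v x k
  simp only [cutD, h]

/-- `TL φ h` on `(0,t0]` only depends on `h` on `(0,t0]` -/
theorem TL_congr_on {h k : Den} {t0 : ℝ}
    (H : ∀ t ∈ Ioc 0 t0, ∀ x v, h t x v = k t x v) :
    ∀ t ∈ Ioc 0 t0, ∀ x v, TL φ h t x v = TL φ k t x v := by
  intro t ht x v
  unfold TL
  apply le_antisymm
  · refine Dam_mono_at fun s hs => ?_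
    have hs' : s ∈ Ioc 0 t0 := ⟨hs.1, hs.2.le.trans ht.2⟩
    exact Gf_mono_at (fun w => (H s hs' _ w).le) v
  · refine Dam_mono_at fun s hs => ?_
    have hs' : s ∈ Ioc 0 t0 := ⟨hs.1, hs.2.le.trans ht.2⟩
    exact Gf_mono_at (fun w => (H s hs' _ w).ge) v

theorem iter_congr_on {h k : Den} {t0 : ℝ}
    (H : ∀ t ∈ Ioc 0 t0, ∀ x v, h t x v = k t x v) (n : ℕ) :
    ∀ t ∈ Ioc 0 t0, ∀ x v, (TL φ)^[n] h t x v = (TL φ)^[n] k t x v := by
  induction n with
  | zero => simpa using H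
  | succ n ih =>
      intro t ht x v
      rw [Function.iterate_succ_apply', Function.iterate_succ_apply']
      exact TL_congr_on ih t ht x v

/-- **the geometric series of `T` on a weight** -/
theorem tsum_iter_le (hφ : Meas3 φ) (pφ : PerD φ) {B Bm : Den} {t0 : ℝ}
    (hB : Meas3 (cutD t0 B)) (pB : PerD B) {C1 C2 : ℝ≥0∞}
    (hsol : ∀ (σ : Den) (A : ℝ≥0∞), Meas3 σ → PerD σ →
      (∀ t ∈ Ioc 0 t0, ∀ x v, σ t x v ≤ A * Bm t x v) →
      ∀ t ∈ Ioc 0 t0, ∀ x v, sol φ σ t x v ≤ C1 * A * B t x v)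
    (hK2 : ∀ t ∈ Ioc 0 t0, ∀ x v, Gf φ B t x v ≤ C2 * Bm t x v) :
    ∀ t ∈ Ioc 0 t0, ∀ x v,
      ∑' n : ℕ, (TL φ)^[n] B t x v ≤ (1 + C1 * C2) * B t x v := by
  intro t ht x v
  have e1 : ∑' n : ℕ, (TL φ)^[n] B t x v = ∑' n : ℕ, (TL φ)^[n] (cutD t0 B) t x v :=
    tsum_congr fun n => (iter_congr_on (φ := φ) (fun t ht x v => (cutD_of_mem ht x v)) n
      t ht x v).symm
  rw [e1, tsum_iter_eq, cutD_of_mem ht, add_mul, one_mul]
  refine add_le_add le_rfl ?_
  refine hsol (Gf φ (cutD t0 B)) C2 (meas3_Gf hφ hB) (pφ.Gf (perD_cutD pB)) ?_ t ht x v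
  intro s hs y w
  exact (Gf_mono_at (fun u => cutD_le t0 B s y u) w).trans (hK2 s hs y w)

/-! ### the weight `B2` -/

theorem perD_B2 (P : Par) (g1 g2 b : ℝ) : PerD (B2 P g1 g2 b) := by
  intro t v x k
  have h1 : Dm P t (x + latt k) v = Dm P t x v := DPole.perG_Dm P t v x k
  have h2 : distG (x + latt k) = distG x := perG_distG x k
  simp only [B2, h1, h2]

theorem meas3_cutD_B2 {P : Par} (hY : 0 < P.Y) (t0 g1 g2 b : ℝ) :
    Meas3 (cutD t0 (B2 P g1 g2 b)) := by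
  have h1 := DPole.measurable_Dm hY
  have hd : Measurable distG := measurable_distG
  unfold Meas3 cutD B2 gau
  have e : (fun p : ℝ × P2 × R3 => if 0 < p.1 ∧ p.1 ≤ t0 then
      ENNReal.ofReal (p.1 ^ b * Real.exp (-(g1 - √p.1 / 100) * ‖p.2.2‖ ^ 2) *
        Real.exp (-g2 * (max ‖p.2.2‖ (distG p.2.1 / p.1)) ^ 2)) * Dm P p.1 p.2.1 p.2.2 else 0) =
      fun p : ℝ × P2 × R3 => if 0 < p.1 ∧ p.1 ≤ t0 then
      ENNReal.ofReal (p.1 ^ b * Real.exp (-(g1 - √p.1 / 100) * ‖p.2.2‖ ^ 2) *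
        Real.exp (-g2 * (max ‖p.2.2‖ (distG p.2.1 / p.1)) ^ 2)) *
        (if 0 ≤ p.1 then Dm P p.1 p.2.1 p.2.2 else 1) else 0 := by
    funext p
    by_cases h : 0 < p.1 ∧ p.1 ≤ t0
    · simp only [h, and_self, if_true, h.1.le]
    · simp only [h, if_false]
  rw [e]
  refine Measurable.ite ((measurableSet_lt measurable_const measurable_fst).inter
    (measurableSet_le measurable_fst measurable_const)) ?_ measurable_const
  refine Measurable.mul ?_ h1
  have hx : Measurable fun p : ℝ × P2 × R3 => distG p.2.1 :=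
    hd.comp (measurable_fst.comp measurable_snd)
  fun_prop

end Crest.Agent.R68.L
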