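import Crest.Agent.R68.Defs

/-!
R68 / S (smoothing lemma): substitution lemmas for maps that are antilipschitz on short cells
(helper60).
-/

set_option autoImplicit false
open MeasureTheory Set
open scoped ENNReal

namespace Crest.Agent.R68.S

/-- measure comparison for a one-dimensional map which is antilipschitz on `A` -/
theorem volume_inter_preimage_le {A : Set ℝ} {ζ : ℝ → ℝ} {d : ℝ} (hd : 0 < d)
    (h : ∀ x ∈ A, ∀ y ∈ A, d * |x - y| ≤ |ζ x - ζ y|) (B : Set ℝ) :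
    volume (A ∩ ζ ⁻¹' B) ≤ ENNReal.ofReal (1 / d) * volume B := by
  classical
  set S : Set ℝ := A ∩ ζ ⁻¹' B with hS
  have hinj : InjOn ζ S := by
    intro x hx y hy hxy
    have := h x hx.1 y hy.1
    rw [hxy, sub_self, abs_zero] at this
    have h2 : |x - y| ≤ 0 := by
      by_contra hcon
      push Not at hcon
      nlinarith
    have := abs_eq_zero.1 (le_antisymm h2 (abs_nonneg _))
    linarith
  set g : ℝ → ℝ := Function.invFunOn ζ S with hg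
  have hgS : ∀ x ∈ S, g (ζ x) = x := fun x hx => hinj.leftInvOn_invFunOn hx
  have hK : 0 ≤ 1 / d := by positivity
  have hlip : LipschitzOnWith (Real.toNNReal (1 / d)) g (ζ '' S) := by
    apply LipschitzOnWith.of_dist_le_mul
    rintro _ ⟨x, hx, rfl⟩ _ ⟨y, hy, rfl⟩
    rw [hgS x hx, hgS y hy, Real.coe_toNNReal _ hK, Real.dist_eq, Real.dist_eq]
    have := h x hx.1 y hy.1
    rw [one_div, inv_mul_eq_div, le_div_iff₀ hd]
    linarith
  have himg : g '' (ζ '' S) = S := by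
    ext z
    constructor
    · rintro ⟨_, ⟨x, hx, rfl⟩, rfl⟩
      rw [hgS x hx]
      exact hx
    · intro hz
      exact ⟨ζ z, ⟨z, hz, rfl⟩, hgS z hz⟩
  have h1 := hlip.hausdorffMeasure_image_le (d := 1) zero_le_one
  rw [himg, hausdorffMeasure_real, ENNReal.rpow_one] at h1
  refine h1.trans ?_
  rw [ENNReal.ofReal]
  gcongr
  rintro _ ⟨x, hx, rfl⟩
  exact hx.2

/-- one-dimensional substitution, antilipschitz on `A` -/
theorem lintegral_comp_le_of_anti {A : Set ℝ} {ζ : ℝ → ℝ}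
    (hζ : Measurable ζ) {d : ℝ} (hd : 0 < d)
    (h : ∀ x ∈ A, ∀ y ∈ A, d * |x - y| ≤ |ζ x - ζ y|) {F : ℝ → ℝ≥0∞} (hF : Measurable F) :
    ∫⁻ x in A, F (ζ x) ≤ ENNReal.ofReal (1 / d) * ∫⁻ z, F z := by
  rw [← lintegral_map hF hζ, ← smul_eq_mul, ← lintegral_smul_measure]
  apply lintegral_mono' _ le_rfl
  rw [Measure.le_iff]
  intro B hB
  rw [Measure.map_apply hζ hB, Measure.restrict_apply (hζ hB), Measure.smul_apply, smul_eq_mul,
    inter_comm]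
  exact volume_inter_preimage_le hd h B

theorem lintegral_biUnion_le {α : Type*} [MeasurableSpace α] {μ : Measure α} (s : Finset ℕ)
    (A : ℕ → Set α) (F : α → ℝ≥0∞) :
    ∫⁻ x in ⋃ i ∈ s, A i, F x ∂μ ≤ ∑ i ∈ s, ∫⁻ x in A i, F x ∂μ := by
  classical
  induction s using Finset.induction_on with
  | empty => simp
  | insert a s ha ih =>
    rw [Finset.set_biUnion_insert, Finset.sum_insert ha]
    exact (lintegral_union_le _ _ _).trans (by gcongr)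

/-- number of cells of length `ℓ` needed to cover an interval of length `L` -/
noncomputable def ncell (L ℓ : ℝ) : ℕ := ⌊L / ℓ⌋₊ + 1

/-- one-dimensional substitution, antilipschitz on short cells -/
theorem lintegral_comp_le_of_anti_local {A : Set ℝ} (hA : MeasurableSet A) {a L ℓ : ℝ}
    (hℓ : 0 < ℓ)
    (hsub : A ⊆ Icc a (a + L)) {ζ : ℝ → ℝ} (hζ : Measurable ζ) {d : ℝ} (hd : 0 < d)
    (h : ∀ x ∈ A, ∀ y ∈ A, |x - y| ≤ ℓ → d * |x - y| ≤ |ζ x - ζ y|)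
    {F : ℝ → ℝ≥0∞} (hF : Measurable F) :
    ∫⁻ x in A, F (ζ x) ≤ ncell L ℓ * (ENNReal.ofReal (1 / d) * ∫⁻ z, F z) := by
  classical
  set Ai : ℕ → Set ℝ := fun i => A ∩ Icc (a + i * ℓ) (a + (i + 1) * ℓ) with hAi
  have hcov : A ⊆ ⋃ i ∈ Finset.range (ncell L ℓ), Ai i := by
    intro x hx
    have hx' := hsub hx
    have h0 : 0 ≤ (x - a) / ℓ := div_nonneg (by linarith [hx'.1]) hℓ.le
    have h1 := Nat.floor_le h0
    have h2 := Nat.lt_floor_add_one ((x - a) / ℓ)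
    simp only [mem_iUnion, Finset.mem_range, exists_prop]
    refine ⟨⌊(x - a) / ℓ⌋₊, ?_, hx, ?_, ?_⟩
    · unfold ncell
      have : ⌊(x - a) / ℓ⌋₊ ≤ ⌊L / ℓ⌋₊ := by
        apply Nat.floor_le_floor
        gcongr
        linarith [hx'.2]
      omega
    · rw [le_div_iff₀ hℓ] at h1
      linarith
    · rw [div_lt_iff₀ hℓ] at h2
      linarith
  have hm : ∀ i, MeasurableSet (Ai i) := fun i => hA.inter measurableSet_Icc
  calc ∫⁻ x in A, F (ζ x)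
      ≤ ∫⁻ x in ⋃ i ∈ Finset.range (ncell L ℓ), Ai i, F (ζ x) := lintegral_mono_set hcov
    _ ≤ ∑ i ∈ Finset.range (ncell L ℓ), ∫⁻ x in Ai i, F (ζ x) := by
        exact lintegral_biUnion_le _ _ _
    _ ≤ ∑ i ∈ Finset.range (ncell L ℓ), (ENNReal.ofReal (1 / d) * ∫⁻ z, F z) := by
        apply Finset.sum_le_sum
        intro i _
        apply lintegral_comp_le_of_anti hζ hd _ hF
        intro x hx y hy
        apply h x hx.1 y hy.1
        rw [abs_le]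
        constructor <;> [nlinarith [hx.2.1, hy.2.2]; nlinarith [hx.2.2, hy.2.1]]
    _ = ncell L ℓ * (ENNReal.ofReal (1 / d) * ∫⁻ z, F z) := by
        simp

/-- dilation in the plane -/
theorem lintegral_smul_plane {τ : ℝ} (hτ : 0 < τ) {g : P2 → ℝ≥0∞} (hg : Measurable g) :
    ∫⁻ Z, g Z = ENNReal.ofReal (τ ^ 2)⁻¹ * ∫⁻ X, g (τ⁻¹ • X) := by
  have hne : τ⁻¹ ≠ 0 := inv_ne_zero hτ.ne'
  have h1 := Measure.map_addHaar_smul (volume : Measure P2) hne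
  have hfr : Module.finrank ℝ P2 = 2 := by simp [P2]
  rw [hfr] at h1
  have h2 : ∫⁻ X, g (τ⁻¹ • X) = ∫⁻ Z, g Z ∂(Measure.map (τ⁻¹ • ·) (volume : Measure P2)) := by
    rw [lintegral_map hg (by fun_prop)]
  rw [h2, h1, lintegral_smul_measure, smul_eq_mul, ← mul_assoc, ← ENNReal.ofReal_mul (by positivity)]
  have : (τ ^ 2)⁻¹ * |((τ⁻¹) ^ 2)⁻¹| = 1 := by
    rw [abs_of_pos (by positivity)]
    field_simp
  rw [this, ENNReal.ofReal_one, one_mul]

/-- the two-step block: `(τ, Z, p) ↦ (x₀ - τ Z, p, ζ)`; for fixed `X = τ Z` and `p` the map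
`τ ↦ ζ` is antilipschitz on short cells of the good set. -/
theorem lintegral_block_le {G : Set (ℝ × P2 × P2)} (hG : MeasurableSet G)
    {τ₀ L ℓ d : ℝ} (hτ₀ : 0 < τ₀) (hℓ : 0 < ℓ) (hd : 0 < d)
    (hGτ : ∀ q ∈ G, q.1 ∈ Icc τ₀ (τ₀ + L))
    {ζ : ℝ → P2 → P2 → ℝ} (hζ : Measurable fun q : ℝ × P2 × P2 => ζ q.1 q.2.1 q.2.2)
    (h : ∀ (X p : P2) (τ τ' : ℝ), (τ, τ⁻¹ • X, p) ∈ G → (τ', τ'⁻¹ • X, p) ∈ G → |τ - τ'| ≤ ℓ →
      d * |τ - τ'| ≤ |ζ τ (τ⁻¹ • X) p - ζ τ' (τ'⁻¹ • X) p|)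
    {f : P2 → P2 → ℝ → ℝ≥0∞} (hf : Measurable fun q : P2 × P2 × ℝ => f q.1 q.2.1 q.2.2)
    (x₀ : P2) :
    ∫⁻ τ, ∫⁻ Z, ∫⁻ p, G.indicator (fun q => f (x₀ - q.1 • q.2.1) q.2.2 (ζ q.1 q.2.1 q.2.2))
        (τ, Z, p) ≤
      ENNReal.ofReal (τ₀ ^ 2)⁻¹ * (ncell L ℓ * ENNReal.ofReal (1 / d)) *
        ∫⁻ X, ∫⁻ p, ∫⁻ z, f X p z := by
  classical
  set Φ : ℝ × P2 × P2 → ℝ≥0∞ :=
    G.indicator (fun q => f (x₀ - q.1 • q.2.1) q.2.2 (ζ q.1 q.2.1 q.2.2)) with hΦ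
  have hΦm : Measurable Φ := by
    apply Measurable.indicator _ hG
    exact hf.comp ((by fun_prop : Measurable fun q : ℝ × P2 × P2 => x₀ - q.1 • q.2.1).prodMk
      ((by fun_prop : Measurable fun q : ℝ × P2 × P2 => q.2.2).prodMk hζ))
  -- step 1: dilation
  set Ψ : P2 → P2 → ℝ → ℝ≥0∞ := fun X p τ => Φ (τ, τ⁻¹ • X, p) with hΨ
  have hΨm : Measurable fun q : P2 × P2 × ℝ => Ψ q.1 q.2.1 q.2.2 := by
    apply hΦm.comp
    fun_prop
  have h1 : ∀ τ, ∫⁻ Z, ∫⁻ p, Φ (τ, Z, p) ≤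
      ENNReal.ofReal (τ₀ ^ 2)⁻¹ * ∫⁻ X, ∫⁻ p, Ψ X p τ := by
    intro τ
    by_cases hτ : τ ∈ Icc τ₀ (τ₀ + L)
    · have hτ0 : 0 < τ := lt_of_lt_of_le hτ₀ hτ.1
      have hm : Measurable fun Z => ∫⁻ p, Φ (τ, Z, p) := by
        have : Measurable fun q : P2 × P2 => Φ (τ, q.1, q.2) := hΦm.comp (by fun_prop)
        exact this.lintegral_prod_right'
      rw [lintegral_smul_plane hτ0 hm]
      gcongr
      exact hτ.1
    · have : ∀ Z p, Φ (τ, Z, p) = 0 := by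
        intro Z p
        apply indicator_of_notMem
        intro hq
        exact hτ (hGτ _ hq)
      simp [this]
  have hI1 : Measurable fun q : P2 × ℝ => ∫⁻ p, Ψ q.1 p q.2 := by
    have : Measurable fun q : (P2 × ℝ) × P2 => Ψ q.1.1 q.2 q.1.2 :=
      hΨm.comp (by fun_prop : Measurable fun q : (P2 × ℝ) × P2 => (q.1.1, q.2, q.1.2))
    exact this.lintegral_prod_right'
  -- step 2: swap and one-dimensional substitution
  have h2 : ∀ X p, ∫⁻ τ, Ψ X p τ ≤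
      ncell L ℓ * ENNReal.ofReal (1 / d) * ∫⁻ z, f (x₀ - X) p z := by
    intro X p
    set A : Set ℝ := {τ | (τ, τ⁻¹ • X, p) ∈ G} with hA
    have hAm : MeasurableSet A := by
      have : Measurable fun τ : ℝ => (τ, τ⁻¹ • X, p) := by fun_prop
      exact this hG
    have hAsub : A ⊆ Icc τ₀ (τ₀ + L) := fun τ hτ => hGτ _ hτ
    have h3 : ∫⁻ τ, Ψ X p τ = ∫⁻ τ in A, f (x₀ - X) p (ζ τ (τ⁻¹ • X) p) := by
      rw [← lintegral_indicator hAm]
      refine lintegral_congr fun τ => ?_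
      by_cases hτ : τ ∈ A
      · have hτ0 : τ ≠ 0 := (lt_of_lt_of_le hτ₀ (hAsub hτ).1).ne'
        rw [indicator_of_mem hτ, hΨ, hΦ]
        simp only
        rw [indicator_of_mem (show (τ, τ⁻¹ • X, p) ∈ G from hτ)]
        simp only [smul_smul, mul_inv_cancel₀ hτ0, one_smul]
      · rw [indicator_of_notMem hτ, hΨ, hΦ]
        simp only
        rw [indicator_of_notMem (show (τ, τ⁻¹ • X, p) ∉ G from hτ)]
    rw [h3]
    have hζ' : Measurable fun τ : ℝ => ζ τ (τ⁻¹ • X) p :=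
      hζ.comp (by fun_prop : Measurable fun τ : ℝ => (τ, τ⁻¹ • X, p))
    have hf' : Measurable fun z : ℝ => f (x₀ - X) p z :=
      hf.comp (by fun_prop : Measurable fun z : ℝ => (x₀ - X, p, z))
    rw [mul_assoc]
    exact lintegral_comp_le_of_anti_local hAm hℓ hAsub hζ' hd
      (fun τ hτ τ' hτ' => h X p τ τ' hτ hτ') hf'
  calc ∫⁻ τ, ∫⁻ Z, ∫⁻ p, Φ (τ, Z, p)
      ≤ ∫⁻ τ, ENNReal.ofReal (τ₀ ^ 2)⁻¹ * ∫⁻ X, ∫⁻ p, Ψ X p τ := lintegral_mono h1
    _ = ENNReal.ofReal (τ₀ ^ 2)⁻¹ * ∫⁻ τ, ∫⁻ X, ∫⁻ p, Ψ X p τ := by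
        rw [lintegral_const_mul' _ _ ENNReal.ofReal_ne_top]
    _ = ENNReal.ofReal (τ₀ ^ 2)⁻¹ * ∫⁻ X, ∫⁻ τ, ∫⁻ p, Ψ X p τ := by
        congr 1
        rw [lintegral_lintegral_swap]
        exact (hI1.comp measurable_swap).aemeasurable
    _ = ENNReal.ofReal (τ₀ ^ 2)⁻¹ * ∫⁻ X, ∫⁻ p, ∫⁻ τ, Ψ X p τ := by
        congr 1
        refine lintegral_congr fun X => ?_
        rw [lintegral_lintegral_swap]
        have : Measurable fun q : ℝ × P2 => Ψ X q.2 q.1 :=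
          hΨm.comp (by fun_prop : Measurable fun q : ℝ × P2 => (X, q.2, q.1))
        exact this.aemeasurable
    _ ≤ ENNReal.ofReal (τ₀ ^ 2)⁻¹ * ∫⁻ X, ∫⁻ p,
          ncell L ℓ * ENNReal.ofReal (1 / d) * ∫⁻ z, f (x₀ - X) p z := by
        gcongr with X p
        exact h2 X p
    _ = ENNReal.ofReal (τ₀ ^ 2)⁻¹ * (ncell L ℓ * ENNReal.ofReal (1 / d)) *
          ∫⁻ X, ∫⁻ p, ∫⁻ z, f X p z := by
        have hne : (ncell L ℓ : ℝ≥0∞) * ENNReal.ofReal (1 / d) ≠ ⊤ :=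
          ENNReal.mul_ne_top (ENNReal.natCast_ne_top _) ENNReal.ofReal_ne_top
        simp_rw [lintegral_const_mul' _ _ hne]
        rw [← mul_assoc]
        congr 1
        exact lintegral_sub_left_eq_self (μ := (volume : Measure P2))
          (fun X => ∫⁻ p, ∫⁻ z, f X p z) x₀

end Crest.Agent.R68.S
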