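import Mathlib
import Crest.Agent.R68.Defs
import Crest.Agent.R68.Carl2

/-!
# Row 68, Part S (smoothing lemma): definitions (helper262)

Scaled variables: `c` = backward time (window `[0,L]`), `ξ : P2` position, `v : R3` velocity.
`Ω` labels (thermal label and sign), `u ω c ξ` the cold flow of label `ω`, `χ ω c ξ ≤ 1` its fuel
density (zero outside the fuel).  `W c ξ v` the singular weight (think `D^{-3/2}`).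
-/

set_option autoImplicit false
open MeasureTheory Set Metric
open scoped ENNReal NNReal
open Crest.AnalysisR.VecCalc3 Crest.AnalysisR.PDE.Boltzmann

noncomputable section

namespace Crest.Agent.R68.S

/-- singular weight in velocity space with `M` poles -/
def Sg {M : ℕ} (q : Fin M → R3) (z : R3) : ℝ≥0∞ :=
  1 + ∑ i, (ENNReal.ofReal ‖z - q i‖) ^ (-(3 / 2) : ℝ)

/-- planar version (sup norm of `ℝ × ℝ`) -/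
def Sg2 {M : ℕ} (q : Fin M → P2) (p : P2) : ℝ≥0∞ :=
  1 + ∑ i, (ENNReal.ofReal ‖p - q i‖) ^ (-(3 / 2) : ℝ)

/-- Gaussian kernel -/
def ker (κ : ℝ) (v z : R3) : ℝ≥0∞ := ENNReal.ofReal (Real.exp (-κ * ‖z - v‖ ^ 2))

/-- planar Gaussian (sup norm) -/
def ker2 (κ : ℝ) (y p : P2) : ℝ≥0∞ := ENNReal.ofReal (Real.exp (-κ * ‖p - y‖ ^ 2))

/-- Gaussian plane integral over the plane through `v` orthogonal to `u - v` -/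
def PA (κ : ℝ) (u v : R3) (g : R3 → ℝ≥0∞) : ℝ≥0∞ :=
  planeInt (fun z => ker κ v z * g z) v (‖u - v‖⁻¹ • (u - v))

/-- the collision operator with outgoing partner `u` -/
def Aop (κ : ℝ) (u v : R3) (g : R3 → ℝ≥0∞) : ℝ≥0∞ := ENNReal.ofReal ‖u - v‖⁻¹ * PA κ u v g

/-- scaled collision + free flight operator on the window `[0,L]` -/
def Top {Ω : Type} [MeasurableSpace Ω] (π : Measure Ω) (κ L : ℝ) (χ : Ω → ℝ → P2 → ℝ≥0∞)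
    (u : Ω → ℝ → P2 → R3) (f : ℝ → P2 → R3 → ℝ≥0∞) (c : ℝ) (ξ : P2) (v : R3) : ℝ≥0∞ :=
  ∫⁻ c1 in Ioo c L, ∫⁻ ω, χ ω c1 (ξ - (c1 - c) • bar v) *
    Aop κ (u ω c1 (ξ - (c1 - c) • bar v)) v (f c1 (ξ - (c1 - c) • bar v)) ∂π

/-- standing hypotheses -/
structure Hyp {Ω : Type} [MeasurableSpace Ω] (π : Measure Ω) (L U CN CD : ℝ) (M : ℕ)
    (χ : Ω → ℝ → P2 → ℝ≥0∞) (u : Ω → ℝ → P2 → R3) (W : ℝ → P2 → R3 → ℝ≥0∞) : Prop where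
  fin : π univ ≤ 1
  mχ : Measurable fun q : Ω × ℝ × P2 => χ q.1 q.2.1 q.2.2
  mu : Measurable fun q : Ω × ℝ × P2 => u q.1 q.2.1 q.2.2
  χ1 : ∀ ω c ξ, χ ω c ξ ≤ 1
  bd : ∀ ω c ξ, χ ω c ξ ≠ 0 → ‖u ω c ξ‖ ≤ U
  W1 : ∀ c ξ v, 1 ≤ W c ξ v
  Wmono : ∀ (c c1 : ℝ) (ξ : P2) (v : R3), 0 ≤ c → c ≤ c1 → c1 ≤ L →
    W c1 (ξ - (c1 - c) • bar v) v ≤ W c ξ v
  Wsg : ∀ (c : ℝ) (ξ : P2), 0 ≤ c → c ≤ L →
    ∃ q : Fin M → R3, ∀ v, W c ξ v ≤ ENNReal.ofReal CD * Sg q v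
  newton : ∀ (c : ℝ) (ξ : P2) (v : R3), 0 ≤ c → c ≤ L →
    ∫⁻ ω, χ ω c ξ * ENNReal.ofReal ‖u ω c ξ - v‖⁻¹ ∂π ≤ ENNReal.ofReal CN * W c ξ v

/-- the fields are nearly constant on the ball of radius `ρ` -/
structure Near {Ω : Type} (L U e ρ : ℝ) (χ : Ω → ℝ → P2 → ℝ≥0∞)
    (u : Ω → ℝ → P2 → R3) (ub : P2) (s : Ω → ℝ) : Prop where
  s1 : ∀ ω, s ω = 1 ∨ s ω = -1
  ubd : ‖ub‖ ≤ U
  close : ∀ (ω : Ω) (c : ℝ) (ξ : P2), 0 ≤ c → c ≤ L → ‖ξ‖ ≤ ρ → χ ω c ξ ≠ 0 →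
    ‖u ω c ξ - vec3 ub.1 ub.2 (s ω)‖ ≤ e
  lip : ∀ (ω : Ω) (c c' : ℝ) (ξ ξ' : P2), 0 ≤ c → c ≤ L → ‖ξ‖ ≤ ρ → χ ω c ξ ≠ 0 →
    0 ≤ c' → c' ≤ L → ‖ξ'‖ ≤ ρ → χ ω c' ξ' ≠ 0 →
    ‖u ω c ξ - u ω c' ξ'‖ ≤ e * (|c - c'| + ‖ξ - ξ'‖)

/-! ### graph form of the planes -/

/-- third component of the point above `p` of the plane through `v` orthogonal to `v - u` -/
def gz (v u : R3) (p : P2) : ℝ :=
  v 2 - ((v 0 - u 0) * (p.1 - v 0) + (v 1 - u 1) * (p.2 - v 1)) / (v 2 - u 2)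

/-- the point above `p` -/
def gpt (v u : R3) (p : P2) : R3 := vec3 p.1 p.2 (gz v u p)

/-- planar inner product -/
def dot2 (a b : P2) : ℝ := a.1 * b.1 + a.2 * b.2

/-- two-step map: `θ = (τ, p₁, p₂)`, `z₁ = gpt z₀ u₁ p₁`, `z₂ = gpt z₁ u₂ p₂`;
value `(τ (p₁ - z̄₀), z₂)` -/
def Phi (z0 u1 u2 : R3) (θ : ℝ × P2 × P2) : P2 × R3 :=
  (θ.1 • (θ.2.1 - bar z0), gpt (gpt z0 u1 θ.2.1) u2 θ.2.2)

/-- `A = z₁,₃ - u₂,₃` -/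
def AA (z0 a1 a2 : R3) (p1 : P2) : ℝ := gz z0 a1 p1 - a2 2

/-- slope: derivative of `z₂,₃` in `τ` at fixed `τ (p₁ - z̄₀)` and `p₂`, constant fields `a₁, a₂` -/
def JJ (z0 a1 a2 : R3) (θ : ℝ × P2 × P2) : ℝ :=
  (dot2 (bar z0 - bar a1) (θ.2.1 - bar z0) / (z0 2 - a1 2)
    - (dot2 (θ.2.1 - bar z0) (θ.2.1 - bar a2) - dot2 (θ.2.2 - θ.2.1) (θ.2.1 - bar z0))
        / AA z0 a1 a2 θ.2.1
    + dot2 (θ.2.2 - θ.2.1) (θ.2.1 - bar a2) * dot2 (bar z0 - bar a1) (θ.2.1 - bar z0)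
        / ((z0 2 - a1 2) * AA z0 a1 a2 θ.2.1 ^ 2)) / θ.1

/-- the good set of the two-step block -/
def Good (d d' L R : ℝ) (z0 a1 a2 : R3) : Set (ℝ × P2 × P2) :=
  {θ | d ≤ θ.1 ∧ θ.1 ≤ L ∧ d ≤ ‖θ.2.1 - bar z0‖ ∧ ‖θ.2.1 - bar z0‖ ≤ R ∧
    d ≤ |AA z0 a1 a2 θ.2.1| ∧ ‖θ.2.2 - θ.2.1‖ ≤ R ∧ d' ≤ |JJ z0 a1 a2 θ|}

end Crest.Agent.R68.S
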