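import Mathlib
import Crest.Agent.R68.Carl3

/-!
R68 / SPl2: radial integrals over planes, sublevel sets of affine and quadratic functions on
planes (helper653).
-/

set_option autoImplicit false
open MeasureTheory Set Metric
open scoped ENNReal Real
open Crest.AnalysisR.VecCalc3 Crest.AnalysisR.PDE.Boltzmann

namespace Crest.Agent.R68.S

/-- the substitution `s = r²` -/
theorem lintegral_sq_subst (h : ℝ → ℝ≥0∞) :
    ∫⁻ s in Ioi (0 : ℝ), h s = ∫⁻ r in Ioi (0 : ℝ), ENNReal.ofReal (2 * r) * h (r ^ 2) := by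
  have himg : (fun r : ℝ => r ^ 2) '' Ioi (0 : ℝ) = Ioi (0 : ℝ) := by
    ext s
    constructor
    · rintro ⟨r, hr, rfl⟩
      exact pow_pos (show (0 : ℝ) < r from hr) 2
    · intro hs
      exact ⟨√s, Real.sqrt_pos.2 hs, Real.sq_sqrt (le_of_lt hs)⟩
  have hinj : InjOn (fun r : ℝ => r ^ 2) (Ioi (0 : ℝ)) := by
    intro a ha b hb hab
    have ha' : (0 : ℝ) < a := ha
    have hb' : (0 : ℝ) < b := hb
    exact (pow_left_inj₀ ha'.le hb'.le (by norm_num)).1 hab
  have hder : ∀ r ∈ Ioi (0 : ℝ),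
      HasDerivWithinAt (fun r : ℝ => r ^ 2) (2 * r) (Ioi (0 : ℝ)) r := by
    intro r _
    have := (hasDerivAt_pow 2 r).hasDerivWithinAt (s := Ioi (0 : ℝ))
    simpa using this
  have hmain := lintegral_image_eq_lintegral_abs_deriv_mul measurableSet_Ioi hder hinj h
  rw [himg] at hmain
  rw [hmain]
  refine setLIntegral_congr_fun measurableSet_Ioi fun r hr => ?_
  have hr' : (0 : ℝ) < r := hr
  simp only [abs_of_pos (show (0 : ℝ) < 2 * r by positivity)]

/-- radial integration in the plane -/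
theorem lintegral_radial2 {h : ℝ → ℝ≥0∞} (hh : Measurable h) :
    ∫⁻ p : ℝ × ℝ, h (p.1 ^ 2 + p.2 ^ 2) = ENNReal.ofReal π * ∫⁻ s in Ioi (0 : ℝ), h s := by
  have hm : Measurable fun p : ℝ × ℝ => h (p.1 ^ 2 + p.2 ^ 2) := hh.comp (by fun_prop)
  rw [lintegral_polar2 hm, lintegral_sq_subst h, ← lintegral_const_mul]
  · refine setLIntegral_congr_fun measurableSet_Ioi fun r hr => ?_
    have hr' : (0 : ℝ) < r := hr
    have h1 : ∀ φ : ℝ, (r * Real.cos φ) ^ 2 + (r * Real.sin φ) ^ 2 = r ^ 2 := by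
      intro φ
      have := Real.sin_sq_add_cos_sq φ
      nlinarith
    simp only [h1]
    rw [lintegral_const, Measure.restrict_apply_univ, volume_Ioo_pi, ← mul_assoc,
      mul_comm (ENNReal.ofReal r * h (r ^ 2)), ← mul_assoc,
      ← ENNReal.ofReal_mul (by positivity), ← ENNReal.ofReal_mul (by positivity)]
    congr 2
    ring
  · exact Measurable.mul (by fun_prop) (hh.comp (by fun_prop))

/-- coordinates of a point relative to the plane through `v` orthogonal to `w` -/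
theorem norm_sq_plane_sub (v w a : R3) (p : ℝ × ℝ) :
    ‖v + rot w (vec3 p.1 p.2 0) - a‖ ^ 2
      = (p.1 - rot w (a - v) 0) ^ 2 + (p.2 - rot w (a - v) 1) ^ 2 + (rot w (a - v) 2) ^ 2 := by
  have h1 : v + rot w (vec3 p.1 p.2 0) - a = rot w (vec3 p.1 p.2 0 - rot w (a - v)) := by
    rw [map_sub, rot_rot]; abel
  rw [h1, norm_rot]
  have h2 : vec3 p.1 p.2 0 - rot w (a - v)
      = vec3 (p.1 - rot w (a - v) 0) (p.2 - rot w (a - v) 1) (-(rot w (a - v) 2)) := by
    apply vec3_ext <;> simp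
  rw [h2, norm_sq_vec3]
  ring

theorem rot_two {w : R3} (hw : ‖w‖ = 1) (x : R3) : rot w x 2 = inner ℝ w x := by
  have h := inner_rot w ez (rot w x)
  rw [rot_rot, rot_ez hw, inner_ez] at h
  exact h.symm

/-- integrals over a plane of functions of the distance to a point -/
theorem planeInt_radial {h : ℝ → ℝ≥0∞} (hh : Measurable h) (v a : R3) {w : R3} (hw : ‖w‖ = 1) :
    planeInt (fun z => h (‖z - a‖ ^ 2)) v w
      = ENNReal.ofReal π * ∫⁻ s in Ioi (0 : ℝ), h (s + (inner ℝ w (a - v) : ℝ) ^ 2) := by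
  unfold planeInt
  simp_rw [norm_sq_plane_sub]
  rw [← rot_two hw]
  set b := rot w (a - v) with hb
  have hm : Measurable fun q : ℝ × ℝ => h (q.1 ^ 2 + q.2 ^ 2 + b 2 ^ 2) := hh.comp (by fun_prop)
  have hmp : MeasurePreserving (fun p : ℝ × ℝ => p - (b 0, b 1)) volume volume :=
    measurePreserving_sub_right volume _
  have h1 := hmp.lintegral_comp hm
  have h2 := lintegral_radial2 (h := fun s => h (s + b 2 ^ 2)) (hh.comp (by fun_prop))
  rw [← h2, ← h1]
  rfl

theorem planeInt_mono {f g : R3 → ℝ≥0∞} (hfg : ∀ z, f z ≤ g z) (v w : R3) :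
    planeInt f v w ≤ planeInt g v w :=
  lintegral_mono fun _ => hfg _

theorem planeInt_radial_le {h : ℝ → ℝ≥0∞} (hh : Measurable h) (v a : R3) {w : R3} (hw : ‖w‖ = 1) :
    planeInt (fun z => h (‖z - a‖ ^ 2)) v w ≤ ENNReal.ofReal π * ∫⁻ s in Ioi (0 : ℝ), h s := by
  rw [planeInt_radial hh v a hw]
  refine mul_le_mul' le_rfl ?_
  set c : ℝ := (inner ℝ w (a - v) : ℝ) ^ 2 with hc
  have hc0 : 0 ≤ c := sq_nonneg _
  have hmp : MeasurePreserving (fun s : ℝ => s + c) volume volume :=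
    measurePreserving_add_right volume c
  have h1 : ∫⁻ s in Ioi (0 : ℝ), h (s + c) = ∫⁻ s in Ioi c, h s := by
    have h3 := hmp.setLIntegral_comp_preimage (s := Ioi c) measurableSet_Ioi hh
    rw [← h3]
    congr 2
    ext s
    simp
  rw [h1]
  exact lintegral_mono_set (Ioi_subset_Ioi hc0)

/-- the area of a disc in a plane -/
theorem planeInt_disc (v a : R3) {w : R3} (hw : ‖w‖ = 1) (d : ℝ) :
    planeInt ({z | ‖z - a‖ ≤ d}.indicator 1) v w ≤ ENNReal.ofReal (π * d ^ 2) := by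
  have h1 : planeInt ({z | ‖z - a‖ ≤ d}.indicator 1) v w
      ≤ planeInt (fun z => (Iic (d ^ 2)).indicator (fun _ => (1 : ℝ≥0∞)) (‖z - a‖ ^ 2)) v w := by
    apply planeInt_mono
    intro z
    by_cases hz : ‖z - a‖ ≤ d
    · rw [indicator_of_mem (by exact hz), indicator_of_mem]
      · rfl
      · exact pow_le_pow_left₀ (norm_nonneg _) hz 2
    · rw [indicator_of_notMem (by exact hz)]
      exact zero_le
  refine h1.trans ((planeInt_radial_le (measurable_const.indicator measurableSet_Iic) v a hw).trans ?_)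
  rw [lintegral_indicator measurableSet_Iic, Measure.restrict_restrict measurableSet_Iic,
    setLIntegral_const, one_mul, inter_comm, Ioi_inter_Iic, Real.volume_Ioc,
    ← ENNReal.ofReal_mul Real.pi_pos.le, sub_zero]

/-- quadratic sublevel sets: `|⟨z-a,z-b⟩| < d` has area at most `2πd` in every plane -/
theorem planeInt_quadratic (v a b : R3) {w : R3} (hw : ‖w‖ = 1) (d : ℝ) :
    planeInt ({z | |(inner ℝ (z - a) (z - b) : ℝ)| ≤ d}.indicator 1) v w
      ≤ ENNReal.ofReal (2 * π * d) := by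
  set m : R3 := (1 / 2 : ℝ) • (a + b) with hm
  set κ : ℝ := ‖a - b‖ ^ 2 / 4 with hκ
  have hkey : ∀ z : R3, (inner ℝ (z - a) (z - b) : ℝ) = ‖z - m‖ ^ 2 - κ := by
    intro z
    have e1 : z - a = (z - m) - (1 / 2 : ℝ) • (a - b) := by
      rw [hm]; module
    have e2 : z - b = (z - m) + (1 / 2 : ℝ) • (a - b) := by
      rw [hm]; module
    rw [e1, e2, inner_sub_left, inner_add_right, inner_add_right, real_inner_self_eq_norm_sq,
      real_inner_smul_left, real_inner_smul_right, real_inner_smul_left, real_inner_smul_right,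
      real_inner_self_eq_norm_sq, real_inner_comm (z - m) (a - b), hκ]
    ring
  have h1 : planeInt ({z | |(inner ℝ (z - a) (z - b) : ℝ)| ≤ d}.indicator 1) v w
      ≤ planeInt (fun z => (Icc (κ - d) (κ + d)).indicator (fun _ => (1 : ℝ≥0∞)) (‖z - m‖ ^ 2))
        v w := by
    apply planeInt_mono
    intro z
    by_cases hz : |(inner ℝ (z - a) (z - b) : ℝ)| ≤ d
    · rw [indicator_of_mem (by exact hz), indicator_of_mem]
      · rfl
      · rw [hkey z, abs_le] at hz
        constructor <;> linarith [hz.1, hz.2]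
    · rw [indicator_of_notMem (by exact hz)]
      exact zero_le
  refine h1.trans ((planeInt_radial_le (measurable_const.indicator measurableSet_Icc) v m hw).trans ?_)
  rw [lintegral_indicator measurableSet_Icc, Measure.restrict_restrict measurableSet_Icc,
    setLIntegral_const, one_mul]
  calc ENNReal.ofReal π * volume (Icc (κ - d) (κ + d) ∩ Ioi 0)
      ≤ ENNReal.ofReal π * volume (Icc (κ - d) (κ + d)) := by
        gcongr; exact inter_subset_left
    _ = ENNReal.ofReal (2 * π * d) := by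
        rw [Real.volume_Icc, ← ENNReal.ofReal_mul Real.pi_pos.le]
        congr 1; ring

theorem ms_strip (b1 b2 c d : ℝ) : MeasurableSet {p : ℝ × ℝ | |b1 * p.1 + b2 * p.2 + c| ≤ d} := by
  have h : Measurable fun p : ℝ × ℝ => |b1 * p.1 + b2 * p.2 + c| := by fun_prop
  exact measurableSet_le h measurable_const

theorem ms_abs_fst (R : ℝ) : MeasurableSet {p : ℝ × ℝ | |p.1| ≤ R} := by
  have h : Measurable fun p : ℝ × ℝ => |p.1| := by fun_prop
  exact measurableSet_le h measurable_const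

theorem ms_abs_snd (R : ℝ) : MeasurableSet {p : ℝ × ℝ | |p.2| ≤ R} := by
  have h : Measurable fun p : ℝ × ℝ => |p.2| := by fun_prop
  exact measurableSet_le h measurable_const

/-- strips in the plane, box version -/
theorem volume_strip_aux (b1 b2 c R d : ℝ) (hb : b1 ≠ 0) (hR : 0 ≤ R) (hd : 0 ≤ d) :
    volume {p : ℝ × ℝ | |b1 * p.1 + b2 * p.2 + c| ≤ d ∧ |p.2| ≤ R}
      ≤ ENNReal.ofReal (4 * R * d / |b1|) := by
  have hms : MeasurableSet {p : ℝ × ℝ | |b1 * p.1 + b2 * p.2 + c| ≤ d ∧ |p.2| ≤ R} :=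
    (ms_strip b1 b2 c d).inter (ms_abs_snd R)
  rw [show (volume : Measure (ℝ × ℝ)) = volume.prod volume from rfl, Measure.prod_apply_symm hms]
  have hle : ∀ y : ℝ, volume ((fun x => (x, y)) ⁻¹'
      {p : ℝ × ℝ | |b1 * p.1 + b2 * p.2 + c| ≤ d ∧ |p.2| ≤ R})
      ≤ (Icc (-R) R).indicator (fun _ => ENNReal.ofReal (2 * d / |b1|)) y := by
    intro y
    by_cases hy : |y| ≤ R
    · rw [indicator_of_mem (by exact abs_le.1 hy)]
      have hsub : ((fun x => (x, y)) ⁻¹'
          {p : ℝ × ℝ | |b1 * p.1 + b2 * p.2 + c| ≤ d ∧ |p.2| ≤ R})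
          ⊆ Icc (-(b2 * y + c) / b1 - d / |b1|) (-(b2 * y + c) / b1 + d / |b1|) := by
        intro x hx
        have hx1 : |b1 * x + b2 * y + c| ≤ d := hx.1
        have hpos : 0 < |b1| := abs_pos.2 hb
        have h1 : |x - (-(b2 * y + c) / b1)| ≤ d / |b1| := by
          rw [le_div_iff₀ hpos, ← abs_mul]
          have : (x - -(b2 * y + c) / b1) * b1 = b1 * x + b2 * y + c := by
            field_simp
            ring
          rwa [this]
        rw [abs_le] at h1
        constructor <;> linarith [h1.1, h1.2]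
      refine (measure_mono hsub).trans ?_
      rw [Real.volume_Icc]
      apply le_of_eq
      congr 1
      ring
    · rw [indicator_of_notMem (by intro h; exact hy (abs_le.2 h))]
      have : ((fun x => (x, y)) ⁻¹'
          {p : ℝ × ℝ | |b1 * p.1 + b2 * p.2 + c| ≤ d ∧ |p.2| ≤ R}) = ∅ := by
        ext x
        simp only [mem_preimage, mem_ofPred_eq, mem_empty_iff_false, iff_false, not_and]
        intro _
        exact hy
      rw [this, measure_empty]
  refine (lintegral_mono hle).trans ?_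
  rw [lintegral_indicator measurableSet_Icc, setLIntegral_const, Real.volume_Icc,
    ← ENNReal.ofReal_mul (by positivity)]
  apply le_of_eq
  congr 1
  ring

/-- strips in the plane: `|b₁p₁+b₂p₂+c| ≤ d` inside the box of half side `R` -/
theorem volume_strip (b1 b2 c R d m : ℝ) (hm : 0 < m) (hb : m ≤ max |b1| |b2|) (hR : 0 ≤ R)
    (hd : 0 ≤ d) :
    volume {p : ℝ × ℝ | |b1 * p.1 + b2 * p.2 + c| ≤ d ∧ |p.1| ≤ R ∧ |p.2| ≤ R}
      ≤ ENNReal.ofReal (4 * R * d / m) := by
  rcases le_max_iff.1 hb with h | h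
  · have hb1 : b1 ≠ 0 := by
      intro h0; rw [h0, abs_zero] at h; linarith
    have hsub : {p : ℝ × ℝ | |b1 * p.1 + b2 * p.2 + c| ≤ d ∧ |p.1| ≤ R ∧ |p.2| ≤ R}
        ⊆ {p : ℝ × ℝ | |b1 * p.1 + b2 * p.2 + c| ≤ d ∧ |p.2| ≤ R} := fun p hp => ⟨hp.1, hp.2.2⟩
    refine (measure_mono hsub).trans ((volume_strip_aux b1 b2 c R d hb1 hR hd).trans ?_)
    apply ENNReal.ofReal_le_ofReal
    gcongr
  · have hb2 : b2 ≠ 0 := by
      intro h0; rw [h0, abs_zero] at h; linarith
    have hmp : MeasurePreserving (Prod.swap : ℝ × ℝ → ℝ × ℝ) volume volume :=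
      Measure.measurePreserving_swap
    have hms : MeasurableSet {p : ℝ × ℝ | |b2 * p.1 + b1 * p.2 + c| ≤ d ∧ |p.2| ≤ R} :=
      (ms_strip b2 b1 c d).inter (ms_abs_snd R)
    have hsub : {p : ℝ × ℝ | |b1 * p.1 + b2 * p.2 + c| ≤ d ∧ |p.1| ≤ R ∧ |p.2| ≤ R}
        ⊆ Prod.swap ⁻¹' {p : ℝ × ℝ | |b2 * p.1 + b1 * p.2 + c| ≤ d ∧ |p.2| ≤ R} := by
      intro p hp
      refine ⟨?_, hp.2.1⟩
      have := hp.1
      simpa [add_comm (b1 * p.1)] using this
    refine (measure_mono hsub).trans ?_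
    rw [hmp.measure_preimage hms.nullMeasurableSet]
    refine (volume_strip_aux b2 b1 c R d hb2 hR hd).trans ?_
    apply ENNReal.ofReal_le_ofReal
    gcongr

/-- strips on planes of `ℝ³`: an affine function with tangential gradient at least `k` -/
theorem planeInt_strip (v e : R3) (s : ℝ) {w : R3} (hw : ‖w‖ = 1) {R d k : ℝ} (hR : 0 ≤ R)
    (hd : 0 ≤ d) (hk : 0 < k) (hgrad : k ^ 2 ≤ ‖e‖ ^ 2 - (inner ℝ w e : ℝ) ^ 2) :
    planeInt ({z | |(inner ℝ e z : ℝ) - s| ≤ d ∧ ‖z - v‖ ≤ R}.indicator 1) v w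
      ≤ ENNReal.ofReal (6 * R * d / k) := by
  set β := rot w e with hβ
  have h2 : β 2 = inner ℝ w e := rot_two hw e
  have hnorm : ‖e‖ ^ 2 = β 0 ^ 2 + β 1 ^ 2 + β 2 ^ 2 := by
    rw [← norm_rot w e, ← hβ, ← norm_sq_vec3, vec3_eta]
  have hmax : 2 / 3 * k ≤ max |β 0| |β 1| := by
    by_contra hcon
    push Not at hcon
    have h3 := lt_of_le_of_lt (le_max_left |β 0| |β 1|) hcon
    have h4 := lt_of_le_of_lt (le_max_right |β 0| |β 1|) hcon
    have h5 : β 0 ^ 2 < (2 / 3 * k) ^ 2 := by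
      rw [← sq_abs (β 0)]; exact pow_lt_pow_left₀ h3 (abs_nonneg _) (by norm_num)
    have h6 : β 1 ^ 2 < (2 / 3 * k) ^ 2 := by
      rw [← sq_abs (β 1)]; exact pow_lt_pow_left₀ h4 (abs_nonneg _) (by norm_num)
    rw [h2] at hnorm
    nlinarith [sq_nonneg k]
  have hsub : ∀ p : ℝ × ℝ,
      ({z : R3 | |(inner ℝ e z : ℝ) - s| ≤ d ∧ ‖z - v‖ ≤ R}.indicator (1 : R3 → ℝ≥0∞))
        (v + rot w (vec3 p.1 p.2 0))
      ≤ {p : ℝ × ℝ | |β 0 * p.1 + β 1 * p.2 + ((inner ℝ e v : ℝ) - s)| ≤ d ∧ |p.1| ≤ R ∧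
          |p.2| ≤ R}.indicator 1 p := by
    intro p
    by_cases hz : v + rot w (vec3 p.1 p.2 0) ∈
        {z : R3 | |(inner ℝ e z : ℝ) - s| ≤ d ∧ ‖z - v‖ ≤ R}
    · rw [indicator_of_mem hz, indicator_of_mem]
      · rfl
      · obtain ⟨hz1, hz2⟩ := hz
        have hin : (inner ℝ e (v + rot w (vec3 p.1 p.2 0)) : ℝ)
            = β 0 * p.1 + β 1 * p.2 + inner ℝ e v := by
          have h7 : (inner ℝ e (rot w (vec3 p.1 p.2 0)) : ℝ) = inner ℝ β (vec3 p.1 p.2 0) := by
            have := inner_rot w β (vec3 p.1 p.2 0)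
            rw [hβ, rot_rot] at this
            exact this
          rw [inner_add_right, h7, ← vec3_eta β, inner_vec3]
          simp only [vec3_zero, vec3_one]
          ring
        have hnn : ‖v + rot w (vec3 p.1 p.2 0) - v‖ ^ 2 = p.1 ^ 2 + p.2 ^ 2 := by
          rw [add_sub_cancel_left, norm_rot, norm_sq_vec3]; ring
        have hR2 : p.1 ^ 2 + p.2 ^ 2 ≤ R ^ 2 := by
          rw [← hnn]; exact pow_le_pow_left₀ (norm_nonneg _) hz2 2
        refine ⟨?_, ?_, ?_⟩
        · rw [hin] at hz1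
          rwa [show β 0 * p.1 + β 1 * p.2 + ((inner ℝ e v : ℝ) - s)
            = β 0 * p.1 + β 1 * p.2 + inner ℝ e v - s by ring]
        · exact abs_le_of_sq_le_sq (by nlinarith [sq_nonneg p.2]) hR
        · exact abs_le_of_sq_le_sq (by nlinarith [sq_nonneg p.1]) hR
    · rw [indicator_of_notMem hz]
      exact zero_le
  unfold planeInt
  refine (lintegral_mono hsub).trans ?_
  have hms : MeasurableSet {p : ℝ × ℝ |
      |β 0 * p.1 + β 1 * p.2 + ((inner ℝ e v : ℝ) - s)| ≤ d ∧ |p.1| ≤ R ∧ |p.2| ≤ R} :=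
    (ms_strip (β 0) (β 1) ((inner ℝ e v : ℝ) - s) d).inter ((ms_abs_fst R).inter (ms_abs_snd R))
  rw [lintegral_indicator_one hms]
  refine (volume_strip (β 0) (β 1) ((inner ℝ e v : ℝ) - s) R d (2 / 3 * k) (by positivity) hmax
    hR hd).trans ?_
  apply ENNReal.ofReal_le_ofReal
  apply le_of_eq
  field_simp
  ring

end Crest.Agent.R68.S
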