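import Mathlib
import Crest.Agent.R68.SPl2

/-!
R68 / SPl3: small sets in planes, weighted by poles `|z-a|^{-3/2}` and Gaussians (helper653).
-/

set_option autoImplicit false
open MeasureTheory Set Metric
open scoped ENNReal Real
open Crest.AnalysisR.VecCalc3 Crest.AnalysisR.PDE.Boltzmann

namespace Crest.Agent.R68.S

/-- the pole `|z-a|^{-3/2}` (`∞` at `a`) -/
noncomputable def pole (a z : R3) : ℝ≥0∞ := ENNReal.ofReal ‖z - a‖ ^ (-(3 / 2) : ℝ)

theorem measurable_pole (a : R3) : Measurable (pole a) := by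
  unfold pole; fun_prop

theorem pole_eq (a z : R3) : pole a z = ENNReal.ofReal (‖z - a‖ ^ 2) ^ (-(3 / 4) : ℝ) := by
  unfold pole
  rw [ENNReal.ofReal_pow (norm_nonneg _), ← ENNReal.rpow_natCast, ← ENNReal.rpow_mul]
  norm_num

theorem planeInt_add_left {f g : R3 → ℝ≥0∞} (hf : Measurable f) (v w : R3) :
    planeInt (fun z => f z + g z) v w = planeInt f v w + planeInt g v w := by
  unfold planeInt
  have hB : Measurable fun p : ℝ × ℝ => rot w (vec3 p.1 p.2 0) :=
    (rot w).continuous.measurable.comp (by fun_prop)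
  exact lintegral_add_left (hf.comp (measurable_const.add hB)) _

theorem planeInt_const_mul {f : R3 → ℝ≥0∞} {c : ℝ≥0∞} (hc : c ≠ ∞) (v w : R3) :
    planeInt (fun z => c * f z) v w = c * planeInt f v w := by
  unfold planeInt
  exact lintegral_const_mul' _ _ hc

/-- `∫_{0<s≤k²} s^{-3/4} ds = 4 √k` -/
theorem lintegral_rpow_near {k : ℝ} (hk : 0 < k) :
    ∫⁻ s in Ioi (0 : ℝ), (Iic (k ^ 2)).indicator (fun s => ENNReal.ofReal s ^ (-(3 / 4) : ℝ)) s
      = ENNReal.ofReal (4 * √k) := by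
  rw [lintegral_indicator measurableSet_Iic, Measure.restrict_restrict measurableSet_Iic,
    inter_comm, Ioi_inter_Iic]
  have h1 : ∀ s ∈ Ioc (0 : ℝ) (k ^ 2), ENNReal.ofReal s ^ (-(3 / 4) : ℝ)
      = ENNReal.ofReal (s ^ (-(3 / 4) : ℝ)) := by
    intro s hs
    rw [ENNReal.ofReal_rpow_of_pos hs.1]
  rw [setLIntegral_congr_fun measurableSet_Ioc h1]
  have hk2 : 0 ≤ k ^ 2 := by positivity
  have hint : IntervalIntegrable (fun s : ℝ => s ^ (-(3 / 4) : ℝ)) volume 0 (k ^ 2) :=
    intervalIntegral.intervalIntegrable_rpow' (by norm_num)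
  rw [← ofReal_integral_eq_lintegral_ofReal]
  · rw [← intervalIntegral.integral_of_le hk2, integral_rpow (Or.inl (by norm_num))]
    congr 1
    rw [Real.zero_rpow (by norm_num), Real.sqrt_eq_rpow, ← Real.rpow_natCast, ← Real.rpow_mul hk.le]
    norm_num
    ring
  · exact (intervalIntegrable_iff_integrableOn_Ioc_of_le hk2).1 hint
  · filter_upwards [ae_restrict_mem measurableSet_Ioc] with s hs
    exact Real.rpow_nonneg hs.1.le _

/-- near part of a pole in a plane -/
theorem planeInt_pole_near (v a : R3) {w : R3} (hw : ‖w‖ = 1) {k : ℝ} (hk : 0 < k) :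
    planeInt (fun z => {z | ‖z - a‖ ≤ k}.indicator (pole a) z) v w
      ≤ ENNReal.ofReal (4 * π * √k) := by
  have h1 : ∀ z, {z | ‖z - a‖ ≤ k}.indicator (pole a) z
      ≤ (Iic (k ^ 2)).indicator (fun s => ENNReal.ofReal s ^ (-(3 / 4) : ℝ)) (‖z - a‖ ^ 2) := by
    intro z
    by_cases hz : ‖z - a‖ ≤ k
    · rw [indicator_of_mem (by exact hz), indicator_of_mem, pole_eq]
      exact pow_le_pow_left₀ (norm_nonneg _) hz 2
    · rw [indicator_of_notMem (by exact hz)]
      exact zero_le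
  have hm : Measurable ((Iic (k ^ 2)).indicator (fun s => ENNReal.ofReal s ^ (-(3 / 4) : ℝ))) :=
    Measurable.indicator (by fun_prop) measurableSet_Iic
  refine (planeInt_mono h1 v w).trans ((planeInt_radial_le hm v a hw).trans ?_)
  rw [lintegral_rpow_near hk, ← ENNReal.ofReal_mul Real.pi_pos.le]
  apply le_of_eq
  congr 1; ring

theorem pole_far {a z : R3} {k : ℝ} (hk : 0 < k) (hz : k < ‖z - a‖) :
    pole a z ≤ ENNReal.ofReal (k ^ (-(3 / 2) : ℝ)) := by
  unfold pole
  rw [ENNReal.ofReal_rpow_of_pos (hk.trans hz)]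
  apply ENNReal.ofReal_le_ofReal
  exact Real.rpow_le_rpow_of_nonpos hk hz.le (by norm_num)

/-- splitting of a pole -/
theorem pole_split (a z : R3) {k : ℝ} (hk : 0 < k) :
    pole a z ≤ {z | ‖z - a‖ ≤ k}.indicator (pole a) z + ENNReal.ofReal (k ^ (-(3 / 2) : ℝ)) := by
  by_cases hz : ‖z - a‖ ≤ k
  · rw [indicator_of_mem (by exact hz)]; exact le_self_add
  · rw [indicator_of_notMem (by exact hz), zero_add]
    exact pole_far hk (not_le.1 hz)

theorem measurableSet_near (a : R3) (k : ℝ) : MeasurableSet {z : R3 | ‖z - a‖ ≤ k} := by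
  have h : Measurable fun z : R3 => ‖z - a‖ := by fun_prop
  exact measurableSet_le h measurable_const

/-- Gaussian tail in a plane -/
theorem planeInt_gauss_tail (v : R3) {w : R3} (hw : ‖w‖ = 1) {α : ℝ} (hα : 0 < α) (R : ℝ) (hR : 0 ≤ R) :
    planeInt (fun z => {z | R < ‖z - v‖}.indicator
        (fun z => ENNReal.ofReal (Real.exp (-α * ‖z - v‖ ^ 2))) z) v w
      ≤ ENNReal.ofReal (π / α * Real.exp (-α * R ^ 2)) := by
  have h1 : ∀ z, {z | R < ‖z - v‖}.indicator
        (fun z => ENNReal.ofReal (Real.exp (-α * ‖z - v‖ ^ 2))) z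
      ≤ (Ioi (R ^ 2)).indicator (fun s => ENNReal.ofReal (Real.exp (-α * s))) (‖z - v‖ ^ 2) := by
    intro z
    by_cases hz : R < ‖z - v‖
    · rw [indicator_of_mem (by exact hz), indicator_of_mem]
      exact pow_lt_pow_left₀ hz hR (by norm_num)
    · rw [indicator_of_notMem (by exact hz)]
      exact zero_le
  have hm : Measurable ((Ioi (R ^ 2)).indicator (fun s => ENNReal.ofReal (Real.exp (-α * s)))) :=
    Measurable.indicator (by fun_prop) measurableSet_Ioi
  refine (planeInt_mono h1 v w).trans ((planeInt_radial_le hm v v hw).trans ?_)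
  rw [lintegral_indicator measurableSet_Ioi, Measure.restrict_restrict measurableSet_Ioi]
  have hsub : Ioi (R ^ 2) ∩ Ioi (0 : ℝ) = Ioi (R ^ 2) :=
    inter_eq_left.2 (Ioi_subset_Ioi (sq_nonneg R))
  rw [hsub, ← ofReal_integral_eq_lintegral_ofReal]
  · have h2 := integral_exp_mul_Ioi (a := -α) (by linarith) (R ^ 2)
    rw [h2, ← ENNReal.ofReal_mul Real.pi_pos.le]
    apply le_of_eq
    congr 1
    field_simp
  · exact integrableOn_exp_mul_Ioi (by linarith) _
  · exact Filter.Eventually.of_forall fun s => (Real.exp_pos _).le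

/-- whole Gaussian in a plane -/
theorem planeInt_gauss (v : R3) {w : R3} (hw : ‖w‖ = 1) {α : ℝ} (hα : 0 < α) :
    planeInt (fun z => ENNReal.ofReal (Real.exp (-α * ‖z - v‖ ^ 2))) v w
      ≤ ENNReal.ofReal (π / α) := by
  have hm : Measurable (fun s : ℝ => ENNReal.ofReal (Real.exp (-α * s))) := by fun_prop
  refine (planeInt_radial_le hm v v hw).trans ?_
  rw [← ofReal_integral_eq_lintegral_ofReal]
  · have h2 := integral_exp_mul_Ioi (a := -α) (by linarith) 0
    rw [h2, ← ENNReal.ofReal_mul Real.pi_pos.le]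
    apply le_of_eq
    congr 1
    simp
    field_simp
  · exact integrableOn_exp_mul_Ioi (by linarith) _
  · exact Filter.Eventually.of_forall fun s => (Real.exp_pos _).le

/-- **Small sets**: the plane integral of `(1+|z-a|^{-3/2}+|z-b|^{-3/2}) e^{-α|z-v|²}` over a set
`A` is small if the area of `A` in the plane is small. -/
theorem planeInt_small (v a b : R3) {w : R3} (hw : ‖w‖ = 1) {A : Set R3} (hA : MeasurableSet A)
    {α k R : ℝ} (hα : 0 < α) (hk : 0 < k) (hR : 0 ≤ R) :
    planeInt (fun z => A.indicator (fun z => (1 + pole a z + pole b z) *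
        ENNReal.ofReal (Real.exp (-α * ‖z - v‖ ^ 2))) z) v w
      ≤ ENNReal.ofReal (8 * π * √k) + (1 + 2 * ENNReal.ofReal (k ^ (-(3 / 2) : ℝ))) *
        (planeInt ((A ∩ {z | ‖z - v‖ ≤ R}).indicator 1) v w
          + ENNReal.ofReal (π / α * Real.exp (-α * R ^ 2))) := by
  set N : R3 → ℝ≥0∞ := fun z => {z | ‖z - a‖ ≤ k}.indicator (pole a) z +
    {z | ‖z - b‖ ≤ k}.indicator (pole b) z with hN
  set c : ℝ≥0∞ := 1 + 2 * ENNReal.ofReal (k ^ (-(3 / 2) : ℝ)) with hc
  have hcfin : c ≠ ∞ := by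
    rw [hc]
    exact ENNReal.add_ne_top.2 ⟨ENNReal.one_ne_top,
      ENNReal.mul_ne_top (by norm_num) ENNReal.ofReal_ne_top⟩
  set B : R3 → ℝ≥0∞ := (A ∩ {z | ‖z - v‖ ≤ R}).indicator 1 with hB
  set T : R3 → ℝ≥0∞ := fun z => {z | R < ‖z - v‖}.indicator
        (fun z => ENNReal.ofReal (Real.exp (-α * ‖z - v‖ ^ 2))) z with hT
  have hNm1 : Measurable fun z => {z | ‖z - a‖ ≤ k}.indicator (pole a) z :=
    (measurable_pole a).indicator (measurableSet_near a k)
  have hNm : Measurable N :=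
    hNm1.add ((measurable_pole b).indicator (measurableSet_near b k))
  have hBm : Measurable B := measurable_one.indicator (hA.inter (measurableSet_near v R))
  have hpt : ∀ z, A.indicator (fun z => (1 + pole a z + pole b z) *
        ENNReal.ofReal (Real.exp (-α * ‖z - v‖ ^ 2))) z ≤ N z + c * (B z + T z) := by
    intro z
    by_cases hz : z ∈ A
    · rw [indicator_of_mem hz]
      have hG1 : ENNReal.ofReal (Real.exp (-α * ‖z - v‖ ^ 2)) ≤ 1 := by
        rw [← ENNReal.ofReal_one]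
        apply ENNReal.ofReal_le_ofReal
        apply Real.exp_le_one_iff.2
        nlinarith [mul_nonneg hα.le (sq_nonneg ‖z - v‖)]
      have hG2 : ENNReal.ofReal (Real.exp (-α * ‖z - v‖ ^ 2)) ≤ B z + T z := by
        by_cases hzR : ‖z - v‖ ≤ R
        · have hmem : z ∈ A ∩ {z | ‖z - v‖ ≤ R} := ⟨hz, hzR⟩
          have : B z = 1 := by rw [hB, indicator_of_mem hmem]; rfl
          rw [this]
          exact hG1.trans le_self_add
        · have : T z = ENNReal.ofReal (Real.exp (-α * ‖z - v‖ ^ 2)) := by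
            rw [hT]; beta_reduce; rw [indicator_of_mem (by exact not_le.1 hzR)]
          rw [this]
          exact le_add_self
      have h1 : 1 + pole a z + pole b z ≤ N z + c := by
        calc 1 + pole a z + pole b z
            ≤ 1 + ({z | ‖z - a‖ ≤ k}.indicator (pole a) z + ENNReal.ofReal (k ^ (-(3 / 2) : ℝ)))
              + ({z | ‖z - b‖ ≤ k}.indicator (pole b) z + ENNReal.ofReal (k ^ (-(3 / 2) : ℝ))) :=
              add_le_add (add_le_add le_rfl (pole_split a z hk)) (pole_split b z hk)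
          _ = N z + c := by rw [hN, hc]; ring
      calc (1 + pole a z + pole b z) * ENNReal.ofReal (Real.exp (-α * ‖z - v‖ ^ 2))
          ≤ (N z + c) * ENNReal.ofReal (Real.exp (-α * ‖z - v‖ ^ 2)) := mul_le_mul' h1 le_rfl
        _ = N z * ENNReal.ofReal (Real.exp (-α * ‖z - v‖ ^ 2))
            + c * ENNReal.ofReal (Real.exp (-α * ‖z - v‖ ^ 2)) := by ring
        _ ≤ N z * 1 + c * (B z + T z) :=
            add_le_add (mul_le_mul' le_rfl hG1) (mul_le_mul' le_rfl hG2)
        _ = N z + c * (B z + T z) := by rw [mul_one]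
    · rw [indicator_of_notMem hz]
      exact zero_le
  refine (planeInt_mono hpt v w).trans ?_
  rw [planeInt_add_left hNm, planeInt_const_mul hcfin, planeInt_add_left hBm]
  refine add_le_add ?_ (mul_le_mul' le_rfl (add_le_add le_rfl (planeInt_gauss_tail v hw hα R hR)))
  rw [hN, planeInt_add_left hNm1]
  refine (add_le_add (planeInt_pole_near v a hw hk) (planeInt_pole_near v b hw hk)).trans ?_
  rw [← ENNReal.ofReal_add (by positivity) (by positivity)]
  apply le_of_eq
  congr 1; ring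

/-- the whole plane -/
theorem planeInt_whole (v a b : R3) {w : R3} (hw : ‖w‖ = 1) {α : ℝ} (hα : 0 < α) :
    planeInt (fun z => (1 + pole a z + pole b z) *
        ENNReal.ofReal (Real.exp (-α * ‖z - v‖ ^ 2))) v w
      ≤ ENNReal.ofReal (8 * π + 3 * (π / α)) := by
  set N : R3 → ℝ≥0∞ := fun z => {z | ‖z - a‖ ≤ 1}.indicator (pole a) z +
    {z | ‖z - b‖ ≤ 1}.indicator (pole b) z with hN
  have hNm1 : Measurable fun z => {z | ‖z - a‖ ≤ 1}.indicator (pole a) z :=
    (measurable_pole a).indicator (measurableSet_near a 1)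
  have hNm : Measurable N :=
    hNm1.add ((measurable_pole b).indicator (measurableSet_near b 1))
  have hpt : ∀ z, (1 + pole a z + pole b z) * ENNReal.ofReal (Real.exp (-α * ‖z - v‖ ^ 2))
      ≤ N z + 3 * ENNReal.ofReal (Real.exp (-α * ‖z - v‖ ^ 2)) := by
    intro z
    have hG1 : ENNReal.ofReal (Real.exp (-α * ‖z - v‖ ^ 2)) ≤ 1 := by
      rw [← ENNReal.ofReal_one]
      apply ENNReal.ofReal_le_ofReal
      apply Real.exp_le_one_iff.2
      nlinarith [mul_nonneg hα.le (sq_nonneg ‖z - v‖)]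
    have h1 : 1 + pole a z + pole b z ≤ N z + 3 := by
      have ha := pole_split a z one_pos
      have hb := pole_split b z one_pos
      rw [Real.one_rpow, ENNReal.ofReal_one] at ha hb
      calc 1 + pole a z + pole b z
          ≤ 1 + ({z | ‖z - a‖ ≤ 1}.indicator (pole a) z + 1)
              + ({z | ‖z - b‖ ≤ 1}.indicator (pole b) z + 1) :=
              add_le_add (add_le_add le_rfl ha) hb
        _ = N z + 3 := by rw [hN]; ring
    calc (1 + pole a z + pole b z) * ENNReal.ofReal (Real.exp (-α * ‖z - v‖ ^ 2))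
        ≤ (N z + 3) * ENNReal.ofReal (Real.exp (-α * ‖z - v‖ ^ 2)) := mul_le_mul' h1 le_rfl
      _ = N z * ENNReal.ofReal (Real.exp (-α * ‖z - v‖ ^ 2))
          + 3 * ENNReal.ofReal (Real.exp (-α * ‖z - v‖ ^ 2)) := by ring
      _ ≤ N z * 1 + 3 * ENNReal.ofReal (Real.exp (-α * ‖z - v‖ ^ 2)) :=
          add_le_add (mul_le_mul' le_rfl hG1) le_rfl
      _ = _ := by rw [mul_one]
  refine (planeInt_mono hpt v w).trans ?_
  rw [planeInt_add_left hNm, planeInt_const_mul (by norm_num)]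
  have hNle : planeInt N v w ≤ ENNReal.ofReal (8 * π) := by
    rw [hN, planeInt_add_left hNm1]
    refine (add_le_add (planeInt_pole_near v a hw one_pos)
      (planeInt_pole_near v b hw one_pos)).trans ?_
    rw [← ENNReal.ofReal_add (by positivity) (by positivity)]
    apply le_of_eq
    congr 1; rw [Real.sqrt_one]; ring
  refine (add_le_add hNle (mul_le_mul' le_rfl (planeInt_gauss v hw hα))).trans ?_
  · rw [show (3 : ℝ≥0∞) = ENNReal.ofReal 3 by norm_num, ← ENNReal.ofReal_mul (by norm_num),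
      ← ENNReal.ofReal_add (by positivity) (by positivity)]

/-- Gaussian weights on collision planes: `z - v ⟂ v - u` -/
theorem gauss_plane {g U : ℝ} (hg : 0 ≤ g) {v u z : R3} (hu : ‖u‖ ≤ U)
    (horth : (inner ℝ (z - v) (v - u) : ℝ) = 0) :
    Real.exp (-g * ‖z‖ ^ 2)
      ≤ Real.exp (2 * g * U ^ 2 - g * ‖v‖ ^ 2) * Real.exp (-(g / 2) * ‖z - v‖ ^ 2) := by
  rw [← Real.exp_add]
  apply Real.exp_le_exp.2
  have h1 : ‖z‖ ^ 2 = ‖v‖ ^ 2 + 2 * inner ℝ (z - v) u + ‖z - v‖ ^ 2 := by
    have h2 : z = v + (z - v) := by abel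
    conv_lhs => rw [h2]
    rw [norm_add_sq_real]
    have h3 : (inner ℝ v (z - v) : ℝ) = inner ℝ (z - v) u := by
      rw [real_inner_comm]
      rw [inner_sub_right] at horth
      linarith
    rw [h3]
  have h4 : |(inner ℝ (z - v) u : ℝ)| ≤ ‖z - v‖ * U :=
    (abs_real_inner_le_norm _ _).trans (by gcongr)
  have h5 := (abs_le.1 h4).1
  have h6 : 0 ≤ (‖z - v‖ - 2 * U) ^ 2 := sq_nonneg _
  have h7 : ‖v‖ ^ 2 + ‖z - v‖ ^ 2 / 2 - 2 * U ^ 2 ≤ ‖z‖ ^ 2 := by
    rw [h1]; nlinarith
  nlinarith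

/-- points of the plane are orthogonal to the normal -/
theorem plane_orth {w : R3} (hw : ‖w‖ = 1) (v : R3) (p : ℝ × ℝ) (c : ℝ) :
    (inner ℝ (v + rot w (vec3 p.1 p.2 0) - v) (c • w) : ℝ) = 0 := by
  rw [add_sub_cancel_left, real_inner_smul_right]
  have h := inner_rot w (vec3 p.1 p.2 0) ez
  rw [rot_ez hw] at h
  rw [h, real_inner_comm, inner_ez, vec3_two, mul_zero]

/-- plane integrals against `e^{-g|z|²}` -/
theorem planeInt_gauss_weight {g U : ℝ} (hg : 0 ≤ g) {v u w : R3} (hw : ‖w‖ = 1) (hu : ‖u‖ ≤ U)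
    {c : ℝ} (hvu : v - u = c • w) (F : R3 → ℝ≥0∞) :
    planeInt (fun z => F z * ENNReal.ofReal (Real.exp (-g * ‖z‖ ^ 2))) v w
      ≤ ENNReal.ofReal (Real.exp (2 * g * U ^ 2 - g * ‖v‖ ^ 2)) *
        planeInt (fun z => F z * ENNReal.ofReal (Real.exp (-(g / 2) * ‖z - v‖ ^ 2))) v w := by
  rw [← planeInt_const_mul ENNReal.ofReal_ne_top]
  unfold planeInt
  refine lintegral_mono fun p => ?_
  have h := gauss_plane hg (v := v) (u := u) (z := v + rot w (vec3 p.1 p.2 0)) hu
    (by rw [hvu]; exact plane_orth hw v p c)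
  calc F (v + rot w (vec3 p.1 p.2 0)) *
        ENNReal.ofReal (Real.exp (-g * ‖v + rot w (vec3 p.1 p.2 0)‖ ^ 2))
      ≤ F (v + rot w (vec3 p.1 p.2 0)) *
        (ENNReal.ofReal (Real.exp (2 * g * U ^ 2 - g * ‖v‖ ^ 2)) *
          ENNReal.ofReal (Real.exp (-(g / 2) * ‖v + rot w (vec3 p.1 p.2 0) - v‖ ^ 2))) := by
        rw [← ENNReal.ofReal_mul (Real.exp_pos _).le]
        exact mul_le_mul' le_rfl (ENNReal.ofReal_le_ofReal h)
    _ = _ := by ring

end Crest.Agent.R68.S
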