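import Mathlib
import Crest.Agent.R68.SDefs
import Crest.Agent.R68.SPl3

/-!
R68 / SPlane: Gaussian plane integrals with poles, smallness on small sets, generic distance
(helper653; statements F0-F3 of Part S).
-/

set_option autoImplicit false
open MeasureTheory Set Metric
open scoped ENNReal Real
open Crest.AnalysisR.VecCalc3 Crest.AnalysisR.PDE.Boltzmann

namespace Crest.Agent.R68.S

/-- planar pole (sup norm) -/
noncomputable def po (q p : P2) : ℝ≥0∞ := (ENNReal.ofReal ‖p - q‖) ^ (-(3 / 2) : ℝ)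

theorem measurable_po (q : P2) : Measurable (po q) := by
  unfold po; fun_prop

theorem Sg2_eq {M : ℕ} (q : Fin M → P2) (p : P2) : Sg2 q p = 1 + ∑ i, po (q i) p := rfl

theorem P2_norm_sq (p : P2) : p.1 ^ 2 + p.2 ^ 2 ≤ 2 * ‖p‖ ^ 2 := by
  have h1 : |p.1| ≤ ‖p‖ := by simpa using norm_fst_le p
  have h2 : |p.2| ≤ ‖p‖ := by simpa using norm_snd_le p
  have h3 : p.1 ^ 2 ≤ ‖p‖ ^ 2 := by
    rw [← sq_abs]; exact pow_le_pow_left₀ (abs_nonneg _) h1 2
  have h4 : p.2 ^ 2 ≤ ‖p‖ ^ 2 := by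
    rw [← sq_abs]; exact pow_le_pow_left₀ (abs_nonneg _) h2 2
  linarith

theorem P2_norm_sq_le (p : P2) : ‖p‖ ^ 2 ≤ p.1 ^ 2 + p.2 ^ 2 := by
  rw [Prod.norm_def]
  rcases max_choice ‖p.1‖ ‖p.2‖ with h | h
  · rw [h, Real.norm_eq_abs, sq_abs]; nlinarith [sq_nonneg p.2]
  · rw [h, Real.norm_eq_abs, sq_abs]; nlinarith [sq_nonneg p.1]

theorem po_le (q p : P2) :
    po q p ≤ 2 * (ENNReal.ofReal ((p.1 - q.1) ^ 2 + (p.2 - q.2) ^ 2)) ^ (-(3 / 4) : ℝ) := by
  have h1 : po q p = (ENNReal.ofReal (‖p - q‖ ^ 2)) ^ (-(3 / 4) : ℝ) := by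
    unfold po
    rw [ENNReal.ofReal_pow (norm_nonneg _), ← ENNReal.rpow_natCast, ← ENNReal.rpow_mul]
    norm_num
  set e : ℝ := (p.1 - q.1) ^ 2 + (p.2 - q.2) ^ 2 with he
  have h2 : e / 2 ≤ ‖p - q‖ ^ 2 := by
    have := P2_norm_sq (p - q)
    have h : (p - q).1 ^ 2 + (p - q).2 ^ 2 = e := rfl
    rw [h] at this
    linarith
  rw [h1]
  have h3 : (ENNReal.ofReal (‖p - q‖ ^ 2)) ^ (-(3 / 4) : ℝ)
      ≤ (ENNReal.ofReal (e / 2)) ^ (-(3 / 4) : ℝ) := by
    rw [ENNReal.rpow_neg, ENNReal.rpow_neg]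
    exact ENNReal.inv_le_inv.2 (ENNReal.rpow_le_rpow (ENNReal.ofReal_le_ofReal h2) (by norm_num))
  refine h3.trans ?_
  rw [ENNReal.ofReal_div_of_pos (by norm_num), ENNReal.rpow_neg, ENNReal.rpow_neg,
    ENNReal.div_rpow_of_nonneg _ _ (by norm_num), ENNReal.inv_div]
  · rw [div_eq_mul_inv]
    refine mul_le_mul' ?_ le_rfl
    have : (ENNReal.ofReal 2) ^ (3 / 4 : ℝ) ≤ (ENNReal.ofReal 2) ^ (1 : ℝ) :=
      ENNReal.rpow_le_rpow_of_exponent_le (by norm_num) (by norm_num)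
    simpa using this
  · left
    exact ENNReal.rpow_ne_top_of_nonneg (by norm_num) ENNReal.ofReal_ne_top
  · left
    simp

/-- near part of the planar pole -/
theorem lintegral_po_near (q : P2) {k : ℝ} (hk : 0 < k) :
    ∫⁻ p, {p | ‖p - q‖ ≤ k}.indicator (po q) p ≤ ENNReal.ofReal (8 * π * √(2 * k)) := by
  set h : ℝ → ℝ≥0∞ := fun s => 2 *
    (Iic ((2 * k) ^ 2)).indicator (fun s => ENNReal.ofReal s ^ (-(3 / 4) : ℝ)) s with hh
  have hm : Measurable h := by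
    rw [hh]
    apply Measurable.const_mul
    exact Measurable.indicator (by fun_prop) measurableSet_Iic
  have h1 : ∀ p : P2, {p | ‖p - q‖ ≤ k}.indicator (po q) p
      ≤ h ((p.1 - q.1) ^ 2 + (p.2 - q.2) ^ 2) := by
    intro p
    by_cases hp : ‖p - q‖ ≤ k
    · have h2 := P2_norm_sq (p - q)
      have h3 : (p - q).1 ^ 2 + (p - q).2 ^ 2 = (p.1 - q.1) ^ 2 + (p.2 - q.2) ^ 2 := rfl
      have h4 : (p.1 - q.1) ^ 2 + (p.2 - q.2) ^ 2 ∈ Iic ((2 * k) ^ 2) := by
        rw [← h3, mem_Iic]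
        have h5 : ‖p - q‖ ^ 2 ≤ k ^ 2 := pow_le_pow_left₀ (norm_nonneg _) hp 2
        nlinarith [sq_nonneg k]
      rw [indicator_of_mem (by exact hp), hh]
      beta_reduce
      rw [indicator_of_mem h4]
      exact po_le q p
    · rw [indicator_of_notMem (by exact hp)]
      exact zero_le
  refine (lintegral_mono h1).trans ?_
  have hmp : MeasurePreserving (fun p : P2 => p - q) volume volume :=
    measurePreserving_sub_right volume _
  have hm2 : Measurable fun p : P2 => h (p.1 ^ 2 + p.2 ^ 2) := hm.comp (by fun_prop)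
  have h6 := hmp.lintegral_comp hm2
  have h7 : ∫⁻ p : P2, h ((p.1 - q.1) ^ 2 + (p.2 - q.2) ^ 2) = ∫⁻ p : P2, h (p.1 ^ 2 + p.2 ^ 2) :=
    h6
  rw [h7, lintegral_radial2 hm, hh]
  rw [lintegral_const_mul' _ _ (by norm_num), lintegral_rpow_near (by positivity),
    show (2 : ℝ≥0∞) = ENNReal.ofReal 2 by norm_num, ← ENNReal.ofReal_mul (by norm_num),
    ← ENNReal.ofReal_mul Real.pi_pos.le]
  apply le_of_eq
  congr 1; ring

theorem po_split (q p : P2) {k : ℝ} (hk : 0 < k) :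
    po q p ≤ {p | ‖p - q‖ ≤ k}.indicator (po q) p + ENNReal.ofReal (k ^ (-(3 / 2) : ℝ)) := by
  by_cases hz : ‖p - q‖ ≤ k
  · rw [indicator_of_mem (by exact hz)]; exact le_self_add
  · rw [indicator_of_notMem (by exact hz), zero_add]
    unfold po
    rw [ENNReal.ofReal_rpow_of_pos (hk.trans (not_le.1 hz))]
    apply ENNReal.ofReal_le_ofReal
    exact Real.rpow_le_rpow_of_nonpos hk (not_le.1 hz).le (by norm_num)

theorem measurableSet_near2 (a : P2) (k : ℝ) : MeasurableSet {p : P2 | ‖p - a‖ ≤ k} := by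
  have h : Measurable fun p : P2 => ‖p - a‖ := by fun_prop
  exact measurableSet_le h measurable_const

/-- the near part of all poles -/
noncomputable def Nr {M : ℕ} (q : Fin M → P2) (k : ℝ) (p : P2) : ℝ≥0∞ :=
  ∑ i, {p | ‖p - q i‖ ≤ k}.indicator (po (q i)) p

theorem measurable_Nr {M : ℕ} (q : Fin M → P2) (k : ℝ) : Measurable (Nr q k) := by
  unfold Nr
  exact Finset.measurable_fun_sum _ fun i _ =>
    (measurable_po (q i)).indicator (measurableSet_near2 (q i) k)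

theorem lintegral_Nr {M : ℕ} (q : Fin M → P2) {k : ℝ} (hk : 0 < k) :
    ∫⁻ p, Nr q k p ≤ ENNReal.ofReal (M * (8 * π * √(2 * k))) := by
  unfold Nr
  rw [lintegral_finsetSum' _ fun i _ =>
    ((measurable_po (q i)).indicator (measurableSet_near2 (q i) k)).aemeasurable]
  refine (Finset.sum_le_sum fun i _ => lintegral_po_near (q i) hk).trans ?_
  rw [Finset.sum_const, Finset.card_univ, Fintype.card_fin, nsmul_eq_mul,
    ENNReal.ofReal_mul (p := (M : ℝ)) (by positivity), ENNReal.ofReal_natCast]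

/-- the constant of the far part -/
noncomputable def farC (M : ℕ) (k : ℝ) : ℝ := 1 + M * k ^ (-(3 / 2) : ℝ)

theorem farC_pos (M : ℕ) {k : ℝ} (hk : 0 < k) : 0 < farC M k := by
  unfold farC; positivity

theorem Sg2_split {M : ℕ} (q : Fin M → P2) (p : P2) {k : ℝ} (hk : 0 < k) :
    Sg2 q p ≤ Nr q k p + ENNReal.ofReal (farC M k) := by
  rw [Sg2_eq]
  have h1 : ∑ i, po (q i) p ≤ ∑ i, ({p | ‖p - q i‖ ≤ k}.indicator (po (q i)) p
      + ENNReal.ofReal (k ^ (-(3 / 2) : ℝ))) :=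
    Finset.sum_le_sum fun i _ => po_split (q i) p hk
  rw [Finset.sum_add_distrib, Finset.sum_const, Finset.card_univ, Fintype.card_fin,
    nsmul_eq_mul] at h1
  have h2 : ENNReal.ofReal (farC M k) = 1 + M * ENNReal.ofReal (k ^ (-(3 / 2) : ℝ)) := by
    unfold farC
    rw [ENNReal.ofReal_add (by norm_num) (by positivity), ENNReal.ofReal_one,
      ENNReal.ofReal_mul (by positivity), ENNReal.ofReal_natCast]
  rw [h2]
  calc 1 + ∑ i, po (q i) p
      ≤ 1 + (∑ i, {p | ‖p - q i‖ ≤ k}.indicator (po (q i)) p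
        + M * ENNReal.ofReal (k ^ (-(3 / 2) : ℝ))) := add_le_add le_rfl h1
    _ = Nr q k p + (1 + M * ENNReal.ofReal (k ^ (-(3 / 2) : ℝ))) := by unfold Nr; ring

/-- explicit small set bound -/
theorem setLIntegral_Sg2_le {M : ℕ} (q : Fin M → P2) (S : Set P2) {k : ℝ} (hk : 0 < k) :
    ∫⁻ p in S, Sg2 q p ≤ ENNReal.ofReal (M * (8 * π * √(2 * k)))
      + ENNReal.ofReal (farC M k) * volume S := by
  calc ∫⁻ p in S, Sg2 q p ≤ ∫⁻ p in S, (Nr q k p + ENNReal.ofReal (farC M k)) :=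
        lintegral_mono fun p => Sg2_split q p hk
    _ = (∫⁻ p in S, Nr q k p) + ENNReal.ofReal (farC M k) * volume S := by
        rw [lintegral_add_left (measurable_Nr q k), lintegral_const, Measure.restrict_apply_univ]
    _ ≤ _ := by
        refine add_le_add ((setLIntegral_le_lintegral _ _).trans (lintegral_Nr q hk)) le_rfl

/-- **(F0) small sets** -/
theorem small2 (M : ℕ) {eps : ℝ} (heps : 0 < eps) :
    ∃ δ : ℝ, 0 < δ ∧ ∀ (q : Fin M → P2) (S : Set P2), volume S ≤ ENNReal.ofReal δ →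
      ∫⁻ p in S, Sg2 q p ≤ ENNReal.ofReal eps := by
  set k : ℝ := (eps / (16 * π * (M + 1))) ^ 2 / 2 with hkdef
  have hk : 0 < k := by positivity
  have hsq : √(2 * k) = eps / (16 * π * (M + 1)) := by
    rw [hkdef, mul_div_cancel₀ _ (by norm_num : (2 : ℝ) ≠ 0), Real.sqrt_sq (by positivity)]
  have hC := farC_pos M hk
  refine ⟨eps / (2 * farC M k), by positivity, fun q S hS => ?_⟩
  refine (setLIntegral_Sg2_le q S hk).trans ?_
  have h1 : ENNReal.ofReal (farC M k) * volume S ≤ ENNReal.ofReal (eps / 2) := by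
    refine (mul_le_mul' le_rfl hS).trans ?_
    rw [← ENNReal.ofReal_mul hC.le]
    apply ENNReal.ofReal_le_ofReal
    apply le_of_eq
    field_simp
  refine (add_le_add le_rfl h1).trans ?_
  rw [← ENNReal.ofReal_add (by positivity) (by positivity)]
  apply ENNReal.ofReal_le_ofReal
  rw [hsq]
  have h2 : (M : ℝ) * (8 * π * (eps / (16 * π * (M + 1)))) ≤ eps / 2 := by
    have hpi := Real.pi_pos
    rw [show (M : ℝ) * (8 * π * (eps / (16 * π * (M + 1)))) = (M / (M + 1)) * (eps / 2) by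
      field_simp; ring]
    have h3 : (M : ℝ) / (M + 1) ≤ 1 := by
      rw [div_le_one (by positivity)]; linarith
    nlinarith
  linarith

theorem ker2_le (κ : ℝ) (hκ : 0 ≤ κ) (y p : P2) :
    ker2 κ y p ≤ ENNReal.ofReal (Real.exp (-(κ / 2) * ((p.1 - y.1) ^ 2 + (p.2 - y.2) ^ 2))) := by
  unfold ker2
  apply ENNReal.ofReal_le_ofReal
  apply Real.exp_le_exp.2
  have h := P2_norm_sq (p - y)
  have h3 : (p - y).1 ^ 2 + (p - y).2 ^ 2 = (p.1 - y.1) ^ 2 + (p.2 - y.2) ^ 2 := rfl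
  rw [h3] at h
  nlinarith

theorem ker2_le_one {κ : ℝ} (hκ : 0 ≤ κ) (y p : P2) : ker2 κ y p ≤ 1 := by
  unfold ker2
  rw [← ENNReal.ofReal_one]
  apply ENNReal.ofReal_le_ofReal
  apply Real.exp_le_one_iff.2
  nlinarith [mul_nonneg hκ (sq_nonneg ‖p - y‖)]

theorem lintegral_ker2 {κ : ℝ} (hκ : 0 < κ) (y : P2) :
    ∫⁻ p, ker2 κ y p ≤ ENNReal.ofReal (2 * π / κ) := by
  set h : ℝ → ℝ≥0∞ := fun s => ENNReal.ofReal (Real.exp (-(κ / 2) * s)) with hh
  have hm : Measurable h := by rw [hh]; fun_prop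
  refine (lintegral_mono (ker2_le κ hκ.le y)).trans ?_
  have hmp : MeasurePreserving (fun p : P2 => p - y) volume volume :=
    measurePreserving_sub_right volume _
  have hm2 : Measurable fun p : P2 => h (p.1 ^ 2 + p.2 ^ 2) := hm.comp (by fun_prop)
  have h6 := hmp.lintegral_comp hm2
  have h7 : ∫⁻ p : P2, h ((p.1 - y.1) ^ 2 + (p.2 - y.2) ^ 2) = ∫⁻ p : P2, h (p.1 ^ 2 + p.2 ^ 2) :=
    h6
  change ∫⁻ p : P2, h ((p.1 - y.1) ^ 2 + (p.2 - y.2) ^ 2) ≤ _
  rw [h7, lintegral_radial2 hm, hh, ← ofReal_integral_eq_lintegral_ofReal]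
  · have h2 := integral_exp_mul_Ioi (a := -(κ / 2)) (by linarith) 0
    rw [h2, ← ENNReal.ofReal_mul Real.pi_pos.le]
    apply le_of_eq
    congr 1
    simp
    field_simp
  · exact integrableOn_exp_mul_Ioi (by linarith) _
  · exact Filter.Eventually.of_forall fun s => (Real.exp_pos _).le

/-- the constant of `gauss2` -/
noncomputable def gC (M : ℕ) (κ : ℝ) : ℝ := M * (8 * π * √(2 * 1)) + farC M 1 * (2 * π / κ)

theorem gC_pos (M : ℕ) {κ : ℝ} (hκ : 0 < κ) : 0 < gC M κ := by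
  unfold gC
  have := farC_pos M one_pos
  positivity

theorem gauss2_le (M : ℕ) {κ : ℝ} (hκ : 0 < κ) (q : Fin M → P2) (y : P2) :
    ∫⁻ p, ker2 κ y p * Sg2 q p ≤ ENNReal.ofReal (gC M κ) := by
  have h1 : ∀ p, ker2 κ y p * Sg2 q p ≤ Nr q 1 p + ENNReal.ofReal (farC M 1) * ker2 κ y p := by
    intro p
    calc ker2 κ y p * Sg2 q p ≤ ker2 κ y p * (Nr q 1 p + ENNReal.ofReal (farC M 1)) :=
          mul_le_mul' le_rfl (Sg2_split q p one_pos)
      _ = ker2 κ y p * Nr q 1 p + ENNReal.ofReal (farC M 1) * ker2 κ y p := by ring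
      _ ≤ 1 * Nr q 1 p + ENNReal.ofReal (farC M 1) * ker2 κ y p :=
          add_le_add (mul_le_mul' (ker2_le_one hκ.le y p) le_rfl) le_rfl
      _ = _ := by rw [one_mul]
  refine (lintegral_mono h1).trans ?_
  rw [lintegral_add_left (measurable_Nr q 1), lintegral_const_mul' _ _ ENNReal.ofReal_ne_top]
  refine (add_le_add (lintegral_Nr q one_pos) (mul_le_mul' le_rfl (lintegral_ker2 hκ y))).trans ?_
  have := farC_pos M one_pos
  rw [← ENNReal.ofReal_mul this.le, ← ENNReal.ofReal_add (by positivity) (by positivity)]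
  exact le_rfl

/-- **(F0) Gaussian integrals** -/
theorem gauss2 (M : ℕ) {κ : ℝ} (hκ : 0 < κ) :
    ∃ C : ℝ, 0 < C ∧ ∀ (q : Fin M → P2) (y : P2),
      ∫⁻ p, ker2 κ y p * Sg2 q p ≤ ENNReal.ofReal C :=
  ⟨gC M κ, gC_pos M hκ, fun q y => gauss2_le M hκ q y⟩

/-- **(F0) Gaussian tails** -/
theorem tail2 (M : ℕ) {κ eps : ℝ} (hκ : 0 < κ) (heps : 0 < eps) :
    ∃ R : ℝ, 0 < R ∧ ∀ (q : Fin M → P2) (y : P2),
      ∫⁻ p in {p | R ≤ ‖p - y‖}, ker2 κ y p * Sg2 q p ≤ ENNReal.ofReal eps := by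
  set G := gC M (κ / 2) with hG
  have hGpos : 0 < G := gC_pos M (by positivity)
  -- choose `R` with `exp (-(κ/2) R²) ≤ eps / G`
  obtain ⟨R, hR1, hR2⟩ : ∃ R : ℝ, 1 ≤ R ∧ Real.exp (-(κ / 2) * R ^ 2) * G ≤ eps := by
    set t := 2 / κ * (G / eps) with ht
    have htpos : 0 < t := by positivity
    refine ⟨1 + t, by linarith, ?_⟩
    have h1 : κ / 2 * (1 + t) ^ 2 ≥ G / eps := by
      have : κ / 2 * t = G / eps := by rw [ht]; field_simp
      nlinarith [sq_nonneg t]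
    have h2 : Real.exp (-(κ / 2) * (1 + t) ^ 2) ≤ Real.exp (-(G / eps)) := by
      apply Real.exp_le_exp.2; linarith
    have h3 : Real.exp (-(G / eps)) ≤ eps / G := by
      rw [Real.exp_neg, inv_le_comm₀ (Real.exp_pos _) (by positivity), inv_div]
      linarith [Real.add_one_le_exp (G / eps)]
    calc Real.exp (-(κ / 2) * (1 + t) ^ 2) * G ≤ eps / G * G := by
          apply mul_le_mul_of_nonneg_right (h2.trans h3) hGpos.le
      _ = eps := by field_simp
  refine ⟨R, by linarith, fun q y => ?_⟩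
  have hms : MeasurableSet {p : P2 | R ≤ ‖p - y‖} := by
    have h : Measurable fun p : P2 => ‖p - y‖ := by fun_prop
    exact measurableSet_le measurable_const h
  have h1 : ∀ p ∈ {p : P2 | R ≤ ‖p - y‖}, ker2 κ y p * Sg2 q p
      ≤ ENNReal.ofReal (Real.exp (-(κ / 2) * R ^ 2)) * (ker2 (κ / 2) y p * Sg2 q p) := by
    intro p hp
    rw [← mul_assoc]
    refine mul_le_mul' ?_ le_rfl
    unfold ker2
    rw [← ENNReal.ofReal_mul (Real.exp_pos _).le, ← Real.exp_add]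
    apply ENNReal.ofReal_le_ofReal
    apply Real.exp_le_exp.2
    have hp' : R ≤ ‖p - y‖ := hp
    have : R ^ 2 ≤ ‖p - y‖ ^ 2 := pow_le_pow_left₀ (by linarith) hp' 2
    nlinarith
  calc ∫⁻ p in {p | R ≤ ‖p - y‖}, ker2 κ y p * Sg2 q p
      ≤ ∫⁻ p in {p | R ≤ ‖p - y‖},
          ENNReal.ofReal (Real.exp (-(κ / 2) * R ^ 2)) * (ker2 (κ / 2) y p * Sg2 q p) :=
        setLIntegral_mono' hms h1
    _ ≤ ∫⁻ p, ENNReal.ofReal (Real.exp (-(κ / 2) * R ^ 2)) * (ker2 (κ / 2) y p * Sg2 q p) :=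
        setLIntegral_le_lintegral _ _
    _ = ENNReal.ofReal (Real.exp (-(κ / 2) * R ^ 2)) * ∫⁻ p, ker2 (κ / 2) y p * Sg2 q p :=
        lintegral_const_mul' _ _ ENNReal.ofReal_ne_top
    _ ≤ ENNReal.ofReal (Real.exp (-(κ / 2) * R ^ 2)) * ENNReal.ofReal G :=
        mul_le_mul' le_rfl (gauss2_le M (by positivity) q y)
    _ ≤ ENNReal.ofReal eps := by
        rw [← ENNReal.ofReal_mul (Real.exp_pos _).le]
        exact ENNReal.ofReal_le_ofReal hR2

/-! ### comparison with planes of `ℝ³` -/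

theorem nbar_le (x : R3) : ‖bar x‖ ≤ ‖x‖ := by
  unfold bar
  rw [Prod.norm_def]
  exact max_le (PiLp.norm_apply_le x 0) (PiLp.norm_apply_le x 1)

/-- distances in the plane dominate distances of coordinates -/
theorem frame_dist (v w a : R3) (p : P2) :
    ‖p - bar (rot w (a - v))‖ ≤ ‖v + rot w (vec3 p.1 p.2 0) - a‖ := by
  have h1 : v + rot w (vec3 p.1 p.2 0) - a = rot w (vec3 p.1 p.2 0 - rot w (a - v)) := by
    rw [map_sub, rot_rot]; abel
  rw [h1, norm_rot]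
  refine le_trans (le_of_eq ?_) (nbar_le _)
  rfl

theorem frame_norm (v w : R3) (p : P2) : ‖p‖ ≤ ‖v + rot w (vec3 p.1 p.2 0) - v‖ := by
  have h := frame_dist v w v p
  rw [sub_self, map_zero] at h
  have h0 : bar (0 : R3) = 0 := rfl
  rwa [h0, sub_zero] at h

theorem Sg_frame {M : ℕ} (q : Fin M → R3) (v w : R3) (p : P2) :
    Sg q (v + rot w (vec3 p.1 p.2 0)) ≤ Sg2 (fun i => bar (rot w (q i - v))) p := by
  unfold Sg Sg2
  refine add_le_add le_rfl (Finset.sum_le_sum fun i _ => ?_)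
  rw [ENNReal.rpow_neg, ENNReal.rpow_neg]
  exact ENNReal.inv_le_inv.2 (ENNReal.rpow_le_rpow
    (ENNReal.ofReal_le_ofReal (frame_dist v w (q i) p)) (by norm_num))

theorem ker_frame {κ : ℝ} (hκ : 0 ≤ κ) (v w : R3) (p : P2) :
    ker κ v (v + rot w (vec3 p.1 p.2 0)) ≤ ker2 κ 0 p := by
  unfold ker ker2
  apply ENNReal.ofReal_le_ofReal
  apply Real.exp_le_exp.2
  have h := pow_le_pow_left₀ (norm_nonneg p) (frame_norm v w p) 2
  rw [sub_zero]
  nlinarith

/-- **(F1) frame comparison** -/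
theorem planeInt_frame_le {M : ℕ} {κ : ℝ} (hκ : 0 ≤ κ) (q : Fin M → R3) (S : Set R3) (v w : R3) :
    planeInt (fun z => ker κ v z * S.indicator (Sg q) z) v w
      ≤ ∫⁻ p in {p : P2 | v + rot w (vec3 p.1 p.2 0) ∈ S},
          ker2 κ 0 p * Sg2 (fun i => bar (rot w (q i - v))) p := by
  unfold planeInt
  refine le_trans (lintegral_mono fun p => ?_) (lintegral_indicator_le _ _)
  beta_reduce
  by_cases hp : v + rot w (vec3 p.1 p.2 0) ∈ S
  · rw [indicator_of_mem hp, indicator_of_mem (by exact hp)]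
    exact mul_le_mul' (ker_frame hκ v w p) (Sg_frame q v w p)
  · rw [indicator_of_notMem hp, mul_zero]
    exact zero_le

/-- **(F2)** whole plane -/
theorem PA_Sg_le (M : ℕ) {κ : ℝ} (hκ : 0 < κ) (q : Fin M → R3) (u v : R3) :
    PA κ u v (Sg q) ≤ ENNReal.ofReal (gC M κ) := by
  unfold PA
  have h := planeInt_frame_le hκ.le q univ v (‖u - v‖⁻¹ • (u - v))
  simp only [indicator_univ, mem_univ] at h
  refine h.trans ((setLIntegral_le_lintegral _ _).trans ?_)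
  exact gauss2_le M hκ _ 0

theorem PA_whole (M : ℕ) {κ : ℝ} (hκ : 0 < κ) :
    ∃ C : ℝ, 0 < C ∧ ∀ (q : Fin M → R3) (u v : R3), PA κ u v (Sg q) ≤ ENNReal.ofReal C :=
  ⟨gC M κ, gC_pos M hκ, fun q u v => PA_Sg_le M hκ q u v⟩

/-- planar balls -/
theorem volume_ball2_le (y : P2) {d : ℝ} (hd : 0 ≤ d) :
    volume {p : P2 | ‖p - y‖ < d} ≤ ENNReal.ofReal (4 * d ^ 2) := by
  have h1 : {p : P2 | ‖p - y‖ < d} = ball y d := by
    ext p; simp [dist_eq_norm]
  have h2 : ball y d = ball y.1 d ×ˢ ball y.2 d := (ball_prod_same y.1 y.2 d).symm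
  rw [h1, h2, show (volume : Measure P2) = volume.prod volume from rfl, Measure.prod_prod,
    Real.volume_ball, Real.volume_ball, ← ENNReal.ofReal_mul (by positivity)]
  apply le_of_eq
  congr 1; ring

/-- **(F3)** generic distance -/
theorem PA_dist (M : ℕ) {κ R1 eps : ℝ} (hκ : 0 < κ) (heps : 0 < eps) :
    ∃ d0 R : ℝ, 0 < d0 ∧ 0 < R ∧ ∀ (q : Fin M → R3) (a b u v : R3), ‖v‖ ≤ R1 →
      PA κ u v ({z | R < ‖z‖ ∨ ‖z - a‖ < d0 ∨ ‖z - b‖ < d0}.indicator (Sg q))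
        ≤ ENNReal.ofReal eps := by
  obtain ⟨R', hR', hT⟩ := tail2 M hκ (eps := eps / 3) (by positivity)
  obtain ⟨δ, hδ, hS⟩ := small2 M (eps := eps / 3) (by positivity)
  set d0 : ℝ := √δ / 2 with hd0
  have hd0pos : 0 < d0 := by positivity
  have hd0sq : 4 * d0 ^ 2 ≤ δ := by
    rw [hd0]
    have := Real.sq_sqrt hδ.le
    nlinarith
  refine ⟨d0, |R1| + 2 * R' + 1, hd0pos, by positivity, fun q a b u v hv => ?_⟩
  unfold PA
  set w : R3 := ‖u - v‖⁻¹ • (u - v) with hw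
  refine (planeInt_frame_le hκ.le q _ v w).trans ?_
  set q' : Fin M → P2 := fun i => bar (rot w (q i - v)) with hq'
  have hsub : {p : P2 | v + rot w (vec3 p.1 p.2 0) ∈
      {z | |R1| + 2 * R' + 1 < ‖z‖ ∨ ‖z - a‖ < d0 ∨ ‖z - b‖ < d0}}
      ⊆ {p : P2 | R' ≤ ‖p - 0‖} ∪ ({p : P2 | ‖p - bar (rot w (a - v))‖ < d0} ∪
        {p : P2 | ‖p - bar (rot w (b - v))‖ < d0}) := by
    intro p hp
    rcases hp with hp | hp | hp
    · left
      have h1 : ‖v + rot w (vec3 p.1 p.2 0)‖ ≤ ‖v‖ + ‖vec3 p.1 p.2 0‖ := by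
        refine (norm_add_le _ _).trans ?_
        rw [norm_rot]
      have h2 : 2 * R' ≤ ‖vec3 p.1 p.2 0‖ := by
        have := le_abs_self R1
        linarith
      have h3 : ‖vec3 p.1 p.2 0‖ ^ 2 ≤ 2 * ‖p‖ ^ 2 := by
        rw [norm_sq_vec3]
        have := P2_norm_sq p
        nlinarith
      have h4 : (2 * R') ^ 2 ≤ ‖vec3 p.1 p.2 0‖ ^ 2 := pow_le_pow_left₀ (by positivity) h2 2
      show R' ≤ ‖p - 0‖
      rw [sub_zero]
      by_contra hcon
      push Not at hcon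
      have h5 : ‖p‖ ^ 2 < R' ^ 2 := pow_lt_pow_left₀ hcon (norm_nonneg _) (by norm_num)
      nlinarith
    · right; left
      exact lt_of_le_of_lt (frame_dist v w a p) hp
    · right; right
      exact lt_of_le_of_lt (frame_dist v w b p) hp
  refine (lintegral_mono_set hsub).trans ?_
  refine (lintegral_union_le _ _ _).trans ?_
  have hb1 : ∫⁻ p in {p : P2 | R' ≤ ‖p - 0‖}, ker2 κ 0 p * Sg2 q' p
      ≤ ENNReal.ofReal (eps / 3) := hT q' 0
  have hsm : ∀ c : P2, ∫⁻ p in {p : P2 | ‖p - c‖ < d0}, ker2 κ 0 p * Sg2 q' p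
      ≤ ENNReal.ofReal (eps / 3) := by
    intro c
    refine (lintegral_mono fun p => ?_).trans (hS q' {p : P2 | ‖p - c‖ < d0}
      ((volume_ball2_le c hd0pos.le).trans (ENNReal.ofReal_le_ofReal hd0sq)))
    calc ker2 κ 0 p * Sg2 q' p ≤ 1 * Sg2 q' p := mul_le_mul' (ker2_le_one hκ.le 0 p) le_rfl
      _ = Sg2 q' p := one_mul _
  have hb2 := (lintegral_union_le (μ := (volume : Measure P2))
    (fun p => ker2 κ 0 p * Sg2 q' p) {p : P2 | ‖p - bar (rot w (a - v))‖ < d0}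
    {p : P2 | ‖p - bar (rot w (b - v))‖ < d0}).trans
    (add_le_add (hsm (bar (rot w (a - v)))) (hsm (bar (rot w (b - v)))))
  refine (add_le_add hb1 hb2).trans ?_
  rw [← ENNReal.ofReal_add (by positivity) (by positivity),
    ← ENNReal.ofReal_add (by positivity) (by positivity)]
  apply le_of_eq
  congr 1; ring

end Crest.Agent.R68.S
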