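import Mathlib
import Crest.Agent.R68.SGraph
import Crest.Agent.R68.SAnti

/-!
R68 / SWin: the window theorem of Part S (abstract reduction from the unscaled Duhamel operator
to the scaled operator `Top`; helper653).
-/

set_option autoImplicit false
open MeasureTheory Set Metric
open scoped ENNReal NNReal
open Crest.AnalysisR.VecCalc3 Crest.AnalysisR.PDE.Boltzmann

namespace Crest.Agent.R68.S

/-- densities -/
abbrev Dn : Type := ℝ → P2 → R3 → ℝ≥0∞

/-- joint measurability -/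
def MD (h : Dn) : Prop := Measurable fun q : ℝ × P2 × R3 => h q.1 q.2.1 q.2.2

/-- Duhamel integral from time `τ` -/
noncomputable def DuhT (τ : ℝ) (q : Dn) : Dn := fun t x v =>
  ∫⁻ s in Ioo τ t, q s (x - (t - s) • bar v) v

/-- hypotheses on fields and singular weight, unscaled -/
structure UHyp {Ω : Type} [MeasurableSpace Ω] (π : Measure Ω) (τ t U CN CD : ℝ) (M : ℕ)
    (χ : Ω → ℝ → P2 → ℝ≥0∞) (u : Ω → ℝ → P2 → R3) (W : Dn) : Prop where
  fin : π univ ≤ 1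
  mχ : Measurable fun q : Ω × ℝ × P2 => χ q.1 q.2.1 q.2.2
  mu : Measurable fun q : Ω × ℝ × P2 => u q.1 q.2.1 q.2.2
  χ1 : ∀ ω s y, τ ≤ s → s ≤ t → χ ω s y ≤ 1
  bd : ∀ ω s y, τ ≤ s → s ≤ t → χ ω s y ≠ 0 → ‖u ω s y‖ ≤ U
  W1 : ∀ s y v, τ ≤ s → s ≤ t → 1 ≤ W s y v
  Wmono : ∀ (s' s : ℝ) (y : P2) (v : R3), τ ≤ s' → s' ≤ s → s ≤ t →
    W s' (y - (s - s') • bar v) v ≤ W s y v
  Wsg : ∀ (s : ℝ) (y : P2), τ ≤ s → s ≤ t →
    ∃ q : Fin M → R3, ∀ v, W s y v ≤ ENNReal.ofReal CD * Sg q v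
  newton : ∀ (s : ℝ) (y : P2) (v : R3), τ ≤ s → s ≤ t →
    ∫⁻ ω, χ ω s y * ENNReal.ofReal ‖u ω s y - v‖⁻¹ ∂π ≤ ENNReal.ofReal CN * W s y v

/-- hypotheses on the regular (Gaussian) weight -/
structure MHyp (κ Cm U τ t : ℝ) (m : Dn) : Prop where
  meas : MD m
  ne0 : ∀ s y v, τ ≤ s → s ≤ t → m s y v ≠ 0
  netop : ∀ s y v, τ ≤ s → s ≤ t → m s y v ≠ ∞
  mono : ∀ (s' s : ℝ) (y : P2) (v : R3), τ ≤ s' → s' ≤ s → s ≤ t →
    m s' (y - (s - s') • bar v) v ≤ m s y v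
  plane : ∀ (s : ℝ) (y : P2) (u v z : R3), τ ≤ s → s ≤ t → ‖u‖ ≤ U →
    (inner ℝ (z - v) (u - v) : ℝ) = 0 →
    m s y z ≤ ENNReal.ofReal Cm * ker κ v z * m s y v

/-- hypotheses on the gain operator -/
structure GHyp {Ω : Type} [MeasurableSpace Ω] (π : Measure Ω) (τ t Cg K : ℝ)
    (χ : Ω → ℝ → P2 → ℝ≥0∞) (u : Ω → ℝ → P2 → R3) (G : Dn → Dn) : Prop where
  bound : ∀ h, MD h → ∀ s, τ < s → s < t → ∀ y v, G h s y v ≤
    ENNReal.ofReal (Cg * K / s) * ∫⁻ ω, χ ω s y * (ENNReal.ofReal ‖u ω s y - v‖⁻¹ *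
      planeInt (h s y) v (‖u ω s y - v‖⁻¹ • (u ω s y - v))) ∂π
  meas : ∀ h, MD h → MD (DuhT τ (G h))

/-- additivity and locality (only needed for the sum form) -/
structure GAdd (τ t : ℝ) (G : Dn → Dn) : Prop where
  mono : ∀ h k, MD h → MD k → ∀ s, τ < s → s < t → (∀ y v, h s y v ≤ k s y v) →
    ∀ y v, G h s y v ≤ G k s y v
  add : ∀ h k, MD h → MD k → ∀ s, τ < s → s < t → ∀ y v,
    G (fun s y v => h s y v + k s y v) s y v ≤ G h s y v + G k s y v
  measG : ∀ h, MD h → MD (G h)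

/-- scaled density -/
noncomputable def scD (t r : ℝ) (x : P2) (m h : Dn) : Dn := fun c ξ v =>
  h (t - r * c) (x + r • ξ) v / m (t - r * c) (x + r • ξ) v

/-- scaled fuel density -/
noncomputable def scX {Ω : Type} (t r L : ℝ) (x : P2) (χ : Ω → ℝ → P2 → ℝ≥0∞) :
    Ω → ℝ → P2 → ℝ≥0∞ := fun ω c ξ =>
  (Icc 0 L).indicator (fun c => χ ω (t - r * c) (x + r • ξ)) c

/-- scaled field -/
def scU {Ω : Type} (t r : ℝ) (x : P2) (u : Ω → ℝ → P2 → R3) : Ω → ℝ → P2 → R3 := fun ω c ξ =>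
  u ω (t - r * c) (x + r • ξ)

/-- scaled singular weight -/
noncomputable def scW (t r L : ℝ) (x : P2) (W : Dn) : Dn := fun c ξ v =>
  open scoped Classical in if c ∈ Icc 0 L then W (t - r * c) (x + r • ξ) v else 1

theorem scX_of_mem {Ω : Type} {t r L c : ℝ} {x ξ : P2} {χ : Ω → ℝ → P2 → ℝ≥0∞} {ω : Ω}
    (hc : c ∈ Icc 0 L) : scX t r L x χ ω c ξ = χ ω (t - r * c) (x + r • ξ) := by
  unfold scX; rw [indicator_of_mem hc]

theorem scX_of_notMem {Ω : Type} {t r L c : ℝ} {x ξ : P2} {χ : Ω → ℝ → P2 → ℝ≥0∞} {ω : Ω}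
    (hc : c ∉ Icc 0 L) : scX t r L x χ ω c ξ = 0 := by
  unfold scX; rw [indicator_of_notMem hc]

theorem scW_of_mem {t r L c : ℝ} {x ξ : P2} {v : R3} {W : Dn} (hc : c ∈ Icc 0 L) :
    scW t r L x W c ξ v = W (t - r * c) (x + r • ξ) v := by
  unfold scW; rw [if_pos hc]

theorem scW_of_notMem {t r L c : ℝ} {x ξ : P2} {v : R3} {W : Dn} (hc : c ∉ Icc 0 L) :
    scW t r L x W c ξ v = 1 := by
  unfold scW; rw [if_neg hc]

/-- measurability of the scaled density -/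
theorem measurable_scD {t r : ℝ} {x : P2} {m h : Dn} (hm : MD m) (hh : MD h) :
    MD (scD t r x m h) := by
  have h1 : Measurable fun q : ℝ × P2 × R3 => (t - r * q.1, x + r • q.2.1, q.2.2) := by fun_prop
  exact (hh.comp h1).div (hm.comp h1)

/-- times -/
theorem win_time {t K L c : ℝ} (ht : 0 < t) (hK : 0 < K) (_hL : 0 ≤ L) (hKL : 2 * L ≤ K)
    (hc : c ∈ Icc 0 L) : t * (1 - L / K) ≤ t - t / K * c ∧ t - t / K * c ≤ t ∧
      t / 2 ≤ t - t / K * c := by
  have hr : 0 < t / K := by positivity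
  have h1 : t * (1 - L / K) = t - t / K * L := by field_simp
  have h2 : t / K * c ≤ t / K * L := mul_le_mul_of_nonneg_left hc.2 hr.le
  have h3 : t / K * L ≤ t / 2 := by
    rw [div_mul_eq_mul_div, div_le_div_iff₀ hK (by norm_num)]
    nlinarith
  refine ⟨by linarith, ?_, by linarith⟩
  have := mul_nonneg hr.le hc.1
  linarith

/-- transport in scaled variables -/
theorem win_shift (t r c c1 : ℝ) (x ξ : P2) (v : R3) :
    x + r • ξ - ((t - r * c) - (t - r * c1)) • bar v = x + r • (ξ - (c1 - c) • bar v) := by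
  have h : (t - r * c) - (t - r * c1) = r * (c1 - c) := by ring
  rw [h, smul_sub, smul_smul]
  abel

/-- substitution in time -/
theorem win_subst {r t c L : ℝ} (hr : 0 < r) (g : ℝ → ℝ≥0∞) :
    ∫⁻ s in Ioo (t - r * L) (t - r * c), g s
      = ENNReal.ofReal r * ∫⁻ c1 in Ioo c L, g (t - r * c1) := by
  have himg : (fun c1 : ℝ => t - r * c1) '' Ioo c L = Ioo (t - r * L) (t - r * c) := by
    ext s
    constructor
    · rintro ⟨c1, hc1, rfl⟩
      exact ⟨by have := hc1.2; nlinarith, by have := hc1.1; nlinarith⟩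
    · intro hs
      refine ⟨(t - s) / r, ⟨?_, ?_⟩, ?_⟩
      · rw [lt_div_iff₀ hr]; have := hs.2; linarith
      · rw [div_lt_iff₀ hr]; have := hs.1; linarith
      · field_simp; ring
  have hinj : InjOn (fun c1 : ℝ => t - r * c1) (Ioo c L) := by
    intro a _ b _ hab
    have h1 : r * a = r * b := by
      have : t - r * a = t - r * b := hab
      linarith
    exact mul_left_cancel₀ hr.ne' h1
  have hder : ∀ c1 ∈ Ioo c L, HasDerivWithinAt (fun c1 : ℝ => t - r * c1) (-r) (Ioo c L) c1 := by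
    intro c1 _
    have h1 : HasDerivAt (fun c1 : ℝ => t - r * c1) (-r) c1 := by
      simpa using ((hasDerivAt_id c1).const_mul r).const_sub t
    exact h1.hasDerivWithinAt
  have hmain := lintegral_image_eq_lintegral_abs_deriv_mul measurableSet_Ioo hder hinj g
  rw [himg] at hmain
  rw [hmain, ← lintegral_const_mul' _ _ ENNReal.ofReal_ne_top]
  simp only [abs_neg, abs_of_pos hr]

/-- orthogonality on collision planes, all cases -/
theorem plane_orth' (u v : R3) (p : ℝ × ℝ) :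
    (inner ℝ (v + rot (‖u - v‖⁻¹ • (u - v)) (vec3 p.1 p.2 0) - v) (u - v) : ℝ) = 0 := by
  by_cases h : u - v = 0
  · rw [h, inner_zero_right]
  · have hpos : 0 < ‖u - v‖ := norm_pos_iff.2 h
    have hw : ‖‖u - v‖⁻¹ • (u - v)‖ = 1 := by
      rw [norm_smul, norm_inv, norm_norm, inv_mul_cancel₀ hpos.ne']
    have h1 := plane_orth hw v p ‖u - v‖
    rwa [smul_smul, mul_inv_cancel₀ hpos.ne', one_smul] at h1

/-- plane integrals of a density in terms of the quotient by the weight -/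
theorem planeInt_div_le {κ Cm U τ t : ℝ} {m : Dn} (hm : MHyp κ Cm U τ t m) {s : ℝ} (hs : τ ≤ s)
    (hs' : s ≤ t) (y : P2) {u v : R3} (hu : ‖u‖ ≤ U) (g : R3 → ℝ≥0∞) :
    planeInt g v (‖u - v‖⁻¹ • (u - v))
      ≤ ENNReal.ofReal Cm * m s y v * PA κ u v (fun z => g z / m s y z) := by
  unfold PA
  have hfin : ENNReal.ofReal Cm * m s y v ≠ ∞ :=
    ENNReal.mul_ne_top ENNReal.ofReal_ne_top (hm.netop s y v hs hs')
  rw [← planeInt_const_mul hfin]
  unfold planeInt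
  refine lintegral_mono fun p => ?_
  set z := v + rot (‖u - v‖⁻¹ • (u - v)) (vec3 p.1 p.2 0) with hz
  have h1 := hm.plane s y u v z hs hs' hu (plane_orth' u v p)
  calc g z = g z / m s y z * m s y z := by
        rw [ENNReal.div_mul_cancel (hm.ne0 s y z hs hs') (hm.netop s y z hs hs')]
    _ ≤ g z / m s y z * (ENNReal.ofReal Cm * ker κ v z * m s y v) := mul_le_mul' le_rfl h1
    _ = ENNReal.ofReal Cm * m s y v * (ker κ v z * (g z / m s y z)) := by ring

section step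

variable {Ω : Type} [MeasurableSpace Ω] {π : Measure Ω} {κ U CN CD Cm Cg L t K : ℝ} {M : ℕ}
  {χ : Ω → ℝ → P2 → ℝ≥0∞} {u : Ω → ℝ → P2 → R3} {W m : Dn} {G : Dn → Dn}

/-- pointwise gain bound -/
theorem gain_div_le (hU : UHyp π (t * (1 - L / K)) t U CN CD M χ u W)
    (hm : MHyp κ Cm U (t * (1 - L / K)) t m) (hG : GHyp π (t * (1 - L / K)) t Cg K χ u G)
    {h : Dn} (hh : MD h) {s : ℝ} (hs : t * (1 - L / K) < s) (hs' : s < t) (y : P2) (v : R3) :
    G h s y v ≤ ENNReal.ofReal (Cg * K / s) * (ENNReal.ofReal Cm * m s y v *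
      ∫⁻ ω, χ ω s y * Aop κ (u ω s y) v (fun z => h s y z / m s y z) ∂π) := by
  refine (hG.bound h hh s hs hs' y v).trans (mul_le_mul' le_rfl ?_)
  have hfin : ENNReal.ofReal Cm * m s y v ≠ ∞ :=
    ENNReal.mul_ne_top ENNReal.ofReal_ne_top (hm.netop s y v hs.le hs'.le)
  rw [← lintegral_const_mul' _ _ hfin]
  refine lintegral_mono fun ω => ?_
  by_cases hχ : χ ω s y = 0
  · rw [hχ]; simp
  · have hu := hU.bd ω s y hs.le hs'.le hχ
    have h1 := planeInt_div_le hm hs.le hs'.le y (v := v) hu (h s y)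
    calc χ ω s y * (ENNReal.ofReal ‖u ω s y - v‖⁻¹ *
          planeInt (h s y) v (‖u ω s y - v‖⁻¹ • (u ω s y - v)))
        ≤ χ ω s y * (ENNReal.ofReal ‖u ω s y - v‖⁻¹ * (ENNReal.ofReal Cm * m s y v *
          PA κ (u ω s y) v (fun z => h s y z / m s y z))) :=
          mul_le_mul' le_rfl (mul_le_mul' le_rfl h1)
      _ = ENNReal.ofReal Cm * m s y v * (χ ω s y * Aop κ (u ω s y) v
          (fun z => h s y z / m s y z)) := by unfold Aop; ring

/-- one step of the comparison with the scaled operator -/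
theorem win_step (ht : 0 < t) (hK : 0 < K) (hL : 0 < L) (hKL : 2 * L ≤ K) (hCg : 0 < Cg)
    (hCm : 0 < Cm)
    (hU : UHyp π (t * (1 - L / K)) t U CN CD M χ u W)
    (hm : MHyp κ Cm U (t * (1 - L / K)) t m) (hG : GHyp π (t * (1 - L / K)) t Cg K χ u G)
    (x : P2) {h : Dn} (hh : MD h) {c : ℝ} (hc : c ∈ Icc 0 L) (ξ : P2) (v : R3) :
    scD t (t / K) x m (DuhT (t * (1 - L / K)) (G h)) c ξ v
      ≤ ENNReal.ofReal (2 * Cg * Cm) * Top π κ L (scX t (t / K) L x χ) (scU t (t / K) x u)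
        (scD t (t / K) x m h) c ξ v := by
  set r : ℝ := t / K with hr
  have hrpos : 0 < r := by positivity
  set τ : ℝ := t * (1 - L / K) with hτ
  have hτ' : τ = t - r * L := by rw [hτ, hr]; field_simp
  obtain ⟨hw1, hw2, hw3⟩ := win_time ht hK hL.le hKL hc
  rw [← hr] at hw1 hw2 hw3
  set s : ℝ := t - r * c with hs
  set y : P2 := x + r • ξ with hy
  have hmne0 := hm.ne0 s y v hw1 hw2
  have hmtop := hm.netop s y v hw1 hw2
  show DuhT τ (G h) s y v / m s y v ≤ _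
  refine ENNReal.div_le_of_le_mul ?_
  have hsub : DuhT τ (G h) s y v = ENNReal.ofReal r *
      ∫⁻ c1 in Ioo c L, G h (t - r * c1) (y - (s - (t - r * c1)) • bar v) v := by
    unfold DuhT
    rw [hτ', hs]
    exact win_subst (L := L) (c := c) hrpos
      (fun s' => G h s' (y - (t - r * c - s') • bar v) v)
  rw [hsub]
  unfold Top
  have hfin : ENNReal.ofReal (2 * Cg * Cm) * m s y v ≠ ∞ :=
    ENNReal.mul_ne_top ENNReal.ofReal_ne_top hmtop
  rw [mul_right_comm, ← lintegral_const_mul' _ _ hfin,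
    ← lintegral_const_mul' _ _ ENNReal.ofReal_ne_top]
  refine setLIntegral_mono' measurableSet_Ioo fun c1 hc1 => ?_
  have hc1' : c1 ∈ Icc 0 L := ⟨hc.1.trans hc1.1.le, hc1.2.le⟩
  obtain ⟨hz1, hz2, hz3⟩ := win_time ht hK hL.le hKL hc1'
  rw [← hr] at hz1 hz2 hz3
  set s1 : ℝ := t - r * c1 with hs1
  have hc1pos : 0 < c1 := lt_of_le_of_lt hc.1 hc1.1
  have hs1a : τ < s1 := by rw [hτ', hs1]; nlinarith [hc1.2]
  have hs1b : s1 < t := by rw [hs1]; nlinarith
  have hs1pos : 0 < s1 := by linarith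
  have hyy : y - (s - s1) • bar v = x + r • (ξ - (c1 - c) • bar v) := by
    rw [hy, hs, hs1]; exact win_shift t r c c1 x ξ v
  set ξ1 : P2 := ξ - (c1 - c) • bar v with hξ1
  have hs1s : s1 ≤ s := by rw [hs1, hs]; nlinarith [hc1.1]
  have hgain := gain_div_le hU hm hG hh (s := s1) hs1a hs1b (y - (s - s1) • bar v) v
  have hmm : m s1 (y - (s - s1) • bar v) v ≤ m s y v := hm.mono s1 s y v hs1a.le hs1s hw2
  have hconst : ENNReal.ofReal r * ENNReal.ofReal (Cg * K / s1) ≤ ENNReal.ofReal (2 * Cg) := by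
    rw [← ENNReal.ofReal_mul hrpos.le]
    apply ENNReal.ofReal_le_ofReal
    rw [hr]
    have h1 : t / K * (Cg * K / s1) = Cg * t / s1 := by field_simp
    rw [h1, div_le_iff₀ hs1pos]
    nlinarith
  have hint : ∫⁻ ω, χ ω s1 (y - (s - s1) • bar v) * Aop κ (u ω s1 (y - (s - s1) • bar v)) v
        (fun z => h s1 (y - (s - s1) • bar v) z / m s1 (y - (s - s1) • bar v) z) ∂π
      = ∫⁻ ω, scX t r L x χ ω c1 ξ1 * Aop κ (scU t r x u ω c1 ξ1) v
        (scD t r x m h c1 ξ1) ∂π := by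
    refine lintegral_congr fun ω => ?_
    rw [scX_of_mem hc1', hyy]
    rfl
  rw [hint] at hgain
  calc ENNReal.ofReal r * G h s1 (y - (s - s1) • bar v) v
      ≤ ENNReal.ofReal r * (ENNReal.ofReal (Cg * K / s1) * (ENNReal.ofReal Cm * m s y v *
        ∫⁻ ω, scX t r L x χ ω c1 ξ1 * Aop κ (scU t r x u ω c1 ξ1) v
        (scD t r x m h c1 ξ1) ∂π)) := by
        refine mul_le_mul' le_rfl (hgain.trans (mul_le_mul' le_rfl ?_))
        exact mul_le_mul' (mul_le_mul' le_rfl hmm) le_rfl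
    _ = (ENNReal.ofReal r * ENNReal.ofReal (Cg * K / s1)) * (ENNReal.ofReal Cm * m s y v *
        ∫⁻ ω, scX t r L x χ ω c1 ξ1 * Aop κ (scU t r x u ω c1 ξ1) v
        (scD t r x m h c1 ξ1) ∂π) := by ring
    _ ≤ ENNReal.ofReal (2 * Cg) * (ENNReal.ofReal Cm * m s y v *
        ∫⁻ ω, scX t r L x χ ω c1 ξ1 * Aop κ (scU t r x u ω c1 ξ1) v
        (scD t r x m h c1 ξ1) ∂π) := mul_le_mul' hconst le_rfl
    _ = _ := by
        rw [ENNReal.ofReal_mul (p := 2 * Cg) (by positivity)]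
        ring

omit [MeasurableSpace Ω] in
theorem win_Aop_mono (κ : ℝ) (u v : R3) {f g : R3 → ℝ≥0∞} (h : ∀ z, f z ≤ g z) :
    Aop κ u v f ≤ Aop κ u v g := by
  unfold Aop PA
  exact mul_le_mul' le_rfl (planeInt_mono (fun z => mul_le_mul' le_rfl (h z)) _ _)

theorem win_Top_mono {χ : Ω → ℝ → P2 → ℝ≥0∞} {u : Ω → ℝ → P2 → R3} {f g : Dn}
    (hfg : ∀ c ξ v, 0 ≤ c → c ≤ L → f c ξ v ≤ g c ξ v) {c : ℝ} (hc : 0 ≤ c) (ξ : P2) (v : R3) :
    Top π κ L χ u f c ξ v ≤ Top π κ L χ u g c ξ v := by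
  unfold Top
  refine setLIntegral_mono' measurableSet_Ioo fun c1 hc1 => lintegral_mono fun ω => ?_
  exact mul_le_mul' le_rfl (win_Aop_mono κ _ _ fun z => hfg _ _ _ (hc.trans hc1.1.le) hc1.2.le)

theorem win_Top_const {χ : Ω → ℝ → P2 → ℝ≥0∞} {u : Ω → ℝ → P2 → R3} {f : Dn} {a : ℝ≥0∞}
    (ha : a ≠ ∞) (c : ℝ) (ξ : P2) (v : R3) :
    Top π κ L χ u (fun c ξ v => a * f c ξ v) c ξ v = a * Top π κ L χ u f c ξ v := by
  unfold Top
  rw [← lintegral_const_mul' _ _ ha]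
  refine lintegral_congr fun c1 => ?_
  rw [← lintegral_const_mul' _ _ ha]
  refine lintegral_congr fun ω => ?_
  have h1 : Aop κ (u ω c1 (ξ - (c1 - c) • bar v)) v
      (fun z => a * f c1 (ξ - (c1 - c) • bar v) z)
      = a * Aop κ (u ω c1 (ξ - (c1 - c) • bar v)) v (f c1 (ξ - (c1 - c) • bar v)) := by
    unfold Aop PA
    have h2 : (fun z => ker κ v z * (a * f c1 (ξ - (c1 - c) • bar v) z))
        = fun z => a * (ker κ v z * f c1 (ξ - (c1 - c) • bar v) z) := by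
      funext z; ring
    rw [h2, planeInt_const_mul ha]
    ring
  rw [h1]
  ring

theorem MD_iter (hG : GHyp π (t * (1 - L / K)) t Cg K χ u G) {h : Dn} (hh : MD h) (n : ℕ) :
    MD ((fun h => DuhT (t * (1 - L / K)) (G h))^[n] h) := by
  induction n with
  | zero => exact hh
  | succ n ih =>
    rw [Function.iterate_succ_apply']
    exact hG.meas _ ih

/-- iterated comparison -/
theorem win_iter (ht : 0 < t) (hK : 0 < K) (hL : 0 < L) (hKL : 2 * L ≤ K) (hCg : 0 < Cg)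
    (hCm : 0 < Cm)
    (hU : UHyp π (t * (1 - L / K)) t U CN CD M χ u W)
    (hm : MHyp κ Cm U (t * (1 - L / K)) t m) (hG : GHyp π (t * (1 - L / K)) t Cg K χ u G)
    (x : P2) {h : Dn} (hh : MD h) (n : ℕ) :
    ∀ {c : ℝ}, c ∈ Icc 0 L → ∀ (ξ : P2) (v : R3),
    scD t (t / K) x m ((fun h => DuhT (t * (1 - L / K)) (G h))^[n] h) c ξ v
      ≤ ENNReal.ofReal (2 * Cg * Cm) ^ n *
        (Top π κ L (scX t (t / K) L x χ) (scU t (t / K) x u))^[n] (scD t (t / K) x m h) c ξ v := by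
  induction n with
  | zero => intro c _ ξ v; simp
  | succ n ih =>
    intro c hc ξ v
    rw [Function.iterate_succ_apply', Function.iterate_succ_apply']
    have h1 := win_step ht hK hL hKL hCg hCm hU hm hG x (MD_iter hG hh n) hc ξ v
    refine h1.trans ?_
    have h2 := win_Top_mono (π := π) (κ := κ) (χ := scX t (t / K) L x χ)
      (u := scU t (t / K) x u) (fun c' ξ' v' h0 h0' => ih (c := c') ⟨h0, h0'⟩ ξ' v') hc.1 ξ v
    refine (mul_le_mul' le_rfl h2).trans ?_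
    rw [win_Top_const (ENNReal.pow_ne_top ENNReal.ofReal_ne_top), pow_succ]
    apply le_of_eq
    ring

/-- the scaled fields satisfy the hypotheses of the core theorem -/
theorem win_hyp (ht : 0 < t) (hK : 0 < K) (hL : 0 < L) (hKL : 2 * L ≤ K)
    (hU : UHyp π (t * (1 - L / K)) t U CN CD M χ u W) (x : P2) :
    Hyp π L U CN CD M (scX t (t / K) L x χ) (scU t (t / K) x u) (scW t (t / K) L x W) := by
  set r : ℝ := t / K with hr
  have hrpos : 0 < r := by positivity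
  have hmap : Measurable fun q : Ω × ℝ × P2 => (q.1, t - r * q.2.1, x + r • q.2.2) := by fun_prop
  have htime : ∀ {c : ℝ}, c ∈ Icc 0 L → t * (1 - L / K) ≤ t - r * c ∧ t - r * c ≤ t := by
    intro c hc
    obtain ⟨h1, h2, _⟩ := win_time ht hK hL.le hKL hc
    exact ⟨h1, h2⟩
  refine ⟨hU.fin, ?_, ?_, ?_, ?_, ?_, ?_, ?_, ?_⟩
  · have h1 : Measurable fun q : Ω × ℝ × P2 => χ q.1 (t - r * q.2.1) (x + r • q.2.2) :=
      hU.mχ.comp hmap
    have h2 : (fun q : Ω × ℝ × P2 => scX t r L x χ q.1 q.2.1 q.2.2)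
        = {q : Ω × ℝ × P2 | q.2.1 ∈ Icc 0 L}.indicator
          (fun q => χ q.1 (t - r * q.2.1) (x + r • q.2.2)) := by
      funext q
      by_cases hq : q.2.1 ∈ Icc 0 L
      · rw [scX_of_mem hq, indicator_of_mem (by exact hq)]
      · rw [scX_of_notMem hq, indicator_of_notMem (by exact hq)]
    rw [h2]
    refine h1.indicator ?_
    have h3 : Measurable fun q : Ω × ℝ × P2 => q.2.1 := by fun_prop
    exact h3 measurableSet_Icc
  · exact hU.mu.comp hmap
  · intro ω c ξ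
    by_cases hc : c ∈ Icc 0 L
    · rw [scX_of_mem hc]; exact hU.χ1 _ _ _ (htime hc).1 (htime hc).2
    · rw [scX_of_notMem hc]; exact zero_le
  · intro ω c ξ hne
    by_cases hc : c ∈ Icc 0 L
    · rw [scX_of_mem hc] at hne; exact hU.bd _ _ _ (htime hc).1 (htime hc).2 hne
    · exact absurd (scX_of_notMem hc) hne
  · intro c ξ v
    by_cases hc : c ∈ Icc 0 L
    · rw [scW_of_mem hc]; exact hU.W1 _ _ _ (htime hc).1 (htime hc).2
    · rw [scW_of_notMem hc]
  · intro c c1 ξ v h0 h1 h2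
    have hc : c ∈ Icc 0 L := ⟨h0, h1.trans h2⟩
    have hc1 : c1 ∈ Icc 0 L := ⟨h0.trans h1, h2⟩
    rw [scW_of_mem hc, scW_of_mem hc1, ← win_shift t r c c1 x ξ v]
    exact hU.Wmono _ _ _ _ (htime hc1).1 (by nlinarith) (htime hc).2
  · intro c ξ h0 h1
    have hc : c ∈ Icc 0 L := ⟨h0, h1⟩
    obtain ⟨q, hq⟩ := hU.Wsg (t - r * c) (x + r • ξ) (htime hc).1 (htime hc).2
    refine ⟨q, fun v => ?_⟩
    rw [scW_of_mem hc]; exact hq v
  · intro c ξ v h0 h1
    have hc : c ∈ Icc 0 L := ⟨h0, h1⟩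
    rw [scW_of_mem hc]
    simp only [scX_of_mem hc]
    exact hU.newton _ _ _ (htime hc).1 (htime hc).2

end step

end Crest.Agent.R68.S
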