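import Mathlib
import Crest.Agent.R68.SWin

/-!
R68 / SWin2: the window theorem of Part S: iterated Duhamel terms on the window
`[t (1 - L/K), t]` (helper653).
-/

set_option autoImplicit false
open MeasureTheory Set Metric
open scoped ENNReal NNReal
open Crest.AnalysisR.VecCalc3 Crest.AnalysisR.PDE.Boltzmann

namespace Crest.Agent.R68.S

/-- the conclusion of the scaled smoothing lemma (`core`), as a proposition -/
def CoreProp (κ L U CN CD : ℝ) (M : ℕ) : Prop :=
  ∀ ε : ℝ, 0 < ε → ∃ ρ e C : ℝ, 0 < ρ ∧ 0 < e ∧ 0 < C ∧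
    ∀ (Ω : Type) [MeasurableSpace Ω] (π : Measure Ω) (χ : Ω → ℝ → P2 → ℝ≥0∞)
      (u : Ω → ℝ → P2 → R3) (W : Dn) (ub : P2) (s : Ω → ℝ),
      Hyp π L U CN CD M χ u W → Near L U e ρ χ u ub s → Measurable s →
      ∀ f : Dn, (Measurable fun q : ℝ × P2 × R3 => f q.1 q.2.1 q.2.2) → ∀ N m : ℝ≥0∞,
      (∀ c ξ v, 0 ≤ c → c ≤ L → f c ξ v ≤ N * W c ξ v) →
      (∀ c, 0 ≤ c → c ≤ L →
        ∫⁻ ξ in closedBall (0 : P2) ρ, ∫⁻ z in closedBall (0 : R3) ρ, f c ξ z ≤ m) →
      ∀ v, (Top π κ L χ u)^[4] f 0 0 v ≤ (ENNReal.ofReal ε * N + ENNReal.ofReal C * m) * W 0 0 v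

/-- dilation and translation in the plane -/
theorem lintegral_ball_scale {r ρ : ℝ} (hr : 0 < r) (x : P2) {F : P2 → ℝ≥0∞} (hF : Measurable F) :
    ∫⁻ ξ in closedBall (0 : P2) ρ, F (x + r • ξ)
      = ENNReal.ofReal (r ^ 2)⁻¹ * ∫⁻ y in closedBall x (ρ * r), F y := by
  set g : P2 → ℝ≥0∞ := fun ξ => (closedBall (0 : P2) ρ).indicator (fun ξ => F (x + r • ξ)) ξ with hg
  have hgm : Measurable g := by
    rw [hg]
    exact (hF.comp (by fun_prop)).indicator measurableSet_closedBall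
  have h1 := lintegral_smul_plane hr hgm
  have h2 : ∫⁻ ξ in closedBall (0 : P2) ρ, F (x + r • ξ) = ∫⁻ Z, g Z := by
    rw [hg]
    exact (lintegral_indicator measurableSet_closedBall _).symm
  rw [h2, h1]
  congr 1
  have h3 : ∀ X : P2, g (r⁻¹ • X) = (closedBall x (ρ * r)).indicator F (x + X) := by
    intro X
    rw [hg]
    beta_reduce
    by_cases hX : r⁻¹ • X ∈ closedBall (0 : P2) ρ
    · have hX' : x + X ∈ closedBall x (ρ * r) := by
        rw [mem_closedBall, dist_eq_norm, add_sub_cancel_left]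
        rw [mem_closedBall, dist_zero_right, norm_smul, norm_inv, Real.norm_of_nonneg hr.le,
          inv_mul_le_iff₀ hr] at hX
        linarith
      rw [indicator_of_mem hX, indicator_of_mem hX', smul_smul, mul_inv_cancel₀ hr.ne', one_smul]
    · have hX' : x + X ∉ closedBall x (ρ * r) := by
        intro h
        apply hX
        rw [mem_closedBall, dist_eq_norm, add_sub_cancel_left] at h
        rw [mem_closedBall, dist_zero_right, norm_smul, norm_inv, Real.norm_of_nonneg hr.le,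
          inv_mul_le_iff₀ hr]
        linarith
      rw [indicator_of_notMem hX, indicator_of_notMem hX']
  simp_rw [h3]
  rw [lintegral_add_left_eq_self (fun X => (closedBall x (ρ * r)).indicator F X) x,
    lintegral_indicator measurableSet_closedBall]

section win

variable {κ U CN CD Cm Cg L : ℝ} {M : ℕ}

/-- **window theorem** -/
theorem win (hcore : CoreProp κ L U CN CD M) (hL : 0 < L) (hCg : 0 < Cg) (hCm : 0 < Cm)
    {ε : ℝ} (hε : 0 < ε) :
    ∃ ρ e C : ℝ, 0 < ρ ∧ 0 < e ∧ 0 < C ∧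
      ∀ (K t : ℝ), 2 * L ≤ K → 0 < t →
      ∀ (Ω : Type) [MeasurableSpace Ω] (π : Measure Ω) (χ : Ω → ℝ → P2 → ℝ≥0∞)
        (u : Ω → ℝ → P2 → R3) (W m : Dn) (G : Dn → Dn),
        UHyp π (t * (1 - L / K)) t U CN CD M χ u W → MHyp κ Cm U (t * (1 - L / K)) t m →
        GHyp π (t * (1 - L / K)) t Cg K χ u G →
      ∀ (x : P2) (ub : P2) (sg : Ω → ℝ),
        Near L U e ρ (scX t (t / K) L x χ) (scU t (t / K) x u) ub sg → Measurable sg →
      ∀ h : Dn, MD h → ∀ N Mloc : ℝ≥0∞,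
        (∀ s y v, t * (1 - L / K) ≤ s → s ≤ t → h s y v ≤ N * (W s y v * m s y v)) →
        (∀ s, t * (1 - L / K) ≤ s → s ≤ t →
          ∫⁻ y in closedBall x (ρ * (t / K)), ∫⁻ z in closedBall (0 : R3) ρ,
            h s y z / m s y z ≤ Mloc) →
      ∀ v, (fun h => DuhT (t * (1 - L / K)) (G h))^[4] h t x v
        ≤ (ENNReal.ofReal ε * N + ENNReal.ofReal (C * (K / t) ^ 2) * Mloc)
          * (W t x v * m t x v) := by
  set C0 : ℝ := 2 * Cg * Cm with hC0
  have hC0pos : 0 < C0 := by positivity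
  obtain ⟨ρ, e, C', hρ, he, hC', H⟩ := hcore (ε / C0 ^ 4) (by positivity)
  refine ⟨ρ, e, C0 ^ 4 * C', hρ, he, by positivity, ?_⟩
  intro K t hKL ht Ω _ π χ u W m G hU hm hG x ub sg hN hsg h hh N Mloc hle hmass v
  have hK : 0 < K := by linarith
  set r : ℝ := t / K with hr
  have hrpos : 0 < r := by positivity
  have hmem0 : (0 : ℝ) ∈ Icc 0 L := ⟨le_rfl, hL.le⟩
  have hyp := win_hyp ht hK hL hKL hU x
  rw [← hr] at hyp
  have hbound : ∀ c ξ v, 0 ≤ c → c ≤ L → scD t r x m h c ξ v ≤ N * scW t r L x W c ξ v := by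
    intro c ξ v h0 h1
    have hc : c ∈ Icc 0 L := ⟨h0, h1⟩
    obtain ⟨hw1, hw2, _⟩ := win_time ht hK hL.le hKL hc
    rw [← hr] at hw1 hw2
    rw [scW_of_mem hc]
    unfold scD
    refine ENNReal.div_le_of_le_mul ?_
    rw [mul_assoc]
    exact hle _ _ _ hw1 hw2
  have hmass' : ∀ c, 0 ≤ c → c ≤ L →
      ∫⁻ ξ in closedBall (0 : P2) ρ, ∫⁻ z in closedBall (0 : R3) ρ, scD t r x m h c ξ z
        ≤ ENNReal.ofReal ((K / t) ^ 2) * Mloc := by
    intro c h0 h1
    have hc : c ∈ Icc 0 L := ⟨h0, h1⟩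
    obtain ⟨hw1, hw2, _⟩ := win_time ht hK hL.le hKL hc
    rw [← hr] at hw1 hw2
    have hF : Measurable fun y : P2 => ∫⁻ z in closedBall (0 : R3) ρ,
        h (t - r * c) y z / m (t - r * c) y z := by
      have h2 : Measurable fun q : P2 × R3 => h (t - r * c) q.1 q.2 / m (t - r * c) q.1 q.2 := by
        have h3 : Measurable fun q : P2 × R3 => (t - r * c, q.1, q.2) := by fun_prop
        exact (hh.comp h3).div (hm.meas.comp h3)
      exact h2.lintegral_prod_right' (ν := volume.restrict (closedBall (0 : R3) ρ))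
    have h4 := lintegral_ball_scale (ρ := ρ) hrpos x hF
    have h5 : ∫⁻ ξ in closedBall (0 : P2) ρ, ∫⁻ z in closedBall (0 : R3) ρ, scD t r x m h c ξ z
        = ∫⁻ ξ in closedBall (0 : P2) ρ, (fun y : P2 => ∫⁻ z in closedBall (0 : R3) ρ,
        h (t - r * c) y z / m (t - r * c) y z) (x + r • ξ) := rfl
    rw [h5, h4]
    refine mul_le_mul' ?_ (hmass _ hw1 hw2)
    apply ENNReal.ofReal_le_ofReal
    rw [hr]
    apply le_of_eq
    field_simp
  have hNear : Near L U e ρ (scX t r L x χ) (scU t r x u) ub sg := hN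
  have hfin := H Ω π (scX t r L x χ) (scU t r x u) (scW t r L x W) ub sg hyp hNear hsg
    (scD t r x m h) (measurable_scD hm.meas hh) N _ hbound hmass' v
  have hit := win_iter ht hK hL hKL hCg hCm hU hm hG x hh 4 hmem0 0 v
  rw [← hr, ← hC0] at hit
  rw [scW_of_mem hmem0] at hfin
  have e1 : t - r * 0 = t := by ring
  have e2 : x + r • (0 : P2) = x := by simp
  rw [e1, e2] at hfin
  have hL1 : scD t r x m ((fun h => DuhT (t * (1 - L / K)) (G h))^[4] h) 0 0 v
      = (fun h => DuhT (t * (1 - L / K)) (G h))^[4] h t x v / m t x v := by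
    unfold scD
    rw [e1, e2]
  rw [hL1] at hit
  obtain ⟨hw1, hw2, _⟩ := win_time ht hK hL.le hKL hmem0
  have hτt : t * (1 - L / K) ≤ t := hw1.trans hw2
  have hm0 := hm.ne0 t x v hτt le_rfl
  have hmt := hm.netop t x v hτt le_rfl
  have h6 := hit.trans (mul_le_mul' le_rfl hfin)
  have h7 : (fun h => DuhT (t * (1 - L / K)) (G h))^[4] h t x v
      = (fun h => DuhT (t * (1 - L / K)) (G h))^[4] h t x v / m t x v * m t x v := by
    rw [ENNReal.div_mul_cancel hm0 hmt]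
  rw [h7]
  refine (mul_le_mul' h6 le_rfl).trans (le_of_eq ?_)
  have h8 : ENNReal.ofReal C0 ^ 4 * ENNReal.ofReal (ε / C0 ^ 4) = ENNReal.ofReal ε := by
    rw [← ENNReal.ofReal_pow hC0pos.le, ← ENNReal.ofReal_mul (by positivity)]
    congr 1; field_simp
  have h9 : ENNReal.ofReal C0 ^ 4 * (ENNReal.ofReal C' * ENNReal.ofReal ((K / t) ^ 2))
      = ENNReal.ofReal (C0 ^ 4 * C' * (K / t) ^ 2) := by
    rw [← ENNReal.ofReal_pow hC0pos.le, ← ENNReal.ofReal_mul hC'.le,
      ← ENNReal.ofReal_mul (by positivity)]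
    congr 1; ring
  rw [← h8, ← h9]
  ring

end win

section bounds

variable {Ω : Type} [MeasurableSpace Ω] {π : Measure Ω} {κ U CN CD Cm Cg L t K : ℝ} {M : ℕ}
  {χ : Ω → ℝ → P2 → ℝ≥0∞} {u : Ω → ℝ → P2 → R3} {W m : Dn} {G : Dn → Dn}

/-- the constant of the boundedness of the collision operator -/
noncomputable def CTc (κ CN CD Cm Cg : ℝ) (M : ℕ) : ℝ := Cg * Cm * CN * CD * gC M κ

/-- pointwise bound of the gain in the class -/
theorem gain_class (hκ : 0 < κ) (hCg : 0 ≤ Cg) (hCm : 0 ≤ Cm) (hCN : 0 ≤ CN) (hCD : 0 ≤ CD)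
    (hK : 0 < K)
    (hU : UHyp π (t * (1 - L / K)) t U CN CD M χ u W)
    (hm : MHyp κ Cm U (t * (1 - L / K)) t m) (hG : GHyp π (t * (1 - L / K)) t Cg K χ u G)
    (hτ : 0 < t * (1 - L / K))
    {h : Dn} (hh : MD h) {N : ℝ≥0∞} (hN : N ≠ ∞) {s : ℝ} (hs : t * (1 - L / K) < s) (hs' : s < t)
    (y : P2) (v : R3) (hle : ∀ z, h s y z ≤ N * (W s y z * m s y z)) :
    G h s y v ≤ ENNReal.ofReal (CTc κ CN CD Cm Cg M * K / (t * (1 - L / K))) * N *
      (W s y v * m s y v) := by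
  refine (gain_div_le hU hm hG hh hs hs' y v).trans ?_
  obtain ⟨q, hq⟩ := hU.Wsg s y hs.le hs'.le
  have h1 : ∀ z, h s y z / m s y z ≤ N * ENNReal.ofReal CD * Sg q z := by
    intro z
    refine ENNReal.div_le_of_le_mul ((hle z).trans ?_)
    calc N * (W s y z * m s y z) ≤ N * (ENNReal.ofReal CD * Sg q z * m s y z) :=
          mul_le_mul' le_rfl (mul_le_mul' (hq z) le_rfl)
      _ = N * ENNReal.ofReal CD * Sg q z * m s y z := by ring
  have hfin : N * ENNReal.ofReal CD ≠ ∞ := ENNReal.mul_ne_top hN ENNReal.ofReal_ne_top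
  have h2 : ∀ ω, Aop κ (u ω s y) v (fun z => h s y z / m s y z)
      ≤ ENNReal.ofReal ‖u ω s y - v‖⁻¹ * (N * ENNReal.ofReal CD * ENNReal.ofReal (gC M κ)) := by
    intro ω
    refine (win_Aop_mono κ (u ω s y) v h1).trans ?_
    unfold Aop
    refine mul_le_mul' le_rfl ?_
    have h3 : PA κ (u ω s y) v (fun z => N * ENNReal.ofReal CD * Sg q z)
        = N * ENNReal.ofReal CD * PA κ (u ω s y) v (Sg q) := by
      unfold PA
      have h4 : (fun z => ker κ v z * (N * ENNReal.ofReal CD * Sg q z))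
          = fun z => N * ENNReal.ofReal CD * (ker κ v z * Sg q z) := by funext z; ring
      rw [h4, planeInt_const_mul hfin]
    rw [h3]
    exact mul_le_mul' le_rfl (PA_Sg_le M hκ q (u ω s y) v)
  have h5 : ∫⁻ ω, χ ω s y * Aop κ (u ω s y) v (fun z => h s y z / m s y z) ∂π
      ≤ N * ENNReal.ofReal CD * ENNReal.ofReal (gC M κ) * (ENNReal.ofReal CN * W s y v) := by
    have hfin2 : N * ENNReal.ofReal CD * ENNReal.ofReal (gC M κ) ≠ ∞ :=
      ENNReal.mul_ne_top hfin ENNReal.ofReal_ne_top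
    calc ∫⁻ ω, χ ω s y * Aop κ (u ω s y) v (fun z => h s y z / m s y z) ∂π
        ≤ ∫⁻ ω, N * ENNReal.ofReal CD * ENNReal.ofReal (gC M κ) *
          (χ ω s y * ENNReal.ofReal ‖u ω s y - v‖⁻¹) ∂π := by
          refine lintegral_mono fun ω => ?_
          refine (mul_le_mul' le_rfl (h2 ω)).trans (le_of_eq ?_)
          ring
      _ = N * ENNReal.ofReal CD * ENNReal.ofReal (gC M κ) *
          ∫⁻ ω, χ ω s y * ENNReal.ofReal ‖u ω s y - v‖⁻¹ ∂π := lintegral_const_mul' _ _ hfin2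
      _ ≤ _ := mul_le_mul' le_rfl (hU.newton s y v hs.le hs'.le)
  have hspos : 0 < s := hτ.trans hs
  have hgC := gC_pos M hκ
  have h6 : ENNReal.ofReal (Cg * K / s) ≤ ENNReal.ofReal (Cg * K / (t * (1 - L / K))) := by
    apply ENNReal.ofReal_le_ofReal
    apply div_le_div_of_nonneg_left (by positivity) hτ hs.le
  calc ENNReal.ofReal (Cg * K / s) * (ENNReal.ofReal Cm * m s y v *
        ∫⁻ ω, χ ω s y * Aop κ (u ω s y) v (fun z => h s y z / m s y z) ∂π)
      ≤ ENNReal.ofReal (Cg * K / (t * (1 - L / K))) * (ENNReal.ofReal Cm * m s y v *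
        (N * ENNReal.ofReal CD * ENNReal.ofReal (gC M κ) * (ENNReal.ofReal CN * W s y v))) :=
        mul_le_mul' h6 (mul_le_mul' le_rfl h5)
    _ = (ENNReal.ofReal (Cg * K / (t * (1 - L / K))) * ENNReal.ofReal Cm * ENNReal.ofReal CN *
          ENNReal.ofReal CD * ENNReal.ofReal (gC M κ)) * N * (W s y v * m s y v) := by ring
    _ = _ := by
        rw [← ENNReal.ofReal_mul (by positivity), ← ENNReal.ofReal_mul (by positivity),
          ← ENNReal.ofReal_mul (by positivity), ← ENNReal.ofReal_mul (by positivity)]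
        congr 3
        unfold CTc
        ring

/-- **(win1)** boundedness of one Duhamel step -/
theorem win1 (hκ : 0 < κ) (hCg : 0 ≤ Cg) (hCm : 0 ≤ Cm) (hCN : 0 ≤ CN) (hCD : 0 ≤ CD)
    (hK : 0 < K)
    (hU : UHyp π (t * (1 - L / K)) t U CN CD M χ u W)
    (hm : MHyp κ Cm U (t * (1 - L / K)) t m) (hG : GHyp π (t * (1 - L / K)) t Cg K χ u G)
    (hτ : 0 < t * (1 - L / K))
    {h : Dn} (hh : MD h) {N : ℝ≥0∞} (hN : N ≠ ∞)
    (hle : ∀ s y v, t * (1 - L / K) < s → s < t → h s y v ≤ N * (W s y v * m s y v))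
    {s : ℝ} (hs : t * (1 - L / K) ≤ s) (hs' : s ≤ t) (y : P2) (v : R3) :
    DuhT (t * (1 - L / K)) (G h) s y v
      ≤ ENNReal.ofReal (CTc κ CN CD Cm Cg M * K / (t * (1 - L / K)) * (s - t * (1 - L / K))) *
        N * (W s y v * m s y v) := by
  set τ : ℝ := t * (1 - L / K) with hτdef
  have hgC := gC_pos M hκ
  have hC : 0 ≤ CTc κ CN CD Cm Cg M := by unfold CTc; positivity
  unfold DuhT
  have h1 : ∀ s1 ∈ Ioo τ s, G h s1 (y - (s - s1) • bar v) v
      ≤ ENNReal.ofReal (CTc κ CN CD Cm Cg M * K / τ) * N * (W s y v * m s y v) := by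
    intro s1 hs1
    refine (gain_class hκ hCg hCm hCN hCD hK hU hm hG hτ hh hN hs1.1 (hs1.2.trans_le hs') _ v
      (fun z => hle s1 _ z hs1.1 (hs1.2.trans_le hs'))).trans ?_
    refine mul_le_mul' le_rfl (mul_le_mul' ?_ ?_)
    · exact hU.Wmono s1 s y v hs1.1.le hs1.2.le hs'
    · exact hm.mono s1 s y v hs1.1.le hs1.2.le hs'
  refine (setLIntegral_mono' measurableSet_Ioo h1).trans (le_of_eq ?_)
  rw [setLIntegral_const, Real.volume_Ioo,
    ENNReal.ofReal_mul (p := CTc κ CN CD Cm Cg M * K / τ) (by positivity)]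
  ring

/-- one Duhamel step on the window, with the constant `2 C_T L` -/
theorem win1' (hκ : 0 < κ) (hCg : 0 ≤ Cg) (hCm : 0 ≤ Cm) (hCN : 0 ≤ CN) (hCD : 0 ≤ CD)
    (ht : 0 < t) (hL : 0 < L) (hKL : 2 * L ≤ K)
    (hU : UHyp π (t * (1 - L / K)) t U CN CD M χ u W)
    (hm : MHyp κ Cm U (t * (1 - L / K)) t m) (hG : GHyp π (t * (1 - L / K)) t Cg K χ u G)
    {h : Dn} (hh : MD h) {N : ℝ≥0∞} (hN : N ≠ ∞)
    (hle : ∀ s y v, t * (1 - L / K) < s → s < t → h s y v ≤ N * (W s y v * m s y v))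
    {s : ℝ} (hs : t * (1 - L / K) ≤ s) (hs' : s ≤ t) (y : P2) (v : R3) :
    DuhT (t * (1 - L / K)) (G h) s y v
      ≤ ENNReal.ofReal (2 * CTc κ CN CD Cm Cg M * L) * N * (W s y v * m s y v) := by
  have hK : 0 < K := by linarith
  have hL2 : L / K ≤ 1 / 2 := by rw [div_le_div_iff₀ hK (by norm_num)]; linarith
  have hτ : 0 < t * (1 - L / K) := by
    apply mul_pos ht; linarith
  refine (win1 hκ hCg hCm hCN hCD hK hU hm hG hτ hh hN hle hs hs' y v).trans ?_
  refine mul_le_mul' (mul_le_mul' (ENNReal.ofReal_le_ofReal ?_) le_rfl) le_rfl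
  have hgC := gC_pos M hκ
  have hC : 0 ≤ CTc κ CN CD Cm Cg M := by unfold CTc; positivity
  have h1 : s - t * (1 - L / K) ≤ t * L / K := by
    have : t - t * (1 - L / K) = t * L / K := by field_simp; ring
    linarith
  have h2 : t / 2 ≤ t * (1 - L / K) := by nlinarith
  calc CTc κ CN CD Cm Cg M * K / (t * (1 - L / K)) * (s - t * (1 - L / K))
      ≤ CTc κ CN CD Cm Cg M * K / (t * (1 - L / K)) * (t * L / K) := by
        apply mul_le_mul_of_nonneg_left h1; positivity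
    _ = CTc κ CN CD Cm Cg M * L * (t / (t * (1 - L / K))) := by
        have : t * (1 - L / K) ≠ 0 := hτ.ne'
        field_simp
    _ ≤ CTc κ CN CD Cm Cg M * L * 2 := by
        apply mul_le_mul_of_nonneg_left _ (by positivity)
        rw [div_le_iff₀ hτ]; linarith
    _ = _ := by ring

end bounds

end Crest.Agent.R68.S
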