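import Mathlib
import Crest.Agent.R68.SWin2

/-!
R68 / SWin3: the window theorem of Part S for subsolutions of the Duhamel equation (helper653).
-/

set_option autoImplicit false
open MeasureTheory Set Metric
open scoped ENNReal NNReal
open Crest.AnalysisR.VecCalc3 Crest.AnalysisR.PDE.Boltzmann

namespace Crest.Agent.R68.S

section iter

variable {τ t : ℝ} {G : Dn → Dn}

theorem MD_add {f g : Dn} (hf : MD f) (hg : MD g) : MD (fun s y v => f s y v + g s y v) :=
  Measurable.add hf hg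

theorem measurable_along {q : Dn} (hq : MD q) (s : ℝ) (y : P2) (v : R3) :
    Measurable fun s1 => q s1 (y - (s - s1) • bar v) v := by
  have h1 : Measurable fun s1 : ℝ => (s1, y - (s - s1) • bar v, v) := by fun_prop
  exact hq.comp h1

theorem T_mono (hA : GAdd τ t G) {f g : Dn} (hf : MD f) (hg : MD g)
    (hfg : ∀ s y v, τ ≤ s → s ≤ t → f s y v ≤ g s y v) {s : ℝ} (hs' : s ≤ t)
    (y : P2) (v : R3) : DuhT τ (G f) s y v ≤ DuhT τ (G g) s y v := by
  unfold DuhT
  refine setLIntegral_mono' measurableSet_Ioo fun s1 hs1 => ?_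
  have h1 : s1 < t := hs1.2.trans_le hs'
  exact hA.mono f g hf hg s1 hs1.1 h1 (fun y v => hfg s1 y v hs1.1.le h1.le) _ _

theorem T_add (hA : GAdd τ t G) {f g : Dn} (hf : MD f) (hg : MD g) {s : ℝ} (hs' : s ≤ t)
    (y : P2) (v : R3) : DuhT τ (G (fun s y v => f s y v + g s y v)) s y v
      ≤ DuhT τ (G f) s y v + DuhT τ (G g) s y v := by
  unfold DuhT
  rw [← lintegral_add_left (measurable_along (hA.measG f hf) s y v)]
  refine setLIntegral_mono' measurableSet_Ioo fun s1 hs1 => ?_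
  exact hA.add f g hf hg s1 hs1.1 (hs1.2.trans_le hs') _ _

variable (hA : GAdd τ t G) (hM : ∀ h, MD h → MD (DuhT τ (G h)))

include hM in
theorem MD_it {h : Dn} (hh : MD h) (n : ℕ) : MD ((fun h => DuhT τ (G h))^[n] h) := by
  induction n with
  | zero => exact hh
  | succ n ih => rw [Function.iterate_succ_apply']; exact hM _ ih

include hA hM

theorem it_mono {f g : Dn} (hf : MD f) (hg : MD g)
    (hfg : ∀ s y v, τ ≤ s → s ≤ t → f s y v ≤ g s y v) (n : ℕ) :
    ∀ s y v, τ ≤ s → s ≤ t →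
      (fun h => DuhT τ (G h))^[n] f s y v ≤ (fun h => DuhT τ (G h))^[n] g s y v := by
  induction n with
  | zero => exact hfg
  | succ n ih =>
    intro s y v _ hs'
    rw [Function.iterate_succ_apply', Function.iterate_succ_apply']
    exact T_mono hA (MD_it hM hf n) (MD_it hM hg n) ih hs' y v

theorem it_add {f g : Dn} (hf : MD f) (hg : MD g) (n : ℕ) :
    ∀ s y v, τ ≤ s → s ≤ t →
      (fun h => DuhT τ (G h))^[n] (fun s y v => f s y v + g s y v) s y v
        ≤ (fun h => DuhT τ (G h))^[n] f s y v + (fun h => DuhT τ (G h))^[n] g s y v := by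
  induction n with
  | zero => intro s y v _ _; exact le_rfl
  | succ n ih =>
    intro s y v _ hs'
    rw [Function.iterate_succ_apply', Function.iterate_succ_apply', Function.iterate_succ_apply']
    refine (T_mono hA (MD_it hM (MD_add hf hg) n)
      (MD_add (MD_it hM hf n) (MD_it hM hg n)) ih hs' y v).trans ?_
    exact T_add hA (MD_it hM hf n) (MD_it hM hg n) hs' y v

/-- expansion of a subsolution -/
theorem it_expand {h h0 : Dn} (hh : MD h) (hh0 : MD h0)
    (hsub : ∀ s y v, τ ≤ s → s ≤ t → h s y v ≤ h0 s y v + DuhT τ (G h) s y v) (n : ℕ) :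
    ∀ s y v, τ ≤ s → s ≤ t →
      h s y v ≤ ∑ j ∈ Finset.range n, (fun h => DuhT τ (G h))^[j] h0 s y v
        + (fun h => DuhT τ (G h))^[n] h s y v := by
  induction n with
  | zero => intro s y v _ _; simp
  | succ n ih =>
    intro s y v hs hs'
    refine (ih s y v hs hs').trans ?_
    rw [Finset.sum_range_succ, add_assoc]
    refine add_le_add le_rfl ?_
    have h1 := it_mono hA hM hh (MD_add hh0 (hM h hh)) hsub n s y v hs hs'
    have h2 := it_add hA hM hh0 (hM h hh) n s y v hs hs'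
    refine (h1.trans h2).trans (le_of_eq ?_)
    rw [Function.iterate_succ_apply]

end iter

section win3

/-- iterates in the class -/
theorem it_class {Ω : Type} [MeasurableSpace Ω] {π : Measure Ω} {κ U CN CD Cm Cg L t K : ℝ}
    {M : ℕ} {χ : Ω → ℝ → P2 → ℝ≥0∞} {u : Ω → ℝ → P2 → R3} {W m : Dn} {G : Dn → Dn}
    (hκ : 0 < κ) (hCg : 0 ≤ Cg) (hCm : 0 ≤ Cm) (hCN : 0 ≤ CN) (hCD : 0 ≤ CD)
    (ht : 0 < t) (hL : 0 < L) (hKL : 2 * L ≤ K)
    (hU : UHyp π (t * (1 - L / K)) t U CN CD M χ u W)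
    (hm : MHyp κ Cm U (t * (1 - L / K)) t m) (hG : GHyp π (t * (1 - L / K)) t Cg K χ u G)
    {h : Dn} (hh : MD h) {B : ℝ≥0∞} (hB : B ≠ ∞)
    (hle : ∀ s y v, t * (1 - L / K) ≤ s → s ≤ t → h s y v ≤ B * (W s y v * m s y v)) (n : ℕ) :
    ∀ s y v, t * (1 - L / K) ≤ s → s ≤ t →
      (fun h => DuhT (t * (1 - L / K)) (G h))^[n] h s y v
        ≤ ENNReal.ofReal (2 * CTc κ CN CD Cm Cg M * L) ^ n * B * (W s y v * m s y v) := by
  induction n with
  | zero => intro s y v hs hs'; simpa using hle s y v hs hs'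
  | succ n ih =>
    intro s y v hs hs'
    rw [Function.iterate_succ_apply']
    have hfin : ENNReal.ofReal (2 * CTc κ CN CD Cm Cg M * L) ^ n * B ≠ ∞ :=
      ENNReal.mul_ne_top (ENNReal.pow_ne_top ENNReal.ofReal_ne_top) hB
    refine (win1' hκ hCg hCm hCN hCD ht hL hKL hU hm hG (MD_it hG.meas hh n) hfin
      (fun s y v h1 h2 => ih s y v h1.le h2.le) hs hs' y v).trans (le_of_eq ?_)
    rw [pow_succ]
    ring

/-- **(win3)** window theorem for subsolutions -/
theorem win3 {κ U CN CD Cm Cg L : ℝ} {M : ℕ} (hcore : CoreProp κ L U CN CD M) (hκ : 0 < κ)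
    (hL : 0 < L) (hCg : 0 < Cg) (hCm : 0 < Cm) (hCN : 0 ≤ CN) (hCD : 0 ≤ CD)
    {ε : ℝ} (hε : 0 < ε) :
    ∃ ρ e C : ℝ, 0 < ρ ∧ 0 < e ∧ 0 < C ∧
      ∀ (K t : ℝ), 2 * L ≤ K → 0 < t →
      ∀ (Ω : Type) [MeasurableSpace Ω] (π : Measure Ω) (χ : Ω → ℝ → P2 → ℝ≥0∞)
        (u : Ω → ℝ → P2 → R3) (W m : Dn) (G : Dn → Dn),
        UHyp π (t * (1 - L / K)) t U CN CD M χ u W → MHyp κ Cm U (t * (1 - L / K)) t m →
        GHyp π (t * (1 - L / K)) t Cg K χ u G → GAdd (t * (1 - L / K)) t G →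
      ∀ (x : P2) (ub : P2) (sg : Ω → ℝ),
        Near L U e ρ (scX t (t / K) L x χ) (scU t (t / K) x u) ub sg → Measurable sg →
      ∀ h h0 : Dn, MD h → MD h0 → ∀ B N Mloc : ℝ≥0∞, B ≠ ∞ →
        (∀ s y v, t * (1 - L / K) ≤ s → s ≤ t →
          h s y v ≤ h0 s y v + DuhT (t * (1 - L / K)) (G h) s y v) →
        (∀ s y v, t * (1 - L / K) ≤ s → s ≤ t → h0 s y v ≤ B * (W s y v * m s y v)) →
        (∀ s y v, t * (1 - L / K) ≤ s → s ≤ t → h s y v ≤ N * (W s y v * m s y v)) →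
        (∀ s, t * (1 - L / K) ≤ s → s ≤ t →
          ∫⁻ y in closedBall x (ρ * (t / K)), ∫⁻ z in closedBall (0 : R3) ρ,
            h s y z / m s y z ≤ Mloc) →
      ∀ v, h t x v ≤ (ENNReal.ofReal (∑ j ∈ Finset.range 4, (2 * CTc κ CN CD Cm Cg M * L) ^ j) * B
        + ENNReal.ofReal ε * N + ENNReal.ofReal (C * (K / t) ^ 2) * Mloc)
          * (W t x v * m t x v) := by
  obtain ⟨ρ, e, C, hρ, he, hC, H⟩ := win hcore hL hCg hCm hε
  refine ⟨ρ, e, C, hρ, he, hC, ?_⟩
  intro K t hKL ht Ω _ π χ u W m G hU hm hG hA x ub sg hN hsg h h0 hh hh0 B N Mloc hB hsub hle0 hle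
    hmass v
  have hK : 0 < K := by linarith
  have hL2 : L / K ≤ 1 / 2 := by rw [div_le_div_iff₀ hK (by norm_num)]; linarith
  have hLK : 0 ≤ L / K := by positivity
  have hτt : t * (1 - L / K) ≤ t := by nlinarith
  have h1 := it_expand hA hG.meas hh hh0 hsub 4 t x v hτt le_rfl
  have h2 := H K t hKL ht Ω π χ u W m G hU hm hG x ub sg hN hsg h hh N Mloc hle hmass v
  have hgC := gC_pos M hκ
  have hY : 0 ≤ 2 * CTc κ CN CD Cm Cg M * L := by unfold CTc; positivity
  have h3 : ∑ j ∈ Finset.range 4, (fun h => DuhT (t * (1 - L / K)) (G h))^[j] h0 t x v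
      ≤ ENNReal.ofReal (∑ j ∈ Finset.range 4, (2 * CTc κ CN CD Cm Cg M * L) ^ j) * B *
        (W t x v * m t x v) := by
    rw [ENNReal.ofReal_sum_of_nonneg (fun i _ => by positivity), Finset.sum_mul, Finset.sum_mul]
    refine Finset.sum_le_sum fun j _ => ?_
    rw [ENNReal.ofReal_pow hY]
    exact it_class hκ hCg.le hCm.le hCN hCD ht hL hKL hU hm hG hh0 hB hle0 j t x v hτt le_rfl
  refine (h1.trans (add_le_add h3 h2)).trans (le_of_eq ?_)
  ring

end win3

end Crest.Agent.R68.S
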