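import Crest.Agent.R68.SBlock
import Crest.Agent.R68.SWin3

/-! Row 68, Part S: `CoreProp` (the hypothesis of the window theorems of SWin2, SWin3) holds. -/

set_option autoImplicit false

namespace Crest.Agent.R68.S

theorem coreProp (κ L U CN CD : ℝ) (M : ℕ) (hκ : 0 < κ) (hL : 0 < L) (hU : 0 < U) (hCN : 0 < CN)
    (hCD : 0 < CD) : CoreProp κ L U CN CD M :=
  fun _ hε => smoothing κ L U CN CD M hκ hL hU hCN hCD hε

end Crest.Agent.R68.S
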