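import Crest.Agent.R68.SInst
import Crest.Agent.R68.SCoreProp
import Crest.Agent.R68.LProps

/-!
# Row 68, Part S: `SOut_holds` (helper813) — the smoothing input of Part L for the final parameters
-/

set_option autoImplicit false
open MeasureTheory Set Filter
open scoped ENNReal Topology
open Crest.AnalysisR.VecCalc3 Crest.AnalysisR.PDE.Boltzmann

noncomputable section

namespace Crest.Agent.R68.L

theorem SOut_holds (Y g1 : ℝ) (hY : 1 ≤ Y) (hg1 : 0 < g1) : SOut Y g1 := by
  intro V0 L ε _ hL hε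
  have hY0 : 0 < Y := by linarith
  have hCN : 0 < CNw Y / 2 := by unfold CNw; positivity
  obtain ⟨K0, R, C, e, hK01, _, hR, hC, he, H⟩ := SI.fieldS hY0 hg1 hL hε
    (S.coreProp (g1 / 2 / 2) L (Y + 4) (CNw Y / 2) ((8 + 6 * Y) ^ 2) 2 (by positivity) hL
      (by positivity) hCN (by positivity))
  refine ⟨K0, fun K hK => ⟨R, ENNReal.ofReal (C * K ^ 2), hR.le, ENNReal.ofReal_ne_top, ?_⟩⟩
  intro ey hey _
  have hK0 : 0 ≤ K := by linarith
  filter_upwards [eventually_ge_atTop 3] with p hp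
  have hlim : ∀ᶠ j0 : ℕ in atTop, 12 * (1 + Y) * etaj p j0 ≤ e := by
    have h1 : Tendsto (fun j0 : ℕ => 12 * (1 + Y) * (1 / (2 * (j0 : ℝ) + 1))) atTop
        (𝓝 (12 * (1 + Y) * 0)) := by
      refine Tendsto.const_mul _ ?_
      have h2 : Tendsto (fun j0 : ℕ => 2 * (j0 : ℝ) + 1) atTop atTop :=
        tendsto_atTop_add_const_right _ _
          ((tendsto_natCast_atTop_atTop (R := ℝ)).const_mul_atTop (by norm_num))
      have h3 := h2.inv_tendsto_atTop
      simp only [one_div]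
      exact h3
    rw [mul_zero] at h1
    filter_upwards [h1.eventually (ge_mem_nhds he)] with j0 h3
    refine le_trans ?_ h3
    have h4 : etaj p j0 ≤ 1 / (2 * (j0 : ℝ) + 1) := by
      unfold etaj
      have h5 : (0 : ℝ) ≤ 1 / (2 * (j0 : ℝ) + 1) := by positivity
      have h6 : 1 / (2 * (j0 : ℝ) + 1) ≤ 1 := by
        rw [div_le_one (by positivity)]
        have : (0 : ℝ) ≤ j0 := by positivity
        linarith
      calc (1 / (2 * (j0 : ℝ) + 1)) ^ p ≤ (1 / (2 * (j0 : ℝ) + 1)) ^ 1 :=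
            pow_le_pow_of_le_one h5 h6 (by omega)
        _ = _ := pow_one _
    gcongr
  filter_upwards [ev_Ok K Y ey p hK0 hY0 hey hp, hlim] with j0 hP hη
  set P := par K Y ey p j0 with hPd
  have hkap : 0 < P.kap := lt_of_lt_of_le one_pos hP.kap1
  refine ⟨min (1 / 10) (min (1 / (10 * (P.Y + 2))) (min (1 / P.kap) ((50 * g1) ^ 2))), ?_, ?_⟩
  · have := hP.Y0
    positivity
  · intro t0 _ h0
    have a1 : t0 ≤ 1 / 10 := h0.trans (min_le_left _ _)
    have h1 := h0.trans (min_le_right _ _)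
    have a2 : t0 ≤ 1 / (10 * (P.Y + 2)) := h1.trans (min_le_left _ _)
    have h2 := h1.trans (min_le_right _ _)
    have a3 : t0 ≤ 1 / P.kap := h2.trans (min_le_left _ _)
    have a4 : t0 ≤ (50 * g1) ^ 2 := h2.trans (min_le_right _ _)
    have a5 : t0 * P.kap ≤ 1 := by
      calc t0 * P.kap ≤ 1 / P.kap * P.kap := by gcongr
        _ = 1 := by field_simp
    have a6 : √t0 / 100 ≤ g1 / 2 := by
      have : √t0 ≤ 50 * g1 := by
        rw [← Real.sqrt_sq (show (0 : ℝ) ≤ 50 * g1 by positivity)]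
        exact Real.sqrt_le_sqrt a4
      linarith
    exact H P hP rfl hK hη V0 t0 a1 a2 a5 a6

end Crest.Agent.R68.L
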