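import Crest.Agent.R68.X1c

/-!
# Row 68, PART X: the concrete frame satisfies `Frame`
-/

set_option autoImplicit false
open MeasureTheory Set Filter
open scoped ENNReal Real
open Crest.AnalysisR.VecCalc3 Crest.AnalysisR.PDE.Boltzmann

noncomputable section

namespace Crest.Agent.R68.X1

open Crest.Agent.R68.A Crest.Agent.R68.L Crest.Agent.R68.X Crest.Agent.R68.XUp

theorem Z_coord (a : R3) : Z a = 1 + 23 / 100 * (a 0 ^ 2 + a 1 ^ 2 + a 2 ^ 2)
    + 17 / 100 * (a 2) ^ 2 + 1 / 1000 * (a 0 ^ 2 + a 1 ^ 2 + a 2 ^ 2) ^ 2 := by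
  unfold Z
  have : ‖a‖ ^ 4 = (‖a‖ ^ 2) ^ 2 := by ring
  rw [this, norm_sq_coord]

theorem Z_growth {a b : R3} {C δ : ℝ} (hC : 0 ≤ C) (hδ : 0 ≤ δ) (hδ1 : δ ≤ 1) (h0 : b 0 = a 0)
    (h2 : b 2 = a 2) (h1 : |b 1| ≤ |a 1| + C * (1 + ‖a‖) * δ) :
    Z b ≤ Real.exp (2 * (4 * C + 2 * C ^ 2) * δ) * Z a := by
  set n := a 0 ^ 2 + a 1 ^ 2 + a 2 ^ 2 with hn
  set m := b 0 ^ 2 + b 1 ^ 2 + b 2 ^ 2 with hm
  set N := ‖a‖ with hN
  have hNn : N ^ 2 = n := norm_sq_coord a
  have hN0 : 0 ≤ N := norm_nonneg _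
  have hn0 : 0 ≤ n := by positivity
  have ha1 : |a 1| ≤ N := by simpa using PiLp.norm_apply_le a 1
  have hsq : b 1 ^ 2 ≤ (|a 1| + C * (1 + N) * δ) ^ 2 := by
    rw [← sq_abs (b 1)]; gcongr
  have hmn : 1 + m ≤ (1 + n) * (1 + (4 * C + 2 * C ^ 2) * δ) := by
    have e1 : m = n + (b 1 ^ 2 - a 1 ^ 2) := by rw [hm, hn, h0, h2]; ring
    have e2 : b 1 ^ 2 - a 1 ^ 2 ≤ 2 * |a 1| * (C * (1 + N) * δ) + (C * (1 + N) * δ) ^ 2 := by
      have : (|a 1| + C * (1 + N) * δ) ^ 2
        = a 1 ^ 2 + 2 * |a 1| * (C * (1 + N) * δ) + (C * (1 + N) * δ) ^ 2 := by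
        rw [← sq_abs (a 1)]; ring
      linarith
    have e3 : 2 * |a 1| * (C * (1 + N) * δ) ≤ 4 * C * (1 + n) * δ := by
      calc 2 * |a 1| * (C * (1 + N) * δ) ≤ 2 * N * (C * (1 + N) * δ) := by gcongr
        _ = 2 * C * (N + N ^ 2) * δ := by ring
        _ ≤ 2 * C * (2 * (1 + N ^ 2)) * δ := by
            gcongr
            nlinarith [sq_nonneg (N - 1)]
        _ = _ := by rw [hNn]; ring
    have e4 : (C * (1 + N) * δ) ^ 2 ≤ 2 * C ^ 2 * (1 + n) * δ := by
      calc (C * (1 + N) * δ) ^ 2 = C ^ 2 * (1 + N) ^ 2 * (δ * δ) := by ring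
        _ ≤ C ^ 2 * (2 * (1 + N ^ 2)) * (δ * 1) := by
            gcongr
            nlinarith [sq_nonneg (N - 1)]
        _ = _ := by rw [hNn]; ring
    rw [e1]
    nlinarith
  set q := 1 + (4 * C + 2 * C ^ 2) * δ with hq
  have hq1 : 1 ≤ q := by
    rw [hq]; have : 0 ≤ (4 * C + 2 * C ^ 2) * δ := by positivity
    linarith
  have hm0 : 0 ≤ m := by positivity
  have hZb : Z b = 1 + 23 / 100 * m + 17 / 100 * (a 2) ^ 2 + 1 / 1000 * m ^ 2 := by
    rw [Z_coord, h2, hm, h2]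
  have hZa : Z a = 1 + 23 / 100 * n + 17 / 100 * (a 2) ^ 2 + 1 / 1000 * n ^ 2 := Z_coord a
  have h3 : Z b ≤ q ^ 2 * Z a := by
    rw [hZb, hZa]
    obtain ⟨e, he⟩ : ∃ e, q = 1 + e := ⟨q - 1, by ring⟩
    have he0 : 0 ≤ e := by linarith
    rw [he] at hmn ⊢
    have hm1 : m ≤ n + e * (1 + n) := by nlinarith
    have hm2 : m ^ 2 ≤ (n + e * (1 + n)) ^ 2 := by gcongr
    have hz := sq_nonneg (a 2)
    nlinarith [mul_nonneg he0 hn0, mul_nonneg he0 hz, mul_nonneg (mul_nonneg he0 he0) hz,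
      mul_nonneg (mul_nonneg he0 he0) hn0, mul_nonneg he0 (mul_nonneg hn0 hn0),
      mul_nonneg (mul_nonneg he0 he0) (mul_nonneg hn0 hn0), mul_nonneg he0 he0]
  refine h3.trans ?_
  have hZ0 : 0 ≤ Z a := zero_le_one.trans (one_le_Z a)
  gcongr
  have h4 : q ≤ Real.exp ((4 * C + 2 * C ^ 2) * δ) := by
    have := Real.add_one_le_exp ((4 * C + 2 * C ^ 2) * δ)
    rw [hq]; linarith
  calc q ^ 2 ≤ Real.exp ((4 * C + 2 * C ^ 2) * δ) ^ 2 := by gcongr
    _ = _ := by rw [← Real.exp_nat_mul]; congr 1; push_cast; ring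

/-- constant of the flight estimate -/
def C2f (P : Par) : ℝ := 800 * P.Y * (1 + P.kap) * (1 + 2 * P.Y)

/-- growth constant of the weight -/
def Ccf (P : Par) : ℝ := 2 * (4 * C2f P + 2 * C2f P ^ 2)

theorem Ze_anti {P : Par} (hY : 0 ≤ P.Y) (hκ : 0 ≤ P.kap) (hdl : 0 < P.dl) {s t : ℝ}
    (hs : 0 < s) (hst : s ≤ t) (ht1 : t ≤ 1) (x : P2) (v : R3) :
    ENNReal.ofReal (Real.exp (-(Ccf P * √t))) * Ze (cfr P t x) v
      ≤ ENNReal.ofReal (Real.exp (-(Ccf P * √s))) * Ze (cfr P s (x - (t - s) • bar v)) v := by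
  set x' : P2 := x - (t - s) • bar v with hx'
  have hx : x = x' + (t - s) • bar v := by rw [hx']; abel
  have hfl := yfr_flight hY hκ hdl hs hst ht1 x' v
  rw [← hx] at hfl
  have hroot0 : 0 ≤ √t - √s := by have : √s ≤ √t := Real.sqrt_le_sqrt hst; linarith
  have hroot1 : √t - √s ≤ 1 := by
    have := Real.sqrt_nonneg s
    have : √t ≤ 1 := Real.sqrt_le_one.2 ht1
    linarith
  have hC : 0 ≤ C2f P := by unfold C2f; positivity
  have hc : ‖cfr P s x'‖ ≤ 2 * P.Y := by
    have h1 : ‖cfr P s x'‖ ^ 2 = yfr P s x' ^ 2 := by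
      rw [norm_sq_coord, cfr_zero, cfr_one, cfr_two]; ring
    have h2 : ‖cfr P s x'‖ = |yfr P s x'| := by
      rw [← abs_of_nonneg (norm_nonneg (cfr P s x'))]
      exact (sq_eq_sq_iff_abs_eq_abs _ _).1 h1
    rw [h2]; exact abs_yfr_le hY _ _
  have hv : ‖v‖ ≤ ‖v - cfr P s x'‖ + 2 * P.Y := by
    have := norm_sub_norm_le v (cfr P s x')
    linarith
  have h := Z_growth (a := v - cfr P s x') (b := v - cfr P t x) hC hroot0 hroot1
    (by simp [cfr_zero]) (by simp [cfr_two]) (by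
      have e1 : (v - cfr P t x) 1 = v 1 - yfr P t x := by simp [cfr_one]
      have e2 : (v - cfr P s x') 1 = v 1 - yfr P s x' := by simp [cfr_one]
      rw [e1, e2]
      refine hfl.trans ?_
      gcongr ?_ + ?_ * _
      · exact le_rfl
      unfold C2f
      have h1 : 1 + ‖v‖ ≤ (1 + 2 * P.Y) * (1 + ‖v - cfr P s x'‖) := by
        have h0 := norm_nonneg (v - cfr P s x')
        nlinarith [mul_nonneg hY h0]
      calc 800 * P.Y * (1 + P.kap) * (1 + ‖v‖)
          ≤ 800 * P.Y * (1 + P.kap) * ((1 + 2 * P.Y) * (1 + ‖v - cfr P s x'‖)) := by gcongr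
        _ = _ := by ring)
  unfold Ze
  rw [← ENNReal.ofReal_mul (Real.exp_pos _).le, ← ENNReal.ofReal_mul (Real.exp_pos _).le]
  apply ENNReal.ofReal_le_ofReal
  calc Real.exp (-(Ccf P * √t)) * Z (v - cfr P t x)
      ≤ Real.exp (-(Ccf P * √t)) * (Real.exp (2 * (4 * C2f P + 2 * C2f P ^ 2) * (√t - √s)) *
        Z (v - cfr P s x')) := by gcongr
    _ = _ := by
      rw [← mul_assoc, ← Real.exp_add]
      congr 2
      unfold Ccf
      ring


/-! ### the fuel is concentrated near the frame -/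

theorem eta_small {P : Par} (h : P.Ok) : (P.Y + 2) * etaj P.p P.j0 ≤ 1 / 1000000 := by
  have hj : (200 : ℝ) ≤ P.j0 := by exact_mod_cast h.j0
  set m : ℝ := 2 * (P.j0 : ℝ) + 1 with hm
  have hm401 : 401 ≤ m := by rw [hm]; linarith
  have hdl := Fuel.Ok.dlp h
  have hdl2 : P.dl ^ 2 = 1 / (2 * P.j0) := Fuel.dl_sq
  have hY := h.Y0
  have hYs := h.Ysm
  -- Y ≤ m / 20
  have hYm : P.Y ≤ m / 20 := by
    have h1 : P.Y * P.dl * P.dl ≤ 1 / 20 * P.dl := by gcongr
    have h2 : P.Y * P.dl ^ 2 ≤ 1 / 20 * P.dl := by rw [pow_two, ← mul_assoc]; exact h1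
    rw [hdl2] at h2
    have h3 := Fuel.Ok.dl20 h
    have h4 : P.Y ≤ 1 / 20 * P.dl * (2 * P.j0) := by
      have h5 : (0 : ℝ) < 2 * P.j0 := by linarith
      rw [mul_one_div, div_le_iff₀ h5] at h2
      exact h2
    nlinarith
  have he : etaj P.p P.j0 ≤ 1 / m ^ 3 := by
    unfold etaj
    have h1 : (1 / m) ^ P.p ≤ (1 / m) ^ 3 :=
      pow_le_pow_of_le_one (by positivity) (by rw [div_le_one (by linarith)]; linarith) h.p3
    calc (1 / (2 * (P.j0 : ℝ) + 1)) ^ P.p = (1 / m) ^ P.p := by rw [hm]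
      _ ≤ (1 / m) ^ 3 := h1
      _ = _ := by rw [one_div_pow]
  have he0 := Fuel.etaj_pos P.p P.j0
  calc (P.Y + 2) * etaj P.p P.j0 ≤ (m / 20 + m / 20) * (1 / m ^ 3) := by
        gcongr
        linarith
    _ = 1 / (10 * m ^ 2) := by field_simp; ring
    _ ≤ 1 / 1000000 := by
        apply one_div_le_one_div_of_le (by norm_num)
        nlinarith

theorem wj_pm (j : ℕ) : wj j = 1 ∨ wj j = -1 := by
  unfold wj
  exact neg_one_pow_eq_or ℝ j

theorem near_cfr {P : Par} (h : P.Ok) (hY1 : 1 ≤ P.Y) (hc : P.c ≤ 1 / 10000) {t : ℝ} (ht : 0 < t)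
    (ht0 : t ≤ 1 / (10 * (P.Y + 2))) (x : P2) : NearFrame (phiE P t x) (cfr P t x) := by
  intro u hu
  have hφ : phi P t x u ≠ 0 := by
    intro h0; apply hu; unfold phiE; rw [h0]; simp
  obtain ⟨k, j, hj, hk⟩ := Fuel.exists_of_phi_ne h hφ
  have hvis : k ∈ Fuel.vis P t x := ⟨j, hj, u, hk⟩
  have hnorm := Fuel.norm_of_vis h ht.le hvis
  have hY := h.Y0
  have hη0 := Fuel.etaj_pos P.p P.j0
  have hηY := eta_small h
  have hη1 : etaj P.p P.j0 ≤ 1 / 1000000 := by nlinarith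
  have hc0 := h.c0
  have hdl := Fuel.Ok.dlp h
  have hdl20 := Fuel.Ok.dl20 h
  have hYs := h.Ysm
  have ht10 : t * (P.Y + 2) ≤ 1 / 10 := by
    rw [le_div_iff₀ (by positivity)] at ht0
    linarith
  have ht1 : t ≤ 1 := by nlinarith
  have hx5 : ‖x + latt k‖ ≤ 1 / 5 := by
    refine hnorm.trans ?_
    nlinarith [h.c1]
  rw [Fuel.mem_lset] at hk
  obtain ⟨⟨hl, hz⟩, h0, h1, h2⟩ := hk
  have hηj := Fuel.etaj_anti P.p hj
  have hηj0 := Fuel.etaj_pos P.p j
  set X := x + latt k with hX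
  set a := X.1 - t * u 0 with ha
  have hadl := Fuel.lane_lt_dl (Fuel.Ok.j1 h) hj hl
  have hκ := Fuel.Ok.kap0 h
  have hκ' : P.kap * P.dl = P.c := by unfold Par.kap; field_simp
  have hr : 0 < rr a := Fuel.rr_pos hl.1
  refine ⟨wj j, wj_pm j, ?_, ?_, ?_⟩
  · rw [cfr_zero, sub_zero]
    have e : u 0 = P.kap * a + (u 0 - P.kap * a) := by ring
    rw [e]
    refine (abs_add_le _ _).trans ?_
    rw [abs_mul, abs_of_nonneg hκ]
    have : P.kap * |a| ≤ P.kap * P.dl := by gcongr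
    linarith
  · rw [cfr_one, yfr_eq (k := k) (by rw [← hX]; linarith)]
    set z := X.2 - t * u 1 with hzz
    set l := lab P t X with hll
    have htr : 0 < t + rr a := by positivity
    have htl : 0 < t + rr l := by have := Fuel.rr_nonneg l; positivity
    -- first
    have e1 : u 1 - X.2 / (t + rr a) = (u 1 - z / rr a) * (rr a / (t + rr a)) := by
      rw [hzz]; field_simp; ring
    have b1 : |u 1 - X.2 / (t + rr a)| ≤ etaj P.p P.j0 := by
      rw [e1, abs_mul, abs_of_nonneg (show 0 ≤ rr a / (t + rr a) by positivity)]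
      have : rr a / (t + rr a) ≤ 1 := by rw [div_le_one htr]; linarith
      calc |u 1 - z / rr a| * (rr a / (t + rr a)) ≤ etaj P.p P.j0 * 1 := by
            gcongr
            exact h1.le.trans hηj
        _ = _ := mul_one _
    have bu : |u 1| ≤ P.Y + 1 / 1000000 := by
      have e : u 1 = z / rr a + (u 1 - z / rr a) := by ring
      rw [e]
      refine (abs_add_le _ _).trans ?_
      have : |z / rr a| ≤ P.Y := by
        rw [abs_div, abs_of_pos hr, div_le_iff₀ hr]; exact hz.le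
      linarith [h1.le.trans hηj]
    have bX : |X.2 / (t + rr a)| ≤ P.Y + 1 := by
      have e : X.2 / (t + rr a) = u 1 - (u 1 - X.2 / (t + rr a)) := by ring
      rw [e]
      refine (abs_sub _ _).trans ?_
      linarith
    have hla : |l - a| ≤ t * etaj P.p P.j0 := by
      have hκt : 0 < 1 + P.kap * t := by positivity
      have e : l - a = t * (u 0 - P.kap * a) / (1 + P.kap * t) := by
        have e0 : l = X.1 / (1 + P.kap * t) := by
          rw [hll]; unfold lab Par.kap; field_simp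
        rw [e0]
        have e2 : X.1 = a + t * u 0 := by rw [ha]; ring
        rw [e2]; field_simp; ring
      rw [e, abs_div, abs_of_pos hκt, abs_mul, abs_of_pos ht, div_le_iff₀ hκt]
      have : t * |u 0 - P.kap * a| ≤ t * etaj P.p P.j0 := by
        gcongr; exact h0.le.trans hηj
      have h5 : 0 ≤ t * etaj P.p P.j0 * (P.kap * t) := by positivity
      nlinarith
    have b2 : |X.2 / (t + rr a) - X.2 / (t + rr l)| ≤ 2 * (P.Y + 1) * etaj P.p P.j0 := by
      have e : X.2 / (t + rr a) - X.2 / (t + rr l)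
          = (X.2 / (t + rr a)) * ((l - a) * (l + a) / (t + rr l)) := by
        unfold rr at *
        field_simp
        ring
      have hal : |l + a| ≤ 2 := by
        have e : l + a = (l - a) + 2 * a := by ring
        rw [e]
        refine (abs_add_le _ _).trans ?_
        rw [abs_mul]; norm_num
        nlinarith
      rw [e, abs_mul, abs_div ((l - a) * (l + a)), abs_mul (l - a), abs_of_pos htl]
      have hrl := Fuel.rr_nonneg l
      have hq : |l - a| * |l + a| / (t + rr l) ≤ 2 * etaj P.p P.j0 := by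
        rw [div_le_iff₀ htl]
        calc |l - a| * |l + a| ≤ (t * etaj P.p P.j0) * 2 := by gcongr
          _ = 2 * etaj P.p P.j0 * t := by ring
          _ ≤ _ := by gcongr; linarith
      calc |X.2 / (t + rr a)| * (|l - a| * |l + a| / (t + rr l))
          ≤ (P.Y + 1) * (2 * etaj P.p P.j0) := by gcongr
        _ = _ := by ring
    have b3 : |u 1 - X.2 / (t + rr l)| ≤ 1 / 5000 := by
      have e : u 1 - X.2 / (t + rr l) = (u 1 - X.2 / (t + rr a))
        + (X.2 / (t + rr a) - X.2 / (t + rr l)) := by ring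
      rw [e]
      refine (abs_add_le _ _).trans ?_
      nlinarith
    have hcl : fr P t X = X.2 / (t + rr l) := by
      unfold fr
      rw [chi_eq_one hx5, mul_one]
      apply cl_of_abs_le
      have e : X.2 / (t + rr (lab P t X)) = u 1 - (u 1 - X.2 / (t + rr l)) := by rw [hll]; ring
      rw [e]
      refine (abs_sub _ _).trans ?_
      linarith
    rw [hcl]
    exact b3
  · rw [cfr_two, sub_zero]
    linarith

theorem dens_cfr {P : Par} (h : P.Ok) {t : ℝ} (ht : 0 < t)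
    (ht0 : t ≤ 1 / (10 * (P.Y + 2))) (x : P2) :
    ∫⁻ u, phiE P t x u ≤ ENNReal.ofReal (P.K / t) := by
  have hη0 := Fuel.etaj_pos P.p P.j0
  have hηY := eta_small h
  have hY := h.Y0
  have hη1 : etaj P.p P.j0 ≤ 1 / 1000000 := by nlinarith
  have hc0 := h.c0
  have hdl := Fuel.Ok.dlp h
  have hdl20 := Fuel.Ok.dl20 h
  have hYs := h.Ysm
  have ht10 : t * (P.Y + 2) ≤ 1 / 10 := by
    rw [le_div_iff₀ (by positivity)] at ht0
    linarith
  have hss := Fuel.vis_subsingleton h ht.le (by nlinarith [h.c1]) x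
  have h1 := Fuel.lint_phi_le h ht.le x (g := fun _ => 1) measurable_const
    (B := ENNReal.ofReal (P.K / t)) fun k j hj _ => by
      have h2 := Fuel.lint_phij_le h j ht.le (x + latt k) (g := fun _ => 1) measurable_const
        (A := ENNReal.ofReal (P.K / t)) (B := 1)
        (fun a _ => ENNReal.ofReal_le_ofReal ((Fuel.dens_le h ht a).trans (by
          have hκ := Fuel.Ok.kap0 h
          have hK := h.K0
          gcongr
          have := mul_nonneg hκ ht.le
          nlinarith))) (fun _ _ => le_rfl)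
      rwa [mul_one] at h2
  simp only [mul_one] at h1
  unfold phiE
  refine h1.trans ?_
  have h3 : (Fuel.vis P t x).ncard ≤ 1 := by
    have := hss.finite.to_subtype
    rw [Set.ncard_le_one_iff_subsingleton]
    exact hss
  calc ((Fuel.vis P t x).ncard : ℝ≥0∞) * ENNReal.ofReal (P.K / t)
      ≤ 1 * ENNReal.ofReal (P.K / t) := by
        gcongr
        exact_mod_cast h3
    _ = _ := one_mul _

/-- the concrete frame -/
theorem frame_phi {P : Par} (h : P.Ok) (hY1 : 1 ≤ P.Y) (hc : P.c ≤ 1 / 10000) {t0 : ℝ}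
    (ht0 : t0 ≤ 1 / (10 * (P.Y + 2))) : Frame (phiE P) (cfr P) t0 (Ccf P) P.K where
  mc := measurable_cfr P
  per := fun t x k => by unfold cfr; rw [yfr_per]
  near := fun t ht htt x => near_cfr h hY1 hc ht (htt.trans ht0) x
  dens := fun t ht htt x => dens_cfr h ht (htt.trans ht0) x
  anti := fun s t x v hs hst htt => by
    refine Ze_anti h.Y0.le (Fuel.Ok.kap0 h) (Fuel.Ok.dlp h) hs hst ?_ x v
    refine (htt.trans ht0).trans ?_
    have := h.Y0
    rw [div_le_one (by positivity)]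
    linarith

end Crest.Agent.R68.X1
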