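import Crest.Agent.R68.X1b
import Crest.Agent.R68.X1d
import Crest.Agent.R68.LProps
import Crest.Agent.R68.LMass
import Crest.Agent.R68.LK

/-!
# Row 68, PART X1 (helper105): upper growth estimate, final form

`X1Out_holds : 1 ≤ Y → 0 < g1 → 0 < g2 → X1Out Y g1 g2`.
-/

set_option autoImplicit false
open MeasureTheory Set Filter
open scoped ENNReal Real
open Crest.AnalysisR.VecCalc3 Crest.AnalysisR.PDE.Boltzmann

noncomputable section

namespace Crest.Agent.R68.X1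

open Crest.Agent.R68.A Crest.Agent.R68.L Crest.Agent.R68.X Crest.Agent.R68.XUp
open Crest.Agent.R68.LMass

/-! ### the weight against `(1+|v|)^4` -/

/-- comparison constant -/
def CZ (Y : ℝ) : ℝ := 2 * (1 + 2 * Y) ^ 4

theorem Z_le_norm (a : R3) : Z a ≤ 2 * (1 + ‖a‖) ^ 4 := by
  have h2 : (a 2) ^ 2 ≤ ‖a‖ ^ 2 := by
    rw [norm_sq_coord]; nlinarith [sq_nonneg (a 0), sq_nonneg (a 1)]
  have h := norm_nonneg a
  unfold Z
  have h3 : (1 + ‖a‖) ^ 4 = 1 + 4 * ‖a‖ + 6 * ‖a‖ ^ 2 + 4 * ‖a‖ ^ 3 + ‖a‖ ^ 4 := by ring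
  rw [h3]
  have h4 : 0 ≤ ‖a‖ ^ 3 := by positivity
  have h5 : 0 ≤ ‖a‖ ^ 4 := by positivity
  have h6 : 0 ≤ ‖a‖ ^ 2 := by positivity
  linarith

theorem norm_cfr_le {P : Par} (hY : 0 ≤ P.Y) (t : ℝ) (x : P2) : ‖cfr P t x‖ ≤ 2 * P.Y := by
  have h1 : ‖cfr P t x‖ ^ 2 = yfr P t x ^ 2 := by
    rw [norm_sq_coord, cfr_zero, cfr_one, cfr_two]; ring
  have h2 : ‖cfr P t x‖ = |yfr P t x| := by
    rw [← abs_of_nonneg (norm_nonneg (cfr P t x))]
    exact (sq_eq_sq_iff_abs_eq_abs _ _).1 h1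
  rw [h2]; exact abs_yfr_le hY _ _

theorem Ze_le {P : Par} (hY : 0 ≤ P.Y) (t : ℝ) (x : P2) (v : R3) :
    Ze (cfr P t x) v ≤ ENNReal.ofReal (CZ P.Y) * ENNReal.ofReal ((1 + ‖v‖) ^ 4) := by
  unfold Ze CZ
  rw [← ENNReal.ofReal_mul (by positivity)]
  apply ENNReal.ofReal_le_ofReal
  have h1 := norm_sub_le v (cfr P t x)
  have h2 := norm_cfr_le hY t x
  have h0 := norm_nonneg v
  have h3 : 1 + ‖v - cfr P t x‖ ≤ (1 + 2 * P.Y) * (1 + ‖v‖) := by nlinarith [mul_nonneg hY h0]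
  calc Z (v - cfr P t x) ≤ 2 * (1 + ‖v - cfr P t x‖) ^ 4 := Z_le_norm _
    _ ≤ 2 * ((1 + 2 * P.Y) * (1 + ‖v‖)) ^ 4 := by gcongr
    _ = _ := by rw [mul_pow]; ring

theorem damp_le_one {P : Par} (h : 0 ≤ Ccf P) (t : ℝ) :
    ENNReal.ofReal (Real.exp (-(Ccf P * √t))) ≤ 1 := by
  rw [ENNReal.ofReal_le_one]
  apply Real.exp_le_one_iff.2
  have := Real.sqrt_nonneg t
  have := mul_nonneg h this
  linarith

theorem Ccf_nonneg {P : Par} (hY : 0 ≤ P.Y) (hκ : 0 ≤ P.kap) : 0 ≤ Ccf P := by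
  unfold Ccf C2f; positivity

theorem zw_le {P : Par} (hY : 0 ≤ P.Y) (hκ : 0 ≤ P.kap) (t : ℝ) (x : P2) (v : R3) :
    zw (cfr P) (Ccf P) t x v ≤ ENNReal.ofReal (CZ P.Y) * ENNReal.ofReal ((1 + ‖v‖) ^ 4) := by
  unfold zw
  calc _ ≤ 1 * Ze (cfr P t x) v := by
        gcongr
        exact damp_le_one (Ccf_nonneg hY hκ) t
    _ ≤ _ := by rw [one_mul]; exact Ze_le hY t x v

/-! ### the loss -/

theorem Lc_phi_le {P : Par} (h : P.Ok) {t : ℝ} (ht : 0 < t)
    (ht0 : t ≤ 1 / (10 * (P.Y + 2))) (x : P2) (v : R3) :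
    Lc (phiE P t x) v ≤ ENNReal.ofReal (2 * π * (‖v‖ + P.Y + 5) * (P.K / t)) := by
  have hY := h.Y0
  have hLc : Lc (phiE P t x) v = ∫⁻ vs, ENNReal.ofReal (2 * π * ‖v - vs‖) * phiE P t x vs := by
    unfold Lc
    exact lintegral_congr fun vs => lintegral_abs_inner_mul _ _
  rw [hLc]
  calc ∫⁻ vs, ENNReal.ofReal (2 * π * ‖v - vs‖) * phiE P t x vs
      ≤ ∫⁻ vs, ENNReal.ofReal (2 * π * (‖v‖ + P.Y + 5)) * phiE P t x vs := by
        refine lintegral_mono fun vs => ?_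
        by_cases hv : P.Y + 5 < ‖vs‖
        · unfold phiE
          rw [C.phi_eq_zero_of_norm h hv]
          simp
        · push Not at hv
          gcongr
          have := norm_sub_le v vs
          linarith
    _ = ENNReal.ofReal (2 * π * (‖v‖ + P.Y + 5)) * ∫⁻ vs, phiE P t x vs :=
        lintegral_const_mul' _ _ ENNReal.ofReal_ne_top
    _ ≤ ENNReal.ofReal (2 * π * (‖v‖ + P.Y + 5)) * ENNReal.ofReal (P.K / t) := by
        gcongr
        exact dens_cfr h ht ht0 x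
    _ = _ := by rw [← ENNReal.ofReal_mul (by positivity)]

theorem acc_ne_top {P : Par} (h : P.Ok) {t0 : ℝ} (ht0 : t0 ≤ 1 / (10 * (P.Y + 2))) :
    ∀ s t x v, 0 < s → s ≤ t → t ≤ t0 → Acc (phiE P) s t x v ≠ ⊤ := by
  intro s t x v hs hst htt
  have hY := h.Y0
  have hK := h.K0
  unfold A.Acc
  refine ne_of_lt (lt_of_le_of_lt (b := ∫⁻ τ in Ioo s t,
    ENNReal.ofReal (2 * π * (‖v‖ + P.Y + 5) * (P.K / s))) ?_ ?_)
  · refine setLIntegral_mono' measurableSet_Ioo fun τ hτ => ?_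
    refine (Lc_phi_le h (hs.trans hτ.1) ((hτ.2.le.trans htt).trans ht0) _ v).trans ?_
    apply ENNReal.ofReal_le_ofReal
    have := hτ.1
    gcongr
  · rw [lintegral_const]
    refine ENNReal.mul_lt_top ENNReal.ofReal_lt_top ?_
    rw [Measure.restrict_apply_univ, Real.volume_Ioo]
    exact ENNReal.ofReal_lt_top

/-! ### the envelope -/

theorem one_add_mul_EE {P : Par} {g1 g2 : ℝ} (hg1 : 0 < g1) (t : ℝ) (x : P2) (v : R3) :
    ENNReal.ofReal (1 + ‖v‖) * EE P g1 g2 t x v ≤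
      ENNReal.ofReal (Real.exp (1 / (2 * g1))) * EE P (g1 / 2) g2 t x v := by
  unfold EE B2
  rw [← mul_assoc, ← mul_assoc, ← ENNReal.ofReal_mul (by positivity),
    ← ENNReal.ofReal_mul (Real.exp_pos _).le]
  gcongr ?_ * _
  apply ENNReal.ofReal_le_ofReal
  rw [Real.rpow_zero, one_mul, one_mul]
  have h0 := norm_nonneg v
  have h1 : 1 + ‖v‖ ≤ Real.exp (1 / (2 * g1)) * Real.exp (g1 / 2 * ‖v‖ ^ 2) := by
    rw [← Real.exp_add]
    have h2 : ‖v‖ ≤ 1 / (2 * g1) + g1 / 2 * ‖v‖ ^ 2 := by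
      have h3 : 1 / (2 * g1) + g1 / 2 * ‖v‖ ^ 2 - ‖v‖ = (g1 * ‖v‖ - 1) ^ 2 / (2 * g1) := by
        field_simp; ring
      have h4 : 0 ≤ (g1 * ‖v‖ - 1) ^ 2 / (2 * g1) := by positivity
      linarith
    calc 1 + ‖v‖ ≤ Real.exp ‖v‖ := by have := Real.add_one_le_exp ‖v‖; linarith
      _ ≤ _ := Real.exp_le_exp.2 h2
  have h5 : gau g1 t v * Real.exp (g1 / 2 * ‖v‖ ^ 2) = gau (g1 / 2) t v := by
    unfold gau
    rw [← Real.exp_add]
    congr 1; ring
  have h6 : 0 ≤ gau g1 t v := (Real.exp_pos _).le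
  calc (1 + ‖v‖) * (gau g1 t v * Real.exp (-g2 * (max ‖v‖ (distG x / t)) ^ 2))
      ≤ (Real.exp (1 / (2 * g1)) * Real.exp (g1 / 2 * ‖v‖ ^ 2)) *
        (gau g1 t v * Real.exp (-g2 * (max ‖v‖ (distG x / t)) ^ 2)) := by gcongr
    _ = Real.exp (1 / (2 * g1)) * ((gau g1 t v * Real.exp (g1 / 2 * ‖v‖ ^ 2)) *
        Real.exp (-g2 * (max ‖v‖ (distG x / t)) ^ 2)) := by ring
    _ = _ := by rw [h5]

/-! ### the final theorem -/

/-- smallness of the horizon -/
def t00 (Y g1 : ℝ) : ℝ := min (1 / (10 * (Y + 2))) ((25 * g1) ^ 2)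

theorem t00_pos {Y g1 : ℝ} (hY : 0 < Y) (hg1 : 0 < g1) : 0 < t00 Y g1 := by
  unfold t00; positivity

theorem sqrt_le_t00 {Y g1 s : ℝ} (hg1 : 0 < g1) (hs : s ≤ t00 Y g1) : √s / 100 ≤ g1 / 4 := by
  have h1 : s ≤ (25 * g1) ^ 2 := hs.trans (min_le_right _ _)
  have h2 : √s ≤ 25 * g1 := by
    rw [Real.sqrt_le_left (by positivity)]; exact h1
  linarith

theorem pi_bound : 3.56 * π ≤ 56 / 5 := by
  have := Real.pi_lt_d4
  norm_num at this ⊢
  linarith

theorem massBound {P : Par} (h : P.Ok) (hY1 : 1 ≤ P.Y) (hK0 : 0 < P.K) (hc : P.c ≤ 1 / 10000)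
    (hdl : (P.Y + 2) * P.dl ≤ 1 / 10) {g1 g2 t0 : ℝ} (hg1 : 0 < g1) (hg2 : 0 < g2)
    (ht0 : t0 ≤ t00 P.Y g1) :
    MassBound P (phiE P) g1 g2 t0 (56 / 5 * P.K)
      (ENNReal.ofReal (Real.exp (Ccf P)) * ENNReal.ofReal (CZ P.Y)) := by
  intro H σ τ0 A mH mσ pH pσ hτ hA heq hH0 hσ0 hHA hσA t ht htt
  have hY := h.Y0
  have hκ := Fuel.Ok.kap0 h
  have hParD := parD_of_ok h
  have ht0Y : t0 ≤ 1 / (10 * (P.Y + 2)) := ht0.trans (min_le_left _ _)
  have hφ : Meas3 (phiE P) := meas3_phiE h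
  have hfr := frame_phi h hY1 hc ht0Y
  have hsm : ∀ s, s ≤ t0 → (P.Y + 2) * (s + P.dl) < 7 / 20 := by
    intro s hs
    have h1 : (P.Y + 2) * s ≤ (P.Y + 2) * (1 / (10 * (P.Y + 2))) := by
      gcongr; exact hs.trans ht0Y
    have h2 : (P.Y + 2) * (1 / (10 * (P.Y + 2))) = 1 / 10 := by field_simp
    linarith
  have hZn : ∀ s x v, zw (cfr P) (Ccf P) s x v
      ≤ ENNReal.ofReal (CZ P.Y) * ENNReal.ofReal ((1 + ‖v‖) ^ 4) := fun s x v =>
    zw_le hY.le hκ s x v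
  -- (1) bound of the mass
  have hMB : ∀ s, 0 < s → s ≤ t0 → mz (cfr P) (Ccf P) H s
      ≤ ENNReal.ofReal (CZ P.Y) * A * CM P.Y g1 g2 * ENNReal.ofReal (t0 ^ 2) := by
    intro s hs hst
    unfold mz
    have hmB := mass_B2 hParD hg1 hg2 hs (g1 := g1) (g2 := g2)
      (by have := sqrt_le_t00 hg1 (hst.trans ht0); linarith) (hsm s hst)
    calc ∫⁻ x in cellG, ∫⁻ v, zw (cfr P) (Ccf P) s x v * H s x v
        ≤ ∫⁻ x in cellG, ∫⁻ v, (ENNReal.ofReal (CZ P.Y) * A) *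
          (ENNReal.ofReal ((1 + ‖v‖) ^ 4) * B2 P g1 g2 0 s x v) := by
          refine lintegral_mono fun x => lintegral_mono fun v => ?_
          calc zw (cfr P) (Ccf P) s x v * H s x v
              ≤ (ENNReal.ofReal (CZ P.Y) * ENNReal.ofReal ((1 + ‖v‖) ^ 4)) *
                (A * EE P g1 g2 s x v) := by
                gcongr
                · exact hZn s x v
                · exact hHA s x v hs hst
            _ = _ := by unfold EE; ring
      _ = (ENNReal.ofReal (CZ P.Y) * A) * ∫⁻ x in cellG, ∫⁻ v,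
          ENNReal.ofReal ((1 + ‖v‖) ^ 4) * B2 P g1 g2 0 s x v := by
          rw [← lintegral_const_mul' _ _ (ENNReal.mul_ne_top ENNReal.ofReal_ne_top hA)]
          refine lintegral_congr fun x => ?_
          rw [← lintegral_const_mul' _ _ (ENNReal.mul_ne_top ENNReal.ofReal_ne_top hA)]
      _ ≤ (ENNReal.ofReal (CZ P.Y) * A) * (CM P.Y g1 g2 * ENNReal.ofReal (s ^ 2)) := by gcongr
      _ ≤ (ENNReal.ofReal (CZ P.Y) * A) * (CM P.Y g1 g2 * ENNReal.ofReal (t0 ^ 2)) := by gcongr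
      _ = _ := by ring
  -- (2) the loss is integrable
  have hN : ∀ r, 0 < r → r ≤ t0 → ∫⁻ s in Ioo 0 r, nz (phiE P) (cfr P) (Ccf P) H s ≠ ⊤ := by
    intro r hr hrt
    set E1 : ℝ≥0∞ := ENNReal.ofReal (2 * π * (P.Y + 5) * (P.K / τ0)) * ENNReal.ofReal (CZ P.Y) * A *
      ENNReal.ofReal (Real.exp (1 / (2 * g1))) * (CM P.Y (g1 / 2) g2 * ENNReal.ofReal (t0 ^ 2))
      with hE1
    have hE1f : E1 ≠ ⊤ := by
      rw [hE1]
      refine ENNReal.mul_ne_top (ENNReal.mul_ne_top (ENNReal.mul_ne_top (ENNReal.mul_ne_top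
        ENNReal.ofReal_ne_top ENNReal.ofReal_ne_top) hA) ENNReal.ofReal_ne_top)
        (ENNReal.mul_ne_top (CM_ne_top _ _ _) ENNReal.ofReal_ne_top)
    refine ne_of_lt (lt_of_le_of_lt (b := ∫⁻ s in Ioo 0 r, E1) ?_ ?_)
    · refine setLIntegral_mono' measurableSet_Ioo fun s hs => ?_
      by_cases hsτ : s ≤ τ0
      · have : nz (phiE P) (cfr P) (Ccf P) H s = 0 := by
          unfold nz; simp [hH0 s _ _ hsτ]
        rw [this]; exact zero_le
      push Not at hsτ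
      have hs0 : 0 < s := hs.1
      have hst : s ≤ t0 := hs.2.le.trans hrt
      have hmB := mass_B2 hParD (g1 := g1 / 2) (g2 := g2) (by positivity) hg2 hs0
        (by have := sqrt_le_t00 hg1 (hst.trans ht0); linarith) (hsm s hst)
      have hcst : ENNReal.ofReal (2 * π * (P.Y + 5) * (P.K / τ0)) * ENNReal.ofReal (CZ P.Y) * A *
          ENNReal.ofReal (Real.exp (1 / (2 * g1))) ≠ ⊤ :=
        ENNReal.mul_ne_top (ENNReal.mul_ne_top (ENNReal.mul_ne_top
          ENNReal.ofReal_ne_top ENNReal.ofReal_ne_top) hA) ENNReal.ofReal_ne_top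
      unfold nz
      calc ∫⁻ x in cellG, ∫⁻ v, Lc (phiE P s x) v * (zw (cfr P) (Ccf P) s x v * H s x v)
          ≤ ∫⁻ x in cellG, ∫⁻ v, (ENNReal.ofReal (2 * π * (P.Y + 5) * (P.K / τ0)) *
            ENNReal.ofReal (CZ P.Y) * A * ENNReal.ofReal (Real.exp (1 / (2 * g1)))) *
            (ENNReal.ofReal ((1 + ‖v‖) ^ 4) * B2 P (g1 / 2) g2 0 s x v) := by
            refine lintegral_mono fun x => lintegral_mono fun v => ?_
            have hv := norm_nonneg v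
            have hL : Lc (phiE P s x) v ≤ ENNReal.ofReal (2 * π * (P.Y + 5) * (P.K / τ0)) *
                ENNReal.ofReal (1 + ‖v‖) := by
              refine (Lc_phi_le h hs0 (hst.trans ht0Y) x v).trans ?_
              rw [← ENNReal.ofReal_mul (by positivity)]
              apply ENNReal.ofReal_le_ofReal
              have h1 : ‖v‖ + P.Y + 5 ≤ (P.Y + 5) * (1 + ‖v‖) := by nlinarith
              calc 2 * π * (‖v‖ + P.Y + 5) * (P.K / s)
                  ≤ 2 * π * ((P.Y + 5) * (1 + ‖v‖)) * (P.K / τ0) := by gcongr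
                _ = _ := by ring
            calc Lc (phiE P s x) v * (zw (cfr P) (Ccf P) s x v * H s x v)
                ≤ (ENNReal.ofReal (2 * π * (P.Y + 5) * (P.K / τ0)) * ENNReal.ofReal (1 + ‖v‖)) *
                  ((ENNReal.ofReal (CZ P.Y) * ENNReal.ofReal ((1 + ‖v‖) ^ 4)) *
                    (A * EE P g1 g2 s x v)) := by
                  gcongr
                  · exact hZn s x v
                  · exact hHA s x v hs0 hst
              _ = (ENNReal.ofReal (2 * π * (P.Y + 5) * (P.K / τ0)) * ENNReal.ofReal (CZ P.Y) * A *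
                  ENNReal.ofReal ((1 + ‖v‖) ^ 4)) *
                  (ENNReal.ofReal (1 + ‖v‖) * EE P g1 g2 s x v) := by ring
              _ ≤ (ENNReal.ofReal (2 * π * (P.Y + 5) * (P.K / τ0)) * ENNReal.ofReal (CZ P.Y) * A *
                  ENNReal.ofReal ((1 + ‖v‖) ^ 4)) *
                  (ENNReal.ofReal (Real.exp (1 / (2 * g1))) * EE P (g1 / 2) g2 s x v) := by
                  exact mul_le_mul_right (one_add_mul_EE hg1 s x v) _
              _ = _ := by unfold EE; ring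
        _ = (ENNReal.ofReal (2 * π * (P.Y + 5) * (P.K / τ0)) *
            ENNReal.ofReal (CZ P.Y) * A * ENNReal.ofReal (Real.exp (1 / (2 * g1)))) *
            ∫⁻ x in cellG, ∫⁻ v, ENNReal.ofReal ((1 + ‖v‖) ^ 4) * B2 P (g1 / 2) g2 0 s x v := by
            rw [← lintegral_const_mul' _ _ hcst]
            refine lintegral_congr fun x => ?_
            rw [← lintegral_const_mul' _ _ hcst]
        _ ≤ (ENNReal.ofReal (2 * π * (P.Y + 5) * (P.K / τ0)) *
            ENNReal.ofReal (CZ P.Y) * A * ENNReal.ofReal (Real.exp (1 / (2 * g1)))) *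
            (CM P.Y (g1 / 2) g2 * ENNReal.ofReal (s ^ 2)) := by gcongr
        _ ≤ E1 := by rw [hE1]; gcongr
    · rw [lintegral_const]
      refine ENNReal.mul_lt_top (lt_top_iff_ne_top.2 hE1f) ?_
      rw [Measure.restrict_apply_univ, Real.volume_Ioo]
      exact ENNReal.ofReal_lt_top
  -- (3) the abstract theorem
  have hx := x1_abs hφ (perG_phiE P) mH pH mσ pσ hfr hK0 (acc_ne_top h ht0Y)
    (fun t ht htt x v => by
      rw [heq t x v]
      have e := congrFun (congrFun (congrFun (Dam_add (φ := phiE P) hφ (h := Gf (phiE P) H) (k := σ)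
        (meas3_Gf hφ mH)) t) x) v
      exact e.ge)
    hτ (fun t ht x v => hH0 t x v ht.le)
    (ENNReal.mul_ne_top (ENNReal.mul_ne_top (ENNReal.mul_ne_top ENNReal.ofReal_ne_top hA)
      (CM_ne_top _ _ _)) ENNReal.ofReal_ne_top) hMB hN t ht htt
  have hCc := Ccf_nonneg hY.le hκ
  have ht1 : t ≤ 1 := by
    refine (htt.trans ht0Y).trans ?_
    rw [div_le_one (by positivity)]; linarith
  -- lower bound of the weighted mass
  have hlow : ∫⁻ x in cellG, ∫⁻ v, H t x v ≤ ENNReal.ofReal (Real.exp (Ccf P)) *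
      mz (cfr P) (Ccf P) H t := by
    unfold mz
    rw [← lintegral_const_mul' _ _ ENNReal.ofReal_ne_top]
    refine lintegral_mono fun x => ?_
    dsimp only
    rw [← lintegral_const_mul' _ _ ENNReal.ofReal_ne_top]
    refine lintegral_mono fun v => ?_
    have h1 : 1 ≤ ENNReal.ofReal (Real.exp (Ccf P)) * zw (cfr P) (Ccf P) t x v := by
      unfold zw
      have h2 := one_le_Ze (cfr P t x) v
      calc (1 : ℝ≥0∞) ≤ (ENNReal.ofReal (Real.exp (Ccf P)) *
            ENNReal.ofReal (Real.exp (-(Ccf P * √t)))) * 1 := by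
            rw [mul_one, ← ENNReal.ofReal_mul (Real.exp_pos _).le, ← Real.exp_add,
              ENNReal.one_le_ofReal]
            apply Real.one_le_exp
            have h3 : √t ≤ 1 := Real.sqrt_le_one.2 ht1
            nlinarith
        _ ≤ (ENNReal.ofReal (Real.exp (Ccf P)) *
            ENNReal.ofReal (Real.exp (-(Ccf P * √t)))) * Ze (cfr P t x) v := by gcongr
        _ = _ := by ring
    calc H t x v = 1 * H t x v := (one_mul _).symm
      _ ≤ (ENNReal.ofReal (Real.exp (Ccf P)) * zw (cfr P) (Ccf P) t x v) * H t x v := by gcongr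
      _ = _ := by ring
  refine hlow.trans ?_
  rw [mul_assoc]
  gcongr
  refine hx.trans ?_
  rw [← lintegral_const_mul' _ _ ENNReal.ofReal_ne_top]
  refine setLIntegral_mono' measurableSet_Ioo fun s hs => ?_
  have hs0 : 0 < s := hs.1
  have hr : (t / s) ^ (3.56 * π * P.K) ≤ (t / s) ^ (56 / 5 * P.K) := by
    apply Real.rpow_le_rpow_of_exponent_le
    · rw [one_le_div hs0]; exact hs.2.le
    · have := pi_bound
      gcongr
  have hσm : mz (cfr P) (Ccf P) σ s ≤ ENNReal.ofReal (CZ P.Y) *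
      ∫⁻ x in cellG, ∫⁻ v, ENNReal.ofReal ((1 + ‖v‖) ^ 4) * σ s x v := by
    unfold mz
    rw [← lintegral_const_mul' _ _ ENNReal.ofReal_ne_top]
    refine lintegral_mono fun x => ?_
    dsimp only
    rw [← lintegral_const_mul' _ _ ENNReal.ofReal_ne_top]
    refine lintegral_mono fun v => ?_
    rw [← mul_assoc]
    gcongr
    exact hZn s x v
  calc ENNReal.ofReal ((t / s) ^ (3.56 * π * P.K)) * mz (cfr P) (Ccf P) σ s
      ≤ ENNReal.ofReal ((t / s) ^ (56 / 5 * P.K)) * (ENNReal.ofReal (CZ P.Y) *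
        ∫⁻ x in cellG, ∫⁻ v, ENNReal.ofReal ((1 + ‖v‖) ^ 4) * σ s x v) := by gcongr
    _ = _ := by ring

/-- **(X1)** -/
theorem X1Out_holds {Y g1 g2 : ℝ} (hY : 1 ≤ Y) (hg1 : 0 < g1) (hg2 : 0 < g2) : X1Out Y g1 g2 := by
  refine ⟨1, fun K hK ey hey _ => ?_⟩
  filter_upwards [eventually_ge_atTop 3] with p hp
  have hY0 : 0 < Y := by linarith
  filter_upwards [ev_Ok K Y ey p (by linarith) hY0 hey hp,
    ev_c_le K Y ey p (show (0 : ℝ) < 1 / 10000 by norm_num),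
    ev_dl_le (show (0 : ℝ) < 1 / (10 * (Y + 2)) by positivity)] with j0 h1 h2 h3
  refine ⟨t00 Y g1, t00_pos hY0 hg1, fun t0 _ ht0 => ?_⟩
  refine ⟨ENNReal.ofReal (Real.exp (Ccf (par K Y ey p j0))) * ENNReal.ofReal (CZ Y),
    ENNReal.mul_ne_top ENNReal.ofReal_ne_top ENNReal.ofReal_ne_top, ?_⟩
  refine massBound h1 hY (show 0 < K by linarith) h2 ?_ hg1 hg2 ht0
  show (Y + 2) * dlj j0 ≤ 1 / 10
  calc (Y + 2) * dlj j0 ≤ (Y + 2) * (1 / (10 * (Y + 2))) := by gcongr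
    _ = 1 / 10 := by field_simp

end Crest.Agent.R68.X1
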