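import Mathlib

/-!
# Row 68, PART X2 (helper810): the choice of the constants
-/

set_option autoImplicit false
open Filter
open scoped Real Topology

noncomputable section

namespace Crest.Agent.R68.X2

/-- all the numerical conditions of X2, for `K ≥ K0` -/
structure KOK (K Y N A Yp ey e Q1 κ : ℝ) : Prop where
  Nd : N = 197 / 100 * π * K
  N1 : 100 ≤ N
  AN : A = 98 / 100 * N
  Ypd : Yp = Y - ey
  ey0 : 0 < ey
  ey1 : ey ≤ 1 / 100
  eye : (1 + A) * ey ≤ e / 10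
  e0 : 0 < e
  e1 : e ≤ 1 / 100000
  e2 : 600 / e ≤ (1 + A) * Yp
  k1 : 6000 ≤ 2 * π * K
  q1 : 9600 * (2 * π * K) ≤ Q1 ^ 11
  q4 : 4 ≤ Q1
  κ0 : 0 < κ
  κ1 : κ ≤ 1 / 6000
  κ2 : 6000 * (2 * π * K) * κ ^ 2 ≤ 1
  he : 16 * e * (Q1 + 2) ^ 2 ≤ κ
  a1 : 119 / 20 * K ≤ 193 / 200 * N
  a2 : π * K < 193 / 200 * N
  a3 : 3 ≤ 119 / 20 * K

theorem exists_K0 {Y : ℝ} (hY : 1 ≤ Y) : ∃ K0 : ℝ, ∀ K : ℝ, K0 ≤ K →
    ∃ N A Yp ey e Q1 κ : ℝ, KOK K Y N A Yp ey e Q1 κ := by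
  -- `x = K^(1/44)`; all conditions are polynomial in `x`
  have hx : Tendsto (fun K : ℝ => K ^ (1 / 44 : ℝ)) atTop atTop :=
    tendsto_rpow_atTop (by norm_num)
  have h1 : ∀ᶠ K : ℝ in atTop, (460800 : ℝ) ≤ K ^ (1 / 44 : ℝ) := hx.eventually_ge_atTop _
  obtain ⟨K0, hK0⟩ := eventually_atTop.1 (h1.and (eventually_ge_atTop (1 : ℝ)))
  refine ⟨K0, fun K hK => ?_⟩
  obtain ⟨hx1, hK1⟩ := hK0 K hK
  set x : ℝ := K ^ (1 / 44 : ℝ) with hxd
  have hKpos : 0 < K := by linarith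
  have hx0 : 0 < x := by linarith
  have hKx : K = x ^ 44 := by
    rw [hxd, ← Real.rpow_natCast, ← Real.rpow_mul hKpos.le]; norm_num
  have hxge1 : 1 ≤ x := by linarith
  have hpi3 : 3.14 < π := Real.pi_gt_d2
  have hpi4 : π < 3.15 := Real.pi_lt_d2
  -- powers
  have hx2 : (460800 : ℝ) ^ 2 ≤ x ^ 2 := pow_le_pow_left₀ (by norm_num) hx1 2
  have hx3 : (460800 : ℝ) ^ 3 ≤ x ^ 3 := pow_le_pow_left₀ (by norm_num) hx1 3
  have hmono : ∀ m n : ℕ, m ≤ n → x ^ m ≤ x ^ n := fun m n h => pow_le_pow_right₀ hxge1 h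
  set N : ℝ := 197 / 100 * π * K with hN
  set A : ℝ := 98 / 100 * N with hA
  set e : ℝ := 1 / x ^ 33 with he
  set ey : ℝ := min (1 / 100) (e / (10 * (1 + A))) with hey
  set Q1 : ℝ := 10 * x ^ 4 with hQ
  set κ : ℝ := 1 / (200 * x ^ 22) with hκ
  have hK3 : (460800 : ℝ) ^ 3 ≤ K := by
    rw [hKx]; exact hx3.trans (hmono 3 44 (by norm_num))
  have hNpos : 0 < N := by positivity
  have hApos : 0 < A := by positivity
  have hx33 : (460800 : ℝ) ^ 3 ≤ x ^ 33 := hx3.trans (hmono 3 33 (by norm_num))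
  have hepos : 0 < e := by positivity
  have hK6 : 6 * K ≤ A := by
    rw [hA, hN]; nlinarith
  have hle : e ≤ 1 / 100000 := by
    rw [he]
    apply one_div_le_one_div_of_le (by norm_num)
    refine le_trans (by norm_num) hx33
  have heyp : 0 < ey := by
    rw [hey]; exact lt_min (by norm_num) (by positivity)
  refine ⟨N, A, Y - ey, ey, e, Q1, κ, rfl, ?_, rfl, rfl, heyp, min_le_left _ _, ?_, hepos, hle, ?_,
    ?_, ?_, ?_, by positivity, ?_, ?_, ?_, ?_, ?_, ?_⟩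
  · rw [hN]; nlinarith
  · have h2 : ey ≤ e / (10 * (1 + A)) := min_le_right _ _
    calc (1 + A) * ey ≤ (1 + A) * (e / (10 * (1 + A))) := by gcongr
      _ = e / 10 := by field_simp
  · -- 600 / e ≤ (1 + A) Yp
    have h2 : 600 / e = 600 * x ^ 33 := by rw [he]; field_simp
    rw [h2]
    have h3 : ey ≤ 1 / 100 := min_le_left _ _
    have h4 : (99 / 100 : ℝ) ≤ Y - ey := by linarith
    have h5 : 600 * x ^ 33 ≤ 5 * x ^ 44 := by
      have h6 : x ^ 44 = x ^ 33 * x ^ 11 := by ring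
      have h7 : (120 : ℝ) ≤ x ^ 11 := by
        refine le_trans ?_ (hx3.trans (hmono 3 11 (by norm_num))); norm_num
      rw [h6]
      have h8 : 0 < x ^ 33 := by positivity
      nlinarith
    calc 600 * x ^ 33 ≤ 5 * K := by rw [hKx]; exact h5
      _ ≤ (1 + A) * (99 / 100) := by nlinarith
      _ ≤ (1 + A) * (Y - ey) := by gcongr
  · nlinarith
  · -- 9600 (2πK) ≤ Q1 ^ 11
    have h2 : Q1 ^ 11 = 10 ^ 11 * K := by rw [hQ, hKx]; ring
    rw [h2]; nlinarith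
  · rw [hQ]; nlinarith [one_le_pow₀ (n := 4) hxge1]
  · rw [hκ]
    apply one_div_le_one_div_of_le (by norm_num)
    have := hx2.trans (hmono 2 22 (by norm_num))
    nlinarith
  · -- 6000 (2πK) κ² ≤ 1
    have h2 : 6000 * (2 * π * K) * κ ^ 2 = 12000 / 40000 * π := by
      rw [hκ, hKx]; field_simp; ring
    rw [h2]; linarith
  · -- 16 e (Q1+2)² ≤ κ
    have h2 : (1 : ℝ) ≤ x ^ 4 := one_le_pow₀ hxge1
    have h3 : Q1 + 2 ≤ 12 * x ^ 4 := by rw [hQ]; linarith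
    have h4 : (Q1 + 2) ^ 2 ≤ (12 * x ^ 4) ^ 2 := by
      refine pow_le_pow_left₀ ?_ h3 2
      rw [hQ]; positivity
    calc 16 * e * (Q1 + 2) ^ 2 ≤ 16 * e * (12 * x ^ 4) ^ 2 := by gcongr
      _ = 2304 / x ^ 25 := by rw [he]; field_simp; ring
      _ ≤ κ := by
        rw [hκ, div_le_div_iff₀ (by positivity) (by positivity)]
        have h5 : x ^ 25 = x ^ 22 * x ^ 3 := by ring
        have h6 : 0 < x ^ 22 := by positivity
        rw [h5]; nlinarith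
  · rw [hN]; nlinarith
  · rw [hN]; nlinarith
  · nlinarith

end Crest.Agent.R68.X2
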