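import Mathlib
import Crest.Agent.R68.Carl4
import Crest.Agent.R68.Sph4

/-!
R68 / XSph: dual form of the gain (`gs`), sphere means, Archimedes for coordinates and for the
energy, Povzner moments (helper211).
-/

set_option autoImplicit false
open MeasureTheory Set
open scoped ENNReal Real
open Crest.AnalysisR.VecCalc3 Crest.AnalysisR.PDE.Boltzmann

namespace Crest.Agent.R68.XSph

attribute [local irreducible] rot vec3

/-- point of the collision sphere of `v, u` in direction `s` -/
noncomputable def pt (v u s : R3) : R3 := (1 / 2 : ℝ) • (v + u) + (‖v - u‖ / 2) • s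

/-- dual gain of `g` at velocity `v` against a partner `u` -/
noncomputable def gs (g : R3 → ℝ≥0∞) (v u : R3) : ℝ≥0∞ :=
  ∫⁻ w, ENNReal.ofReal |inner ℝ (v - u) w| * (g (postVel v u w) + g (postVelStar v u w))
    ∂sphereMeasure

theorem continuous_pt : Continuous fun p : R3 × R3 × R3 => pt p.1 p.2.1 p.2.2 := by
  unfold pt; fun_prop

theorem measurable_pt_s (v u : R3) : Measurable fun s : R3 => pt v u s := by
  unfold pt; fun_prop

theorem continuous_pt_s (v u : R3) : Continuous fun s : R3 => pt v u s := by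
  unfold pt; fun_prop

/-- the two halves of `gs` -/
theorem lintegral_post (g : R3 → ℝ≥0∞) (hg : Measurable g) (v u : R3) :
    ∫⁻ w, ENNReal.ofReal |inner ℝ (v - u) w| * g (postVel v u w) ∂sphereMeasure
      = ENNReal.ofReal (‖v - u‖ / 2) * ∫⁻ s, g (pt v u s) ∂sphereMeasure := by
  have h := lintegral_gain_sigma hg (measurable_const (a := (1 : ℝ≥0∞))) v u
  simp only [mul_one] at h
  rw [h]
  congr 1
  have hm : Measurable fun s : R3 => g (pt v u s) := hg.comp (measurable_pt_s v u)
  rw [← lintegral_sphere_neg hm]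
  refine lintegral_congr fun s => ?_
  unfold pt
  rw [smul_neg, ← sub_eq_add_neg]

theorem lintegral_postStar (g : R3 → ℝ≥0∞) (hg : Measurable g) (v u : R3) :
    ∫⁻ w, ENNReal.ofReal |inner ℝ (v - u) w| * g (postVelStar v u w) ∂sphereMeasure
      = ENNReal.ofReal (‖v - u‖ / 2) * ∫⁻ s, g (pt v u s) ∂sphereMeasure := by
  have h := lintegral_gain_sigma (measurable_const (a := (1 : ℝ≥0∞))) hg v u
  simp only [mul_one, one_mul] at h
  rw [h]
  rfl

/-- **(D3)** σ form of `gs` -/
theorem gs_eq {g : R3 → ℝ≥0∞} (hg : Measurable g) (v u : R3) :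
    gs g v u = ENNReal.ofReal ‖v - u‖ * ∫⁻ s, g (pt v u s) ∂sphereMeasure := by
  unfold gs
  have h1 : Measurable fun w : R3 => ENNReal.ofReal |inner ℝ (v - u) w| * g (postVel v u w) := by
    refine Measurable.mul (by fun_prop) (hg.comp ?_)
    unfold postVel; fun_prop
  simp_rw [mul_add]
  rw [lintegral_add_left h1, lintegral_post g hg, lintegral_postStar g hg, ← add_mul,
    ← ENNReal.ofReal_add (by positivity) (by positivity), add_halves]

theorem pt_comm (v u s : R3) : pt u v s = pt v u s := by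
  unfold pt; rw [add_comm u v, norm_sub_rev]

theorem gs_comm {g : R3 → ℝ≥0∞} (hg : Measurable g) (v u : R3) : gs g v u = gs g u v := by
  rw [gs_eq hg, gs_eq hg, norm_sub_rev]
  congr 1
  exact lintegral_congr fun s => by rw [pt_comm]

theorem gs_mono {g h : R3 → ℝ≥0∞} (hgh : ∀ v, g v ≤ h v) (v u : R3) : gs g v u ≤ gs h v u :=
  lintegral_mono fun _ => mul_le_mul_right (add_le_add (hgh _) (hgh _)) _

theorem gs_add {g h : R3 → ℝ≥0∞} (hg : Measurable g) (hh : Measurable h) (v u : R3) :
    gs (fun w => g w + h w) v u = gs g v u + gs h v u := by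
  have h1 : Measurable fun s : R3 => g (pt v u s) := hg.comp (measurable_pt_s v u)
  have h2 : Measurable fun w : R3 => g w + h w := hg.add hh
  rw [gs_eq hg, gs_eq hh, gs_eq h2, lintegral_add_left h1, mul_add]

theorem gs_const_mul {g : R3 → ℝ≥0∞} (hg : Measurable g) (c : ℝ≥0∞) (v u : R3) :
    gs (fun w => c * g w) v u = c * gs g v u := by
  have h1 : Measurable fun s : R3 => g (pt v u s) := hg.comp (measurable_pt_s v u)
  rw [gs_eq hg, gs_eq (hg.const_mul c), lintegral_const_mul _ h1]
  ring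

theorem gs_one (v u : R3) : gs (fun _ => 1) v u = ENNReal.ofReal (4 * π * ‖v - u‖) := by
  rw [gs_eq measurable_const]
  simp only [lintegral_const, one_mul]
  rw [sphereMeasure_univ, ← ENNReal.ofReal_mul (by positivity)]
  congr 1; ring

theorem gs_const (c : ℝ≥0∞) (v u : R3) :
    gs (fun _ => c) v u = c * ENNReal.ofReal (4 * π * ‖v - u‖) := by
  have h := gs_const_mul (measurable_const (a := (1 : ℝ≥0∞))) c v u
  simp only [mul_one] at h
  rw [h, gs_one]

/-- joint measurability -/
theorem measurable_gs {g : R3 → ℝ≥0∞} (hg : Measurable g) :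
    Measurable fun p : R3 × R3 => gs g p.1 p.2 := by
  have h1 : Measurable fun q : (R3 × R3) × R3 => g (pt q.1.1 q.1.2 q.2) := by
    refine hg.comp ?_
    unfold pt; fun_prop
  have h2 : Measurable fun p : R3 × R3 => ∫⁻ s, g (pt p.1 p.2 s) ∂sphereMeasure :=
    h1.lintegral_prod_right'
  simp_rw [gs_eq hg]
  exact Measurable.mul (by fun_prop) h2

/-- parametrised joint measurability -/
theorem measurable_gs_param {α : Type*} [MeasurableSpace α] {g : α → R3 → ℝ≥0∞}
    (hg : Measurable (Function.uncurry g)) :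
    Measurable fun p : α × R3 × R3 => gs (g p.1) p.2.1 p.2.2 := by
  have h1 : Measurable fun q : (α × R3 × R3) × R3 => g q.1.1 (pt q.1.2.1 q.1.2.2 q.2) := by
    have h0 : Measurable fun q : (α × R3 × R3) × R3 => pt q.1.2.1 q.1.2.2 q.2 := by
      unfold pt; fun_prop
    exact hg.comp (Measurable.prodMk (by fun_prop) h0)
  have h2 : Measurable fun p : α × R3 × R3 => ∫⁻ s, g p.1 (pt p.2.1 p.2.2 s) ∂sphereMeasure :=
    h1.lintegral_prod_right'
  have h3 : ∀ a, Measurable (g a) := fun a => hg.comp (measurable_const.prodMk measurable_id)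
  have e : (fun p : α × R3 × R3 => gs (g p.1) p.2.1 p.2.2) = fun p =>
      ENNReal.ofReal ‖p.2.1 - p.2.2‖ * ∫⁻ s, g p.1 (pt p.2.1 p.2.2 s) ∂sphereMeasure :=
    funext fun p => gs_eq (h3 _) _ _
  rw [e]
  exact Measurable.mul (by fun_prop) h2

theorem two_ofReal_half (x : ℝ) : (2 : ℝ≥0∞) * ENNReal.ofReal (x / 2) = ENNReal.ofReal x := by
  rw [← ENNReal.ofReal_ofNat 2, ← ENNReal.ofReal_mul (by norm_num)]
  congr 1; ring

attribute [local irreducible] gs in
theorem measurable_gs_left {g : R3 → ℝ≥0∞} (hg : Measurable g) (v : R3) :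
    Measurable fun u : R3 => gs g v u :=
  (measurable_gs hg).comp (measurable_const.prodMk measurable_id)

attribute [local irreducible] gs in
theorem measurable_gs_swap {g : R3 → ℝ≥0∞} (hg : Measurable g) :
    Measurable fun p : R3 × R3 => gs g p.2 p.1 := (measurable_gs hg).comp measurable_swap

/-- the σ form of the weak gain, with `gs` -/
theorem weak_aux {f g h : R3 → ℝ≥0∞} (hg : Measurable g) (v : R3) :
    2 * ∫⁻ vs, f v * h vs * (ENNReal.ofReal (‖v - vs‖ / 2) *
        ∫⁻ s, g ((1 / 2 : ℝ) • (v + vs) + (‖v - vs‖ / 2) • s) ∂sphereMeasure)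
      = ∫⁻ vs, f v * h vs * gs g vs v := by
  rw [← lintegral_const_mul' _ _ (by simp)]
  refine lintegral_congr fun vs => ?_
  rw [gs_comm hg, gs_eq hg, ← two_ofReal_half ‖v - vs‖]
  unfold pt
  generalize ∫⁻ s, g ((1 / 2 : ℝ) • (v + vs) + (‖v - vs‖ / 2) • s) ∂sphereMeasure = A
  ring

attribute [local irreducible] gs in
theorem swap_aux {f g h : R3 → ℝ≥0∞} (hf : Measurable f) (hg : Measurable g)
    (hh : Measurable h) :
    ∫⁻ v, ∫⁻ vs, f v * h vs * gs g vs v = ∫⁻ vs, ∫⁻ v, f v * h vs * gs g vs v := by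
  have hG := measurable_gs_swap hg
  have h1 : Measurable fun p : R3 × R3 => f p.1 := hf.comp measurable_fst
  have h2 : Measurable fun p : R3 × R3 => h p.2 := hh.comp measurable_snd
  have hs : Measurable fun p : R3 × R3 => f p.1 * h p.2 * gs g p.2 p.1 := (h1.mul h2).mul hG
  exact lintegral_lintegral_swap (f := fun v vs => f v * h vs * gs g vs v) hs.aemeasurable

attribute [local irreducible] gs in
/-- **(D1)** duality of the gain: `f` is the partner (fuel) -/
theorem dual_gain {f g h : R3 → ℝ≥0∞} (hf : Measurable f) (hg : Measurable g)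
    (hh : Measurable h) :
    ∫⁻ v, g v * (2 * Qp f h v) = ∫⁻ v, h v * ∫⁻ u, f u * gs g v u := by
  have e0 : ∫⁻ v, g v * (2 * Qp f h v) = 2 * ∫⁻ v, g v * Qp f h v := by
    rw [← lintegral_const_mul' _ _ (by simp)]
    refine lintegral_congr fun v => ?_
    rw [mul_left_comm]
  rw [e0, lintegral_mul_Qp_sigma hg hf hh, ← lintegral_const_mul' _ _ (by simp)]
  have e1 : ∫⁻ v, 2 * ∫⁻ vs, f v * h vs * (ENNReal.ofReal (‖v - vs‖ / 2) *
        ∫⁻ s, g ((1 / 2 : ℝ) • (v + vs) + (‖v - vs‖ / 2) • s) ∂sphereMeasure)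
      = ∫⁻ v, ∫⁻ vs, f v * h vs * gs g vs v := lintegral_congr fun v => weak_aux hg v
  rw [e1, swap_aux hf hg hh]
  refine lintegral_congr fun v => ?_
  have hm0 := measurable_gs_left hg v
  have hm1 : Measurable fun u : R3 => f u * gs g v u := hf.mul hm0
  rw [← lintegral_const_mul _ hm1]
  refine lintegral_congr fun u => ?_
  generalize gs g v u = A
  ring

/-- duality with the fuel as second argument -/
theorem dual_gain' {f g h : R3 → ℝ≥0∞} (hf : Measurable f) (hg : Measurable g)
    (hh : Measurable h) :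
    ∫⁻ v, g v * (Qp f h v + Qp h f v) = ∫⁻ v, h v * ∫⁻ u, f u * gs g v u := by
  rw [← dual_gain hf hg hh]
  refine lintegral_congr fun v => ?_
  rw [Qp_comm hh hf, ← two_mul]

/-- **(D2)** -/
theorem Lc_eq' {f : R3 → ℝ≥0∞} (hf : Measurable f) (v : R3) :
    Lc f v = ∫⁻ u, f u * ENNReal.ofReal (2 * π * ‖v - u‖) := by
  rw [Lc_eq hf]
  have hm : Measurable fun vs : R3 => ENNReal.ofReal ‖v - vs‖ * f vs :=
    Measurable.mul (by fun_prop) hf
  rw [← lintegral_const_mul _ hm]
  refine lintegral_congr fun u => ?_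
  rw [ENNReal.ofReal_mul (p := 2 * π) (by positivity)]
  ring

/-- the sphere mean of a real function -/
noncomputable def smean (g : R3 → ℝ) (v u : R3) : ℝ :=
  (4 * π)⁻¹ * ∫ s, g (pt v u s) ∂sphereMeasure

theorem norm_pt_le {v u s : R3} (hs : ‖s‖ = 1) : ‖pt v u s‖ ≤ ‖v‖ + ‖u‖ := by
  unfold pt
  calc ‖(1 / 2 : ℝ) • (v + u) + (‖v - u‖ / 2) • s‖
      ≤ ‖(1 / 2 : ℝ) • (v + u)‖ + ‖(‖v - u‖ / 2) • s‖ := norm_add_le _ _
    _ = 1 / 2 * ‖v + u‖ + ‖v - u‖ / 2 := by
        rw [norm_smul, norm_smul, hs, mul_one, Real.norm_of_nonneg (by norm_num),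
          Real.norm_of_nonneg (by positivity)]
    _ ≤ 1 / 2 * (‖v‖ + ‖u‖) + (‖v‖ + ‖u‖) / 2 := by
        gcongr
        · exact norm_add_le _ _
        · exact norm_sub_le _ _
    _ = _ := by ring

/-- integrability on the collision sphere -/
theorem integrable_pt_of_bounded {g : R3 → ℝ} (hg : Measurable g) (v u : R3) {C : ℝ}
    (hC : ∀ a : R3, ‖a‖ ≤ ‖v‖ + ‖u‖ → |g a| ≤ C) :
    Integrable (fun s => g (pt v u s)) sphereMeasure :=
  integrable_sphere_of_bounded (hg.comp (measurable_pt_s v u)) fun _ hw => hC _ (norm_pt_le hw)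

theorem integrable_pt_of_continuous {g : R3 → ℝ} (hg : Continuous g) (v u : R3) :
    Integrable (fun s => g (pt v u s)) sphereMeasure := by
  have hc : Continuous fun s : R3 => g (pt v u s) := hg.comp (continuous_pt_s v u)
  obtain ⟨C, hC⟩ := (isCompact_sphere (0 : R3) 1).exists_bound_of_continuousOn hc.continuousOn
  exact integrable_sphere_of_bounded hc.measurable (C := C) fun w hw => by
    have := hC w (by simpa using hw)
    simpa using this

/-- `gs` of a nonnegative real function through its sphere mean -/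
theorem gs_ofReal {g : R3 → ℝ} (hg : Measurable g) (h0 : ∀ a, 0 ≤ g a) (v u : R3)
    (hi : Integrable (fun s => g (pt v u s)) sphereMeasure) :
    gs (fun a => ENNReal.ofReal (g a)) v u
      = ENNReal.ofReal (2 * π * ‖v - u‖ * (2 * smean g v u)) := by
  rw [gs_eq hg.ennreal_ofReal, ← ofReal_integral_eq_lintegral_ofReal hi
    (Filter.Eventually.of_forall fun s => h0 _), ← ENNReal.ofReal_mul (norm_nonneg _)]
  congr 1
  unfold smean
  have : (4 * π) ≠ 0 := by positivity
  field_simp
  ring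

theorem smean_nonneg {g : R3 → ℝ} (h0 : ∀ a, 0 ≤ g a) (v u : R3) : 0 ≤ smean g v u := by
  unfold smean
  have : 0 ≤ ∫ s, g (pt v u s) ∂sphereMeasure := integral_nonneg fun s => h0 _
  positivity

theorem smean_mono {g h : R3 → ℝ} (v u : R3)
    (hgi : Integrable (fun s => g (pt v u s)) sphereMeasure)
    (hhi : Integrable (fun s => h (pt v u s)) sphereMeasure)
    (hgh : ∀ s : R3, ‖s‖ = 1 → g (pt v u s) ≤ h (pt v u s)) : smean g v u ≤ smean h v u := by
  unfold smean
  refine mul_le_mul_of_nonneg_left (integral_mono_ae hgi hhi ?_) (by positivity)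
  filter_upwards [ae_sphereMeasure] with s hs using hgh s hs

theorem smean_add {g h : R3 → ℝ} (v u : R3)
    (hgi : Integrable (fun s => g (pt v u s)) sphereMeasure)
    (hhi : Integrable (fun s => h (pt v u s)) sphereMeasure) :
    smean (fun a => g a + h a) v u = smean g v u + smean h v u := by
  unfold smean
  rw [integral_add hgi hhi, mul_add]

theorem smean_sub {g h : R3 → ℝ} (v u : R3)
    (hgi : Integrable (fun s => g (pt v u s)) sphereMeasure)
    (hhi : Integrable (fun s => h (pt v u s)) sphereMeasure) :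
    smean (fun a => g a - h a) v u = smean g v u - smean h v u := by
  unfold smean
  rw [integral_sub hgi hhi, mul_sub]

theorem smean_const_mul (c : ℝ) (g : R3 → ℝ) (v u : R3) :
    smean (fun a => c * g a) v u = c * smean g v u := by
  unfold smean
  rw [integral_const_mul]; ring

theorem smean_const (c : ℝ) (v u : R3) : smean (fun _ => c) v u = c := by
  unfold smean
  rw [integral_one_sphere]
  have : (4 * π) ≠ 0 := by positivity
  field_simp

theorem smean_comm (g : R3 → ℝ) (v u : R3) : smean g v u = smean g u v := by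
  unfold smean
  congr 1
  exact integral_congr_ae (Filter.Eventually.of_forall fun s => by simp only [pt_comm])

theorem smean_le_const {g : R3 → ℝ} (v u : R3) {c : ℝ}
    (hgi : Integrable (fun s => g (pt v u s)) sphereMeasure)
    (h : ∀ s : R3, ‖s‖ = 1 → g (pt v u s) ≤ c) : smean g v u ≤ c := by
  have h1 := smean_mono (h := fun _ => c) v u hgi (integrable_const _) h
  rwa [smean_const] at h1

theorem const_le_smean {g : R3 → ℝ} (v u : R3) {c : ℝ}
    (hgi : Integrable (fun s => g (pt v u s)) sphereMeasure)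
    (h : ∀ s : R3, ‖s‖ = 1 → c ≤ g (pt v u s)) : c ≤ smean g v u := by
  have h1 := smean_mono (g := fun _ => c) v u (integrable_const _) hgi h
  rwa [smean_const] at h1

/-- translation of the velocity frame -/
theorem pt_sub (v u c s : R3) : pt v u s - c = pt (v - c) (u - c) s := by
  unfold pt
  have : v - c - (u - c) = v - u := by abel
  rw [this]; module

theorem pt_add (v u c s : R3) : pt (v + c) (u + c) s = pt v u s + c := by
  unfold pt
  have : v + c - (u + c) = v - u := by abel
  rw [this]; module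

theorem smean_sub_frame (g : R3 → ℝ) (v u c : R3) :
    smean (fun a => g (a - c)) v u = smean g (v - c) (u - c) := by
  unfold smean
  congr 1
  exact integral_congr_ae (Filter.Eventually.of_forall fun s => by simp only [pt_sub])

/-- energy of a point of the collision sphere -/
theorem norm_sq_pt (v u : R3) {s : R3} (hs : ‖s‖ = 1) :
    ‖pt v u s‖ ^ 2 = (‖v‖ ^ 2 + ‖u‖ ^ 2) / 2 + ‖v - u‖ / 2 * (inner ℝ (v + u) s : ℝ) := by
  unfold pt
  rw [norm_add_sq_real, norm_smul, norm_smul, hs, mul_one, inner_smul_left, inner_smul_right,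
    Real.norm_of_nonneg (by norm_num : (0 : ℝ) ≤ 1 / 2), Real.norm_of_nonneg (by positivity)]
  have h1 := norm_add_sq_real v u
  have h2 := norm_sub_sq_real v u
  simp only [RCLike.conj_to_real]
  have e : (1 / 2 * ‖v + u‖) ^ 2 + (‖v - u‖ / 2) ^ 2 = (‖v‖ ^ 2 + ‖u‖ ^ 2) / 2 := by
    rw [mul_pow, div_pow ‖v - u‖, h1, h2]; ring
  nlinarith [e]

/-- unit vector in the direction of `a` (any one if `a = 0`) -/
theorem exists_unit (a : R3) : ∃ e : R3, ‖e‖ = 1 ∧ a = ‖a‖ • e := by
  by_cases ha : a = 0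
  · exact ⟨ez, norm_ez, by simp [ha]⟩
  · refine ⟨‖a‖⁻¹ • a, ?_, ?_⟩
    · rw [norm_smul, norm_inv, norm_norm, inv_mul_cancel₀ (norm_ne_zero_iff.2 ha)]
    · rw [smul_smul, mul_inv_cancel₀ (norm_ne_zero_iff.2 ha), one_smul]

/-- half-width of the interval of energies on the collision sphere -/
noncomputable def Dw (v u : R3) : ℝ := ‖v - u‖ * ‖v + u‖ / 2

theorem Dw_nonneg (v u : R3) : 0 ≤ Dw v u := by unfold Dw; positivity

theorem Dw_le (v u : R3) : Dw v u ≤ (‖v‖ ^ 2 + ‖u‖ ^ 2) / 2 := by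
  unfold Dw
  have h1 := norm_add_sq_real v u
  have h2 := norm_sub_sq_real v u
  nlinarith [sq_nonneg (‖v - u‖ - ‖v + u‖)]

theorem energy_aux (v u : R3) {s e : R3} (hs : ‖s‖ = 1) (hve : v + u = ‖v + u‖ • e) :
    ‖pt v u s‖ ^ 2 = (‖v‖ ^ 2 + ‖u‖ ^ 2) / 2 + Dw v u * (inner ℝ e s : ℝ) := by
  rw [norm_sq_pt v u hs]
  have h1 : (inner ℝ (v + u) s : ℝ) = ‖v + u‖ * inner ℝ e s := by
    conv_lhs => rw [hve]
    rw [inner_smul_left]; simp
  rw [h1]
  unfold Dw
  ring

/-- **the energy is uniformly distributed on the collision sphere** (Bochner) -/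
theorem integral_energy (v u : R3) (f : ℝ → ℝ) (hf : Measurable f) :
    ∫ s, f (‖pt v u s‖ ^ 2) ∂sphereMeasure
      = 2 * π * ∫ t in Ioo (-1 : ℝ) 1, f ((‖v‖ ^ 2 + ‖u‖ ^ 2) / 2 + Dw v u * t) := by
  obtain ⟨e, he, hve⟩ := exists_unit (v + u)
  have h := integral_sphere_inner he (fun t => f ((‖v‖ ^ 2 + ‖u‖ ^ 2) / 2 + Dw v u * t))
    (hf.comp (by fun_prop)).stronglyMeasurable
  rw [smul_eq_mul] at h
  rw [← h]
  refine integral_congr_ae ?_
  filter_upwards [ae_sphereMeasure] with s hs
  rw [energy_aux v u hs hve]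

/-- the energy is uniformly distributed (lintegral) -/
theorem lintegral_energy (v u : R3) (f : ℝ → ℝ≥0∞) (hf : Measurable f) :
    ∫⁻ s, f (‖pt v u s‖ ^ 2) ∂sphereMeasure = ENNReal.ofReal (2 * π) *
      ∫⁻ t in Ioo (-1 : ℝ) 1, f ((‖v‖ ^ 2 + ‖u‖ ^ 2) / 2 + Dw v u * t) := by
  obtain ⟨e, he, hve⟩ := exists_unit (v + u)
  have h := lintegral_sphere_inner he (f := fun t => f ((‖v‖ ^ 2 + ‖u‖ ^ 2) / 2 + Dw v u * t))
    (hf.comp (by fun_prop))
  rw [← h]
  refine lintegral_congr_ae ?_
  filter_upwards [ae_sphereMeasure] with s hs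
  rw [energy_aux v u hs hve]

/-- **(D4)** coordinates are uniformly distributed on the collision sphere (Bochner) -/
theorem integral_coord (v u : R3) (i : Fin 3) (f : ℝ → ℝ) (hf : Measurable f) :
    ∫ s, f (pt v u s i) ∂sphereMeasure
      = 2 * π * ∫ t in Ioo (-1 : ℝ) 1, f ((v i + u i) / 2 + ‖v - u‖ / 2 * t) := by
  have he : ‖(EuclideanSpace.single i (1 : ℝ) : R3)‖ = 1 := by simp
  have h := integral_sphere_inner he (fun t => f ((v i + u i) / 2 + ‖v - u‖ / 2 * t))
    (hf.comp (by fun_prop)).stronglyMeasurable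
  rw [smul_eq_mul] at h
  rw [← h]
  refine integral_congr_ae (Filter.Eventually.of_forall fun s => ?_)
  simp only
  congr 1
  rw [EuclideanSpace.inner_single_left]
  simp [pt]
  ring

/-- coordinates are uniformly distributed on the collision sphere (lintegral) -/
theorem lintegral_coord (v u : R3) (i : Fin 3) (f : ℝ → ℝ≥0∞) (hf : Measurable f) :
    ∫⁻ s, f (pt v u s i) ∂sphereMeasure = ENNReal.ofReal (2 * π) *
      ∫⁻ t in Ioo (-1 : ℝ) 1, f ((v i + u i) / 2 + ‖v - u‖ / 2 * t) := by
  have he : ‖(EuclideanSpace.single i (1 : ℝ) : R3)‖ = 1 := by simp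
  have h := lintegral_sphere_inner he (f := fun t => f ((v i + u i) / 2 + ‖v - u‖ / 2 * t))
    (hf.comp (by fun_prop))
  rw [← h]
  refine lintegral_congr fun s => ?_
  congr 1
  rw [EuclideanSpace.inner_single_left]
  simp [pt]
  ring

end Crest.Agent.R68.XSph
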