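import Crest.Agent.R68.Sph4

/-!
# Row 68, PART X (helper150): the tent subsolution for the averaged linear generator

`F(y,q) = B - |(1+A) y + q₁| - e |q|²` (index `1` = second component), `B = (1+A) Y'`.
Fuel velocities `u_s = (0,0,s)`, `s = ±1`, in the frame where `q = v - (0,y,0)`.
-/

set_option autoImplicit false
open MeasureTheory Set Metric
open scoped ENNReal Real
open Crest.AnalysisR.VecCalc3 Crest.AnalysisR.PDE.Boltzmann

noncomputable section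

namespace Crest.Agent.R68.XTent

/-! ### the real inequality -/

/-- no kink, no clipping needed: `Q ≥ 2` -/
theorem real_big {d Q z q2 e ε F : ℝ} (he : 0 < e) (he1 : e ≤ 1 / 100000) (hε : 0 ≤ ε)
    (hε1 : ε ≤ e / 10) (hd1 : 1 ≤ d) (hdQ : d ^ 2 ≤ 1 + Q ^ 2) (hQ : 2 ≤ Q)
    (hz : -(e / 10) ≤ z) (hq : |q2| ≤ Q) (hF : F = z - q2 - e * Q ^ 2) (hF0 : 0 ≤ F) :
    (1 - ε) * (d * (2 * z - q2 - e * (Q ^ 2 + 1))) - d * F - 98 / 100 * q2 ≥
      97 / 100 * F + e / 10 * (1 + Q ^ 2) := by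
  obtain ⟨h1, h2⟩ := abs_le.mp hq
  have hd2 : d ≤ Q + 1 / 4 := by
    by_contra hc
    push Not at hc
    nlinarith
  have hkey : (1 - ε) * (d * (2 * z - q2 - e * (Q ^ 2 + 1))) - d * F - 98 / 100 * q2 -
      (97 / 100 * F + e / 10 * (1 + Q ^ 2)) =
      z * (d * (1 - 2 * ε) - 98 / 100) - e * d + 98 / 100 * e * Q ^ 2 + 1 / 100 * F -
        e / 10 * (1 + Q ^ 2) + ε * d * q2 + ε * d * (e * (Q ^ 2 + 1)) := by
    rw [hF]; ring
  have hz1 : -(e / 10) * d ≤ z * (d * (1 - 2 * ε) - 98 / 100) := by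
    have h3 : 0 ≤ d * (1 - 2 * ε) - 98 / 100 := by nlinarith
    have h4 : d * (1 - 2 * ε) - 98 / 100 ≤ d := by nlinarith
    nlinarith
  have h5 : -(e / 10 * (d * Q)) ≤ ε * d * q2 := by
    have h6 : ε * (d * Q) ≤ e / 10 * (d * Q) := by
      apply mul_le_mul_of_nonneg_right hε1; positivity
    have h7 : -(ε * d * Q) ≤ ε * d * q2 := by
      have : 0 ≤ ε * d := by positivity
      nlinarith
    nlinarith
  have h8 : 0 ≤ ε * d * (e * (Q ^ 2 + 1)) := by positivity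
  have h9 : 0 ≤ e * (98 / 100 * Q ^ 2 - d - d / 10 - 1 / 10 * (1 + Q ^ 2) - d * Q / 10) := by
    apply mul_nonneg he.le
    nlinarith
  nlinarith

theorem real_aux {e X z : ℝ} (he : 0 < e) (hX : 0 ≤ X) (hX1 : X ≤ 9 / 4) (hz : -(e / 10) ≤ z) :
    -(e / 10) * (9 / 4) ≤ z * X := by
  rcases le_total 0 z with h | h
  · have := mul_nonneg h hX
    linarith
  · have h1 : z * (9 / 4) ≤ z * X := mul_le_mul_of_nonpos_left hX1 h
    linarith

/-- `Q ≤ 2` without kink, `z` or `F` not small -/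
theorem real_mid {d Q z q2 e ε F : ℝ} (he : 0 < e) (he1 : e ≤ 1 / 100000) (hε : 0 ≤ ε)
    (hε1 : ε ≤ e / 10) (hd1 : 1 ≤ d) (hdQ : d ^ 2 ≤ 1 + Q ^ 2) (hQ0 : 0 ≤ Q) (hQ : Q ≤ 2)
    (hz : -(e / 10) ≤ z) (hq : |q2| ≤ Q) (hF : F = z - q2 - e * Q ^ 2) (hF0 : 0 ≤ F)
    (hc : 400 * e ≤ z ∨ 400 * e ≤ F) :
    (1 - ε) * (d * (2 * z - q2 - e * (Q ^ 2 + 1))) - d * F - 98 / 100 * q2 ≥
      97 / 100 * F + e / 10 * (1 + Q ^ 2) := by
  obtain ⟨h1, h2⟩ := abs_le.mp hq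
  have hd2 : d ≤ 9 / 4 := by
    by_contra hc
    push Not at hc
    nlinarith
  have hkey : (1 - ε) * (d * (2 * z - q2 - e * (Q ^ 2 + 1))) - d * F - 98 / 100 * q2 -
      (97 / 100 * F + e / 10 * (1 + Q ^ 2)) =
      z * (d * (1 - 2 * ε) - 98 / 100) - e * d + 98 / 100 * e * Q ^ 2 + 1 / 100 * F -
        e / 10 * (1 + Q ^ 2) + ε * d * q2 + ε * d * (e * (Q ^ 2 + 1)) := by
    rw [hF]; ring
  have h3 : 1 / 100 ≤ d * (1 - 2 * ε) - 98 / 100 := by nlinarith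
  have h4 : d * (1 - 2 * ε) - 98 / 100 ≤ d := by nlinarith
  have h5 : -(e / 10 * (9 / 2)) ≤ ε * d * q2 := by
    have h6 : ε * d ≤ e / 10 * (9 / 4) := by
      apply mul_le_mul hε1 hd2 (by linarith) (by positivity)
    have h7 : 0 ≤ ε * d := by positivity
    nlinarith
  have h8 : 0 ≤ ε * d * (e * (Q ^ 2 + 1)) := by positivity
  have h10 : e * d ≤ e * (9 / 4) := mul_le_mul_of_nonneg_left hd2 he.le
  have h11 : e / 10 * (1 + Q ^ 2) ≤ e / 10 * 5 := by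
    apply mul_le_mul_of_nonneg_left _ (by positivity)
    nlinarith
  have h12 : 0 ≤ 98 / 100 * e * Q ^ 2 := by positivity
  rcases hc with hc | hc
  · have h9 : 1 / 100 * z ≤ z * (d * (1 - 2 * ε) - 98 / 100) := by
      rw [mul_comm (1 / 100 : ℝ) z]
      apply mul_le_mul_of_nonneg_left h3
      nlinarith
    linarith
  · have hz1 : -(e / 10) * (9 / 4) ≤ z * (d * (1 - 2 * ε) - 98 / 100) :=
      real_aux he (by linarith) (by linarith) hz
    linarith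

set_option maxHeartbeats 800000 in
/-- `Q ≤ 2`, `z` and `F` small: the clipping bonus `cb` pays -/
theorem real_clip {d Q z q2 e ε F cb : ℝ} (he : 0 < e) (he1 : e ≤ 1 / 100000) (hε : 0 ≤ ε)
    (hε1 : ε ≤ e / 10) (hd1 : 1 ≤ d) (hdQ : d ^ 2 ≤ 1 + Q ^ 2) (hQ0 : 0 ≤ Q) (hQ : Q ≤ 2)
    (hz : -(e / 10) ≤ z) (hq : |q2| ≤ Q) (hF : F = z - q2 - e * Q ^ 2) (hF0 : 0 ≤ F)
    (hc1 : z ≤ 400 * e) (hc2 : F ≤ 400 * e)
    (hcb : cb = (Q ^ 2 + 1) / 6 - d * (|q2| + 2 * |z|)) :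
    (1 - ε) * (d * (2 * z - q2 - e * (Q ^ 2 + 1)) + cb) - d * F - 98 / 100 * q2 ≥
      97 / 100 * F + e / 10 * (1 + Q ^ 2) := by
  obtain ⟨h1, h2⟩ := abs_le.mp hq
  have hd2 : d ≤ 9 / 4 := by
    by_contra hc
    push Not at hc
    nlinarith
  have hkey : (1 - ε) * (d * (2 * z - q2 - e * (Q ^ 2 + 1)) + cb) - d * F - 98 / 100 * q2 -
      (97 / 100 * F + e / 10 * (1 + Q ^ 2)) =
      z * (d * (1 - 2 * ε) - 98 / 100) - e * d + 98 / 100 * e * Q ^ 2 + 1 / 100 * F -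
        e / 10 * (1 + Q ^ 2) + ε * d * q2 + ε * d * (e * (Q ^ 2 + 1)) + (1 - ε) * cb := by
    rw [hF]; ring
  have hQQ : e * Q ^ 2 ≤ e * 4 := by
    apply mul_le_mul_of_nonneg_left _ he.le
    nlinarith
  have hQQ0 : 0 ≤ e * Q ^ 2 := by positivity
  have hq2 : |q2| ≤ 405 * e := by
    rw [abs_le]
    constructor <;> linarith
  have hz2 : |z| ≤ 400 * e := by
    rw [abs_le]
    constructor <;> linarith
  have hcb2 : 1 / 6 - 9 / 4 * (1205 * e) ≤ cb := by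
    rw [hcb]
    have h3 : d * (|q2| + 2 * |z|) ≤ 9 / 4 * (1205 * e) := by
      apply mul_le_mul hd2 (by linarith) (by positivity) (by norm_num)
    nlinarith [sq_nonneg Q]
  have h3 : 1 / 100 ≤ d * (1 - 2 * ε) - 98 / 100 := by nlinarith
  have h4 : d * (1 - 2 * ε) - 98 / 100 ≤ d := by nlinarith
  have h5 : -(e / 10 * (9 / 2)) ≤ ε * d * q2 := by
    have h6 : ε * d ≤ e / 10 * (9 / 4) := by
      apply mul_le_mul hε1 hd2 (by linarith) (by positivity)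
    have h7 : 0 ≤ ε * d := by positivity
    nlinarith
  have h8 : 0 ≤ ε * d * (e * (Q ^ 2 + 1)) := by positivity
  have h10 : e * d ≤ e * (9 / 4) := mul_le_mul_of_nonneg_left hd2 he.le
  have h11 : e / 10 * (1 + Q ^ 2) ≤ e / 10 * 5 := by
    apply mul_le_mul_of_nonneg_left _ (by positivity)
    nlinarith
  have h12 : 0 ≤ 98 / 100 * e * Q ^ 2 := by positivity
  have hz1 : -(e / 10) * (9 / 4) ≤ z * (d * (1 - 2 * ε) - 98 / 100) :=
    real_aux he (by linarith) (by linarith) hz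
  have h13 : 1 / 10 ≤ (1 - ε) * cb := by
    have h15 : 1 / 9 ≤ cb := by linarith
    have h16 : (1 - ε) * (1 / 9) ≤ (1 - ε) * cb := mul_le_mul_of_nonneg_left h15 (by linarith)
    linarith
  linarith

/-- kink: `z` huge -/
theorem real_kink {d Q z q2 e ε F : ℝ} (he : 0 < e) (he1 : e ≤ 1 / 100000) (hε : 0 ≤ ε)
    (hε1 : ε ≤ e / 10) (hd1 : 1 ≤ d) (hdQ1 : Q ≤ d) (hdQ : d ^ 2 ≤ 1 + Q ^ 2) (hQ0 : 0 ≤ Q)
    (hz : 5000 ≤ z) (hz1 : 20 * Q ≤ z) (hq : |q2| ≤ Q) (hF : F = z - q2 - e * Q ^ 2) (_hF0 : 0 ≤ F) :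
    (1 - ε) * (d * (2 * z - q2 - e * (Q ^ 2 + 1)) - 4 * (Q ^ 2 + 1)) - d * F - 98 / 100 * q2 ≥
      97 / 100 * F + e / 10 * (1 + Q ^ 2) := by
  obtain ⟨h1, h2⟩ := abs_le.mp hq
  have hkey : (1 - ε) * (d * (2 * z - q2 - e * (Q ^ 2 + 1)) - 4 * (Q ^ 2 + 1)) - d * F -
      98 / 100 * q2 - (97 / 100 * F + e / 10 * (1 + Q ^ 2)) =
      z * (d * (1 - 2 * ε) - 98 / 100) - e * d + 98 / 100 * e * Q ^ 2 + 1 / 100 * F -
        e / 10 * (1 + Q ^ 2) + ε * d * q2 + ε * d * (e * (Q ^ 2 + 1)) -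
        (1 - ε) * (4 * (Q ^ 2 + 1)) := by
    rw [hF]; ring
  have hd2 : d ≤ 1 + Q := by
    by_contra hc
    push Not at hc
    nlinarith
  have h8 : 0 ≤ ε * d * (e * (Q ^ 2 + 1)) := by positivity
  have h14 : (1 - ε) * (4 * (Q ^ 2 + 1)) ≤ 4 * (Q ^ 2 + 1) := by
    have : 0 ≤ ε * (4 * (Q ^ 2 + 1)) := by positivity
    linarith
  have h5 : -(1 / 100 * ((1 + Q) * Q)) ≤ ε * d * q2 := by
    have h6 : ε * d ≤ 1 / 100 * (1 + Q) := by
      apply mul_le_mul (by linarith) hd2 (by linarith) (by positivity)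
    have h7 : 0 ≤ ε * d := by positivity
    nlinarith
  have h10 : e * d ≤ 1 / 100 * (1 + Q) :=
    mul_le_mul (by linarith) hd2 (by linarith) (by norm_num)
  have h11 : e / 10 * (1 + Q ^ 2) ≤ 1 / 100 * (1 + Q ^ 2) := by
    apply mul_le_mul_of_nonneg_right (by linarith) (by positivity)
  have h12 : 0 ≤ 98 / 100 * e * Q ^ 2 := by positivity
  rcases le_total Q 2 with hQ | hQ
  · have h3 : 1 / 100 ≤ d * (1 - 2 * ε) - 98 / 100 := by nlinarith
    have h9 : 1 / 100 * z ≤ z * (d * (1 - 2 * ε) - 98 / 100) := by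
      rw [mul_comm (1 / 100 : ℝ) z]
      apply mul_le_mul_of_nonneg_left h3
      linarith
    have hQQ : Q ^ 2 ≤ 4 := by nlinarith
    have hQ1 : (1 + Q) * Q ≤ 6 := by nlinarith
    linarith
  · have h3 : 1 / 2 * Q ≤ d * (1 - 2 * ε) - 98 / 100 := by
      have : (1 - 2 * ε) * Q ≤ (1 - 2 * ε) * d := mul_le_mul_of_nonneg_left hdQ1 (by linarith)
      nlinarith
    have h9 : (20 * Q) * (1 / 2 * Q) ≤ z * (d * (1 - 2 * ε) - 98 / 100) :=
      mul_le_mul hz1 h3 (by positivity) (by linarith)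
    nlinarith

/-! ### geometry of one collision -/

/-- the tent -/
def tent (B e A y : ℝ) (q : R3) : ℝ := B - |(1 + A) * y + q 1| - e * ‖q‖ ^ 2

/-- positive part of the tent -/
def tentp (B e A y : ℝ) (q : R3) : ℝ := max 0 (tent B e A y q)

/-- outgoing velocities, `σ`-form -/
def out1 (q u s : R3) : R3 := q - (1 / 2 : ℝ) • (q - u + ‖q - u‖ • s)
def out2 (q u s : R3) : R3 := u + (1 / 2 : ℝ) • (q - u + ‖q - u‖ • s)

theorem out_add (q u s : R3) : out1 q u s + out2 q u s = q + u := by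
  unfold out1 out2; abel

theorem norm_sq_out {s : R3} (hs : ‖s‖ = 1) (q u : R3) :
    ‖out1 q u s‖ ^ 2 + ‖out2 q u s‖ ^ 2 = ‖q‖ ^ 2 + ‖u‖ ^ 2 := by
  have h1 : out1 q u s = (1 / 2 : ℝ) • (q + u) - (1 / 2 : ℝ) • (‖q - u‖ • s) := by
    unfold out1; module
  have h2 : out2 q u s = (1 / 2 : ℝ) • (q + u) + (1 / 2 : ℝ) • (‖q - u‖ • s) := by
    unfold out2; module
  rw [h1, h2, norm_sub_sq_real, norm_add_sq_real]
  have h3 : ‖(1 / 2 : ℝ) • (‖q - u‖ • s)‖ ^ 2 = ‖q - u‖ ^ 2 / 4 := by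
    rw [norm_smul, norm_smul, hs, norm_norm, mul_one, mul_pow]; norm_num; ring
  have h4 : ‖(1 / 2 : ℝ) • (q + u)‖ ^ 2 = ‖q + u‖ ^ 2 / 4 := by
    rw [norm_smul, mul_pow]; norm_num; ring
  rw [h3, h4, norm_add_sq_real, norm_sub_sq_real]
  ring

theorem norm_out1_sub {s : R3} (hs : ‖s‖ = 1) (q u : R3) : ‖out1 q u s - q‖ ≤ ‖q - u‖ := by
  have h1 : out1 q u s - q = -((1 / 2 : ℝ) • (q - u + ‖q - u‖ • s)) := by
    unfold out1; abel
  rw [h1, norm_neg, norm_smul]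
  calc ‖(1 / 2 : ℝ)‖ * ‖q - u + ‖q - u‖ • s‖ ≤ ‖(1 / 2 : ℝ)‖ * (‖q - u‖ + ‖q - u‖) := by
        apply mul_le_mul_of_nonneg_left _ (norm_nonneg _)
        refine (norm_add_le _ _).trans ?_
        rw [norm_smul, hs, norm_norm, mul_one]
    _ = ‖q - u‖ := by norm_num; ring

theorem norm_out2_sub {s : R3} (hs : ‖s‖ = 1) (q u : R3) : ‖out2 q u s - q‖ ≤ ‖q - u‖ := by
  have h1 : out2 q u s - q = (1 / 2 : ℝ) • (-(q - u) + ‖q - u‖ • s) := by
    unfold out2; module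
  rw [h1, norm_smul]
  calc ‖(1 / 2 : ℝ)‖ * ‖-(q - u) + ‖q - u‖ • s‖ ≤ ‖(1 / 2 : ℝ)‖ * (‖q - u‖ + ‖q - u‖) := by
        apply mul_le_mul_of_nonneg_left _ (norm_nonneg _)
        refine (norm_add_le _ _).trans ?_
        rw [norm_smul, hs, norm_norm, mul_one, norm_neg]
    _ = ‖q - u‖ := by norm_num; ring

theorem abs_apply_le (x : R3) (i : Fin 3) : |x i| ≤ ‖x‖ := by
  have := PiLp.norm_apply_le x i
  rwa [Real.norm_eq_abs] at this

theorem abs_sub_apply_le (x y : R3) (i : Fin 3) : |x i - y i| ≤ ‖x - y‖ := by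
  have := abs_apply_le (x - y) i
  simpa using this

/-- Lipschitz bound of the tent -/
theorem tent_ge_of_near {B e A y V sg : ℝ} (hsg : sg = 1 ∨ sg = -1) {q q' : R3}
    (hx : 0 ≤ sg * ((1 + A) * y + q 1)) (hV : |q' 1 - q 1| ≤ V) :
    B - sg * ((1 + A) * y + q' 1) - 2 * V - e * ‖q'‖ ^ 2 ≤ tent B e A y q' := by
  unfold tent
  have h : |(1 + A) * y + q' 1| ≤ sg * ((1 + A) * y + q' 1) + 2 * V := by
    obtain ⟨h1, h2⟩ := abs_le.mp hV
    rw [abs_le]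
    rcases hsg with rfl | rfl <;> constructor <;> linarith
  linarith

theorem tent_eq_of_near {B e A y V sg : ℝ} (hsg : sg = 1 ∨ sg = -1) {q q' : R3}
    (hx : V ≤ sg * ((1 + A) * y + q 1)) (hV : |q' 1 - q 1| ≤ V) :
    tent B e A y q' = B - sg * ((1 + A) * y + q' 1) - e * ‖q'‖ ^ 2 := by
  unfold tent
  obtain ⟨h1, h2⟩ := abs_le.mp hV
  have h : |(1 + A) * y + q' 1| = sg * ((1 + A) * y + q' 1) := by
    rcases hsg with rfl | rfl
    · rw [abs_of_nonneg (by linarith)]; ring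
    · rw [abs_of_nonpos (by linarith)]; ring
  rw [h]

theorem tent_le {B e A y sg : ℝ} (hsg : sg = 1 ∨ sg = -1) (q' : R3) :
    tent B e A y q' ≤ B - sg * ((1 + A) * y + q' 1) - e * ‖q'‖ ^ 2 := by
  unfold tent
  have h : sg * ((1 + A) * y + q' 1) ≤ |(1 + A) * y + q' 1| := by
    rcases hsg with rfl | rfl
    · rw [one_mul]; exact le_abs_self _
    · rw [neg_one_mul]; exact neg_le_abs _
  linarith

/-! ### gain integrals -/

/-- rate times the sum of the values at the two outgoing velocities -/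
def gainT (f : R3 → ℝ) (q u : R3) : ℝ :=
  ∫ w, |(inner ℝ (q - u) w : ℝ)| * (f (postVel q u w) + f (postVelStar q u w)) ∂sphereMeasure

theorem continuous_out1 (q u : R3) : Continuous fun s : R3 => out1 q u s := by
  unfold out1; fun_prop

theorem continuous_out2 (q u : R3) : Continuous fun s : R3 => out2 q u s := by
  unfold out2; fun_prop

theorem integrable_sphere_of_continuous {f : R3 → ℝ} (hf : Continuous f) :
    Integrable f sphereMeasure := by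
  obtain ⟨C, hC⟩ := (isCompact_sphere (0 : R3) 1).exists_bound_of_continuousOn hf.continuousOn
  exact integrable_sphere_of_bounded hf.measurable (C := C) fun w hw => by
    have := hC w (by simpa using hw)
    simpa using this

theorem gainT_eq {f : R3 → ℝ} (hf : Measurable f) (q u : R3) :
    gainT f q u = ‖q - u‖ / 2 * ∫ s, (f (out1 q u s) + f (out2 q u s)) ∂sphereMeasure := by
  have hm1 : Measurable fun y : R3 => f (q - y) + f (u + y) :=
    (hf.comp (by fun_prop)).add (hf.comp (by fun_prop))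
  exact integral_sigma (q - u) (fun y : R3 => f (q - y) + f (u + y)) hm1

/-- second unit vector -/
def ey : R3 := vec3 0 1 0

theorem inner_ey (x : R3) : (inner ℝ ey x : ℝ) = x 1 := by
  rw [← vec3_eta x, ey, inner_vec3]; simp

theorem norm_ey : ‖ey‖ = 1 := by
  rw [ey, norm_vec3]; norm_num

theorem le_gainT {f : R3 → ℝ} (hf : Continuous f) (q u : R3) {c0 c2 : ℝ}
    (h : ∀ s : R3, ‖s‖ = 1 → c0 + c2 * (s 1) ^ 2 ≤ f (out1 q u s) + f (out2 q u s)) :
    2 * π * ‖q - u‖ * (c0 + c2 / 3) ≤ gainT f q u := by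
  rw [gainT_eq hf.measurable]
  have h1 : ∫ s : R3, (c0 + c2 * (s 1) ^ 2) ∂sphereMeasure = 4 * π * (c0 + c2 / 3) := by
    have e1 : ∀ s : R3, c0 + c2 * (s 1) ^ 2 = c0 + c2 * ((inner ℝ ey s : ℝ) * inner ℝ ey s) := by
      intro s; rw [inner_ey]; ring
    simp_rw [e1]
    rw [integral_add (integrable_const _) ((integrable_inner_mul_sphere ey ey).const_mul _),
      integral_const_mul, integral_inner_mul_sphere, integral_one_sphere,
      real_inner_self_eq_norm_sq, norm_ey]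
    ring
  have hc : Continuous fun s : R3 => f (out1 q u s) + f (out2 q u s) :=
    (hf.comp (continuous_out1 q u)).add (hf.comp (continuous_out2 q u))
  have hc0 : Continuous fun s : R3 => c0 + c2 * (s 1) ^ 2 := by fun_prop
  have h2 : 4 * π * (c0 + c2 / 3) ≤ ∫ s, (f (out1 q u s) + f (out2 q u s)) ∂sphereMeasure := by
    rw [← h1]
    apply integral_mono_ae (integrable_sphere_of_continuous hc0) (integrable_sphere_of_continuous hc)
    filter_upwards [ae_sphereMeasure] with s hs using h s hs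
  calc 2 * π * ‖q - u‖ * (c0 + c2 / 3) = ‖q - u‖ / 2 * (4 * π * (c0 + c2 / 3)) := by ring
    _ ≤ _ := mul_le_mul_of_nonneg_left h2 (by positivity)

theorem gainT_nonneg {f : R3 → ℝ} (hf : ∀ q, 0 ≤ f q) (q u : R3) : 0 ≤ gainT f q u := by
  unfold gainT
  apply integral_nonneg
  intro w
  exact mul_nonneg (abs_nonneg _) (add_nonneg (hf _) (hf _))

theorem continuous_tent (B e A y : ℝ) : Continuous (tent B e A y) := by
  unfold tent; fun_prop

theorem continuous_tentp (B e A y : ℝ) : Continuous (tentp B e A y) := by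
  unfold tentp
  exact continuous_const.max (continuous_tent B e A y)

theorem le_tentp (B e A y : ℝ) (q : R3) : tent B e A y q ≤ tentp B e A y q := le_max_right _ _

theorem tentp_nonneg (B e A y : ℝ) (q : R3) : 0 ≤ tentp B e A y q := le_max_left _ _

/-- fuel velocity -/
def us (s : ℝ) : R3 := vec3 0 0 s

theorem norm_sq_sub_us (q : R3) (s : ℝ) (hs : s ^ 2 = 1) :
    ‖q - us s‖ ^ 2 = ‖q‖ ^ 2 + 1 - 2 * s * q 2 := by
  have h : ‖us s‖ ^ 2 = 1 := by rw [us, norm_sq_vec3, ← hs]; ring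
  have h2 : (inner ℝ q (us s) : ℝ) = s * q 2 := by
    rw [← vec3_eta q, us, inner_vec3]; simp; ring
  rw [norm_sub_sq_real, h, h2]; ring

theorem norm_us (s : ℝ) (hs : s ^ 2 = 1) : ‖us s‖ = 1 := by
  have h : ‖us s‖ ^ 2 = 1 := by rw [us, norm_sq_vec3, ← hs]; ring
  have h0 := norm_nonneg (us s)
  nlinarith

/-- facts about the two relative speeds -/
theorem speeds (q : R3) : 2 ≤ ‖q - us 1‖ + ‖q - us (-1)‖ ∧ 2 * ‖q‖ ≤ ‖q - us 1‖ + ‖q - us (-1)‖ ∧
    ‖q - us 1‖ ^ 2 + ‖q - us (-1)‖ ^ 2 = 2 * ‖q‖ ^ 2 + 2 ∧ ‖q - us 1‖ ≤ ‖q‖ + 1 ∧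
    ‖q - us (-1)‖ ≤ ‖q‖ + 1 := by
  have h1 := norm_sq_sub_us q 1 (by norm_num)
  have h2 := norm_sq_sub_us q (-1) (by norm_num)
  have hn1 := norm_us 1 (by norm_num)
  have hn2 := norm_us (-1) (by norm_num)
  refine ⟨?_, ?_, by rw [h1, h2]; ring, ?_, ?_⟩
  · have h3 : us 1 - us (-1) = (2 : ℝ) • us 1 := by
      unfold us; apply vec3_ext <;> simp; norm_num
    calc (2 : ℝ) = ‖us 1 - us (-1)‖ := by rw [h3, norm_smul, hn1]; norm_num
      _ = ‖(q - us (-1)) - (q - us 1)‖ := by congr 1; abel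
      _ ≤ ‖q - us (-1)‖ + ‖q - us 1‖ := norm_sub_le _ _
      _ = _ := by ring
  · have h3 : us (-1) = -us 1 := by
      unfold us; apply vec3_ext <;> simp
    calc 2 * ‖q‖ = ‖(2 : ℝ) • q‖ := by rw [norm_smul]; norm_num
      _ = ‖(q - us 1) + (q - us (-1))‖ := by rw [h3]; congr 1; module
      _ ≤ _ := norm_add_le _ _
  · calc _ ≤ ‖q‖ + ‖us 1‖ := norm_sub_le _ _
      _ = _ := by rw [hn1]
  · calc _ ≤ ‖q‖ + ‖us (-1)‖ := norm_sub_le _ _
      _ = _ := by rw [hn2]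

theorem out_add_one (q s : R3) (a : ℝ) : out1 q (us a) s 1 + out2 q (us a) s 1 = q 1 := by
  have h := congrArg (fun x : R3 => x 1) (out_add q (us a) s)
  simpa [us] using h

/-- (kink) crude lower bound -/
theorem sum_ge_kink {B e A y sg a : ℝ} (hsg : sg = 1 ∨ sg = -1) (ha : a ^ 2 = 1) {q : R3}
    (hx : 0 ≤ sg * ((1 + A) * y + q 1)) {s : R3} (hs : ‖s‖ = 1) :
    2 * (B - sg * ((1 + A) * y)) - sg * q 1 - e * (‖q‖ ^ 2 + 1) - 4 * ‖q - us a‖ ≤
      tentp B e A y (out1 q (us a) s) + tentp B e A y (out2 q (us a) s) := by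
  have h1 := tent_ge_of_near (B := B) (e := e) hsg hx ((abs_sub_apply_le (out1 q (us a) s) q 1).trans
    (norm_out1_sub hs q (us a)))
  have h2 := tent_ge_of_near (B := B) (e := e) hsg hx ((abs_sub_apply_le (out2 q (us a) s) q 1).trans
    (norm_out2_sub hs q (us a)))
  have h3 := le_tentp B e A y (out1 q (us a) s)
  have h4 := le_tentp B e A y (out2 q (us a) s)
  have h5 := out_add_one q s a
  have h6 := norm_sq_out hs q (us a)
  rw [norm_us a ha] at h6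
  have h7 : e * ‖out1 q (us a) s‖ ^ 2 + e * ‖out2 q (us a) s‖ ^ 2 = e * (‖q‖ ^ 2 + 1) := by
    rw [← mul_add, h6]; ring
  have h8 : sg * out1 q (us a) s 1 + sg * out2 q (us a) s 1 = sg * q 1 := by
    rw [← mul_add, h5]
  nlinarith

/-- (no kink) exact lower bound -/
theorem sum_ge_lin {B e A y sg a : ℝ} (hsg : sg = 1 ∨ sg = -1) (ha : a ^ 2 = 1) {q : R3}
    (hx : ‖q - us a‖ ≤ sg * ((1 + A) * y + q 1)) {s : R3} (hs : ‖s‖ = 1) :
    2 * (B - sg * ((1 + A) * y)) - sg * q 1 - e * (‖q‖ ^ 2 + 1) ≤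
      tentp B e A y (out1 q (us a) s) + tentp B e A y (out2 q (us a) s) := by
  have h1 := tent_eq_of_near (B := B) (e := e) hsg hx
    ((abs_sub_apply_le (out1 q (us a) s) q 1).trans (norm_out1_sub hs q (us a)))
  have h2 := tent_eq_of_near (B := B) (e := e) hsg hx
    ((abs_sub_apply_le (out2 q (us a) s) q 1).trans (norm_out2_sub hs q (us a)))
  have h3 := le_tentp B e A y (out1 q (us a) s)
  have h4 := le_tentp B e A y (out2 q (us a) s)
  have h5 := out_add_one q s a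
  have h6 := norm_sq_out hs q (us a)
  rw [norm_us a ha] at h6
  have h7 : e * ‖out1 q (us a) s‖ ^ 2 + e * ‖out2 q (us a) s‖ ^ 2 = e * (‖q‖ ^ 2 + 1) := by
    rw [← mul_add, h6]; ring
  have h8 : sg * out1 q (us a) s 1 + sg * out2 q (us a) s 1 = sg * q 1 := by
    rw [← mul_add, h5]
  rw [h1] at h3
  rw [h2] at h4
  nlinarith

theorem clip_aux {sg q1 V t z e1 e2 T1 T2 : ℝ} (hsg : sg = 1 ∨ sg = -1) (hV : 0 ≤ V)
    (ht : |t| ≤ 1) (he1 : 0 ≤ e1) (he2 : 0 ≤ e2) (h1 : 0 ≤ T1) (h2 : 0 ≤ T2)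
    (k1 : z - sg * (q1 / 2 - V / 2 * t) - e1 ≤ T1) (k2 : z - sg * (q1 / 2 + V / 2 * t) - e2 ≤ T2) :
    2 * z - sg * q1 - (e1 + e2) - |q1| - 2 * |z| + V / 2 * t ^ 2 ≤ T1 + T2 := by
  have hq1 := le_abs_self q1
  have hq2 := neg_le_abs q1
  have hz1 := le_abs_self z
  have hz2 := neg_le_abs z
  have hss : t ^ 2 ≤ |t| := by
    rw [← sq_abs]; nlinarith [abs_nonneg t]
  have hVs : V / 2 * t ^ 2 ≤ V / 2 * |t| := mul_le_mul_of_nonneg_left hss (by positivity)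
  rcases abs_cases t with ⟨ha1, ha2⟩ | ⟨ha1, ha2⟩ <;> rw [ha1] at hVs <;>
    rcases hsg with rfl | rfl <;> linarith

/-- (no kink) lower bound with the clipping bonus -/
theorem sum_ge_clip {B e A y sg a z : ℝ} (he : 0 ≤ e) (hsg : sg = 1 ∨ sg = -1) (ha : a ^ 2 = 1)
    {q : R3} (hz : z = B - sg * ((1 + A) * y))
    (hx : ‖q - us a‖ ≤ sg * ((1 + A) * y + q 1)) {s : R3} (hs : ‖s‖ = 1) :
    2 * z - sg * q 1 - e * (‖q‖ ^ 2 + 1) - |q 1| - 2 * |z| + ‖q - us a‖ / 2 * (s 1) ^ 2 ≤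
      tentp B e A y (out1 q (us a) s) + tentp B e A y (out2 q (us a) s) := by
  have h1 := tent_eq_of_near (B := B) (e := e) hsg hx
    ((abs_sub_apply_le (out1 q (us a) s) q 1).trans (norm_out1_sub hs q (us a)))
  have h2 := tent_eq_of_near (B := B) (e := e) hsg hx
    ((abs_sub_apply_le (out2 q (us a) s) q 1).trans (norm_out2_sub hs q (us a)))
  have h5 := out_add_one q s a
  have h6 := norm_sq_out hs q (us a)
  rw [norm_us a ha] at h6
  have h7 : e * ‖out1 q (us a) s‖ ^ 2 + e * ‖out2 q (us a) s‖ ^ 2 = e * (‖q‖ ^ 2 + 1) := by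
    rw [← mul_add, h6]; ring
  have h8 : sg * out1 q (us a) s 1 + sg * out2 q (us a) s 1 = sg * q 1 := by
    rw [← mul_add, h5]
  have h9 : out1 q (us a) s 1 = q 1 / 2 - ‖q - us a‖ / 2 * s 1 := by
    unfold out1 us; simp; ring
  have h10 : out2 q (us a) s 1 = q 1 / 2 + ‖q - us a‖ / 2 * s 1 := by
    unfold out2 us; simp; ring
  have hs1 : |s 1| ≤ 1 := by rw [← hs]; exact abs_apply_le s 1
  have k1 := le_tentp B e A y (out1 q (us a) s)
  have k2 := le_tentp B e A y (out2 q (us a) s)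
  rw [h1, h9] at k1
  rw [h2, h10] at k2
  have e1 : 0 ≤ e * ‖out1 q (us a) s‖ ^ 2 := by positivity
  have e2 : 0 ≤ e * ‖out2 q (us a) s‖ ^ 2 := by positivity
  have k3 : z - sg * (q 1 / 2 - ‖q - us a‖ / 2 * s 1) - e * ‖out1 q (us a) s‖ ^ 2 ≤
      tentp B e A y (out1 q (us a) s) := by rw [hz]; linarith
  have k4 : z - sg * (q 1 / 2 + ‖q - us a‖ / 2 * s 1) - e * ‖out2 q (us a) s‖ ^ 2 ≤
      tentp B e A y (out2 q (us a) s) := by rw [hz]; linarith
  have h := clip_aux hsg (norm_nonneg (q - us a)) hs1 e1 e2 (tentp_nonneg B e A y _)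
    (tentp_nonneg B e A y _) k3 k4
  rw [h7] at h
  exact h

end Crest.Agent.R68.XTent
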