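import Mathlib
import Crest.Agent.R68.XSph
import Crest.Agent.R68.XTent

/-!
R68 / XSph2: Povzner moments on the collision sphere, mean of `|q_i|`, caps (helper211).
-/

set_option autoImplicit false
open MeasureTheory Set
open scoped ENNReal Real
open Crest.AnalysisR.VecCalc3 Crest.AnalysisR.PDE.Boltzmann

namespace Crest.Agent.R68.XSph

attribute [local irreducible] rot vec3

theorem integral_Ioo_eq (f : ℝ → ℝ) : ∫ t in Ioo (-1 : ℝ) 1, f t = ∫ t in (-1 : ℝ)..1, f t := by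
  rw [intervalIntegral.integral_of_le (by norm_num), integral_Ioc_eq_integral_Ioo]

/-- sphere mean of a function of the energy -/
theorem smean_energy (v u : R3) (f : ℝ → ℝ) (hf : Measurable f) :
    smean (fun a => f (‖a‖ ^ 2)) v u
      = 1 / 2 * ∫ t in (-1 : ℝ)..1, f ((‖v‖ ^ 2 + ‖u‖ ^ 2) / 2 + Dw v u * t) := by
  unfold smean
  rw [integral_energy v u f hf, integral_Ioo_eq]
  have := Real.pi_pos
  field_simp
  ring

/-- sphere mean of a function of a coordinate -/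
theorem smean_coord (v u : R3) (i : Fin 3) (f : ℝ → ℝ) (hf : Measurable f) :
    smean (fun a => f (a i)) v u
      = 1 / 2 * ∫ t in (-1 : ℝ)..1, f ((v i + u i) / 2 + ‖v - u‖ / 2 * t) := by
  unfold smean
  rw [integral_coord v u i f hf, integral_Ioo_eq]
  have := Real.pi_pos
  field_simp
  ring

theorem integral_lin (m R : ℝ) : ∫ t in (-1 : ℝ)..1, (m + R * t) = 2 * m := by
  have hd : ∀ t : ℝ, HasDerivAt (fun t : ℝ => m * t + R * t ^ 2 / 2) (m + R * t) t := by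
    intro t
    have h1 := ((hasDerivAt_id t).const_mul m)
    have h2 := (((hasDerivAt_pow 2 t).const_mul R).div_const 2)
    refine (h1.add h2).congr_deriv ?_
    simp; ring
  rw [intervalIntegral.integral_eq_sub_of_hasDerivAt (fun t _ => hd t)
      (Continuous.intervalIntegrable (by fun_prop) _ _)]
  ring

theorem smean_norm_pow2 (v u : R3) :
    smean (fun a => ‖a‖ ^ 2) v u = (‖v‖ ^ 2 + ‖u‖ ^ 2) / 2 := by
  rw [smean_energy v u (fun x => x) measurable_id, integral_lin]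
  ring

theorem smean_norm_pow4 (v u : R3) :
    smean (fun a => ‖a‖ ^ 4) v u = ((‖v‖ ^ 2 + ‖u‖ ^ 2) / 2) ^ 2 + Dw v u ^ 2 / 3 := by
  have e : (fun a : R3 => ‖a‖ ^ 4) = fun a => (fun x : ℝ => x ^ 2) (‖a‖ ^ 2) := by
    funext a; ring
  rw [e, smean_energy v u (fun x => x ^ 2) (by fun_prop)]
  generalize (‖v‖ ^ 2 + ‖u‖ ^ 2) / 2 = A
  generalize Dw v u = D
  have h : ∀ t ∈ Set.uIcc (-1 : ℝ) 1, HasDerivAt (fun t : ℝ => A ^ 2 * t + A * D * t ^ 2
      + D ^ 2 * t ^ 3 / 3) ((A + D * t) ^ 2) t := by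
    intro t _
    have h1 := ((hasDerivAt_id t).const_mul (A ^ 2))
    have h2 := ((hasDerivAt_pow 2 t).const_mul (A * D))
    have h3 := (((hasDerivAt_pow 3 t).const_mul (D ^ 2)).div_const 3)
    refine ((h1.add h2).add h3).congr_deriv ?_
    simp; ring
  rw [intervalIntegral.integral_eq_sub_of_hasDerivAt h
    (Continuous.intervalIntegrable (by fun_prop) _ _)]
  ring

theorem smean_norm_pow12 (v u : R3) :
    smean (fun a => ‖a‖ ^ 12) v u = ((‖v‖ ^ 2 + ‖u‖ ^ 2) / 2) ^ 6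
      + 5 * ((‖v‖ ^ 2 + ‖u‖ ^ 2) / 2) ^ 4 * Dw v u ^ 2
      + 3 * ((‖v‖ ^ 2 + ‖u‖ ^ 2) / 2) ^ 2 * Dw v u ^ 4 + Dw v u ^ 6 / 7 := by
  have e : (fun a : R3 => ‖a‖ ^ 12) = fun a => (fun x : ℝ => x ^ 6) (‖a‖ ^ 2) := by
    funext a; ring
  rw [e, smean_energy v u (fun x => x ^ 6) (by fun_prop)]
  generalize (‖v‖ ^ 2 + ‖u‖ ^ 2) / 2 = A
  generalize Dw v u = D
  have h : ∀ t ∈ Set.uIcc (-1 : ℝ) 1, HasDerivAt (fun t : ℝ => A ^ 6 * t + 3 * A ^ 5 * D * t ^ 2
      + 5 * A ^ 4 * D ^ 2 * t ^ 3 + 5 * A ^ 3 * D ^ 3 * t ^ 4 + 3 * A ^ 2 * D ^ 4 * t ^ 5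
      + A * D ^ 5 * t ^ 6 + D ^ 6 / 7 * t ^ 7) ((A + D * t) ^ 6) t := by
    intro t _
    have h1 := ((hasDerivAt_id t).const_mul (A ^ 6))
    have h2 := ((hasDerivAt_pow 2 t).const_mul (3 * A ^ 5 * D))
    have h3 := ((hasDerivAt_pow 3 t).const_mul (5 * A ^ 4 * D ^ 2))
    have h4 := ((hasDerivAt_pow 4 t).const_mul (5 * A ^ 3 * D ^ 3))
    have h5 := ((hasDerivAt_pow 5 t).const_mul (3 * A ^ 2 * D ^ 4))
    have h6 := ((hasDerivAt_pow 6 t).const_mul (A * D ^ 5))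
    have h7 := ((hasDerivAt_pow 7 t).const_mul (D ^ 6 / 7))
    refine ((((((h1.add h2).add h3).add h4).add h5).add h6).add h7).congr_deriv ?_
    simp; ring
  rw [intervalIntegral.integral_eq_sub_of_hasDerivAt h
    (Continuous.intervalIntegrable (by fun_prop) _ _)]
  ring

/-- **Povzner, 12th power** -/
theorem smean_norm_pow12_le (v u : R3) :
    smean (fun a => ‖a‖ ^ 12) v u ≤ (‖v‖ ^ 2 + ‖u‖ ^ 2) ^ 6 / 7 := by
  rw [smean_norm_pow12]
  have hD := Dw_le v u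
  have hD0 := Dw_nonneg v u
  set A := (‖v‖ ^ 2 + ‖u‖ ^ 2) / 2 with hA
  have hA0 : 0 ≤ A := by positivity
  have e : ‖v‖ ^ 2 + ‖u‖ ^ 2 = 2 * A := by rw [hA]; ring
  rw [e]
  have h2 : Dw v u ^ 2 ≤ A ^ 2 := pow_le_pow_left₀ hD0 hD 2
  have h4 : Dw v u ^ 4 ≤ A ^ 4 := pow_le_pow_left₀ hD0 hD 4
  have h6 : Dw v u ^ 6 ≤ A ^ 6 := pow_le_pow_left₀ hD0 hD 6
  have h2' : 5 * A ^ 4 * Dw v u ^ 2 ≤ 5 * A ^ 4 * A ^ 2 := by gcongr
  have h4' : 3 * A ^ 2 * Dw v u ^ 4 ≤ 3 * A ^ 2 * A ^ 4 := by gcongr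
  nlinarith

/-- **Povzner, 4th power** -/
theorem smean_norm_pow4_le (v u : R3) :
    smean (fun a => ‖a‖ ^ 4) v u ≤ (‖v‖ ^ 2 + ‖u‖ ^ 2) ^ 2 / 3 := by
  rw [smean_norm_pow4]
  have hD := Dw_le v u
  have hD0 := Dw_nonneg v u
  have h2 := pow_le_pow_left₀ hD0 hD 2
  nlinarith

/-- large velocities: 12th power -/
theorem smean_pow12_large {U : ℝ} {v u : R3} (hu : ‖u‖ ≤ U) (hv : 10 * U ≤ ‖v‖) :
    smean (fun a => ‖a‖ ^ 12) v u ≤ 1 / 6 * ‖v‖ ^ 12 := by
  have hU : 0 ≤ U := (norm_nonneg u).trans hu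
  refine (smean_norm_pow12_le v u).trans ?_
  have h1 : ‖u‖ ^ 2 ≤ (‖v‖ / 10) ^ 2 := pow_le_pow_left₀ (norm_nonneg _) (by linarith) 2
  have h2 : ‖v‖ ^ 2 + ‖u‖ ^ 2 ≤ 101 / 100 * ‖v‖ ^ 2 := by nlinarith
  have h3 : (‖v‖ ^ 2 + ‖u‖ ^ 2) ^ 6 ≤ (101 / 100 * ‖v‖ ^ 2) ^ 6 :=
    pow_le_pow_left₀ (by positivity) h2 6
  have h4 : (101 / 100 * ‖v‖ ^ 2) ^ 6 = (101 / 100) ^ 6 * ‖v‖ ^ 12 := by ring
  have h5 : 0 ≤ ‖v‖ ^ 12 := by positivity
  nlinarith

/-- large velocities: 4th power -/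
theorem smean_pow4_large {U : ℝ} {v u : R3} (hu : ‖u‖ ≤ U) (hv : 10 * U ≤ ‖v‖) :
    smean (fun a => ‖a‖ ^ 4) v u ≤ 1 / 2.9 * ‖v‖ ^ 4 := by
  have hU : 0 ≤ U := (norm_nonneg u).trans hu
  refine (smean_norm_pow4_le v u).trans ?_
  have h1 : ‖u‖ ^ 2 ≤ (‖v‖ / 10) ^ 2 := pow_le_pow_left₀ (norm_nonneg _) (by linarith) 2
  have h2 : ‖v‖ ^ 2 + ‖u‖ ^ 2 ≤ 101 / 100 * ‖v‖ ^ 2 := by nlinarith
  have h3 : (‖v‖ ^ 2 + ‖u‖ ^ 2) ^ 2 ≤ (101 / 100 * ‖v‖ ^ 2) ^ 2 :=
    pow_le_pow_left₀ (by positivity) h2 2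
  have h4 : (101 / 100 * ‖v‖ ^ 2) ^ 2 = (101 / 100) ^ 2 * ‖v‖ ^ 4 := by ring
  have h5 : 0 ≤ ‖v‖ ^ 4 := by positivity
  nlinarith

/-- mean of the absolute value of a coordinate: exact value inside -/
theorem integral_abs_lin {m R : ℝ} (hR : 0 < R) (hm : |m| ≤ R) :
    1 / 2 * ∫ t in (-1 : ℝ)..1, |m + R * t| = (R ^ 2 + m ^ 2) / (2 * R) := by
  obtain ⟨h1, h2⟩ := abs_le.1 hm
  have hc : Continuous fun t : ℝ => |m + R * t| := by fun_prop
  have e : ∫ t in (-1 : ℝ)..1, |m + R * t| = (∫ t in (-1 : ℝ)..(-m / R), |m + R * t|)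
      + ∫ t in (-m / R)..1, |m + R * t| :=
    (intervalIntegral.integral_add_adjacent_intervals (hc.intervalIntegrable _ _)
      (hc.intervalIntegrable _ _)).symm
  have l1 : (-1 : ℝ) ≤ -m / R := by rw [le_div_iff₀ hR]; linarith
  have l2 : -m / R ≤ 1 := by rw [div_le_iff₀ hR]; linarith
  have e1 : ∫ t in (-1 : ℝ)..(-m / R), |m + R * t| = ∫ t in (-1 : ℝ)..(-m / R), -(m + R * t) := by
    refine intervalIntegral.integral_congr fun t ht => ?_
    rw [uIcc_of_le l1] at ht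
    rw [abs_of_nonpos]
    have := (le_div_iff₀ hR).1 ht.2
    linarith
  have e2 : ∫ t in (-m / R)..1, |m + R * t| = ∫ t in (-m / R)..1, (m + R * t) := by
    refine intervalIntegral.integral_congr fun t ht => ?_
    rw [uIcc_of_le l2] at ht
    rw [abs_of_nonneg]
    have := (div_le_iff₀ hR).1 ht.1
    linarith
  have hd : ∀ t : ℝ, HasDerivAt (fun t : ℝ => m * t + R * t ^ 2 / 2) (m + R * t) t := by
    intro t
    have h1 := ((hasDerivAt_id t).const_mul m)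
    have h2 := (((hasDerivAt_pow 2 t).const_mul R).div_const 2)
    refine (h1.add h2).congr_deriv ?_
    simp; ring
  rw [e, e1, e2, intervalIntegral.integral_neg,
    intervalIntegral.integral_eq_sub_of_hasDerivAt (fun t _ => hd t)
      (Continuous.intervalIntegrable (by fun_prop) _ _),
    intervalIntegral.integral_eq_sub_of_hasDerivAt (fun t _ => hd t)
      (Continuous.intervalIntegrable (by fun_prop) _ _)]
  field_simp
  ring

theorem integral_abs_lin_le {m R c : ℝ} (hc : ∀ t ∈ Icc (-1 : ℝ) 1, |m + R * t| ≤ c) :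
    1 / 2 * ∫ t in (-1 : ℝ)..1, |m + R * t| ≤ c := by
  have h := intervalIntegral.integral_mono_on (μ := volume) (a := -1) (b := 1) (by norm_num)
    (f := fun t => |m + R * t|) (g := fun _ => c)
    (Continuous.intervalIntegrable (by fun_prop) _ _)
    (Continuous.intervalIntegrable (by fun_prop) _ _) hc
  simp at h
  linarith

/-- `mean |a_i| = |m|` outside -/
theorem integral_abs_lin_out {m R : ℝ} (hm : |R| ≤ |m|) :
    1 / 2 * ∫ t in (-1 : ℝ)..1, |m + R * t| = |m| := by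
  have hR : ∀ t ∈ Icc (-1 : ℝ) 1, |R * t| ≤ |m| := by
    intro t ht
    rw [abs_mul]
    have : |t| ≤ 1 := abs_le.2 ht
    nlinarith [abs_nonneg R, abs_nonneg t]
  rcases le_total 0 m with h | h
  · rw [abs_of_nonneg h] at hR ⊢
    have e : ∫ t in (-1 : ℝ)..1, |m + R * t| = ∫ t in (-1 : ℝ)..1, (m + R * t) := by
      refine intervalIntegral.integral_congr fun t ht => ?_
      rw [uIcc_of_le (by norm_num)] at ht
      have := abs_le.1 (hR t ht)
      exact abs_of_nonneg (by linarith)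
    rw [e, integral_lin]; ring
  · rw [abs_of_nonpos h] at hR ⊢
    have e : ∫ t in (-1 : ℝ)..1, |m + R * t| = ∫ t in (-1 : ℝ)..1, -(m + R * t) := by
      refine intervalIntegral.integral_congr fun t ht => ?_
      rw [uIcc_of_le (by norm_num)] at ht
      have := abs_le.1 (hR t ht)
      exact abs_of_nonpos (by linarith)
    rw [e, intervalIntegral.integral_neg, integral_lin]; ring

/-- mean of `|a_i|` on the collision sphere -/
theorem smean_abs_coord {v u : R3} {i : Fin 3} (h0 : v ≠ u) (h : |v i + u i| ≤ ‖v - u‖) :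
    smean (fun a => |a i|) v u = (‖v - u‖ ^ 2 + (v i + u i) ^ 2) / (4 * ‖v - u‖) := by
  have hn : 0 < ‖v - u‖ := norm_pos_iff.2 (sub_ne_zero.2 h0)
  rw [smean_coord v u i (fun x => |x|) (by fun_prop), integral_abs_lin (by positivity)]
  · field_simp; ring
  · rw [abs_div, abs_two]; linarith

theorem smean_abs_coord_out {v u : R3} {i : Fin 3} (h : ‖v - u‖ ≤ |v i + u i|) :
    smean (fun a => |a i|) v u = |v i + u i| / 2 := by
  rw [smean_coord v u i (fun x => |x|) (by fun_prop), integral_abs_lin_out, abs_div, abs_two]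
  rw [abs_div, abs_div, abs_two, abs_norm]; linarith

theorem sphere_compl_neg (f : R3 → ℝ) (hf : Measurable f) :
    ∫ s, f (-s) ∂sphereMeasure = ∫ s, f s ∂sphereMeasure := by
  have h := measurePreserving_sphere_isometry (LinearIsometryEquiv.neg ℝ (E := R3))
  have h2 := h.integral_comp (LinearIsometryEquiv.neg ℝ (E := R3)).toHomeomorph.measurableEmbedding f
  simpa using h2

/-- relation with the Bochner gain of XTent -/
theorem gainT_eq_smean {f : R3 → ℝ} (hf : Measurable f) (v u : R3)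
    (hi : Integrable (fun s => f (pt v u s)) sphereMeasure) :
    XTent.gainT f v u = 2 * π * ‖v - u‖ * (2 * smean f v u) := by
  rw [XTent.gainT_eq hf]
  have e2 : ∀ s, XTent.out2 v u s = pt v u s := by
    intro s; unfold XTent.out2 pt; module
  have e1 : ∀ s, XTent.out1 v u s = pt v u (-s) := by
    intro s; unfold XTent.out1 pt; module
  have hm : Measurable fun s => f (pt v u s) := hf.comp (measurable_pt_s v u)
  have hi' : Integrable (fun s => f (pt v u (-s))) sphereMeasure := by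
    have h := measurePreserving_sphere_isometry (LinearIsometryEquiv.neg ℝ (E := R3))
    exact h.integrable_comp_of_integrable hi
  simp_rw [e1, e2]
  rw [integral_add hi' hi, sphere_compl_neg (fun s => f (pt v u s)) hm]
  unfold smean
  have := Real.pi_pos
  field_simp
  ring

end Crest.Agent.R68.XSph
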