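import Crest.Agent.R68.XDefs
import Crest.Agent.R68.XSph2
import Crest.Agent.R68.DBil

/-!
# Row 68, PART X2: elementary facts on `gsR`, `gsE`, `GA` (helper60)
-/

set_option autoImplicit false
open MeasureTheory Set Filter
open scoped ENNReal Real
open Crest.AnalysisR.VecCalc3 Crest.AnalysisR.PDE.Boltzmann

noncomputable section

namespace Crest.Agent.R68.X2

open Crest.Agent.R68.L (Den phiE Gf Dam TL sol)
open Crest.Agent.R68.A (Meas3)
open Crest.Agent.R68.XSph (pt smean)

/-! ### identification with the other notations -/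

theorem gsR_eq_gainT (g : R3 → ℝ) (v u : R3) : gsR g v u = XTent.gainT g v u := rfl

theorem gsE_eq_gs (g : R3 → ℝ≥0∞) (v u : R3) : gsE g v u = XSph.gs g v u := rfl

/-- integrability on the collision sphere, from a bound on the ball `‖w‖ ≤ ‖v‖ + ‖u‖` -/
theorem int_pt {g : R3 → ℝ} (hg : Measurable g) (v u : R3) {C : ℝ}
    (hC : ∀ a : R3, ‖a‖ ≤ ‖v‖ + ‖u‖ → |g a| ≤ C) :
    Integrable (fun s => g (pt v u s)) sphereMeasure :=
  XSph.integrable_pt_of_bounded hg v u hC

/-- **mean form** of `gsR` -/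
theorem gsR_eq_smean {g : R3 → ℝ} (hg : Measurable g) (v u : R3)
    (hi : Integrable (fun s => g (pt v u s)) sphereMeasure) :
    gsR g v u = 4 * π * ‖v - u‖ * smean g v u := by
  rw [gsR_eq_gainT, XSph.gainT_eq_smean hg v u hi]
  ring

/-- **σ form** of `gsR` -/
theorem gsR_sigma {g : R3 → ℝ} (hg : Measurable g) (v u : R3)
    (hi : Integrable (fun s => g (pt v u s)) sphereMeasure) :
    gsR g v u = ‖v - u‖ * ∫ s, g (pt v u s) ∂sphereMeasure := by
  rw [gsR_eq_smean hg v u hi]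
  unfold smean
  have : (4 * π) ≠ 0 := by positivity
  field_simp

/-- **σ form** of `gsE` -/
theorem gsE_sigma {g : R3 → ℝ≥0∞} (hg : Measurable g) (v u : R3) :
    gsE g v u = ENNReal.ofReal ‖v - u‖ * ∫⁻ s, g (pt v u s) ∂sphereMeasure := by
  rw [gsE_eq_gs, XSph.gs_eq hg]

/-! ### translation, constants -/

theorem fr_sub (y : ℝ) (v u : R3) : fr y v - fr y u = v - u := by
  unfold fr; abel

theorem postVel_fr (y : ℝ) (v u w : R3) : postVel (fr y v) (fr y u) w = fr y (postVel v u w) := by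
  unfold postVel
  rw [fr_sub]
  unfold fr; abel

theorem postVelStar_fr (y : ℝ) (v u w : R3) :
    postVelStar (fr y v) (fr y u) w = fr y (postVelStar v u w) := by
  unfold postVelStar
  rw [fr_sub]
  unfold fr; abel

theorem gsR_fr (g : R3 → ℝ) (y : ℝ) (v u : R3) :
    gsR (fun w => g (fr y w)) v u = gsR g (fr y v) (fr y u) := by
  unfold gsR
  simp only [postVel_fr, postVelStar_fr, fr_sub]

theorem gsE_fr (g : R3 → ℝ≥0∞) (y : ℝ) (v u : R3) :
    gsE (fun w => g (fr y w)) v u = gsE g (fr y v) (fr y u) := by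
  unfold gsE
  simp only [postVel_fr, postVelStar_fr, fr_sub]

theorem fr_us (y s : ℝ) : fr y (us y s) = us 0 s := by
  unfold fr us
  ext i
  fin_cases i <;> simp

theorem gsR_const (c : ℝ) (v u : R3) : gsR (fun _ => c) v u = 4 * π * ‖v - u‖ * c := by
  rw [gsR_eq_smean measurable_const v u (integrable_const _), XSph.smean_const]

theorem gsE_const (c : ℝ≥0∞) (v u : R3) :
    gsE (fun _ => c) v u = ENNReal.ofReal (4 * π * ‖v - u‖) * c := by
  rw [gsE_eq_gs, XSph.gs_const, mul_comm]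

/-! ### order and linearity of `gsR` -/

/-- monotone on the sphere, integrable form -/
theorem gsR_mono_int {f g : R3 → ℝ} (hf : Measurable f) (hg : Measurable g) {v u : R3}
    (hfi : Integrable (fun s => f (pt v u s)) sphereMeasure)
    (hgi : Integrable (fun s => g (pt v u s)) sphereMeasure)
    (h : ∀ s : R3, ‖s‖ = 1 → f (pt v u s) ≤ g (pt v u s)) : gsR f v u ≤ gsR g v u := by
  rw [gsR_eq_smean hf v u hfi, gsR_eq_smean hg v u hgi]
  exact mul_le_mul_of_nonneg_left (XSph.smean_mono v u hfi hgi h) (by positivity)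

/-- monotone on the sphere (all outgoing velocities satisfy `‖w‖ ≤ ‖v‖ + ‖u‖`) -/
theorem gsR_mono {f g : R3 → ℝ} (hf : Measurable f) (hg : Measurable g) {v u : R3} {C : ℝ}
    (hfC : ∀ w, ‖w‖ ≤ ‖v‖ + ‖u‖ → |f w| ≤ C) (hgC : ∀ w, ‖w‖ ≤ ‖v‖ + ‖u‖ → |g w| ≤ C)
    (h : ∀ w, ‖w‖ ≤ ‖v‖ + ‖u‖ → f w ≤ g w) : gsR f v u ≤ gsR g v u :=
  gsR_mono_int hf hg (int_pt hf v u hfC) (int_pt hg v u hgC) fun _ hs =>
    h _ (XSph.norm_pt_le hs)

theorem gsR_nonneg {g : R3 → ℝ} (h : ∀ w, 0 ≤ g w) (v u : R3) : 0 ≤ gsR g v u := by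
  unfold gsR
  exact integral_nonneg fun w => mul_nonneg (abs_nonneg _) (add_nonneg (h _) (h _))

theorem gsR_add {f g : R3 → ℝ} (hf : Measurable f) (hg : Measurable g) {v u : R3}
    (hfi : Integrable (fun s => f (pt v u s)) sphereMeasure)
    (hgi : Integrable (fun s => g (pt v u s)) sphereMeasure) :
    gsR (fun w => f w + g w) v u = gsR f v u + gsR g v u := by
  rw [gsR_eq_smean hf v u hfi, gsR_eq_smean hg v u hgi,
    gsR_eq_smean (g := fun w => f w + g w) (hf.add hg) v u (hfi.add hgi),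
    XSph.smean_add v u hfi hgi, mul_add]

theorem gsR_sub {f g : R3 → ℝ} (hf : Measurable f) (hg : Measurable g) {v u : R3}
    (hfi : Integrable (fun s => f (pt v u s)) sphereMeasure)
    (hgi : Integrable (fun s => g (pt v u s)) sphereMeasure) :
    gsR (fun w => f w - g w) v u = gsR f v u - gsR g v u := by
  rw [gsR_eq_smean hf v u hfi, gsR_eq_smean hg v u hgi,
    gsR_eq_smean (g := fun w => f w - g w) (hf.sub hg) v u (hfi.sub hgi),
    XSph.smean_sub v u hfi hgi, mul_sub]

theorem gsR_const_mul (c : ℝ) (g : R3 → ℝ) (v u : R3) :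
    gsR (fun w => c * g w) v u = c * gsR g v u := by
  unfold gsR
  rw [← integral_const_mul]
  refine integral_congr_ae (Eventually.of_forall fun w => ?_)
  ring

/-- size -/
theorem abs_gsR_le {g : R3 → ℝ} (hg : Measurable g) {v u : R3} {C : ℝ}
    (hC : ∀ w, ‖w‖ ≤ ‖v‖ + ‖u‖ → |g w| ≤ C) : |gsR g v u| ≤ 4 * π * ‖v - u‖ * C := by
  have hi := int_pt hg v u hC
  have h1 : gsR g v u ≤ 4 * π * ‖v - u‖ * C := by
    rw [gsR_eq_smean hg v u hi]
    exact mul_le_mul_of_nonneg_left (XSph.smean_le_const v u hi fun s hs =>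
      (le_abs_self _).trans (hC _ (XSph.norm_pt_le hs))) (by positivity)
  have h2 : -(4 * π * ‖v - u‖ * C) ≤ gsR g v u := by
    rw [gsR_eq_smean hg v u hi, ← mul_neg]
    exact mul_le_mul_of_nonneg_left (XSph.const_le_smean v u hi fun s hs =>
      (abs_le.1 (hC _ (XSph.norm_pt_le hs))).1) (by positivity)
  exact abs_le.2 ⟨h2, h1⟩

/-! ### extended and real dual gains -/

/-- local form: boundedness only on the ball `‖w‖ ≤ ‖v‖ + ‖u‖` -/
theorem gsE_ofReal' {g : R3 → ℝ} (hg : Measurable g) (h0 : ∀ w, 0 ≤ g w) {v u : R3} {C : ℝ}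
    (hC : ∀ w, ‖w‖ ≤ ‖v‖ + ‖u‖ → g w ≤ C) :
    gsE (fun w => ENNReal.ofReal (g w)) v u = ENNReal.ofReal (gsR g v u) := by
  have hi : Integrable (fun s => g (pt v u s)) sphereMeasure :=
    int_pt hg v u fun a ha => by rw [abs_of_nonneg (h0 a)]; exact hC a ha
  rw [gsE_eq_gs, XSph.gs_ofReal hg h0 v u hi, gsR_eq_smean hg v u hi]
  congr 1
  ring

theorem gsE_ofReal {g : R3 → ℝ} (hg : Measurable g) (h0 : ∀ w, 0 ≤ g w) {C : ℝ}
    (hC : ∀ w, g w ≤ C) (v u : R3) :
    gsE (fun w => ENNReal.ofReal (g w)) v u = ENNReal.ofReal (gsR g v u) :=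
  gsE_ofReal' hg h0 fun w _ => hC w

/-- continuous functions -/
theorem gsE_ofReal_cont {g : R3 → ℝ} (hg : Continuous g) (h0 : ∀ w, 0 ≤ g w) (v u : R3) :
    gsE (fun w => ENNReal.ofReal (g w)) v u = ENNReal.ofReal (gsR g v u) := by
  have hi := XSph.integrable_pt_of_continuous hg v u
  rw [gsE_eq_gs, XSph.gs_ofReal hg.measurable h0 v u hi, gsR_eq_smean hg.measurable v u hi]
  congr 1
  ring

theorem gsE_mono {g h : R3 → ℝ≥0∞} (hgh : ∀ v, g v ≤ h v) (v u : R3) : gsE g v u ≤ gsE h v u :=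
  XSph.gs_mono hgh v u

/-- monotone, only on the ball `‖w‖ ≤ ‖v‖ + ‖u‖` -/
theorem gsE_mono' {g h : R3 → ℝ≥0∞} (hg : Measurable g) (hh : Measurable h) {v u : R3}
    (hgh : ∀ w, ‖w‖ ≤ ‖v‖ + ‖u‖ → g w ≤ h w) : gsE g v u ≤ gsE h v u := by
  rw [gsE_sigma hg, gsE_sigma hh]
  refine mul_le_mul' le_rfl (lintegral_mono_ae ?_)
  filter_upwards [ae_sphereMeasure] with s hs using hgh _ (XSph.norm_pt_le hs)

/-- monotone, with the energy bound `‖w‖² ≤ ‖v‖² + ‖u‖²` -/
theorem norm_sq_pt_le {v u s : R3} (hs : ‖s‖ = 1) : ‖pt v u s‖ ^ 2 ≤ ‖v‖ ^ 2 + ‖u‖ ^ 2 := by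
  rw [XSph.norm_sq_pt v u hs]
  have h1 := abs_real_inner_le_norm (v + u) s
  rw [hs, mul_one] at h1
  have h2 := (abs_le.1 h1).2
  have h3 := XSph.Dw_le v u
  unfold XSph.Dw at h3
  nlinarith [norm_nonneg (v - u)]

theorem gsE_mono_sq {g h : R3 → ℝ≥0∞} (hg : Measurable g) (hh : Measurable h) {v u : R3}
    (hgh : ∀ w, ‖w‖ ^ 2 ≤ ‖v‖ ^ 2 + ‖u‖ ^ 2 → g w ≤ h w) : gsE g v u ≤ gsE h v u := by
  rw [gsE_sigma hg, gsE_sigma hh]
  refine mul_le_mul' le_rfl (lintegral_mono_ae ?_)
  filter_upwards [ae_sphereMeasure] with s hs using hgh _ (norm_sq_pt_le hs)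

theorem gsE_add {g h : R3 → ℝ≥0∞} (hg : Measurable g) (hh : Measurable h) (v u : R3) :
    gsE (fun w => g w + h w) v u = gsE g v u + gsE h v u := XSph.gs_add hg hh v u

theorem gsE_const_mul {g : R3 → ℝ≥0∞} (hg : Measurable g) (c : ℝ≥0∞) (v u : R3) :
    gsE (fun w => c * g w) v u = c * gsE g v u := XSph.gs_const_mul hg c v u

theorem gsE_tsum {ι : Type*} [Countable ι] {g : ι → R3 → ℝ≥0∞} (hg : ∀ i, Measurable (g i))
    (v u : R3) : gsE (fun w => ∑' i, g i w) v u = ∑' i, gsE (g i) v u := by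
  have hm : Measurable fun w => ∑' i, g i w := Measurable.tsum hg
  rw [gsE_sigma hm, lintegral_tsum, ← ENNReal.tsum_mul_left]
  · exact tsum_congr fun i => (gsE_sigma (hg i) v u).symm
  · intro i
    exact ((hg i).comp (XSph.measurable_pt_s v u)).aemeasurable

/-! ### Lipschitz dependence -/

theorem norm_pt_sub_le {v u u' s : R3} (hs : ‖s‖ = 1) : ‖pt v u s - pt v u' s‖ ≤ ‖u - u'‖ := by
  have h1 : pt v u s - pt v u' s
      = (1 / 2 : ℝ) • (u - u') + ((‖v - u‖ - ‖v - u'‖) / 2) • s := by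
    unfold pt; module
  have h2 : |‖v - u‖ - ‖v - u'‖| ≤ ‖u - u'‖ := by
    have h3 := abs_norm_sub_norm_le (v - u) (v - u')
    have h4 : v - u - (v - u') = u' - u := by abel
    rw [h4, norm_sub_rev u' u] at h3
    exact h3
  rw [h1]
  refine (norm_add_le _ _).trans ?_
  have h5 : |(1 / 2 : ℝ)| = 1 / 2 := by norm_num
  have h6 : |(2 : ℝ)| = 2 := by norm_num
  rw [norm_smul, norm_smul, hs, mul_one, Real.norm_eq_abs, Real.norm_eq_abs, h5, abs_div, h6]
  linarith

theorem gsR_lip {f g : R3 → ℝ} (hf : Measurable f) (hg : Measurable g) {C L ε : ℝ}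
    (hfC : ∀ w, |f w| ≤ C) (hgC : ∀ w, |g w| ≤ C) (hfL : ∀ w w', |f w - f w'| ≤ L * ‖w - w'‖)
    (hfg : ∀ w, |f w - g w| ≤ ε) (v u u' : R3) :
    |gsR f v u - gsR g v u'| ≤ 8 * π * C * ‖u - u'‖ + 8 * π * ‖v - u'‖ * (L * ‖u - u'‖ + ε) := by
  have hC : 0 ≤ C := (abs_nonneg _).trans (hfC 0)
  have hε : 0 ≤ ε := (abs_nonneg _).trans (hfg 0)
  have hL : 0 ≤ L := by
    have h1 := (abs_nonneg _).trans (hfL ez 0)
    rw [sub_zero, norm_ez, mul_one] at h1
    exact h1
  have hfi := int_pt hf v u (fun a _ => hfC a)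
  have hgi := int_pt hg v u' (fun a _ => hgC a)
  have hfi' := int_pt hf v u (C := C) (fun a _ => hfC a)
  rw [gsR_eq_smean hf v u hfi, gsR_eq_smean hg v u' hgi]
  have e1 : |‖v - u‖ - ‖v - u'‖| ≤ ‖u - u'‖ := by
    have h3 := abs_norm_sub_norm_le (v - u) (v - u')
    have h4 : v - u - (v - u') = u' - u := by abel
    rw [h4, norm_sub_rev u' u] at h3
    exact h3
  have e2 : |smean f v u| ≤ C := by
    refine abs_le.2 ⟨?_, ?_⟩
    · exact XSph.const_le_smean v u hfi fun s _ => (abs_le.1 (hfC _)).1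
    · exact XSph.smean_le_const v u hfi fun s _ => (abs_le.1 (hfC _)).2
  have e3 : |smean f v u - smean g v u'| ≤ L * ‖u - u'‖ + ε := by
    have h1 : smean f v u - smean g v u'
        = (4 * π)⁻¹ * ∫ s, (f (pt v u s) - g (pt v u' s)) ∂sphereMeasure := by
      rw [integral_sub hfi hgi]
      unfold smean
      ring
    rw [h1, abs_mul, abs_of_pos (by positivity : (0 : ℝ) < (4 * π)⁻¹)]
    have h2 : |∫ s, (f (pt v u s) - g (pt v u' s)) ∂sphereMeasure|
        ≤ 4 * π * (L * ‖u - u'‖ + ε) := by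
      have h3 := norm_integral_le_of_norm_le (μ := sphereMeasure)
        (f := fun s => f (pt v u s) - g (pt v u' s)) (g := fun _ => L * ‖u - u'‖ + ε)
        (integrable_const _) (by
          filter_upwards [ae_sphereMeasure] with s hs
          rw [Real.norm_eq_abs]
          have h4 : f (pt v u s) - g (pt v u' s)
              = (f (pt v u s) - f (pt v u' s)) + (f (pt v u' s) - g (pt v u' s)) := by ring
          rw [h4]
          refine (abs_add_le _ _).trans (add_le_add ((hfL _ _).trans ?_) (hfg _))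
          exact mul_le_mul_of_nonneg_left (norm_pt_sub_le hs) hL)
      rw [integral_one_sphere] at h3
      rwa [Real.norm_eq_abs] at h3
    calc (4 * π)⁻¹ * |∫ s, (f (pt v u s) - g (pt v u' s)) ∂sphereMeasure|
        ≤ (4 * π)⁻¹ * (4 * π * (L * ‖u - u'‖ + ε)) :=
          mul_le_mul_of_nonneg_left h2 (by positivity)
      _ = L * ‖u - u'‖ + ε := by
          have : (4 * π) ≠ 0 := by positivity
          field_simp
  have e4 : 4 * π * ‖v - u‖ * smean f v u - 4 * π * ‖v - u'‖ * smean g v u'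
      = 4 * π * (‖v - u‖ - ‖v - u'‖) * smean f v u
        + 4 * π * ‖v - u'‖ * (smean f v u - smean g v u') := by ring
  rw [e4]
  have hpi := Real.pi_pos
  refine (abs_add_le _ _).trans (add_le_add ?_ ?_)
  · rw [abs_mul, abs_mul, abs_of_pos (by positivity : (0 : ℝ) < 4 * π)]
    calc 4 * π * |‖v - u‖ - ‖v - u'‖| * |smean f v u| ≤ 4 * π * ‖u - u'‖ * C := by
          gcongr
      _ ≤ 8 * π * C * ‖u - u'‖ := by
          nlinarith [mul_nonneg (mul_nonneg hpi.le hC) (norm_nonneg (u - u'))]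
  · rw [abs_mul, abs_of_nonneg (by positivity : (0 : ℝ) ≤ 4 * π * ‖v - u'‖)]
    calc 4 * π * ‖v - u'‖ * |smean f v u - smean g v u'|
        ≤ 4 * π * ‖v - u'‖ * (L * ‖u - u'‖ + ε) :=
          mul_le_mul_of_nonneg_left e3 (by positivity)
      _ ≤ 8 * π * ‖v - u'‖ * (L * ‖u - u'‖ + ε) := by
          have h5 : 0 ≤ π * ‖v - u'‖ * (L * ‖u - u'‖ + ε) := by positivity
          nlinarith

/-! ### measurability -/

section meas

variable {α : Type*} [MeasurableSpace α]

theorem meas_gsE {g : α → R3 → ℝ≥0∞} (hg : Measurable fun p : α × R3 => g p.1 p.2)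
    {v u : α → R3} (hv : Measurable v) (hu : Measurable u) :
    Measurable fun a => gsE (g a) (v a) (u a) := by
  have h1 : Measurable fun q : α × R3 => g q.1 (postVel (v q.1) (u q.1) q.2) :=
    hg.comp (measurable_fst.prodMk (A.measurable_postVel (hv.comp measurable_fst)
      (hu.comp measurable_fst) measurable_snd))
  have h2 : Measurable fun q : α × R3 => g q.1 (postVelStar (v q.1) (u q.1) q.2) :=
    hg.comp (measurable_fst.prodMk (A.measurable_postVelStar (hv.comp measurable_fst)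
      (hu.comp measurable_fst) measurable_snd))
  have h3 : Measurable fun q : α × R3 =>
      ENNReal.ofReal |(inner ℝ (v q.1 - u q.1) q.2 : ℝ)| := by
    have h4 : Measurable fun q : α × R3 => (inner ℝ (v q.1 - u q.1) q.2 : ℝ) :=
      ((hv.comp measurable_fst).sub (hu.comp measurable_fst)).inner measurable_snd
    exact ENNReal.measurable_ofReal.comp (continuous_abs.measurable.comp h4)
  exact Measurable.lintegral_prod_right' (f := fun q : α × R3 =>
    ENNReal.ofReal |(inner ℝ (v q.1 - u q.1) q.2 : ℝ)| *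
      (g q.1 (postVel (v q.1) (u q.1) q.2) + g q.1 (postVelStar (v q.1) (u q.1) q.2)))
    (h3.mul (h1.add h2))

theorem meas_gsR {g : α → R3 → ℝ} (hg : Measurable fun p : α × R3 => g p.1 p.2)
    {v u : α → R3} (hv : Measurable v) (hu : Measurable u) :
    Measurable fun a => gsR (g a) (v a) (u a) := by
  have h1 : Measurable fun q : α × R3 => g q.1 (postVel (v q.1) (u q.1) q.2) :=
    hg.comp (measurable_fst.prodMk (A.measurable_postVel (hv.comp measurable_fst)
      (hu.comp measurable_fst) measurable_snd))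
  have h2 : Measurable fun q : α × R3 => g q.1 (postVelStar (v q.1) (u q.1) q.2) :=
    hg.comp (measurable_fst.prodMk (A.measurable_postVelStar (hv.comp measurable_fst)
      (hu.comp measurable_fst) measurable_snd))
  have h3 : Measurable fun q : α × R3 => |(inner ℝ (v q.1 - u q.1) q.2 : ℝ)| := by
    have h4 : Measurable fun q : α × R3 => (inner ℝ (v q.1 - u q.1) q.2 : ℝ) :=
      ((hv.comp measurable_fst).sub (hu.comp measurable_fst)).inner measurable_snd
    exact continuous_abs.measurable.comp h4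
  exact (StronglyMeasurable.integral_prod_right' (f := fun q : α × R3 =>
    |(inner ℝ (v q.1 - u q.1) q.2 : ℝ)| *
      (g q.1 (postVel (v q.1) (u q.1) q.2) + g q.1 (postVelStar (v q.1) (u q.1) q.2)))
    (h3.mul (h1.add h2)).stronglyMeasurable).measurable

end meas

theorem measurable_gsE_u {g : R3 → ℝ≥0∞} (hg : Measurable g) (v : R3) :
    Measurable fun u => gsE g v u :=
  meas_gsE (α := R3) (g := fun _ => g) (hg.comp measurable_snd) measurable_const measurable_id

theorem measurable_gsE_v {g : R3 → ℝ≥0∞} (hg : Measurable g) (u : R3) :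
    Measurable fun v => gsE g v u :=
  meas_gsE (α := R3) (g := fun _ => g) (hg.comp measurable_snd) measurable_id measurable_const

theorem measurable_gsR_u {g : R3 → ℝ} (hg : Measurable g) (v : R3) :
    Measurable fun u => gsR g v u :=
  meas_gsR (α := R3) (g := fun _ => g) (hg.comp measurable_snd) measurable_const measurable_id

theorem measurable_gsR_v {g : R3 → ℝ} (hg : Measurable g) (u : R3) :
    Measurable fun v => gsR g v u :=
  meas_gsR (α := R3) (g := fun _ => g) (hg.comp measurable_snd) measurable_id measurable_const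

/-! ### the dual gain against the fuel -/

/-- `GA` is the operator `Ga` of DBil -/
theorem GA_eq_Ga {φ g : Den} (_hφ : Meas3 φ) (hg : Meas3 g) (t : ℝ) (x : P2) (v : R3) :
    GA φ g t x v = D.Ga (φ t x) (g t x) v := by
  have hg1 : Measurable (g t x) := hg.slice t x
  unfold GA gsE D.Ga D.kB
  refine lintegral_congr fun u => ?_
  have h2 : Measurable fun w : R3 => ENNReal.ofReal |(inner ℝ (v - u) w : ℝ)| *
      (g t x (postVel v u w) + g t x (postVelStar v u w)) := by
    refine Measurable.mul (by fun_prop) (Measurable.add ?_ ?_)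
    · exact hg1.comp (A.measurable_postVel measurable_const measurable_const measurable_id)
    · exact hg1.comp (A.measurable_postVelStar measurable_const measurable_const measurable_id)
  rw [← lintegral_const_mul _ h2]
  refine lintegral_congr fun w => ?_
  ring

theorem meas3_GA {φ g : Den} (hφ : Meas3 φ) (hg : Meas3 g) : Meas3 (GA φ g) := by
  have h1 : Measurable fun q : (ℝ × P2 × R3) × R3 => φ q.1.1 q.1.2.1 q.2 :=
    hφ.comp (f := fun q : (ℝ × P2 × R3) × R3 => q.1.1) (g := fun q => q.1.2.1)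
      (h := fun q => q.2) (by fun_prop) (by fun_prop) (by fun_prop)
  have h2 : Measurable fun q : (ℝ × P2 × R3) × R3 => gsE (g q.1.1 q.1.2.1) q.1.2.2 q.2 := by
    refine meas_gsE (α := (ℝ × P2 × R3) × R3) (g := fun q => g q.1.1 q.1.2.1) ?_
      (by fun_prop) (by fun_prop)
    exact hg.comp (f := fun q : ((ℝ × P2 × R3) × R3) × R3 => q.1.1.1)
      (g := fun q => q.1.1.2.1) (h := fun q => q.2) (by fun_prop) (by fun_prop) (by fun_prop)
  exact Measurable.lintegral_prod_right' (f := fun q : (ℝ × P2 × R3) × R3 =>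
    φ q.1.1 q.1.2.1 q.2 * gsE (g q.1.1 q.1.2.1) q.1.2.2 q.2) (h1.mul h2)

/-- **duality** -/
theorem dual_GA {φ : Den} (hφ : Meas3 φ) {g h : Den} (hg : Meas3 g) (hh : Meas3 h) (t : ℝ)
    (x : P2) : ∫⁻ v, g t x v * Gf φ h t x v = ∫⁻ v, GA φ g t x v * h t x v := by
  have h := XSph.dual_gain (hφ.slice t x) (hg.slice t x) (hh.slice t x)
  unfold Gf
  rw [h]
  exact lintegral_congr fun v => by rw [mul_comm]; rfl

theorem GA_mono {φ g h : Den} {t : ℝ} {x : P2} (hgh : ∀ v, g t x v ≤ h t x v) (v : R3) :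
    GA φ g t x v ≤ GA φ h t x v :=
  lintegral_mono fun _ => mul_le_mul' le_rfl (gsE_mono hgh _ _)

theorem GA_add {φ g h : Den} (hφ : Meas3 φ) (hg : Meas3 g) (hh : Meas3 h) (t : ℝ) (x : P2)
    (v : R3) : GA φ (fun t x v => g t x v + h t x v) t x v = GA φ g t x v + GA φ h t x v := by
  have h1 : Measurable (φ t x) := hφ.slice t x
  have h2 : Measurable (g t x) := hg.slice t x
  have h3 : Measurable (h t x) := hh.slice t x
  have e1 : Measurable fun u => φ t x u * gsE (g t x) v u := h1.mul (measurable_gsE_u h2 v)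
  unfold GA
  rw [← lintegral_add_left e1]
  refine lintegral_congr fun u => ?_
  rw [← mul_add, ← gsE_add h2 h3]

theorem GA_const_mul {φ g : Den} (hφ : Meas3 φ) (hg : Meas3 g) (c : ℝ≥0∞) (t : ℝ) (x : P2)
    (v : R3) : GA φ (fun t x v => c * g t x v) t x v = c * GA φ g t x v := by
  have h1 : Measurable (φ t x) := hφ.slice t x
  have h2 : Measurable (g t x) := hg.slice t x
  have e1 : Measurable fun u => φ t x u * gsE (g t x) v u := h1.mul (measurable_gsE_u h2 v)
  unfold GA
  rw [← lintegral_const_mul _ e1]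
  refine lintegral_congr fun u => ?_
  rw [gsE_const_mul h2]
  ring

theorem GA_tsum {ι : Type*} [Countable ι] {φ : Den} {g : ι → Den} (hφ : Meas3 φ)
    (hg : ∀ i, Meas3 (g i)) (t : ℝ) (x : P2) (v : R3) :
    GA φ (fun t x v => ∑' i, g i t x v) t x v = ∑' i, GA φ (g i) t x v := by
  have h1 : Measurable (φ t x) := hφ.slice t x
  have h2 : ∀ i, Measurable (g i t x) := fun i => (hg i).slice t x
  have e1 : ∀ i, Measurable fun u => φ t x u * gsE (g i t x) v u :=
    fun i => h1.mul (measurable_gsE_u (h2 i) v)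
  unfold GA
  rw [← lintegral_tsum fun i => (e1 i).aemeasurable]
  refine lintegral_congr fun u => ?_
  rw [gsE_tsum h2, ENNReal.tsum_mul_left]

/-- periodicity -/
theorem perG_GA {φ g : Den} (hφ : ∀ t v, PerG fun x => φ t x v)
    (hg : ∀ t v, PerG fun x => g t x v) (t : ℝ) (v : R3) : PerG fun x => GA φ g t x v := by
  intro x k
  have e1 : g t (x + latt k) = g t x := funext fun w => hg t w x k
  have e2 : ∀ u, φ t (x + latt k) u = φ t x u := fun u => hφ t u x k
  show ∫⁻ u, φ t (x + latt k) u * gsE (g t (x + latt k)) v u = ∫⁻ u, φ t x u * gsE (g t x) v u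
  simp only [e1, e2]

/-- loss: `Lc φ v = ∫ φ(u) 2π|v-u|` -/
theorem Lc_eq_int {φ : Den} (hφ : Meas3 φ) (t : ℝ) (x : P2) (v : R3) :
    Lc (φ t x) v = ∫⁻ u, φ t x u * ENNReal.ofReal (2 * π * ‖v - u‖) :=
  XSph.Lc_eq' (hφ.slice t x) v

end Crest.Agent.R68.X2
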