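import Crest.Agent.R68.XDefs2
import Crest.Agent.R68.X2Gs

/-!
# Row 68, Part X2 (helper208): size and support of the lane corrector
-/

set_option autoImplicit false
open MeasureTheory Set Filter
open scoped ENNReal Real
open Crest.AnalysisR.VecCalc3 Crest.AnalysisR.PDE.Boltzmann

noncomputable section

namespace Crest.Agent.R68.X2.Co

open Crest.Agent.R68.X (chs Cs abs_Cs_le)

/-! ### elementary facts on the cut-offs -/

theorem ramp_nonneg (r : ℝ) : 0 ≤ ramp r := le_max_left _ _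
theorem ramp_le_one (r : ℝ) : ramp r ≤ 1 := max_le zero_le_one (min_le_left _ _)
theorem ramp_ne {r : ℝ} (h : ramp r ≠ 0) : r < 2 := by
  by_contra hc
  push Not at hc
  apply h
  unfold ramp
  rw [max_eq_left]
  exact (min_le_right _ _).trans (by linarith)

theorem lamd_nonneg (d a : ℝ) : 0 ≤ lamd d a := le_max_left _ _
theorem lamd_le_one (d a : ℝ) : lamd d a ≤ 1 := max_le zero_le_one (min_le_left _ _)
theorem lamd_ne {d a : ℝ} (hd : 0 < d) (h : lamd d a ≠ 0) : d < |a| := by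
  by_contra hc
  push Not at hc
  apply h
  unfold lamd
  rw [max_eq_left]
  refine (min_le_right _ _).trans ?_
  have : |a| / d ≤ 1 := (div_le_one hd).2 hc
  linarith

theorem cutB_nonneg (B w : ℝ) : 0 ≤ cutB B w := sq_nonneg _
theorem cutB_le_one (B w : ℝ) : cutB B w ≤ 1 := by
  unfold cutB
  have h1 : max 0 (1 - w ^ 2 / B ^ 2) ≤ 1 := max_le zero_le_one (by
    have : 0 ≤ w ^ 2 / B ^ 2 := by positivity
    linarith)
  have h0 : 0 ≤ max 0 (1 - w ^ 2 / B ^ 2) := le_max_left _ _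
  nlinarith

theorem tentp_nonneg (A Yp e y : ℝ) (q : R3) : 0 ≤ tentp A Yp e y q := le_max_left _ _

theorem tentp_le {A Yp e : ℝ} (he : 0 ≤ e) (hA : 0 ≤ (1 + A) * Yp) (y : ℝ) (q : R3) :
    tentp A Yp e y q ≤ (1 + A) * Yp := by
  refine max_le hA ?_
  unfold tent
  have h1 : 0 ≤ |(1 + A) * y + q 1| := abs_nonneg _
  have h2 : 0 ≤ e * ‖q‖ ^ 2 := by positivity
  linarith

theorem f0_nonneg (X : XP) (z : P2) (v : R3) : 0 ≤ f0 X z v :=
  mul_nonneg (mul_nonneg (tentp_nonneg _ _ _ _ _) (cutB_nonneg _ _)) (lamd_nonneg _ _)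

theorem f0_le {X : XP} (he : 0 ≤ X.e) (hA : 0 ≤ (1 + X.A) * X.Yp) (z : P2) (v : R3) :
    f0 X z v ≤ (1 + X.A) * X.Yp := by
  unfold f0
  have h1 := tentp_le he hA z.2 (fr z.2 v)
  have h0 := tentp_nonneg X.A X.Yp X.e z.2 (fr z.2 v)
  have h2 := cutB_le_one X.B z.1
  have h3 := cutB_nonneg X.B z.1
  have h4 := lamd_le_one X.d (v 0)
  have h5 := lamd_nonneg X.d (v 0)
  calc tentp X.A X.Yp X.e z.2 (fr z.2 v) * cutB X.B z.1 * lamd X.d (v 0)
      ≤ (1 + X.A) * X.Yp * 1 * 1 := by gcongr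
    _ = _ := by ring

theorem continuous_coord (i : Fin 3) : Continuous fun v : R3 => v i :=
  (EuclideanSpace.proj i : R3 →L[ℝ] ℝ).continuous

theorem continuous_fr : Continuous fun p : ℝ × R3 => fr p.1 p.2 := by
  unfold fr
  have h : Continuous fun p : ℝ × R3 => (!₂[0, p.1, 0] : R3) := by
    have := Continuous.vec3 (X := ℝ × R3) (f := fun _ => 0) (g := fun p => p.1) (h := fun _ => 0)
      continuous_const continuous_fst continuous_const
    exact this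
  exact continuous_snd.sub h

/-- `f0` is jointly continuous -/
theorem continuous_f0 (X : XP) : Continuous fun p : P2 × R3 => f0 X p.1 p.2 := by
  have h1 : Continuous fun p : P2 × R3 => fr p.1.2 p.2 :=
    continuous_fr.comp (by fun_prop : Continuous fun p : P2 × R3 => (p.1.2, p.2))
  have h2 : Continuous fun p : P2 × R3 => (fr p.1.2 p.2) 1 := (continuous_coord 1).comp h1
  have h3 : Continuous fun p : P2 × R3 => p.2 0 := (continuous_coord 0).comp continuous_snd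
  unfold f0 tentp tent cutB lamd
  fun_prop

theorem measurable_f0 (X : XP) (z : P2) : Measurable (f0 X z) :=
  ((continuous_f0 X).comp (by fun_prop : Continuous fun v : R3 => ((z, v) : P2 × R3))).measurable

theorem norm_us_sub_le (v : R3) (y s : ℝ) (hs : |s| ≤ 1) : ‖v - us y s‖ ≤ ‖v‖ + |y| + 1 := by
  have h1 : ‖us y s‖ ≤ |y| + 1 := by
    unfold us
    have e := EuclideanSpace.norm_eq (!₂[0, y, s] : R3)
    rw [e, Fin.sum_univ_three]
    simp only [Matrix.cons_val_zero, Matrix.cons_val_one, Matrix.cons_val,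
      norm_zero, Real.norm_eq_abs]
    refine Real.sqrt_le_iff.2 ⟨by positivity, ?_⟩
    have h2 : |s| ^ 2 ≤ 1 := by nlinarith [abs_nonneg s]
    nlinarith [abs_nonneg y]
  calc ‖v - us y s‖ ≤ ‖v‖ + ‖us y s‖ := norm_sub_le _ _
    _ ≤ _ := by linarith

/-- bound of the ideal collision term -/
theorem abs_ws_le {X : XP} (he : 0 ≤ X.e) (hA : 0 ≤ (1 + X.A) * X.Yp) {d1 ρ s : ℝ}
    (hd0 : 0 ≤ d1) (hd1 : d1 ≤ 1) (hρ : 0 ≤ ρ) (hs : |s| ≤ 1) (z : P2) (v : R3) :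
    |ws X d1 ρ s z v| ≤ ρ * (6 * π * (‖v‖ + |z.2| + 1) * ((1 + X.A) * X.Yp)) := by
  unfold ws
  rw [abs_mul, abs_of_nonneg hρ]
  refine mul_le_mul_of_nonneg_left ?_ hρ
  have h1 : |gsR (f0 X z) v (us z.2 s)| ≤ 4 * π * ‖v - us z.2 s‖ * ((1 + X.A) * X.Yp) :=
    abs_gsR_le (measurable_f0 X z) fun w _ => by
      rw [abs_of_nonneg (f0_nonneg X z w)]
      exact f0_le he hA z w
  have h2 := norm_us_sub_le v z.2 s hs
  have h3 := f0_le he hA z v
  have h4 := f0_nonneg X z v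
  have h5 : |(1 - d1) * gsR (f0 X z) v (us z.2 s)| ≤
      4 * π * ‖v - us z.2 s‖ * ((1 + X.A) * X.Yp) := by
    rw [abs_mul, abs_of_nonneg (by linarith)]
    calc (1 - d1) * |gsR (f0 X z) v (us z.2 s)| ≤ 1 * |gsR (f0 X z) v (us z.2 s)| := by
          gcongr; linarith
      _ ≤ _ := by rw [one_mul]; exact h1
  have h6 : |2 * π * ‖v - us z.2 s‖ * f0 X z v| ≤
      2 * π * ‖v - us z.2 s‖ * ((1 + X.A) * X.Yp) := by
    rw [abs_of_nonneg (by positivity)]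
    gcongr
  calc |(1 - d1) * gsR (f0 X z) v (us z.2 s) - 2 * π * ‖v - us z.2 s‖ * f0 X z v|
      ≤ 4 * π * ‖v - us z.2 s‖ * ((1 + X.A) * X.Yp) +
        2 * π * ‖v - us z.2 s‖ * ((1 + X.A) * X.Yp) := (abs_sub _ _).trans (add_le_add h5 h6)
    _ = 6 * π * ‖v - us z.2 s‖ * ((1 + X.A) * X.Yp) := by ring
    _ ≤ _ := by gcongr

theorem ky_nonneg' (P : Par) (y : ℝ) : 0 ≤ ky P y := le_max_left _ _
theorem ky_le_one' (P : Par) (y : ℝ) : ky P y ≤ 1 := max_le zero_le_one (min_le_left _ _)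

/-- bound of the oscillating term, with its support -/
theorem osc_bound {X : XP} {P : Par} (he : 0 ≤ X.e) (hA : 0 ≤ (1 + X.A) * X.Yp) (hd : 0 < X.d)
    (hK : 0 ≤ P.K) {d1 Zs Vs s : ℝ} (hd0 : 0 ≤ d1) (hd1 : d1 ≤ 1) (hZ : 0 < Zs) (hV : 0 < Vs)
    (hs : |s| ≤ 1) {t : ℝ} (ht : 0 < t) (x : P2) (v : R3) :
    |osc X P d1 Zs Vs s t x v| ≤
      t⁻¹ * (P.K * (6 * π * (2 * Vs + 2 * Zs + 1) * ((1 + X.A) * X.Yp))) ∧
    (osc X P d1 Zs Vs s t x v ≠ 0 → ‖t⁻¹ • x‖ < 2 * Zs ∧ ‖v‖ < 2 * Vs ∧ X.d / 2 < |v 0|) := by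
  set z : P2 := t⁻¹ • x with hz
  have hsupp : osc X P d1 Zs Vs s t x v ≠ 0 → ‖z‖ < 2 * Zs ∧ ‖v‖ < 2 * Vs ∧ X.d / 2 < |v 0| := by
    intro h
    have hth : th X Zs Vs z v ≠ 0 := by
      intro h0
      apply h
      unfold osc
      rw [← hz, h0]
      ring
    unfold th at hth
    have h1 : ramp (‖z‖ / Zs) ≠ 0 := fun h0 => hth (by rw [h0]; ring)
    have h2 : ramp (‖v‖ / Vs) ≠ 0 := fun h0 => hth (by rw [h0]; ring)
    have h3 : lamd (X.d / 2) (v 0) ≠ 0 := fun h0 => hth (by rw [h0]; ring)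
    refine ⟨?_, ?_, lamd_ne (by positivity) h3⟩
    · have := ramp_ne h1
      rwa [div_lt_iff₀ hZ] at this
    · have := ramp_ne h2
      rwa [div_lt_iff₀ hV] at this
  refine ⟨?_, hsupp⟩
  by_cases h0 : osc X P d1 Zs Vs s t x v = 0
  · rw [h0, abs_zero]
    positivity
  obtain ⟨h1, h2, h3⟩ := hsupp h0
  unfold osc
  rw [← hz, abs_mul, abs_mul, abs_of_pos (inv_pos.2 ht)]
  have hth0 : 0 ≤ th X Zs Vs z v :=
    mul_nonneg (mul_nonneg (ramp_nonneg _) (ramp_nonneg _)) (lamd_nonneg _ _)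
  have hth1 : th X Zs Vs z v ≤ 1 := by
    unfold th
    have a1 := ramp_le_one (‖z‖ / Zs)
    have a2 := ramp_le_one (‖v‖ / Vs)
    have a3 := lamd_le_one (X.d / 2) (v 0)
    have b1 := ramp_nonneg (‖z‖ / Zs)
    have b2 := ramp_nonneg (‖v‖ / Vs)
    have b3 := lamd_nonneg (X.d / 2) (v 0)
    calc ramp (‖z‖ / Zs) * ramp (‖v‖ / Vs) * lamd (X.d / 2) (v 0) ≤ 1 * 1 * 1 := by gcongr
      _ = 1 := by ring
  rw [abs_of_nonneg hth0, mul_assoc]
  refine mul_le_mul_of_nonneg_left ?_ (inv_pos.2 ht).le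
  have hk0 := ky_nonneg' P z.2
  have hk1 := ky_le_one' P z.2
  have hρ : 0 ≤ P.K * ky P z.2 := mul_nonneg hK hk0
  have hz2 : |z.2| ≤ 2 * Zs := by
    have : |z.2| ≤ ‖z‖ := by rw [← Real.norm_eq_abs]; exact norm_snd_le z
    linarith
  calc th X Zs Vs z v * |ws X d1 (P.K * ky P z.2) s z v|
      ≤ 1 * (P.K * ky P z.2 * (6 * π * (‖v‖ + |z.2| + 1) * ((1 + X.A) * X.Yp))) := by
        gcongr
        exact abs_ws_le he hA hd0 hd1 hρ hs z v
    _ ≤ 1 * (P.K * 1 * (6 * π * (2 * Vs + 2 * Zs + 1) * ((1 + X.A) * X.Yp))) := by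
        gcongr
    _ = _ := by ring

theorem lab_le {P : Par} (hdl : 0 < P.dl) (hc : 0 ≤ P.c) {t : ℝ} (ht : 0 ≤ t) (x : P2) :
    |lab P t x| ≤ |x.1| := by
  unfold lab
  have h1 : 0 < P.dl + P.c * t := by positivity
  rw [abs_div, abs_mul, abs_of_pos hdl, abs_of_pos h1, div_le_iff₀ h1]
  have h2 : P.dl ≤ P.dl + P.c * t := by
    have : 0 ≤ P.c * t := mul_nonneg hc ht
    linarith
  calc P.dl * |x.1| ≤ (P.dl + P.c * t) * |x.1| := by gcongr
    _ = _ := by ring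

/-- the relative velocity stays away from `0` -/
theorem q1u_lower {P : Par} (hdl : 0 < P.dl) (hc : 0 ≤ P.c) {d Zs t : ℝ} (hZ : 0 < Zs)
    (ht : 0 < t) (htd : 8 * P.c * Zs * t ≤ d * P.dl) {x : P2} {v : R3} (hx : ‖t⁻¹ • x‖ < 2 * Zs)
    (hv : d / 2 < |v 0|) : d / 4 ≤ |q1u P t x v| := by
  unfold q1u
  have h1 : 0 < P.dl + P.c * t := by positivity
  have hx1 : |x.1| ≤ 2 * Zs * t := by
    have h2 : |x.1| ≤ ‖x‖ := by rw [← Real.norm_eq_abs]; exact norm_fst_le x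
    rw [norm_smul, Real.norm_eq_abs, abs_of_pos (inv_pos.2 ht), inv_mul_lt_iff₀ ht] at hx
    linarith
  have h3 : |P.c * x.1 / (P.dl + P.c * t)| ≤ d / 4 := by
    rw [abs_div, abs_mul, abs_of_nonneg hc, abs_of_pos h1, div_le_iff₀ h1]
    have h4 : P.c * |x.1| ≤ P.c * (2 * Zs * t) := by gcongr
    have h5 : 0 ≤ P.c * t := by positivity
    have hd : 0 ≤ d := by
      by_contra hneg
      push Not at hneg
      have : d * P.dl < 0 := mul_neg_of_neg_of_pos hneg hdl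
      have : 0 ≤ 8 * P.c * Zs * t := by positivity
      linarith
    have h6 : d / 4 * P.dl ≤ d / 4 * (P.dl + P.c * t) := by gcongr; linarith
    nlinarith
  have h7 := abs_sub_abs_le_abs_sub (v 0) (P.c * x.1 / (P.dl + P.c * t))
  linarith

/-- **size and support of the lane corrector** -/
theorem corr_bound {X : XP} {P : Par} (he : 0 ≤ X.e) (hA : 0 ≤ (1 + X.A) * X.Yp) (hd : 0 < X.d)
    (hK : 0 ≤ P.K) (hdl : 0 < P.dl) (hc : 0 ≤ P.c) {d1 Zs Vs : ℝ} (hd0 : 0 ≤ d1) (hd1 : d1 ≤ 1)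
    (hZ : 0 < Zs) (hV : 0 < Vs) {t : ℝ} (ht : 0 < t) (ht1 : P.c * t ≤ P.dl)
    (htd : 8 * P.c * Zs * t ≤ X.d * P.dl) (x : P2) (v : R3) :
    |corr X P d1 Zs Vs t x v| ≤ 64 * Zs ^ 3 / X.d *
      (P.K * (6 * π * (2 * Vs + 2 * Zs + 1) * ((1 + X.A) * X.Yp))) * t ^ 2 ∧
    (corr X P d1 Zs Vs t x v ≠ 0 → ‖t⁻¹ • x‖ < 2 * Zs ∧ ‖v‖ < 2 * Vs ∧ X.d / 2 < |v 0|) := by
  set C1 : ℝ := P.K * (6 * π * (2 * Vs + 2 * Zs + 1) * ((1 + X.A) * X.Yp)) with hC1
  have hC1n : 0 ≤ C1 := by positivity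
  obtain ⟨b1, s1⟩ := osc_bound (X := X) (P := P) he hA hd hK hd0 hd1 hZ hV (s := 1) (by simp) ht x v
  obtain ⟨b2, s2⟩ := osc_bound (X := X) (P := P) he hA hd hK hd0 hd1 hZ hV (s := -1) (by simp) ht x v
  have hsupp : corr X P d1 Zs Vs t x v ≠ 0 →
      ‖t⁻¹ • x‖ < 2 * Zs ∧ ‖v‖ < 2 * Vs ∧ X.d / 2 < |v 0| := by
    intro h
    by_cases h1 : osc X P d1 Zs Vs 1 t x v = 0
    · by_cases h2 : osc X P d1 Zs Vs (-1) t x v = 0
      · exact absurd (by unfold corr; rw [h1, h2]; ring) h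
      · exact s2 h2
    · exact s1 h1
  refine ⟨?_, hsupp⟩
  by_cases h0 : corr X P d1 Zs Vs t x v = 0
  · rw [h0, abs_zero]
    positivity
  obtain ⟨hx, hv, hv0⟩ := hsupp h0
  have hq := q1u_lower hdl hc hZ ht htd hx hv0
  have hq0 : 0 < |q1u P t x v| := lt_of_lt_of_le (by positivity) hq
  have hx1 : |x.1| ≤ 2 * Zs * t := by
    have h2 : |x.1| ≤ ‖x‖ := by rw [← Real.norm_eq_abs]; exact norm_fst_le x
    rw [norm_smul, Real.norm_eq_abs, abs_of_pos (inv_pos.2 ht), inv_mul_lt_iff₀ ht] at hx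
    linarith
  have hl : |lab P t x| ≤ 2 * Zs * t := (lab_le hdl hc ht.le x).trans hx1
  have hl3 : |lab P t x| ^ 3 ≤ (2 * Zs * t) ^ 3 := by gcongr
  have hm : |(P.dl + P.c * t) / (P.dl * q1u P t x v)| ≤ 8 / X.d := by
    rw [abs_div, abs_mul, abs_of_pos hdl, abs_of_pos (by positivity : 0 < P.dl + P.c * t),
      div_le_div_iff₀ (by positivity) hd]
    have h3 : P.dl + P.c * t ≤ 2 * P.dl := by linarith
    calc (P.dl + P.c * t) * X.d ≤ 2 * P.dl * X.d := by gcongr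
      _ = 8 * (P.dl * (X.d / 4)) := by ring
      _ ≤ 8 * (P.dl * |q1u P t x v|) := by gcongr
  unfold corr
  rw [abs_mul]
  have hc1 := (abs_Cs_le 1 (lab P t x)).trans (by
    have := hl3
    linarith : |lab P t x| ^ 3 / 2 ≤ (2 * Zs * t) ^ 3 / 2)
  have hc2 := (abs_Cs_le (-1) (lab P t x)).trans (by
    have := hl3
    linarith : |lab P t x| ^ 3 / 2 ≤ (2 * Zs * t) ^ 3 / 2)
  have h4 : |Cs 1 (lab P t x) * osc X P d1 Zs Vs 1 t x v +
      Cs (-1) (lab P t x) * osc X P d1 Zs Vs (-1) t x v| ≤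
      (2 * Zs * t) ^ 3 / 2 * (t⁻¹ * C1) + (2 * Zs * t) ^ 3 / 2 * (t⁻¹ * C1) := by
    refine (abs_add_le _ _).trans (add_le_add ?_ ?_)
    · rw [abs_mul]
      exact mul_le_mul hc1 b1 (abs_nonneg _) (by positivity)
    · rw [abs_mul]
      exact mul_le_mul hc2 b2 (abs_nonneg _) (by positivity)
  calc |(P.dl + P.c * t) / (P.dl * q1u P t x v)| *
        |Cs 1 (lab P t x) * osc X P d1 Zs Vs 1 t x v +
          Cs (-1) (lab P t x) * osc X P d1 Zs Vs (-1) t x v|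
      ≤ 8 / X.d * ((2 * Zs * t) ^ 3 / 2 * (t⁻¹ * C1) + (2 * Zs * t) ^ 3 / 2 * (t⁻¹ * C1)) :=
        mul_le_mul hm h4 (abs_nonneg _) (by positivity)
    _ = 64 * Zs ^ 3 / X.d * C1 * t ^ 2 := by
        field_simp
        ring

end Crest.Agent.R68.X2.Co

namespace Crest.Agent.R68.X2

theorem corr_small {X : XP} {P : Par} {Y ey N d1 Zs Vs : ℝ} (h : LowOK X P Y ey N d1 Zs Vs) :
    ∃ t0 C : ℝ, 0 < t0 ∧ 0 ≤ C ∧ ∀ t, 0 < t → t ≤ t0 → ∀ x v,
      |corr X P d1 Zs Vs t x v| ≤ C * t ^ 2 ∧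
      (corr X P d1 Zs Vs t x v ≠ 0 → ‖t⁻¹ • x‖ ≤ 2 * Zs ∧ ‖v‖ ≤ 2 * Vs) := by
  have hdl : 0 < P.dl := Fuel.Ok.dlp h.ok
  have hc : 0 < P.c := h.ok.c0
  have hZ : 0 < Zs := lt_of_lt_of_le one_pos h.Zs1
  have hV : 0 < Vs := lt_of_lt_of_le one_pos h.Vs1
  have hd := h.d0
  have he : 0 < X.e := h.tent.e0
  have hA : 0 ≤ (1 + X.A) * X.Yp := (by positivity : 0 ≤ 600 / X.e).trans h.tent.e2
  refine ⟨min (P.dl / P.c) (X.d * P.dl / (8 * P.c * Zs)), 64 * Zs ^ 3 / X.d *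
      (P.K * (6 * π * (2 * Vs + 2 * Zs + 1) * ((1 + X.A) * X.Yp))), by positivity, ?_, ?_⟩
  · have := h.ok.K0
    positivity
  · intro t ht ht0 x v
    have h1 : P.c * t ≤ P.dl := by
      have := ht0.trans (min_le_left _ _)
      rw [le_div_iff₀ hc] at this
      linarith
    have h2 : 8 * P.c * Zs * t ≤ X.d * P.dl := by
      have := ht0.trans (min_le_right _ _)
      rw [le_div_iff₀ (by positivity)] at this
      linarith
    obtain ⟨b, s⟩ := Co.corr_bound he.le hA hd h.ok.K0 hdl hc.le h.d10.le h.d11.le hZ hV ht h1 h2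
      x v
    exact ⟨b, fun hne => ⟨(s hne).1.le, (s hne).2.1.le⟩⟩

end Crest.Agent.R68.X2
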