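/-
Row 68 (S0091), Part X: homogenisation of the lanes (pure 1-D).
`chs P s a` is the sum of the profiles of the lanes of sign `s`; `Cs s` is the corrector:
`(Cs s)' = -(chs P s a - 197/400) + er s a`, `|er s a| ≤ 3 a ^ 2`, `|Cs s a| ≤ |a| ^ 3`.
-/
import Mathlib
import Crest.Agent.R68.FLab

set_option autoImplicit false

namespace Crest.Agent.R68.X

open Real MeasureTheory Set Filter Topology
open scoped ENNReal
open Crest.AnalysisR.VecCalc3 Crest.AnalysisR.PDE.Boltzmann

noncomputable section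

/-! ### the trapezoid and its primitive -/

/-- the trapezoid with support `[1/100, 199/100]` -/
def trap (u : ℝ) : ℝ := max 0 (min 1 (min (100 * (u - 1 / 100)) (100 * (199 / 100 - u))))

lemma chij_eq_trap (j : ℕ) (a : ℝ) : chij j a = trap (1 / a ^ 2 - 2 * j) := by
  unfold chij trap
  congr 3
  congr 1
  · ring
  · ring

lemma trap_nonneg (u : ℝ) : 0 ≤ trap u := le_max_left _ _

lemma trap_le_one (u : ℝ) : trap u ≤ 1 := max_le zero_le_one (min_le_left _ _)

lemma trap_eq_zero_left {u : ℝ} (h : u ≤ 1 / 100) : trap u = 0 := by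
  unfold trap
  apply max_eq_left
  refine (min_le_right _ _).trans ((min_le_left _ _).trans ?_)
  linarith

lemma trap_eq_zero_right {u : ℝ} (h : 199 / 100 ≤ u) : trap u = 0 := by
  unfold trap
  apply max_eq_left
  refine (min_le_right _ _).trans ((min_le_right _ _).trans ?_)
  linarith

lemma continuous_trap : Continuous trap := by unfold trap; fun_prop

/-- the trapezoid as a combination of positive parts -/
lemma trap_eq (u : ℝ) : trap u =
    100 * (max (u - 1 / 100) 0 - max (u - 2 / 100) 0 - max (u - 198 / 100) 0 +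
      max (u - 199 / 100) 0) := by
  unfold trap
  rcases le_total u (1 / 100) with h1 | h1
  · rw [max_eq_right (by linarith : u - 1 / 100 ≤ 0), max_eq_right (by linarith : u - 2 / 100 ≤ 0),
      max_eq_right (by linarith : u - 198 / 100 ≤ 0), max_eq_right (by linarith : u - 199 / 100 ≤ 0)]
    have := trap_eq_zero_left h1
    unfold trap at this
    rw [this]; ring
  rcases le_total u (2 / 100) with h2 | h2
  · rw [max_eq_left (by linarith : 0 ≤ u - 1 / 100), max_eq_right (by linarith : u - 2 / 100 ≤ 0),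
      max_eq_right (by linarith : u - 198 / 100 ≤ 0), max_eq_right (by linarith : u - 199 / 100 ≤ 0),
      min_eq_left (by linarith : 100 * (u - 1 / 100) ≤ 100 * (199 / 100 - u)),
      min_eq_right (by linarith : 100 * (u - 1 / 100) ≤ 1),
      max_eq_right (by linarith : (0 : ℝ) ≤ 100 * (u - 1 / 100))]
    ring
  rcases le_total u (198 / 100) with h3 | h3
  · rw [max_eq_left (by linarith : 0 ≤ u - 1 / 100), max_eq_left (by linarith : 0 ≤ u - 2 / 100),
      max_eq_right (by linarith : u - 198 / 100 ≤ 0), max_eq_right (by linarith : u - 199 / 100 ≤ 0),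
      min_eq_left (a := (1 : ℝ)) (le_min (by linarith) (by linarith)),
      max_eq_right (zero_le_one)]
    ring
  rcases le_total u (199 / 100) with h4 | h4
  · rw [max_eq_left (by linarith : 0 ≤ u - 1 / 100), max_eq_left (by linarith : 0 ≤ u - 2 / 100),
      max_eq_left (by linarith : 0 ≤ u - 198 / 100), max_eq_right (by linarith : u - 199 / 100 ≤ 0),
      min_eq_right (by linarith : 100 * (199 / 100 - u) ≤ 100 * (u - 1 / 100)),
      min_eq_right (by linarith : 100 * (199 / 100 - u) ≤ 1),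
      max_eq_right (by linarith : (0 : ℝ) ≤ 100 * (199 / 100 - u))]
    ring
  · rw [max_eq_left (by linarith : 0 ≤ u - 1 / 100), max_eq_left (by linarith : 0 ≤ u - 2 / 100),
      max_eq_left (by linarith : 0 ≤ u - 198 / 100), max_eq_left (by linarith : 0 ≤ u - 199 / 100)]
    have := trap_eq_zero_right h4
    unfold trap at this
    rw [this]; ring

/-- the square of the positive part is differentiable -/
lemma hasDerivAt_sqpos (b u : ℝ) :
    HasDerivAt (fun x : ℝ => (max (x - b) 0) ^ 2) (2 * max (u - b) 0) u := by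
  rcases lt_trichotomy u b with h | h | h
  · rw [max_eq_right (by linarith : u - b ≤ 0)]
    have : (fun x : ℝ => (max (x - b) 0) ^ 2) =ᶠ[𝓝 u] fun _ => (0 : ℝ) := by
      filter_upwards [eventually_lt_nhds h] with x hx
      rw [max_eq_right (by linarith : x - b ≤ 0)]; ring
    simpa using (hasDerivAt_const u (0 : ℝ)).congr_of_eventuallyEq this
  · subst h
    rw [sub_self, max_self, mul_zero]
    rw [hasDerivAt_iff_isLittleO]
    simp only [sub_self, max_self, smul_zero, sub_zero, ne_eq, OfNat.ofNat_ne_zero,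
      not_false_eq_true, zero_pow]
    have h1 : (fun x : ℝ => (max (x - u) 0) ^ 2) =O[𝓝 u] fun x : ℝ => (x - u) ^ 2 := by
      refine Asymptotics.IsBigO.of_bound 1 (Eventually.of_forall fun x => ?_)
      rw [Real.norm_eq_abs, Real.norm_eq_abs, one_mul, abs_pow, abs_pow]
      apply pow_le_pow_left₀ (abs_nonneg _)
      rcases le_total (x - u) 0 with h | h
      · rw [max_eq_right h]; simp
      · rw [max_eq_left h]
    refine h1.trans_isLittleO ?_
    have h2 : (fun x : ℝ => (x - u) ^ 2) = fun x : ℝ => (x - u) * (x - u) := by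
      ext x; ring
    rw [h2]
    have h3 : (fun x : ℝ => x - u) =o[𝓝 u] fun _ => (1 : ℝ) := by
      rw [Asymptotics.isLittleO_one_iff]
      have : Tendsto (fun x : ℝ => x - u) (𝓝 u) (𝓝 (u - u)) :=
        (continuous_id.sub continuous_const).tendsto u
      simpa using this
    simpa using (Asymptotics.isBigO_refl (fun x : ℝ => x - u) (𝓝 u)).mul_isLittleO h3
  · rw [max_eq_left (by linarith : 0 ≤ u - b)]
    have : (fun x : ℝ => (max (x - b) 0) ^ 2) =ᶠ[𝓝 u] fun x => (x - b) ^ 2 := by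
      filter_upwards [eventually_gt_nhds h] with x hx
      rw [max_eq_left (by linarith : 0 ≤ x - b)]
    have h2 : HasDerivAt (fun x : ℝ => (x - b) ^ 2) (2 * (u - b)) u := by
      refine (((hasDerivAt_id u).sub_const b).fun_pow 2).congr_deriv ?_
      simp
    exact h2.congr_of_eventuallyEq this

/-- primitive of the trapezoid -/
def Tr (u : ℝ) : ℝ :=
  50 * ((max (u - 1 / 100) 0) ^ 2 - (max (u - 2 / 100) 0) ^ 2 - (max (u - 198 / 100) 0) ^ 2 +
    (max (u - 199 / 100) 0) ^ 2)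

lemma hasDerivAt_Tr (u : ℝ) : HasDerivAt Tr (trap u) u := by
  have h := ((((hasDerivAt_sqpos (1 / 100) u).sub (hasDerivAt_sqpos (2 / 100) u)).sub
    (hasDerivAt_sqpos (198 / 100) u)).add (hasDerivAt_sqpos (199 / 100) u)).const_mul 50
  refine h.congr_deriv ?_
  rw [trap_eq]
  ring

lemma Tr_left {u : ℝ} (h : u ≤ 1 / 100) : Tr u = 0 := by
  unfold Tr
  rw [max_eq_right (by linarith : u - 1 / 100 ≤ 0), max_eq_right (by linarith : u - 2 / 100 ≤ 0),
      max_eq_right (by linarith : u - 198 / 100 ≤ 0), max_eq_right (by linarith : u - 199 / 100 ≤ 0)]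
  ring

lemma Tr_right {u : ℝ} (h : 199 / 100 ≤ u) : Tr u = 197 / 100 := by
  unfold Tr
  rw [max_eq_left (by linarith : 0 ≤ u - 1 / 100), max_eq_left (by linarith : 0 ≤ u - 2 / 100),
      max_eq_left (by linarith : 0 ≤ u - 198 / 100), max_eq_left (by linarith : 0 ≤ u - 199 / 100)]
  ring

/-- bounds for the primitive on one period -/
lemma Tr_bounds {u : ℝ} (h0 : 0 ≤ u) (h4 : u ≤ 4) :
    -(1 / 100) ≤ Tr u - 197 / 400 * u ∧ Tr u - 197 / 400 * u ≤ 1 := by
  unfold Tr
  rcases le_total u (1 / 100) with h1 | h1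
  · rw [max_eq_right (by linarith : u - 1 / 100 ≤ 0), max_eq_right (by linarith : u - 2 / 100 ≤ 0),
      max_eq_right (by linarith : u - 198 / 100 ≤ 0), max_eq_right (by linarith : u - 199 / 100 ≤ 0)]
    constructor <;> nlinarith
  rcases le_total u (2 / 100) with h2 | h2
  · rw [max_eq_left (by linarith : 0 ≤ u - 1 / 100), max_eq_right (by linarith : u - 2 / 100 ≤ 0),
      max_eq_right (by linarith : u - 198 / 100 ≤ 0), max_eq_right (by linarith : u - 199 / 100 ≤ 0)]
    constructor <;> nlinarith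
  rcases le_total u (198 / 100) with h3 | h3
  · rw [max_eq_left (by linarith : 0 ≤ u - 1 / 100), max_eq_left (by linarith : 0 ≤ u - 2 / 100),
      max_eq_right (by linarith : u - 198 / 100 ≤ 0), max_eq_right (by linarith : u - 199 / 100 ≤ 0)]
    constructor <;> nlinarith
  rcases le_total u (199 / 100) with h4' | h4'
  · rw [max_eq_left (by linarith : 0 ≤ u - 1 / 100), max_eq_left (by linarith : 0 ≤ u - 2 / 100),
      max_eq_left (by linarith : 0 ≤ u - 198 / 100), max_eq_right (by linarith : u - 199 / 100 ≤ 0)]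
    constructor <;> nlinarith
  · rw [max_eq_left (by linarith : 0 ≤ u - 1 / 100), max_eq_left (by linarith : 0 ≤ u - 2 / 100),
      max_eq_left (by linarith : 0 ≤ u - 198 / 100), max_eq_left (by linarith : 0 ≤ u - 199 / 100)]
    constructor <;> nlinarith

/-! ### the periodic primitive -/

/-- `4`-periodic primitive of the periodised trapezoid minus its mean -/
def Xp (θ : ℝ) : ℝ := Tr (4 * Int.fract (θ / 4)) - 197 / 100 * Int.fract (θ / 4) - 1 / 2

/-- periodised trapezoid -/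
def trp (θ : ℝ) : ℝ := trap (4 * Int.fract (θ / 4))

lemma abs_Xp_le (θ : ℝ) : |Xp θ| ≤ 51 / 100 := by
  have h0 := Int.fract_nonneg (θ / 4)
  have h1 := (Int.fract_lt_one (θ / 4)).le
  obtain ⟨h2, h3⟩ := Tr_bounds (u := 4 * Int.fract (θ / 4)) (by linarith) (by linarith)
  unfold Xp
  rw [abs_le]
  constructor <;> linarith

lemma trp_of_mem {θ : ℝ} {n : ℤ} (h0 : 4 * (n : ℝ) ≤ θ) (h1 : θ < 4 * n + 4) :
    trp θ = trap (θ - 4 * n) := by
  unfold trp
  have : Int.fract (θ / 4) = θ / 4 - n := by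
    rw [Int.fract_eq_iff]
    refine ⟨by linarith, by linarith, n, by ring⟩
  rw [this]
  congr 1
  ring

lemma Xp_of_mem {θ : ℝ} {n : ℤ} (h0 : 4 * (n : ℝ) ≤ θ) (h1 : θ < 4 * n + 4) :
    Xp θ = Tr (θ - 4 * n) - 197 / 400 * (θ - 4 * n) - 1 / 2 := by
  unfold Xp
  have : Int.fract (θ / 4) = θ / 4 - n := by
    rw [Int.fract_eq_iff]
    refine ⟨by linarith, by linarith, n, by ring⟩
  rw [this]
  have h2 : 4 * (θ / 4 - (n : ℝ)) = θ - 4 * n := by ring
  rw [h2]
  ring

lemma hasDerivAt_Xp (θ : ℝ) : HasDerivAt Xp (trp θ - 197 / 400) θ := by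
  obtain ⟨n, h0, h1⟩ : ∃ n : ℤ, 4 * (n : ℝ) ≤ θ ∧ θ < 4 * n + 4 := by
    refine ⟨⌊θ / 4⌋, ?_, ?_⟩
    · have := Int.floor_le (θ / 4); linarith
    · have := Int.lt_floor_add_one (θ / 4); linarith
  rw [trp_of_mem h0 h1]
  have hd : HasDerivAt (fun x : ℝ => Tr (x - 4 * n) + Tr (x - 4 * n + 4) - 197 / 100 -
      197 / 400 * (x - 4 * n) - 1 / 2) (trap (θ - 4 * n) - 197 / 400) θ := by
    have e1 : HasDerivAt (fun x : ℝ => Tr (x - 4 * n)) (trap (θ - 4 * n)) θ := by
      refine ((hasDerivAt_Tr (θ - 4 * n)).comp θ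
        ((hasDerivAt_id θ).sub_const (4 * (n : ℝ)))).congr_deriv ?_
      simp
    have e2 : HasDerivAt (fun x : ℝ => Tr (x - 4 * n + 4)) (trap (θ - 4 * n + 4)) θ := by
      refine ((hasDerivAt_Tr (θ - 4 * n + 4)).comp θ
        (((hasDerivAt_id θ).sub_const (4 * (n : ℝ))).add_const 4)).congr_deriv ?_
      simp
    have e3 : trap (θ - 4 * n + 4) = 0 := trap_eq_zero_right (by linarith)
    have e4 : HasDerivAt (fun x : ℝ => 197 / 400 * (x - 4 * n)) (197 / 400) θ := by
      have := ((hasDerivAt_id θ).sub_const (4 * (n : ℝ))).const_mul (197 / 400)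
      simpa using this
    have := (((e1.add e2).sub_const (197 / 100)).sub e4).sub_const (1 / 2)
    rw [e3, add_zero] at this
    exact this
  refine hd.congr_of_eventuallyEq ?_
  have hn : Ioo (4 * (n : ℝ) - 2) (4 * n + 4) ∈ 𝓝 θ := Ioo_mem_nhds (by linarith) h1
  filter_upwards [hn] with x hx
  rcases le_or_gt (4 * (n : ℝ)) x with h | h
  · rw [Xp_of_mem h hx.2, Tr_right (by linarith : 199 / 100 ≤ x - 4 * n + 4)]
    ring
  · have h2 : 4 * ((n - 1 : ℤ) : ℝ) ≤ x := by push_cast; linarith [hx.1]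
    have h3 : x < 4 * ((n - 1 : ℤ) : ℝ) + 4 := by push_cast; linarith
    rw [Xp_of_mem h2 h3, Tr_left (by linarith : x - 4 * n ≤ 1 / 100),
      Tr_right (by linarith [hx.1] : 199 / 100 ≤ x - 4 * n + 4),
      Tr_right (by push_cast; linarith [hx.1] : 199 / 100 ≤ x - 4 * ((n - 1 : ℤ) : ℝ))]
    push_cast
    ring

lemma continuous_Xp : Continuous Xp :=
  continuous_iff_continuousAt.2 fun θ => (hasDerivAt_Xp θ).continuousAt

/-! ### sums over the lanes of one sign -/

/-- sum of the profiles of the lanes of sign `s` -/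
def chs (P : Par) (s a : ℝ) : ℝ := ∑' j : ℕ, if P.j0 ≤ j ∧ wj j = s then chij j a else 0

/-- the phase of the sign `s` -/
def ofs (s : ℝ) : ℝ := 1 - s

/-- the corrector -/
def Cs (s a : ℝ) : ℝ := a ^ 3 / 2 * Xp (1 / a ^ 2 - ofs s)

/-- the error in the equation of the corrector -/
def er (s a : ℝ) : ℝ := 3 * a ^ 2 / 2 * Xp (1 / a ^ 2 - ofs s)

lemma abs_Cs_le (s a : ℝ) : |Cs s a| ≤ |a| ^ 3 / 2 := by
  unfold Cs
  rw [abs_mul, abs_div, abs_pow, abs_two]
  have h := abs_Xp_le (1 / a ^ 2 - ofs s)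
  have h0 := abs_nonneg (Xp (1 / a ^ 2 - ofs s))
  have h1 : 0 ≤ |a| ^ 3 / 2 := by positivity
  nlinarith

lemma abs_er_le (s a : ℝ) : |er s a| ≤ a ^ 2 := by
  unfold er
  rw [abs_mul, abs_of_nonneg (by positivity : 0 ≤ 3 * a ^ 2 / 2)]
  have h := abs_Xp_le (1 / a ^ 2 - ofs s)
  have h1 : 0 ≤ a ^ 2 := by positivity
  nlinarith

@[simp] lemma Cs_zero (s : ℝ) : Cs s 0 = 0 := by simp [Cs]

lemma wj_eq (j : ℕ) : wj j = 1 ∨ wj j = -1 := by
  unfold wj
  exact neg_one_pow_eq_or ℝ j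

lemma chij_zero_of_ne {j m : ℕ} {a : ℝ} (h0 : 2 * (m : ℝ) ≤ 1 / a ^ 2) (h1 : 1 / a ^ 2 < 2 * m + 2)
    (hj : j ≠ m) : chij j a = 0 := by
  rw [chij_eq_trap]
  rcases lt_or_gt_of_ne hj with h | h
  · apply trap_eq_zero_right
    have : (j : ℝ) + 1 ≤ m := by exact_mod_cast h
    linarith
  · apply trap_eq_zero_left
    have : (m : ℝ) + 1 ≤ j := by exact_mod_cast h
    linarith

/-- the sum over the lanes has at most one nonzero term -/
lemma chs_eq {P : Par} {m : ℕ} {s a : ℝ} (h0 : 2 * (m : ℝ) ≤ 1 / a ^ 2)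
    (h1 : 1 / a ^ 2 < 2 * m + 2) :
    chs P s a = if P.j0 ≤ m ∧ wj m = s then chij m a else 0 := by
  unfold chs
  rw [tsum_eq_single m]
  intro j hj
  rw [chij_zero_of_ne h0 h1 hj, ite_self]

lemma exists_lane_index (a : ℝ) : ∃ m : ℕ, 2 * (m : ℝ) ≤ 1 / a ^ 2 ∧ 1 / a ^ 2 < 2 * m + 2 := by
  have h : 0 ≤ 1 / a ^ 2 / 2 := by positivity
  refine ⟨⌊1 / a ^ 2 / 2⌋₊, ?_, ?_⟩
  · have := Nat.floor_le h; linarith
  · have := Nat.lt_floor_add_one (1 / a ^ 2 / 2); linarith

lemma chs_nonneg (P : Par) (s a : ℝ) : 0 ≤ chs P s a := by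
  obtain ⟨m, h0, h1⟩ := exists_lane_index a
  rw [chs_eq h0 h1]
  split_ifs
  · exact chij_nonneg _ _
  · exact le_rfl

lemma chs_le_one (P : Par) (s a : ℝ) : chs P s a ≤ 1 := by
  obtain ⟨m, h0, h1⟩ := exists_lane_index a
  rw [chs_eq h0 h1]
  split_ifs
  · exact chij_le_one _ _
  · exact zero_le_one

lemma chs_add_le_one (P : Par) (a : ℝ) : chs P 1 a + chs P (-1) a ≤ 1 := by
  obtain ⟨m, h0, h1⟩ := exists_lane_index a
  rw [chs_eq h0 h1, chs_eq h0 h1]
  have h2 := chij_le_one m a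
  have h3 := chij_nonneg m a
  have h6 : ¬ ((1 : ℝ) = -1) := by norm_num
  have h7 : ¬ ((-1 : ℝ) = 1) := by norm_num
  rcases wj_eq m with h | h <;> rw [h]
  · simp only [h6, and_false, if_false, add_zero]
    split_ifs <;> linarith
  · simp only [h7, and_false, if_false, zero_add]
    split_ifs <;> linarith

lemma measurable_chs (P : Par) (s : ℝ) : Measurable (chs P s) := by
  unfold chs
  refine Measurable.tsum (fun j => ?_)
  split_ifs
  · exact measurable_chij j
  · exact measurable_const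

/-- for a label of the fuel zone the sum is the periodised trapezoid -/
lemma chs_eq_trp {P : Par} {s a : ℝ} (hs : s = 1 ∨ s = -1) (ha : 2 * (P.j0 : ℝ) ≤ 1 / a ^ 2) :
    chs P s a = trp (1 / a ^ 2 - ofs s) := by
  obtain ⟨m, h0, h1⟩ := exists_lane_index a
  rw [chs_eq h0 h1]
  have hj : P.j0 ≤ m := by
    have : (P.j0 : ℝ) < m + 1 := by linarith
    exact Nat.lt_succ_iff.1 (by exact_mod_cast this)
  rw [chij_eq_trap]
  unfold ofs
  rcases Nat.even_or_odd m with hm | hm
  · obtain ⟨n, hn⟩ := hm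
    have hw : wj m = 1 := by unfold wj; rw [Even.neg_one_pow ⟨n, hn⟩]
    have hm' : (m : ℝ) = 2 * n := by rw [hn]; push_cast; ring
    rcases hs with rfl | rfl
    · rw [if_pos ⟨hj, hw⟩, trp_of_mem (n := (n : ℤ)) (by push_cast; linarith) (by push_cast; linarith)]
      congr 1; push_cast; rw [hm']; ring
    · rw [if_neg (by rw [hw]; norm_num)]
      rw [trp_of_mem (n := (n : ℤ) - 1) (by push_cast; linarith) (by push_cast; linarith)]
      rw [trap_eq_zero_right (by push_cast; linarith)]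
  · obtain ⟨n, hn⟩ := hm
    have hw : wj m = -1 := by unfold wj; rw [Odd.neg_one_pow ⟨n, hn⟩]
    have hm' : (m : ℝ) = 2 * n + 1 := by rw [hn]; push_cast; ring
    rcases hs with rfl | rfl
    · rw [if_neg (by rw [hw]; norm_num)]
      rw [trp_of_mem (n := (n : ℤ)) (by push_cast; linarith) (by push_cast; linarith)]
      rw [trap_eq_zero_right (by push_cast; linarith)]
    · rw [if_pos ⟨hj, hw⟩, trp_of_mem (n := (n : ℤ)) (by push_cast; linarith) (by push_cast; linarith)]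
      congr 1; push_cast; rw [hm']; ring

lemma chs_eq_zero {P : Par} {s a : ℝ} (ha : 1 / a ^ 2 ≤ 2 * (P.j0 : ℝ)) : chs P s a = 0 := by
  unfold chs
  rw [tsum_congr (g := fun _ => (0 : ℝ)), tsum_zero]
  intro j
  split_ifs with h
  · rw [chij_eq_trap]
    apply trap_eq_zero_left
    have : (P.j0 : ℝ) ≤ j := by exact_mod_cast h.1
    linarith
  · rfl

@[simp] lemma chs_zero (P : Par) (s : ℝ) : chs P s 0 = 0 :=
  chs_eq_zero (by simp)

lemma dl_pos {P : Par} (hj : 1 ≤ P.j0) : 0 < P.dl := by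
  unfold Par.dl
  have : (1 : ℝ) ≤ P.j0 := by exact_mod_cast hj
  positivity

lemma dl_sq {P : Par} (hj : 1 ≤ P.j0) : P.dl ^ 2 = 1 / (2 * P.j0) := by
  unfold Par.dl
  have : (1 : ℝ) ≤ P.j0 := by exact_mod_cast hj
  rw [div_pow, one_pow, Real.sq_sqrt (by positivity)]

lemma lt_inv_sq {P : Par} (hj : 1 ≤ P.j0) {a : ℝ} (ha0 : a ≠ 0) (ha : |a| < P.dl) :
    2 * (P.j0 : ℝ) < 1 / a ^ 2 := by
  have h1 : a ^ 2 < P.dl ^ 2 := by
    rw [← sq_abs a]
    exact pow_lt_pow_left₀ ha (abs_nonneg a) two_ne_zero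
  rw [dl_sq hj] at h1
  have h2 : 0 < a ^ 2 := by positivity
  have h3 : (0 : ℝ) < 2 * P.j0 := by
    have : (1 : ℝ) ≤ P.j0 := by exact_mod_cast hj
    positivity
  rw [lt_div_iff₀ h3] at h1
  rw [lt_div_iff₀ h2]
  linarith

lemma inv_sq_le {P : Par} (hj : 1 ≤ P.j0) {a : ℝ} (ha : P.dl ≤ |a|) :
    1 / a ^ 2 ≤ 2 * (P.j0 : ℝ) := by
  have hd := dl_pos hj
  have h1 : P.dl ^ 2 ≤ a ^ 2 := by
    rw [← sq_abs a]
    exact pow_le_pow_left₀ hd.le ha 2
  rw [dl_sq hj] at h1
  have h2 : 0 < a ^ 2 := by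
    have : 0 < |a| := lt_of_lt_of_le hd ha
    rw [← sq_abs]; positivity
  have h3 : (0 : ℝ) < 2 * P.j0 := by
    have : (1 : ℝ) ≤ P.j0 := by exact_mod_cast hj
    positivity
  rw [div_le_iff₀ h3] at h1
  rw [div_le_iff₀ h2]
  linarith

lemma chs_eq_zero_of_dl_le {P : Par} (hj : 1 ≤ P.j0) {s a : ℝ} (ha : P.dl ≤ |a|) :
    chs P s a = 0 := chs_eq_zero (inv_sq_le hj ha)

/-! ### the equation of the corrector -/

/-- the corrector is differentiable away from `0` -/
lemma hasDerivAt_Cs' {s a : ℝ} (ha : a ≠ 0) :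
    HasDerivAt (Cs s) (-(trp (1 / a ^ 2 - ofs s) - 197 / 400) + er s a) a := by
  have h1 : HasDerivAt (fun x : ℝ => 1 / x ^ 2 - ofs s) (-2 / a ^ 3) a := by
    have h := ((hasDerivAt_pow 2 a).fun_inv (pow_ne_zero 2 ha)).sub_const (ofs s)
    have e : (fun x : ℝ => 1 / x ^ 2 - ofs s) = fun x : ℝ => (x ^ 2)⁻¹ - ofs s := by
      ext x; rw [one_div]
    rw [e]
    refine h.congr_deriv ?_
    norm_num
    field_simp
  have h2 : HasDerivAt (fun x : ℝ => x ^ 3 / 2) (3 * a ^ 2 / 2) a := by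
    refine ((hasDerivAt_pow 3 a).div_const 2).congr_deriv ?_
    norm_num
  have h3 := h2.mul ((hasDerivAt_Xp (1 / a ^ 2 - ofs s)).comp a h1)
  have e2 : Cs s = (fun x : ℝ => x ^ 3 / 2) * (Xp ∘ fun x : ℝ => 1 / x ^ 2 - ofs s) := by
    ext x; rfl
  rw [e2]
  refine h3.congr_deriv ?_
  unfold er
  simp only [Function.comp]
  field_simp
  ring

/-- the corrector is differentiable at `0`, with derivative `0` -/
lemma hasDerivAt_Cs_zero (s : ℝ) : HasDerivAt (Cs s) 0 0 := by
  rw [hasDerivAt_iff_isLittleO]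
  simp only [sub_zero, smul_zero, Cs_zero]
  have h1 : (fun x : ℝ => Cs s x) =O[𝓝 0] fun x : ℝ => x ^ 3 := by
    refine Asymptotics.IsBigO.of_bound 1 (Eventually.of_forall fun x => ?_)
    rw [Real.norm_eq_abs, Real.norm_eq_abs, one_mul, abs_pow]
    have := abs_Cs_le s x
    have h0 : 0 ≤ |x| ^ 3 := by positivity
    linarith
  refine h1.trans_isLittleO ?_
  have h2 : (fun x : ℝ => x ^ 3) = fun x : ℝ => x * x ^ 2 := by
    ext x; ring
  rw [h2]
  have h3 : (fun x : ℝ => x ^ 2) =o[𝓝 0] fun _ => (1 : ℝ) := by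
    rw [Asymptotics.isLittleO_one_iff]
    have : Tendsto (fun x : ℝ => x ^ 2) (𝓝 0) (𝓝 (0 ^ 2)) := (continuous_pow 2).tendsto 0
    simpa using this
  simpa using (Asymptotics.isBigO_refl (fun x : ℝ => x) (𝓝 0)).mul_isLittleO h3

/-- MAIN: the equation of the corrector -/
theorem hasDerivAt_Cs {P : Par} (hj : 1 ≤ P.j0) {s : ℝ} (hs : s = 1 ∨ s = -1) {a : ℝ}
    (ha0 : a ≠ 0) (ha : |a| < P.dl) :
    HasDerivAt (Cs s) (-(chs P s a - 197 / 400) + er s a) a := by
  rw [chs_eq_trp hs (lt_inv_sq hj ha0 ha).le]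
  exact hasDerivAt_Cs' ha0

lemma differentiable_Cs (s : ℝ) : Differentiable ℝ (Cs s) := by
  intro a
  rcases eq_or_ne a 0 with rfl | ha
  · exact (hasDerivAt_Cs_zero s).differentiableAt
  · exact (hasDerivAt_Cs' ha).differentiableAt

lemma continuous_Cs (s : ℝ) : Continuous (Cs s) := (differentiable_Cs s).continuous

lemma measurable_Cs (s : ℝ) : Measurable (Cs s) := (continuous_Cs s).measurable

lemma measurable_er (s : ℝ) : Measurable (er s) := by
  unfold er
  exact ((measurable_id.pow_const 2).const_mul 3 |>.div_const 2).mul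
    (continuous_Xp.measurable.comp (by fun_prop))

lemma trp_nonneg (θ : ℝ) : 0 ≤ trp θ := trap_nonneg _
lemma trp_le_one (θ : ℝ) : trp θ ≤ 1 := trap_le_one _

lemma abs_deriv_Cs_le (s a : ℝ) : |deriv (Cs s) a| ≤ 1 + a ^ 2 := by
  rcases eq_or_ne a 0 with rfl | ha
  · rw [(hasDerivAt_Cs_zero s).deriv]; simp
  · rw [(hasDerivAt_Cs' ha).deriv]
    have h1 := trp_nonneg (1 / a ^ 2 - ofs s)
    have h2 := trp_le_one (1 / a ^ 2 - ofs s)
    have h3 := abs_er_le s a
    have h4 : |-(trp (1 / a ^ 2 - ofs s) - 197 / 400)| ≤ 1 := by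
      rw [abs_neg, abs_le]; constructor <;> linarith
    exact (abs_add_le _ _).trans (by linarith)

/-- Lipschitz bound on an interval -/
lemma Cs_lipschitz {R : ℝ} (s : ℝ) {a b : ℝ} (ha : |a| ≤ R) (hb : |b| ≤ R) :
    |Cs s a - Cs s b| ≤ (1 + R ^ 2) * |a - b| := by
  have hR : 0 ≤ R := (abs_nonneg a).trans ha
  have h := (convex_Icc (-R) R).norm_image_sub_le_of_norm_deriv_le (f := Cs s) (C := 1 + R ^ 2)
    (x := b) (y := a) (fun x _ => differentiable_Cs s x) (fun x hx => by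
      rw [Real.norm_eq_abs]
      refine (abs_deriv_Cs_le s x).trans ?_
      have : x ^ 2 ≤ R ^ 2 := sq_le_sq' (by linarith [hx.1]) hx.2
      linarith) (abs_le.1 hb) (abs_le.1 ha)
  simpa [Real.norm_eq_abs] using h

lemma Cs_lipschitz_dl {P : Par} (hj : 1 ≤ P.j0) (s : ℝ) {a b : ℝ} (ha : |a| ≤ P.dl)
    (hb : |b| ≤ P.dl) : |Cs s a - Cs s b| ≤ 3 * |a - b| := by
  refine (Cs_lipschitz s ha hb).trans ?_
  have h : P.dl ^ 2 ≤ 1 := by
    rw [dl_sq hj, div_le_one]
    · have : (1 : ℝ) ≤ P.j0 := by exact_mod_cast hj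
      linarith
    · have : (1 : ℝ) ≤ P.j0 := by exact_mod_cast hj
      linarith
  have := abs_nonneg (a - b)
  nlinarith

/-! ### flights -/

/-- label coordinate along a flight: position `x` at time `t0`, velocity `v` -/
def aF (P : Par) (t0 : ℝ) (x : P2) (v : R3) (t : ℝ) : ℝ := lab P t (x + (t - t0) • bar v)

/-- first component of the relative velocity along a flight -/
def qF (P : Par) (t0 : ℝ) (x : P2) (v : R3) (t : ℝ) : ℝ :=
  v 0 - P.c * (x + (t - t0) • bar v).1 / (P.dl + P.c * t)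

lemma qF_eq_uvec (P : Par) (t0 : ℝ) (x : P2) (v : R3) (s t : ℝ) :
    qF P t0 x v t = v 0 - uvec P s t (x + (t - t0) • bar v) 0 := by
  simp [qF, uvec]

lemma pos_fst (t0 t : ℝ) (x : P2) (v : R3) : (x + (t - t0) • bar v).1 = x.1 + (t - t0) * v 0 := by
  simp [bar]

lemma mul_qF {P : Par} {t0 t : ℝ} {x : P2} {v : R3} (h : P.dl + P.c * t ≠ 0) :
    (P.dl + P.c * t) * qF P t0 x v t = (P.dl + P.c * t0) * v 0 - P.c * x.1 := by
  unfold qF
  rw [pos_fst]
  field_simp
  ring

lemma qF_eq {P : Par} {t0 t : ℝ} {x : P2} {v : R3} (h : P.dl + P.c * t ≠ 0) :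
    qF P t0 x v t = ((P.dl + P.c * t0) * v 0 - P.c * x.1) / (P.dl + P.c * t) := by
  rw [eq_div_iff h, ← mul_qF h]; ring

/-- the relative velocity never changes sign -/
lemma qF_mul {P : Par} {t0 t t' : ℝ} {x : P2} {v : R3} (h : P.dl + P.c * t ≠ 0)
    (h' : P.dl + P.c * t' ≠ 0) :
    (P.dl + P.c * t) * qF P t0 x v t = (P.dl + P.c * t') * qF P t0 x v t' := by
  rw [mul_qF h, mul_qF h']

lemma hasDerivAt_aF {P : Par} {t0 t : ℝ} {x : P2} {v : R3} (h : P.dl + P.c * t ≠ 0) :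
    HasDerivAt (aF P t0 x v) (P.dl / (P.dl + P.c * t) * qF P t0 x v t) t := by
  have e : aF P t0 x v = fun t => P.dl * (x.1 + (t - t0) * v 0) / (P.dl + P.c * t) := by
    ext t; simp only [aF, lab, pos_fst]
  rw [e]
  have h1 : HasDerivAt (fun t : ℝ => P.dl * (x.1 + (t - t0) * v 0)) (P.dl * v 0) t := by
    have := ((((hasDerivAt_id t).sub_const t0).mul_const (v 0)).const_add x.1).const_mul P.dl
    simpa using this
  have h2 : HasDerivAt (fun t : ℝ => P.dl + P.c * t) P.c t := by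
    have := ((hasDerivAt_id t).const_mul P.c).const_add P.dl
    simpa using this
  refine (h1.fun_div h2 h).congr_deriv ?_
  rw [qF_eq h]
  field_simp
  ring

lemma hasDerivAt_qF {P : Par} {t0 t : ℝ} {x : P2} {v : R3} (h : P.dl + P.c * t ≠ 0) :
    HasDerivAt (qF P t0 x v) (-(P.c / (P.dl + P.c * t) * qF P t0 x v t)) t := by
  have e : qF P t0 x v = fun t => v 0 - P.c * (x.1 + (t - t0) * v 0) / (P.dl + P.c * t) := by
    ext t; simp only [qF, pos_fst]
  rw [e]
  have h1 : HasDerivAt (fun t : ℝ => P.c * (x.1 + (t - t0) * v 0)) (P.c * v 0) t := by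
    have := ((((hasDerivAt_id t).sub_const t0).mul_const (v 0)).const_add x.1).const_mul P.c
    simpa using this
  have h2 : HasDerivAt (fun t : ℝ => P.dl + P.c * t) P.c t := by
    have := ((hasDerivAt_id t).const_mul P.c).const_add P.dl
    simpa using this
  refine ((h1.fun_div h2 h).const_sub (v 0)).congr_deriv ?_
  beta_reduce
  field_simp

/-- the corrector along a flight -/
theorem hasDerivAt_Cs_aF {P : Par} (hj : 1 ≤ P.j0) {s : ℝ} (hs : s = 1 ∨ s = -1) {t0 t : ℝ}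
    {x : P2} {v : R3} (h : P.dl + P.c * t ≠ 0) (ha0 : aF P t0 x v t ≠ 0)
    (ha : |aF P t0 x v t| < P.dl) :
    HasDerivAt (fun τ => Cs s (aF P t0 x v τ))
      ((-(chs P s (aF P t0 x v t) - 197 / 400) + er s (aF P t0 x v t)) *
        (P.dl / (P.dl + P.c * t) * qF P t0 x v t)) t :=
  (hasDerivAt_Cs hj hs ha0 ha).comp t (hasDerivAt_aF h)

lemma hasDerivAt_Cs_aF_zero (s : ℝ) {P : Par} {t0 t : ℝ}
    {x : P2} {v : R3} (h : P.dl + P.c * t ≠ 0) (ha0 : aF P t0 x v t = 0) :
    HasDerivAt (fun τ => Cs s (aF P t0 x v τ)) 0 t := by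
  have h1 : HasDerivAt (Cs s) 0 (aF P t0 x v t) := by rw [ha0]; exact hasDerivAt_Cs_zero s
  refine (h1.comp t (hasDerivAt_aF h)).congr_deriv ?_
  simp

/-- FLIGHT form -/
theorem chs_flight {P : Par} (hj : 1 ≤ P.j0) {s : ℝ} (hs : s = 1 ∨ s = -1) {t0 t : ℝ}
    {x : P2} {v : R3} (h : P.dl + P.c * t ≠ 0) (ha0 : aF P t0 x v t ≠ 0)
    (ha : |aF P t0 x v t| < P.dl) (hq : qF P t0 x v t ≠ 0) :
    chs P s (aF P t0 x v t) - 197 / 400 =
      -(deriv (fun τ => Cs s (aF P t0 x v τ)) t * ((P.dl + P.c * t) / (P.dl * qF P t0 x v t))) +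
        er s (aF P t0 x v t) := by
  rw [(hasDerivAt_Cs_aF hj hs h ha0 ha).deriv]
  have := (dl_pos hj).ne'
  field_simp
  ring

end

end Crest.Agent.R68.X
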