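import Crest.Agent.R68.LDefs
import Crest.Agent.R68.XLane
import Crest.Agent.R68.FLattice

/-!
# Row 68, PART X2 (helper546): definitions

Lower exponent: tent test function `psi0`; Harnack weight `Om`.
Self-similar variables `z = x / t`, `q = fr z₂ v = v - (0, z₂, 0)`.
-/

set_option autoImplicit false
open MeasureTheory Set Filter
open scoped ENNReal Real
open Crest.AnalysisR.VecCalc3 Crest.AnalysisR.PDE.Boltzmann

noncomputable section

namespace Crest.Agent.R68.X2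

open Crest.Agent.R68.L (Den phiE Gf Dam TL sol)
open Crest.Agent.R68.X (chs)

/-- velocity relative to the fan at height `y` -/
def fr (y : ℝ) (v : R3) : R3 := v - !₂[0, y, 0]

/-- ideal fuel velocity at `z₂ = y`, sign `s` -/
def us (y s : ℝ) : R3 := !₂[0, y, s]

/-- rate times the sum of the values at the two outgoing velocities (dual gain, real) -/
def gsR (g : R3 → ℝ) (v u : R3) : ℝ :=
  ∫ w, |(inner ℝ (v - u) w : ℝ)| * (g (postVel v u w) + g (postVelStar v u w)) ∂sphereMeasure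

/-- the same, extended nonnegative -/
def gsE (g : R3 → ℝ≥0∞) (v u : R3) : ℝ≥0∞ :=
  ∫⁻ w, ENNReal.ofReal |(inner ℝ (v - u) w : ℝ)| *
    (g (postVel v u w) + g (postVelStar v u w)) ∂sphereMeasure

/-- dual gain against the fuel: `∫ g (Gf φ h) dv = ∫ h (GA φ g) dv` -/
def GA (φ : Den) (g : Den) : Den := fun t x v => ∫⁻ u, φ t x u * gsE (g t x) v u

/-! ### the tent -/

/-- the tent -/
def tent (A Yp e y : ℝ) (q : R3) : ℝ := (1 + A) * Yp - |(1 + A) * y + q 1| - e * ‖q‖ ^ 2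

/-- its positive part -/
def tentp (A Yp e y : ℝ) (q : R3) : ℝ := max 0 (tent A Yp e y q)

/-- cut-off in `x₁ / t` -/
def cutB (B w : ℝ) : ℝ := (max 0 (1 - w ^ 2 / B ^ 2)) ^ 2

/-- cut-off of small `v₁`: `0` for `|a| ≤ d`, `1` for `|a| ≥ 2 d` -/
def lamd (d a : ℝ) : ℝ := max 0 (min 1 (|a| / d - 1))

/-- parameters of X2 -/
structure XP where
  A : ℝ
  Yp : ℝ
  e : ℝ
  B : ℝ
  d : ℝ

/-- the test function in self-similar variables -/
def f0 (X : XP) (z : P2) (v : R3) : ℝ :=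
  tentp X.A X.Yp X.e z.2 (fr z.2 v) * cutB X.B z.1 * lamd X.d (v 0)

/-- the test function (supported near the lattice point `0`) -/
def psi0 (X : XP) (t : ℝ) (x : P2) (v : R3) : ℝ := f0 X (t⁻¹ • x) v

/-- extended nonnegative -/
def psiE (X : XP) : Den := fun t x v => ENNReal.ofReal (psi0 X t x v)

/-- periodised -/
def psiP (X : XP) : Den := fun t x v => ∑' k : ℤ × ℤ, psiE X t (x + latt k) v

/-- sign with value `1` at `0` -/
def sg (m : ℝ) : ℝ := if 0 ≤ m then 1 else -1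

/-- `t` times the derivative of `psi0` along the flight, at the points where it exists -/
def L0 (X : XP) (z : P2) (v : R3) : ℝ :=
  if 0 < tent X.A X.Yp X.e z.2 (fr z.2 v) then
    ((-sg ((1 + X.A) * z.2 + fr z.2 v 1) * X.A * (fr z.2 v 1) + 2 * X.e * (fr z.2 v 1) ^ 2)
        * cutB X.B z.1
      + tent X.A X.Yp X.e z.2 (fr z.2 v) *
        (2 * max 0 (1 - z.1 ^ 2 / X.B ^ 2) * (-(2 * z.1 * (v 0 - z.1) / X.B ^ 2)))) * lamd X.d (v 0)
  else 0

/-- ideal collision term for the sign `s` (with the gain reduced by the factor `1 - δ₁`), `ρ = K ky` -/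
def ws (X : XP) (d1 ρ s : ℝ) (z : P2) (v : R3) : ℝ :=
  ρ * ((1 - d1) * gsR (f0 X z) v (us z.2 s) - 2 * π * ‖v - us z.2 s‖ * f0 X z v)

/-! ### the corrected test function -/

/-- `1` for `r ≤ 1`, `0` for `r ≥ 2` -/
def ramp (r : ℝ) : ℝ := max 0 (min 1 (2 - r))

/-- cut-off equal to `1` on the support of `f0` -/
def th (X : XP) (Zs Vs : ℝ) (z : P2) (v : R3) : ℝ :=
  ramp (‖z‖ / Zs) * ramp (‖v‖ / Vs) * lamd (X.d / 2) (v 0)

/-- first component of the velocity relative to the fuel -/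
def q1u (P : Par) (t : ℝ) (x : P2) (v : R3) : ℝ := v 0 - P.c * x.1 / (P.dl + P.c * t)

/-- oscillating part of the ideal collision term -/
def osc (X : XP) (P : Par) (d1 Zs Vs s t : ℝ) (x : P2) (v : R3) : ℝ :=
  t⁻¹ * th X Zs Vs (t⁻¹ • x) v * ws X d1 (P.K * ky P (t⁻¹ • x).2) s (t⁻¹ • x) v

/-- the lane corrector -/
def corr (X : XP) (P : Par) (d1 Zs Vs t : ℝ) (x : P2) (v : R3) : ℝ :=
  (P.dl + P.c * t) / (P.dl * q1u P t x v) *
    (Crest.Agent.R68.X.Cs 1 (lab P t x) * osc X P d1 Zs Vs 1 t x v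
      + Crest.Agent.R68.X.Cs (-1) (lab P t x) * osc X P d1 Zs Vs (-1) t x v)

/-- the corrected test function -/
def gL (X : XP) (P : Par) (d1 Zs Vs Cg : ℝ) (t : ℝ) (x : P2) (v : R3) : ℝ :=
  psi0 X t x v + corr X P d1 Zs Vs t x v + Cg * t ^ 2 * (ramp (‖t⁻¹ • x‖ / (2 * Zs)) * ramp (‖v‖ / (2 * Vs)))

/-- indicator of the near zone -/
def nearI (Zs Vs : ℝ) (t : ℝ) (x : P2) (v : R3) : ℝ :=
  open scoped Classical in if ‖x‖ ≤ 4 * Zs * t ∧ ‖v‖ ≤ 4 * Vs then 1 else 0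

/-- lower bound for the derivative of `gL` along flights -/
def Lg (X : XP) (P : Par) (d1 Zs Vs C : ℝ) (t : ℝ) (x : P2) (v : R3) : ℝ :=
  t⁻¹ * L0 X (t⁻¹ • x) v
    - (chs P 1 (lab P t x) - 197 / 400) * osc X P d1 Zs Vs 1 t x v
    - (chs P (-1) (lab P t x) - 197 / 400) * osc X P d1 Zs Vs (-1) t x v
    - C * nearI Zs Vs t x v

/-! ### the Harnack weight -/

/-- clamp to `[-b, b]` -/
def clamp (b y : ℝ) : ℝ := max (-b) (min b y)

/-- `1` for `r ≤ 1/8`, `0` for `r ≥ 1/4` -/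
def cut8 (r : ℝ) : ℝ := max 0 (min 1 (2 - 8 * r))

/-- periodic frame: near the lattice points the clamp of `x₂ / t` to `[-2Y, 2Y]` -/
def Yc (Y t : ℝ) (x : P2) : ℝ := ∑' k : ℤ × ℤ, cut8 ‖x + latt k‖ * clamp (2 * Y) ((x + latt k).2 / t)

/-- the velocity weight -/
def hh (C2 : ℝ) (q : R3) : ℝ := 1 + C2 * |q 1| + ‖q‖ ^ 12

/-- `max(|v|, |x|_Γ / t)` -/
def mm (t : ℝ) (x : P2) (v : R3) : ℝ := max ‖v‖ (distG x / t)

/-- the Harnack weight -/
def Om (Y C2 gp : ℝ) (t : ℝ) (x : P2) (v : R3) : ℝ :=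
  hh C2 (fr (Yc Y t x) v) * Real.exp (gp * mm t x v ^ 2)

/-- extended nonnegative -/
def OmE (Y C2 gp : ℝ) : Den := fun t x v => ENNReal.ofReal (Om Y C2 gp t x v)

/-- integral of a weight against a density over one period -/
def MW (W h : Den) (t : ℝ) : ℝ≥0∞ := ∫⁻ x in cellG, ∫⁻ v, W t x v * h t x v

end Crest.Agent.R68.X2
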