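/-
Row 68 (S0091), Part X: homogenisation of the lanes, integrated along a flight against an
absolutely continuous function.
-/
import Mathlib
import Crest.Agent.R68.XLane

set_option autoImplicit false

namespace Crest.Agent.R68.X

open Real MeasureTheory Set Filter Topology
open scoped ENNReal
open Crest.AnalysisR.VecCalc3 Crest.AnalysisR.PDE.Boltzmann

noncomputable section

/-- the factor of the corrector -/
def mF (P : Par) (t0 : ℝ) (x : P2) (v : R3) (t : ℝ) : ℝ :=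
  (P.dl + P.c * t) / (P.dl * qF P t0 x v t)

variable {P : Par} {t0 t1 t2 : ℝ} {x : P2} {v : R3}

lemma mF_mul (hj : 1 ≤ P.j0) {t : ℝ} (h : P.dl + P.c * t ≠ 0) (hq : qF P t0 x v t ≠ 0) :
    P.dl / (P.dl + P.c * t) * qF P t0 x v t * mF P t0 x v t = 1 := by
  unfold mF
  have := (dl_pos hj).ne'
  field_simp

lemma mF_eq {t : ℝ} (h : P.dl + P.c * t ≠ 0) :
    mF P t0 x v t = (P.dl + P.c * t) ^ 2 / (P.dl * ((P.dl + P.c * t0) * v 0 - P.c * x.1)) := by
  unfold mF
  rw [qF_eq h]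
  rw [mul_div_assoc', div_div_eq_mul_div]
  ring

lemma hasDerivAt_mF {t : ℝ} (h : P.dl + P.c * t ≠ 0) :
    HasDerivAt (mF P t0 x v) (2 * P.c / (P.dl * qF P t0 x v t)) t := by
  set A := (P.dl + P.c * t0) * v 0 - P.c * x.1 with hA
  have h1 : HasDerivAt (fun t : ℝ => (P.dl + P.c * t) ^ 2 / (P.dl * A))
      (2 * (P.dl + P.c * t) * P.c / (P.dl * A)) t := by
    have h2 : HasDerivAt (fun t : ℝ => P.dl + P.c * t) P.c t := by
      have := ((hasDerivAt_id t).const_mul P.c).const_add P.dl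
      simpa using this
    refine ((h2.fun_pow 2).div_const (P.dl * A)).congr_deriv ?_
    norm_num
  have h2 : 2 * P.c / (P.dl * qF P t0 x v t) = 2 * (P.dl + P.c * t) * P.c / (P.dl * A) := by
    rw [qF_eq h, ← hA, mul_div_assoc', div_div_eq_mul_div]
    ring
  rw [h2]
  refine h1.congr_of_eventuallyEq ?_
  have hn : ∀ᶠ τ in 𝓝 t, P.dl + P.c * τ ≠ 0 :=
    (by fun_prop : Continuous fun τ : ℝ => P.dl + P.c * τ).continuousAt.eventually_ne h
  filter_upwards [hn] with τ hτ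
  rw [mF_eq hτ]

lemma qF_ne {t : ℝ} (h1 : P.dl + P.c * t1 ≠ 0) (h : P.dl + P.c * t ≠ 0)
    (hq : qF P t0 x v t1 ≠ 0) : qF P t0 x v t ≠ 0 := by
  intro h0
  have := qF_mul (t0 := t0) (x := x) (v := v) h1 h
  rw [h0, mul_zero] at this
  exact hq ((mul_eq_zero.1 this).resolve_left h1)

/-- the label vanishes at most once along a flight with `qF ≠ 0` -/
lemma aF_zero_unique (hj : 1 ≤ P.j0) {t t' : ℝ} (h : P.dl + P.c * t ≠ 0)
    (h' : P.dl + P.c * t' ≠ 0) (hq : qF P t0 x v t ≠ 0)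
    (ha : aF P t0 x v t = 0) (ha' : aF P t0 x v t' = 0) : t = t' := by
  have hd := (dl_pos hj).ne'
  unfold aF lab at ha ha'
  rw [pos_fst] at ha ha'
  rw [div_eq_zero_iff] at ha ha'
  have e1 := (mul_eq_zero.1 (ha.resolve_right h)).resolve_left hd
  have e2 := (mul_eq_zero.1 (ha'.resolve_right h')).resolve_left hd
  by_contra hne
  have hv : v 0 = 0 := by
    have : (t - t') * v 0 = 0 := by linarith
    exact (mul_eq_zero.1 this).resolve_left (sub_ne_zero.2 hne)
  have hx : x.1 = 0 := by rw [hv] at e1; linarith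
  apply hq
  rw [qF_eq h, hv, hx]
  simp

lemma ae_aF_ne (hj : 1 ≤ P.j0) (h12 : t1 ≤ t2) (hpos : ∀ t ∈ Icc t1 t2, 0 < P.dl + P.c * t)
    (hq : qF P t0 x v t1 ≠ 0) :
    ∀ᵐ t : ℝ, t ∈ Icc t1 t2 → aF P t0 x v t ≠ 0 := by
  have hs : ({t : ℝ | t ∈ Icc t1 t2 ∧ aF P t0 x v t = 0}).Subsingleton := by
    intro a ha b hb
    have h1 := (hpos t1 (left_mem_Icc.2 h12)).ne'
    exact aF_zero_unique hj (hpos a ha.1).ne' (hpos b hb.1).ne'
      (qF_ne h1 (hpos a ha.1).ne' hq) ha.2 hb.2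
  have h0 : volume {t : ℝ | t ∈ Icc t1 t2 ∧ aF P t0 x v t = 0} = 0 := hs.measure_zero _
  rw [ae_iff]
  convert h0 using 2
  ext t
  simp [and_assoc]

/-- `τ ↦ Cs s (a τ)` is absolutely continuous -/
lemma ac_Cs_aF (s : ℝ) (h12 : t1 ≤ t2) (hpos : ∀ t ∈ Icc t1 t2, 0 < P.dl + P.c * t) :
    AbsolutelyContinuousOnInterval (fun t => Cs s (aF P t0 x v t)) t1 t2 := by
  have hcq : ContinuousOn (qF P t0 x v) (Icc t1 t2) := fun t ht =>
    (hasDerivAt_qF (hpos t ht).ne').continuousAt.continuousWithinAt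
  have hca : ContinuousOn (aF P t0 x v) (Icc t1 t2) := fun t ht =>
    (hasDerivAt_aF (hpos t ht).ne').continuousAt.continuousWithinAt
  have hcd : ContinuousOn (fun t => (1 + aF P t0 x v t ^ 2) *
      (P.dl / (P.dl + P.c * t) * qF P t0 x v t)) (Icc t1 t2) := by
    refine (continuousOn_const.add (hca.pow 2)).mul (ContinuousOn.mul ?_ hcq)
    exact continuousOn_const.div (by fun_prop) fun t ht => (hpos t ht).ne'
  obtain ⟨C, hC⟩ := isCompact_Icc.exists_bound_of_continuousOn hcd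
  have hC0 : 0 ≤ C := (norm_nonneg _).trans (hC t1 (left_mem_Icc.2 h12))
  have hL : LipschitzOnWith C.toNNReal (fun t => Cs s (aF P t0 x v t)) (Icc t1 t2) := by
    refine (convex_Icc t1 t2).lipschitzOnWith_of_nnnorm_hasDerivWithin_le
      (f' := fun t => deriv (Cs s) (aF P t0 x v t) * (P.dl / (P.dl + P.c * t) * qF P t0 x v t))
      (fun t ht => ?_) (fun t ht => ?_)
    · exact (((differentiable_Cs s _).hasDerivAt).comp t
        (hasDerivAt_aF (hpos t ht).ne')).hasDerivWithinAt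
    · rw [← NNReal.coe_le_coe, coe_nnnorm, Real.coe_toNNReal _ hC0]
      refine le_trans ?_ (hC t ht)
      rw [Real.norm_eq_abs, Real.norm_eq_abs, abs_mul, abs_mul (1 + aF P t0 x v t ^ 2),
        abs_of_nonneg (by positivity : (0 : ℝ) ≤ 1 + aF P t0 x v t ^ 2)]
      exact mul_le_mul_of_nonneg_right (abs_deriv_Cs_le s _) (abs_nonneg _)
  rw [← uIcc_of_le h12] at hL
  exact hL.absolutelyContinuousOnInterval

lemma ac_mF (h12 : t1 ≤ t2) (hpos : ∀ t ∈ Icc t1 t2, 0 < P.dl + P.c * t) :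
    AbsolutelyContinuousOnInterval (mF P t0 x v) t1 t2 := by
  apply ContDiffOn.absolutelyContinuousOnInterval
  rw [uIcc_of_le h12]
  have : ContDiffOn ℝ 1 (fun t : ℝ => (P.dl + P.c * t) ^ 2 /
      (P.dl * ((P.dl + P.c * t0) * v 0 - P.c * x.1))) (Icc t1 t2) :=
    ContDiff.contDiffOn (by fun_prop)
  exact this.congr fun t ht => mF_eq (hpos t ht).ne'

lemma ii_mul180 {F G : ℝ → ℝ} {C : ℝ} (h12 : t1 ≤ t2)
    (hF : AEStronglyMeasurable F (volume.restrict (Icc t1 t2)))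
    (hC : ∀ t ∈ Icc t1 t2, |F t| ≤ C) (hG : ContinuousOn G (Icc t1 t2)) :
    IntervalIntegrable (fun t => F t * G t) volume t1 t2 := by
  rw [intervalIntegrable_iff_integrableOn_Icc_of_le h12]
  obtain ⟨D, hD⟩ := isCompact_Icc.exists_bound_of_continuousOn hG
  refine Integrable.of_bound (C := C * D)
    (hF.mul (hG.aestronglyMeasurable measurableSet_Icc))
    ((ae_restrict_iff' measurableSet_Icc).2 (Eventually.of_forall fun t ht => ?_))
  rw [norm_mul]
  exact mul_le_mul (hC t ht) (hD t ht) (norm_nonneg _) ((abs_nonneg _).trans (hC t ht))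

lemma ii_er (h12 : t1 ≤ t2) (hpos : ∀ t ∈ Icc t1 t2, 0 < P.dl + P.c * t)
    (ha : ∀ t ∈ Icc t1 t2, |aF P t0 x v t| < P.dl) (s : ℝ) {G : ℝ → ℝ}
    (hGc : ContinuousOn G (Icc t1 t2)) :
    IntervalIntegrable (fun t => er s (aF P t0 x v t) * G t) volume t1 t2 := by
  have hca : ContinuousOn (aF P t0 x v) (Icc t1 t2) := fun t ht =>
    (hasDerivAt_aF (hpos t ht).ne').continuousAt.continuousWithinAt
  refine ii_mul180 (C := P.dl ^ 2) h12
    ((measurable_er s).comp_aemeasurable (hca.aemeasurable measurableSet_Icc)).aestronglyMeasurable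
    (fun t ht => ?_) hGc
  refine (abs_er_le s _).trans ?_
  rw [← sq_abs (aF P t0 x v t)]
  exact pow_le_pow_left₀ (abs_nonneg _) (ha t ht).le 2

lemma ii_chs (h12 : t1 ≤ t2) (hpos : ∀ t ∈ Icc t1 t2, 0 < P.dl + P.c * t)
    (s : ℝ) {G : ℝ → ℝ}
    (hGc : ContinuousOn G (Icc t1 t2)) :
    IntervalIntegrable (fun t => (chs P s (aF P t0 x v t) - 197 / 400) * G t) volume t1 t2 := by
  have hca : ContinuousOn (aF P t0 x v) (Icc t1 t2) := fun t ht =>
    (hasDerivAt_aF (hpos t ht).ne').continuousAt.continuousWithinAt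
  refine ii_mul180 (C := 1) h12
    (((measurable_chs P s).comp_aemeasurable
      (hca.aemeasurable measurableSet_Icc)).sub_const _).aestronglyMeasurable
    (fun t ht => ?_) hGc
  rw [abs_le]
  have := chs_nonneg P s (aF P t0 x v t)
  have := chs_le_one P s (aF P t0 x v t)
  constructor <;> linarith

/-- INTEGRATED form: integration by parts against the corrector -/
theorem lane_flight_int (hj : 1 ≤ P.j0) {s : ℝ} (hs : s = 1 ∨ s = -1) (h12 : t1 ≤ t2)
    (hpos : ∀ t ∈ Icc t1 t2, 0 < P.dl + P.c * t)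
    (ha : ∀ t ∈ Icc t1 t2, |aF P t0 x v t| < P.dl) (hq : qF P t0 x v t1 ≠ 0)
    {G : ℝ → ℝ} (hG : AbsolutelyContinuousOnInterval G t1 t2) :
    ∫ t in t1..t2, (chs P s (aF P t0 x v t) - 197 / 400) * G t =
      -(Cs s (aF P t0 x v t2) * (mF P t0 x v t2 * G t2) -
        Cs s (aF P t0 x v t1) * (mF P t0 x v t1 * G t1)) +
      (∫ t in t1..t2, Cs s (aF P t0 x v t) * deriv (fun τ => mF P t0 x v τ * G τ) t) +
      ∫ t in t1..t2, er s (aF P t0 x v t) * G t := by
  have h1 := (hpos t1 (left_mem_Icc.2 h12)).ne'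
  have hf := ac_Cs_aF (P := P) (t0 := t0) (x := x) (v := v) s h12 hpos
  have hg : AbsolutelyContinuousOnInterval (fun τ => mF P t0 x v τ * G τ) t1 t2 :=
    (ac_mF h12 hpos).mul hG
  have hGc := hG.continuousOn
  rw [uIcc_of_le h12] at hGc
  have hca : ContinuousOn (aF P t0 x v) (Icc t1 t2) := fun t ht =>
    (hasDerivAt_aF (hpos t ht).ne').continuousAt.continuousWithinAt
  have key := hf.integral_mul_deriv_eq_deriv_mul hg
  -- the a.e. identity
  have hae : ∀ᵐ t : ℝ, t ∈ uIoc t1 t2 →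
      deriv (fun τ => Cs s (aF P t0 x v τ)) t * (mF P t0 x v t * G t) =
        -((chs P s (aF P t0 x v t) - 197 / 400) * G t) + er s (aF P t0 x v t) * G t := by
    filter_upwards [ae_aF_ne (P := P) (t0 := t0) (x := x) (v := v) hj h12 hpos hq] with t ht htI
    rw [uIoc_of_le h12] at htI
    have htI' : t ∈ Icc t1 t2 := ⟨htI.1.le, htI.2⟩
    have hp := (hpos t htI').ne'
    have hqt := qF_ne h1 hp hq
    rw [(hasDerivAt_Cs_aF hj hs hp (ht htI') (ha t htI')).deriv]
    have := mF_mul (P := P) (t0 := t0) (x := x) (v := v) hj hp hqt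
    linear_combination ((-(chs P s (aF P t0 x v t) - 197 / 400) + er s (aF P t0 x v t)) * G t) * this
  -- integrability
  have hI2 := ii_er (P := P) (t0 := t0) (x := x) (v := v) h12 hpos ha s hGc
  have hI1 := ii_chs (P := P) (t0 := t0) (x := x) (v := v) h12 hpos s hGc
  have h3 : ∫ t in t1..t2, deriv (fun τ => Cs s (aF P t0 x v τ)) t * (mF P t0 x v t * G t) =
      -(∫ t in t1..t2, (chs P s (aF P t0 x v t) - 197 / 400) * G t) +
        ∫ t in t1..t2, er s (aF P t0 x v t) * G t := by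
    have hI1n : IntervalIntegrable (fun t => -((chs P s (aF P t0 x v t) - 197 / 400) * G t))
        volume t1 t2 := hI1.neg
    rw [intervalIntegral.integral_congr_ae hae, ← intervalIntegral.integral_neg,
      ← intervalIntegral.integral_add hI1n hI2]
  rw [h3] at key
  linarith [key]

/-- BOUND form -/
theorem lane_flight_le (hj : 1 ≤ P.j0) {s : ℝ} (hs : s = 1 ∨ s = -1) (h12 : t1 ≤ t2)
    (hpos : ∀ t ∈ Icc t1 t2, 0 < P.dl + P.c * t)
    (ha : ∀ t ∈ Icc t1 t2, |aF P t0 x v t| < P.dl) (hq : qF P t0 x v t1 ≠ 0)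
    {G : ℝ → ℝ} (hG : AbsolutelyContinuousOnInterval G t1 t2)
    {E : ℝ → ℝ} (hE : IntervalIntegrable E volume t1 t2)
    (hEb : ∀ᵐ t : ℝ, t ∈ Ioc t1 t2 →
      |aF P t0 x v t| ^ 3 / 2 * (|2 * P.c / (P.dl * qF P t0 x v t)| * |G t| +
        |mF P t0 x v t| * |deriv G t|) + aF P t0 x v t ^ 2 * |G t| ≤ E t) :
    |(∫ t in t1..t2, (chs P s (aF P t0 x v t) - 197 / 400) * G t) +
      (Cs s (aF P t0 x v t2) * (mF P t0 x v t2 * G t2) -
        Cs s (aF P t0 x v t1) * (mF P t0 x v t1 * G t1))| ≤ ∫ t in t1..t2, E t := by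
  have h1 := (hpos t1 (left_mem_Icc.2 h12)).ne'
  rw [lane_flight_int hj hs h12 hpos ha hq hG]
  have e1 : ∀ a b c d : ℝ, -(a - b) + c + d + (a - b) = c + d := by intros; ring
  rw [e1]
  have hca : ContinuousOn (aF P t0 x v) (Icc t1 t2) := fun t ht =>
    (hasDerivAt_aF (hpos t ht).ne').continuousAt.continuousWithinAt
  have hGc := hG.continuousOn
  rw [uIcc_of_le h12] at hGc
  have hg : AbsolutelyContinuousOnInterval (fun τ => mF P t0 x v τ * G τ) t1 t2 :=
    (ac_mF h12 hpos).mul hG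
  have hf := ac_Cs_aF (P := P) (t0 := t0) (x := x) (v := v) s h12 hpos
  have hI1 : IntervalIntegrable
      (fun t => Cs s (aF P t0 x v t) * deriv (fun τ => mF P t0 x v τ * G τ) t) volume t1 t2 :=
    hg.intervalIntegrable_deriv.continuousOn_mul hf.continuousOn
  have hI2 := ii_er (P := P) (t0 := t0) (x := x) (v := v) h12 hpos ha s hGc
  rw [← intervalIntegral.integral_add hI1 hI2]
  rw [← Real.norm_eq_abs]
  refine (intervalIntegral.norm_integral_le_of_norm_le h12 ?_ hE)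
  filter_upwards [hEb, hG.ae_differentiableAt] with t ht hdG htI
  have htI' : t ∈ Icc t1 t2 := ⟨htI.1.le, htI.2⟩
  refine le_trans ?_ (ht htI)
  have hp := (hpos t htI').ne'
  have hd : deriv (fun τ => mF P t0 x v τ * G τ) t =
      2 * P.c / (P.dl * qF P t0 x v t) * G t + mF P t0 x v t * deriv G t :=
    ((hasDerivAt_mF hp).fun_mul
      (hdG (by rw [uIcc_of_le h12]; exact htI')).hasDerivAt).deriv
  rw [hd, Real.norm_eq_abs]
  refine (abs_add_le _ _).trans (add_le_add ?_ ?_)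
  · rw [abs_mul]
    refine mul_le_mul (abs_Cs_le s _) ?_ (abs_nonneg _) (by positivity)
    refine (abs_add_le _ _).trans ?_
    rw [abs_mul, abs_mul]
  · rw [abs_mul]
    exact mul_le_mul_of_nonneg_right (abs_er_le s _) (abs_nonneg _)

end

end Crest.Agent.R68.X
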