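import Mathlib
import Crest.Agent.R68.XDefs
import Crest.Agent.R68.XLane2

/-!
# Row 68, PART X2 (helper180): the test function along flights (file 1)
-/

set_option autoImplicit false
open MeasureTheory Set Filter
open scoped ENNReal NNReal Real Topology
open Crest.AnalysisR.VecCalc3 Crest.AnalysisR.PDE.Boltzmann

noncomputable section

namespace Crest.Agent.R68.X2.Fl

/-! ### absolutely continuous functions -/

theorem ac_comp_lip {f g : ℝ → ℝ} {a b : ℝ} {K : ℝ≥0} (hg : LipschitzWith K g)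
    (hf : AbsolutelyContinuousOnInterval f a b) :
    AbsolutelyContinuousOnInterval (fun x => g (f x)) a b := by
  rw [absolutelyContinuousOnInterval_iff] at hf ⊢
  intro ε hε
  obtain ⟨δ, hδ, h⟩ := hf (ε / (K + 1)) (by positivity)
  refine ⟨δ, hδ, fun E hE hlt => ?_⟩
  have h1 := h E hE hlt
  calc ∑ i ∈ Finset.range E.1, dist (g (f (E.2 i).1)) (g (f (E.2 i).2))
      ≤ ∑ i ∈ Finset.range E.1, (K : ℝ) * dist (f (E.2 i).1) (f (E.2 i).2) :=
        Finset.sum_le_sum fun i _ => hg.dist_le_mul _ _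
    _ = K * ∑ i ∈ Finset.range E.1, dist (f (E.2 i).1) (f (E.2 i).2) := by
        rw [Finset.mul_sum]
    _ ≤ K * (ε / (K + 1)) := by gcongr
    _ < (K + 1) * (ε / (K + 1)) := by
        have : 0 < ε / ((K : ℝ) + 1) := by positivity
        nlinarith
    _ = ε := by field_simp

theorem ac_abs {f : ℝ → ℝ} {a b : ℝ} (hf : AbsolutelyContinuousOnInterval f a b) :
    AbsolutelyContinuousOnInterval (fun x => |f x|) a b := by
  have h : LipschitzWith 1 (fun x : ℝ => |x|) := by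
    refine LipschitzWith.of_dist_le_mul fun x y => ?_
    simp only [NNReal.coe_one, one_mul, Real.dist_eq]
    exact abs_abs_sub_abs_le x y
  exact ac_comp_lip h hf

theorem ac_max0 {f : ℝ → ℝ} {a b : ℝ} (hf : AbsolutelyContinuousOnInterval f a b) :
    AbsolutelyContinuousOnInterval (fun x => max 0 (f x)) a b := by
  have h : LipschitzWith 1 (fun x : ℝ => max 0 x) := by
    refine LipschitzWith.of_dist_le_mul fun x y => ?_
    simp only [NNReal.coe_one, one_mul, Real.dist_eq]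
    rw [max_comm 0 x, max_comm 0 y]
    exact abs_max_sub_max_le_abs x y 0
  exact ac_comp_lip h hf

theorem ac_const (c a b : ℝ) : AbsolutelyContinuousOnInterval (fun _ => c) a b := by
  apply ContDiffOn.absolutelyContinuousOnInterval
  exact contDiffOn_const

/-! ### derivatives of `|m|` and `max 0 F` -/

theorem deriv_abs_of_diff {m : ℝ → ℝ} {m' ρ : ℝ} (hm : HasDerivAt m m' ρ)
    (hd : DifferentiableAt ℝ (fun x => |m x|) ρ) :
    HasDerivAt (fun x => |m x|) (sg (m ρ) * m') ρ := by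
  rcases lt_trichotomy (m ρ) 0 with h | h | h
  · have hs : sg (m ρ) = -1 := by unfold sg; rw [if_neg (not_le.2 h)]
    rw [hs, neg_one_mul]
    refine hm.neg.congr_of_eventuallyEq ?_
    filter_upwards [hm.continuousAt.eventually_lt_const h] with x hx
    rw [abs_of_neg hx]; rfl
  · have hs : sg (m ρ) = 1 := by unfold sg; rw [if_pos h.ge]
    have h1 : IsLocalMin (fun x => |m x|) ρ := by
      refine Eventually.of_forall fun x => ?_
      simp [h]
    have h2 := hd.hasDerivAt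
    rw [h1.deriv_eq_zero] at h2
    have h3 : HasDerivAt m 0 ρ := by
      rw [hasDerivAt_iff_isLittleO] at h2 ⊢
      simp only [h, abs_zero, sub_zero, smul_zero] at h2 ⊢
      exact (Asymptotics.isLittleO_abs_left).1 h2
    have h4 : m' = 0 := hm.unique h3
    rw [h4, mul_zero]
    exact h2
  · have hs : sg (m ρ) = 1 := by unfold sg; rw [if_pos h.le]
    rw [hs, one_mul]
    refine hm.congr_of_eventuallyEq ?_
    filter_upwards [hm.continuousAt.eventually_const_lt h] with x hx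
    rw [abs_of_pos hx]

theorem hasDerivAt_max0_of_nonpos {F : ℝ → ℝ} {ρ : ℝ} (h : F ρ ≤ 0)
    (hd : DifferentiableAt ℝ (fun x => max 0 (F x)) ρ) :
    HasDerivAt (fun x => max 0 (F x)) 0 ρ := by
  have h1 : IsLocalMin (fun x => max 0 (F x)) ρ := by
    refine Eventually.of_forall fun x => ?_
    simp [max_eq_left h]
  have h2 := hd.hasDerivAt
  rwa [h1.deriv_eq_zero] at h2

theorem hasDerivAt_max0_of_pos {F : ℝ → ℝ} {F' ρ : ℝ} (h : 0 < F ρ) (hF : HasDerivAt F F' ρ) :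
    HasDerivAt (fun x => max 0 (F x)) F' ρ := by
  refine hF.congr_of_eventuallyEq ?_
  filter_upwards [hF.continuousAt.eventually_const_lt h] with x hx
  rw [max_eq_right hx.le]

/-! ### self-similar position along a flight -/

/-- self-similar position at time `ρ` of the flight which is at `x` at time `s` -/
def zF (s : ℝ) (x : P2) (v : R3) (ρ : ℝ) : P2 := ρ⁻¹ • (x + (ρ - s) • bar v)

variable {s r : ℝ} {x : P2} {v : R3} {ρ ρ' : ℝ}

theorem zF_fst (s : ℝ) (x : P2) (v : R3) (ρ : ℝ) :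
    (zF s x v ρ).1 = ρ⁻¹ * (x.1 + (ρ - s) * v 0) := by
  simp [zF, bar, mul_add]

theorem zF_snd (s : ℝ) (x : P2) (v : R3) (ρ : ℝ) :
    (zF s x v ρ).2 = ρ⁻¹ * (x.2 + (ρ - s) * v 1) := by
  simp [zF, bar, mul_add]

theorem zF_sub (hρ : ρ ≠ 0) (hρ' : ρ' ≠ 0) :
    zF s x v ρ - zF s x v ρ' = ((ρ - ρ') / ρ') • (bar v - zF s x v ρ) := by
  refine Prod.ext ?_ ?_
  · simp only [Prod.fst_sub, Prod.smul_fst, zF_fst, smul_eq_mul, bar]
    field_simp
    ring
  · simp only [Prod.snd_sub, Prod.smul_snd, zF_snd, smul_eq_mul, bar]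
    field_simp
    ring

theorem norm_zF_sub (hρ : 0 < ρ) (hρ' : 0 < ρ') :
    ‖zF s x v ρ - zF s x v ρ'‖ = |ρ - ρ'| / ρ' * ‖bar v - zF s x v ρ‖ := by
  rw [zF_sub hρ.ne' hρ'.ne', norm_smul, Real.norm_eq_abs, abs_div, abs_of_pos hρ']

theorem hasDerivAt_zF_fst (hρ : ρ ≠ 0) :
    HasDerivAt (fun ρ => (zF s x v ρ).1) (ρ⁻¹ * (v 0 - (zF s x v ρ).1)) ρ := by
  have e : (fun ρ => (zF s x v ρ).1) = fun ρ => ρ⁻¹ * (x.1 + (ρ - s) * v 0) := by
    ext ρ; rw [zF_fst]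
  rw [e, zF_fst]
  have h1 : HasDerivAt (fun ρ : ℝ => x.1 + (ρ - s) * v 0) (v 0) ρ := by
    refine ((((hasDerivAt_id ρ).sub_const s).mul_const (v 0)).const_add x.1).congr_deriv ?_
    simp
  refine ((hasDerivAt_inv hρ).fun_mul h1).congr_deriv ?_
  field_simp
  ring

theorem hasDerivAt_zF_snd (hρ : ρ ≠ 0) :
    HasDerivAt (fun ρ => (zF s x v ρ).2) (ρ⁻¹ * (v 1 - (zF s x v ρ).2)) ρ := by
  have e : (fun ρ => (zF s x v ρ).2) = fun ρ => ρ⁻¹ * (x.2 + (ρ - s) * v 1) := by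
    ext ρ; rw [zF_snd]
  rw [e, zF_snd]
  have h1 : HasDerivAt (fun ρ : ℝ => x.2 + (ρ - s) * v 1) (v 1) ρ := by
    refine ((((hasDerivAt_id ρ).sub_const s).mul_const (v 1)).const_add x.2).congr_deriv ?_
    simp
  refine ((hasDerivAt_inv hρ).fun_mul h1).congr_deriv ?_
  field_simp
  ring

theorem cd_zF_fst (hs : 0 < s) (hsr : s ≤ r) :
    ContDiffOn ℝ 1 (fun ρ => (zF s x v ρ).1) (uIcc s r) := by
  have e : (fun ρ => (zF s x v ρ).1) = fun ρ => ρ⁻¹ * (x.1 + (ρ - s) * v 0) := by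
    ext ρ; rw [zF_fst]
  rw [e, uIcc_of_le hsr]
  refine ContDiffOn.mul (contDiffOn_id.inv fun y hy => (hs.trans_le hy.1).ne') ?_
  exact ContDiff.contDiffOn (by fun_prop)

theorem cd_zF_snd (hs : 0 < s) (hsr : s ≤ r) :
    ContDiffOn ℝ 1 (fun ρ => (zF s x v ρ).2) (uIcc s r) := by
  have e : (fun ρ => (zF s x v ρ).2) = fun ρ => ρ⁻¹ * (x.2 + (ρ - s) * v 1) := by
    ext ρ; rw [zF_snd]
  rw [e, uIcc_of_le hsr]
  refine ContDiffOn.mul (contDiffOn_id.inv fun y hy => (hs.trans_le hy.1).ne') ?_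
  exact ContDiff.contDiffOn (by fun_prop)

/-! ### the tent along a flight -/

theorem fr_zero (y : ℝ) (v : R3) : fr y v 0 = v 0 := by simp [fr]
theorem fr_one (y : ℝ) (v : R3) : fr y v 1 = v 1 - y := by simp [fr]
theorem fr_two (y : ℝ) (v : R3) : fr y v 2 = v 2 := by simp [fr]

theorem norm_fr_sq (y : ℝ) (v : R3) : ‖fr y v‖ ^ 2 = v 0 ^ 2 + (v 1 - y) ^ 2 + v 2 ^ 2 := by
  rw [EuclideanSpace.norm_sq_eq, Fin.sum_univ_three]
  simp only [Real.norm_eq_abs, sq_abs, fr_zero, fr_one, fr_two]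

/-- `m = (1+A) z₂ + q₁` along the flight -/
def mTent (A s : ℝ) (x : P2) (v : R3) (ρ : ℝ) : ℝ :=
  (1 + A) * (zF s x v ρ).2 + fr (zF s x v ρ).2 v 1

theorem hasDerivAt_mTent (A : ℝ) (hρ : ρ ≠ 0) :
    HasDerivAt (mTent A s x v) (ρ⁻¹ * (A * fr (zF s x v ρ).2 v 1)) ρ := by
  have e : mTent A s x v = fun ρ => (1 + A) * (zF s x v ρ).2 + (v 1 - (zF s x v ρ).2) := by
    ext ρ; rw [mTent, fr_one]
  rw [e, fr_one]
  have h := hasDerivAt_zF_snd (s := s) (x := x) (v := v) hρ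
  refine ((h.const_mul (1 + A)).add (h.const_sub (v 1))).congr_deriv ?_
  ring

theorem hasDerivAt_normsq (hρ : ρ ≠ 0) :
    HasDerivAt (fun ρ => ‖fr (zF s x v ρ).2 v‖ ^ 2)
      (-(ρ⁻¹ * (2 * fr (zF s x v ρ).2 v 1 ^ 2))) ρ := by
  have e : (fun ρ => ‖fr (zF s x v ρ).2 v‖ ^ 2) =
      fun ρ => v 0 ^ 2 + (v 1 - (zF s x v ρ).2) ^ 2 + v 2 ^ 2 := by
    ext ρ; rw [norm_fr_sq]
  rw [e, fr_one]
  have h := hasDerivAt_zF_snd (s := s) (x := x) (v := v) hρ
  refine ((((h.const_sub (v 1)).fun_pow 2).const_add (v 0 ^ 2)).add_const (v 2 ^ 2)).congr_deriv ?_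
  norm_num
  ring

/-- the tent along the flight -/
def FT (X : XP) (s : ℝ) (x : P2) (v : R3) (ρ : ℝ) : ℝ :=
  tent X.A X.Yp X.e (zF s x v ρ).2 (fr (zF s x v ρ).2 v)

theorem FT_eq (X : XP) (s : ℝ) (x : P2) (v : R3) :
    FT X s x v = fun ρ => (1 + X.A) * X.Yp - |mTent X.A s x v ρ| -
      X.e * ‖fr (zF s x v ρ).2 v‖ ^ 2 := by
  ext ρ; rfl

theorem ac_mTent (A : ℝ) (hs : 0 < s) (hsr : s ≤ r) :
    AbsolutelyContinuousOnInterval (mTent A s x v) s r := by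
  have e : mTent A s x v = fun ρ => (1 + A) * (zF s x v ρ).2 + (v 1 - (zF s x v ρ).2) := by
    ext ρ; rw [mTent, fr_one]
  rw [e]
  apply ContDiffOn.absolutelyContinuousOnInterval
  have h := cd_zF_snd (x := x) (v := v) hs hsr
  exact (contDiffOn_const.mul h).add (contDiffOn_const.sub h)

theorem ac_FT (X : XP) (hs : 0 < s) (hsr : s ≤ r) :
    AbsolutelyContinuousOnInterval (FT X s x v) s r := by
  rw [FT_eq]
  have h1 : AbsolutelyContinuousOnInterval (fun ρ => X.e * ‖fr (zF s x v ρ).2 v‖ ^ 2) s r := by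
    have e : (fun ρ => X.e * ‖fr (zF s x v ρ).2 v‖ ^ 2) =
        fun ρ => X.e * (v 0 ^ 2 + (v 1 - (zF s x v ρ).2) ^ 2 + v 2 ^ 2) := by
      ext ρ; rw [norm_fr_sq]
    rw [e]
    apply ContDiffOn.absolutelyContinuousOnInterval
    have h := cd_zF_snd (x := x) (v := v) hs hsr
    exact contDiffOn_const.mul
      ((contDiffOn_const.add ((contDiffOn_const.sub h).pow 2)).add contDiffOn_const)
  exact ((ac_const _ s r).sub (ac_abs (ac_mTent X.A hs hsr))).sub h1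

theorem hasDerivAt_FT (X : XP) (hρ : ρ ≠ 0)
    (hd : DifferentiableAt ℝ (fun ρ => |mTent X.A s x v ρ|) ρ) :
    HasDerivAt (FT X s x v) (ρ⁻¹ * (-sg ((1 + X.A) * (zF s x v ρ).2 + fr (zF s x v ρ).2 v 1) *
      X.A * (fr (zF s x v ρ).2 v 1) + 2 * X.e * (fr (zF s x v ρ).2 v 1) ^ 2)) ρ := by
  rw [FT_eq]
  have h1 := deriv_abs_of_diff (hasDerivAt_mTent (s := s) (x := x) (v := v) X.A hρ) hd
  have h2 := (hasDerivAt_normsq (s := s) (x := x) (v := v) hρ).const_mul X.e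
  refine ((h1.const_sub ((1 + X.A) * X.Yp)).sub h2).congr_deriv ?_
  unfold mTent
  ring

/-! ### the cut-off `cutB` -/

theorem hasDerivAt_max0_sq (u : ℝ) : HasDerivAt (fun y : ℝ => (max 0 y) ^ 2) (2 * max 0 u) u := by
  have h := Crest.Agent.R68.X.hasDerivAt_sqpos 0 u
  simp only [sub_zero] at h
  have e : (fun y : ℝ => (max 0 y) ^ 2) = fun y : ℝ => (max y 0) ^ 2 := by
    ext y; rw [max_comm]
  rw [e, max_comm]
  exact h

theorem hasDerivAt_cutB (B : ℝ) (hρ : ρ ≠ 0) :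
    HasDerivAt (fun ρ => cutB B (zF s x v ρ).1)
      (ρ⁻¹ * (2 * max 0 (1 - (zF s x v ρ).1 ^ 2 / B ^ 2) *
        (-(2 * (zF s x v ρ).1 * (v 0 - (zF s x v ρ).1) / B ^ 2)))) ρ := by
  have h := hasDerivAt_zF_fst (s := s) (x := x) (v := v) hρ
  have h1 : HasDerivAt (fun ρ => 1 - (zF s x v ρ).1 ^ 2 / B ^ 2)
      (-(2 * (zF s x v ρ).1 * (ρ⁻¹ * (v 0 - (zF s x v ρ).1)) / B ^ 2)) ρ := by
    refine (((h.fun_pow 2).div_const (B ^ 2)).const_sub 1).congr_deriv ?_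
    norm_num
  have h2 := (hasDerivAt_max0_sq (1 - (zF s x v ρ).1 ^ 2 / B ^ 2)).comp ρ h1
  refine h2.congr_deriv ?_
  ring

theorem ac_cutB (B : ℝ) (hs : 0 < s) (hsr : s ≤ r) :
    AbsolutelyContinuousOnInterval (fun ρ => cutB B (zF s x v ρ).1) s r := by
  have h := cd_zF_fst (x := x) (v := v) hs hsr
  have h1 : AbsolutelyContinuousOnInterval (fun ρ => 1 - (zF s x v ρ).1 ^ 2 / B ^ 2) s r := by
    apply ContDiffOn.absolutelyContinuousOnInterval
    exact contDiffOn_const.sub ((h.pow 2).div_const (B ^ 2))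
  have h2 := ac_max0 h1
  have e : (fun ρ => cutB B (zF s x v ρ).1) =
      (fun ρ => max 0 (1 - (zF s x v ρ).1 ^ 2 / B ^ 2)) *
        fun ρ => max 0 (1 - (zF s x v ρ).1 ^ 2 / B ^ 2) := by
    ext ρ; simp only [cutB, Pi.mul_apply, sq]
  rw [e]
  exact h2.mul h2

/-! ### `psi0` along a flight -/

theorem psi0_flight_eq (X : XP) (s : ℝ) (x : P2) (v : R3) (ρ : ℝ) :
    psi0 X ρ (x + (ρ - s) • bar v) v =
      max 0 (FT X s x v ρ) * cutB X.B (zF s x v ρ).1 * lamd X.d (v 0) := rfl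

theorem ac_psi0 (X : XP) (hs : 0 < s) (hsr : s ≤ r) :
    AbsolutelyContinuousOnInterval (fun ρ => psi0 X ρ (x + (ρ - s) • bar v) v) s r := by
  have e : (fun ρ => psi0 X ρ (x + (ρ - s) • bar v) v) =
      ((fun ρ => max 0 (FT X s x v ρ)) * (fun ρ => cutB X.B (zF s x v ρ).1)) *
        (fun _ => lamd X.d (v 0)) := by
    ext ρ; rw [psi0_flight_eq]; rfl
  rw [e]
  exact ((ac_max0 (ac_FT X hs hsr)).mul (ac_cutB X.B hs hsr)).mul (ac_const _ s r)

theorem ae_deriv_psi0 (X : XP) (hs : 0 < s) (hsr : s ≤ r) :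
    ∀ᵐ ρ : ℝ, ρ ∈ uIcc s r →
      HasDerivAt (fun ρ => psi0 X ρ (x + (ρ - s) • bar v) v) (ρ⁻¹ * L0 X (zF s x v ρ) v) ρ := by
  filter_upwards [(ac_abs (ac_mTent (x := x) (v := v) X.A hs hsr)).ae_differentiableAt,
    (ac_max0 (ac_FT (x := x) (v := v) X hs hsr)).ae_differentiableAt] with ρ h1 h2 hρ
  have hρ0 : ρ ≠ 0 := by
    rw [uIcc_of_le hsr] at hρ
    exact (hs.trans_le hρ.1).ne'
  have e : (fun ρ => psi0 X ρ (x + (ρ - s) • bar v) v) =
      fun ρ => max 0 (FT X s x v ρ) * cutB X.B (zF s x v ρ).1 * lamd X.d (v 0) := by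
    ext ρ; rw [psi0_flight_eq]
  rw [e]
  have hc := hasDerivAt_cutB (s := s) (x := x) (v := v) X.B hρ0
  rcases le_or_gt (FT X s x v ρ) 0 with h | h
  · have h3 := hasDerivAt_max0_of_nonpos h (h2 hρ)
    refine ((h3.fun_mul hc).mul_const (lamd X.d (v 0))).congr_deriv ?_
    have h4 : L0 X (zF s x v ρ) v = 0 := by
      have h' : ¬ 0 < tent X.A X.Yp X.e (zF s x v ρ).2 (fr (zF s x v ρ).2 v) := not_lt.2 h
      unfold L0
      rw [if_neg h']
    rw [h4, max_eq_left h]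
    ring
  · have h3 := hasDerivAt_max0_of_pos h (hasDerivAt_FT X hρ0 (h1 hρ))
    refine ((h3.fun_mul hc).mul_const (lamd X.d (v 0))).congr_deriv ?_
    have h4 : L0 X (zF s x v ρ) v =
      ((-sg ((1 + X.A) * (zF s x v ρ).2 + fr (zF s x v ρ).2 v 1) * X.A * (fr (zF s x v ρ).2 v 1)
          + 2 * X.e * (fr (zF s x v ρ).2 v 1) ^ 2) * cutB X.B (zF s x v ρ).1
        + FT X s x v ρ *
          (2 * max 0 (1 - (zF s x v ρ).1 ^ 2 / X.B ^ 2) *
            (-(2 * (zF s x v ρ).1 * (v 0 - (zF s x v ρ).1) / X.B ^ 2)))) * lamd X.d (v 0) := by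
      have h' : 0 < tent X.A X.Yp X.e (zF s x v ρ).2 (fr (zF s x v ρ).2 v) := h
      unfold L0
      rw [if_pos h']
      rfl
    rw [h4, max_eq_right h.le]
    ring

/-- the increment of `psi0` along a flight -/
theorem psi0_flight (X : XP) (hs : 0 < s) (hsr : s ≤ r) :
    IntervalIntegrable (fun ρ => ρ⁻¹ * L0 X (zF s x v ρ) v) volume s r ∧
    ∫ ρ in s..r, ρ⁻¹ * L0 X (zF s x v ρ) v =
      psi0 X r (x + (r - s) • bar v) v - psi0 X s x v := by
  have h := ac_psi0 (x := x) (v := v) X hs hsr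
  have hae : ∀ᵐ ρ : ℝ, ρ ∈ uIoc s r →
      deriv (fun ρ => psi0 X ρ (x + (ρ - s) • bar v) v) ρ = ρ⁻¹ * L0 X (zF s x v ρ) v := by
    filter_upwards [ae_deriv_psi0 (x := x) (v := v) X hs hsr] with ρ h1 hρ
    exact (h1 (uIoc_subset_uIcc hρ)).deriv
  refine ⟨h.intervalIntegrable_deriv.congr_ae ?_, ?_⟩
  · rw [EventuallyEq, ae_restrict_iff' measurableSet_uIoc]
    exact hae
  · rw [← intervalIntegral.integral_congr_ae hae, h.integral_deriv_eq_sub]
    simp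

end Crest.Agent.R68.X2.Fl
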