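import Mathlib
import Crest.Agent.R68.X2Fl1

/-!
# Row 68, PART X2 (helper180): the corrector along flights (file 2)
-/

set_option autoImplicit false
open MeasureTheory Set Filter
open scoped ENNReal NNReal Real Topology
open Crest.AnalysisR.VecCalc3 Crest.AnalysisR.PDE.Boltzmann

noncomputable section

namespace Crest.Agent.R68.X2.Fl

variable {s r : ℝ} {x : P2} {v : R3} {ρ ρ' : ℝ}

/-! ### elementary Lipschitz bounds -/

theorem norm_bar_le180 (v : R3) : ‖bar v‖ ≤ ‖v‖ := by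
  rw [bar, Prod.norm_def]
  exact max_le (PiLp.norm_apply_le v 0) (PiLp.norm_apply_le v 1)

theorem ramp_nonneg (a : ℝ) : 0 ≤ ramp a := le_max_left _ _
theorem ramp_le_one (a : ℝ) : ramp a ≤ 1 := max_le zero_le_one (min_le_left _ _)
theorem abs_ramp_le (a : ℝ) : |ramp a| ≤ 1 := by
  rw [abs_of_nonneg (ramp_nonneg a)]; exact ramp_le_one a
theorem ramp_eq_zero {a : ℝ} (h : 2 ≤ a) : ramp a = 0 := by
  unfold ramp
  apply max_eq_left
  exact (min_le_right _ _).trans (by linarith)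

theorem abs_ramp_sub (a b : ℝ) : |ramp a - ramp b| ≤ |a - b| := by
  unfold ramp
  rw [max_comm 0 _, max_comm 0 _, min_comm 1 _, min_comm 1 _]
  refine (abs_max_sub_max_le_abs _ _ _).trans ?_
  refine (abs_min_sub_min_le_max _ _ _ _).trans ?_
  rw [sub_self, abs_zero, max_eq_left (abs_nonneg _)]
  rw [show (2 - a) - (2 - b) = b - a by ring, abs_sub_comm]

theorem lamd_nonneg (d a : ℝ) : 0 ≤ lamd d a := le_max_left _ _
theorem lamd_le_one (d a : ℝ) : lamd d a ≤ 1 := max_le zero_le_one (min_le_left _ _)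
theorem lamd_eq_zero {d a : ℝ} (hd : 0 < d) (h : |a| ≤ d) : lamd d a = 0 := by
  unfold lamd
  apply max_eq_left
  refine (min_le_right _ _).trans ?_
  have : |a| / d ≤ 1 := (div_le_one hd).2 h
  linarith

theorem abs_ky_le180 (P : Par) (y : ℝ) : |ky P y| ≤ 1 := by
  rw [abs_of_nonneg (le_max_left _ _)]
  exact max_le zero_le_one (min_le_left _ _)

theorem abs_ky_sub180 {P : Par} (hey : 0 < P.ey) (y y' : ℝ) : |ky P y - ky P y'| ≤ |y - y'| / P.ey := by
  unfold ky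
  rw [max_comm 0 _, max_comm 0 _, min_comm 1 _, min_comm 1 _]
  refine (abs_max_sub_max_le_abs _ _ _).trans ?_
  refine (abs_min_sub_min_le_max _ _ _ _).trans ?_
  rw [sub_self, abs_zero, max_eq_left (abs_nonneg _)]
  rw [← sub_div, abs_div, abs_of_pos hey]
  apply div_le_div_of_nonneg_right _ hey.le
  rw [show P.Y - |y| - (P.Y - |y'|) = |y'| - |y| by ring]
  refine (abs_abs_sub_abs_le _ _).trans ?_
  rw [abs_sub_comm]

/-! ### functions of the self-similar position along a flight -/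

/-- bounded Lipschitz function on the plane with support in a ball -/
structure BL (g : P2 → ℝ) (Cb CL R : ℝ) : Prop where
  b : ∀ z, |g z| ≤ Cb
  l : ∀ z z', |g z - g z'| ≤ CL * ‖z - z'‖
  z : ∀ z, R ≤ ‖z‖ → g z = 0

theorem BL.Cb0 {g : P2 → ℝ} {Cb CL R : ℝ} (h : BL g Cb CL R) : 0 ≤ Cb := (abs_nonneg _).trans (h.b 0)

theorem BL.CL0 {g : P2 → ℝ} {Cb CL R : ℝ} (h : BL g Cb CL R) : 0 ≤ CL := by
  have h1 := (abs_nonneg _).trans (h.l (1, 0) (0, 0))
  have h2 : ‖((1 : ℝ), (0 : ℝ)) - (0, 0)‖ = 1 := by simp [Prod.norm_def]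
  rw [h2, mul_one] at h1
  exact h1

theorem BL.cont {g : P2 → ℝ} {Cb CL R : ℝ} (h : BL g Cb CL R) : Continuous g := by
  have : LipschitzWith CL.toNNReal g := by
    refine LipschitzWith.of_dist_le_mul fun a b => ?_
    rw [Real.coe_toNNReal _ h.CL0, Real.dist_eq, dist_eq_norm]
    exact h.l a b
  exact this.continuous

theorem prod_BL {a w : P2 → ℝ} {R A1 W0 W1 : ℝ} (ha : ∀ z, |a z| ≤ 1)
    (haL : ∀ z z', |a z - a z'| ≤ A1 * ‖z - z'‖) (ha0 : ∀ z, R ≤ ‖z‖ → a z = 0)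
    (hW0 : 0 ≤ W0) (hW1 : 0 ≤ W1) (hA1 : 0 ≤ A1)
    (hw : ∀ z, ‖z‖ ≤ R → |w z| ≤ W0)
    (hwL : ∀ z z', ‖z‖ ≤ R → ‖z'‖ ≤ R → |w z - w z'| ≤ W1 * ‖z - z'‖) :
    BL (fun z => a z * w z) W0 (A1 * W0 + W1) R where
  b := fun z => by
    rcases le_or_gt R ‖z‖ with h | h
    · rw [ha0 z h, zero_mul, abs_zero]; exact hW0
    · rw [abs_mul]
      calc |a z| * |w z| ≤ 1 * W0 := mul_le_mul (ha z) (hw z h.le) (abs_nonneg _) zero_le_one
        _ = W0 := one_mul _
  l := by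
    have key : ∀ z z', ‖z‖ < R → |a z * w z - a z' * w z'| ≤ (A1 * W0 + W1) * ‖z - z'‖ := by
      intro z z' h
      have h1 : a z * w z - a z' * w z' = (a z - a z') * w z + a z' * (w z - w z') := by ring
      rw [h1]
      refine (abs_add_le _ _).trans ?_
      rw [abs_mul, abs_mul, add_mul]
      apply add_le_add
      · calc |a z - a z'| * |w z| ≤ (A1 * ‖z - z'‖) * W0 :=
              mul_le_mul (haL z z') (hw z h.le) (abs_nonneg _) (by positivity)
          _ = A1 * W0 * ‖z - z'‖ := by ring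
      · rcases le_or_gt R ‖z'‖ with h' | h'
        · rw [ha0 z' h', abs_zero, zero_mul]; positivity
        · calc |a z'| * |w z - w z'| ≤ 1 * (W1 * ‖z - z'‖) :=
                mul_le_mul (ha z') (hwL z z' h.le h'.le) (abs_nonneg _) zero_le_one
            _ = W1 * ‖z - z'‖ := one_mul _
    intro z z'
    rcases le_or_gt R ‖z‖ with h | h
    · rcases le_or_gt R ‖z'‖ with h' | h'
      · simp only [ha0 z h, ha0 z' h', zero_mul, sub_self, abs_zero]
        positivity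
      · have := key z' z h'
        rw [abs_sub_comm, norm_sub_rev] at this
        exact this
    · exact key z z' h
  z := fun z h => by simp only [ha0 z h, zero_mul]

theorem BL.flight {g : P2 → ℝ} {Cb CL R V : ℝ} (h : BL g Cb CL R) (hR : 0 ≤ R) (hv : ‖v‖ ≤ V)
    (hρ : 0 < ρ) (hρ' : 0 < ρ') :
    |g (zF s x v ρ) - g (zF s x v ρ')| ≤ CL * (V + R) * (|ρ - ρ'| / min ρ ρ') := by
  have hV : 0 ≤ V := (norm_nonneg v).trans hv
  have hCL := h.CL0
  have hmin : 0 < min ρ ρ' := lt_min hρ hρ'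
  have key : ∀ a b : ℝ, 0 < a → 0 < b → min ρ ρ' ≤ b → |a - b| = |ρ - ρ'| → ‖zF s x v a‖ < R →
      CL * ‖zF s x v a - zF s x v b‖ ≤ CL * (V + R) * (|ρ - ρ'| / min ρ ρ') := by
    intro a b ha hb hm hab hz
    rw [norm_zF_sub ha hb, hab]
    have h1 : ‖bar v - zF s x v a‖ ≤ V + R :=
      (norm_sub_le _ _).trans (add_le_add ((norm_bar_le180 v).trans hv) hz.le)
    have h2 : |ρ - ρ'| / b ≤ |ρ - ρ'| / min ρ ρ' :=
      div_le_div_of_nonneg_left (abs_nonneg _) hmin hm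
    calc CL * (|ρ - ρ'| / b * ‖bar v - zF s x v a‖)
        ≤ CL * (|ρ - ρ'| / min ρ ρ' * (V + R)) := by
          apply mul_le_mul_of_nonneg_left _ hCL
          exact mul_le_mul h2 h1 (norm_nonneg _) (by positivity)
      _ = _ := by ring
  rcases le_or_gt R ‖zF s x v ρ‖ with h1 | h1
  · rcases le_or_gt R ‖zF s x v ρ'‖ with h2 | h2
    · rw [h.z _ h1, h.z _ h2, sub_self, abs_zero]
      positivity
    · refine (h.l _ _).trans ?_
      rw [norm_sub_rev]
      exact key ρ' ρ hρ' hρ (min_le_left _ _) (abs_sub_comm _ _) h2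
  · exact (h.l _ _).trans (key ρ ρ' hρ hρ' (min_le_right _ _) rfl h1)

theorem continuousAt_zF (hρ : ρ ≠ 0) : ContinuousAt (zF s x v) ρ := by
  have h1 := (hasDerivAt_zF_fst (s := s) (x := x) (v := v) hρ).continuousAt
  have h2 := (hasDerivAt_zF_snd (s := s) (x := x) (v := v) hρ).continuousAt
  exact h1.prodMk h2

theorem BL.ac {g : P2 → ℝ} {Cb CL R : ℝ} (h : BL g Cb CL R) (hR : 0 ≤ R) (hs : 0 < s)
    (hsr : s ≤ r) : AbsolutelyContinuousOnInterval (fun ρ => g (zF s x v ρ)) s r := by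
  have hCL := h.CL0
  have hC : 0 ≤ CL * (‖v‖ + R) / s := by positivity
  have hL : LipschitzOnWith (CL * (‖v‖ + R) / s).toNNReal (fun ρ => g (zF s x v ρ)) (uIcc s r) := by
    rw [uIcc_of_le hsr]
    refine LipschitzOnWith.of_dist_le_mul fun a ha b hb => ?_
    rw [Real.coe_toNNReal _ hC, Real.dist_eq, Real.dist_eq]
    have ha0 : 0 < a := hs.trans_le ha.1
    have hb0 : 0 < b := hs.trans_le hb.1
    refine (h.flight hR le_rfl ha0 hb0).trans ?_
    have h1 : |a - b| / min a b ≤ |a - b| / s :=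
      div_le_div_of_nonneg_left (abs_nonneg _) hs (le_min ha.1 hb.1)
    calc CL * (‖v‖ + R) * (|a - b| / min a b) ≤ CL * (‖v‖ + R) * (|a - b| / s) :=
          mul_le_mul_of_nonneg_left h1 (by positivity)
      _ = _ := by ring
  exact hL.absolutelyContinuousOnInterval

theorem BL.deriv_le {g : P2 → ℝ} {Cb CL R V : ℝ} (h : BL g Cb CL R) (hR : 0 ≤ R) (hv : ‖v‖ ≤ V)
    (hρ : 0 < ρ) : |deriv (fun ρ => g (zF s x v ρ)) ρ| ≤ 2 * CL * (V + R) / ρ := by
  have hV : 0 ≤ V := (norm_nonneg v).trans hv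
  have hCL := h.CL0
  have h0 : 0 ≤ 2 * CL * (V + R) / ρ := by positivity
  rw [← Real.norm_eq_abs]
  apply norm_deriv_le_of_lip' h0
  have hn : ∀ᶠ a in 𝓝 ρ, ρ / 2 < a := eventually_gt_nhds (by linarith)
  filter_upwards [hn] with a ha
  have ha0 : 0 < a := by linarith
  rw [Real.norm_eq_abs, Real.norm_eq_abs]
  refine (h.flight hR hv ha0 hρ).trans ?_
  have h1 : |a - ρ| / min a ρ ≤ |a - ρ| / (ρ / 2) :=
    div_le_div_of_nonneg_left (abs_nonneg _) (by linarith) (le_min ha.le (by linarith))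
  calc CL * (V + R) * (|a - ρ| / min a ρ) ≤ CL * (V + R) * (|a - ρ| / (ρ / 2)) :=
        mul_le_mul_of_nonneg_left h1 (by positivity)
    _ = _ := by field_simp

theorem BL.deriv_zero {g : P2 → ℝ} {Cb CL R : ℝ} (h : BL g Cb CL R)
    (hρ : 0 < ρ) (hz : R < ‖zF s x v ρ‖) : deriv (fun ρ => g (zF s x v ρ)) ρ = 0 := by
  have h1 : (fun ρ => g (zF s x v ρ)) =ᶠ[𝓝 ρ] fun _ => (0 : ℝ) := by
    have h2 : ContinuousAt (fun ρ => ‖zF s x v ρ‖) ρ := (continuousAt_zF hρ.ne').norm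
    filter_upwards [h2.eventually_const_lt hz] with a ha
    exact h.z _ ha.le
  rw [h1.deriv_eq]
  simp

end Crest.Agent.R68.X2.Fl
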