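import Mathlib
import Crest.Agent.R68.X2Fl2
import Crest.Agent.R68.X2Gs

/-!
# Row 68, PART X2 (helper180): Lipschitz bounds of the oscillating part (file 3)
-/

set_option autoImplicit false
open MeasureTheory Set Filter
open scoped ENNReal NNReal Real Topology
open Crest.AnalysisR.VecCalc3 Crest.AnalysisR.PDE.Boltzmann

noncomputable section

namespace Crest.Agent.R68.X2.Fl

/-- what we use about `f0` -/
structure F0H (X : XP) (C : ℝ) : Prop where
  C1 : 1 ≤ C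
  n : ∀ z v, 0 ≤ f0 X z v
  b : ∀ z v, f0 X z v ≤ C
  l : ∀ z v z' v', |f0 X z v - f0 X z' v'| ≤ C * (‖z - z'‖ + ‖v - v'‖)

theorem F0H.abs {X : XP} {C : ℝ} (h : F0H X C) (z : P2) (v : R3) : |f0 X z v| ≤ C := by
  rw [abs_of_nonneg (h.n z v)]; exact h.b z v

theorem F0H.meas {X : XP} {C : ℝ} (h : F0H X C) (z : P2) : Measurable (f0 X z) := by
  have : LipschitzWith C.toNNReal (f0 X z) := by
    refine LipschitzWith.of_dist_le_mul fun a b => ?_
    rw [Real.coe_toNNReal _ (zero_le_one.trans h.C1), Real.dist_eq, dist_eq_norm]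
    simpa using h.l z a z b
  exact this.continuous.measurable

theorem norm_us_sub (y y' s : ℝ) : ‖us y s - us y' s‖ = |y - y'| := by
  have h : us y s - us y' s = !₂[0, y - y', 0] := by
    unfold us
    ext i
    fin_cases i <;> simp
  rw [h, EuclideanSpace.norm_eq, Fin.sum_univ_three]
  simp [Real.sqrt_sq_eq_abs]

theorem norm_us_le (y s : ℝ) (hs : |s| = 1) : ‖us y s‖ ≤ |y| + 1 := by
  have h : us y s = !₂[0, y, 0] + !₂[0, 0, s] := by
    unfold us
    ext i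
    fin_cases i <;> simp
  rw [h]
  refine (norm_add_le _ _).trans ?_
  rw [EuclideanSpace.norm_eq, EuclideanSpace.norm_eq, Fin.sum_univ_three, Fin.sum_univ_three]
  simp [Real.sqrt_sq_eq_abs, hs]

theorem abs_snd_le (z : P2) : |z.2| ≤ ‖z‖ := by
  rw [Prod.norm_def]; exact le_max_right _ _

theorem abs_fst_le (z : P2) : |z.1| ≤ ‖z‖ := by
  rw [Prod.norm_def]; exact le_max_left _ _

theorem abs_snd_sub_le (z z' : P2) : |z.2 - z'.2| ≤ ‖z - z'‖ := abs_snd_le (z - z')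

/-- the ideal collision term without the density -/
def W0 (X : XP) (d1 s : ℝ) (z : P2) (v : R3) : ℝ :=
  (1 - d1) * gsR (f0 X z) v (us z.2 s) - 2 * π * ‖v - us z.2 s‖ * f0 X z v

theorem ws_eq (X : XP) (d1 ρ s : ℝ) (z : P2) (v : R3) : ws X d1 ρ s z v = ρ * W0 X d1 s z v := rfl

variable {X : XP} {C d1 s : ℝ}

theorem norm_sub_us_le {D : ℝ} (hs : |s| = 1) {z : P2} {v : R3} (h : ‖v‖ + ‖z‖ + 1 ≤ D) :
    ‖v - us z.2 s‖ ≤ D := by
  refine (norm_sub_le _ _).trans ?_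
  have h1 := norm_us_le z.2 s hs
  have h2 := abs_snd_le z
  linarith

theorem W0_bound (hF : F0H X C) (hd0 : 0 < d1) (hd1 : d1 < 1) (hs : |s| = 1) {D : ℝ} {z : P2} {v : R3}
    (h : ‖v‖ + ‖z‖ + 1 ≤ D) : |W0 X d1 s z v| ≤ 6 * π * C * D := by
  have hC : 0 ≤ C := zero_le_one.trans hF.C1
  have hn := norm_sub_us_le hs h
  have hD : 0 ≤ D := (norm_nonneg _).trans hn
  have h1 : |gsR (f0 X z) v (us z.2 s)| ≤ 4 * π * D * C := by
    refine (abs_gsR_le (hF.meas z) (C := C) fun w _ => hF.abs z w).trans ?_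
    gcongr
  unfold W0
  refine (abs_sub _ _).trans ?_
  rw [abs_mul, abs_mul, abs_of_nonneg (by linarith : 0 ≤ 1 - d1),
    abs_of_nonneg (by positivity : 0 ≤ 2 * π * ‖v - us z.2 s‖)]
  have h2 : (1 - d1) * |gsR (f0 X z) v (us z.2 s)| ≤ 1 * (4 * π * D * C) :=
    mul_le_mul (by linarith) h1 (abs_nonneg _) zero_le_one
  have h3 : 2 * π * ‖v - us z.2 s‖ * |f0 X z v| ≤ 2 * π * D * C := by
    apply mul_le_mul _ (hF.abs z v) (abs_nonneg _) (by positivity)
    gcongr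
  calc _ ≤ 1 * (4 * π * D * C) + 2 * π * D * C := add_le_add h2 h3
    _ = _ := by ring

theorem W0_lip (hF : F0H X C) (hd0 : 0 < d1) (hd1 : d1 < 1) (hs : |s| = 1) {D : ℝ} (hD1 : 1 ≤ D)
    {z z' : P2} {v : R3} (h : ‖v‖ + ‖z‖ + 1 ≤ D) (h' : ‖v‖ + ‖z'‖ + 1 ≤ D) :
    |W0 X d1 s z v - W0 X d1 s z' v| ≤ 30 * π * C * D * ‖z - z'‖ := by
  have hC : 0 ≤ C := zero_le_one.trans hF.C1
  have hD : 0 ≤ D := zero_le_one.trans hD1
  have hn := norm_sub_us_le hs h
  have hn' := norm_sub_us_le hs h'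
  have hu : ‖us z.2 s - us z'.2 s‖ ≤ ‖z - z'‖ := by
    rw [norm_us_sub]; exact abs_snd_sub_le z z'
  set N := ‖z - z'‖ with hN
  have hN0 : 0 ≤ N := norm_nonneg _
  have h1 : |gsR (f0 X z) v (us z.2 s) - gsR (f0 X z') v (us z'.2 s)| ≤
      8 * π * C * N + 8 * π * D * (C * N + C * N) := by
    refine (gsR_lip (hF.meas z) (hF.meas z') (C := C) (L := C) (ε := C * N)
      (fun w => hF.abs z w) (fun w => hF.abs z' w)
      (fun w w' => by simpa using hF.l z w z w') (fun w => by simpa using hF.l z w z' w) v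
      (us z.2 s) (us z'.2 s)).trans ?_
    gcongr
  have h2 : |2 * π * ‖v - us z.2 s‖ * f0 X z v - 2 * π * ‖v - us z'.2 s‖ * f0 X z' v| ≤
      2 * π * (N * C + D * (C * N)) := by
    have e : 2 * π * ‖v - us z.2 s‖ * f0 X z v - 2 * π * ‖v - us z'.2 s‖ * f0 X z' v =
        2 * π * ((‖v - us z.2 s‖ - ‖v - us z'.2 s‖) * f0 X z v +
          ‖v - us z'.2 s‖ * (f0 X z v - f0 X z' v)) := by ring
    rw [e, abs_mul, abs_of_nonneg (by positivity : 0 ≤ 2 * π)]
    apply mul_le_mul_of_nonneg_left _ (by positivity)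
    refine (abs_add_le _ _).trans ?_
    rw [abs_mul, abs_mul]
    apply add_le_add
    · apply mul_le_mul _ (hF.abs z v) (abs_nonneg _) hN0
      refine (abs_norm_sub_norm_le _ _).trans ?_
      rw [show v - us z.2 s - (v - us z'.2 s) = -(us z.2 s - us z'.2 s) by abel, norm_neg]
      exact hu
    · rw [abs_of_nonneg (norm_nonneg _)]
      apply mul_le_mul hn' _ (abs_nonneg _) hD
      simpa using hF.l z v z' v
  have e : W0 X d1 s z v - W0 X d1 s z' v =
      (1 - d1) * (gsR (f0 X z) v (us z.2 s) - gsR (f0 X z') v (us z'.2 s)) -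
      (2 * π * ‖v - us z.2 s‖ * f0 X z v - 2 * π * ‖v - us z'.2 s‖ * f0 X z' v) := by
    unfold W0; ring
  rw [e]
  refine (abs_sub _ _).trans ?_
  rw [abs_mul, abs_of_nonneg (by linarith : 0 ≤ 1 - d1)]
  have h3 : (1 - d1) * |gsR (f0 X z) v (us z.2 s) - gsR (f0 X z') v (us z'.2 s)| ≤
      1 * (8 * π * C * N + 8 * π * D * (C * N + C * N)) :=
    mul_le_mul (by linarith) h1 (abs_nonneg _) zero_le_one
  have h4 : C * N * π ≤ C * N * π * D := le_mul_of_one_le_right (by positivity) hD1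
  calc _ ≤ 1 * (8 * π * C * N + 8 * π * D * (C * N + C * N)) + 2 * π * (N * C + D * (C * N)) :=
        add_le_add h3 h2
    _ = 10 * (C * N * π) + 18 * (C * N * π * D) := by ring
    _ ≤ 10 * (C * N * π * D) + 18 * (C * N * π * D) := by linarith
    _ ≤ 30 * (C * N * π * D) := by
        have : 0 ≤ C * N * π * D := by positivity
        linarith
    _ = _ := by ring

/-! ### the oscillating part -/

/-- `osc` without the factor `1/t` -/
def gW (X : XP) (P : Par) (d1 Zs Vs s : ℝ) (v : R3) (z : P2) : ℝ :=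
  th X Zs Vs z v * ws X d1 (P.K * ky P z.2) s z v

theorem osc_eq (X : XP) (P : Par) (d1 Zs Vs s t : ℝ) (x : P2) (v : R3) :
    osc X P d1 Zs Vs s t x v = t⁻¹ * gW X P d1 Zs Vs s v (t⁻¹ • x) := by
  unfold osc gW; ring

theorem th_eq_zero_v {Zs Vs : ℝ} (hVs : 0 < Vs) {v : R3} (hv : 2 * Vs ≤ ‖v‖) (z : P2) :
    th X Zs Vs z v = 0 := by
  unfold th
  rw [ramp_eq_zero ((le_div_iff₀ hVs).2 hv)]
  ring

theorem th_eq_zero_z {Zs Vs : ℝ} (hZs : 0 < Zs) {z : P2} (hz : 2 * Zs ≤ ‖z‖) (v : R3) :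
    th X Zs Vs z v = 0 := by
  unfold th
  rw [ramp_eq_zero ((le_div_iff₀ hZs).2 hz)]
  ring

theorem th_eq_zero_d {Zs Vs : ℝ} (hd : 0 < X.d) {v : R3} (hv : |v 0| ≤ X.d / 2) (z : P2) :
    th X Zs Vs z v = 0 := by
  unfold th
  rw [lamd_eq_zero (by positivity) hv]
  ring

theorem abs_th_le (Zs Vs : ℝ) (z : P2) (v : R3) : |th X Zs Vs z v| ≤ 1 := by
  unfold th
  rw [abs_of_nonneg (mul_nonneg (mul_nonneg (ramp_nonneg _) (ramp_nonneg _)) (lamd_nonneg _ _))]
  calc ramp (‖z‖ / Zs) * ramp (‖v‖ / Vs) * lamd (X.d / 2) (v 0) ≤ 1 * 1 * 1 := by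
        gcongr
        · exact lamd_nonneg _ _
        · exact ramp_nonneg _
        · exact ramp_le_one _
        · exact ramp_le_one _
        · exact lamd_le_one _ _
    _ = 1 := by norm_num

theorem th_lip {Zs Vs : ℝ} (hZs : 1 ≤ Zs) (z z' : P2) (v : R3) :
    |th X Zs Vs z v - th X Zs Vs z' v| ≤ 1 * ‖z - z'‖ := by
  have hZ0 : 0 < Zs := zero_lt_one.trans_le hZs
  have e : th X Zs Vs z v - th X Zs Vs z' v =
      (ramp (‖z‖ / Zs) - ramp (‖z'‖ / Zs)) * (ramp (‖v‖ / Vs) * lamd (X.d / 2) (v 0)) := by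
    unfold th; ring
  rw [e, abs_mul, one_mul]
  have h1 : |ramp (‖z‖ / Zs) - ramp (‖z'‖ / Zs)| ≤ ‖z - z'‖ := by
    refine (abs_ramp_sub _ _).trans ?_
    rw [← sub_div, abs_div, abs_of_pos hZ0]
    refine (div_le_self (abs_nonneg _) hZs).trans ?_
    exact abs_norm_sub_norm_le _ _
  have h2 : |ramp (‖v‖ / Vs) * lamd (X.d / 2) (v 0)| ≤ 1 := by
    rw [abs_of_nonneg (mul_nonneg (ramp_nonneg _) (lamd_nonneg _ _))]
    exact mul_le_one₀ (ramp_le_one _) (lamd_nonneg _ _) (lamd_le_one _ _)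
  calc _ ≤ ‖z - z'‖ * 1 := mul_le_mul h1 h2 (abs_nonneg _) (norm_nonneg _)
    _ = _ := mul_one _

/-- uniform constants -/
def CbW (P : Par) (C Zs Vs : ℝ) : ℝ := P.K * (6 * π * C * (2 * Vs + 2 * Zs + 1))
def ClW (P : Par) (C Zs Vs : ℝ) : ℝ :=
  1 * CbW P C Zs Vs + (P.K / P.ey * (6 * π * C * (2 * Vs + 2 * Zs + 1)) +
    P.K * (30 * π * C * (2 * Vs + 2 * Zs + 1)))

theorem BL_gW {P : Par} (hK : 0 ≤ P.K) (hey : 0 < P.ey) {Zs Vs : ℝ} (hZs : 1 ≤ Zs) (hVs : 1 ≤ Vs)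
    (hF : F0H X C) (hd0 : 0 < d1) (hd1 : d1 < 1) (hs : |s| = 1) (v : R3) :
    BL (gW X P d1 Zs Vs s v) (CbW P C Zs Vs) (ClW P C Zs Vs) (2 * Zs) := by
  have hC : 0 ≤ C := zero_le_one.trans hF.C1
  have hCb : 0 ≤ CbW P C Zs Vs := by unfold CbW; positivity
  have hW1 : 0 ≤ P.K / P.ey * (6 * π * C * (2 * Vs + 2 * Zs + 1)) +
    P.K * (30 * π * C * (2 * Vs + 2 * Zs + 1)) := by positivity
  rcases le_or_gt (2 * Vs) ‖v‖ with hv | hv
  · have h0 : gW X P d1 Zs Vs s v = fun _ => 0 := by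
      ext z
      unfold gW
      rw [th_eq_zero_v (by linarith) hv, zero_mul]
    rw [h0]
    refine ⟨fun z => by simpa using hCb, fun z z' => ?_, fun z _ => rfl⟩
    rw [sub_self, abs_zero]
    unfold ClW
    positivity
  · refine prod_BL (fun z => abs_th_le Zs Vs z v) (fun z z' => th_lip hZs z z' v)
      (fun z hz => th_eq_zero_z (by linarith) hz v) hCb hW1 zero_le_one ?_ ?_
    · intro z hz
      rw [ws_eq, abs_mul, abs_mul, abs_of_nonneg hK]
      unfold CbW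
      have h1 := W0_bound hF hd0 hd1 hs (D := 2 * Vs + 2 * Zs + 1) (z := z) (v := v) (by linarith)
      calc P.K * |ky P z.2| * |W0 X d1 s z v| ≤ P.K * 1 * (6 * π * C * (2 * Vs + 2 * Zs + 1)) := by
            gcongr
            exact abs_ky_le180 P _
        _ = _ := by ring
    · intro z z' hz hz'
      have e : ws X d1 (P.K * ky P z.2) s z v - ws X d1 (P.K * ky P z'.2) s z' v =
          P.K * ((ky P z.2 - ky P z'.2) * W0 X d1 s z v +
            ky P z'.2 * (W0 X d1 s z v - W0 X d1 s z' v)) := by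
        rw [ws_eq, ws_eq]; ring
      rw [e, abs_mul, abs_of_nonneg hK]
      have h1 := W0_bound hF hd0 hd1 hs (D := 2 * Vs + 2 * Zs + 1) (z := z) (v := v) (by linarith)
      have h2 := W0_lip hF hd0 hd1 hs (D := 2 * Vs + 2 * Zs + 1) (by linarith) (z := z) (z' := z')
        (v := v) (by linarith) (by linarith)
      have h3 : |ky P z.2 - ky P z'.2| ≤ ‖z - z'‖ / P.ey :=
        (abs_ky_sub180 hey _ _).trans (div_le_div_of_nonneg_right (abs_snd_sub_le z z') hey.le)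
      calc P.K * |(ky P z.2 - ky P z'.2) * W0 X d1 s z v +
            ky P z'.2 * (W0 X d1 s z v - W0 X d1 s z' v)|
          ≤ P.K * (‖z - z'‖ / P.ey * (6 * π * C * (2 * Vs + 2 * Zs + 1)) +
            1 * (30 * π * C * (2 * Vs + 2 * Zs + 1) * ‖z - z'‖)) := by
            apply mul_le_mul_of_nonneg_left _ hK
            refine (abs_add_le _ _).trans ?_
            rw [abs_mul, abs_mul]
            apply add_le_add
            · exact mul_le_mul h3 h1 (abs_nonneg _) (by positivity)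
            · exact mul_le_mul (abs_ky_le180 P _) h2 (abs_nonneg _) zero_le_one
        _ = _ := by ring

end Crest.Agent.R68.X2.Fl
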