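import Crest.Agent.R68.XDefs
import Crest.Agent.R68.FSum

/-!
# Row 68, PART X2: further definitions (copied verbatim from helper546's XIface v2 by helper211;
`XIface` itself must never be imported in proofs)
-/

set_option autoImplicit false
open MeasureTheory Set Filter
open scoped ENNReal Real Topology
open Crest.AnalysisR.VecCalc3 Crest.AnalysisR.PDE.Boltzmann

noncomputable section

namespace Crest.Agent.R68.X2

open Crest.Agent.R68.L (Den phiE Gf Dam TL sol)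
open Crest.Agent.R68.X (chs)
open Crest.Agent.R68.A (Meas3)

structure TentOK (N A Yp Y ey e : ℝ) : Prop where
  N1 : 100 ≤ N
  AN : A = 98 / 100 * N
  Ypd : Yp = Y - ey
  Y1 : 1 ≤ Y
  ey0 : 0 < ey
  eye : (1 + A) * ey ≤ e / 10
  e0 : 0 < e
  e1 : e ≤ 1 / 100000
  e2 : 600 / e ≤ (1 + A) * Yp

/- THE TENT INEQUALITY is `XTent.tent_sub` (helper150, R68/XTent2.lean), with
`2πκ = N`, `B = (1+A) Yp`; XTent.us s = us 0 s, XTent.gainT = gsR. -/

/-- transport gain: contraction of the velocity weight in the fan -/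
def kap1 (Y C2 gp : ℝ) : Den := fun t x v =>
  open scoped Classical in
  if distG x < 1 / 8 ∧ |Yc Y t x| < 2 * Y then
    ENNReal.ofReal (C2 * |fr (Yc Y t x) v 1| / t * Real.exp (gp * mm t x v ^ 2)) else 0

/-- transport gain: contraction in the far zone -/
def kap2 (Y C2 gp Z1 : ℝ) : Den := fun t x v =>
  open scoped Classical in
  if 2 * ‖v‖ ≤ distG x / t ∧ Z1 ≤ distG x / t then
    ENNReal.ofReal (gp / 2 * (distG x / t) ^ 2 / t * Om Y C2 gp t x v) else 0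

/-- standing assumptions for the corrected test function -/
structure LowOK (X : XP) (P : Par) (Y ey N d1 Zs Vs : ℝ) : Prop where
  ok : P.Ok
  YP : P.Y = Y
  eyP : P.ey = ey
  tent : TentOK N X.A X.Yp Y ey X.e
  B1 : 1 ≤ X.B
  d0 : 0 < X.d
  d10 : 0 < d1
  d11 : d1 < 1
  Zs1 : 1 ≤ Zs
  Vs1 : 1 ≤ Vs
  supp : ∀ z v, f0 X z v ≠ 0 → ‖z‖ ≤ Zs ∧ ‖v‖ ≤ Vs

/-- hypotheses on the hot density of a seed -/
structure SeedH (P : Par) (g1 g2 τ t0 : ℝ) (σ H : Den) : Prop where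
  ms : Meas3 σ
  mH : Meas3 H
  ps : ∀ t v, PerG (fun x => σ t x v)
  pH : ∀ t v, PerG (fun x => H t x v)
  eqn : ∀ t, 0 < t → t ≤ t0 → ∀ x v, H t x v = Dam (phiE P) (fun t x v => Gf (phiE P) H t x v + σ t x v) t x v
  zero : ∀ t, t ≤ τ → ∀ x v, H t x v = 0
  bdd : ∃ A : ℝ≥0∞, A ≠ ⊤ ∧ ∀ t, 0 < t → t ≤ t0 → ∀ x v, H t x v ≤ A * B2 P g1 g2 0 t x v
  sb : ∃ A : ℝ≥0∞, A ≠ ⊤ ∧ ∀ t, 0 < t → t ≤ t0 → ∀ x v, σ t x v ≤ A * B2 P g1 g2 0 t x v

/-- plane integral of a weight against a density -/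
def PW (W h : Den) (t : ℝ) : ℝ≥0∞ := ∫⁻ x, ∫⁻ v, W t x v * h t x v

end Crest.Agent.R68.X2
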