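import Mathlib
import Crest.Agent.R68.XDefs2
import Crest.Agent.R68.X2Fl3

/-!
# Row 68, PART X2 (helper180): size, support and Lipschitz bounds of `f0`
-/

set_option autoImplicit false
open MeasureTheory Set Filter
open scoped ENNReal NNReal Real Topology
open Crest.AnalysisR.VecCalc3 Crest.AnalysisR.PDE.Boltzmann

noncomputable section

namespace Crest.Agent.R68.X2.F0f

open Fl (norm_fr_sq fr_one abs_snd_le abs_fst_le abs_snd_sub_le lamd_nonneg lamd_le_one lamd_eq_zero)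

theorem abs_apply_le' (v : R3) (i : Fin 3) : |v i| ≤ ‖v‖ := PiLp.norm_apply_le v i

theorem norm_e1 (y : ℝ) : ‖(!₂[0, y, 0] : R3)‖ = |y| := by
  rw [EuclideanSpace.norm_eq, Fin.sum_univ_three]
  simp [Real.sqrt_sq_eq_abs]

theorem norm_fr_sub (y y' : ℝ) (v v' : R3) : ‖fr y v - fr y' v'‖ ≤ ‖v - v'‖ + |y - y'| := by
  have h : fr y v - fr y' v' = (v - v') - !₂[0, y - y', 0] := by
    unfold fr
    ext i
    fin_cases i
    · simp
    · simp; ring
    · simp
  rw [h]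
  refine (norm_sub_le _ _).trans ?_
  rw [norm_e1]

theorem norm_le_fr (y : ℝ) (v : R3) : ‖v‖ ≤ ‖fr y v‖ + |y| := by
  have h : v = fr y v + !₂[0, y, 0] := by unfold fr; abel
  calc ‖v‖ = ‖fr y v + !₂[0, y, 0]‖ := by rw [← h]
    _ ≤ ‖fr y v‖ + ‖(!₂[0, y, 0] : R3)‖ := norm_add_le _ _
    _ = _ := by rw [norm_e1]

variable {A Yp e : ℝ}

theorem abs_tent_sub (hA : 0 ≤ A) (he : 0 ≤ e) (y y' : ℝ) (v v' : R3) {Q : ℝ}
    (hq : ‖fr y v‖ ≤ Q) (hq' : ‖fr y' v'‖ ≤ Q + 1) :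
    |tent A Yp e y (fr y v) - tent A Yp e y' (fr y' v')| ≤
      (A + 1 + e * (2 * Q + 1)) * (‖v - v'‖ + |y - y'|) := by
  set δ := ‖v - v'‖ + |y - y'| with hδ
  have hδ0 : 0 ≤ δ := by positivity
  have h1 : |(|(1 + A) * y + fr y v 1| - |(1 + A) * y' + fr y' v' 1|)| ≤ (A + 1) * δ := by
    refine (abs_abs_sub_abs_le _ _).trans ?_
    rw [fr_one, fr_one]
    have e1 : (1 + A) * y + (v 1 - y) - ((1 + A) * y' + (v' 1 - y')) =
        A * (y - y') + (v 1 - v' 1) := by ring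
    rw [e1]
    refine (abs_add_le _ _).trans ?_
    rw [abs_mul, abs_of_nonneg hA]
    have h2 : |v 1 - v' 1| ≤ ‖v - v'‖ := abs_apply_le' (v - v') 1
    have h3 : 0 ≤ ‖v - v'‖ := norm_nonneg _
    have h4 : 0 ≤ |y - y'| := abs_nonneg _
    rw [hδ]
    nlinarith
  have h2 : |‖fr y v‖ ^ 2 - ‖fr y' v'‖ ^ 2| ≤ (2 * Q + 1) * δ := by
    have e2 : ‖fr y v‖ ^ 2 - ‖fr y' v'‖ ^ 2 = (‖fr y v‖ + ‖fr y' v'‖) * (‖fr y v‖ - ‖fr y' v'‖) := by
      ring
    rw [e2, abs_mul, abs_of_nonneg (by positivity)]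
    apply mul_le_mul (by linarith) _ (abs_nonneg _) (by
      have := norm_nonneg (fr y v); linarith)
    exact (abs_norm_sub_norm_le _ _).trans (norm_fr_sub y y' v v')
  have e3 : tent A Yp e y (fr y v) - tent A Yp e y' (fr y' v') =
      -(|(1 + A) * y + fr y v 1| - |(1 + A) * y' + fr y' v' 1|) -
        e * (‖fr y v‖ ^ 2 - ‖fr y' v'‖ ^ 2) := by
    unfold tent; ring
  rw [e3]
  refine (abs_sub _ _).trans ?_
  rw [abs_neg, abs_mul, abs_of_nonneg he]
  calc _ ≤ (A + 1) * δ + e * ((2 * Q + 1) * δ) :=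
        add_le_add h1 (mul_le_mul_of_nonneg_left h2 he)
    _ = _ := by ring

theorem tentp_nonneg (y : ℝ) (q : R3) : 0 ≤ tentp A Yp e y q := le_max_left _ _

theorem tentp_le (he : 0 ≤ e) (hB : 0 ≤ (1 + A) * Yp) (y : ℝ) (q : R3) :
    tentp A Yp e y q ≤ (1 + A) * Yp := by
  refine max_le hB ?_
  unfold tent
  have h1 : 0 ≤ |(1 + A) * y + q 1| := abs_nonneg _
  have h2 : 0 ≤ e * ‖q‖ ^ 2 := by positivity
  linarith

/-- where the tent is positive, the velocity is bounded -/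
theorem norm_le_of_tent (he : 0 < e) {Q : ℝ} (hQ0 : 0 ≤ Q) (hQ : (1 + A) * Yp ≤ e * Q ^ 2) {y : ℝ}
    {q : R3} (h : 0 < tent A Yp e y q) : ‖q‖ ≤ Q := by
  unfold tent at h
  have h1 : 0 ≤ |(1 + A) * y + q 1| := abs_nonneg _
  have h2 : e * ‖q‖ ^ 2 ≤ e * Q ^ 2 := by linarith
  have h3 : ‖q‖ ^ 2 ≤ Q ^ 2 := le_of_mul_le_mul_left h2 he
  exact le_of_sq_le_sq h3 hQ0

theorem abs_y_le_of_tent (hA : 0 ≤ A) (he : 0 < e) {Q : ℝ} (hQ0 : 0 ≤ Q)
    (hQ : (1 + A) * Yp ≤ e * Q ^ 2) {y : ℝ}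
    {q : R3} (h : 0 < tent A Yp e y q) : |y| ≤ (1 + A) * Yp + Q := by
  have hq := norm_le_of_tent he hQ0 hQ h
  unfold tent at h
  have h2 : 0 ≤ e * ‖q‖ ^ 2 := by positivity
  have h3 : |(1 + A) * y + q 1| ≤ (1 + A) * Yp := by linarith
  have h4 : |q 1| ≤ Q := (abs_apply_le' q 1).trans hq
  have h5 : |(1 + A) * y| ≤ (1 + A) * Yp + Q := by
    have e1 : (1 + A) * y = ((1 + A) * y + q 1) - q 1 := by ring
    rw [e1]
    exact (abs_sub _ _).trans (add_le_add h3 h4)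
  rw [abs_mul, abs_of_nonneg (by linarith : 0 ≤ 1 + A)] at h5
  have h6 : 0 ≤ A * |y| := by positivity
  nlinarith

theorem tentp_lip (hA : 0 ≤ A) (he : 0 < e) (hB : 0 ≤ (1 + A) * Yp) {Q : ℝ} (hQ0 : 0 ≤ Q)
    (hQ : (1 + A) * Yp ≤ e * Q ^ 2) (y y' : ℝ) (v v' : R3) :
    |tentp A Yp e y (fr y v) - tentp A Yp e y' (fr y' v')| ≤
      ((1 + A) * Yp + (A + 1 + e * (2 * Q + 1))) * (‖v - v'‖ + |y - y'|) := by
  have key : ∀ (y y' : ℝ) (v v' : R3), 0 < tent A Yp e y (fr y v) →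
      |tentp A Yp e y (fr y v) - tentp A Yp e y' (fr y' v')| ≤
        ((1 + A) * Yp + (A + 1 + e * (2 * Q + 1))) * (‖v - v'‖ + |y - y'|) := by
    intro y y' v v' h
    have hL : 0 ≤ A + 1 + e * (2 * Q + 1) := by positivity
    have hδ0 : 0 ≤ ‖v - v'‖ + |y - y'| := by positivity
    rcases le_or_gt 1 (‖v - v'‖ + |y - y'|) with h1 | h1
    · have h2 := tentp_le he.le hB y (fr y v)
      have h3 := tentp_le he.le hB y' (fr y' v')
      have h4 := tentp_nonneg (A := A) (Yp := Yp) (e := e) y (fr y v)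
      have h5 := tentp_nonneg (A := A) (Yp := Yp) (e := e) y' (fr y' v')
      have h6 : |tentp A Yp e y (fr y v) - tentp A Yp e y' (fr y' v')| ≤ (1 + A) * Yp := by
        rw [abs_le]; constructor <;> linarith
      nlinarith [mul_nonneg hL hδ0, mul_le_mul_of_nonneg_left h1 hB]
    · have hq := norm_le_of_tent he hQ0 hQ h
      have hq' : ‖fr y' v'‖ ≤ Q + 1 := by
        have h7 := norm_fr_sub y y' v v'
        have h8 : ‖fr y' v'‖ ≤ ‖fr y v‖ + ‖fr y v - fr y' v'‖ := by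
          have := norm_sub_norm_le (fr y' v') (fr y v)
          rw [norm_sub_rev] at this
          linarith
        linarith
      have h9 := abs_tent_sub (Yp := Yp) hA he.le y y' v v' hq hq'
      have h10 : |tentp A Yp e y (fr y v) - tentp A Yp e y' (fr y' v')| ≤
          |tent A Yp e y (fr y v) - tent A Yp e y' (fr y' v')| := by
        unfold tentp
        rw [max_comm 0 _, max_comm 0 _]
        exact abs_max_sub_max_le_abs _ _ _
      have h11 : 0 ≤ (1 + A) * Yp * (‖v - v'‖ + |y - y'|) := mul_nonneg hB hδ0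
      nlinarith
  rcases lt_or_ge 0 (tent A Yp e y (fr y v)) with h | h
  · exact key y y' v v' h
  rcases lt_or_ge 0 (tent A Yp e y' (fr y' v')) with h' | h'
  · have := key y' y v' v h'
    rw [abs_sub_comm, norm_sub_rev v' v, abs_sub_comm y' y] at this
    exact this
  · have h1 : tentp A Yp e y (fr y v) = 0 := max_eq_left h
    have h2 : tentp A Yp e y' (fr y' v') = 0 := max_eq_left h'
    rw [h1, h2, sub_self, abs_zero]
    positivity

/-! ### cut-offs -/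

theorem cutB_nonneg (B w : ℝ) : 0 ≤ cutB B w := sq_nonneg _

theorem g_le_one (B w : ℝ) : max 0 (1 - w ^ 2 / B ^ 2) ≤ 1 := by
  apply max_le zero_le_one
  have : 0 ≤ w ^ 2 / B ^ 2 := by positivity
  linarith

theorem cutB_le_one (B w : ℝ) : cutB B w ≤ 1 :=
  pow_le_one₀ (le_max_left _ _) (g_le_one B w)

theorem g_lip {B : ℝ} (hB : 1 ≤ B) (w w' : ℝ) :
    |max 0 (1 - w ^ 2 / B ^ 2) - max 0 (1 - w' ^ 2 / B ^ 2)| ≤ 2 * |w - w'| := by
  have hB0 : 0 < B := by linarith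
  have hB2 : 0 < B ^ 2 := by positivity
  have key : ∀ w w' : ℝ, |w| ≤ B → |w| ≤ |w'| →
      |max 0 (1 - w ^ 2 / B ^ 2) - max 0 (1 - w' ^ 2 / B ^ 2)| ≤ 2 * |w - w'| := by
    intro w w' h1 h2
    have hw2 : w ^ 2 ≤ B ^ 2 := by rw [← sq_abs w]; exact pow_le_pow_left₀ (abs_nonneg _) h1 2
    have hww : w ^ 2 ≤ w' ^ 2 := by
      rw [← sq_abs w, ← sq_abs w']; exact pow_le_pow_left₀ (abs_nonneg _) h2 2
    have h3 : 0 ≤ 1 - w ^ 2 / B ^ 2 := by
      rw [sub_nonneg, div_le_one hB2]; exact hw2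
    rw [max_eq_right h3]
    have h4 : 1 - w' ^ 2 / B ^ 2 ≤ 1 - w ^ 2 / B ^ 2 := by
      have : w ^ 2 / B ^ 2 ≤ w' ^ 2 / B ^ 2 := div_le_div_of_nonneg_right hww hB2.le
      linarith
    have h5 : max 0 (1 - w' ^ 2 / B ^ 2) ≤ 1 - w ^ 2 / B ^ 2 := max_le h3 h4
    rw [abs_of_nonneg (by linarith)]
    have h7 : |w'| - |w| ≤ |w - w'| := by
      have := abs_sub_abs_le_abs_sub w' w
      rwa [abs_sub_comm] at this
    rcases le_or_gt |w'| B with h6 | h6
    · -- both inside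
      have h8 : (1 - w ^ 2 / B ^ 2) - (1 - w' ^ 2 / B ^ 2) ≤ 2 * |w - w'| := by
        have e1 : (1 - w ^ 2 / B ^ 2) - (1 - w' ^ 2 / B ^ 2) = (|w'| - |w|) * (|w'| + |w|) / B ^ 2 := by
          rw [← sq_abs w, ← sq_abs w']; ring
        rw [e1, div_le_iff₀ hB2]
        have h9 : |w'| + |w| ≤ 2 * B := by linarith
        have h10 : 0 ≤ |w'| - |w| := by linarith
        have h11 : (|w'| - |w|) * (|w'| + |w|) ≤ |w - w'| * (2 * B) :=
          mul_le_mul h7 h9 (by positivity) (abs_nonneg _)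
        have h12 : |w - w'| * (2 * B) ≤ |w - w'| * (2 * B ^ 2) := by
          apply mul_le_mul_of_nonneg_left _ (abs_nonneg _)
          nlinarith
        linarith
      have := le_max_right 0 (1 - w' ^ 2 / B ^ 2)
      linarith
    · have h8 : 1 - w ^ 2 / B ^ 2 ≤ 2 * |w - w'| := by
        have e1 : 1 - w ^ 2 / B ^ 2 = (B - |w|) * (B + |w|) / B ^ 2 := by
          rw [← sq_abs w]; field_simp; ring
        rw [e1, div_le_iff₀ hB2]
        have h9 : B + |w| ≤ 2 * B := by linarith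
        have h10 : B - |w| ≤ |w - w'| := by linarith
        have h11 : (B - |w|) * (B + |w|) ≤ |w - w'| * (2 * B) :=
          mul_le_mul h10 h9 (by positivity) (abs_nonneg _)
        have h12 : |w - w'| * (2 * B) ≤ |w - w'| * (2 * B ^ 2) := by
          apply mul_le_mul_of_nonneg_left _ (abs_nonneg _)
          nlinarith
        linarith
      have := le_max_left 0 (1 - w' ^ 2 / B ^ 2)
      linarith
  rcases le_total |w| |w'| with h | h
  · rcases le_or_gt |w| B with h1 | h1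
    · exact key w w' h1 h
    · have z : ∀ u : ℝ, B < |u| → max 0 (1 - u ^ 2 / B ^ 2) = 0 := by
        intro u hu
        apply max_eq_left
        rw [sub_nonpos, one_le_div hB2, ← sq_abs u]
        exact pow_le_pow_left₀ hB0.le hu.le 2
      rw [z w h1, z w' (h1.trans_le h), sub_self, abs_zero]
      positivity
  · rcases le_or_gt |w'| B with h1 | h1
    · have := key w' w h1 h
      rwa [abs_sub_comm, abs_sub_comm w' w] at this
    · have z : ∀ u : ℝ, B < |u| → max 0 (1 - u ^ 2 / B ^ 2) = 0 := by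
        intro u hu
        apply max_eq_left
        rw [sub_nonpos, one_le_div hB2, ← sq_abs u]
        exact pow_le_pow_left₀ hB0.le hu.le 2
      rw [z w' h1, z w (h1.trans_le h), sub_self, abs_zero]
      positivity

theorem cutB_lip {B : ℝ} (hB : 1 ≤ B) (w w' : ℝ) : |cutB B w - cutB B w'| ≤ 4 * |w - w'| := by
  unfold cutB
  set a := max 0 (1 - w ^ 2 / B ^ 2)
  set b := max 0 (1 - w' ^ 2 / B ^ 2)
  have ha0 : 0 ≤ a := le_max_left _ _
  have hb0 : 0 ≤ b := le_max_left _ _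
  have ha1 : a ≤ 1 := g_le_one B w
  have hb1 : b ≤ 1 := g_le_one B w'
  have h := g_lip hB w w'
  have e1 : a ^ 2 - b ^ 2 = (a + b) * (a - b) := by ring
  rw [e1, abs_mul, abs_of_nonneg (by positivity)]
  have : (a + b) * |a - b| ≤ 2 * (2 * |w - w'|) :=
    mul_le_mul (by linarith) h (abs_nonneg _) (by norm_num)
  linarith

theorem lamd_lip {d : ℝ} (hd : 0 < d) (a b : ℝ) : |lamd d a - lamd d b| ≤ |a - b| / d := by
  unfold lamd
  rw [max_comm 0 _, max_comm 0 _, min_comm 1 _, min_comm 1 _]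
  refine (abs_max_sub_max_le_abs _ _ _).trans ?_
  refine (abs_min_sub_min_le_max _ _ _ _).trans ?_
  rw [sub_self, abs_zero, max_eq_left (abs_nonneg _)]
  have e1 : |a| / d - 1 - (|b| / d - 1) = (|a| - |b|) / d := by ring
  rw [e1, abs_div, abs_of_pos hd]
  exact div_le_div_of_nonneg_right (abs_abs_sub_abs_le _ _) hd.le

end Crest.Agent.R68.X2.F0f

namespace Crest.Agent.R68.X2

open F0f in
/-- size, support and Lipschitz bounds of `f0` -/
theorem f0_facts {N A Yp Y ey e : ℝ} (h : TentOK N A Yp Y ey e) (B d : ℝ) (hB : 1 ≤ B) (hd : 0 < d) :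
    ∃ C : ℝ, 1 ≤ C ∧ (∀ z v, 0 ≤ f0 ⟨A, Yp, e, B, d⟩ z v ∧ f0 ⟨A, Yp, e, B, d⟩ z v ≤ C) ∧
      (∀ z v, f0 ⟨A, Yp, e, B, d⟩ z v ≠ 0 → ‖z‖ ≤ C ∧ ‖v‖ ≤ C ∧ d ≤ |v 0|) ∧
      (∀ z v z' v', |f0 ⟨A, Yp, e, B, d⟩ z v - f0 ⟨A, Yp, e, B, d⟩ z' v'| ≤
        C * (‖z - z'‖ + ‖v - v'‖)) := by
  have hA : 0 ≤ A := by rw [h.AN]; have := h.N1; linarith
  have he := h.e0
  have hBY : 0 ≤ (1 + A) * Yp := le_trans (by positivity) h.e2
  obtain ⟨Q, hQ0, hQ⟩ : ∃ Q : ℝ, 0 ≤ Q ∧ (1 + A) * Yp ≤ e * Q ^ 2 := by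
    refine ⟨√((1 + A) * Yp / e), Real.sqrt_nonneg _, ?_⟩
    rw [Real.sq_sqrt (by positivity), mul_div_cancel₀ _ he.ne']
  set M := (1 + A) * Yp with hM
  set L := M + (A + 1 + e * (2 * Q + 1)) with hL
  have hL0 : 0 ≤ L := by positivity
  set C := 1 + M + Q + B + (M + Q) + L + 4 * M + M / d with hC
  have hMd : 0 ≤ M / d := by positivity
  refine ⟨C, by rw [hC]; linarith, ?_, ?_, ?_⟩
  · intro z v
    have t0 := tentp_nonneg (A := A) (Yp := Yp) (e := e) z.2 (fr z.2 v)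
    have t1 := tentp_le (A := A) (Yp := Yp) he.le hBY z.2 (fr z.2 v)
    have c0 := cutB_nonneg B z.1
    have c1 := cutB_le_one B z.1
    have l0 := Fl.lamd_nonneg d (v 0)
    have l1 := Fl.lamd_le_one d (v 0)
    constructor
    · exact mul_nonneg (mul_nonneg t0 c0) l0
    · have : f0 ⟨A, Yp, e, B, d⟩ z v ≤ M * 1 * 1 := by
        unfold f0
        simp only
        gcongr
      rw [hC]; linarith
  · intro z v hne
    have h1 : tentp A Yp e z.2 (fr z.2 v) ≠ 0 := fun h0 => hne (by unfold f0; simp only; rw [h0]; ring)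
    have h2 : cutB B z.1 ≠ 0 := fun h0 => hne (by unfold f0; simp only; rw [h0]; ring)
    have h3 : lamd d (v 0) ≠ 0 := fun h0 => hne (by unfold f0; simp only; rw [h0]; ring)
    have h4 : 0 < tent A Yp e z.2 (fr z.2 v) := by
      by_contra hc
      push Not at hc
      exact h1 (max_eq_left hc)
    have h5 : |z.1| ≤ B := by
      by_contra hc
      push Not at hc
      apply h2
      unfold cutB
      rw [max_eq_left]
      · ring
      · rw [sub_nonpos, one_le_div (by positivity), ← sq_abs z.1]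
        exact pow_le_pow_left₀ (by linarith) hc.le 2
    have h6 : |z.2| ≤ M + Q := abs_y_le_of_tent hA he hQ0 hQ h4
    have h7 := norm_le_of_tent he hQ0 hQ h4
    refine ⟨?_, ?_, ?_⟩
    · rw [Prod.norm_def]
      apply max_le
      · rw [Real.norm_eq_abs, hC]; linarith
      · rw [Real.norm_eq_abs, hC]; linarith
    · have := norm_le_fr z.2 v
      rw [hC]; linarith
    · by_contra hc
      push Not at hc
      exact h3 (Fl.lamd_eq_zero hd hc.le)
  · intro z v z' v'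
    set t := tentp A Yp e z.2 (fr z.2 v) with ht
    set t' := tentp A Yp e z'.2 (fr z'.2 v') with ht'
    set c := cutB B z.1 with hc
    set c' := cutB B z'.1 with hc'
    set l := lamd d (v 0) with hl
    set l' := lamd d (v' 0) with hl'
    have t0 : 0 ≤ t' := tentp_nonneg _ _
    have t1 : t' ≤ M := tentp_le he.le hBY _ _
    have c0 : 0 ≤ c := cutB_nonneg B z.1
    have c1 : c ≤ 1 := cutB_le_one B z.1
    have c0' : 0 ≤ c' := cutB_nonneg B z'.1
    have c1' : c' ≤ 1 := cutB_le_one B z'.1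
    have l0 : 0 ≤ l := Fl.lamd_nonneg d (v 0)
    have l1 : l ≤ 1 := Fl.lamd_le_one d (v 0)
    have dt : |t - t'| ≤ L * (‖v - v'‖ + |z.2 - z'.2|) := tentp_lip hA he hBY hQ0 hQ _ _ _ _
    have dc : |c - c'| ≤ 4 * |z.1 - z'.1| := cutB_lip hB _ _
    have dl : |l - l'| ≤ |v 0 - v' 0| / d := lamd_lip hd _ _
    have n1 : |z.1 - z'.1| ≤ ‖z - z'‖ := Fl.abs_fst_le (z - z')
    have n2 : |z.2 - z'.2| ≤ ‖z - z'‖ := Fl.abs_snd_le (z - z')
    have n3 : |v 0 - v' 0| ≤ ‖v - v'‖ := abs_apply_le' (v - v') 0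
    have nz : 0 ≤ ‖z - z'‖ := norm_nonneg _
    have nv : 0 ≤ ‖v - v'‖ := norm_nonneg _
    have e1 : f0 ⟨A, Yp, e, B, d⟩ z v - f0 ⟨A, Yp, e, B, d⟩ z' v' =
        (t - t') * (c * l) + t' * ((c - c') * l) + t' * (c' * (l - l')) := by
      show t * c * l - t' * c' * l' = _
      ring
    rw [e1]
    have b1 : |(t - t') * (c * l)| ≤ L * (‖z - z'‖ + ‖v - v'‖) := by
      rw [abs_mul, abs_of_nonneg (mul_nonneg c0 l0)]
      calc |t - t'| * (c * l) ≤ (L * (‖v - v'‖ + |z.2 - z'.2|)) * (1 * 1) := by gcongr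
        _ ≤ L * (‖z - z'‖ + ‖v - v'‖) := by
            rw [mul_one, mul_one]
            apply mul_le_mul_of_nonneg_left _ hL0
            linarith
    have b2 : |t' * ((c - c') * l)| ≤ 4 * M * (‖z - z'‖ + ‖v - v'‖) := by
      rw [abs_mul, abs_mul, abs_of_nonneg t0, abs_of_nonneg l0]
      calc t' * (|c - c'| * l) ≤ M * (4 * |z.1 - z'.1| * 1) := by gcongr
        _ = 4 * M * |z.1 - z'.1| := by ring
        _ ≤ 4 * M * (‖z - z'‖ + ‖v - v'‖) := by
            apply mul_le_mul_of_nonneg_left _ (by positivity)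
            linarith
    have b3 : |t' * (c' * (l - l'))| ≤ M / d * (‖z - z'‖ + ‖v - v'‖) := by
      rw [abs_mul, abs_mul, abs_of_nonneg t0, abs_of_nonneg c0']
      calc t' * (c' * |l - l'|) ≤ M * (1 * (|v 0 - v' 0| / d)) := by gcongr
        _ = M / d * |v 0 - v' 0| := by ring
        _ ≤ M / d * (‖z - z'‖ + ‖v - v'‖) := by
            apply mul_le_mul_of_nonneg_left _ hMd
            linarith
    have b4 : 0 ≤ (1 + M + Q + B + (M + Q)) * (‖z - z'‖ + ‖v - v'‖) := by positivity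
    calc _ ≤ |(t - t') * (c * l) + t' * ((c - c') * l)| + |t' * (c' * (l - l'))| := abs_add_le _ _
      _ ≤ |(t - t') * (c * l)| + |t' * ((c - c') * l)| + |t' * (c' * (l - l'))| := by
          have := abs_add_le ((t - t') * (c * l)) (t' * ((c - c') * l))
          linarith
      _ ≤ C * (‖z - z'‖ + ‖v - v'‖) := by
          rw [hC]
          have e2 : (1 + M + Q + B + (M + Q) + L + 4 * M + M / d) * (‖z - z'‖ + ‖v - v'‖) =
            (1 + M + Q + B + (M + Q)) * (‖z - z'‖ + ‖v - v'‖) + L * (‖z - z'‖ + ‖v - v'‖) +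
              4 * M * (‖z - z'‖ + ‖v - v'‖) + M / d * (‖z - z'‖ + ‖v - v'‖) := by ring
          rw [e2]
          linarith

end Crest.Agent.R68.X2
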