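import Crest.Agent.R68.XTent

/-!
# Row 68, PART X (helper150): the tent is a subsolution of the averaged generator
-/

set_option autoImplicit false
open MeasureTheory Set Metric
open scoped ENNReal Real
open Crest.AnalysisR.VecCalc3 Crest.AnalysisR.PDE.Boltzmann

noncomputable section

namespace Crest.Agent.R68.XTent

/-- numerical form of the tent inequality from a lower bound of the gain -/
theorem tent_of_real {κ A ε e F q2 Q d X G : ℝ} (hκ : 0 < κ) (hA : A = 98 / 100 * (2 * π * κ))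
    (hε : ε ≤ 1) (hX : 2 * π * κ * X ≤ G)
    (h : (1 - ε) * X - d * F - 98 / 100 * q2 ≥ 97 / 100 * F + e / 10 * (1 + Q ^ 2)) :
    (1 - ε) * G - 2 * π * κ * d * F - A * q2 ≥
      97 / 100 * (2 * π * κ) * F + e / 10 * (2 * π * κ) * (1 + Q ^ 2) := by
  have hN : 0 < 2 * π * κ := by positivity
  have h1 : (1 - ε) * (2 * π * κ * X) ≤ (1 - ε) * G := mul_le_mul_of_nonneg_left hX (by linarith)
  have h2 := mul_le_mul_of_nonneg_left h.le hN.le
  rw [hA]
  linarith

theorem kink_z {e B z q2 Q S V : ℝ} (he : 0 < e) (he1 : e ≤ 1 / 100000) (hB : 600 / e ≤ B)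
    (hQ : 0 ≤ Q) (hq : |q2| ≤ Q) (hS0 : 0 ≤ S) (hz : z = B - S + q2) (hV : S < V) (hVQ : V ≤ Q + 1)
    (hF : 0 ≤ B - S - e * Q ^ 2) : 5000 ≤ z ∧ 20 * Q ≤ z := by
  obtain ⟨h1, h2⟩ := abs_le.mp hq
  have hB1 : 600 ≤ B * e := by rwa [div_le_iff₀ he] at hB
  have hB2 : 60000000 ≤ B := by
    have : 600 ≤ B * (1 / 100000) := hB1.trans (mul_le_mul_of_nonneg_left he1 (by nlinarith))
    linarith
  have h3 : 20 * Q ≤ z := by
    by_contra hc
    push Not at hc
    have h4 : B < 22 * Q + 1 := by linarith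
    have h5 : e * Q ^ 2 ≤ 22 * Q + 1 := by linarith
    have h6 : 1 ≤ Q := by linarith
    have h7 : e * Q ≤ 23 := by nlinarith
    have h8 : B * e ≤ 23 * Q * e := mul_le_mul_of_nonneg_right (by linarith) he.le
    nlinarith
  refine ⟨?_, h3⟩
  rcases le_total 250 Q with h | h
  · linarith
  · linarith

/-- **tent inequality**, full density (`k = 1`) -/
theorem tent_one {B e A ε κ y sg : ℝ} {q : R3} (he : 0 < e) (he1 : e ≤ 1 / 100000) (hε : 0 ≤ ε)
    (hε1 : ε ≤ e / 10) (hκ : 0 < κ) (hA : A = 98 / 100 * (2 * π * κ)) (hB : 600 / e ≤ B)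
    (hsg : sg = 1 ∨ sg = -1) (hy : (1 + A) * |y| ≤ B + e / 10)
    (hx : 0 ≤ sg * ((1 + A) * y + q 1)) (hF : 0 ≤ tent B e A y q) :
    (1 - ε) * (κ / 2 * (gainT (tentp B e A y) q (us 1) + gainT (tentp B e A y) q (us (-1)))) -
        κ / 2 * (2 * π * (‖q - us 1‖ + ‖q - us (-1)‖)) * tent B e A y q - A * (sg * q 1) ≥
      97 / 100 * (2 * π * κ) * tent B e A y q + e / 10 * (2 * π * κ) * (1 + ‖q‖ ^ 2) := by
  obtain ⟨hs1, hs2, hs3, hs4, hs5⟩ := speeds q
  have hA0 : 0 < A := by rw [hA]; positivity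
  obtain ⟨z, hz⟩ : ∃ z, z = B - sg * ((1 + A) * y) := ⟨_, rfl⟩
  obtain ⟨F, hFd⟩ : ∃ F, F = tent B e A y q := ⟨_, rfl⟩
  have hF1 : F = z - sg * q 1 - e * ‖q‖ ^ 2 := by
    rw [hFd, hz]
    unfold tent
    have : |(1 + A) * y + q 1| = sg * ((1 + A) * y + q 1) := by
      rcases hsg with rfl | rfl
      · rw [abs_of_nonneg (by linarith)]; ring
      · rw [abs_of_nonpos (by linarith)]; ring
    rw [this]; ring
  have hF0 : 0 ≤ F := by rw [hFd]; exact hF
  have hzl : -(e / 10) ≤ z := by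
    have h1 : sg * ((1 + A) * y) ≤ (1 + A) * |y| := by
      rcases hsg with rfl | rfl
      · rw [one_mul]; exact mul_le_mul_of_nonneg_left (le_abs_self y) (by linarith)
      · have := mul_le_mul_of_nonneg_left (neg_le_abs y) (show 0 ≤ 1 + A by linarith)
        linarith
    rw [hz]; linarith
  have hq : |sg * q 1| ≤ ‖q‖ := by
    have : |sg * q 1| = |q 1| := by
      rcases hsg with rfl | rfl <;> simp
    rw [this]; exact abs_apply_le q 1
  set V1 := ‖q - us 1‖ with hV1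
  set V2 := ‖q - us (-1)‖ with hV2
  have hV1n : 0 ≤ V1 := norm_nonneg _
  have hV2n : 0 ≤ V2 := norm_nonneg _
  obtain ⟨d, hd⟩ : ∃ d, d = (V1 + V2) / 2 := ⟨_, rfl⟩
  have hd1 : 1 ≤ d := by rw [hd]; linarith
  have hdQ1 : ‖q‖ ≤ d := by rw [hd]; linarith
  have hdQ : d ^ 2 ≤ 1 + ‖q‖ ^ 2 := by
    rw [hd]; nlinarith [sq_nonneg (V1 - V2)]
  have hQ0 := norm_nonneg q
  have hcont := continuous_tentp B e A y
  have hloss : κ / 2 * (2 * π * (V1 + V2)) * F = 2 * π * κ * d * F := by rw [hd]; ring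
  rw [← hFd, hloss]
  by_cases hk : V1 ≤ sg * ((1 + A) * y + q 1) ∧ V2 ≤ sg * ((1 + A) * y + q 1)
  · -- no kink
    obtain ⟨hk1, hk2⟩ := hk
    have hG : ∀ c0 c2 : ℝ, (∀ s : R3, ‖s‖ = 1 → c0 + c2 * V1 * (s 1) ^ 2 ≤
        tentp B e A y (out1 q (us 1) s) + tentp B e A y (out2 q (us 1) s)) →
        (∀ s : R3, ‖s‖ = 1 → c0 + c2 * V2 * (s 1) ^ 2 ≤
        tentp B e A y (out1 q (us (-1)) s) + tentp B e A y (out2 q (us (-1)) s)) →
        2 * π * κ * (d * c0 + c2 * (‖q‖ ^ 2 + 1) / 3) ≤ κ / 2 * (gainT (tentp B e A y) q (us 1) +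
          gainT (tentp B e A y) q (us (-1))) := by
      intro c0 c2 h1 h2
      have g1 := le_gainT hcont q (us 1) h1
      have g2 := le_gainT hcont q (us (-1)) h2
      rw [← hV1] at g1
      rw [← hV2] at g2
      have g3 : 2 * π * κ * (d * c0 + c2 * (‖q‖ ^ 2 + 1) / 3) =
          κ / 2 * (2 * π * V1 * (c0 + c2 * V1 / 3) + 2 * π * V2 * (c0 + c2 * V2 / 3)) := by
        have : ‖q‖ ^ 2 + 1 = (V1 ^ 2 + V2 ^ 2) / 2 := by linarith
        rw [this, hd]; ring
      rw [g3]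
      exact mul_le_mul_of_nonneg_left (add_le_add g1 g2) (by positivity)
    by_cases hbig : 2 ≤ ‖q‖ ∨ 400 * e ≤ z ∨ 400 * e ≤ F
    · have hlin := hG (2 * z - sg * q 1 - e * (‖q‖ ^ 2 + 1)) 0
        (fun s hs => by
          have := sum_ge_lin (B := B) (e := e) (A := A) (y := y) (a := 1) hsg (by norm_num)
            (by rw [← hV1]; exact hk1) hs
          rw [hz]; linarith)
        (fun s hs => by
          have := sum_ge_lin (B := B) (e := e) (A := A) (y := y) (a := -1) hsg (by norm_num)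
            (by rw [← hV2]; exact hk2) hs
          rw [hz]; linarith)
      refine tent_of_real hκ hA (by linarith)
        (X := d * (2 * z - sg * q 1 - e * (‖q‖ ^ 2 + 1))) (by linarith) ?_
      rcases le_or_gt 2 ‖q‖ with h | h
      · exact real_big he he1 hε hε1 hd1 hdQ h hzl hq hF1 hF0
      · refine real_mid he he1 hε hε1 hd1 hdQ hQ0 h.le hzl hq hF1 hF0 ?_
        rcases hbig with h' | h'
        · exact absurd h' (not_le.mpr h)
        · exact h'
    · push Not at hbig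
      obtain ⟨hb1, hb2, hb3⟩ := hbig
      have hlin := hG (2 * z - sg * q 1 - e * (‖q‖ ^ 2 + 1) - |q 1| - 2 * |z|) (1 / 2)
        (fun s hs => by
          have := sum_ge_clip (B := B) (e := e) (A := A) (y := y) (a := 1) he.le hsg (by norm_num)
            hz (by rw [← hV1]; exact hk1) hs
          rw [← hV1] at this
          linarith)
        (fun s hs => by
          have := sum_ge_clip (B := B) (e := e) (A := A) (y := y) (a := -1) he.le hsg (by norm_num)
            hz (by rw [← hV2]; exact hk2) hs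
          rw [← hV2] at this
          linarith)
      have hq1 : |q 1| = |sg * q 1| := by
        rcases hsg with rfl | rfl <;> simp
      refine tent_of_real hκ hA (by linarith)
        (X := d * (2 * z - sg * q 1 - e * (‖q‖ ^ 2 + 1)) +
          ((‖q‖ ^ 2 + 1) / 6 - d * (|sg * q 1| + 2 * |z|))) ?_ ?_
      · rw [← hq1]; linarith
      · exact real_clip he he1 hε hε1 hd1 hdQ hQ0 hb1.le hzl hq hF1 hF0 hb2.le hb3.le rfl
  · -- kink
    have hV : ∃ V, sg * ((1 + A) * y + q 1) < V ∧ V ≤ ‖q‖ + 1 := by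
      by_cases h1 : V1 ≤ sg * ((1 + A) * y + q 1)
      · have h2 : ¬ V2 ≤ sg * ((1 + A) * y + q 1) := fun h2 => hk ⟨h1, h2⟩
        exact ⟨V2, not_le.mp h2, hs5⟩
      · exact ⟨V1, not_le.mp h1, hs4⟩
    obtain ⟨V, hVa, hVb⟩ := hV
    have hzk := kink_z (z := z) (q2 := sg * q 1) he he1 hB hQ0 hq hx
      (by rw [hz]; ring) hVa hVb (by
        have := hF0; rw [hF1, hz] at this; linarith)
    have g1 := le_gainT hcont q (us 1) (c0 := 2 * z - sg * q 1 - e * (‖q‖ ^ 2 + 1) - 4 * V1) (c2 := 0)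
      (fun s hs => by
        have := sum_ge_kink (B := B) (e := e) (A := A) (y := y) (a := 1) hsg (by norm_num) hx hs
        rw [← hV1] at this
        rw [hz]; linarith)
    have g2 := le_gainT hcont q (us (-1))
      (c0 := 2 * z - sg * q 1 - e * (‖q‖ ^ 2 + 1) - 4 * V2) (c2 := 0)
      (fun s hs => by
        have := sum_ge_kink (B := B) (e := e) (A := A) (y := y) (a := -1) hsg (by norm_num) hx hs
        rw [← hV2] at this
        rw [hz]; linarith)
    rw [← hV1] at g1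
    rw [← hV2] at g2
    refine tent_of_real hκ hA (by linarith)
      (X := d * (2 * z - sg * q 1 - e * (‖q‖ ^ 2 + 1)) - 4 * (‖q‖ ^ 2 + 1)) ?_ ?_
    · have g3 : 2 * π * κ * (d * (2 * z - sg * q 1 - e * (‖q‖ ^ 2 + 1)) - 4 * (‖q‖ ^ 2 + 1)) =
          κ / 2 * (2 * π * V1 * (2 * z - sg * q 1 - e * (‖q‖ ^ 2 + 1) - 4 * V1 + 0 / 3) +
            2 * π * V2 * (2 * z - sg * q 1 - e * (‖q‖ ^ 2 + 1) - 4 * V2 + 0 / 3)) := by
        have : ‖q‖ ^ 2 + 1 = (V1 ^ 2 + V2 ^ 2) / 2 := by linarith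
        rw [this, hd]; ring
      rw [g3]
      exact mul_le_mul_of_nonneg_left (add_le_add g1 g2) (by positivity)
    · exact real_kink he he1 hε hε1 hd1 hdQ1 hdQ hQ0 hzk.1 hzk.2 hq hF1 hF0

/-- **tent inequality with lane/edge profile** `k ∈ [0,1]`, `k = 1` for `(1+A)|y| ≤ B` -/
theorem tent_sub {B e A ε κ k y sg : ℝ} {q : R3} (he : 0 < e) (he1 : e ≤ 1 / 100000) (hε : 0 ≤ ε)
    (hε1 : ε ≤ e / 10) (hκ : 0 < κ) (hA : A = 98 / 100 * (2 * π * κ)) (hB : 600 / e ≤ B)
    (hsg : sg = 1 ∨ sg = -1) (hk0 : 0 ≤ k) (hk1 : k ≤ 1) (hk : (1 + A) * |y| ≤ B → k = 1)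
    (hy : (1 + A) * |y| ≤ B + e / 10)
    (hx : 0 ≤ sg * ((1 + A) * y + q 1)) (hF : 0 ≤ tent B e A y q) :
    k * ((1 - ε) * (κ / 2 * (gainT (tentp B e A y) q (us 1) + gainT (tentp B e A y) q (us (-1)))) -
        κ / 2 * (2 * π * (‖q - us 1‖ + ‖q - us (-1)‖)) * tent B e A y q) - A * (sg * q 1) +
        2 * e * (q 1) ^ 2 ≥
      97 / 100 * (2 * π * κ) * tent B e A y q + k * (e / 10 * (2 * π * κ) * (1 + ‖q‖ ^ 2)) := by
  have h1 := tent_one he he1 hε hε1 hκ hA hB hsg hy hx hF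
  have hsq : 0 ≤ 2 * e * (q 1) ^ 2 := by positivity
  by_cases hyB : (1 + A) * |y| ≤ B
  · rw [hk hyB]; linarith
  · push Not at hyB
    have hA0 : 0 < A := by rw [hA]; positivity
    have hB1 : 600 ≤ B * e := by rwa [div_le_iff₀ he] at hB
    have hB2 : 60000000 ≤ B := by
      have h2 : 600 ≤ B * (1 / 100000) :=
        hB1.trans (mul_le_mul_of_nonneg_left he1 (by nlinarith))
      linarith
    have hFe : tent B e A y q = B - sg * ((1 + A) * y + q 1) - e * ‖q‖ ^ 2 := by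
      unfold tent
      have : |(1 + A) * y + q 1| = sg * ((1 + A) * y + q 1) := by
        rcases hsg with rfl | rfl
        · rw [abs_of_nonneg (by linarith)]; ring
        · rw [abs_of_nonpos (by linarith)]; ring
      rw [this]
    -- the sign of `y`
    have hq1 := abs_apply_le q 1
    have hQ : ‖q‖ < B := by
      by_contra hc
      push Not at hc
      have h3 : e * ‖q‖ ^ 2 ≤ B := by rw [hFe] at hF; linarith
      have h4 : e * B * ‖q‖ ≤ e * ‖q‖ * ‖q‖ := by
        apply mul_le_mul_of_nonneg_right _ (norm_nonneg q)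
        exact mul_le_mul_of_nonneg_left hc he.le
      have h5 : 600 * ‖q‖ ≤ e * B * ‖q‖ :=
        mul_le_mul_of_nonneg_right (by linarith) (norm_nonneg q)
      nlinarith
    obtain ⟨hq2, hq3⟩ := abs_le.mp hq1
    have hsy : (1 + A) * |y| = sg * ((1 + A) * y) := by
      rcases hsg with rfl | rfl
      · rcases le_total 0 y with h | h
        · rw [abs_of_nonneg h]; ring
        · rw [abs_of_nonpos h] at hyB; linarith
      · rcases le_total 0 y with h | h
        · rw [abs_of_nonneg h] at hyB; linarith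
        · rw [abs_of_nonpos h]; ring
    have h0 : -(A * (sg * q 1)) ≥ 97 / 100 * (2 * π * κ) * tent B e A y q := by
      have h6 : 0 ≤ e * ‖q‖ ^ 2 := by positivity
      have h7 : tent B e A y q ≤ -(sg * q 1) := by rw [hFe]; linarith
      have h8 : 0 ≤ -(sg * q 1) := hF.trans h7
      have h9 : 97 / 100 * (2 * π * κ) * tent B e A y q ≤
          97 / 100 * (2 * π * κ) * (-(sg * q 1)) :=
        mul_le_mul_of_nonneg_left h7 (by positivity)
      have h10 : 0 ≤ 1 / 100 * (2 * π * κ) * (-(sg * q 1)) := mul_nonneg (by positivity) h8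
      have h11 : A * (sg * q 1) = 98 / 100 * (2 * π * κ) * (sg * q 1) := by rw [← hA]
      linarith
    have h2 := mul_le_mul_of_nonneg_left h1.le hk0
    have h3 := mul_le_mul_of_nonneg_left h0.le (show 0 ≤ 1 - k by linarith)
    linarith

end Crest.Agent.R68.XTent
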