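import Crest.Agent.R68.X2Frame
import Crest.Agent.R68.XDefs2

/-!
# Row 68, PART X2 (helper685): the Harnack weight along flights (`flight_Om`)
-/

set_option autoImplicit false
open MeasureTheory Set Filter
open scoped ENNReal NNReal Real Topology
open Crest.AnalysisR.VecCalc3 Crest.AnalysisR.PDE.Boltzmann

noncomputable section

namespace Crest.Agent.R68.X2.FlOm

/-! ### absolutely continuous functions -/

theorem ac_comp_lip {f g : ℝ → ℝ} {a b : ℝ} {K : ℝ≥0} {S : Set ℝ} (hg : LipschitzOnWith K g S)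
    (hS : ∀ y ∈ uIcc a b, f y ∈ S) (hf : AbsolutelyContinuousOnInterval f a b) :
    AbsolutelyContinuousOnInterval (fun x => g (f x)) a b := by
  rw [absolutelyContinuousOnInterval_iff] at hf ⊢
  intro ε hε
  obtain ⟨δ, hδ, h⟩ := hf (ε / (K + 1)) (by positivity)
  refine ⟨δ, hδ, fun E hE hlt => ?_⟩
  have h1 := h E hE hlt
  calc ∑ i ∈ Finset.range E.1, dist (g (f (E.2 i).1)) (g (f (E.2 i).2))
      ≤ ∑ i ∈ Finset.range E.1, (K : ℝ) * dist (f (E.2 i).1) (f (E.2 i).2) :=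
        Finset.sum_le_sum fun i hi =>
          hg.dist_le_mul _ (hS _ (hE.1 i hi).1) _ (hS _ (hE.1 i hi).2)
    _ = K * ∑ i ∈ Finset.range E.1, dist (f (E.2 i).1) (f (E.2 i).2) := by
        rw [Finset.mul_sum]
    _ ≤ K * (ε / (K + 1)) := by gcongr
    _ < (K + 1) * (ε / (K + 1)) := by
        have : 0 < ε / ((K : ℝ) + 1) := by positivity
        nlinarith
    _ = ε := by field_simp

theorem ac_comp_lip' {f g : ℝ → ℝ} {a b : ℝ} {K : ℝ≥0} (hg : LipschitzWith K g)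
    (hf : AbsolutelyContinuousOnInterval f a b) :
    AbsolutelyContinuousOnInterval (fun x => g (f x)) a b :=
  ac_comp_lip (S := univ) hg.lipschitzOnWith (fun _ _ => mem_univ _) hf

theorem ac_comp_cd {f g : ℝ → ℝ} {a b : ℝ} (hg : ContDiff ℝ 1 g)
    (hf : AbsolutelyContinuousOnInterval f a b) :
    AbsolutelyContinuousOnInterval (fun x => g (f x)) a b := by
  obtain ⟨M, hM⟩ := hf.exists_bound
  obtain ⟨K, hK⟩ := (hg.contDiffOn (s := Icc (-M) M)).exists_lipschitzOnWith (by decide)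
    (convex_Icc _ _) isCompact_Icc
  exact ac_comp_lip hK (fun y hy => abs_le.1 (hM y hy)) hf

theorem ac_abs {f : ℝ → ℝ} {a b : ℝ} (hf : AbsolutelyContinuousOnInterval f a b) :
    AbsolutelyContinuousOnInterval (fun x => |f x|) a b := by
  have h : LipschitzWith 1 (fun x : ℝ => |x|) := by
    refine LipschitzWith.of_dist_le_mul fun x y => ?_
    simp only [NNReal.coe_one, one_mul, Real.dist_eq]
    exact abs_abs_sub_abs_le x y
  exact ac_comp_lip' h hf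

theorem ac_max {f : ℝ → ℝ} {a b : ℝ} (c : ℝ) (hf : AbsolutelyContinuousOnInterval f a b) :
    AbsolutelyContinuousOnInterval (fun x => max c (f x)) a b := by
  have h : LipschitzWith 1 (fun x : ℝ => max c x) := by
    refine LipschitzWith.of_dist_le_mul fun x y => ?_
    simp only [NNReal.coe_one, one_mul, Real.dist_eq]
    rw [max_comm c x, max_comm c y]
    exact abs_max_sub_max_le_abs x y c
  exact ac_comp_lip' h hf

theorem ac_const (c a b : ℝ) : AbsolutelyContinuousOnInterval (fun _ => c) a b := by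
  apply ContDiffOn.absolutelyContinuousOnInterval
  exact contDiffOn_const

theorem deriv_abs_of_diff {m : ℝ → ℝ} {m' ρ : ℝ} (hm : HasDerivAt m m' ρ)
    (hd : DifferentiableAt ℝ (fun x => |m x|) ρ) :
    HasDerivAt (fun x => |m x|) (sg (m ρ) * m') ρ := by
  rcases lt_trichotomy (m ρ) 0 with h | h | h
  · have hs : sg (m ρ) = -1 := by unfold sg; rw [if_neg (not_le.2 h)]
    rw [hs, neg_one_mul]
    refine hm.neg.congr_of_eventuallyEq ?_
    filter_upwards [hm.continuousAt.eventually_lt_const h] with x hx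
    rw [abs_of_neg hx]; rfl
  · have hs : sg (m ρ) = 1 := by unfold sg; rw [if_pos h.ge]
    have h1 : IsLocalMin (fun x => |m x|) ρ := by
      refine Eventually.of_forall fun x => ?_
      simp [h]
    have h2 := hd.hasDerivAt
    rw [h1.deriv_eq_zero] at h2
    have h3 : HasDerivAt m 0 ρ := by
      rw [hasDerivAt_iff_isLittleO] at h2 ⊢
      simp only [h, abs_zero, sub_zero, smul_zero] at h2 ⊢
      exact (Asymptotics.isLittleO_abs_left).1 h2
    have h4 : m' = 0 := hm.unique h3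
    rw [h4, mul_zero]
    exact h2
  · have hs : sg (m ρ) = 1 := by unfold sg; rw [if_pos h.le]
    rw [hs, one_mul]
    refine hm.congr_of_eventuallyEq ?_
    filter_upwards [hm.continuousAt.eventually_const_lt h] with x hx
    rw [abs_of_pos hx]

theorem sg_mul_self (m : ℝ) : sg m * m = |m| := by
  unfold sg
  split_ifs with h
  · rw [one_mul, abs_of_nonneg h]
  · rw [neg_one_mul, abs_of_neg (not_le.1 h)]

theorem abs_sg (m : ℝ) : |sg m| = 1 := by
  unfold sg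
  split_ifs <;> simp

/-! ### positions along a flight -/

variable {Y s r : ℝ} {x : P2} {v : R3} {k : ℤ × ℤ} {ρ ρ' : ℝ}

/-- position -/
def xF (s : ℝ) (x : P2) (v : R3) (ρ : ℝ) : P2 := x + (ρ - s) • bar v

theorem norm_bar_le (v : R3) : ‖bar v‖ ≤ ‖v‖ := by
  rw [Prod.norm_def]
  exact max_le (PiLp.norm_apply_le v 0) (PiLp.norm_apply_le v 1)

theorem xF_sub (s : ℝ) (x : P2) (v : R3) (ρ ρ' : ℝ) :
    xF s x v ρ - xF s x v ρ' = (ρ - ρ') • bar v := by
  unfold xF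
  rw [add_sub_add_left_eq_sub, ← sub_smul]
  congr 1
  ring

theorem norm_xF_sub (s : ℝ) (x : P2) (v : R3) (ρ ρ' : ℝ) :
    ‖xF s x v ρ - xF s x v ρ'‖ ≤ ‖v‖ * |ρ - ρ'| := by
  rw [xF_sub, norm_smul, Real.norm_eq_abs, mul_comm]
  exact mul_le_mul_of_nonneg_right (norm_bar_le v) (abs_nonneg _)

theorem continuous_xF (s : ℝ) (x : P2) (v : R3) : Continuous (xF s x v) := by
  unfold xF; fun_prop

/-- self-similar height relative to the lattice point `k` -/
def pk (s : ℝ) (x : P2) (v : R3) (k : ℤ × ℤ) (ρ : ℝ) : ℝ := (xF s x v ρ + latt k).2 / ρ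

theorem pk_eq (s : ℝ) (x : P2) (v : R3) (k : ℤ × ℤ) :
    pk s x v k = fun ρ => (x.2 + (latt k).2 + (ρ - s) * v 1) * ρ⁻¹ := by
  funext ρ
  rw [pk, div_eq_mul_inv]
  congr 1
  simp only [xF, bar, Prod.snd_add, Prod.smul_snd, smul_eq_mul]
  ring

theorem hasDerivAt_pk (hρ : ρ ≠ 0) : HasDerivAt (pk s x v k) ((v 1 - pk s x v k ρ) / ρ) ρ := by
  rw [pk_eq]
  have h1 : HasDerivAt (fun ρ : ℝ => x.2 + (latt k).2 + (ρ - s) * v 1) (v 1) ρ := by
    refine ((((hasDerivAt_id ρ).sub_const s).mul_const (v 1)).const_add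
      (x.2 + (latt k).2)).congr_deriv ?_
    simp
  refine (h1.fun_mul (hasDerivAt_inv hρ)).congr_deriv ?_
  field_simp
  ring

theorem cd_pk (hs : 0 < s) (hsr : s ≤ r) : ContDiffOn ℝ 1 (pk s x v k) (uIcc s r) := by
  rw [pk_eq, uIcc_of_le hsr]
  refine ContDiffOn.mul ?_ (contDiffOn_id.inv fun y hy => (hs.trans_le hy.1).ne')
  exact ContDiff.contDiffOn (by fun_prop)

/-- the clamped height -/
def ck (Y s : ℝ) (x : P2) (v : R3) (k : ℤ × ℤ) (ρ : ℝ) : ℝ := clamp (2 * Y) (pk s x v k ρ)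

/-- the cut-off -/
def chk (s : ℝ) (x : P2) (v : R3) (k : ℤ × ℤ) (ρ : ℝ) : ℝ := cut8 ‖xF s x v ρ + latt k‖

theorem clamp_lipschitz (b : ℝ) : LipschitzWith 1 (clamp b) := by
  refine LipschitzWith.of_dist_le_mul fun x y => ?_
  simp only [NNReal.coe_one, one_mul, Real.dist_eq]
  exact clamp_lip b x y

theorem ac_ck (hs : 0 < s) (hsr : s ≤ r) :
    AbsolutelyContinuousOnInterval (ck Y s x v k) s r := by
  have h : AbsolutelyContinuousOnInterval (pk s x v k) s r :=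
    (cd_pk hs hsr).absolutelyContinuousOnInterval
  exact ac_comp_lip' (f := pk s x v k) (g := clamp (2 * Y)) (clamp_lipschitz (2 * Y)) h

theorem chk_sub_le (s : ℝ) (x : P2) (v : R3) (k : ℤ × ℤ) (ρ ρ' : ℝ) :
    |chk s x v k ρ - chk s x v k ρ'| ≤ 8 * ‖v‖ * |ρ - ρ'| := by
  unfold chk
  refine (cut8_lip _ _).trans ?_
  have h2 := abs_norm_sub_norm_le (xF s x v ρ + latt k) (xF s x v ρ' + latt k)
  rw [add_sub_add_right_eq_sub] at h2
  have h3 := norm_xF_sub s x v ρ ρ'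
  linarith

theorem chk_lipschitz (s : ℝ) (x : P2) (v : R3) (k : ℤ × ℤ) :
    LipschitzWith (8 * ‖v‖₊) (chk s x v k) := by
  refine LipschitzWith.of_dist_le_mul fun ρ ρ' => ?_
  simp only [NNReal.coe_mul, NNReal.coe_ofNat, coe_nnnorm, Real.dist_eq]
  exact chk_sub_le s x v k ρ ρ'

theorem ac_chk (s : ℝ) (x : P2) (v : R3) (k : ℤ × ℤ) (a b : ℝ) :
    AbsolutelyContinuousOnInterval (chk s x v k) a b :=
  (chk_lipschitz s x v k).lipschitzOnWith.absolutelyContinuousOnInterval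

/-- the frame along the flight -/
def yF (Y s : ℝ) (x : P2) (v : R3) (ρ : ℝ) : ℝ := Yc Y ρ (xF s x v ρ)

theorem yF_eq (hk : ‖xF s x v ρ + latt k‖ < 7 / 20) :
    yF Y s x v ρ = chk s x v k ρ * ck Y s x v k ρ := by
  rw [yF, Yc_eq_Yt hk]
  rfl

theorem yF_eventually_eq (hk : ‖xF s x v ρ + latt k‖ < 7 / 20) :
    yF Y s x v =ᶠ[𝓝 ρ] fun ρ => chk s x v k ρ * ck Y s x v k ρ := by
  have hc : ContinuousAt (fun ρ => ‖xF s x v ρ + latt k‖) ρ :=
    (((continuous_xF s x v).add continuous_const).norm).continuousAt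
  filter_upwards [hc.eventually_lt_const hk] with ρ' h
  exact yF_eq h

theorem pk_sub_le (hs : 0 < s) (hρ : s ≤ ρ) (hρ' : s ≤ ρ') (hk : ‖xF s x v ρ + latt k‖ ≤ 1) :
    |pk s x v k ρ - pk s x v k ρ'| ≤ (1 / s + ‖v‖) / s * |ρ - ρ'| := by
  have h0 : 0 < ρ := hs.trans_le hρ
  have h0' : 0 < ρ' := hs.trans_le hρ'
  set u := (xF s x v ρ + latt k).2 with hu
  have hu1 : |u| ≤ 1 := (norm_snd_le (xF s x v ρ + latt k)).trans hk
  have e2 : (xF s x v ρ' + latt k).2 = u - (ρ - ρ') * v 1 := by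
    have h := congrArg Prod.snd (xF_sub s x v ρ ρ')
    simp only [Prod.snd_sub, Prod.smul_snd, smul_eq_mul, bar] at h
    rw [hu]
    simp only [Prod.snd_add]
    linarith
  have e : pk s x v k ρ - pk s x v k ρ' = (u / ρ - v 1) * (1 / ρ') * (ρ' - ρ) := by
    rw [pk, pk, e2, ← hu]
    field_simp
    ring
  rw [e, abs_mul, abs_sub_comm ρ' ρ, abs_mul]
  refine mul_le_mul_of_nonneg_right ?_ (abs_nonneg _)
  rw [div_eq_mul_one_div (1 / s + ‖v‖) s]
  refine mul_le_mul ?_ ?_ (abs_nonneg _) (by positivity)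
  · refine (abs_sub _ _).trans ?_
    refine add_le_add ?_ (PiLp.norm_apply_le v 1)
    rw [abs_div, abs_of_pos h0]
    exact div_le_div₀ zero_le_one hu1 hs hρ
  · rw [abs_of_pos (by positivity)]
    exact one_div_le_one_div_of_le hs hρ'

theorem yF_lip (hY : 0 ≤ Y) (hs : 0 < s) (hρ : s ≤ ρ) (hρ' : s ≤ ρ') :
    |yF Y s x v ρ - yF Y s x v ρ'| ≤ (56 * Y * ‖v‖ + (1 / s + ‖v‖) / s) * |ρ - ρ'| := by
  -- near case
  have key : ∀ ρ ρ' : ℝ, s ≤ ρ → s ≤ ρ' → ‖xF s x v ρ - xF s x v ρ'‖ < 1 / 10 →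
      distG (xF s x v ρ) ≤ 1 / 4 →
      |yF Y s x v ρ - yF Y s x v ρ'| ≤ (56 * Y * ‖v‖ + (1 / s + ‖v‖) / s) * |ρ - ρ'| := by
    intro ρ ρ' hρ hρ' hd h4
    obtain ⟨k, hk⟩ := exists_distG_eq (xF s x v ρ)
    rw [hk] at h4
    have hk1 : ‖xF s x v ρ + latt k‖ < 7 / 20 := h4.trans_lt (by norm_num)
    have hk2 : ‖xF s x v ρ' + latt k‖ < 7 / 20 := by
      have : xF s x v ρ' + latt k = xF s x v ρ + latt k - (xF s x v ρ - xF s x v ρ') := by abel
      rw [this]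
      refine (norm_sub_le _ _).trans_lt ?_
      linarith
    have h1 := abs_Yc_sub_le (t := ρ) (t' := ρ') hY hk1 hk2
    have h2 := norm_xF_sub s x v ρ ρ'
    have h3 := pk_sub_le (k := k) hs hρ hρ' (hk1.le.trans (by norm_num))
    have h5 : 16 * Y * ‖xF s x v ρ - xF s x v ρ'‖ ≤ 16 * Y * (‖v‖ * |ρ - ρ'|) :=
      mul_le_mul_of_nonneg_left h2 (by positivity)
    have h6 : 0 ≤ 40 * Y * ‖v‖ * |ρ - ρ'| := by positivity
    unfold yF
    unfold pk at h3
    nlinarith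
  rcases lt_or_ge ‖xF s x v ρ - xF s x v ρ'‖ (1 / 10) with hd | hd
  · rcases le_or_gt (distG (xF s x v ρ)) (1 / 4) with h4 | h4
    · exact key ρ ρ' hρ hρ' hd h4
    · rcases le_or_gt (distG (xF s x v ρ')) (1 / 4) with h5 | h5
      · have := key ρ' ρ hρ' hρ (by rwa [norm_sub_rev]) h5
        rwa [abs_sub_comm, abs_sub_comm ρ' ρ] at this
      · rw [yF, yF, Yc_far h4.le, Yc_far h5.le, sub_zero, abs_zero]
        positivity
  · have h1 : |yF Y s x v ρ| ≤ 2 * Y := abs_Yc_le hY _ _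
    have h2 : |yF Y s x v ρ'| ≤ 2 * Y := abs_Yc_le hY _ _
    have h3 := norm_xF_sub s x v ρ ρ'
    have h4 : |yF Y s x v ρ - yF Y s x v ρ'| ≤ 4 * Y := by
      refine (abs_sub _ _).trans ?_
      linarith
    have h5 : 4 * Y ≤ 40 * Y * (‖v‖ * |ρ - ρ'|) := by nlinarith
    have h6 : 0 ≤ (16 * Y * ‖v‖ + (1 / s + ‖v‖) / s) * |ρ - ρ'| := by positivity
    nlinarith

theorem ac_yF (hY : 0 ≤ Y) (hs : 0 < s) (hsr : s ≤ r) :
    AbsolutelyContinuousOnInterval (yF Y s x v) s r := by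
  have hK : 0 ≤ 56 * Y * ‖v‖ + (1 / s + ‖v‖) / s := by positivity
  refine LipschitzOnWith.absolutelyContinuousOnInterval (K := ⟨_, hK⟩) ?_
  refine LipschitzOnWith.of_dist_le_mul fun ρ hρ ρ' hρ' => ?_
  rw [uIcc_of_le hsr] at hρ hρ'
  simp only [Real.dist_eq]
  exact yF_lip hY hs hρ.1 hρ'.1

/-! ### derivative of the frame -/

theorem hasDerivAt_ck_lt (hρ : 0 < ρ) (h : |pk s x v k ρ| < 2 * Y) :
    HasDerivAt (ck Y s x v k) ((v 1 - pk s x v k ρ) / ρ) ρ := by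
  have h1 := hasDerivAt_pk (s := s) (x := x) (v := v) (k := k) hρ.ne'
  refine h1.congr_of_eventuallyEq ?_
  filter_upwards [h1.continuousAt.abs.eventually_lt_const h] with ρ' h2
  exact clamp_eq_self h2.le

theorem hasDerivAt_ck_ge (hY : 0 ≤ Y) (h : 2 * Y ≤ |pk s x v k ρ|)
    (hd : DifferentiableAt ℝ (ck Y s x v k) ρ) : HasDerivAt (ck Y s x v k) 0 ρ := by
  have h2 := hd.hasDerivAt
  have hb : 0 ≤ 2 * Y := by positivity
  rcases le_abs.1 h with h3 | h3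
  · have h1 : IsLocalMax (ck Y s x v k) ρ := by
      refine Eventually.of_forall fun ρ' => ?_
      have : ck Y s x v k ρ = 2 * Y := clamp_of_le hb h3
      rw [this]
      exact (abs_le.1 (abs_clamp_le hb _)).2
    rwa [h1.deriv_eq_zero] at h2
  · have h1 : IsLocalMin (ck Y s x v k) ρ := by
      refine Eventually.of_forall fun ρ' => ?_
      have : ck Y s x v k ρ = -(2 * Y) := clamp_of_ge hb (by linarith)
      rw [this]
      exact (abs_le.1 (abs_clamp_le hb _)).1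
    rwa [h1.deriv_eq_zero] at h2

theorem abs_ck_of_ge (hY : 0 ≤ Y) (h : 2 * Y ≤ |pk s x v k ρ|) : |ck Y s x v k ρ| = 2 * Y := by
  have hb : 0 ≤ 2 * Y := by positivity
  rcases le_abs.1 h with h3 | h3
  · rw [ck, clamp_of_le hb h3, abs_of_nonneg hb]
  · rw [ck, clamp_of_ge hb (by linarith), abs_neg, abs_of_nonneg hb]

/-- the distance of the second velocity component to the frame -/
def aF (Y s : ℝ) (x : P2) (v : R3) (ρ : ℝ) : ℝ := |v 1 - yF Y s x v ρ|

theorem aF_deriv (hY : 0 ≤ Y) (hρ : 0 < ρ)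
    (h1 : ∀ k, DifferentiableAt ℝ (ck Y s x v k) ρ)
    (h2 : ∀ k, DifferentiableAt ℝ (chk s x v k) ρ)
    (h3 : DifferentiableAt ℝ (aF Y s x v) ρ) :
    ∃ a' : ℝ, HasDerivAt (aF Y s x v) a' ρ ∧
      (distG (xF s x v ρ) < 1 / 8 → |yF Y s x v ρ| < 2 * Y → a' = -(aF Y s x v ρ / ρ)) ∧
      (distG (xF s x v ρ) < 1 / 8 → ¬ |yF Y s x v ρ| < 2 * Y → a' = 0) ∧
      a' ≤ 16 * Y * ‖v‖ + 4 * Y / ρ := by
  have hYv : 0 ≤ 16 * Y * ‖v‖ + 4 * Y / ρ := by positivity
  rcases le_or_gt (distG (xF s x v ρ)) (1 / 4) with h4 | h4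
  · obtain ⟨k, hk⟩ := exists_distG_eq (xF s x v ρ)
    rw [hk] at h4
    have hk1 : ‖xF s x v ρ + latt k‖ < 7 / 20 := h4.trans_lt (by norm_num)
    have hy0 : yF Y s x v ρ = chk s x v k ρ * ck Y s x v k ρ := yF_eq hk1
    have hx := (h2 k).hasDerivAt
    have hx8 : |deriv (chk s x v k) ρ| ≤ 8 * ‖v‖ := by
      have := norm_deriv_le_of_lipschitz (x₀ := ρ) (chk_lipschitz s x v k)
      simpa using this
    set χ' := deriv (chk s x v k) ρ with hχ'
    have hχ1 : chk s x v k ρ ≤ 1 := cut8_le_one _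
    have hχ0 : 0 ≤ chk s x v k ρ := cut8_nonneg _
    have hc : |ck Y s x v k ρ| ≤ 2 * Y := abs_clamp_le (by positivity) _
    have hχc : |χ' * ck Y s x v k ρ| ≤ 16 * Y * ‖v‖ := by
      rw [abs_mul]
      calc |χ'| * |ck Y s x v k ρ| ≤ 8 * ‖v‖ * (2 * Y) :=
            mul_le_mul hx8 hc (abs_nonneg _) (by positivity)
        _ = _ := by ring
    -- near the lattice points the cut-off is constant
    have hnear : distG (xF s x v ρ) < 1 / 8 → χ' = 0 ∧ chk s x v k ρ = 1 := by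
      intro h8
      rw [hk] at h8
      refine ⟨?_, cut8_eq_one h8.le⟩
      have hcont : ContinuousAt (fun ρ => ‖xF s x v ρ + latt k‖) ρ :=
        (((continuous_xF s x v).add continuous_const).norm).continuousAt
      have he : chk s x v k =ᶠ[𝓝 ρ] fun _ => (1 : ℝ) := by
        filter_upwards [hcont.eventually_lt_const h8] with ρ' h
        exact cut8_eq_one h.le
      have := (hasDerivAt_const ρ (1 : ℝ)).congr_of_eventuallyEq he
      exact hx.unique this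
    rcases lt_or_ge |pk s x v k ρ| (2 * Y) with h5 | h5
    · have hcd := hasDerivAt_ck_lt (s := s) (x := x) (v := v) (k := k) hρ h5
      have hce : ck Y s x v k ρ = pk s x v k ρ := clamp_eq_self h5.le
      have hy : HasDerivAt (yF Y s x v)
          (χ' * ck Y s x v k ρ + chk s x v k ρ * ((v 1 - pk s x v k ρ) / ρ)) ρ :=
        (hx.fun_mul hcd).congr_of_eventuallyEq (yF_eventually_eq hk1)
      have hm := hy.const_sub (v 1)
      have ha := deriv_abs_of_diff hm h3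
      refine ⟨_, ha, ?_, ?_, ?_⟩
      · intro h8 _
        obtain ⟨e1, e2⟩ := hnear h8
        rw [e1, e2, zero_mul, zero_add, one_mul, aF, ← sg_mul_self (v 1 - yF Y s x v ρ), hy0, e2,
          one_mul, hce]
        ring
      · intro h8 h9
        exfalso
        apply h9
        obtain ⟨e1, e2⟩ := hnear h8
        rw [hy0, e2, one_mul, hce]
        exact h5
      · have e : sg (v 1 - yF Y s x v ρ) *
            -(χ' * ck Y s x v k ρ + chk s x v k ρ * ((v 1 - pk s x v k ρ) / ρ))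
            = -(sg (v 1 - yF Y s x v ρ) * (χ' * ck Y s x v k ρ)) +
              chk s x v k ρ * (-(sg (v 1 - yF Y s x v ρ) * (v 1 - pk s x v k ρ)) / ρ) := by
          ring
        rw [e]
        refine add_le_add ?_ ?_
        · refine (neg_le_abs _).trans ?_
          rw [abs_mul, abs_sg, one_mul]
          exact hχc
        · have hp := abs_lt.1 h5
          have hyb := abs_le.1 (abs_Yc_le hY ρ (xF s x v ρ))
          have h6 : -(sg (v 1 - yF Y s x v ρ) * (v 1 - pk s x v k ρ)) ≤ 4 * Y := by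
            unfold sg
            split_ifs with h7
            · unfold yF at h7
              linarith [hyb.1, hp.2]
            · unfold yF at h7
              push Not at h7
              linarith [hyb.2, hp.1]
          calc chk s x v k ρ * (-(sg (v 1 - yF Y s x v ρ) * (v 1 - pk s x v k ρ)) / ρ)
              ≤ chk s x v k ρ * (4 * Y / ρ) :=
                mul_le_mul_of_nonneg_left (div_le_div_of_nonneg_right h6 hρ.le) hχ0
            _ ≤ 1 * (4 * Y / ρ) := mul_le_mul_of_nonneg_right hχ1 (by positivity)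
            _ = _ := one_mul _
    · have hcd := hasDerivAt_ck_ge hY h5 (h1 k)
      have hy : HasDerivAt (yF Y s x v) (χ' * ck Y s x v k ρ + chk s x v k ρ * 0) ρ :=
        (hx.fun_mul hcd).congr_of_eventuallyEq (yF_eventually_eq hk1)
      have hm := hy.const_sub (v 1)
      have ha := deriv_abs_of_diff hm h3
      have hce := abs_ck_of_ge hY h5
      refine ⟨_, ha, ?_, ?_, ?_⟩
      · intro h8 h9
        exfalso
        obtain ⟨e1, e2⟩ := hnear h8
        rw [hy0, e2, one_mul, hce] at h9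
        exact lt_irrefl _ h9
      · intro h8 h9
        obtain ⟨e1, e2⟩ := hnear h8
        rw [e1]
        ring
      · rw [mul_zero, add_zero, mul_neg]
        refine (neg_le_abs _).trans ?_
        rw [abs_mul, abs_sg, one_mul]
        have : 0 ≤ 4 * Y / ρ := by positivity
        linarith
  · have hc : ContinuousAt (fun ρ => distG (xF s x v ρ)) ρ :=
      (continuous_distG.comp (continuous_xF s x v)).continuousAt
    have he : aF Y s x v =ᶠ[𝓝 ρ] fun _ => |v 1 - 0| := by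
      filter_upwards [hc.eventually_const_lt h4] with ρ' h
      rw [aF, yF, Yc_far h.le]
    refine ⟨0, (hasDerivAt_const ρ _).congr_of_eventuallyEq he, ?_, ?_, hYv⟩
    · intro h8 _
      linarith
    · intro _ _
      rfl

/-! ### the distance part -/

/-- `|x|_Γ / t` along the flight -/
def zF (s : ℝ) (x : P2) (v : R3) (ρ : ℝ) : ℝ := distG (xF s x v ρ) / ρ

/-- `mm` along the flight -/
def mF (s : ℝ) (x : P2) (v : R3) (ρ : ℝ) : ℝ := max ‖v‖ (zF s x v ρ)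

theorem distG_lip (s : ℝ) (x : P2) (v : R3) :
    LipschitzWith ‖v‖₊ fun ρ => distG (xF s x v ρ) := by
  refine LipschitzWith.of_dist_le_mul fun ρ ρ' => ?_
  rw [Real.dist_eq, Real.dist_eq, coe_nnnorm]
  exact (abs_distG_sub_le _ _).trans (norm_xF_sub s x v ρ ρ')

theorem ac_zF (hs : 0 < s) (hsr : s ≤ r) : AbsolutelyContinuousOnInterval (zF s x v) s r := by
  have e : zF s x v = fun ρ => distG (xF s x v ρ) * ρ⁻¹ := by
    funext ρ; rw [zF, div_eq_mul_inv]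
  rw [e]
  have h1 : AbsolutelyContinuousOnInterval (fun ρ => distG (xF s x v ρ)) s r :=
    (distG_lip s x v).lipschitzOnWith.absolutelyContinuousOnInterval
  have h2 : AbsolutelyContinuousOnInterval (fun ρ : ℝ => ρ⁻¹) s r := by
    apply ContDiffOn.absolutelyContinuousOnInterval
    rw [uIcc_of_le hsr]
    exact contDiffOn_id.inv fun y hy => (hs.trans_le hy.1).ne'
  exact h1.fun_mul h2

theorem mF_deriv (hρ : 0 < ρ) (h1 : DifferentiableAt ℝ (fun ρ => distG (xF s x v ρ)) ρ)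
    (h2 : DifferentiableAt ℝ (mF s x v) ρ) :
    ∃ m' : ℝ, HasDerivAt (mF s x v) m' ρ ∧ mF s x v ρ * m' ≤ 0 ∧
      (2 * ‖v‖ ≤ zF s x v ρ → 0 < zF s x v ρ →
        mF s x v ρ * m' ≤ -(zF s x v ρ ^ 2 / (2 * ρ))) := by
  have hD := h1.hasDerivAt
  have hD1 : |deriv (fun ρ => distG (xF s x v ρ)) ρ| ≤ ‖v‖ := by
    have := norm_deriv_le_of_lipschitz (x₀ := ρ) (distG_lip s x v)
    simpa using this
  set D' := deriv (fun ρ => distG (xF s x v ρ)) ρ
  have hz : HasDerivAt (zF s x v) ((D' - zF s x v ρ) / ρ) ρ := by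
    have h3 := hD.fun_div (hasDerivAt_id ρ) hρ.ne'
    refine h3.congr_deriv ?_
    unfold zF
    simp only [id]
    field_simp
  have hzn : 0 ≤ zF s x v ρ := div_nonneg (distG_nonneg _) hρ.le
  rcases lt_or_ge ‖v‖ (zF s x v ρ) with h | h
  · have he : mF s x v =ᶠ[𝓝 ρ] zF s x v := by
      filter_upwards [hz.continuousAt.eventually_const_lt h] with ρ' h'
      exact max_eq_right h'.le
    have hm : HasDerivAt (mF s x v) ((D' - zF s x v ρ) / ρ) ρ := hz.congr_of_eventuallyEq he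
    have em : mF s x v ρ = zF s x v ρ := max_eq_right h.le
    have hDz : D' ≤ ‖v‖ := (le_abs_self _).trans hD1
    refine ⟨_, hm, ?_, ?_⟩
    · rw [em]
      refine mul_nonpos_of_nonneg_of_nonpos hzn ?_
      exact div_nonpos_of_nonpos_of_nonneg (by linarith) hρ.le
    · intro h4 h5
      rw [em]
      have e : -(zF s x v ρ ^ 2 / (2 * ρ)) = zF s x v ρ * (-(zF s x v ρ / 2) / ρ) := by
        field_simp
      rw [e]
      refine mul_le_mul_of_nonneg_left ?_ hzn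
      exact div_le_div_of_nonneg_right (by linarith) hρ.le
  · have h4 : IsLocalMin (mF s x v) ρ := by
      refine Eventually.of_forall fun ρ' => ?_
      have : mF s x v ρ = ‖v‖ := max_eq_left h
      rw [this]
      exact le_max_left _ _
    have h5 := h2.hasDerivAt
    rw [h4.deriv_eq_zero] at h5
    refine ⟨0, h5, by rw [mul_zero], ?_⟩
    intro h6 h7
    exfalso
    have : 0 ≤ ‖v‖ := norm_nonneg v
    linarith

/-! ### the weight along the flight -/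

/-- the velocity weight as a function of `a = |v₁ - y|` -/
def Hf (C2 : ℝ) (v : R3) (a : ℝ) : ℝ := 1 + C2 * a + (v 0 ^ 2 + a ^ 2 + v 2 ^ 2) ^ 6

theorem norm_fr_sq (y : ℝ) (v : R3) : ‖fr y v‖ ^ 2 = v 0 ^ 2 + (v 1 - y) ^ 2 + v 2 ^ 2 := by
  rw [EuclideanSpace.norm_sq_eq, Fin.sum_univ_three]
  simp [fr, sq_abs]

theorem fr_one (y : ℝ) (v : R3) : fr y v 1 = v 1 - y := by simp [fr]

theorem hh_eq (C2 y : ℝ) (v : R3) : hh C2 (fr y v) = Hf C2 v |v 1 - y| := by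
  unfold hh Hf
  rw [fr_one, sq_abs, ← norm_fr_sq]
  ring

theorem hasDerivAt_Hf (C2 : ℝ) (v : R3) (a : ℝ) :
    HasDerivAt (Hf C2 v) (C2 + 12 * a * (v 0 ^ 2 + a ^ 2 + v 2 ^ 2) ^ 5) a := by
  unfold Hf
  have h1 : HasDerivAt (fun a : ℝ => v 0 ^ 2 + a ^ 2 + v 2 ^ 2) (2 * a) a := by
    refine ((((hasDerivAt_id a).fun_pow 2).const_add (v 0 ^ 2)).add_const (v 2 ^ 2)).congr_deriv ?_
    simp
  have h2 := h1.fun_pow 6
  have h3 : HasDerivAt (fun a : ℝ => 1 + C2 * a) C2 a := by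
    refine (((hasDerivAt_id a).const_mul C2).const_add 1).congr_deriv ?_
    simp
  refine (h3.fun_add h2).congr_deriv ?_
  norm_num
  ring

/-- the weight along the flight -/
def WF (Y C2 gp s : ℝ) (x : P2) (v : R3) (ρ : ℝ) : ℝ := Om Y C2 gp ρ (xF s x v ρ) v

theorem WF_eq (Y C2 gp s : ℝ) (x : P2) (v : R3) :
    WF Y C2 gp s x v = fun ρ => Hf C2 v (aF Y s x v ρ) * Real.exp (gp * mF s x v ρ ^ 2) := by
  funext ρ
  rw [WF, Om, hh_eq]
  rfl

theorem ac_WF (C2 gp : ℝ) (hY : 0 ≤ Y) (hs : 0 < s) (hsr : s ≤ r) :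
    AbsolutelyContinuousOnInterval (WF Y C2 gp s x v) s r := by
  rw [WF_eq]
  have h1 : AbsolutelyContinuousOnInterval (aF Y s x v) s r :=
    ac_abs ((ac_const (v 1) s r).fun_sub (ac_yF hY hs hsr))
  have h2 : AbsolutelyContinuousOnInterval (mF s x v) s r := ac_max _ (ac_zF hs hsr)
  have h3 : ContDiff ℝ 1 (Hf C2 v) := by unfold Hf; fun_prop
  have h4 : ContDiff ℝ 1 (fun m : ℝ => Real.exp (gp * m ^ 2)) := by fun_prop
  exact (ac_comp_cd (g := Hf C2 v) h3 h1).fun_mul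
    (ac_comp_cd (g := fun m : ℝ => Real.exp (gp * m ^ 2)) h4 h2)

/-- all the functions are differentiable almost everywhere -/
theorem ae_diff (hY : 0 ≤ Y) (hs : 0 < s) (hsr : s ≤ r) : ∀ᵐ ρ : ℝ, ρ ∈ uIcc s r →
    (∀ k, DifferentiableAt ℝ (ck Y s x v k) ρ) ∧ (∀ k, DifferentiableAt ℝ (chk s x v k) ρ) ∧
    DifferentiableAt ℝ (aF Y s x v) ρ ∧ DifferentiableAt ℝ (fun ρ => distG (xF s x v ρ)) ρ ∧
    DifferentiableAt ℝ (mF s x v) ρ := by
  have h1 : ∀ᵐ ρ : ℝ, ∀ k, ρ ∈ uIcc s r → DifferentiableAt ℝ (ck Y s x v k) ρ :=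
    ae_all_iff.2 fun k => (ac_ck (k := k) hs hsr).ae_differentiableAt
  have h2 : ∀ᵐ ρ : ℝ, ∀ k, ρ ∈ uIcc s r → DifferentiableAt ℝ (chk s x v k) ρ :=
    ae_all_iff.2 fun k => (ac_chk s x v k s r).ae_differentiableAt
  have h3 : ∀ᵐ ρ : ℝ, ρ ∈ uIcc s r → DifferentiableAt ℝ (aF Y s x v) ρ :=
    (ac_abs ((ac_const (v 1) s r).fun_sub (ac_yF hY hs hsr))).ae_differentiableAt
  have h4 : ∀ᵐ ρ : ℝ, ρ ∈ uIcc s r → DifferentiableAt ℝ (fun ρ => distG (xF s x v ρ)) ρ :=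
    ((distG_lip s x v).lipschitzOnWith.absolutelyContinuousOnInterval).ae_differentiableAt
  have h5 : ∀ᵐ ρ : ℝ, ρ ∈ uIcc s r → DifferentiableAt ℝ (mF s x v) ρ :=
    (ac_max _ (ac_zF hs hsr)).ae_differentiableAt
  filter_upwards [h1, h2, h3, h4, h5] with ρ g1 g2 g3 g4 g5 hρ
  exact ⟨fun k => g1 k hρ, fun k => g2 k hρ, g3 hρ, g4 hρ, g5 hρ⟩

/-! ### pointwise inequality -/

theorem pow_le_one_add {n : ℝ} (hn : 0 ≤ n) : n ^ 11 ≤ 1 + n ^ 12 := by
  rcases le_total n 1 with h | h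
  · have h1 : n ^ 11 ≤ 1 := pow_le_one₀ hn h
    have h2 : 0 ≤ n ^ 12 := by positivity
    linarith
  · have h1 : n ^ 11 ≤ n ^ 12 := pow_le_pow_right₀ h (by norm_num)
    linarith

/-- derivative of the velocity weight -/
def Hd (C2 : ℝ) (v : R3) (a : ℝ) : ℝ := C2 + 12 * a * (v 0 ^ 2 + a ^ 2 + v 2 ^ 2) ^ 5

theorem Hd_nonneg {C2 a : ℝ} (hC2 : 0 ≤ C2) (ha : 0 ≤ a) : 0 ≤ Hd C2 v a := by
  unfold Hd; positivity

theorem one_le_Hf {C2 a : ℝ} (hC2 : 0 ≤ C2) (ha : 0 ≤ a) : 1 ≤ Hf C2 v a := by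
  unfold Hf
  have : 0 ≤ C2 * a := by positivity
  have : 0 ≤ (v 0 ^ 2 + a ^ 2 + v 2 ^ 2) ^ 6 := by positivity
  linarith

theorem aF_nonneg (Y s : ℝ) (x : P2) (v : R3) (ρ : ℝ) : 0 ≤ aF Y s x v ρ := abs_nonneg _

theorem nF_sq (Y s : ℝ) (x : P2) (v : R3) (ρ : ℝ) :
    v 0 ^ 2 + aF Y s x v ρ ^ 2 + v 2 ^ 2 = ‖fr (yF Y s x v ρ) v‖ ^ 2 := by
  rw [norm_fr_sq, aF, sq_abs]

theorem aF_le (Y s : ℝ) (x : P2) (v : R3) (ρ : ℝ) : aF Y s x v ρ ≤ ‖fr (yF Y s x v ρ) v‖ := by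
  have h := PiLp.norm_apply_le (fr (yF Y s x v ρ) v) 1
  rwa [fr_one, Real.norm_eq_abs] at h

theorem Hf_eq (C2 Y s : ℝ) (x : P2) (v : R3) (ρ : ℝ) : Hf C2 v (aF Y s x v ρ) =
    1 + C2 * aF Y s x v ρ + ‖fr (yF Y s x v ρ) v‖ ^ 12 := by
  rw [Hf, nF_sq]; ring

theorem Hd_le_pow {C2 : ℝ} :
    Hd C2 v (aF Y s x v ρ) ≤ C2 + 12 * ‖fr (yF Y s x v ρ) v‖ ^ 11 := by
  rw [Hd, nF_sq]
  set n := ‖fr (yF Y s x v ρ) v‖ with hn
  have h0 : 0 ≤ n := norm_nonneg _
  have h1 : aF Y s x v ρ ≤ n := aF_le Y s x v ρ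
  have h2 : aF Y s x v ρ * n ^ 10 ≤ n * n ^ 10 := mul_le_mul_of_nonneg_right h1 (by positivity)
  have e1 : (n ^ 2) ^ 5 = n ^ 10 := by ring
  have e2 : n * n ^ 10 = n ^ 11 := by ring
  rw [e1]
  rw [e2] at h2
  nlinarith

theorem Hd_le {C2 : ℝ} (hC2 : 0 ≤ C2) :
    Hd C2 v (aF Y s x v ρ) ≤ (C2 + 12) * Hf C2 v (aF Y s x v ρ) := by
  refine Hd_le_pow.trans ?_
  rw [Hf_eq]
  set n := ‖fr (yF Y s x v ρ) v‖ with hn
  have h0 : 0 ≤ n := norm_nonneg _
  have h1 := pow_le_one_add h0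
  have h2 : 0 ≤ C2 * aF Y s x v ρ := mul_nonneg hC2 (aF_nonneg Y s x v ρ)
  have h3 : 0 ≤ C2 * (C2 * aF Y s x v ρ) := mul_nonneg hC2 h2
  have h4 : 0 ≤ C2 * n ^ 12 := by positivity
  nlinarith

theorem Hd_mul_norm_le {C2 : ℝ} (hC2 : 0 ≤ C2) (hY : 1 ≤ Y) (hv : 4 * Y ≤ ‖v‖) :
    Hd C2 v (aF Y s x v ρ) * ‖v‖ ≤ (2 * C2 + 24) * Hf C2 v (aF Y s x v ρ) := by
  rw [Hf_eq]
  have h5 := Hd_le_pow (Y := Y) (s := s) (x := x) (v := v) (ρ := ρ) (C2 := C2)
  set n := ‖fr (yF Y s x v ρ) v‖ with hn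
  have h0 : 0 ≤ n := norm_nonneg _
  have hy : |yF Y s x v ρ| ≤ 2 * Y := abs_Yc_le (by linarith) _ _
  have h6 : ‖v‖ ≤ n + 2 * Y := by
    have e : v = fr (yF Y s x v ρ) v + !₂[0, yF Y s x v ρ, 0] := by unfold fr; abel
    have h7 : ‖(!₂[0, yF Y s x v ρ, 0] : R3)‖ = |yF Y s x v ρ| := by
      rw [EuclideanSpace.norm_eq, Fin.sum_univ_three]
      simp [Real.sqrt_sq_eq_abs]
    calc ‖v‖ = ‖fr (yF Y s x v ρ) v + !₂[0, yF Y s x v ρ, 0]‖ := congrArg _ e
      _ ≤ n + ‖(!₂[0, yF Y s x v ρ, 0] : R3)‖ := norm_add_le _ _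
      _ ≤ n + 2 * Y := by rw [h7]; linarith
  have h7 : 1 ≤ n := by linarith
  have h8 : ‖v‖ ≤ 2 * n := by linarith
  have h9 : n ≤ n ^ 12 := by
    calc n = n ^ 1 := (pow_one n).symm
      _ ≤ n ^ 12 := pow_le_pow_right₀ h7 (by norm_num)
  have h2 : 0 ≤ C2 * aF Y s x v ρ := mul_nonneg hC2 (aF_nonneg Y s x v ρ)
  have h10 : 0 ≤ C2 + 12 * n ^ 11 := by positivity
  calc Hd C2 v (aF Y s x v ρ) * ‖v‖ ≤ (C2 + 12 * n ^ 11) * (2 * n) :=
        mul_le_mul h5 h8 (norm_nonneg v) h10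
    _ = 2 * C2 * n + 24 * n ^ 12 := by ring
    _ ≤ 2 * C2 * n ^ 12 + 24 * n ^ 12 := by
        have : 2 * C2 * n ≤ 2 * C2 * n ^ 12 := mul_le_mul_of_nonneg_left h9 (by positivity)
        linarith
    _ ≤ (2 * C2 + 24) * (1 + C2 * aF Y s x v ρ + n ^ 12) := by
        have : 0 ≤ (2 * C2 + 24) * (1 + C2 * aF Y s x v ρ) := by positivity
        linarith

/-- `kap1` along the flight -/
def k1r (Y C2 gp s : ℝ) (x : P2) (v : R3) (ρ : ℝ) : ℝ :=
  open scoped Classical in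
  if distG (xF s x v ρ) < 1 / 8 ∧ |yF Y s x v ρ| < 2 * Y then
    C2 * aF Y s x v ρ / ρ * Real.exp (gp * mF s x v ρ ^ 2) else 0

/-- `kap2` along the flight -/
def k2r (Y C2 gp Z1 s : ℝ) (x : P2) (v : R3) (ρ : ℝ) : ℝ :=
  open scoped Classical in
  if 2 * ‖v‖ ≤ zF s x v ρ ∧ Z1 ≤ zF s x v ρ then
    gp / 2 * zF s x v ρ ^ 2 / ρ * (Hf C2 v (aF Y s x v ρ) * Real.exp (gp * mF s x v ρ ^ 2)) else 0

theorem kap1_eq (Y C2 gp s : ℝ) (x : P2) (v : R3) (ρ : ℝ) :
    kap1 Y C2 gp ρ (x + (ρ - s) • bar v) v = ENNReal.ofReal (k1r Y C2 gp s x v ρ) := by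
  unfold kap1 k1r
  simp only [fr_one]
  by_cases h : distG (xF s x v ρ) < 1 / 8 ∧ |yF Y s x v ρ| < 2 * Y
  · rw [if_pos h]
    have h' : distG (x + (ρ - s) • bar v) < 1 / 8 ∧ |Yc Y ρ (x + (ρ - s) • bar v)| < 2 * Y := h
    rw [if_pos h']
    rfl
  · rw [if_neg h]
    have h' : ¬ (distG (x + (ρ - s) • bar v) < 1 / 8 ∧
      |Yc Y ρ (x + (ρ - s) • bar v)| < 2 * Y) := h
    rw [if_neg h', ENNReal.ofReal_zero]

theorem kap2_eq (Y C2 gp Z1 s : ℝ) (x : P2) (v : R3) (ρ : ℝ) :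
    kap2 Y C2 gp Z1 ρ (x + (ρ - s) • bar v) v = ENNReal.ofReal (k2r Y C2 gp Z1 s x v ρ) := by
  have hW : Om Y C2 gp ρ (x + (ρ - s) • bar v) v =
      Hf C2 v (aF Y s x v ρ) * Real.exp (gp * mF s x v ρ ^ 2) := congrFun (WF_eq Y C2 gp s x v) ρ
  unfold kap2 k2r
  rw [hW]
  by_cases h : 2 * ‖v‖ ≤ zF s x v ρ ∧ Z1 ≤ zF s x v ρ
  · rw [if_pos h]
    have h' : 2 * ‖v‖ ≤ distG (x + (ρ - s) • bar v) / ρ ∧
      Z1 ≤ distG (x + (ρ - s) • bar v) / ρ := h
    rw [if_pos h']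
    rfl
  · rw [if_neg h]
    have h' : ¬ (2 * ‖v‖ ≤ distG (x + (ρ - s) • bar v) / ρ ∧
      Z1 ≤ distG (x + (ρ - s) • bar v) / ρ) := h
    rw [if_neg h', ENNReal.ofReal_zero]

theorem key_ineq {C2 gp Z1 a' m' : ℝ} (hY : 1 ≤ Y) (hC2 : 0 ≤ C2) (hgp : 0 < gp) (hZ : 1 ≤ Z1)
    (hρ : 0 < ρ) (hρ1 : ρ ≤ 1) (ht1 : ρ * (640 * Y * (C2 + 12)) ≤ gp) (ht2 : ρ * (64 * Y) ≤ 1)
    (ha1 : distG (xF s x v ρ) < 1 / 8 → |yF Y s x v ρ| < 2 * Y → a' = -(aF Y s x v ρ / ρ))
    (ha2 : distG (xF s x v ρ) < 1 / 8 → ¬ |yF Y s x v ρ| < 2 * Y → a' = 0)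
    (ha3 : a' ≤ 16 * Y * ‖v‖ + 4 * Y / ρ) (hm1 : mF s x v ρ * m' ≤ 0)
    (hm2 : 2 * ‖v‖ ≤ zF s x v ρ → 0 < zF s x v ρ →
        mF s x v ρ * m' ≤ -(zF s x v ρ ^ 2 / (2 * ρ))) :
    Hd C2 v (aF Y s x v ρ) * a' * Real.exp (gp * mF s x v ρ ^ 2)
      + Hf C2 v (aF Y s x v ρ) * (Real.exp (gp * mF s x v ρ ^ 2) * (gp * (2 * (mF s x v ρ * m'))))
      + (k1r Y C2 gp s x v ρ + k2r Y C2 gp Z1 s x v ρ)
      ≤ 80 * Y * (2 * C2 + 24) * (Hf C2 v (aF Y s x v ρ) * Real.exp (gp * mF s x v ρ ^ 2)) := by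
  have hE : 0 < Real.exp (gp * mF s x v ρ ^ 2) := Real.exp_pos _
  set E := Real.exp (gp * mF s x v ρ ^ 2) with hEdef
  have ha0 := aF_nonneg Y s x v ρ
  have hH1 : 1 ≤ Hf C2 v (aF Y s x v ρ) := one_le_Hf hC2 ha0
  have hD0 : 0 ≤ Hd C2 v (aF Y s x v ρ) := Hd_nonneg hC2 ha0
  have hDH : Hd C2 v (aF Y s x v ρ) ≤ (C2 + 12) * Hf C2 v (aF Y s x v ρ) := Hd_le hC2
  have hzn : 0 ≤ zF s x v ρ := div_nonneg (distG_nonneg _) hρ.le
  set a := aF Y s x v ρ with ha
  set H := Hf C2 v a with hH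
  set D := Hd C2 v a with hD
  set z := zF s x v ρ with hz
  set mm' := mF s x v ρ * m' with hmm
  have hHE : 0 ≤ H * E := by positivity
  -- the `G` part
  have hG : H * (E * (gp * (2 * mm'))) + k2r Y C2 gp Z1 s x v ρ ≤ 0 := by
    unfold k2r
    rw [← hEdef, ← ha, ← hH, ← hz]
    split_ifs with h
    · have h1 := hm2 h.1 (by linarith [h.2])
      have e : H * (E * (gp * (2 * mm'))) + gp / 2 * z ^ 2 / ρ * (H * E)
          = (H * E) * (gp * (2 * mm' + z ^ 2 / (2 * ρ))) := by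
        field_simp
      rw [e]
      refine mul_nonpos_of_nonneg_of_nonpos hHE (mul_nonpos_of_nonneg_of_nonpos hgp.le ?_)
      have h2 : 0 ≤ z ^ 2 / (2 * ρ) := by positivity
      linarith
    · have e : H * (E * (gp * (2 * mm'))) + 0 = (H * E) * (2 * gp) * mm' := by ring
      rw [e]
      exact mul_nonpos_of_nonneg_of_nonpos (by positivity) hm1
  have hC : 0 ≤ 80 * Y * (2 * C2 + 24) * (H * E) := by positivity
  rcases lt_or_ge (distG (xF s x v ρ)) (1 / 8) with h8 | h8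
  · -- near the lattice points
    have h1 : D * a' * E + k1r Y C2 gp s x v ρ ≤ 0 := by
      unfold k1r
      rw [← hEdef, ← ha]
      split_ifs with h
      · rw [ha1 h8 h.2]
        have e : D * -(a / ρ) * E + C2 * a / ρ * E = -((D - C2) * (a / ρ) * E) := by ring
        rw [e]
        have : 0 ≤ D - C2 := by
          rw [hD, Hd]
          have : 0 ≤ 12 * a * (v 0 ^ 2 + a ^ 2 + v 2 ^ 2) ^ 5 := by positivity
          linarith
        have h2 : 0 ≤ (D - C2) * (a / ρ) * E := by positivity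
        linarith
      · have h9 : ¬ |yF Y s x v ρ| < 2 * Y := fun h' => h ⟨h8, h'⟩
        rw [ha2 h8 h9]
        simp
    linarith
  · -- far from the lattice points
    have hk1 : k1r Y C2 gp s x v ρ = 0 := by
      unfold k1r
      rw [if_neg]
      intro h
      linarith [h.1]
    rw [hk1, zero_add]
    have hz8 : 1 / ρ ≤ 8 * z := by
      rw [hz, zF, div_le_iff₀ hρ]
      have : 8 * (distG (xF s x v ρ) / ρ) * ρ = 8 * distG (xF s x v ρ) := by field_simp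
      rw [this]
      linarith
    have hz0 : 0 < z := by
      have : 0 < 1 / ρ := by positivity
      linarith
    have hDa : D * a' ≤ D * (16 * Y * ‖v‖ + 4 * Y / ρ) := mul_le_mul_of_nonneg_left ha3 hD0
    rcases le_or_gt (2 * ‖v‖) z with hv | hv
    · -- slow
      have h1 := hm2 hv hz0
      have h2 : k2r Y C2 gp Z1 s x v ρ ≤ gp / 2 * z ^ 2 / ρ * (H * E) := by
        unfold k2r
        rw [← hEdef, ← ha, ← hH, ← hz]
        split_ifs
        · exact le_rfl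
        · positivity
      have h3 : 16 * Y * ‖v‖ + 4 * Y / ρ ≤ 40 * Y * z := by
        have h4 : 4 * Y / ρ = 4 * Y * (1 / ρ) := by ring
        rw [h4]
        have h5 : 4 * Y * (1 / ρ) ≤ 4 * Y * (8 * z) := mul_le_mul_of_nonneg_left hz8 (by positivity)
        have h6 : 16 * Y * ‖v‖ ≤ 16 * Y * (z / 2) :=
          mul_le_mul_of_nonneg_left (by linarith) (by positivity)
        linarith
      have h4 : D * a' ≤ (C2 + 12) * H * (40 * Y * z) := by
        refine hDa.trans ?_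
        refine mul_le_mul hDH h3 (by positivity) (by positivity)
      have h5 : (C2 + 12) * (40 * Y * z) ≤ gp / 2 * z ^ 2 / ρ := by
        have h6 : z / ρ * (ρ * (640 * Y * (C2 + 12))) ≤ z / ρ * gp :=
          mul_le_mul_of_nonneg_left ht1 (by positivity)
        have h7 : z / ρ * (ρ * (640 * Y * (C2 + 12))) = z * (640 * Y * (C2 + 12)) := by
          field_simp
        rw [h7] at h6
        have h8' : 1 ≤ 8 * z := by
          refine le_trans ?_ hz8
          rw [le_div_iff₀ hρ]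
          linarith
        have h9 : z / ρ * gp * 1 ≤ z / ρ * gp * (8 * z) :=
          mul_le_mul_of_nonneg_left h8' (by positivity)
        have e : gp / 2 * z ^ 2 / ρ = (z / ρ * gp * (8 * z)) / 16 := by
          field_simp
          ring
        rw [e]
        linarith
      have h6 : D * a' * E ≤ gp / 2 * z ^ 2 / ρ * (H * E) := by
        calc D * a' * E ≤ (C2 + 12) * H * (40 * Y * z) * E :=
              mul_le_mul_of_nonneg_right h4 hE.le
          _ = ((C2 + 12) * (40 * Y * z)) * (H * E) := by ring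
          _ ≤ _ := mul_le_mul_of_nonneg_right h5 hHE
      have h7 : H * (E * (gp * (2 * mm'))) ≤ -(gp * z ^ 2 / ρ * (H * E)) := by
        have e : H * (E * (gp * (2 * mm'))) = (H * E * (2 * gp)) * mm' := by ring
        rw [e]
        have h8' : (H * E * (2 * gp)) * mm' ≤ (H * E * (2 * gp)) * -(z ^ 2 / (2 * ρ)) :=
          mul_le_mul_of_nonneg_left h1 (by positivity)
        refine h8'.trans (le_of_eq ?_)
        field_simp
      have h8' : gp * z ^ 2 / ρ * (H * E) = gp / 2 * z ^ 2 / ρ * (H * E) + gp / 2 * z ^ 2 / ρ * (H * E) := by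
        ring
      linarith
    · -- fast
      have hv1 : 1 / ρ ≤ 16 * ‖v‖ := by linarith
      have hv4 : 4 * Y ≤ ‖v‖ := by
        have h5 : 64 * Y ≤ 1 / ρ := by
          rw [le_div_iff₀ hρ]; linarith
        linarith
      have h3 : 16 * Y * ‖v‖ + 4 * Y / ρ ≤ 80 * Y * ‖v‖ := by
        have h4 : 4 * Y / ρ = 4 * Y * (1 / ρ) := by ring
        rw [h4]
        have h5 : 4 * Y * (1 / ρ) ≤ 4 * Y * (16 * ‖v‖) :=
          mul_le_mul_of_nonneg_left hv1 (by positivity)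
        linarith
      have h4 : D * a' ≤ 80 * Y * ((2 * C2 + 24) * H) := by
        refine hDa.trans ((mul_le_mul_of_nonneg_left h3 hD0).trans ?_)
        have h5 : D * ‖v‖ ≤ (2 * C2 + 24) * H := Hd_mul_norm_le hC2 hY hv4
        have e : D * (80 * Y * ‖v‖) = 80 * Y * (D * ‖v‖) := by ring
        rw [e]
        exact mul_le_mul_of_nonneg_left h5 (by positivity)
      have h5 : D * a' * E ≤ 80 * Y * (2 * C2 + 24) * (H * E) := by
        calc D * a' * E ≤ 80 * Y * ((2 * C2 + 24) * H) * E := mul_le_mul_of_nonneg_right h4 hE.le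
          _ = _ := by ring
      linarith

theorem WF_deriv {C2 gp Z1 : ℝ} (hY : 1 ≤ Y) (hC2 : 0 ≤ C2) (hgp : 0 < gp) (hZ : 1 ≤ Z1)
    (hρ : 0 < ρ) (hρ1 : ρ ≤ 1) (ht1 : ρ * (640 * Y * (C2 + 12)) ≤ gp) (ht2 : ρ * (64 * Y) ≤ 1)
    (h1 : ∀ k, DifferentiableAt ℝ (ck Y s x v k) ρ)
    (h2 : ∀ k, DifferentiableAt ℝ (chk s x v k) ρ)
    (h3 : DifferentiableAt ℝ (aF Y s x v) ρ)
    (h4 : DifferentiableAt ℝ (fun ρ => distG (xF s x v ρ)) ρ)
    (h5 : DifferentiableAt ℝ (mF s x v) ρ) :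
    deriv (WF Y C2 gp s x v) ρ + (k1r Y C2 gp s x v ρ + k2r Y C2 gp Z1 s x v ρ)
      ≤ 80 * Y * (2 * C2 + 24) * WF Y C2 gp s x v ρ := by
  obtain ⟨a', ha, ha1, ha2, ha3⟩ := aF_deriv (by linarith) hρ h1 h2 h3
  obtain ⟨m', hm, hm1, hm2⟩ := mF_deriv hρ h4 h5
  have e1 : HasDerivAt (fun ρ => Hf C2 v (aF Y s x v ρ)) (Hd C2 v (aF Y s x v ρ) * a') ρ :=
    HasDerivAt.comp (h₂ := Hf C2 v) ρ (hasDerivAt_Hf C2 v (aF Y s x v ρ)) ha
  have e2 : HasDerivAt (fun ρ => Real.exp (gp * mF s x v ρ ^ 2))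
      (Real.exp (gp * mF s x v ρ ^ 2) * (gp * (2 * (mF s x v ρ * m')))) ρ := by
    have h6 := ((hm.fun_pow 2).const_mul gp).exp
    refine h6.congr_deriv ?_
    rw [show (2 : ℕ) - 1 = 1 from rfl, pow_one]
    push_cast
    ring
  have e3 := e1.fun_mul e2
  rw [WF_eq, e3.deriv]
  exact key_ineq hY hC2 hgp hZ hρ hρ1 ht1 ht2 ha1 ha2 ha3 hm1 hm2

end Crest.Agent.R68.X2.FlOm

namespace Crest.Agent.R68.X2

open FlOm

theorem flight_Om {Y C2 gp Z1 : ℝ} (hY : 1 ≤ Y) (hC2 : 0 ≤ C2) (hgp : 0 < gp) (hZ : 1 ≤ Z1) :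
    ∃ t0 C : ℝ, 0 < t0 ∧ t0 ≤ 1 ∧ 0 ≤ C ∧ ∀ s r : ℝ, 0 < s → s ≤ r → r ≤ t0 → ∀ (x : P2) (v : R3),
      OmE Y C2 gp r (x + (r - s) • bar v) v
        + ∫⁻ ρ in Ioo s r, (kap1 Y C2 gp ρ (x + (ρ - s) • bar v) v
          + kap2 Y C2 gp Z1 ρ (x + (ρ - s) • bar v) v)
      ≤ OmE Y C2 gp s x v
        + ∫⁻ ρ in Ioo s r, ENNReal.ofReal C * OmE Y C2 gp ρ (x + (ρ - s) • bar v) v := by
  refine ⟨min 1 (min (gp / (640 * Y * (C2 + 12))) (1 / (64 * Y))), 80 * Y * (2 * C2 + 24), ?_,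
    min_le_left _ _, by positivity, ?_⟩
  · have : 0 < gp / (640 * Y * (C2 + 12)) := by positivity
    have : 0 < 1 / (64 * Y) := by positivity
    positivity
  intro s r hs hsr hr x v
  set C := 80 * Y * (2 * C2 + 24) with hCdef
  have hC0 : 0 ≤ C := by positivity
  have hY0 : 0 ≤ Y := by linarith
  have hr1 : r ≤ 1 := hr.trans (min_le_left _ _)
  have hr2 : r ≤ gp / (640 * Y * (C2 + 12)) := hr.trans ((min_le_right _ _).trans (min_le_left _ _))
  have hr3 : r ≤ 1 / (64 * Y) := hr.trans ((min_le_right _ _).trans (min_le_right _ _))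
  rw [le_div_iff₀ (by positivity)] at hr2 hr3
  have hac := ac_WF (x := x) (v := v) C2 gp hY0 hs hsr
  have hcont := hac.continuousOn
  have hint := hac.intervalIntegrable_deriv
  have hftc := hac.integral_deriv_eq_sub
  have hW0 : ∀ ρ, 0 ≤ WF Y C2 gp s x v ρ := by
    intro ρ
    rw [WF_eq]
    have := one_le_Hf (v := v) hC2 (aF_nonneg Y s x v ρ)
    have h2 : 0 < Real.exp (gp * mF s x v ρ ^ 2) := Real.exp_pos _
    positivity
  have hWint : IntervalIntegrable (fun ρ => C * WF Y C2 gp s x v ρ) volume s r :=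
    (hcont.intervalIntegrable).const_mul C
  have hsub := hWint.sub hint
  rw [intervalIntegrable_iff_integrableOn_Ioo_of_le hsr] at hWint hsub
  have hWs : WF Y C2 gp s x v s = Om Y C2 gp s x v := by
    unfold WF xF
    simp
  -- pointwise a.e.
  have hae : ∀ᵐ ρ ∂(volume.restrict (Ioo s r)),
      k1r Y C2 gp s x v ρ + k2r Y C2 gp Z1 s x v ρ
        ≤ C * WF Y C2 gp s x v ρ - deriv (WF Y C2 gp s x v) ρ := by
    rw [ae_restrict_iff' measurableSet_Ioo]
    filter_upwards [ae_diff (x := x) (v := v) hY0 hs hsr] with ρ hd hρ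
    have hρI : ρ ∈ uIcc s r := by rw [uIcc_of_le hsr]; exact Ioo_subset_Icc_self hρ
    obtain ⟨g1, g2, g3, g4, g5⟩ := hd hρI
    have hρ0 : 0 < ρ := hs.trans hρ.1
    have ht1 : ρ * (640 * Y * (C2 + 12)) ≤ gp :=
      (mul_le_mul_of_nonneg_right hρ.2.le (by positivity)).trans hr2
    have ht2 : ρ * (64 * Y) ≤ 1 :=
      (mul_le_mul_of_nonneg_right hρ.2.le (by positivity)).trans hr3
    have := WF_deriv (Z1 := Z1) hY hC2 hgp hZ hρ0 (hρ.2.le.trans hr1) ht1 ht2 g1 g2 g3 g4 g5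
    linarith
  have hk0 : ∀ᵐ ρ ∂(volume.restrict (Ioo s r)),
      0 ≤ k1r Y C2 gp s x v ρ + k2r Y C2 gp Z1 s x v ρ := by
    rw [ae_restrict_iff' measurableSet_Ioo]
    refine Eventually.of_forall fun ρ hρ => ?_
    have hρ0 : 0 < ρ := hs.trans hρ.1
    have h1 := aF_nonneg Y s x v ρ
    have h2 := one_le_Hf (v := v) hC2 h1
    have h3 : 0 < Real.exp (gp * mF s x v ρ ^ 2) := Real.exp_pos _
    have h4 : 0 ≤ k1r Y C2 gp s x v ρ := by
      unfold k1r; split_ifs <;> positivity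
    have h5 : 0 ≤ k2r Y C2 gp Z1 s x v ρ := by
      unfold k2r
      split_ifs
      · have : 0 ≤ Hf C2 v (aF Y s x v ρ) := by linarith
        positivity
      · exact le_rfl
    linarith
  have hI : ∫ ρ in Ioo s r, (C * WF Y C2 gp s x v ρ - deriv (WF Y C2 gp s x v) ρ)
      = (∫ ρ in Ioo s r, C * WF Y C2 gp s x v ρ) -
        (WF Y C2 gp s x v r - WF Y C2 gp s x v s) := by
    have hint' := hint
    rw [intervalIntegrable_iff_integrableOn_Ioo_of_le hsr] at hint'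
    rw [integral_sub hWint hint', ← integral_Ioc_eq_integral_Ioo (f := deriv (WF Y C2 gp s x v)),
      ← intervalIntegral.integral_of_le hsr, hftc]
  have hk : ∫⁻ ρ in Ioo s r, (kap1 Y C2 gp ρ (x + (ρ - s) • bar v) v
          + kap2 Y C2 gp Z1 ρ (x + (ρ - s) • bar v) v)
      ≤ ENNReal.ofReal ((∫ ρ in Ioo s r, C * WF Y C2 gp s x v ρ) -
        (WF Y C2 gp s x v r - WF Y C2 gp s x v s)) := by
    rw [← hI, ofReal_integral_eq_lintegral_ofReal hsub
      (by filter_upwards [hae, hk0] with ρ h1 h2 using h2.trans h1)]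
    refine lintegral_mono_ae ?_
    filter_upwards [hae, ae_restrict_mem measurableSet_Ioo] with ρ h1 hρ
    have hρ0 : 0 < ρ := hs.trans hρ.1
    rw [kap1_eq, kap2_eq, ← ENNReal.ofReal_add]
    · exact ENNReal.ofReal_le_ofReal h1
    · have h3 : 0 < Real.exp (gp * mF s x v ρ ^ 2) := Real.exp_pos _
      have h1 := aF_nonneg Y s x v ρ
      unfold k1r; split_ifs <;> positivity
    · have h3 : 0 < Real.exp (gp * mF s x v ρ ^ 2) := Real.exp_pos _
      have h1 := aF_nonneg Y s x v ρ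
      have h2 := one_le_Hf (v := v) hC2 h1
      unfold k2r
      split_ifs
      · have : 0 ≤ Hf C2 v (aF Y s x v ρ) := by linarith
        positivity
      · exact le_rfl
  have hIW0 : 0 ≤ ∫ ρ in Ioo s r, C * WF Y C2 gp s x v ρ :=
    integral_nonneg fun ρ => mul_nonneg hC0 (hW0 ρ)
  have hRHS : ∫⁻ ρ in Ioo s r, ENNReal.ofReal C * OmE Y C2 gp ρ (x + (ρ - s) • bar v) v
      = ENNReal.ofReal (∫ ρ in Ioo s r, C * WF Y C2 gp s x v ρ) := by
    rw [ofReal_integral_eq_lintegral_ofReal hWint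
      (Eventually.of_forall fun ρ => mul_nonneg hC0 (hW0 ρ))]
    refine lintegral_congr fun ρ => ?_
    rw [ENNReal.ofReal_mul hC0]
    rfl
  have hLr : OmE Y C2 gp r (x + (r - s) • bar v) v = ENNReal.ofReal (WF Y C2 gp s x v r) := rfl
  have hdiff : 0 ≤ (∫ ρ in Ioo s r, C * WF Y C2 gp s x v ρ) -
        (WF Y C2 gp s x v r - WF Y C2 gp s x v s) := by
    rw [← hI]
    refine integral_nonneg_of_ae ?_
    filter_upwards [hae, hk0] with ρ h1 h2 using h2.trans h1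
  calc OmE Y C2 gp r (x + (r - s) • bar v) v
        + ∫⁻ ρ in Ioo s r, (kap1 Y C2 gp ρ (x + (ρ - s) • bar v) v
          + kap2 Y C2 gp Z1 ρ (x + (ρ - s) • bar v) v)
      ≤ ENNReal.ofReal (WF Y C2 gp s x v r) +
        ENNReal.ofReal ((∫ ρ in Ioo s r, C * WF Y C2 gp s x v ρ) -
        (WF Y C2 gp s x v r - WF Y C2 gp s x v s)) := by
        rw [hLr]; exact add_le_add le_rfl hk
    _ = ENNReal.ofReal (WF Y C2 gp s x v s) +
        ENNReal.ofReal (∫ ρ in Ioo s r, C * WF Y C2 gp s x v ρ) := by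
        rw [← ENNReal.ofReal_add (hW0 r) hdiff, ← ENNReal.ofReal_add (hW0 s) hIW0]
        congr 1
        ring
    _ = _ := by rw [hRHS, hWs]; rfl

end Crest.Agent.R68.X2
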