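import Mathlib
import Crest.Agent.R68.X2Fl3

/-!
# Row 68, PART X2 (helper180): integration by parts against the lane corrector, general form (file 4)
-/

set_option autoImplicit false
open MeasureTheory Set Filter
open scoped ENNReal NNReal Real Topology
open Crest.AnalysisR.VecCalc3 Crest.AnalysisR.PDE.Boltzmann

noncomputable section

namespace Crest.Agent.R68.X2.Fl

open Crest.Agent.R68.X

variable {P : Par} {t0 t1 t2 : ℝ} {x : P2} {v : R3}

theorem continuousOn_aF (hpos : ∀ t ∈ Icc t1 t2, 0 < P.dl + P.c * t) :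
    ContinuousOn (aF P t0 x v) (Icc t1 t2) := fun t ht =>
  (hasDerivAt_aF (hpos t ht).ne').continuousAt.continuousWithinAt

theorem ii_er' (h12 : t1 ≤ t2) (hpos : ∀ t ∈ Icc t1 t2, 0 < P.dl + P.c * t) (s : ℝ) {G : ℝ → ℝ}
    (hGc : ContinuousOn G (Icc t1 t2)) :
    IntervalIntegrable (fun t => er s (aF P t0 x v t) * G t) volume t1 t2 := by
  have hca := continuousOn_aF (P := P) (t0 := t0) (x := x) (v := v) hpos
  obtain ⟨C, hC⟩ := isCompact_Icc.exists_bound_of_continuousOn hca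
  refine ii_mul180 (C := C ^ 2) h12
    ((measurable_er s).comp_aemeasurable (hca.aemeasurable measurableSet_Icc)).aestronglyMeasurable
    (fun t ht => ?_) hGc
  refine (abs_er_le s _).trans ?_
  rw [← sq_abs (aF P t0 x v t)]
  exact pow_le_pow_left₀ (abs_nonneg _) (hC t ht) 2

/-- exact form; the label has to be small only where `G ≠ 0` -/
theorem lane_int' (hj : 1 ≤ P.j0) {s : ℝ} (hs : s = 1 ∨ s = -1) (h12 : t1 ≤ t2)
    (hpos : ∀ t ∈ Icc t1 t2, 0 < P.dl + P.c * t) {G : ℝ → ℝ}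
    (ha : ∀ t ∈ Icc t1 t2, G t ≠ 0 → |aF P t0 x v t| < P.dl) (hq : qF P t0 x v t1 ≠ 0)
    (hG : AbsolutelyContinuousOnInterval G t1 t2) :
    ∫ t in t1..t2, (chs P s (aF P t0 x v t) - 197 / 400) * G t =
      -(Cs s (aF P t0 x v t2) * (mF P t0 x v t2 * G t2) -
        Cs s (aF P t0 x v t1) * (mF P t0 x v t1 * G t1)) +
      (∫ t in t1..t2, Cs s (aF P t0 x v t) * deriv (fun τ => mF P t0 x v τ * G τ) t) +
      ∫ t in t1..t2, er s (aF P t0 x v t) * G t := by
  have h1 := (hpos t1 (left_mem_Icc.2 h12)).ne'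
  have hf := ac_Cs_aF (P := P) (t0 := t0) (x := x) (v := v) s h12 hpos
  have hg : AbsolutelyContinuousOnInterval (fun τ => mF P t0 x v τ * G τ) t1 t2 :=
    (ac_mF h12 hpos).mul hG
  have hGc := hG.continuousOn
  rw [uIcc_of_le h12] at hGc
  have key := hf.integral_mul_deriv_eq_deriv_mul hg
  have hae : ∀ᵐ t : ℝ, t ∈ uIoc t1 t2 →
      deriv (fun τ => Cs s (aF P t0 x v τ)) t * (mF P t0 x v t * G t) =
        -((chs P s (aF P t0 x v t) - 197 / 400) * G t) + er s (aF P t0 x v t) * G t := by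
    filter_upwards [ae_aF_ne (P := P) (t0 := t0) (x := x) (v := v) hj h12 hpos hq] with t ht htI
    rw [uIoc_of_le h12] at htI
    have htI' : t ∈ Icc t1 t2 := ⟨htI.1.le, htI.2⟩
    have hp := (hpos t htI').ne'
    have hqt := qF_ne h1 hp hq
    by_cases hG0 : G t = 0
    · rw [hG0]; ring
    · rw [(hasDerivAt_Cs_aF hj hs hp (ht htI') (ha t htI' hG0)).deriv]
      have := mF_mul (P := P) (t0 := t0) (x := x) (v := v) hj hp hqt
      linear_combination
        ((-(chs P s (aF P t0 x v t) - 197 / 400) + er s (aF P t0 x v t)) * G t) * this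
  have hI2 := ii_er' (P := P) (t0 := t0) (x := x) (v := v) h12 hpos s hGc
  have hI1 := ii_chs (P := P) (t0 := t0) (x := x) (v := v) h12 hpos s hGc
  have h3 : ∫ t in t1..t2, deriv (fun τ => Cs s (aF P t0 x v τ)) t * (mF P t0 x v t * G t) =
      -(∫ t in t1..t2, (chs P s (aF P t0 x v t) - 197 / 400) * G t) +
        ∫ t in t1..t2, er s (aF P t0 x v t) * G t := by
    have hI1n : IntervalIntegrable (fun t => -((chs P s (aF P t0 x v t) - 197 / 400) * G t))
        volume t1 t2 := hI1.neg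
    rw [intervalIntegral.integral_congr_ae hae, ← intervalIntegral.integral_neg,
      ← intervalIntegral.integral_add hI1n hI2]
  rw [h3] at key
  linarith [key]

/-- BOUND form -/
theorem lane_le' (hj : 1 ≤ P.j0) {s : ℝ} (hs : s = 1 ∨ s = -1) (h12 : t1 ≤ t2)
    (hpos : ∀ t ∈ Icc t1 t2, 0 < P.dl + P.c * t) {G : ℝ → ℝ}
    (ha : ∀ t ∈ Icc t1 t2, G t ≠ 0 → |aF P t0 x v t| < P.dl) (hq : qF P t0 x v t1 ≠ 0)
    (hG : AbsolutelyContinuousOnInterval G t1 t2)
    {E : ℝ → ℝ} (hE : IntervalIntegrable E volume t1 t2)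
    (hEb : ∀ t : ℝ, t ∈ Ioc t1 t2 →
      |aF P t0 x v t| ^ 3 / 2 * (|2 * P.c / (P.dl * qF P t0 x v t)| * |G t| +
        |mF P t0 x v t| * |deriv G t|) + aF P t0 x v t ^ 2 * |G t| ≤ E t) :
    |(∫ t in t1..t2, (chs P s (aF P t0 x v t) - 197 / 400) * G t) +
      (Cs s (aF P t0 x v t2) * (mF P t0 x v t2 * G t2) -
        Cs s (aF P t0 x v t1) * (mF P t0 x v t1 * G t1))| ≤ ∫ t in t1..t2, E t := by
  have h1 := (hpos t1 (left_mem_Icc.2 h12)).ne'
  rw [lane_int' hj hs h12 hpos ha hq hG]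
  have e1 : ∀ a b c d : ℝ, -(a - b) + c + d + (a - b) = c + d := by intros; ring
  rw [e1]
  have hGc := hG.continuousOn
  rw [uIcc_of_le h12] at hGc
  have hg : AbsolutelyContinuousOnInterval (fun τ => mF P t0 x v τ * G τ) t1 t2 :=
    (ac_mF h12 hpos).mul hG
  have hf := ac_Cs_aF (P := P) (t0 := t0) (x := x) (v := v) s h12 hpos
  have hI1 : IntervalIntegrable
      (fun t => Cs s (aF P t0 x v t) * deriv (fun τ => mF P t0 x v τ * G τ) t) volume t1 t2 :=
    hg.intervalIntegrable_deriv.continuousOn_mul hf.continuousOn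
  have hI2 := ii_er' (P := P) (t0 := t0) (x := x) (v := v) h12 hpos s hGc
  rw [← intervalIntegral.integral_add hI1 hI2]
  rw [← Real.norm_eq_abs]
  refine (intervalIntegral.norm_integral_le_of_norm_le h12 ?_ hE)
  filter_upwards [hG.ae_differentiableAt] with t hdG htI
  have htI' : t ∈ Icc t1 t2 := ⟨htI.1.le, htI.2⟩
  refine le_trans ?_ (hEb t htI)
  have hp := (hpos t htI').ne'
  have hd : deriv (fun τ => mF P t0 x v τ * G τ) t =
      2 * P.c / (P.dl * qF P t0 x v t) * G t + mF P t0 x v t * deriv G t :=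
    ((hasDerivAt_mF hp).fun_mul
      (hdG (by rw [uIcc_of_le h12]; exact htI')).hasDerivAt).deriv
  rw [hd, Real.norm_eq_abs]
  refine (abs_add_le _ _).trans (add_le_add ?_ ?_)
  · rw [abs_mul]
    refine mul_le_mul (abs_Cs_le s _) ?_ (abs_nonneg _) (by positivity)
    refine (abs_add_le _ _).trans ?_
    rw [abs_mul, abs_mul]
  · rw [abs_mul]
    exact mul_le_mul_of_nonneg_right (abs_er_le s _) (abs_nonneg _)

end Crest.Agent.R68.X2.Fl
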