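import Mathlib
import Crest.Agent.R68.X2Fl4
import Crest.Agent.R68.XDefs2
import Crest.Agent.R68.X2F0f

/-!
# Row 68, PART X2 (helper180): the corrected test function along flights
-/

set_option autoImplicit false
open MeasureTheory Set Filter
open scoped ENNReal NNReal Real Topology
open Crest.AnalysisR.VecCalc3 Crest.AnalysisR.PDE.Boltzmann

noncomputable section

namespace Crest.Agent.R68.X2.Fl

open Crest.Agent.R68.X

variable {X : XP} {P : Par} {C d1 Zs Vs : ℝ} {s r : ℝ} {x : P2} {v : R3} {ρ : ℝ}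

theorem zF_smul (hρ : ρ ≠ 0) : x + (ρ - s) • bar v = ρ • zF s x v ρ := by
  unfold zF
  rw [smul_smul, mul_inv_cancel₀ hρ, one_smul]

theorem norm_zF (hρ : 0 < ρ) : ‖x + (ρ - s) • bar v‖ = ρ * ‖zF s x v ρ‖ := by
  rw [zF_smul hρ.ne', norm_smul, Real.norm_of_nonneg hρ.le]

/-! ### the near-zone indicator along a flight -/

/-- near-zone indicator along a flight -/
def nI (Zs Vs s : ℝ) (x : P2) (v : R3) (ρ : ℝ) : ℝ := nearI Zs Vs ρ (x + (ρ - s) • bar v) v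

theorem nI_nonneg : 0 ≤ nI Zs Vs s x v ρ := by
  unfold nI nearI; split_ifs <;> norm_num

theorem nI_le_one : nI Zs Vs s x v ρ ≤ 1 := by
  unfold nI nearI; split_ifs <;> norm_num

theorem nI_eq_one (hρ : 0 < ρ) (hz : ‖zF s x v ρ‖ ≤ 4 * Zs) (hv : ‖v‖ ≤ 4 * Vs) :
    nI Zs Vs s x v ρ = 1 := by
  unfold nI nearI
  rw [if_pos]
  refine ⟨?_, hv⟩
  rw [norm_zF hρ]
  nlinarith

theorem measurable_nI : Measurable (nI Zs Vs s x v) := by
  unfold nI nearI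
  classical
  refine Measurable.ite ?_ measurable_const measurable_const
  have h1 : MeasurableSet {ρ : ℝ | ‖x + (ρ - s) • bar v‖ ≤ 4 * Zs * ρ} :=
    measurableSet_le (by fun_prop) (by fun_prop)
  exact h1.inter (MeasurableSet.const _)

theorem ii_nI : IntervalIntegrable (nI Zs Vs s x v) volume s r := by
  rw [intervalIntegrable_iff]
  refine IntegrableOn.of_bound (by simp [uIoc]) measurable_nI.aestronglyMeasurable 1
    (Eventually.of_forall fun ρ => ?_)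
  rw [Real.norm_of_nonneg nI_nonneg]
  exact nI_le_one

/-! ### the oscillating part along a flight -/

/-- oscillating part along a flight -/
def oF (X : XP) (P : Par) (d1 Zs Vs σ s : ℝ) (x : P2) (v : R3) (ρ : ℝ) : ℝ :=
  osc X P d1 Zs Vs σ ρ (x + (ρ - s) • bar v) v

theorem oF_eq (X : XP) (P : Par) (d1 Zs Vs σ s : ℝ) (x : P2) (v : R3) (ρ : ℝ) :
    oF X P d1 Zs Vs σ s x v ρ = ρ⁻¹ * gW X P d1 Zs Vs σ v (zF s x v ρ) := by
  unfold oF zF
  rw [osc_eq]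

variable {g : P2 → ℝ} {Cb CL R V : ℝ}

theorem inv_ac (h : BL g Cb CL R) (hR : 0 ≤ R) (hs : 0 < s) (hsr : s ≤ r) :
    AbsolutelyContinuousOnInterval (fun ρ => ρ⁻¹ * g (zF s x v ρ)) s r := by
  have h1 : AbsolutelyContinuousOnInterval (fun ρ : ℝ => ρ⁻¹) s r := by
    apply ContDiffOn.absolutelyContinuousOnInterval
    rw [uIcc_of_le hsr]
    exact contDiffOn_id.inv fun y hy => (hs.trans_le hy.1).ne'
  exact h1.mul (h.ac hR hs hsr)

theorem inv_bound (h : BL g Cb CL R) (hρ : 0 < ρ) : |ρ⁻¹ * g (zF s x v ρ)| ≤ Cb / ρ := by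
  rw [abs_mul, abs_of_pos (inv_pos.2 hρ), div_eq_inv_mul]
  exact mul_le_mul_of_nonneg_left (h.b _) (inv_pos.2 hρ).le

theorem inv_deriv (h : BL g Cb CL R) (hR : 0 ≤ R) (hv : ‖v‖ ≤ V) (hρ : 0 < ρ) :
    |deriv (fun ρ => ρ⁻¹ * g (zF s x v ρ)) ρ| ≤ (Cb + 2 * CL * (V + R)) / ρ ^ 2 := by
  have hV : 0 ≤ V := (norm_nonneg v).trans hv
  have hCL := h.CL0
  have hCb := h.Cb0
  by_cases hd : DifferentiableAt ℝ (fun ρ => ρ⁻¹ * g (zF s x v ρ)) ρ
  · have h1 : deriv (fun ρ => g (zF s x v ρ)) ρ =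
        ρ⁻¹ * g (zF s x v ρ) + ρ * deriv (fun ρ => ρ⁻¹ * g (zF s x v ρ)) ρ := by
      have h2 := (hasDerivAt_id ρ).fun_mul hd.hasDerivAt
      have h3 : (fun ρ => g (zF s x v ρ)) =ᶠ[𝓝 ρ] fun ρ => id ρ * (ρ⁻¹ * g (zF s x v ρ)) := by
        filter_upwards [eventually_ne_nhds hρ.ne'] with a ha
        rw [id, ← mul_assoc, mul_inv_cancel₀ ha, one_mul]
      rw [h3.deriv_eq, h2.deriv]
      simp
    have h4 := h.deriv_le (s := s) (x := x) hR hv hρ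
    have h5 := inv_bound (s := s) (x := x) (v := v) h hρ
    have h6 : ρ * |deriv (fun ρ => ρ⁻¹ * g (zF s x v ρ)) ρ| ≤ (Cb + 2 * CL * (V + R)) / ρ := by
      have h7 : ρ * deriv (fun ρ => ρ⁻¹ * g (zF s x v ρ)) ρ =
          deriv (fun ρ => g (zF s x v ρ)) ρ - ρ⁻¹ * g (zF s x v ρ) := by rw [h1]; ring
      calc ρ * |deriv (fun ρ => ρ⁻¹ * g (zF s x v ρ)) ρ|
          = |ρ * deriv (fun ρ => ρ⁻¹ * g (zF s x v ρ)) ρ| := by
            rw [abs_mul, abs_of_pos hρ]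
        _ ≤ |deriv (fun ρ => g (zF s x v ρ)) ρ| + |ρ⁻¹ * g (zF s x v ρ)| := by
            rw [h7]; exact abs_sub _ _
        _ ≤ 2 * CL * (V + R) / ρ + Cb / ρ := add_le_add h4 h5
        _ = _ := by ring
    rw [pow_two, ← div_div, le_div_iff₀ hρ, mul_comm]
    exact h6
  · rw [deriv_zero_of_not_differentiableAt hd, abs_zero]
    positivity

theorem inv_deriv_zero (h : BL g Cb CL R) (hρ : 0 < ρ) (hz : R < ‖zF s x v ρ‖) :
    deriv (fun ρ => ρ⁻¹ * g (zF s x v ρ)) ρ = 0 := by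
  have h1 : (fun ρ => ρ⁻¹ * g (zF s x v ρ)) =ᶠ[𝓝 ρ] fun _ => (0 : ℝ) := by
    have h2 : ContinuousAt (fun ρ => ‖zF s x v ρ‖) ρ := (continuousAt_zF hρ.ne').norm
    filter_upwards [h2.eventually_const_lt hz] with a ha
    rw [h.z _ ha.le, mul_zero]
  rw [h1.deriv_eq]
  simp

/-! ### label and relative velocity in the near zone -/

theorem abs_aF_le (hP : P.Ok) (hρ : 0 < ρ) {Z : ℝ} (hz : ‖zF s x v ρ‖ ≤ Z) :
    |aF P s x v ρ| ≤ Z * ρ := by
  have hd := dl_pos (le_trans (by norm_num) hP.j0 : 1 ≤ P.j0)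
  have hc := hP.c0
  have h0 : 0 < P.dl + P.c * ρ := by positivity
  unfold aF lab
  rw [zF_smul hρ.ne', Prod.smul_fst, smul_eq_mul, abs_div, abs_mul, abs_mul, abs_of_pos hd,
    abs_of_pos hρ, abs_of_pos h0, div_le_iff₀ h0]
  have h1 := (abs_fst_le (zF s x v ρ)).trans hz
  have h2 : 0 ≤ Z := (norm_nonneg _).trans hz
  have h3 : ρ * |(zF s x v ρ).1| ≤ ρ * Z := mul_le_mul_of_nonneg_left h1 hρ.le
  have h4 : 0 ≤ Z * ρ * (P.c * ρ) := by positivity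
  nlinarith

theorem qF_lower (hP : P.Ok) (hρ : 0 < ρ) {Z d : ℝ} (hz : ‖zF s x v ρ‖ ≤ Z) (hv : d / 2 ≤ |v 0|)
    (ht : 4 * P.c * (Z * ρ) ≤ d * P.dl) : d / 4 ≤ |qF P s x v ρ| := by
  have hd := dl_pos (le_trans (by norm_num) hP.j0 : 1 ≤ P.j0)
  have hc := hP.c0
  have h0 : 0 < P.dl + P.c * ρ := by positivity
  have h1 := (abs_fst_le (zF s x v ρ)).trans hz
  have h2 : 0 ≤ Z := (norm_nonneg _).trans hz
  have h3 : |P.c * (x + (ρ - s) • bar v).1 / (P.dl + P.c * ρ)| ≤ d / 4 := by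
    rw [zF_smul hρ.ne', Prod.smul_fst, smul_eq_mul, abs_div, abs_mul, abs_mul, abs_of_pos hc,
      abs_of_pos hρ, abs_of_pos h0, div_le_iff₀ h0]
    have h4 : P.c * (ρ * |(zF s x v ρ).1|) ≤ P.c * (ρ * Z) :=
      mul_le_mul_of_nonneg_left (mul_le_mul_of_nonneg_left h1 hρ.le) hc.le
    have h5 : 0 ≤ d := by
      by_contra hneg
      push Not at hneg
      have : d * P.dl < 0 := mul_neg_of_neg_of_pos hneg hd
      have : 0 ≤ 4 * P.c * (Z * ρ) := by positivity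
      linarith
    have h6 : 0 ≤ d * (P.c * ρ) := by positivity
    nlinarith
  unfold qF
  have h7 := abs_sub_abs_le_abs_sub (v 0) (P.c * (x + (ρ - s) • bar v).1 / (P.dl + P.c * ρ))
  linarith

/-- constants -/
def CE (X : XP) (P : Par) (C Zs Vs : ℝ) : ℝ :=
  4 * Zs ^ 3 * (8 * P.c / (P.dl * X.d) * CbW P C Zs Vs +
    4 * (P.dl + P.c) / (P.dl * X.d) * (CbW P C Zs Vs + 2 * ClW P C Zs Vs * (2 * Vs + 2 * Zs))) +
    4 * Zs ^ 2 * CbW P C Zs Vs

theorem CE_nonneg (hP : P.Ok) (hC : 0 ≤ C) (hd : 0 < X.d) (hZs : 1 ≤ Zs) (hVs : 1 ≤ Vs) :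
    0 ≤ CE X P C Zs Vs := by
  have hdl := dl_pos (le_trans (by norm_num) hP.j0 : 1 ≤ P.j0)
  have hc := hP.c0
  have hK := hP.K0
  have hey := hP.ey0
  have hZ : 0 < Zs := by linarith
  have hV : 0 < Vs := by linarith
  have h1 : 0 ≤ CbW P C Zs Vs := by unfold CbW; positivity
  have h2 : 0 ≤ ClW P C Zs Vs := by unfold ClW; positivity
  unfold CE
  positivity

/-- pointwise bound of the error in the integration by parts -/
theorem err_le (hP : P.Ok) (hF : F0H X C) (hd : 0 < X.d) (hd0 : 0 < d1) (hd1 : d1 < 1)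
    (hZs : 1 ≤ Zs) (hVs : 1 ≤ Vs) {σ : ℝ} (hσ : |σ| = 1) (hρ : 0 < ρ) (hρ1 : ρ ≤ 1)
    (ht : 4 * P.c * (2 * Zs * ρ) ≤ X.d * P.dl) :
    |aF P s x v ρ| ^ 3 / 2 * (|2 * P.c / (P.dl * qF P s x v ρ)| * |oF X P d1 Zs Vs σ s x v ρ| +
      |mF P s x v ρ| * |deriv (oF X P d1 Zs Vs σ s x v) ρ|) +
      aF P s x v ρ ^ 2 * |oF X P d1 Zs Vs σ s x v ρ| ≤ CE X P C Zs Vs * nI Zs Vs s x v ρ := by
  have hdl := dl_pos (le_trans (by norm_num) hP.j0 : 1 ≤ P.j0)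
  have hc := hP.c0
  have hC0 : 0 ≤ C := zero_le_one.trans hF.C1
  have hE := CE_nonneg (X := X) hP hC0 hd hZs hVs
  have hB := BL_gW hP.K0 hP.ey0 hZs hVs hF hd0 hd1 hσ v
  have hCb := hB.Cb0
  have hCL := hB.CL0
  have hfun : oF X P d1 Zs Vs σ s x v = fun ρ => ρ⁻¹ * gW X P d1 Zs Vs σ v (zF s x v ρ) := by
    ext ρ; rw [oF_eq]
  have hzero : ∀ {G0 G1 : ℝ}, G0 = 0 → G1 = 0 →
      |aF P s x v ρ| ^ 3 / 2 * (|2 * P.c / (P.dl * qF P s x v ρ)| * |G0| +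
        |mF P s x v ρ| * |G1|) + aF P s x v ρ ^ 2 * |G0| ≤ CE X P C Zs Vs * nI Zs Vs s x v ρ := by
    intro G0 G1 h0 h1
    rw [h0, h1, abs_zero, mul_zero, mul_zero, add_zero, mul_zero, mul_zero, add_zero]
    exact mul_nonneg hE nI_nonneg
  -- trivial cases
  rcases le_or_gt (2 * Vs) ‖v‖ with hv | hv
  · have h0 : oF X P d1 Zs Vs σ s x v = fun _ => 0 := by
      rw [hfun]; ext ρ
      unfold gW
      rw [th_eq_zero_v (by linarith) hv, zero_mul, mul_zero]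
    refine hzero ?_ ?_
    · rw [h0]
    · rw [h0]; simp
  rcases le_or_gt |v 0| (X.d / 2) with hv0 | hv0
  · have h0 : oF X P d1 Zs Vs σ s x v = fun _ => 0 := by
      rw [hfun]; ext ρ
      unfold gW
      rw [th_eq_zero_d hd hv0, zero_mul, mul_zero]
    refine hzero ?_ ?_
    · rw [h0]
    · rw [h0]; simp
  rcases lt_or_ge (2 * Zs) ‖zF s x v ρ‖ with hz | hz
  · refine hzero ?_ ?_
    · rw [oF_eq, hB.z _ hz.le, mul_zero]
    · rw [hfun]; exact inv_deriv_zero hB hρ hz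
  -- main case
  have hnI : nI Zs Vs s x v ρ = 1 := nI_eq_one hρ (by linarith) (by linarith)
  rw [hnI, mul_one]
  have ha := abs_aF_le (P := P) hP hρ hz
  have hq := qF_lower (d := X.d) hP hρ hz hv0.le ht
  have hq0 : 0 < |qF P s x v ρ| := lt_of_lt_of_le (by positivity) hq
  have hG : |oF X P d1 Zs Vs σ s x v ρ| ≤ CbW P C Zs Vs / ρ := by
    rw [oF_eq]; exact inv_bound hB hρ
  have hG' : |deriv (oF X P d1 Zs Vs σ s x v) ρ| ≤
      (CbW P C Zs Vs + 2 * ClW P C Zs Vs * (2 * Vs + 2 * Zs)) / ρ ^ 2 := by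
    rw [hfun]; exact inv_deriv hB (by positivity) hv.le hρ
  have h2c : |2 * P.c / (P.dl * qF P s x v ρ)| ≤ 8 * P.c / (P.dl * X.d) := by
    rw [abs_div, abs_mul, abs_mul, abs_two, abs_of_pos hc, abs_of_pos hdl,
      div_le_div_iff₀ (by positivity) (by positivity)]
    have : P.c * P.dl * X.d ≤ P.c * P.dl * (4 * |qF P s x v ρ|) :=
      mul_le_mul_of_nonneg_left (by linarith) (by positivity)
    nlinarith
  have hm : |mF P s x v ρ| ≤ 4 * (P.dl + P.c) / (P.dl * X.d) := by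
    unfold mF
    have hp : 0 < P.dl + P.c * ρ := by positivity
    rw [abs_div, abs_mul, abs_of_pos hdl, abs_of_pos hp,
      div_le_div_iff₀ (by positivity) (by positivity)]
    have h1 : P.dl + P.c * ρ ≤ P.dl + P.c := by
      have : P.c * ρ ≤ P.c * 1 := mul_le_mul_of_nonneg_left hρ1 hc.le
      linarith
    calc (P.dl + P.c * ρ) * (P.dl * X.d) ≤ (P.dl + P.c) * (P.dl * (4 * |qF P s x v ρ|)) := by
          gcongr
          linarith
      _ = _ := by ring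
  have ha3 : |aF P s x v ρ| ^ 3 / 2 ≤ 4 * Zs ^ 3 * ρ ^ 3 := by
    have : |aF P s x v ρ| ^ 3 ≤ (2 * Zs * ρ) ^ 3 := pow_le_pow_left₀ (abs_nonneg _) ha 3
    calc |aF P s x v ρ| ^ 3 / 2 ≤ (2 * Zs * ρ) ^ 3 / 2 := by linarith
      _ = _ := by ring
  have ha2 : aF P s x v ρ ^ 2 ≤ 4 * Zs ^ 2 * ρ ^ 2 := by
    rw [← sq_abs (aF P s x v ρ)]
    calc |aF P s x v ρ| ^ 2 ≤ (2 * Zs * ρ) ^ 2 := pow_le_pow_left₀ (abs_nonneg _) ha 2
      _ = _ := by ring
  have hA0 : 0 ≤ 8 * P.c / (P.dl * X.d) := by positivity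
  have hB0 : 0 ≤ 4 * (P.dl + P.c) / (P.dl * X.d) := by positivity
  set B := 4 * (P.dl + P.c) / (P.dl * X.d)
  set A := 8 * P.c / (P.dl * X.d)
  set b := CbW P C Zs Vs
  set b' := b + 2 * ClW P C Zs Vs * (2 * Vs + 2 * Zs)
  have hb' : 0 ≤ b' := by positivity
  have hZ0 : 0 < Zs := by linarith
  calc _ ≤ 4 * Zs ^ 3 * ρ ^ 3 * (A * (b / ρ) + B * (b' / ρ ^ 2)) + 4 * Zs ^ 2 * ρ ^ 2 * (b / ρ) := by
        apply add_le_add
        · apply mul_le_mul ha3 _ (by positivity) (by positivity)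
          exact add_le_add (mul_le_mul h2c hG (abs_nonneg _) hA0)
            (mul_le_mul hm hG' (abs_nonneg _) hB0)
        · exact mul_le_mul ha2 hG (abs_nonneg _) (by positivity)
    _ = 4 * Zs ^ 3 * (A * b) * ρ ^ 2 + 4 * Zs ^ 3 * (B * b') * ρ + 4 * Zs ^ 2 * b * ρ := by
        field_simp
    _ ≤ 4 * Zs ^ 3 * (A * b) * 1 + 4 * Zs ^ 3 * (B * b') * 1 + 4 * Zs ^ 2 * b * 1 := by
        have : ρ ^ 2 ≤ 1 := pow_le_one₀ hρ.le hρ1
        gcongr
    _ = CE X P C Zs Vs := by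
        unfold CE
        ring

/-- increment of one corrector term -/
theorem corr_one (hP : P.Ok) (hF : F0H X C) (hd : 0 < X.d) (hd0 : 0 < d1) (hd1 : d1 < 1)
    (hZs : 1 ≤ Zs) (hVs : 1 ≤ Vs) {σ : ℝ} (hσ : σ = 1 ∨ σ = -1) (hs : 0 < s) (hsr : s ≤ r)
    (hr1 : r ≤ 1) (ht1 : 4 * P.c * (2 * Zs * r) ≤ X.d * P.dl) (ht2 : 2 * Zs * r < P.dl) :
    -(∫ ρ in s..r, (chs P σ (aF P s x v ρ) - 197 / 400) * oF X P d1 Zs Vs σ s x v ρ) -
      (∫ ρ in s..r, CE X P C Zs Vs * nI Zs Vs s x v ρ) ≤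
      Cs σ (aF P s x v r) * (mF P s x v r * oF X P d1 Zs Vs σ s x v r) -
        Cs σ (aF P s x v s) * (mF P s x v s * oF X P d1 Zs Vs σ s x v s) := by
  have hj : 1 ≤ P.j0 := le_trans (by norm_num) hP.j0
  have hdl := dl_pos hj
  have hc := hP.c0
  have hC0 : 0 ≤ C := zero_le_one.trans hF.C1
  have hE := CE_nonneg (X := X) hP hC0 hd hZs hVs
  have hσ' : |σ| = 1 := by rcases hσ with rfl | rfl <;> norm_num
  have hB := BL_gW hP.K0 hP.ey0 hZs hVs hF hd0 hd1 hσ' v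
  have hfun : oF X P d1 Zs Vs σ s x v = fun ρ => ρ⁻¹ * gW X P d1 Zs Vs σ v (zF s x v ρ) := by
    ext ρ; rw [oF_eq]
  have hpos : ∀ t ∈ Icc s r, 0 < P.dl + P.c * t := fun t ht => by
    have : 0 < t := hs.trans_le ht.1
    positivity
  have hsmall : ∀ t ∈ Icc s r, 4 * P.c * (2 * Zs * t) ≤ X.d * P.dl := fun t ht => by
    refine le_trans ?_ ht1
    have h0 : t ≤ r := ht.2
    gcongr
  have hsupp : ∀ t ∈ Icc s r, oF X P d1 Zs Vs σ s x v t ≠ 0 →
      ‖zF s x v t‖ ≤ 2 * Zs ∧ X.d / 2 ≤ |v 0| := by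
    intro t _ hne
    constructor
    · by_contra h
      push Not at h
      exact hne (by rw [oF_eq, hB.z _ h.le, mul_zero])
    · by_contra h
      push Not at h
      apply hne
      rw [oF_eq]
      unfold gW
      rw [th_eq_zero_d hd h.le, zero_mul, mul_zero]
  by_cases hq : qF P s x v s = 0
  · -- degenerate: everything vanishes
    have hq' : ∀ t ∈ Icc s r, qF P s x v t = 0 := by
      intro t ht
      by_contra hne
      exact qF_ne (hpos t ht).ne' (hpos s (left_mem_Icc.2 hsr)).ne' hne hq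
    have hG0 : ∀ t ∈ Icc s r, oF X P d1 Zs Vs σ s x v t = 0 := by
      intro t ht
      by_contra hne
      obtain ⟨h1, h2⟩ := hsupp t ht hne
      have h3 := qF_lower (d := X.d) hP (hs.trans_le ht.1) h1 h2 (hsmall t ht)
      rw [hq' t ht, abs_zero] at h3
      linarith
    have hi : ∫ ρ in s..r, (chs P σ (aF P s x v ρ) - 197 / 400) * oF X P d1 Zs Vs σ s x v ρ = 0 := by
      rw [intervalIntegral.integral_congr (g := fun _ => (0 : ℝ))]
      · simp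
      · intro t ht
        rw [uIcc_of_le hsr] at ht
        simp only
        rw [hG0 t ht, mul_zero]
    rw [hi, hG0 r (right_mem_Icc.2 hsr), hG0 s (left_mem_Icc.2 hsr)]
    have : 0 ≤ ∫ ρ in s..r, CE X P C Zs Vs * nI Zs Vs s x v ρ :=
      intervalIntegral.integral_nonneg hsr fun t _ => mul_nonneg hE nI_nonneg
    simp only [mul_zero, sub_zero, neg_zero, zero_sub]
    linarith
  · have hac : AbsolutelyContinuousOnInterval (oF X P d1 Zs Vs σ s x v) s r := by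
      rw [hfun]; exact inv_ac hB (by positivity) hs hsr
    have h := lane_le' (P := P) (t0 := s) (x := x) (v := v) hj hσ hsr hpos
      (G := oF X P d1 Zs Vs σ s x v) (fun t ht hne => by
        obtain ⟨h1, _⟩ := hsupp t ht hne
        refine lt_of_le_of_lt (abs_aF_le hP (hs.trans_le ht.1) h1) (lt_of_le_of_lt ?_ ht2)
        exact mul_le_mul_of_nonneg_left ht.2 (by positivity)) hq hac
      (E := fun ρ => CE X P C Zs Vs * nI Zs Vs s x v ρ) (ii_nI.const_mul _)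
      (fun t ht => by
        have ht' : t ∈ Icc s r := ⟨ht.1.le, ht.2⟩
        exact err_le hP hF hd hd0 hd1 hZs hVs hσ' (hs.trans ht.1) (ht.2.trans hr1) (hsmall t ht'))
    have h2 := (abs_le.1 h).1
    linarith

/-! ### the third term -/

theorem BL_ramp (hZs : 1 ≤ Zs) : BL (fun z : P2 => ramp (‖z‖ / (2 * Zs))) 1 1 (4 * Zs) where
  b := fun z => abs_ramp_le _
  l := fun z z' => by
    have hZ0 : 0 < 2 * Zs := by linarith
    refine (abs_ramp_sub _ _).trans ?_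
    rw [← sub_div, abs_div, abs_of_pos hZ0, one_mul]
    exact (div_le_self (abs_nonneg _) (by linarith)).trans (abs_norm_sub_norm_le _ _)
  z := fun z hz => by
    apply ramp_eq_zero
    rw [le_div_iff₀ (by linarith)]
    linarith

/-- the third term along a flight -/
def hF3 (Cg Zs Vs s : ℝ) (x : P2) (v : R3) (ρ : ℝ) : ℝ :=
  Cg * ρ ^ 2 * (ramp (‖ρ⁻¹ • (x + (ρ - s) • bar v)‖ / (2 * Zs)) * ramp (‖v‖ / (2 * Vs)))

theorem third (hZs : 1 ≤ Zs) (hVs : 1 ≤ Vs) (Cg : ℝ) (hs : 0 < s) (hsr : s ≤ r) (hr1 : r ≤ 1) :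
    -(∫ ρ in s..r, |Cg| * (2 + 8 * (Vs + Zs)) * nI Zs Vs s x v ρ) ≤
      hF3 Cg Zs Vs s x v r - hF3 Cg Zs Vs s x v s := by
  have hC : 0 ≤ |Cg| * (2 + 8 * (Vs + Zs)) := by positivity
  rcases le_or_gt (4 * Vs) ‖v‖ with hv | hv
  · have h0 : ∀ ρ, hF3 Cg Zs Vs s x v ρ = 0 := fun ρ => by
      unfold hF3
      rw [ramp_eq_zero (a := ‖v‖ / (2 * Vs)) (by rw [le_div_iff₀ (by linarith)]; linarith)]
      ring
    rw [h0, h0, sub_zero]
    have : 0 ≤ ∫ ρ in s..r, |Cg| * (2 + 8 * (Vs + Zs)) * nI Zs Vs s x v ρ :=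
      intervalIntegral.integral_nonneg hsr fun t _ => mul_nonneg hC nI_nonneg
    linarith
  · have hB := BL_ramp (Zs := Zs) hZs
    have hag : AbsolutelyContinuousOnInterval
        (fun ρ => ramp (‖zF s x v ρ‖ / (2 * Zs))) s r := hB.ac (by positivity) hs hsr
    have hac2 : AbsolutelyContinuousOnInterval
        (fun ρ : ℝ => Cg * ramp (‖v‖ / (2 * Vs)) * ρ ^ 2) s r :=
      ContDiffOn.absolutelyContinuousOnInterval (ContDiff.contDiffOn (by fun_prop))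
    have hac := hac2.mul hag
    have e : (fun ρ : ℝ => Cg * ramp (‖v‖ / (2 * Vs)) * ρ ^ 2) *
        (fun ρ => ramp (‖zF s x v ρ‖ / (2 * Zs))) = hF3 Cg Zs Vs s x v := by
      ext ρ
      simp only [Pi.mul_apply, hF3, zF]
      ring
    rw [e] at hac
    have h1 := hac.integral_deriv_eq_sub
    rw [← h1, ← intervalIntegral.integral_neg]
    refine intervalIntegral.integral_mono_ae_restrict hsr (ii_nI.const_mul _).neg
      hac.intervalIntegrable_deriv ?_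
    rw [EventuallyLE, ae_restrict_iff' measurableSet_Icc]
    filter_upwards [hag.ae_differentiableAt] with ρ hdg hρI
    have hρ : 0 < ρ := hs.trans_le hρI.1
    have hρ1 : ρ ≤ 1 := hρI.2.trans hr1
    have hdg' := (hdg (by rw [uIcc_of_le hsr]; exact hρI)).hasDerivAt
    have hd2 : HasDerivAt (fun ρ : ℝ => Cg * ramp (‖v‖ / (2 * Vs)) * ρ ^ 2)
        (Cg * ramp (‖v‖ / (2 * Vs)) * (2 * ρ)) ρ := by
      refine ((hasDerivAt_pow 2 ρ).const_mul _).congr_deriv ?_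
      norm_num
    have hd3 := (hd2.fun_mul hdg').deriv
    have e' : (fun ρ : ℝ => Cg * ramp (‖v‖ / (2 * Vs)) * ρ ^ 2 * ramp (‖zF s x v ρ‖ / (2 * Zs))) =
        hF3 Cg Zs Vs s x v := by
      ext ρ
      simp only [hF3, zF]
      ring
    rw [e'] at hd3
    rw [hd3]
    rcases lt_or_ge (4 * Zs) ‖zF s x v ρ‖ with hz | hz
    · rw [hB.deriv_zero hρ hz, hB.z _ hz.le]
      have : 0 ≤ |Cg| * (2 + 8 * (Vs + Zs)) * nI Zs Vs s x v ρ := mul_nonneg hC nI_nonneg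
      simp only [mul_zero, add_zero]
      linarith
    · rw [nI_eq_one hρ hz hv.le, mul_one]
      have hb1 := hB.deriv_le (s := s) (x := x) (by positivity) hv.le hρ
      have hb2 := hB.b (zF s x v ρ)
      have hr2 := abs_ramp_le (‖v‖ / (2 * Vs))
      set D := deriv (fun ρ => ramp (‖zF s x v ρ‖ / (2 * Zs))) ρ with hD
      have h5 : |Cg * ramp (‖v‖ / (2 * Vs)) * (2 * ρ) * ramp (‖zF s x v ρ‖ / (2 * Zs)) +
          Cg * ramp (‖v‖ / (2 * Vs)) * ρ ^ 2 * D| ≤ |Cg| * (2 + 8 * (Vs + Zs)) := by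
        refine (abs_add_le _ _).trans ?_
        simp only [abs_mul]
        rw [abs_of_pos (by norm_num : (0 : ℝ) < 2), abs_of_pos hρ,
          abs_of_pos (by positivity : 0 < ρ ^ 2)]
        have h6 : |Cg| * |ramp (‖v‖ / (2 * Vs))| * (2 * ρ) * |ramp (‖zF s x v ρ‖ / (2 * Zs))| ≤
            |Cg| * 1 * (2 * 1) * 1 := by
          gcongr
        have h7 : |Cg| * |ramp (‖v‖ / (2 * Vs))| * ρ ^ 2 * |D| ≤
            |Cg| * 1 * ρ ^ 2 * (2 * 1 * (4 * Vs + 4 * Zs) / ρ) := by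
          gcongr
        have h8 : |Cg| * 1 * ρ ^ 2 * (2 * 1 * (4 * Vs + 4 * Zs) / ρ) =
            |Cg| * (8 * (Vs + Zs)) * ρ := by
          field_simp
          ring
        have h9 : |Cg| * (8 * (Vs + Zs)) * ρ ≤ |Cg| * (8 * (Vs + Zs)) * 1 := by gcongr
        rw [h8] at h7
        calc _ ≤ |Cg| * 1 * (2 * 1) * 1 + |Cg| * (8 * (Vs + Zs)) * 1 :=
              add_le_add h6 (h7.trans h9)
          _ = _ := by ring
      exact (abs_le.1 h5).1

/-! ### the corrected test function -/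

theorem gL_eq (Cg : ℝ) (ρ : ℝ) : gL X P d1 Zs Vs Cg ρ (x + (ρ - s) • bar v) v =
    psi0 X ρ (x + (ρ - s) • bar v) v +
      (Cs 1 (aF P s x v ρ) * (mF P s x v ρ * oF X P d1 Zs Vs 1 s x v ρ) +
        Cs (-1) (aF P s x v ρ) * (mF P s x v ρ * oF X P d1 Zs Vs (-1) s x v ρ)) +
      hF3 Cg Zs Vs s x v ρ := by
  have h : corr X P d1 Zs Vs ρ (x + (ρ - s) • bar v) v =
      mF P s x v ρ * (Cs 1 (aF P s x v ρ) * oF X P d1 Zs Vs 1 s x v ρ +
        Cs (-1) (aF P s x v ρ) * oF X P d1 Zs Vs (-1) s x v ρ) := rfl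
  unfold gL
  rw [h]
  unfold hF3
  ring

theorem Lg_eq (C' : ℝ) : (fun ρ => Lg X P d1 Zs Vs C' ρ (x + (ρ - s) • bar v) v) = fun ρ =>
    ρ⁻¹ * L0 X (zF s x v ρ) v
      - (chs P 1 (aF P s x v ρ) - 197 / 400) * oF X P d1 Zs Vs 1 s x v ρ
      - (chs P (-1) (aF P s x v ρ) - 197 / 400) * oF X P d1 Zs Vs (-1) s x v ρ
      - C' * nI Zs Vs s x v ρ := rfl

/-- the flight inequality -/
theorem flight_gL' (hP : P.Ok) (hF : F0H X C) (hd : 0 < X.d) (hd0 : 0 < d1) (hd1 : d1 < 1)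
    (hZs : 1 ≤ Zs) (hVs : 1 ≤ Vs) (Cg : ℝ) :
    ∃ t0 C' : ℝ, 0 < t0 ∧ 0 ≤ C' ∧ ∀ s r : ℝ, 0 < s → s ≤ r → r ≤ t0 → ∀ (x : P2) (v : R3),
      IntervalIntegrable (fun ρ => Lg X P d1 Zs Vs C' ρ (x + (ρ - s) • bar v) v) volume s r ∧
      ∫ ρ in s..r, Lg X P d1 Zs Vs C' ρ (x + (ρ - s) • bar v) v ≤
        gL X P d1 Zs Vs Cg r (x + (r - s) • bar v) v - gL X P d1 Zs Vs Cg s x v := by
  have hj : 1 ≤ P.j0 := le_trans (by norm_num) hP.j0
  have hdl := dl_pos hj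
  have hc := hP.c0
  have hC0 : 0 ≤ C := zero_le_one.trans hF.C1
  have hE := CE_nonneg (X := X) hP hC0 hd hZs hVs
  have hZ0 : 0 < Zs := by linarith
  refine ⟨min 1 (min (P.dl / (4 * Zs)) (X.d * P.dl / (8 * P.c * Zs))),
    2 * CE X P C Zs Vs + |Cg| * (2 + 8 * (Vs + Zs)), by positivity, by positivity, ?_⟩
  intro s r hs hsr hr x v
  have hr0 : 0 < r := hs.trans_le hsr
  have hr1 : r ≤ 1 := hr.trans (min_le_left _ _)
  have hr2 : r ≤ P.dl / (4 * Zs) := hr.trans ((min_le_right _ _).trans (min_le_left _ _))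
  have hr3 : r ≤ X.d * P.dl / (8 * P.c * Zs) :=
    hr.trans ((min_le_right _ _).trans (min_le_right _ _))
  rw [le_div_iff₀ (by positivity)] at hr2 hr3
  have ht1 : 4 * P.c * (2 * Zs * r) ≤ X.d * P.dl := by linarith
  have ht2 : 2 * Zs * r < P.dl := by nlinarith
  have hpos : ∀ t ∈ Icc s r, 0 < P.dl + P.c * t := fun t ht => by
    have : 0 < t := hs.trans_le ht.1
    positivity
  obtain ⟨i0, e0⟩ := psi0_flight (x := x) (v := v) X hs hsr
  have iG : ∀ σ : ℝ, |σ| = 1 → IntervalIntegrable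
      (fun ρ => (chs P σ (aF P s x v ρ) - 197 / 400) * oF X P d1 Zs Vs σ s x v ρ) volume s r := by
    intro σ hσ
    have hB := BL_gW hP.K0 hP.ey0 hZs hVs hF hd0 hd1 hσ v
    have hfun : oF X P d1 Zs Vs σ s x v = fun ρ => ρ⁻¹ * gW X P d1 Zs Vs σ v (zF s x v ρ) := by
      ext ρ; rw [oF_eq]
    have hac : AbsolutelyContinuousOnInterval (oF X P d1 Zs Vs σ s x v) s r := by
      rw [hfun]; exact inv_ac hB (by positivity) hs hsr
    have hcont := hac.continuousOn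
    rw [uIcc_of_le hsr] at hcont
    exact ii_chs (P := P) (t0 := s) (x := x) (v := v) hsr hpos σ hcont
  have i1 := iG 1 (by norm_num)
  have i2 := iG (-1) (by norm_num)
  have i3 : IntervalIntegrable (fun ρ => (2 * CE X P C Zs Vs + |Cg| * (2 + 8 * (Vs + Zs))) *
      nI Zs Vs s x v ρ) volume s r := ii_nI.const_mul _
  rw [Lg_eq]
  refine ⟨((i0.sub i1).sub i2).sub i3, ?_⟩
  rw [intervalIntegral.integral_sub ((i0.sub i1).sub i2) i3,
    intervalIntegral.integral_sub (i0.sub i1) i2, intervalIntegral.integral_sub i0 i1, e0,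
    intervalIntegral.integral_const_mul]
  have c1 := corr_one (x := x) (v := v) hP hF hd hd0 hd1 hZs hVs (σ := 1) (Or.inl rfl) hs hsr hr1
    ht1 ht2
  have c2 := corr_one (x := x) (v := v) hP hF hd hd0 hd1 hZs hVs (σ := -1) (Or.inr rfl) hs hsr hr1
    ht1 ht2
  have c3 := third (x := x) (v := v) hZs hVs Cg hs hsr hr1
  rw [intervalIntegral.integral_const_mul] at c1 c2 c3
  have g1 := gL_eq (X := X) (P := P) (d1 := d1) (Zs := Zs) (Vs := Vs) (s := s) (x := x) (v := v) Cg r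
  have g2 := gL_eq (X := X) (P := P) (d1 := d1) (Zs := Zs) (Vs := Vs) (s := s) (x := x) (v := v) Cg s
  have hxs : x + (s - s) • bar v = x := by simp
  rw [hxs] at g2
  rw [g1, g2]
  linarith

end Crest.Agent.R68.X2.Fl

namespace Crest.Agent.R68.X2

/-- from the conclusion of `f0_facts` -/
theorem F0H_of {X : XP} (h : ∃ C : ℝ, 1 ≤ C ∧ (∀ z v, 0 ≤ f0 X z v ∧ f0 X z v ≤ C) ∧
      (∀ z v, f0 X z v ≠ 0 → ‖z‖ ≤ C ∧ ‖v‖ ≤ C ∧ X.d ≤ |v 0|) ∧
      (∀ z v z' v', |f0 X z v - f0 X z' v'| ≤ C * (‖z - z'‖ + ‖v - v'‖))) :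
    ∃ C, Fl.F0H X C := by
  obtain ⟨C, h1, h2, _, h4⟩ := h
  exact ⟨C, h1, fun z v => (h2 z v).1, fun z v => (h2 z v).2, h4⟩

/-- `XIface.flight_gL`, from bounds and Lipschitz property of `f0` -/
theorem flight_gL_of {X : XP} {P : Par} {Y ey N d1 Zs Vs : ℝ} (hF : ∃ C, Fl.F0H X C)
    (h : LowOK X P Y ey N d1 Zs Vs) (Cg : ℝ) :
    ∃ t0 C : ℝ, 0 < t0 ∧ 0 ≤ C ∧ ∀ s r : ℝ, 0 < s → s ≤ r → r ≤ t0 → ∀ (x : P2) (v : R3),
      IntervalIntegrable (fun ρ => Lg X P d1 Zs Vs C ρ (x + (ρ - s) • bar v) v) volume s r ∧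
      ∫ ρ in s..r, Lg X P d1 Zs Vs C ρ (x + (ρ - s) • bar v) v ≤
        gL X P d1 Zs Vs Cg r (x + (r - s) • bar v) v - gL X P d1 Zs Vs Cg s x v := by
  obtain ⟨C, hF⟩ := hF
  exact Fl.flight_gL' h.ok hF h.d0 h.d10 h.d11 h.Zs1 h.Vs1 Cg

/-- `XIface.flight_gL` -/
theorem flight_gL {X : XP} {P : Par} {Y ey N d1 Zs Vs : ℝ} (h : LowOK X P Y ey N d1 Zs Vs) (Cg : ℝ) :
    ∃ t0 C : ℝ, 0 < t0 ∧ 0 ≤ C ∧ ∀ s r : ℝ, 0 < s → s ≤ r → r ≤ t0 → ∀ (x : P2) (v : R3),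
      IntervalIntegrable (fun ρ => Lg X P d1 Zs Vs C ρ (x + (ρ - s) • bar v) v) volume s r ∧
      ∫ ρ in s..r, Lg X P d1 Zs Vs C ρ (x + (ρ - s) • bar v) v ≤
        gL X P d1 Zs Vs Cg r (x + (r - s) • bar v) v - gL X P d1 Zs Vs Cg s x v :=
  flight_gL_of (F0H_of (X := X) (f0_facts h.tent X.B X.d h.B1 h.d0)) h Cg

end Crest.Agent.R68.X2
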