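import Crest.Agent.R68.XDefs
import Crest.Agent.R68.FSum

/-!
# Row 68, PART X2, frame block (helper779): `Yc`, measurability and periodicity of `OmE`
-/

set_option autoImplicit false
open MeasureTheory Set Filter
open scoped ENNReal Real
open Crest.AnalysisR.VecCalc3 Crest.AnalysisR.PDE.Boltzmann

noncomputable section

namespace Crest.Agent.R68.X2

open Crest.Agent.R68.L (Den phiE Gf Dam TL sol)
open Crest.Agent.R68.A (Meas3)

/-! ### cut-offs -/

theorem cut8_nonneg (r : ℝ) : 0 ≤ cut8 r := le_max_left _ _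

theorem cut8_le_one (r : ℝ) : cut8 r ≤ 1 := max_le zero_le_one (min_le_left _ _)

theorem cut8_eq_one {r : ℝ} (h : r ≤ 1 / 8) : cut8 r = 1 := by
  unfold cut8
  rw [min_eq_left (by linarith), max_eq_right zero_le_one]

theorem cut8_eq_zero {r : ℝ} (h : 1 / 4 ≤ r) : cut8 r = 0 := by
  unfold cut8
  rw [max_eq_left]
  exact (min_le_right _ _).trans (by linarith)

theorem cut8_lip (r s : ℝ) : |cut8 r - cut8 s| ≤ 8 * |r - s| := by
  unfold cut8
  refine (abs_max_sub_max_le_max _ _ _ _).trans ?_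
  rw [sub_self, abs_zero, max_eq_right (abs_nonneg _)]
  refine (abs_min_sub_min_le_max _ _ _ _).trans ?_
  rw [sub_self, abs_zero, max_eq_right (abs_nonneg _)]
  rw [show 2 - 8 * r - (2 - 8 * s) = -(8 * (r - s)) by ring, abs_neg, abs_mul]
  norm_num

theorem abs_clamp_le {b : ℝ} (hb : 0 ≤ b) (y : ℝ) : |clamp b y| ≤ b := by
  unfold clamp
  rw [abs_le]
  exact ⟨le_max_left _ _, max_le (by linarith) (min_le_left _ _)⟩

theorem clamp_lip (b y z : ℝ) : |clamp b y - clamp b z| ≤ |y - z| := by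
  unfold clamp
  refine (abs_max_sub_max_le_max _ _ _ _).trans ?_
  rw [sub_self, abs_zero, max_eq_right (abs_nonneg _)]
  refine (abs_min_sub_min_le_max _ _ _ _).trans ?_
  rw [sub_self, abs_zero, max_eq_right (abs_nonneg _)]

theorem clamp_eq_self {b y : ℝ} (h : |y| ≤ b) : clamp b y = y := by
  unfold clamp
  obtain ⟨h1, h2⟩ := abs_le.1 h
  rw [min_eq_right h2, max_eq_right h1]

theorem clamp_of_le {b y : ℝ} (hb : 0 ≤ b) (h : b ≤ y) : clamp b y = b := by
  unfold clamp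
  rw [min_eq_left h, max_eq_right (by linarith)]

theorem clamp_of_ge {b y : ℝ} (hb : 0 ≤ b) (h : y ≤ -b) : clamp b y = -b := by
  unfold clamp
  rw [min_eq_right (by linarith), max_eq_left h]

theorem measurable_cut8 : Measurable cut8 := by unfold cut8; fun_prop

theorem measurable_clamp (b : ℝ) : Measurable (clamp b) := by unfold clamp; fun_prop

/-- the terms of `Yc` -/
def Yt (Y t : ℝ) (x : P2) (k : ℤ × ℤ) : ℝ :=
  cut8 ‖x + latt k‖ * clamp (2 * Y) ((x + latt k).2 / t)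

theorem Yc_eq (Y t : ℝ) (x : P2) : Yc Y t x = ∑' k : ℤ × ℤ, Yt Y t x k := rfl

theorem norm_lt_of_Yt {Y t : ℝ} {x : P2} {k : ℤ × ℤ} (h : Yt Y t x k ≠ 0) :
    ‖x + latt k‖ < 1 / 4 := by
  by_contra h1
  push Not at h1
  exact h (by unfold Yt; rw [cut8_eq_zero h1, zero_mul])

theorem Yt_unique {Y t : ℝ} {x : P2} {k l : ℤ × ℤ} (hk : Yt Y t x k ≠ 0) (hl : Yt Y t x l ≠ 0) :
    k = l :=
  latt_unique ((norm_lt_of_Yt hk).trans (by norm_num)) ((norm_lt_of_Yt hl).trans (by norm_num))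

/-- only the lattice point close to `x` contributes -/
theorem Yc_eq_Yt {Y t : ℝ} {x : P2} {k : ℤ × ℤ} (hk : ‖x + latt k‖ < 7 / 20) :
    Yc Y t x = Yt Y t x k := by
  rw [Yc_eq, tsum_eq_single k]
  intro l hl
  by_contra h1
  exact hl (latt_unique ((norm_lt_of_Yt h1).trans (by norm_num)) hk)

/-- `XIface.Yc_near` -/
theorem Yc_near {Y t : ℝ} {x : P2} {k : ℤ × ℤ} (hx : ‖x + latt k‖ ≤ 1 / 8) :
    Yc Y t x = clamp (2 * Y) ((x + latt k).2 / t) := by
  rw [Yc_eq_Yt (lt_of_le_of_lt hx (by norm_num)), Yt, cut8_eq_one hx, one_mul]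

theorem Yc_far {Y t : ℝ} {x : P2} (hx : 1 / 4 ≤ distG x) : Yc Y t x = 0 := by
  rw [Yc_eq]
  have : ∀ k, Yt Y t x k = 0 := by
    intro k
    unfold Yt
    rw [cut8_eq_zero (hx.trans (distG_le x k)), zero_mul]
  simp [this]

theorem abs_Yt_le {Y : ℝ} (hY : 0 ≤ Y) (t : ℝ) (x : P2) (k : ℤ × ℤ) : |Yt Y t x k| ≤ 2 * Y := by
  unfold Yt
  rw [abs_mul, abs_of_nonneg (cut8_nonneg _)]
  have h1 := abs_clamp_le (b := 2 * Y) (by positivity) ((x + latt k).2 / t)
  have h2 := cut8_le_one ‖x + latt k‖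
  have h3 := cut8_nonneg ‖x + latt k‖
  calc _ ≤ 1 * (2 * Y) := mul_le_mul h2 h1 (abs_nonneg _) zero_le_one
    _ = _ := one_mul _

/-- `XIface.abs_Yc_le` -/
theorem abs_Yc_le {Y : ℝ} (hY : 0 ≤ Y) (t : ℝ) (x : P2) : |Yc Y t x| ≤ 2 * Y := by
  by_cases h : ∃ k, Yt Y t x k ≠ 0
  · obtain ⟨k, hk⟩ := h
    rw [Yc_eq_Yt ((norm_lt_of_Yt hk).trans (by norm_num))]
    exact abs_Yt_le hY t x k
  · push Not at h
    rw [Yc_eq]
    simp only [h, tsum_zero, abs_zero]
    positivity

theorem Yc_add_latt (Y t : ℝ) (x : P2) (l : ℤ × ℤ) : Yc Y t (x + latt l) = Yc Y t x := by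
  rw [Yc_eq, Yc_eq, ← (Equiv.addLeft l).tsum_eq (fun k => Yt Y t x k)]
  refine tsum_congr fun k => ?_
  rw [Equiv.coe_addLeft]
  unfold Yt
  rw [latt_add, add_assoc]

/-! ### measurability -/

theorem measurable_Yt (Y : ℝ) (k : ℤ × ℤ) : Measurable fun p : ℝ × P2 => Yt Y p.1 p.2 k := by
  unfold Yt
  refine Measurable.mul (measurable_cut8.comp ?_) ((measurable_clamp _).comp ?_)
  · exact (measurable_snd.add_const _).norm
  · exact (measurable_snd.comp (measurable_snd.add_const _)).div measurable_fst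

theorem measurable_Yc (Y : ℝ) : Measurable fun p : ℝ × P2 => Yc Y p.1 p.2 := by
  have e : (fun p : ℝ × P2 => Yc Y p.1 p.2) = fun p =>
      (∑' k, ENNReal.ofReal (Yt Y p.1 p.2 k)).toReal -
        (∑' k, ENNReal.ofReal (-Yt Y p.1 p.2 k)).toReal := by
    funext p
    rw [← Fuel.ofReal_tsum_one _ fun i j hi hj => Yt_unique hi hj,
      ← Fuel.ofReal_tsum_one (fun k => -Yt Y p.1 p.2 k) fun i j hi hj =>
        Yt_unique (neg_ne_zero.1 hi) (neg_ne_zero.1 hj), tsum_neg, Yc_eq]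
    exact (Fuel_toReal_sub _)
  rw [e]
  refine Measurable.sub ?_ ?_
  · exact (Measurable.tsum fun k => (measurable_Yt Y k).ennreal_ofReal).ennreal_toReal
  · exact (Measurable.tsum fun k => (measurable_Yt Y k).neg.ennreal_ofReal).ennreal_toReal
where
  Fuel_toReal_sub (a : ℝ) : a = (ENNReal.ofReal a).toReal - (ENNReal.ofReal (-a)).toReal := by
    rcases le_total 0 a with h | h
    · rw [ENNReal.toReal_ofReal h, ENNReal.ofReal_of_nonpos (by linarith)]; simp
    · rw [ENNReal.ofReal_of_nonpos h, ENNReal.toReal_ofReal (by linarith)]; simp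

theorem measurable_fr {α : Type*} [MeasurableSpace α] {f : α → ℝ} {g : α → R3} (hf : Measurable f)
    (hg : Measurable g) : Measurable fun a => fr (f a) (g a) := by
  unfold fr
  exact hg.sub (Fuel.measurable_vec measurable_const hf measurable_const)

theorem frm_continuous_fr : Continuous fun p : ℝ × R3 => fr p.1 p.2 := by
  unfold fr
  refine continuous_snd.sub ?_
  refine (PiLp.continuous_toLp 2 _).comp (continuous_pi fun i => ?_)
  fin_cases i
  · exact continuous_const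
  · exact continuous_fst
  · exact continuous_const

theorem frm_continuous_hh (C2 : ℝ) : Continuous (hh C2) := by unfold hh; fun_prop

theorem frm_measurable_hh (C2 : ℝ) : Measurable (hh C2) := (frm_continuous_hh C2).measurable

theorem hh_pos {C2 : ℝ} (h : 0 ≤ C2) (q : R3) : 1 ≤ hh C2 q := by
  unfold hh
  have : 0 ≤ C2 * |q 1| := by positivity
  have : 0 ≤ ‖q‖ ^ 12 := by positivity
  linarith

theorem measurable_mm : Measurable fun p : ℝ × P2 × R3 => mm p.1 p.2.1 p.2.2 := by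
  unfold mm
  exact (measurable_snd.comp measurable_snd).norm.max
    ((measurable_distG.comp (measurable_fst.comp measurable_snd)).div measurable_fst)

theorem measurable_Om (Y C2 gp : ℝ) :
    Measurable fun p : ℝ × P2 × R3 => Om Y C2 gp p.1 p.2.1 p.2.2 := by
  unfold Om
  have h1 : Measurable fun p : ℝ × P2 × R3 => ((p.1, p.2.1) : ℝ × P2) :=
    measurable_fst.prodMk (measurable_fst.comp measurable_snd)
  have h2 := (measurable_Yc Y).comp h1
  have h3 : Measurable fun p : ℝ × P2 × R3 => p.2.2 := measurable_snd.comp measurable_snd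
  have h4 := measurable_fr h2 h3
  have h5 := (frm_measurable_hh C2).comp h4
  exact h5.mul (Real.measurable_exp.comp ((measurable_mm.pow_const 2).const_mul gp))

/-- `XIface.meas3_OmE` -/
theorem meas3_OmE (Y C2 gp : ℝ) : Meas3 (OmE Y C2 gp) := (measurable_Om Y C2 gp).ennreal_ofReal

theorem mm_add_latt (t : ℝ) (x : P2) (v : R3) (k : ℤ × ℤ) : mm t (x + latt k) v = mm t x v := by
  unfold mm
  rw [distG_add_latt]

/-- `XIface.perG_OmE` -/
theorem perG_OmE (Y C2 gp t : ℝ) (v : R3) : PerG (fun x => OmE Y C2 gp t x v) := by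
  intro x k
  show OmE Y C2 gp t (x + latt k) v = OmE Y C2 gp t x v
  unfold OmE Om
  rw [Yc_add_latt, mm_add_latt]

/-! ### Lipschitz bounds of `Yc` -/

/-- near the lattice point `k`: difference of two values of `Yc` -/
theorem abs_Yc_sub_le {Y : ℝ} (hY : 0 ≤ Y) {t t' : ℝ} {x x' : P2} {k : ℤ × ℤ}
    (hk : ‖x + latt k‖ < 7 / 20) (hk' : ‖x' + latt k‖ < 7 / 20) :
    |Yc Y t x - Yc Y t' x'| ≤ 16 * Y * ‖x - x'‖ +
      |(x + latt k).2 / t - (x' + latt k).2 / t'| := by
  rw [Yc_eq_Yt hk, Yc_eq_Yt hk']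
  unfold Yt
  set a := cut8 ‖x + latt k‖
  set a' := cut8 ‖x' + latt k‖
  set c := clamp (2 * Y) ((x + latt k).2 / t)
  set c' := clamp (2 * Y) ((x' + latt k).2 / t')
  have h1 : |a - a'| ≤ 8 * ‖x - x'‖ := by
    refine (cut8_lip _ _).trans ?_
    have h2 := abs_norm_sub_norm_le (x + latt k) (x' + latt k)
    rw [add_sub_add_right_eq_sub] at h2
    linarith
  have h2 : |c - c'| ≤ |(x + latt k).2 / t - (x' + latt k).2 / t'| := clamp_lip _ _ _
  have h3 : |c| ≤ 2 * Y := abs_clamp_le (by positivity) _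
  have h4 : 0 ≤ a' := cut8_nonneg _
  have h5 : a' ≤ 1 := cut8_le_one _
  have e : a * c - a' * c' = (a - a') * c + a' * (c - c') := by ring
  rw [e]
  refine (abs_add_le _ _).trans ?_
  rw [abs_mul, abs_mul, abs_of_nonneg h4]
  have h6 : |a - a'| * |c| ≤ 8 * ‖x - x'‖ * (2 * Y) :=
    mul_le_mul h1 h3 (abs_nonneg _) (by positivity)
  have h7 : a' * |c - c'| ≤ 1 * |(x + latt k).2 / t - (x' + latt k).2 / t'| :=
    mul_le_mul h5 h2 (abs_nonneg _) zero_le_one
  linarith

end Crest.Agent.R68.X2
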