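import Crest.Agent.R68.X2Meas
import Crest.Agent.R68.XDefs2
import Crest.Agent.R68.X2Frame

/-!
# Row 68, PART X2: measurability, periodicity, support, bounds, second part (helper60)
-/

set_option autoImplicit false
open MeasureTheory Set Filter
open scoped ENNReal Real
open Crest.AnalysisR.VecCalc3 Crest.AnalysisR.PDE.Boltzmann

noncomputable section

namespace Crest.Agent.R68.X2.M60

open Crest.Agent.R68.X2 Crest.Agent.R68.X2.Flt60

open Crest.Agent.R68.L (Den phiE Gf Dam TL sol)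
open Crest.Agent.R68.A (Meas3)
open Crest.Agent.R68.X (chs Cs)

/-! ### the transport gains -/

theorem measurable_Yc3 (Y : ℝ) : Measurable fun p : ℝ × P2 × R3 => Yc Y p.1 p.2.1 := by
  have h := (measurable_Yc Y).comp
    (measurable_fst.prodMk (measurable_fst.comp measurable_snd) :
      Measurable fun p : ℝ × P2 × R3 => ((p.1, p.2.1) : ℝ × P2))
  exact h

theorem measurable_fr3 (Y : ℝ) : Measurable fun p : ℝ × P2 × R3 => fr (Yc Y p.1 p.2.1) p.2.2 :=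
  measurable_fr (measurable_Yc3 Y) (measurable_snd.comp measurable_snd)

theorem measurable_distG3 : Measurable fun p : ℝ × P2 × R3 => distG p.2.1 :=
  measurable_distG.comp (measurable_fst.comp measurable_snd)

theorem meas3_kap1 (Y C2 gp : ℝ) : Meas3 (kap1 Y C2 gp) := by
  have h1 := measurable_Yc3 Y
  have h2 : Measurable fun p : ℝ × P2 × R3 => fr (Yc Y p.1 p.2.1) p.2.2 1 := by
    have h3 : Continuous fun q : R3 => q 1 := by fun_prop
    exact h3.measurable.comp (measurable_fr3 Y)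
  have h4 : Measurable fun p : ℝ × P2 × R3 => C2 * |fr (Yc Y p.1 p.2.1) p.2.2 1| / p.1 *
      Real.exp (gp * mm p.1 p.2.1 p.2.2 ^ 2) :=
    (((continuous_abs.measurable.comp h2).const_mul C2).div measurable_fst).mul
      (Real.measurable_exp.comp ((measurable_mm.pow_const 2).const_mul gp))
  have hs : MeasurableSet {p : ℝ × P2 × R3 | distG p.2.1 < 1 / 8 ∧ |Yc Y p.1 p.2.1| < 2 * Y} :=
    (measurableSet_lt measurable_distG3 measurable_const).inter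
      (measurableSet_lt (continuous_abs.measurable.comp h1) measurable_const)
  exact Measurable.ite hs h4.ennreal_ofReal measurable_const

theorem meas3_kap2 (Y C2 gp Z1 : ℝ) : Meas3 (kap2 Y C2 gp Z1) := by
  have h1 : Measurable fun p : ℝ × P2 × R3 => distG p.2.1 / p.1 :=
    measurable_distG3.div measurable_fst
  have h4 : Measurable fun p : ℝ × P2 × R3 => gp / 2 * (distG p.2.1 / p.1) ^ 2 / p.1 *
      Om Y C2 gp p.1 p.2.1 p.2.2 :=
    ((((h1.pow_const 2).const_mul (gp / 2)).div measurable_fst)).mul (measurable_Om Y C2 gp)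
  have h5 : Measurable fun p : ℝ × P2 × R3 => 2 * ‖p.2.2‖ :=
    ((measurable_snd.comp measurable_snd).norm).const_mul 2
  have hs : MeasurableSet {p : ℝ × P2 × R3 | 2 * ‖p.2.2‖ ≤ distG p.2.1 / p.1 ∧
      Z1 ≤ distG p.2.1 / p.1} :=
    (measurableSet_le h5 h1).inter (measurableSet_le measurable_const h1)
  exact Measurable.ite hs h4.ennreal_ofReal measurable_const

theorem perG_kap1 (Y C2 gp t : ℝ) (v : R3) : PerG fun x => kap1 Y C2 gp t x v := by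
  intro x k
  show kap1 Y C2 gp t (x + latt k) v = kap1 Y C2 gp t x v
  unfold kap1
  rw [Yc_add_latt, mm_add_latt, distG_add_latt]

theorem perG_kap2 (Y C2 gp Z1 t : ℝ) (v : R3) : PerG fun x => kap2 Y C2 gp Z1 t x v := by
  intro x k
  show kap2 Y C2 gp Z1 t (x + latt k) v = kap2 Y C2 gp Z1 t x v
  unfold kap2 Om
  rw [Yc_add_latt, mm_add_latt, distG_add_latt]

/-- `XIface.PW_eq_MW` -/
theorem PW_eq_MW {P : Par} (hP : P.Ok) {X : XP} {H : Den} (mH : Meas3 H)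
    (pH : ∀ t v, PerG (fun x => H t x v)) (t : ℝ) :
    PW (GA (phiE P) (psiE X)) H t = MW (GA (phiE P) (psiP X)) H t :=
  plane_GA_eq hP mH pH t

theorem PW_psi_eq {X : XP} {H : Den} (mH : Meas3 H) (pH : ∀ t v, PerG (fun x => H t x v))
    (t : ℝ) : PW (psiE X) H t = MW (psiP X) H t := plane_psi_eq mH pH t

/-! ### size and support of `f0`, `L0` -/

theorem cutB_nonneg (B w : ℝ) : 0 ≤ cutB B w := by unfold cutB; positivity

theorem cutB_le_one (B w : ℝ) : cutB B w ≤ 1 := by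
  unfold cutB
  have h1 : max 0 (1 - w ^ 2 / B ^ 2) ≤ 1 := max_le zero_le_one (by
    have : 0 ≤ w ^ 2 / B ^ 2 := by positivity
    linarith)
  have h2 : 0 ≤ max 0 (1 - w ^ 2 / B ^ 2) := le_max_left _ _
  nlinarith

theorem lamd_nonneg (d a : ℝ) : 0 ≤ lamd d a := le_max_left _ _

theorem lamd_le_one (d a : ℝ) : lamd d a ≤ 1 := max_le zero_le_one (min_le_left _ _)

theorem ramp_nonneg (r : ℝ) : 0 ≤ ramp r := le_max_left _ _

theorem ramp_le_one (r : ℝ) : ramp r ≤ 1 := max_le zero_le_one (min_le_left _ _)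

theorem ramp_zero {r : ℝ} (h : 2 ≤ r) : ramp r = 0 := by
  unfold ramp
  rw [max_eq_left]
  exact (min_le_right _ _).trans (by linarith)

theorem ramp_one {r : ℝ} (h : r ≤ 1) : ramp r = 1 := by
  unfold ramp
  rw [min_eq_left (by linarith), max_eq_right zero_le_one]

theorem tent_le (A Yp e y : ℝ) (he : 0 ≤ e) (q : R3) : tent A Yp e y q ≤ (1 + A) * Yp := by
  unfold tent
  have h1 := abs_nonneg ((1 + A) * y + q 1)
  have h2 : 0 ≤ e * ‖q‖ ^ 2 := by positivity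
  linarith

theorem f0_nonneg (X : XP) (z : P2) (v : R3) : 0 ≤ f0 X z v :=
  mul_nonneg (mul_nonneg (le_max_left _ _) (cutB_nonneg _ _)) (lamd_nonneg _ _)

theorem f0_le (X : XP) (he : 0 ≤ X.e) (z : P2) (v : R3) :
    f0 X z v ≤ max 0 ((1 + X.A) * X.Yp) := by
  unfold f0 tentp
  have h1 : max 0 (tent X.A X.Yp X.e z.2 (fr z.2 v)) ≤ max 0 ((1 + X.A) * X.Yp) :=
    max_le_max le_rfl (tent_le _ _ _ _ he _)
  have h0 : 0 ≤ max 0 (tent X.A X.Yp X.e z.2 (fr z.2 v)) := le_max_left _ _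
  calc max 0 (tent X.A X.Yp X.e z.2 (fr z.2 v)) * cutB X.B z.1 * lamd X.d (v 0)
      ≤ max 0 (tent X.A X.Yp X.e z.2 (fr z.2 v)) * 1 * 1 := by
        refine mul_le_mul (mul_le_mul_of_nonneg_left (cutB_le_one _ _) h0) (lamd_le_one _ _)
          (lamd_nonneg _ _) (by rw [mul_one]; exact h0)
    _ ≤ _ := by rw [mul_one, mul_one]; exact h1

/-- `L0` vanishes where `f0` does -/
theorem f0_ne_of_L0 {X : XP} {z : P2} {v : R3} (h : L0 X z v ≠ 0) : f0 X z v ≠ 0 := by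
  unfold L0 at h
  split_ifs at h with h0
  · intro h1
    unfold f0 tentp at h1
    rw [max_eq_right h0.le, mul_eq_zero, mul_eq_zero] at h1
    rcases h1 with (h1 | h1) | h1
    · exact h0.ne' h1
    · apply h
      have h2 : max 0 (1 - z.1 ^ 2 / X.B ^ 2) = 0 := by
        unfold cutB at h1
        exact pow_eq_zero_iff (two_ne_zero) |>.1 h1
      rw [h1, h2]; ring
    · apply h
      rw [h1]; ring
  · exact absurd rfl h

/-- pointwise bound of `L0` in terms of `‖z‖`, `‖v‖` -/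
theorem abs_L0_le' (X : XP) (hA : 0 ≤ X.A) (he : 0 ≤ X.e) (hB : 1 ≤ X.B) (z : P2) (v : R3) {R : ℝ}
    (hz : ‖z‖ ≤ R) (hv : ‖v‖ ≤ R) :
    |L0 X z v| ≤ X.A * (2 * R) + 2 * X.e * (2 * R) ^ 2 + max 0 ((1 + X.A) * X.Yp) * (8 * R ^ 2) := by
  have hR : 0 ≤ R := (norm_nonneg _).trans hz
  have hz2 : |z.2| ≤ R := (norm_snd_le z).trans hz
  have hz1 : |z.1| ≤ R := (norm_fst_le z).trans hz
  have hv1 : |v 1| ≤ R := (PiLp.norm_apply_le v 1).trans hv
  have hv0 : |v 0| ≤ R := (PiLp.norm_apply_le v 0).trans hv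
  have hq : |fr z.2 v 1| ≤ 2 * R := by
    rw [fr_one]
    exact (abs_sub _ _).trans (by linarith)
  by_cases hT : 0 < tent X.A X.Yp X.e z.2 (fr z.2 v)
  · refine (abs_L0_le X z v).trans ?_
    have e1 : |2 * X.e * (fr z.2 v 1) ^ 2| ≤ 2 * X.e * (2 * R) ^ 2 := by
      rw [abs_of_nonneg (by positivity), ← sq_abs (fr z.2 v 1)]
      gcongr
    have e2 : |cutB X.B z.1| ≤ 1 := by
      rw [abs_of_nonneg (cutB_nonneg _ _)]; exact cutB_le_one _ _
    have e3 : |tent X.A X.Yp X.e z.2 (fr z.2 v)| ≤ max 0 ((1 + X.A) * X.Yp) := by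
      rw [abs_of_pos hT]
      exact (tent_le _ _ _ _ he _).trans (le_max_right _ _)
    have e4 : |2 * max 0 (1 - z.1 ^ 2 / X.B ^ 2) * (-(2 * z.1 * (v 0 - z.1) / X.B ^ 2))| ≤
        8 * R ^ 2 := by
      rw [abs_mul, abs_neg, abs_div]
      have f1 : |2 * max 0 (1 - z.1 ^ 2 / X.B ^ 2)| ≤ 2 := by
        rw [abs_of_nonneg (by positivity)]
        have : max 0 (1 - z.1 ^ 2 / X.B ^ 2) ≤ 1 := max_le zero_le_one (by
          have : 0 ≤ z.1 ^ 2 / X.B ^ 2 := by positivity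
          linarith)
        linarith
      have f2 : |v 0 - z.1| ≤ 2 * R := (abs_sub _ _).trans (by linarith)
      have f5 : |2 * z.1 * (v 0 - z.1)| ≤ 4 * R ^ 2 := by
        rw [abs_mul, abs_mul, abs_of_pos (by norm_num : (0 : ℝ) < 2)]
        calc 2 * |z.1| * |v 0 - z.1| ≤ 2 * R * (2 * R) := by gcongr
          _ = 4 * R ^ 2 := by ring
      have f3 : |2 * z.1 * (v 0 - z.1)| / |X.B ^ 2| ≤ 4 * R ^ 2 := by
        rw [abs_of_pos (by positivity : 0 < X.B ^ 2), div_le_iff₀ (by positivity)]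
        have hB2 : 1 ≤ X.B ^ 2 := one_le_pow₀ hB
        calc |2 * z.1 * (v 0 - z.1)| ≤ 4 * R ^ 2 * 1 := by rw [mul_one]; exact f5
          _ ≤ 4 * R ^ 2 * X.B ^ 2 := by gcongr
      calc |2 * max 0 (1 - z.1 ^ 2 / X.B ^ 2)| * (|2 * z.1 * (v 0 - z.1)| / |X.B ^ 2|)
          ≤ 2 * (4 * R ^ 2) := mul_le_mul f1 f3 (by positivity) (by norm_num)
        _ = 8 * R ^ 2 := by ring
    have e5 : |lamd X.d (v 0)| ≤ 1 := by
      rw [abs_of_nonneg (lamd_nonneg _ _)]; exact lamd_le_one _ _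
    have e6 : |X.A| = X.A := abs_of_nonneg hA
    rw [e6]
    calc ((X.A * |fr z.2 v 1| + |2 * X.e * (fr z.2 v 1) ^ 2|) * |cutB X.B z.1| +
          |tent X.A X.Yp X.e z.2 (fr z.2 v)| *
            |2 * max 0 (1 - z.1 ^ 2 / X.B ^ 2) * (-(2 * z.1 * (v 0 - z.1) / X.B ^ 2))|) *
          |lamd X.d (v 0)|
        ≤ ((X.A * (2 * R) + 2 * X.e * (2 * R) ^ 2) * 1 +
          max 0 ((1 + X.A) * X.Yp) * (8 * R ^ 2)) * 1 := by
          gcongr
      _ = _ := by ring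
  · have : L0 X z v = 0 := by unfold L0; rw [if_neg hT]
    rw [this, abs_zero]
    positivity

/-! ### support and size of `osc`, `corr`, `gL`, `Lg` -/

theorem norm_us_le {s : ℝ} (hs : s = 1 ∨ s = -1) (y : ℝ) : ‖us y s‖ ≤ |y| + 1 := by
  have h1 : us y s = !₂[0, y, 0] + !₂[0, 0, s] := by
    unfold us
    ext i
    fin_cases i <;> simp
  have h2 : ‖(!₂[0, y, 0] : R3)‖ = |y| := by
    rw [EuclideanSpace.norm_eq, Fin.sum_univ_three]
    simp [Real.sqrt_sq_eq_abs]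
  have h3 : ‖(!₂[0, 0, s] : R3)‖ = 1 := by
    rw [EuclideanSpace.norm_eq, Fin.sum_univ_three]
    rcases hs with rfl | rfl <;> simp
  rw [h1]
  exact (norm_add_le _ _).trans (by rw [h2, h3])

theorem abs_ws_le {X : XP} (he : 0 ≤ X.e) {d1 : ℝ} (hd : 0 ≤ d1) (hd1 : d1 ≤ 1) (ρ : ℝ) {s : ℝ}
    (hs : s = 1 ∨ s = -1) (z : P2) (v : R3) :
    |ws X d1 ρ s z v| ≤ |ρ| * (6 * π * (‖v‖ + ‖z‖ + 1) * max 0 ((1 + X.A) * X.Yp)) := by
  set F := max 0 ((1 + X.A) * X.Yp) with hF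
  have hF0 : 0 ≤ F := le_max_left _ _
  have hpi := Real.pi_pos
  have hm : Measurable (f0 X z) :=
    (measurable_f0 X).comp (f := fun w : R3 => (z, w)) (by fun_prop)
  have h1 : |gsR (f0 X z) v (us z.2 s)| ≤ 4 * π * ‖v - us z.2 s‖ * F :=
    abs_gsR_le hm fun w _ => by rw [abs_of_nonneg (f0_nonneg X z w)]; exact f0_le X he z w
  have h2 : ‖v - us z.2 s‖ ≤ ‖v‖ + ‖z‖ + 1 := by
    have h3 := norm_us_le hs z.2
    have h4 : |z.2| ≤ ‖z‖ := norm_snd_le z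
    linarith [norm_sub_le v (us z.2 s)]
  unfold ws
  rw [abs_mul]
  refine mul_le_mul_of_nonneg_left ?_ (abs_nonneg _)
  refine (abs_sub _ _).trans ?_
  rw [abs_mul, abs_mul (2 * π * ‖v - us z.2 s‖), abs_of_nonneg (by linarith : 0 ≤ 1 - d1),
    abs_of_nonneg (by positivity : 0 ≤ 2 * π * ‖v - us z.2 s‖), abs_of_nonneg (f0_nonneg X z v)]
  have h5 : (1 - d1) * |gsR (f0 X z) v (us z.2 s)| ≤ 1 * (4 * π * ‖v - us z.2 s‖ * F) :=
    mul_le_mul (by linarith) h1 (abs_nonneg _) zero_le_one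
  have h6 : 2 * π * ‖v - us z.2 s‖ * f0 X z v ≤ 2 * π * ‖v - us z.2 s‖ * F :=
    mul_le_mul_of_nonneg_left (f0_le X he z v) (by positivity)
  have h7 : 6 * π * ‖v - us z.2 s‖ * F ≤ 6 * π * (‖v‖ + ‖z‖ + 1) * F := by gcongr
  linarith

theorem th_zero {X : XP} {Zs Vs : ℝ} (hZ : 0 < Zs) (hV : 0 < Vs) {z : P2} {v : R3}
    (h : 2 * Zs ≤ ‖z‖ ∨ 2 * Vs ≤ ‖v‖) : th X Zs Vs z v = 0 := by
  unfold th
  rcases h with h | h
  · rw [ramp_zero (by rw [le_div_iff₀ hZ]; exact h)]; ring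
  · rw [ramp_zero (r := ‖v‖ / Vs) (by rw [le_div_iff₀ hV]; exact h)]; ring

theorem th_nonneg (X : XP) (Zs Vs : ℝ) (z : P2) (v : R3) : 0 ≤ th X Zs Vs z v :=
  mul_nonneg (mul_nonneg (ramp_nonneg _) (ramp_nonneg _)) (lamd_nonneg _ _)

theorem th_le_one (X : XP) (Zs Vs : ℝ) (z : P2) (v : R3) : th X Zs Vs z v ≤ 1 := by
  unfold th
  have h1 := ramp_nonneg (‖z‖ / Zs)
  have h2 := ramp_nonneg (‖v‖ / Vs)
  have h3 := lamd_nonneg (X.d / 2) (v 0)
  calc ramp (‖z‖ / Zs) * ramp (‖v‖ / Vs) * lamd (X.d / 2) (v 0) ≤ 1 * 1 * 1 := by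
        gcongr
        · exact ramp_le_one _
        · exact ramp_le_one _
        · exact lamd_le_one _ _
    _ = 1 := by norm_num

theorem osc_zero {X : XP} {P : Par} {d1 Zs Vs s : ℝ} (hZ : 0 < Zs) (hV : 0 < Vs) {t : ℝ} {x : P2}
    {v : R3} (h : 2 * Zs ≤ ‖t⁻¹ • x‖ ∨ 2 * Vs ≤ ‖v‖) : osc X P d1 Zs Vs s t x v = 0 := by
  unfold osc
  rw [th_zero hZ hV h]; ring

theorem abs_osc_le {X : XP} {P : Par} {d1 Zs Vs s : ℝ} (he : 0 ≤ X.e) (hK : 0 ≤ P.K)
    (hd : 0 ≤ d1) (hd1 : d1 ≤ 1) (hZ : 0 < Zs) (hV : 0 < Vs) (hs : s = 1 ∨ s = -1) {t : ℝ}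
    (ht : 0 < t) (x : P2) (v : R3) : |osc X P d1 Zs Vs s t x v| ≤
      t⁻¹ * (P.K * (6 * π * (2 * Vs + 2 * Zs + 1) * max 0 ((1 + X.A) * X.Yp))) := by
  set F := max 0 ((1 + X.A) * X.Yp) with hF
  have hF0 : 0 ≤ F := le_max_left _ _
  have hpi := Real.pi_pos
  by_cases h : 2 * Zs ≤ ‖t⁻¹ • x‖ ∨ 2 * Vs ≤ ‖v‖
  · rw [osc_zero hZ hV h, abs_zero]; positivity
  · push Not at h
    unfold osc
    rw [abs_mul, abs_mul, abs_of_pos (inv_pos.2 ht), abs_of_nonneg (th_nonneg _ _ _ _ _)]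
    have h1 := abs_ws_le (X := X) he hd hd1 (P.K * ky P (t⁻¹ • x).2) hs (t⁻¹ • x) v
    have h2 : |P.K * ky P (t⁻¹ • x).2| ≤ P.K := by
      rw [abs_of_nonneg (mul_nonneg hK (Fuel.ky_nonneg _ _))]
      exact mul_le_of_le_one_right hK (Fuel.ky_le_one _ _)
    have h3 : |ws X d1 (P.K * ky P (t⁻¹ • x).2) s (t⁻¹ • x) v| ≤
        P.K * (6 * π * (2 * Vs + 2 * Zs + 1) * F) := by
      refine h1.trans ?_
      have h4 : ‖v‖ + ‖t⁻¹ • x‖ + 1 ≤ 2 * Vs + 2 * Zs + 1 := by linarith [h.1, h.2]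
      gcongr
    calc t⁻¹ * th X Zs Vs (t⁻¹ • x) v * |ws X d1 (P.K * ky P (t⁻¹ • x).2) s (t⁻¹ • x) v|
        ≤ t⁻¹ * 1 * (P.K * (6 * π * (2 * Vs + 2 * Zs + 1) * F)) := by
          gcongr
          exact th_le_one _ _ _ _ _
      _ = _ := by rw [mul_one]

theorem corr_zero {X : XP} {P : Par} {d1 Zs Vs : ℝ} (hZ : 0 < Zs) (hV : 0 < Vs) {t : ℝ} {x : P2}
    {v : R3} (h : 2 * Zs ≤ ‖t⁻¹ • x‖ ∨ 2 * Vs ≤ ‖v‖) : corr X P d1 Zs Vs t x v = 0 := by
  unfold corr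
  rw [osc_zero hZ hV h, osc_zero hZ hV h]; ring

section low

variable {X : XP} {P : Par} {Y ey N d1 Zs Vs : ℝ} (h : LowOK X P Y ey N d1 Zs Vs)

include h

theorem _root_.Crest.Agent.R68.X2.LowOK.psi0_zero {t : ℝ} {x : P2} {v : R3} (h1 : Zs < ‖t⁻¹ • x‖ ∨ Vs < ‖v‖) :
    psi0 X t x v = 0 := by
  by_contra h2
  have h3 := h.supp _ _ h2
  rcases h1 with h1 | h1
  · exact absurd h3.1 (not_le.2 h1)
  · exact absurd h3.2 (not_le.2 h1)

/-- support of the corrected test function -/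
theorem _root_.Crest.Agent.R68.X2.LowOK.gL_zero (Cg : ℝ) {t : ℝ} {x : P2} {v : R3}
    (h1 : 4 * Zs ≤ ‖t⁻¹ • x‖ ∨ 4 * Vs ≤ ‖v‖) : gL X P d1 Zs Vs Cg t x v = 0 := by
  have hZ : 0 < Zs := lt_of_lt_of_le one_pos h.Zs1
  have hV : 0 < Vs := lt_of_lt_of_le one_pos h.Vs1
  unfold gL
  rw [h.psi0_zero (h1.imp (fun h => by linarith) fun h => by linarith),
    corr_zero hZ hV (h1.imp (fun h => by linarith) fun h => by linarith)]
  rcases h1 with h1 | h1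
  · rw [ramp_zero (r := ‖t⁻¹ • x‖ / (2 * Zs)) (by rw [le_div_iff₀ (by positivity)]; linarith)]
    ring
  · rw [ramp_zero (r := ‖v‖ / (2 * Vs)) (by rw [le_div_iff₀ (by positivity)]; linarith)]
    ring

/-- support of `Lg` -/
theorem _root_.Crest.Agent.R68.X2.LowOK.Lg_zero (C : ℝ) {t : ℝ} (ht : 0 < t) {x : P2} {v : R3}
    (h1 : 4 * Zs * t < ‖x‖ ∨ 4 * Vs < ‖v‖) : Lg X P d1 Zs Vs C t x v = 0 := by
  have hZ : 0 < Zs := lt_of_lt_of_le one_pos h.Zs1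
  have hV : 0 < Vs := lt_of_lt_of_le one_pos h.Vs1
  have hn : ‖t⁻¹ • x‖ = ‖x‖ / t := by
    rw [norm_smul, norm_inv, Real.norm_of_nonneg ht.le, inv_mul_eq_div]
  have h2 : 4 * Zs < ‖t⁻¹ • x‖ ∨ 4 * Vs < ‖v‖ :=
    h1.imp (fun h => by rw [hn, lt_div_iff₀ ht]; exact h) id
  have e1 : L0 X (t⁻¹ • x) v = 0 := by
    by_contra h3
    have h4 := h.supp _ _ (f0_ne_of_L0 h3)
    rcases h2 with h2 | h2
    · linarith [h4.1]
    · linarith [h4.2]
  have e2 : nearI Zs Vs t x v = 0 := by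
    unfold nearI
    rw [if_neg]
    rintro ⟨h3, h4⟩
    rcases h1 with h1 | h1 <;> linarith
  unfold Lg
  rw [e1, e2, osc_zero hZ hV (h2.imp (fun h => by linarith) fun h => by linarith),
    osc_zero hZ hV (h2.imp (fun h => by linarith) fun h => by linarith)]
  ring

/-- size of `gL` -/
theorem _root_.Crest.Agent.R68.X2.LowOK.abs_gL_le (Cg : ℝ) (t : ℝ) (x : P2) (v : R3) : |gL X P d1 Zs Vs Cg t x v| ≤
    max 0 ((1 + X.A) * X.Yp) + |corr X P d1 Zs Vs t x v| + |Cg| * t ^ 2 := by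
  unfold gL
  refine (abs_add_le _ _).trans (add_le_add ((abs_add_le _ _).trans (add_le_add ?_ le_rfl)) ?_)
  · unfold psi0
    rw [abs_of_nonneg (f0_nonneg X _ v)]
    exact f0_le X h.tent.e0.le _ v
  · rw [abs_mul, abs_mul, abs_of_nonneg (sq_nonneg t), abs_of_nonneg (mul_nonneg (ramp_nonneg _)
      (ramp_nonneg _))]
    have h1 : ramp (‖t⁻¹ • x‖ / (2 * Zs)) * ramp (‖v‖ / (2 * Vs)) ≤ 1 := by
      have := ramp_le_one (‖t⁻¹ • x‖ / (2 * Zs))
      have := ramp_le_one (‖v‖ / (2 * Vs))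
      have := ramp_nonneg (‖t⁻¹ • x‖ / (2 * Zs))
      have := ramp_nonneg (‖v‖ / (2 * Vs))
      nlinarith
    exact mul_le_of_le_one_right (by positivity) h1

/-- size of `Lg` -/
theorem _root_.Crest.Agent.R68.X2.LowOK.abs_Lg_le {C : ℝ} (hC : 0 ≤ C) : ∃ C' : ℝ, 0 ≤ C' ∧ ∀ t, 0 < t → ∀ x v,
    |Lg X P d1 Zs Vs C t x v| ≤ C' * (t⁻¹ + 1) := by
  have hZ : 0 < Zs := lt_of_lt_of_le one_pos h.Zs1
  have hV : 0 < Vs := lt_of_lt_of_le one_pos h.Vs1
  have hA : 0 ≤ X.A := by rw [h.tent.AN]; linarith [h.tent.N1]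
  have he := h.tent.e0.le
  have hK : 0 ≤ P.K := h.ok.K0
  set F := max 0 ((1 + X.A) * X.Yp) with hF
  have hF0 : 0 ≤ F := le_max_left _ _
  have hpi := Real.pi_pos
  set R := Zs + Vs with hR
  set C1 := X.A * (2 * R) + 2 * X.e * (2 * R) ^ 2 + F * (8 * R ^ 2) with hC1
  have hC10 : 0 ≤ C1 := by positivity
  set C2 := P.K * (6 * π * (2 * Vs + 2 * Zs + 1) * F) with hC2
  have hC20 : 0 ≤ C2 := by positivity
  refine ⟨C1 + 2 * C2 + C, by positivity, ?_⟩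
  intro t ht x v
  have hti : 0 < t⁻¹ := inv_pos.2 ht
  have h1 : |L0 X (t⁻¹ • x) v| ≤ C1 := by
    by_cases h0 : L0 X (t⁻¹ • x) v = 0
    · rw [h0, abs_zero]; exact hC10
    · have h4 := h.supp _ _ (f0_ne_of_L0 h0)
      exact abs_L0_le' X hA he h.B1 _ v (by linarith [h4.1]) (by linarith [h4.2])
  have h2 := abs_osc_le (X := X) (P := P) (Zs := Zs) (Vs := Vs) he hK h.d10.le h.d11.le hZ hV
    (Or.inl rfl) ht x v
  have h3 := abs_osc_le (X := X) (P := P) (Zs := Zs) (Vs := Vs) he hK h.d10.le h.d11.le hZ hV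
    (Or.inr rfl) ht x v
  have hc : ∀ s a, |chs P s a - 197 / 400| ≤ 1 := by
    intro s a
    have := Crest.Agent.R68.X.chs_nonneg P s a
    have := Crest.Agent.R68.X.chs_le_one P s a
    rw [abs_le]; constructor <;> linarith
  have h4 : |nearI Zs Vs t x v| ≤ 1 := by
    unfold nearI; split_ifs <;> simp
  unfold Lg
  have e1 : |t⁻¹ * L0 X (t⁻¹ • x) v| ≤ t⁻¹ * C1 := by
    rw [abs_mul, abs_of_pos hti]
    exact mul_le_mul_of_nonneg_left h1 hti.le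
  have e2 : |(chs P 1 (lab P t x) - 197 / 400) * osc X P d1 Zs Vs 1 t x v| ≤ t⁻¹ * C2 := by
    rw [abs_mul]
    calc _ ≤ 1 * (t⁻¹ * C2) := mul_le_mul (hc _ _) h2 (abs_nonneg _) zero_le_one
      _ = _ := one_mul _
  have e3 : |(chs P (-1) (lab P t x) - 197 / 400) * osc X P d1 Zs Vs (-1) t x v| ≤ t⁻¹ * C2 := by
    rw [abs_mul]
    calc _ ≤ 1 * (t⁻¹ * C2) := mul_le_mul (hc _ _) h3 (abs_nonneg _) zero_le_one
      _ = _ := one_mul _
  have e4 : |C * nearI Zs Vs t x v| ≤ C := by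
    rw [abs_mul, abs_of_nonneg hC]
    exact mul_le_of_le_one_right hC h4
  refine (abs_sub _ _).trans ((add_le_add ((abs_sub _ _).trans (add_le_add
    ((abs_sub _ _).trans (add_le_add e1 e2)) e3)) e4).trans ?_)
  nlinarith

end low

end Crest.Agent.R68.X2.M60
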