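import Crest.Agent.R68.XDefs
import Crest.Agent.R68.LMass
import Crest.Agent.R68.LK

/-!
# Row 68, PART X2 (helper585): the Harnack weight is integrable against `B2`
-/

set_option autoImplicit false
open MeasureTheory Set Filter
open scoped ENNReal Real
open Crest.AnalysisR.VecCalc3 Crest.AnalysisR.PDE.Boltzmann

noncomputable section

namespace Crest.Agent.R68.X2OmB

open Crest.Agent.R68.X2
open Crest.Agent.R68.L (Den phiE Gf Dam TL sol)
open Crest.Agent.R68.DPole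

theorem abs_clamp_le {b : ℝ} (hb : 0 ≤ b) (y : ℝ) : |clamp b y| ≤ b := by
  unfold clamp
  rw [abs_le]
  exact ⟨le_max_left _ _, max_le (by linarith) (min_le_left _ _)⟩

theorem cut8_nonneg (r : ℝ) : 0 ≤ cut8 r := le_max_left _ _
theorem cut8_le_one (r : ℝ) : cut8 r ≤ 1 := max_le zero_le_one (min_le_left _ _)
theorem cut8_eq_zero {r : ℝ} (h : 1 / 4 ≤ r) : cut8 r = 0 := by
  unfold cut8
  rw [max_eq_left]
  exact (min_le_right _ _).trans (by linarith)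

theorem abs_Yc_le_two {Y : ℝ} (hY : 0 ≤ Y) (t : ℝ) (x : P2) : |Yc Y t x| ≤ 2 * Y := by
  unfold Yc
  by_cases h : ∃ k : ℤ × ℤ, ‖x + latt k‖ < 1 / 4
  · obtain ⟨k, hk⟩ := h
    rw [tsum_eq_single k]
    · rw [abs_mul, abs_of_nonneg (cut8_nonneg _)]
      have h1 := abs_clamp_le (b := 2 * Y) (by positivity) ((x + latt k).2 / t)
      calc cut8 ‖x + latt k‖ * |clamp (2 * Y) ((x + latt k).2 / t)|
          ≤ 1 * |clamp (2 * Y) ((x + latt k).2 / t)| := by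
            gcongr
            exact cut8_le_one _
        _ ≤ 2 * Y := by rw [one_mul]; exact h1
    · intro l hl
      rw [cut8_eq_zero, zero_mul]
      by_contra hc
      push Not at hc
      exact hl (latt_unique (x := x) (hc.trans (by norm_num)) (hk.trans (by norm_num)))
  · push Not at h
    have : ∀ k : ℤ × ℤ, cut8 ‖x + latt k‖ * clamp (2 * Y) ((x + latt k).2 / t) = 0 := fun k => by
      rw [cut8_eq_zero (h k), zero_mul]
    simp only [this, tsum_zero, abs_zero]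
    positivity

theorem pow_le_exp {a : ℝ} (ha : 0 < a) (n : ℕ) {y : ℝ} (hy : 0 ≤ y) :
    (1 + y) ^ n ≤ n.factorial * Real.exp (1 + 1 / (4 * a)) * Real.exp (a * y ^ 2) := by
  have h1 := Real.pow_div_factorial_le_exp (1 + y) (by positivity) n
  have hf : (0 : ℝ) < n.factorial := by exact_mod_cast n.factorial_pos
  rw [div_le_iff₀ hf] at h1
  have h2 : 1 + y ≤ (1 + 1 / (4 * a)) + a * y ^ 2 := by
    have h3 : a * y ^ 2 - y + 1 / (4 * a) = a * (y - 1 / (2 * a)) ^ 2 := by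
      field_simp; ring
    have h4 : 0 ≤ a * (y - 1 / (2 * a)) ^ 2 := by positivity
    linarith
  calc (1 + y) ^ n ≤ Real.exp (1 + y) * n.factorial := h1
    _ ≤ Real.exp ((1 + 1 / (4 * a)) + a * y ^ 2) * n.factorial := by gcongr
    _ = _ := by rw [Real.exp_add]; ring

theorem norm_fr_le (y : ℝ) (v : R3) : ‖fr y v‖ ≤ ‖v‖ + |y| := by
  unfold fr
  refine (norm_sub_le _ _).trans ?_
  gcongr
  rw [EuclideanSpace.norm_eq, Fin.sum_univ_three]
  have : √(‖(!₂[0, y, 0] : R3) 0‖ ^ 2 + ‖(!₂[0, y, 0] : R3) 1‖ ^ 2 + ‖(!₂[0, y, 0] : R3) 2‖ ^ 2) = |y| := by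
    show √(‖(0 : ℝ)‖ ^ 2 + ‖y‖ ^ 2 + ‖(0 : ℝ)‖ ^ 2) = |y|
    simp [Real.sqrt_sq_eq_abs]
  exact this.le

/-- the velocity weight is polynomially bounded -/
theorem hh_le {C2 Y : ℝ} (hC2 : 0 ≤ C2) (hY : 0 ≤ Y) {y : ℝ} (hy : |y| ≤ 2 * Y) (v : R3) :
    (1 + ‖v‖) * hh C2 (fr y v) ≤ ((2 + C2) * (1 + 2 * Y) ^ 13) * (1 + ‖v‖) ^ 13 := by
  unfold hh
  set R : ℝ := (1 + 2 * Y) * (1 + ‖v‖) with hR
  have hv := norm_nonneg v
  have hR1 : 1 ≤ R := by rw [hR]; nlinarith [mul_nonneg hY hv]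
  have h1 : ‖fr y v‖ ≤ R := by
    refine (norm_fr_le y v).trans ?_
    rw [hR]
    nlinarith [mul_nonneg hY hv]
  have h2 : |fr y v 1| ≤ R := by
    refine le_trans ?_ h1
    have := PiLp.norm_apply_le (fr y v) 1
    simpa [Real.norm_eq_abs] using this
  have h3 : R ≤ R ^ 12 := by
    calc R = R ^ 1 := (pow_one R).symm
      _ ≤ R ^ 12 := pow_le_pow_right₀ hR1 (by norm_num)
  have h4 : 1 ≤ R ^ 12 := one_le_pow₀ hR1
  have h5 : 1 + C2 * |fr y v 1| + ‖fr y v‖ ^ 12 ≤ (2 + C2) * R ^ 12 := by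
    have a1 : C2 * |fr y v 1| ≤ C2 * R ^ 12 := mul_le_mul_of_nonneg_left (h2.trans h3) hC2
    have a2 : ‖fr y v‖ ^ 12 ≤ R ^ 12 := pow_le_pow_left₀ (norm_nonneg _) h1 12
    linarith
  have h6 : 1 + ‖v‖ ≤ R := by rw [hR]; nlinarith [mul_nonneg hY hv]
  calc (1 + ‖v‖) * (1 + C2 * |fr y v 1| + ‖fr y v‖ ^ 12) ≤ R * ((2 + C2) * R ^ 12) := by
        gcongr
    _ = (2 + C2) * R ^ 13 := by ring
    _ = _ := by rw [hR, mul_pow]; ring

/-- the real pointwise inequality -/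
theorem Om_gau_le {C2 Y g1 g2 gp : ℝ} (hC2 : 0 ≤ C2) (hY : 0 ≤ Y) (hg1 : 0 < g1)
    (hg2 : 0 < g2) (hgp2 : 4 * gp ≤ g2) (t : ℝ) (x : P2) (v : R3) :
    (1 + ‖v‖) * Om Y C2 gp t x v * (gau g1 t v * Real.exp (-g2 * (max ‖v‖ (distG x / t)) ^ 2)) ≤
      ((2 + C2) * (1 + 2 * Y) ^ 13 * ((Nat.factorial 13) * Real.exp (1 + 1 / (4 * (g1 / 2))))) *
        (gau (g1 / 2) t v * Real.exp (-(g2 / 2) * (max ‖v‖ (distG x / t)) ^ 2)) := by
  have h1 := hh_le hC2 hY (abs_Yc_le_two hY t x) v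
  have h2 := pow_le_exp (a := g1 / 2) (by positivity) 13 (norm_nonneg v)
  set m : ℝ := max ‖v‖ (distG x / t) with hm
  have h3 : Real.exp (gp * m ^ 2) * Real.exp (-g2 * m ^ 2) ≤ Real.exp (-(g2 / 2) * m ^ 2) := by
    rw [← Real.exp_add]
    apply Real.exp_le_exp.2
    nlinarith [sq_nonneg m]
  have h4 : gau g1 t v = Real.exp (-(g1 / 2 * ‖v‖ ^ 2)) * gau (g1 / 2) t v := by
    unfold gau
    rw [← Real.exp_add]
    congr 1
    ring
  have h5 : Real.exp (g1 / 2 * ‖v‖ ^ 2) * Real.exp (-(g1 / 2 * ‖v‖ ^ 2)) = 1 := by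
    rw [← Real.exp_add]; simp
  have h0 : 0 ≤ gau (g1 / 2) t v := (Real.exp_pos _).le
  set C1 : ℝ := (2 + C2) * (1 + 2 * Y) ^ 13 with hC1
  have hC1n : 0 ≤ C1 := by positivity
  have hOm : Om Y C2 gp t x v = hh C2 (fr (Yc Y t x) v) * Real.exp (gp * m ^ 2) := rfl
  rw [hOm, h4]
  calc (1 + ‖v‖) * (hh C2 (fr (Yc Y t x) v) * Real.exp (gp * m ^ 2)) *
        (Real.exp (-(g1 / 2 * ‖v‖ ^ 2)) * gau (g1 / 2) t v * Real.exp (-g2 * m ^ 2))
      = ((1 + ‖v‖) * hh C2 (fr (Yc Y t x) v)) * Real.exp (-(g1 / 2 * ‖v‖ ^ 2)) *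
        (gau (g1 / 2) t v * (Real.exp (gp * m ^ 2) * Real.exp (-g2 * m ^ 2))) := by ring
    _ ≤ (C1 * (1 + ‖v‖) ^ 13) * Real.exp (-(g1 / 2 * ‖v‖ ^ 2)) *
        (gau (g1 / 2) t v * Real.exp (-(g2 / 2) * m ^ 2)) := by gcongr
    _ ≤ (C1 * ((Nat.factorial 13) * Real.exp (1 + 1 / (4 * (g1 / 2))) *
        Real.exp (g1 / 2 * ‖v‖ ^ 2))) * Real.exp (-(g1 / 2 * ‖v‖ ^ 2)) *
        (gau (g1 / 2) t v * Real.exp (-(g2 / 2) * m ^ 2)) := by gcongr
    _ = (C1 * ((Nat.factorial 13) * Real.exp (1 + 1 / (4 * (g1 / 2))))) *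
        (Real.exp (g1 / 2 * ‖v‖ ^ 2) * Real.exp (-(g1 / 2 * ‖v‖ ^ 2))) *
        (gau (g1 / 2) t v * Real.exp (-(g2 / 2) * m ^ 2)) := by ring
    _ = _ := by rw [h5, mul_one]

end Crest.Agent.R68.X2OmB

namespace Crest.Agent.R68.X2

open Crest.Agent.R68.L (Den phiE Gf Dam TL sol)
open Crest.Agent.R68.DPole Crest.Agent.R68.X2OmB

/-- **finiteness** of the Harnack weight against `B2` -/
theorem Om_B2 {P : Par} (hP : P.Ok) {g1 g2 gp C2 : ℝ} (hg2 : 0 < g2) (hg21 : g2 ≤ g1)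
    (_hgp : 0 ≤ gp) (hgp2 : 4 * gp ≤ g2) (hC2 : 0 ≤ C2) : ∃ t0 : ℝ, 0 < t0 ∧ ∃ C : ℝ≥0∞, C ≠ ⊤ ∧
    ∀ t, 0 < t → t ≤ t0 → MW (fun t x v => ENNReal.ofReal (1 + ‖v‖) * OmE P.Y C2 gp t x v)
      (B2 P g1 g2 0) t ≤ C := by
  have hY := hP.Y0
  have hg1 : 0 < g1 := hg2.trans_le hg21
  set C0 : ℝ := (2 + C2) * (1 + 2 * P.Y) ^ 13 * ((Nat.factorial 13) *
    Real.exp (1 + 1 / (4 * (g1 / 2)))) with hC0
  have hC0n : 0 ≤ C0 := by positivity
  set t0 : ℝ := min (min 1 (g1 ^ 2 / 16)) (1 / (10 * (P.Y + 2))) with ht0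
  refine ⟨t0, by positivity, ENNReal.ofReal C0 * LMass.CM P.Y (g1 / 2) (g2 / 2),
    ENNReal.mul_ne_top ENNReal.ofReal_ne_top (LMass.CM_ne_top _ _ _), fun t ht htt => ?_⟩
  have ht1 : t ≤ 1 := htt.trans ((min_le_left _ _).trans (min_le_left _ _))
  have htg : t ≤ g1 ^ 2 / 16 := htt.trans ((min_le_left _ _).trans (min_le_right _ _))
  have htY : t ≤ 1 / (10 * (P.Y + 2)) := htt.trans (min_le_right _ _)
  have hsg : √t / 100 ≤ g1 / 2 / 2 := by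
    have : √t ≤ g1 / 4 := by
      rw [Real.sqrt_le_left (by positivity)]
      calc t ≤ g1 ^ 2 / 16 := htg
        _ = (g1 / 4) ^ 2 := by ring
    linarith
  have hsm : (P.Y + 2) * (t + P.dl) < 7 / 20 := by
    have h1 : (P.Y + 2) * t ≤ 1 / 10 := by
      rw [le_div_iff₀ (by positivity)] at htY
      linarith
    have h2 := hP.Ysm
    have h3 := Fuel.Ok.dl20 hP
    nlinarith
  have h1 : ∀ (x : P2) (v : R3), ENNReal.ofReal (1 + ‖v‖) * OmE P.Y C2 gp t x v *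
      B2 P g1 g2 0 t x v ≤ ENNReal.ofReal C0 * (ENNReal.ofReal ((1 + ‖v‖) ^ 4) *
        B2 P (g1 / 2) (g2 / 2) 0 t x v) := by
    intro x v
    have h2 := Om_gau_le (t := t) (x := x) (v := v) hC2 hY.le hg1 hg2 hgp2
    unfold OmE B2
    rw [Real.rpow_zero, one_mul, one_mul, ← ENNReal.ofReal_mul (by positivity), ← mul_assoc,
      ← ENNReal.ofReal_mul (by
        have : 0 ≤ Om P.Y C2 gp t x v := by unfold Om hh; positivity
        positivity)]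
    calc _ ≤ ENNReal.ofReal (C0 * (gau (g1 / 2) t v *
          Real.exp (-(g2 / 2) * (max ‖v‖ (distG x / t)) ^ 2))) * Dm P t x v := by
          gcongr
      _ = ENNReal.ofReal C0 * (1 * (ENNReal.ofReal (gau (g1 / 2) t v *
          Real.exp (-(g2 / 2) * (max ‖v‖ (distG x / t)) ^ 2)) * Dm P t x v)) := by
          rw [ENNReal.ofReal_mul hC0n, one_mul, mul_assoc]
      _ ≤ _ := by
          gcongr
          rw [← ENNReal.ofReal_one]
          apply ENNReal.ofReal_le_ofReal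
          exact one_le_pow₀ (by linarith [norm_nonneg v])
  have h2 := LMass.mass_B2 (L.parD_of_ok hP) (g1 := g1 / 2) (g2 := g2 / 2) (by positivity)
    (by positivity) ht hsg hsm
  unfold MW
  calc ∫⁻ x in cellG, ∫⁻ v, ENNReal.ofReal (1 + ‖v‖) * OmE P.Y C2 gp t x v * B2 P g1 g2 0 t x v
      ≤ ∫⁻ x in cellG, ∫⁻ v, ENNReal.ofReal C0 * (ENNReal.ofReal ((1 + ‖v‖) ^ 4) *
        B2 P (g1 / 2) (g2 / 2) 0 t x v) :=
        lintegral_mono fun x => lintegral_mono fun v => h1 x v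
    _ = ENNReal.ofReal C0 * ∫⁻ x in cellG, ∫⁻ v, ENNReal.ofReal ((1 + ‖v‖) ^ 4) *
        B2 P (g1 / 2) (g2 / 2) 0 t x v := by
        rw [← lintegral_const_mul' _ _ ENNReal.ofReal_ne_top]
        refine lintegral_congr fun x => ?_
        rw [← lintegral_const_mul' _ _ ENNReal.ofReal_ne_top]
    _ ≤ ENNReal.ofReal C0 * (LMass.CM P.Y (g1 / 2) (g2 / 2) * ENNReal.ofReal (t ^ 2)) := by
        gcongr
    _ ≤ ENNReal.ofReal C0 * (LMass.CM P.Y (g1 / 2) (g2 / 2) * 1) := by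
        gcongr
        rw [← ENNReal.ofReal_one]
        apply ENNReal.ofReal_le_ofReal
        exact pow_le_one₀ ht.le ht1
    _ = _ := by rw [mul_one]

end Crest.Agent.R68.X2
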