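import Crest.Agent.R68.XDefs
import Crest.Agent.R68.FSum

/-!
# Row 68, PART X2 (helper195): the fuel in the near zone (`fuel_all`, `fuel_near` of `XIface`)
-/

set_option autoImplicit false
open MeasureTheory Set Filter
open scoped ENNReal Real
open Crest.AnalysisR.VecCalc3 Crest.AnalysisR.PDE.Boltzmann

noncomputable section

namespace Crest.Agent.R68.X2

open Crest.Agent.R68.X (chs)

/-! ### Size of the fuel velocities -/

theorem eta_le {P : Par} (h : P.Ok) {j : ℕ} (hj : P.j0 ≤ j) : etaj P.p j ≤ 1 / 200 := by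
  have h1 := Fuel.etaj_small h.p3 (h.j0.trans hj)
  have h2 : 1 / 100 / (2 * (j : ℝ) + 3) ^ 2 ≤ 1 / 100 := by
    refine div_le_self (by norm_num) ?_
    have : (0 : ℝ) ≤ j := Nat.cast_nonneg j
    nlinarith
  linarith

/-- coordinates of the fuel velocities -/
theorem coord_lset {P : Par} (h : P.Ok) {j : ℕ} (hj : P.j0 ≤ j) {t : ℝ} {x : P2} {v : R3}
    (hv : v ∈ Fuel.lset P j t x) :
    |v 0| ≤ P.c + etaj P.p j ∧ |v 1| ≤ P.Y + etaj P.p j ∧ |v 2| ≤ 1 + etaj P.p j := by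
  rw [Fuel.mem_lset] at hv
  obtain ⟨⟨h1, h2⟩, h3, h4, h5⟩ := hv
  set a := x.1 - t * v 0
  set z := x.2 - t * v 1
  have hr := Fuel.rr_pos h1.1
  have ha := Fuel.lane_lt_dl (Fuel.Ok.j1 h) hj h1
  have hκ := Fuel.Ok.kap0 h
  have hd := Fuel.Ok.dlp h
  have hκ' : P.kap * P.dl = P.c := by unfold Par.kap; field_simp
  refine ⟨?_, ?_, ?_⟩
  · have k1 : |v 0| ≤ |v 0 - P.kap * a| + |P.kap * a| := by
      have := abs_add_le (v 0 - P.kap * a) (P.kap * a)
      rwa [sub_add_cancel] at this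
    have k2 : |P.kap * a| ≤ P.c := by
      rw [abs_mul, abs_of_nonneg hκ, ← hκ']
      exact mul_le_mul_of_nonneg_left ha.le hκ
    linarith
  · have k1 : |v 1| ≤ |v 1 - z / rr a| + |z / rr a| := by
      have := abs_add_le (v 1 - z / rr a) (z / rr a)
      rwa [sub_add_cancel] at this
    have k2 : |z / rr a| ≤ P.Y := by
      rw [abs_div, abs_of_pos hr, div_le_iff₀ hr]
      exact h2.le
    linarith
  · have k1 : |v 2| ≤ |v 2 - wj j| + |wj j| := by
      have := abs_add_le (v 2 - wj j) (wj j)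
      rwa [sub_add_cancel] at this
    have k2 : |wj j| = 1 := by unfold wj; simp
    linarith

theorem norm_lset_le {P : Par} (h : P.Ok) {j : ℕ} (hj : P.j0 ≤ j) {t : ℝ} {x : P2} {v : R3}
    (hv : v ∈ Fuel.lset P j t x) : ‖v‖ ≤ P.Y + 2 := by
  obtain ⟨h0, h1, h2⟩ := coord_lset h hj hv
  have hη := eta_le h hj
  have hc := h.c1
  have hY := h.Y0
  have h6 : ‖v‖ ^ 2 ≤ (P.Y + 2) ^ 2 := by
    rw [EuclideanSpace.norm_sq_eq, Fin.sum_univ_three]
    simp only [Real.norm_eq_abs]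
    have b0 : |v 0| ≤ 201 / 200 := by linarith
    have b1 : |v 1| ≤ P.Y + 1 / 200 := by linarith
    have b2 : |v 2| ≤ 201 / 200 := by linarith
    nlinarith [abs_nonneg (v 0), abs_nonneg (v 1), abs_nonneg (v 2)]
  exact abs_le_of_sq_le_sq' h6 (by linarith) |>.2

/-- one image, short times -/
theorem norm_of_vis_le {P : Par} (h : P.Ok) {t : ℝ} (ht : 0 ≤ t)
    (ht0 : (P.c + P.Y + 1) * t ≤ 1 / 40) {x : P2} {k : ℤ × ℤ} (hk : k ∈ Fuel.vis P t x) :
    ‖x + latt k‖ ≤ 1 / 8 := by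
  have h1 := Fuel.norm_of_vis h ht hk
  have h2 := Fuel.Ok.dl20 h
  have h3 := h.Ysm
  have h4 := Fuel.etaj_le_one P.p P.j0
  have h5 : (P.c + P.Y + etaj P.p P.j0) * t ≤ (P.c + P.Y + 1) * t :=
    mul_le_mul_of_nonneg_right (by linarith) ht
  nlinarith

theorem fuel_all {P : Par} (hP : P.Ok) : ∃ t0 : ℝ, 0 < t0 ∧ ∀ t, 0 < t → t ≤ t0 → ∀ x : P2,
    (∀ u, phi P t x u ≠ 0 → ‖u‖ ≤ P.Y + 2 ∧ distG x ≤ 1 / 8) ∧
      ∫⁻ u, L.phiE P t x u ≤ ENNReal.ofReal (P.K / t) := by
  have hc := hP.c0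
  have hY := hP.Y0
  refine ⟨1 / (40 * (P.c + P.Y + 1)), by positivity, fun t ht ht0 x => ⟨fun u hu => ?_, ?_⟩⟩
  · obtain ⟨k, j, hj, hu⟩ := Fuel.exists_of_phi_ne hP hu
    refine ⟨norm_lset_le hP hj hu, ?_⟩
    refine (distG_le x k).trans (norm_of_vis_le hP ht.le ?_ ⟨j, hj, u, hu⟩)
    rw [le_div_iff₀ (by positivity)] at ht0
    linarith
  · have hts : (P.c + P.Y + 1) * t ≤ 1 / 40 := by
      rw [le_div_iff₀ (by positivity)] at ht0
      linarith
    have h1 := Fuel.lint_phi_le hP ht.le x (g := fun _ => 1) measurable_const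
      (B := ENNReal.ofReal (P.K / t)) fun k j hj _ => by
        have h2 := Fuel.lint_phij_le hP j ht.le (x + latt k) (g := fun _ => 1) measurable_const
          (A := ENNReal.ofReal (P.K / t)) (B := 1)
          (fun a _ => ENNReal.ofReal_le_ofReal ((Fuel.dens_le hP ht a).trans (by
            have h3 := Fuel.Ok.kap0 hP
            have h4 := hP.K0
            refine div_le_div_of_nonneg_left h4 ht ?_
            nlinarith [mul_nonneg h3 ht.le]))) (fun _ _ => le_rfl)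
        rwa [mul_one] at h2
    simp only [mul_one] at h1
    have h2 : (Fuel.vis P t x).ncard ≤ 1 := by
      rw [Set.ncard_le_one (Fuel.vis_finite hP ht.le x)]
      intro a ha b hb
      exact latt_unique ((norm_of_vis_le hP ht.le hts ha).trans_lt (by norm_num))
        ((norm_of_vis_le hP ht.le hts hb).trans_lt (by norm_num))
    have h3 : ((Fuel.vis P t x).ncard : ℝ≥0∞) ≤ 1 := by exact_mod_cast h2
    calc ∫⁻ u, L.phiE P t x u ≤ _ := h1
      _ ≤ 1 * ENNReal.ofReal (P.K / t) := mul_le_mul_left h3 _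
      _ = _ := one_mul _

/-! ### The near zone -/

/-- thickness in terms of the label -/
theorem eta_le_pow {p j : ℕ} (hp : 3 ≤ p) {a : ℝ} (ha : a ∈ lane j) (ha2 : 2 * a ^ 2 ≤ 1) :
    etaj p j ≤ 8 * a ^ 6 := by
  have h1 := Fuel.lane_lower ha
  have h2 : 1 / (2 * (j : ℝ) + 1) ≤ 2 * a ^ 2 := by
    rw [div_le_iff₀ (by positivity)]
    nlinarith [sq_nonneg a]
  have h3 : etaj p j ≤ (1 / (2 * (j : ℝ) + 1)) ^ 3 :=
    pow_le_pow_of_le_one (by positivity) (Fuel.inv_le_one' j) hp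
  have h4 : (1 / (2 * (j : ℝ) + 1)) ^ 3 ≤ (2 * a ^ 2) ^ 3 := by gcongr
  calc etaj p j ≤ (2 * a ^ 2) ^ 3 := h3.trans h4
    _ = 8 * a ^ 6 := by ring

/-- `η ≤ b` if the label is `≤ b ≤ 1/2` -/
theorem eta_le_b {p j : ℕ} (hp : 3 ≤ p) {a b : ℝ} (ha : a ∈ lane j) (hab : |a| ≤ b)
    (hb : b ≤ 1 / 2) : etaj p j ≤ b := by
  have h0 : 0 < |a| := abs_pos.2 ha.1
  have h1 : a ^ 2 ≤ b ^ 2 := by rw [← sq_abs]; gcongr
  have h2 := eta_le_pow hp ha (by nlinarith)
  have h3 : a ^ 6 ≤ b ^ 6 := by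
    calc a ^ 6 = (a ^ 2) ^ 3 := by ring
      _ ≤ (b ^ 2) ^ 3 := by gcongr
      _ = b ^ 6 := by ring
  have h4 : b ^ 6 ≤ b * (1 / 2) ^ 5 := by
    have : b ^ 5 ≤ (1 / 2) ^ 5 := by
      have : 0 ≤ b := h0.le.trans hab
      gcongr
    calc b ^ 6 = b * b ^ 5 := by ring
      _ ≤ b * (1 / 2) ^ 5 := mul_le_mul_of_nonneg_left this (h0.le.trans hab)
  have h5 : 0 < b := h0.trans_le hab
  nlinarith

theorem norm_le_sum (v : R3) : ‖v‖ ≤ |v 0| + |v 1| + |v 2| := by
  have h : ‖v‖ ^ 2 ≤ (|v 0| + |v 1| + |v 2|) ^ 2 := by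
    rw [EuclideanSpace.norm_sq_eq, Fin.sum_univ_three]
    simp only [Real.norm_eq_abs]
    nlinarith [abs_nonneg (v 0), abs_nonneg (v 1), abs_nonneg (v 2),
      mul_nonneg (abs_nonneg (v 0)) (abs_nonneg (v 1)),
      mul_nonneg (abs_nonneg (v 0)) (abs_nonneg (v 2)),
      mul_nonneg (abs_nonneg (v 1)) (abs_nonneg (v 2))]
  exact abs_le_of_sq_le_sq' h (by positivity) |>.2

/-- constant of the near zone -/
def Cn (P : Par) (Z : ℝ) : ℝ := (P.kap + 1) * (Z + 3) + P.Y * (Z + 3) ^ 2 + (Z + 3)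

theorem Cn_pos {P : Par} (h : P.Ok) {Z : ℝ} (hZ : 1 ≤ Z) : 0 < Cn P Z := by
  have := Fuel.Ok.kap0 h
  have := h.Y0
  unfold Cn
  positivity

/-- labels in the near zone -/
theorem label_near {P : Par} (h : P.Ok) {Z : ℝ} {t : ℝ} (ht : 0 < t) {x : P2}
    (hx : ‖x‖ ≤ Z * t) {j : ℕ} (hj : P.j0 ≤ j) {u : R3} (hu : u ∈ Fuel.lset P j t x) :
    |x.1 - t * u 0| ≤ (Z + 3) * t := by
  obtain ⟨h0, -, -⟩ := coord_lset h hj hu
  have hη := eta_le h hj
  have hc := h.c1
  have h1 : |x.1| ≤ Z * t := (norm_fst_le x).trans hx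
  have h2 : |x.1 - t * u 0| ≤ |x.1| + t * |u 0| := by
    refine (abs_sub _ _).trans ?_
    rw [abs_mul, abs_of_pos ht]
  have h3 : t * |u 0| ≤ t * 3 := mul_le_mul_of_nonneg_left (by linarith) ht.le
  linarith

/-- **fuel velocities in the near zone** -/
theorem near_one {P : Par} (h : P.Ok) {Z : ℝ} (hZ : 1 ≤ Z) {t : ℝ} (ht : 0 < t)
    (htZ : (Z + 3) * t ≤ 1 / 2) {x : P2} (hx : ‖x‖ ≤ Z * t) {j : ℕ} (hj : P.j0 ≤ j) {u : R3}
    (hu : u ∈ Fuel.lset P j t x) :
    |x.2 / t| ≤ P.Y + Cn P Z * t ∧ ‖u - us (x.2 / t) (wj j)‖ ≤ Cn P Z * t := by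
  have hL := label_near h ht hx hj hu
  have hu' := hu
  rw [Fuel.mem_lset] at hu'
  obtain ⟨⟨h1, h2⟩, h3, h4, h5⟩ := hu'
  set a := x.1 - t * u 0 with ha
  set z := x.2 - t * u 1 with hz
  have hη := eta_le_b h.p3 h1 hL htZ
  have hη0 := Fuel.etaj_pos P.p j
  have hr := Fuel.rr_pos h1.1
  have hκ := Fuel.Ok.kap0 h
  have hY := h.Y0
  have hra : rr a ≤ ((Z + 3) * t) ^ 2 := by
    unfold rr
    rw [← sq_abs]
    gcongr
  have e1 : u 1 - x.2 / t = -(z / t) := by rw [hz]; field_simp; ring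
  have b1 : |u 1 - x.2 / t| ≤ P.Y * (Z + 3) ^ 2 * t := by
    rw [e1, abs_neg, abs_div, abs_of_pos ht, div_le_iff₀ ht]
    calc |z| ≤ P.Y * rr a := h2.le
      _ ≤ P.Y * ((Z + 3) * t) ^ 2 := mul_le_mul_of_nonneg_left hra hY.le
      _ = _ := by ring
  have b0 : |u 0| ≤ (P.kap + 1) * (Z + 3) * t := by
    have k1 : |u 0| ≤ |u 0 - P.kap * a| + |P.kap * a| := by
      have := abs_add_le (u 0 - P.kap * a) (P.kap * a)
      rwa [sub_add_cancel] at this
    rw [abs_mul, abs_of_nonneg hκ] at k1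
    have k2 := mul_le_mul_of_nonneg_left hL hκ
    nlinarith
  have b2 : |u 2 - wj j| ≤ (Z + 3) * t := h5.le.trans hη
  refine ⟨?_, ?_⟩
  · obtain ⟨-, k1, -⟩ := coord_lset h hj hu
    have k2 : |x.2 / t| ≤ |u 1| + |u 1 - x.2 / t| := by
      have := abs_sub (u 1) (u 1 - x.2 / t)
      rwa [sub_sub_cancel] at this
    have k3 : Cn P Z * t = (P.kap + 1) * (Z + 3) * t + P.Y * (Z + 3) ^ 2 * t + (Z + 3) * t := by
      unfold Cn; ring
    have k4 : 0 ≤ (P.kap + 1) * (Z + 3) * t := by positivity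
    rw [k3]
    linarith
  · refine (norm_le_sum _).trans ?_
    have c0 : (u - us (x.2 / t) (wj j)) 0 = u 0 := by
      show u 0 - 0 = u 0
      ring
    have c1 : (u - us (x.2 / t) (wj j)) 1 = u 1 - x.2 / t := rfl
    have c2 : (u - us (x.2 / t) (wj j)) 2 = u 2 - wj j := rfl
    rw [c0, c1, c2]
    have k3 : Cn P Z * t = (P.kap + 1) * (Z + 3) * t + P.Y * (Z + 3) ^ 2 * t + (Z + 3) * t := by
      unfold Cn; ring
    rw [k3]
    linarith

/-- only the image `0` is visible in the near zone -/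
theorem near_image {P : Par} (h : P.Ok) {Z : ℝ} {t : ℝ} (ht : 0 < t)
    (htZ : Z * t ≤ 1 / 8) (ht0 : (P.c + P.Y + 1) * t ≤ 1 / 40) {x : P2} (hx : ‖x‖ ≤ Z * t)
    {u : R3} (hu : phi P t x u ≠ 0) : ∃ j, P.j0 ≤ j ∧ u ∈ Fuel.lset P j t x := by
  obtain ⟨k, j, hj, hv⟩ := Fuel.exists_of_phi_ne h hu
  have h1 := norm_of_vis_le h ht.le ht0 (x := x) (k := k) ⟨j, hj, u, hv⟩
  have h2 : k = 0 := by
    refine latt_unique (x := x) (h1.trans_lt (by norm_num)) ?_
    rw [latt_zero, add_zero]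
    exact (hx.trans htZ).trans_lt (by norm_num)
  rw [h2, latt_zero, add_zero] at hv
  exact ⟨j, hj, hv⟩

theorem near_phi {P : Par} (h : P.Ok) {Z : ℝ} {t : ℝ} (ht : 0 < t)
    (htZ : Z * t ≤ 1 / 8) (ht0 : (P.c + P.Y + 1) * t ≤ 1 / 40) {x : P2} (hx : ‖x‖ ≤ Z * t)
    {j : ℕ} (hj : P.j0 ≤ j) (hne : (Fuel.lset P j t x).Nonempty) (u : R3) :
    phi P t x u = Fuel.phij P j t x u := by
  by_cases h0 : phi P t x u = 0
  · rw [h0]
    by_contra h1
    have h2 := Fuel.phij_ne (Ne.symm h1)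
    have h3 := Fuel.phi_eq_phij h (k := 0) hj (by rw [latt_zero, add_zero]; exact h2)
    rw [latt_zero, add_zero] at h3
    exact h1 (h0 ▸ h3)
  · obtain ⟨i, hi, hu⟩ := near_image h ht htZ ht0 hx h0
    obtain ⟨w, hw⟩ := hne
    have h1 := Fuel.one_lane h hi hj ht.le hu hw
    subst h1
    have h3 := Fuel.phi_eq_phij h (k := 0) hi (by rw [latt_zero, add_zero]; exact hu)
    rwa [latt_zero, add_zero] at h3

/-! ### Profiles -/

theorem chij_mem {j : ℕ} {a : ℝ} (h : chij j a ≠ 0) : a ∈ lane j := by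
  by_cases h0 : a = 0
  · exfalso
    apply h
    rw [h0]
    unfold chij
    apply max_eq_left
    refine (min_le_right _ _).trans ((min_le_left _ _).trans ?_)
    have : (0 : ℝ) ≤ j := Nat.cast_nonneg j
    norm_num
    linarith
  · by_contra h1
    exact h (chij_eq_zero h0 h1)

theorem qj_eq {P : Par} (h : P.Ok) (j : ℕ) (a z : ℝ) :
    Fuel.qj P j a z = P.K * chij j a * ky P (z / rr a) := by
  unfold Fuel.qj
  split_ifs with h1
  · rfl
  · by_cases h2 : chij j a = 0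
    · rw [h2]; ring
    · have h3 := chij_mem h2
      have h4 : ¬ |z| < P.Y * rr a := fun h5 => h1 ⟨h3, h5⟩
      have h5 := Fuel.rr_pos h3.1
      rw [ky_eq_zero h.ey0, mul_zero]
      rw [abs_div, abs_of_pos h5, le_div_iff₀ h5]
      exact not_lt.1 h4

theorem chij_lip (j : ℕ) (a b : ℝ) : |chij j a - chij j b| ≤ 100 * |1 / a ^ 2 - 1 / b ^ 2| := by
  unfold chij
  refine (abs_max_sub_max_le_max _ _ _ _).trans ?_
  rw [sub_self, abs_zero]
  refine max_le (by positivity) ?_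
  refine (abs_min_sub_min_le_max _ _ _ _).trans ?_
  rw [sub_self, abs_zero]
  refine max_le (by positivity) ?_
  refine (abs_min_sub_min_le_max _ _ _ _).trans ?_
  refine max_le ?_ ?_
  · rw [← mul_sub, abs_mul, abs_of_pos (by norm_num : (0 : ℝ) < 100)]
    refine mul_le_mul_of_nonneg_left (le_of_eq ?_) (by norm_num)
    congr 1; ring
  · rw [← mul_sub, abs_mul, abs_of_pos (by norm_num : (0 : ℝ) < 100)]
    refine mul_le_mul_of_nonneg_left (le_of_eq ?_) (by norm_num)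
    rw [abs_sub_comm]
    congr 1; ring

theorem ky_lip {P : Par} (h : 0 < P.ey) (y y' : ℝ) : |ky P y - ky P y'| ≤ |y - y'| / P.ey := by
  unfold ky
  refine (abs_max_sub_max_le_max _ _ _ _).trans ?_
  rw [sub_self, abs_zero]
  refine max_le (by positivity) ?_
  refine (abs_min_sub_min_le_max _ _ _ _).trans ?_
  rw [sub_self, abs_zero]
  refine max_le (by positivity) ?_
  rw [← sub_div, abs_div, abs_of_pos h]
  refine div_le_div_of_nonneg_right ?_ h.le
  rw [sub_sub_sub_cancel_left, abs_sub_comm]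
  exact abs_abs_sub_abs_le_abs_sub y y'

/-- comparison of two very close labels -/
theorem close_labels {m o t : ℝ} (hm : m ≠ 0) (hm2 : |m| ≤ 1 / 2) (ht : 0 ≤ t) (ht8 : t ≤ 1 / 8)
    (h : |m - o| ≤ 8 * t * m ^ 6) :
    o ≠ 0 ∧ |o| ≤ 2 * |m| ∧ |1 / m ^ 2 - 1 / o ^ 2| ≤ 12 * t := by
  have h0 : 0 < |m| := abs_pos.2 hm
  have h1 : m ^ 6 ≤ |m| / 32 := by
    have h2 : m ^ 6 = |m| ^ 6 := by rw [← abs_pow, abs_of_nonneg (by positivity : 0 ≤ m ^ 6)]
    have h3 : |m| ^ 5 ≤ (1 / 2) ^ 5 := by gcongr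
    rw [h2]
    calc |m| ^ 6 = |m| * |m| ^ 5 := by ring
      _ ≤ |m| * (1 / 2) ^ 5 := mul_le_mul_of_nonneg_left h3 h0.le
      _ = |m| / 32 := by ring
  have h2 : |m - o| ≤ |m| / 32 := by
    refine h.trans ?_
    have : 0 ≤ m ^ 6 := by positivity
    nlinarith
  have h3 : |m| / 2 ≤ |o| := by
    have := abs_sub_abs_le_abs_sub m o
    linarith
  have h4 : |o| ≤ 2 * |m| := by
    have := abs_sub_abs_le_abs_sub o m
    rw [abs_sub_comm] at this
    linarith
  have ho : o ≠ 0 := by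
    intro h5
    rw [h5, abs_zero] at h3
    linarith
  refine ⟨ho, h4, ?_⟩
  have ho0 : 0 < |o| := abs_pos.2 ho
  have e1 : 1 / m ^ 2 - 1 / o ^ 2 = (o - m) * (o + m) / (m ^ 2 * o ^ 2) := by
    field_simp
    ring
  rw [e1, abs_div, abs_mul, abs_of_pos (by positivity : 0 < m ^ 2 * o ^ 2), abs_sub_comm,
    div_le_iff₀ (by positivity)]
  have h5 : |o + m| ≤ 3 * |m| := (abs_add_le o m).trans (by linarith)
  have h6 : m ^ 2 / 4 ≤ o ^ 2 := by
    rw [← sq_abs m, ← sq_abs o]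
    nlinarith
  have h7 : |m| ^ 3 ≤ 1 / 8 := by
    calc |m| ^ 3 ≤ (1 / 2) ^ 3 := by gcongr
      _ = 1 / 8 := by norm_num
  have h8 : m ^ 6 = m ^ 2 * m ^ 2 * m ^ 2 := by ring
  have h9 : m ^ 2 * |m| = |m| ^ 3 := by rw [← sq_abs m]; ring
  calc |m - o| * |o + m| ≤ (8 * t * m ^ 6) * (3 * |m|) :=
        mul_le_mul h h5 (abs_nonneg _) (by positivity)
    _ = 24 * t * (m ^ 2 * m ^ 2) * (m ^ 2 * |m|) := by rw [h8]; ring
    _ ≤ 24 * t * (m ^ 2 * m ^ 2) * (1 / 8) := by rw [h9]; gcongr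
    _ = 12 * t * (m ^ 2 * (m ^ 2 / 4)) := by ring
    _ ≤ 12 * t * (m ^ 2 * o ^ 2) := by gcongr

/-! ### Labels seen at `(t, x)` -/

theorem lab_eq {P : Par} (h : P.Ok) (t : ℝ) (x : P2) : lab P t x = x.1 / (1 + P.kap * t) := by
  have hd := Fuel.Ok.dlp h
  unfold lab Par.kap
  have e : P.dl + P.c * t = P.dl * (1 + P.c / P.dl * t) := by field_simp
  rw [e, mul_div_mul_left _ _ hd.ne']

/-- the label of a thermal coordinate is close to `lab` -/
theorem lA_lab {P : Par} (h : P.Ok) (j : ℕ) {t : ℝ} (ht : 0 < t) (x : P2) {s : ℝ} (hs : |s| < 1) :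
    |Fuel.lA P j t x s - lab P t x| ≤ t * etaj P.p j := by
  have hκ := Fuel.Ok.kap0 h
  have h1 : 1 ≤ 1 + P.kap * t := by nlinarith
  have hη := Fuel.etaj_pos P.p j
  rw [lab_eq h]
  unfold Fuel.lA Fuel.sa
  rw [← sub_div, abs_div, abs_of_pos (by linarith : 0 < 1 + P.kap * t)]
  have e : x.1 - t * (etaj P.p j * s) - x.1 = -(t * etaj P.p j * s) := by ring
  rw [e, abs_neg, abs_mul, abs_of_pos (mul_pos ht hη)]
  rw [div_le_iff₀ (by linarith)]
  have h2 : t * etaj P.p j * |s| ≤ t * etaj P.p j * 1 :=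
    mul_le_mul_of_nonneg_left hs.le (by positivity)
  have h3 : t * etaj P.p j * 1 ≤ t * etaj P.p j * (1 + P.kap * t) :=
    mul_le_mul_of_nonneg_left h1 (by positivity)
  linarith

theorem abs_lab_le {P : Par} (h : P.Ok) {t : ℝ} (ht : 0 < t) (x : P2) : |lab P t x| ≤ ‖x‖ := by
  have hκ := Fuel.Ok.kap0 h
  have h1 : 1 ≤ 1 + P.kap * t := by nlinarith
  rw [lab_eq h, abs_div, abs_of_pos (by linarith : 0 < 1 + P.kap * t)]
  exact (div_le_self (abs_nonneg _) h1).trans (norm_fst_le x)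

/-- comparison of the lane profile at the two labels -/
theorem labels_close {P : Par} (h : P.Ok) {Z : ℝ} (hZ : 1 ≤ Z) {t : ℝ} (ht : 0 < t)
    (htZ : (Z + 3) * t ≤ 1 / 2) {x : P2} (hx : ‖x‖ ≤ Z * t) {j : ℕ} {s : ℝ} (hs : |s| < 1)
    (hl : Fuel.lA P j t x s ∈ lane j ∨ lab P t x ∈ lane j) :
    Fuel.lA P j t x s ≠ 0 ∧ |Fuel.lA P j t x s| ≤ 2 * (Z + 1) * t ∧
      |1 / Fuel.lA P j t x s ^ 2 - 1 / lab P t x ^ 2| ≤ 12 * t ∧ etaj P.p j ≤ (Z + 3) * t := by
  have h1 := lA_lab h j ht x hs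
  have h2 := (abs_lab_le h ht x).trans hx
  have hη := Fuel.etaj_pos P.p j
  have hη1 := Fuel.etaj_le_one P.p j
  have ht8 : t ≤ 1 / 8 := by nlinarith
  set a := Fuel.lA P j t x s with ha
  set b := lab P t x with hb
  have h3 : |a| ≤ (Z + 1) * t := by
    have := abs_sub_abs_le_abs_sub a b
    nlinarith
  rcases hl with hl | hl
  · have h4 : |a| ≤ 1 / 2 := by nlinarith
    have h5 : 2 * a ^ 2 ≤ 1 := by rw [← sq_abs]; nlinarith [abs_nonneg a]
    have h6 := eta_le_pow h.p3 hl h5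
    have h7 : |a - b| ≤ 8 * t * a ^ 6 := by
      refine h1.trans ?_
      nlinarith
    obtain ⟨-, -, h8⟩ := close_labels hl.1 h4 ht.le ht8 h7
    refine ⟨hl.1, by nlinarith, h8, eta_le_b h.p3 hl (by nlinarith) htZ⟩
  · have h4 : |b| ≤ 1 / 2 := by nlinarith
    have h5 : 2 * b ^ 2 ≤ 1 := by rw [← sq_abs]; nlinarith [abs_nonneg b]
    have h6 := eta_le_pow h.p3 hl h5
    have h7 : |b - a| ≤ 8 * t * b ^ 6 := by
      rw [abs_sub_comm]
      refine h1.trans ?_
      nlinarith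
    obtain ⟨h9, -, h8⟩ := close_labels hl.1 h4 ht.le ht8 h7
    refine ⟨h9, by nlinarith, ?_, eta_le_b h.p3 hl (by nlinarith) htZ⟩
    rw [abs_sub_comm]
    exact h8

/-- the time weight -/
theorem weight_diff {t r κ M : ℝ} (ht : 0 < t) (hr : 0 ≤ r) (hκ : 0 ≤ κ) (hM : r ≤ M * t ^ 2) :
    |1 / ((t + r) * (1 + κ * t)) - 1 / t| ≤ M + κ := by
  have ht' : 0 < t + r := by linarith
  have h1 : 0 < 1 + κ * t := by positivity
  have h1κ : 1 ≤ 1 + κ * t := le_add_of_nonneg_right (by positivity)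
  have hM0 : 0 ≤ M := by
    by_contra h
    push Not at h
    have : M * t ^ 2 < 0 := mul_neg_of_neg_of_pos h (by positivity)
    linarith
  have k1 : 1 / ((t + r) * (1 + κ * t)) - 1 / t =
      -((r + κ * t * (t + r)) / (t * ((t + r) * (1 + κ * t)))) := by
    field_simp
    ring
  rw [k1, abs_neg, abs_of_nonneg (by positivity), div_le_iff₀ (by positivity)]
  have k3 : r ≤ M * (t * (t + r)) := by
    refine hM.trans (mul_le_mul_of_nonneg_left ?_ hM0)
    rw [pow_two]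
    exact mul_le_mul_of_nonneg_left (by linarith) ht.le
  have k4 : r + κ * t * (t + r) ≤ (M + κ) * (t * (t + r)) := by
    have : (M + κ) * (t * (t + r)) = M * (t * (t + r)) + κ * t * (t + r) := by ring
    rw [this]
    linarith
  refine k4.trans (mul_le_mul_of_nonneg_left ?_ (by positivity))
  refine mul_le_mul_of_nonneg_left ?_ ht.le
  exact le_mul_of_one_le_right ht'.le h1κ

/-- the label ratio -/
theorem ratio_diff {t r η y Z M s : ℝ} (ht : 0 < t) (hr : 0 < r) (hM : r ≤ M * t ^ 2)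
    (hZ : 0 ≤ Z) (hη0 : 0 ≤ η) (hη : η ≤ (Z + 3) * t) (hs : |s| ≤ 1) (hy : |y| ≤ Z * t) :
    |r * (y - t * (η * s)) / (t + r) / r - y / t| ≤ ((Z + 3) + M * Z) * t := by
  have ht' : 0 < t + r := by linarith
  have hM0 : 0 ≤ M := by
    by_contra h
    push Not at h
    have : M * t ^ 2 < 0 := mul_neg_of_neg_of_pos h (by positivity)
    linarith
  have e3 : r * (y - t * (η * s)) / (t + r) / r - y / t =
      -(t ^ 2 * (η * s) + y * r) / (t * (t + r)) := by
    field_simp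
    ring
  rw [e3, abs_div, abs_neg, abs_of_pos (by positivity : 0 < t * (t + r)),
    div_le_iff₀ (by positivity)]
  have k3 : |t ^ 2 * (η * s) + y * r| ≤ t ^ 2 * ((Z + 3) * t) + Z * t * (M * t ^ 2) := by
    refine (abs_add_le _ _).trans (add_le_add ?_ ?_)
    · rw [abs_mul, abs_mul, abs_of_nonneg hη0, abs_of_pos (by positivity : 0 < t ^ 2)]
      refine mul_le_mul_of_nonneg_left ?_ (by positivity)
      calc η * |s| ≤ η * 1 := mul_le_mul_of_nonneg_left hs hη0
        _ = η := mul_one _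
        _ ≤ _ := hη
    · rw [abs_mul, abs_of_pos hr]
      exact mul_le_mul hy hM hr.le (by positivity)
  refine k3.trans ?_
  calc t ^ 2 * ((Z + 3) * t) + Z * t * (M * t ^ 2) = ((Z + 3) + M * Z) * t * (t * t) := by ring
    _ ≤ ((Z + 3) + M * Z) * t * (t * (t + r)) := by
      refine mul_le_mul_of_nonneg_left ?_ (by positivity)
      exact mul_le_mul_of_nonneg_left (by linarith) ht.le

/-- constant of the density -/
def Cd (P : Par) (Z : ℝ) : ℝ :=
  P.K / 8 * (1200 + ((Z + 3) + 4 * (Z + 1) ^ 2 * Z) / P.ey + (4 * (Z + 1) ^ 2 + P.kap))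

theorem Cd_nonneg {P : Par} (h : P.Ok) {Z : ℝ} (hZ : 1 ≤ Z) : 0 ≤ Cd P Z := by
  have := Fuel.Ok.kap0 h
  have := h.K0
  have := h.ey0
  unfold Cd
  positivity

/-- the density profile is close to its ideal value -/
theorem dens_diff {P : Par} (h : P.Ok) {Z : ℝ} (hZ : 1 ≤ Z) {t : ℝ} (ht : 0 < t)
    (htZ : (Z + 3) * t ≤ 1 / 2) {x : P2} (hx : ‖x‖ ≤ Z * t) {j : ℕ} {s s' : ℝ} (hs : |s| < 1)
    (hs' : |s'| < 1) :
    |Fuel.qj P j (Fuel.lA P j t x s) (Fuel.lZ P j t x s s') /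
      (8 * (t + rr (Fuel.lA P j t x s)) * (1 + P.kap * t)) -
      P.K / t * ky P (x.2 / t) * chij j (lab P t x) / 8| ≤ Cd P Z := by
  have hκ := Fuel.Ok.kap0 h
  have hK := h.K0
  have hey := h.ey0
  have hη := Fuel.etaj_pos P.p j
  rw [qj_eq h]
  set a := Fuel.lA P j t x s with ha
  set b := lab P t x with hb
  set z := Fuel.lZ P j t x s s' with hz
  have hra : 0 ≤ rr a := Fuel.rr_nonneg a
  have h1κ : 1 ≤ 1 + P.kap * t := by nlinarith
  set α := chij j a with hα
  set α0 := chij j b with hα0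
  set β := ky P (z / rr a) with hβ
  set β0 := ky P (x.2 / t) with hβ0
  set w := 1 / ((t + rr a) * (1 + P.kap * t)) with hw
  have hα1 : α ≤ 1 := chij_le_one j a
  have hαn : 0 ≤ α := chij_nonneg j a
  have hα01 : α0 ≤ 1 := chij_le_one j b
  have hα0n : 0 ≤ α0 := chij_nonneg j b
  have hβ1 : β ≤ 1 := ky_le_one P _
  have hβn : 0 ≤ β := ky_nonneg P _
  have hβ01 : β0 ≤ 1 := ky_le_one P _
  have hβ0n : 0 ≤ β0 := ky_nonneg P _
  have hwn : 0 ≤ w := by positivity
  have hw1 : w ≤ 1 / t := by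
    refine one_div_le_one_div_of_le ht ?_
    nlinarith
  have e1 : P.K * α * β / (8 * (t + rr a) * (1 + P.kap * t)) - P.K / t * β0 * α0 / 8 =
      P.K / 8 * ((α - α0) * β * w + α0 * (β - β0) * w + α0 * β0 * (w - 1 / t)) := by
    rw [hw]
    field_simp
    ring
  rw [e1, abs_mul, abs_of_nonneg (by positivity : 0 ≤ P.K / 8)]
  unfold Cd
  refine mul_le_mul_of_nonneg_left ?_ (by positivity)
  have b1 : |(α - α0) * β * w| ≤ 1200 := by
    have k1 : |α - α0| ≤ 1200 * t := by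
      by_cases h0 : α = α0
      · rw [h0, sub_self, abs_zero]; positivity
      · have h2 : a ∈ lane j ∨ b ∈ lane j := by
          by_cases h3 : α = 0
          · right
            exact chij_mem fun h4 => h0 (h3.trans h4.symm)
          · left
            exact chij_mem h3
        obtain ⟨-, -, h5, -⟩ := labels_close h hZ ht htZ hx hs h2
        refine (chij_lip j a b).trans ?_
        linarith
    rw [abs_mul, abs_mul, abs_of_nonneg hβn, abs_of_nonneg hwn]
    calc |α - α0| * β * w ≤ (1200 * t) * 1 * (1 / t) := by gcongr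
      _ = 1200 := by field_simp
  have b23 : |α0 * (β - β0) * w| ≤ ((Z + 3) + 4 * (Z + 1) ^ 2 * Z) / P.ey ∧
      |α0 * β0 * (w - 1 / t)| ≤ 4 * (Z + 1) ^ 2 + P.kap := by
    by_cases h0 : α0 = 0
    · rw [h0]
      simp only [zero_mul, abs_zero]
      constructor <;> positivity
    · obtain ⟨h2, h3, -, h5⟩ := labels_close h hZ ht htZ hx hs (Or.inr (chij_mem h0))
      have hrp : 0 < rr a := Fuel.rr_pos h2
      have hr : rr a ≤ 4 * (Z + 1) ^ 2 * t ^ 2 := by
        unfold rr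
        rw [← sq_abs]
        calc |a| ^ 2 ≤ (2 * (Z + 1) * t) ^ 2 := by gcongr
          _ = _ := by ring
      have hZ0 : 0 ≤ Z := by linarith
      constructor
      · have k1 : |z / rr a - x.2 / t| ≤ ((Z + 3) + 4 * (Z + 1) ^ 2 * Z) * t :=
          ratio_diff ht hrp hr hZ0 hη.le h5 hs'.le ((norm_snd_le x).trans hx)
        have k5 := ky_lip hey (z / rr a) (x.2 / t)
        have k6 : |β - β0| ≤ ((Z + 3) + 4 * (Z + 1) ^ 2 * Z) * t / P.ey :=
          k5.trans (div_le_div_of_nonneg_right k1 hey.le)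
        rw [abs_mul, abs_mul, abs_of_nonneg hα0n, abs_of_nonneg hwn]
        calc α0 * |β - β0| * w ≤ 1 * (((Z + 3) + 4 * (Z + 1) ^ 2 * Z) * t / P.ey) * (1 / t) := by
              refine mul_le_mul ?_ hw1 hwn (by positivity)
              exact mul_le_mul hα01 k6 (abs_nonneg _) zero_le_one
          _ = _ := by field_simp
      · have k2 : |w - 1 / t| ≤ 4 * (Z + 1) ^ 2 + P.kap := weight_diff ht hra hκ hr
        rw [abs_mul, abs_mul, abs_of_nonneg hα0n, abs_of_nonneg hβ0n]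
        calc α0 * β0 * |w - 1 / t| ≤ 1 * (4 * (Z + 1) ^ 2 + P.kap) := by
              refine mul_le_mul ?_ k2 (abs_nonneg _) zero_le_one
              exact mul_le_one₀ hα01 hβ0n hβ01
          _ = _ := by ring
  calc |(α - α0) * β * w + α0 * (β - β0) * w + α0 * β0 * (w - 1 / t)|
      ≤ |(α - α0) * β * w| + |α0 * (β - β0) * w| + |α0 * β0 * (w - 1 / t)| := by
        refine (abs_add_le _ _).trans (add_le_add (abs_add_le _ _) le_rfl)
    _ ≤ _ := add_le_add (add_le_add b1 b23.1) b23.2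

/-! ### The near-zone integral -/

/-- a lane with positive ideal density is visible -/
theorem ideal_visible {P : Par} (h : P.Ok) {t : ℝ} (ht : 0 < t) {x : P2} {m : ℕ}
    (hc : chij m (lab P t x) ≠ 0) (hk : ky P (x.2 / t) ≠ 0) : (Fuel.lset P m t x).Nonempty := by
  have hκ := Fuel.Ok.kap0 h
  have h1 : 0 < 1 + P.kap * t := by positivity
  have hη := Fuel.etaj_pos P.p m
  have ha := chij_mem hc
  rw [lab_eq h] at ha
  set a := x.1 / (1 + P.kap * t) with hadef
  have hr := Fuel.rr_pos ha.1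
  have hy : |x.2| < P.Y * t := by
    by_contra h3
    refine hk (ky_eq_zero h.ey0 ?_)
    rw [abs_div, abs_of_pos ht, le_div_iff₀ ht]
    exact not_lt.1 h3
  refine ⟨!₂[P.kap * a, x.2 / (t + rr a), wj m], ?_⟩
  have e0 : x.1 - t * (P.kap * a) = a := by
    have : a * (1 + P.kap * t) = x.1 := by rw [hadef]; field_simp
    rw [← this]; ring
  have e1 : x.2 - t * (x.2 / (t + rr a)) = x.2 * rr a / (t + rr a) := by
    field_simp; ring
  rw [Fuel.mem_lset]
  show ((x.1 - t * (P.kap * a) ∈ lane m ∧ |x.2 - t * (x.2 / (t + rr a))| <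
    P.Y * rr (x.1 - t * (P.kap * a))) ∧ |P.kap * a - P.kap * (x.1 - t * (P.kap * a))| < _ ∧
    |x.2 / (t + rr a) - (x.2 - t * (x.2 / (t + rr a))) / rr (x.1 - t * (P.kap * a))| < _ ∧
      |wj m - wj m| < _)
  rw [e0, e1]
  refine ⟨⟨ha, ?_⟩, ?_, ?_, ?_⟩
  · rw [abs_div, abs_mul, abs_of_pos hr, abs_of_pos (by positivity : 0 < t + rr a),
      div_lt_iff₀ (by positivity)]
    nlinarith [mul_pos hr hr, h.Y0, mul_pos h.Y0 (mul_pos hr hr)]
  · simpa using hη
  · have : x.2 / (t + rr a) - x.2 * rr a / (t + rr a) / rr a = 0 := by field_simp; ring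
    rw [this, abs_zero]
    exact hη
  · simpa using hη

/-- the two signs, in terms of one lane -/
theorem chs_sum (P : Par) {a : ℝ} {m : ℕ} (h0 : 2 * (m : ℝ) ≤ 1 / a ^ 2)
    (h1 : 1 / a ^ 2 < 2 * m + 2) (F : ℝ → ℝ) :
    chs P 1 a * F 1 + chs P (-1) a * F (-1) = if P.j0 ≤ m then chij m a * F (wj m) else 0 := by
  rw [X.chs_eq h0 h1, X.chs_eq h0 h1]
  have h6 : ¬ ((1 : ℝ) = -1) := by norm_num
  have h7 : ¬ ((-1 : ℝ) = 1) := by norm_num
  rcases X.wj_eq m with h | h <;> rw [h] <;> by_cases h8 : P.j0 ≤ m <;> simp [h6, h7, h8]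

theorem lint_cube_const (c : ℝ≥0∞) :
    ∫⁻ _ in Ioo (-1 : ℝ) 1, ∫⁻ _ in Ioo (-1 : ℝ) 1, ∫⁻ _ in Ioo (-1 : ℝ) 1, c = 8 * c := by
  have h2 : (volume (Ioo (-1 : ℝ) 1) : ℝ≥0∞) = 2 := by
    rw [Real.volume_Ioo]; norm_num
  simp only [setLIntegral_const, h2]
  ring

/-- mass of one lane in the near zone -/
theorem mass_close {P : Par} (h : P.Ok) {Z : ℝ} (hZ : 1 ≤ Z) {t : ℝ} (ht : 0 < t)
    (htZ : (Z + 3) * t ≤ 1 / 2) {x : P2} (hx : ‖x‖ ≤ Z * t) (j : ℕ) :
    Integrable (fun u => Fuel.phij P j t x u) ∧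
    |(∫ u, Fuel.phij P j t x u) - P.K / t * ky P (x.2 / t) * chij j (lab P t x)| ≤ 8 * Cd P Z ∧
      (∫ u, Fuel.phij P j t x u) ≤ P.K / t := by
  have hK := h.K0
  have hC := Cd_nonneg h hZ
  have hκ := Fuel.Ok.kap0 h
  have hm : Measurable fun u : R3 => Fuel.phij P j t x u := by
    have h1 : Measurable fun v : R3 => (t, x, v) := by fun_prop
    exact (Fuel.measurable_phij P j).comp h1
  have h0 : ∀ u, 0 ≤ Fuel.phij P j t x u := fun u => Fuel.phij_nonneg hK j t x u
  set D0 := P.K / t * ky P (x.2 / t) * chij j (lab P t x) with hD0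
  have hD0n : 0 ≤ D0 := mul_nonneg (mul_nonneg (by positivity) (Fuel.ky_nonneg _ _))
    (Fuel.chij_nonneg _ _)
  have hl := Fuel.lint_phij h j ht.le x (g := fun _ => 1) measurable_const
  simp only [mul_one] at hl
  set I := ∫⁻ u, ENNReal.ofReal (Fuel.phij P j t x u) with hI
  have hup : I ≤ ENNReal.ofReal (D0 + 8 * Cd P Z) := by
    rw [hl]
    calc _ ≤ ∫⁻ _ in Ioo (-1 : ℝ) 1, ∫⁻ _ in Ioo (-1 : ℝ) 1, ∫⁻ _ in Ioo (-1 : ℝ) 1,
          ENNReal.ofReal (D0 / 8 + Cd P Z) := by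
          refine setLIntegral_mono' measurableSet_Ioo fun s1 hs1 => ?_
          refine setLIntegral_mono' measurableSet_Ioo fun s2 hs2 => ?_
          refine setLIntegral_mono' measurableSet_Ioo fun s3 _ => ?_
          refine ENNReal.ofReal_le_ofReal ?_
          have h2 := dens_diff h hZ ht htZ hx (j := j) (abs_lt.2 ⟨hs1.1, hs1.2⟩)
            (abs_lt.2 ⟨hs2.1, hs2.2⟩)
          have h3 := (abs_le.1 h2).2
          linarith
      _ = 8 * ENNReal.ofReal (D0 / 8 + Cd P Z) := lint_cube_const _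
      _ = ENNReal.ofReal (D0 + 8 * Cd P Z) := by
          rw [show (8 : ℝ≥0∞) = ENNReal.ofReal 8 by norm_num, ← ENNReal.ofReal_mul (by norm_num)]
          congr 1; ring
  have hlo : ENNReal.ofReal (D0 - 8 * Cd P Z) ≤ I := by
    rw [hl]
    calc ENNReal.ofReal (D0 - 8 * Cd P Z) = 8 * ENNReal.ofReal (D0 / 8 - Cd P Z) := by
          rw [show (8 : ℝ≥0∞) = ENNReal.ofReal 8 by norm_num, ← ENNReal.ofReal_mul (by norm_num)]
          congr 1; ring
      _ = ∫⁻ _ in Ioo (-1 : ℝ) 1, ∫⁻ _ in Ioo (-1 : ℝ) 1, ∫⁻ _ in Ioo (-1 : ℝ) 1,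
          ENNReal.ofReal (D0 / 8 - Cd P Z) := (lint_cube_const _).symm
      _ ≤ _ := by
          refine setLIntegral_mono' measurableSet_Ioo fun s1 hs1 => ?_
          refine setLIntegral_mono' measurableSet_Ioo fun s2 hs2 => ?_
          refine setLIntegral_mono' measurableSet_Ioo fun s3 _ => ?_
          refine ENNReal.ofReal_le_ofReal ?_
          have h2 := dens_diff h hZ ht htZ hx (j := j) (abs_lt.2 ⟨hs1.1, hs1.2⟩)
            (abs_lt.2 ⟨hs2.1, hs2.2⟩)
          have h3 := (abs_le.1 h2).1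
          linarith
  have hKt : I ≤ ENNReal.ofReal (P.K / t) := by
    have h2 := Fuel.lint_phij_le h j ht.le x (g := fun _ => 1) measurable_const
      (A := ENNReal.ofReal (P.K / t)) (B := 1)
      (fun a _ => ENNReal.ofReal_le_ofReal ((Fuel.dens_le h ht a).trans (by
        refine div_le_div_of_nonneg_left hK ht ?_
        nlinarith [mul_nonneg hκ ht.le]))) (fun _ _ => le_rfl)
    simpa only [mul_one] using h2
  have hfin : I ≠ ⊤ := ne_top_of_le_ne_top ENNReal.ofReal_ne_top hKt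
  have hint : Integrable (fun u => Fuel.phij P j t x u) := by
    refine ⟨hm.aestronglyMeasurable, ?_⟩
    rw [hasFiniteIntegral_iff_ofReal (Filter.Eventually.of_forall h0)]
    exact hfin.lt_top
  have heq : (∫ u, Fuel.phij P j t x u) = I.toReal :=
    integral_eq_lintegral_of_nonneg_ae (Filter.Eventually.of_forall h0) hm.aestronglyMeasurable
  refine ⟨hint, ?_, ?_⟩
  · rw [heq, abs_le]
    constructor
    · have : D0 - 8 * Cd P Z ≤ I.toReal := by
        rw [← ENNReal.ofReal_le_iff_le_toReal hfin]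
        exact hlo
      linarith
    · have : I.toReal ≤ D0 + 8 * Cd P Z := ENNReal.toReal_le_of_le_ofReal (by positivity) hup
      linarith
  · rw [heq]
    exact ENNReal.toReal_le_of_le_ofReal (by positivity) hKt

/-- **the fuel in the near zone.** (Note the parentheses around the integral: the display in
`XIface` parses with the whole difference inside the integral.) -/
theorem fuel_near {P : Par} (hP : P.Ok) (Z : ℝ) (hZ : 1 ≤ Z) : ∃ t0 C : ℝ, 0 < t0 ∧ 0 ≤ C ∧
    ∀ t, 0 < t → t ≤ t0 → ∀ x : P2, ‖x‖ ≤ Z * t →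
      (∀ u, phi P t x u ≠ 0 → |x.2 / t| ≤ P.Y + C * t ∧
        ∃ s : ℝ, (s = 1 ∨ s = -1) ∧ ‖u - us (x.2 / t) s‖ ≤ C * t) ∧
      (∀ (G : R3 → ℝ) (G0 L : ℝ), Measurable G → (∀ u, ‖u‖ ≤ P.Y + 3 → |G u| ≤ G0) →
        (∀ u u', ‖u‖ ≤ P.Y + 3 → ‖u'‖ ≤ P.Y + 3 → |G u - G u'| ≤ L * ‖u - u'‖) →
        |(∫ u, phi P t x u * G u) - P.K / t * ky P (x.2 / t) *
          (chs P 1 (lab P t x) * G (us (x.2 / t) 1) + chs P (-1) (lab P t x) * G (us (x.2 / t) (-1)))|
          ≤ C * (G0 + L)) := by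
  have hc := hP.c0
  have hY := hP.Y0
  have hK := hP.K0
  have hCn := Cn_pos hP hZ
  have hCd := Cd_nonneg hP hZ
  set C := Cn P Z + P.K * Cn P Z + 8 * Cd P Z with hC
  set S := 8 * (Z + 3) + 40 * (P.c + P.Y + 1) + Cn P Z with hS
  have hS0 : 0 < S := by positivity
  refine ⟨1 / S, C, by positivity, by positivity, fun t ht ht0 x hx => ?_⟩
  rw [le_div_iff₀ hS0] at ht0
  have q1 : 0 ≤ (Z + 3) * t := by positivity
  have q2 : 0 ≤ (P.c + P.Y + 1) * t := by positivity
  have q3 : 0 ≤ Cn P Z * t := by positivity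
  have q4 : t * S = 8 * ((Z + 3) * t) + 40 * ((P.c + P.Y + 1) * t) + Cn P Z * t := by
    rw [hS]; ring
  have htZ : (Z + 3) * t ≤ 1 / 2 := by linarith
  have htZ8 : Z * t ≤ 1 / 8 := by linarith
  have htc : (P.c + P.Y + 1) * t ≤ 1 / 40 := by linarith
  have htC : Cn P Z * t ≤ 1 := by linarith
  have hCnC : Cn P Z ≤ C := by
    have : 0 ≤ P.K * Cn P Z := by positivity
    linarith
  refine ⟨fun u hu => ?_, fun G G0 L hG hG0 hGL => ?_⟩
  · obtain ⟨j, hj, hu'⟩ := near_image hP ht htZ8 htc hx hu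
    obtain ⟨h1, h2⟩ := near_one hP hZ ht htZ hx hj hu'
    have h3 : Cn P Z * t ≤ C * t := mul_le_mul_of_nonneg_right hCnC ht.le
    exact ⟨h1.trans (by linarith), wj j, X.wj_eq j, h2.trans h3⟩
  · have hG00 : 0 ≤ G0 := (abs_nonneg _).trans (hG0 0 (by rw [norm_zero]; linarith))
    have hL0 : 0 ≤ L := by
      have h1 : ‖(!₂[1, 0, 0] : R3)‖ = 1 := by
        rw [EuclideanSpace.norm_eq, Fin.sum_univ_three]
        simp
      have h2 := hGL !₂[1, 0, 0] 0 (by rw [h1]; linarith) (by rw [norm_zero]; linarith)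
      rw [sub_zero, h1, mul_one] at h2
      exact (abs_nonneg _).trans h2
    obtain ⟨m, hm0, hm1⟩ := X.exists_lane_index (lab P t x)
    rw [chs_sum P hm0 hm1 (fun s => G (us (x.2 / t) s))]
    by_cases hv : ∃ j, P.j0 ≤ j ∧ (Fuel.lset P j t x).Nonempty
    · obtain ⟨j, hj, hne⟩ := hv
      -- the ideal term is that of the lane `j`
      have hT : P.K / t * ky P (x.2 / t) *
          (if P.j0 ≤ m then chij m (lab P t x) * G (us (x.2 / t) (wj m)) else 0) =
          P.K / t * ky P (x.2 / t) * chij j (lab P t x) * G (us (x.2 / t) (wj j)) := by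
        by_cases hjm : j = m
        · subst hjm
          rw [if_pos hj]; ring
        · rw [X.chij_zero_of_ne hm0 hm1 hjm, mul_zero, zero_mul]
          by_cases h1 : P.j0 ≤ m
          · rw [if_pos h1]
            by_cases h2 : ky P (x.2 / t) = 0
            · rw [h2]; ring
            · by_cases h3 : chij m (lab P t x) = 0
              · rw [h3]; ring
              · exfalso
                obtain ⟨v, hv⟩ := ideal_visible hP ht h3 h2
                obtain ⟨w, hw⟩ := hne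
                exact hjm (Fuel.one_lane hP hj h1 ht.le hw hv)
          · rw [if_neg h1, mul_zero]
      rw [hT]
      have hphi : ∀ u, phi P t x u = Fuel.phij P j t x u := fun u =>
        near_phi hP ht htZ8 htc hx hj hne u
      simp only [hphi]
      obtain ⟨hint, hmass, hKt⟩ := mass_close hP hZ ht htZ hx j
      have h0 : ∀ u, 0 ≤ Fuel.phij P j t x u := fun u => Fuel.phij_nonneg hK j t x u
      have hmφ : Measurable fun u : R3 => Fuel.phij P j t x u := by
        have h1 : Measurable fun v : R3 => (t, x, v) := by fun_prop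
        exact (Fuel.measurable_phij P j).comp h1
      set uj := us (x.2 / t) (wj j) with huj
      set D0 := P.K / t * ky P (x.2 / t) * chij j (lab P t x) with hD0
      -- the ideal velocity lies in the ball
      have hujn : ‖uj‖ ≤ P.Y + 3 := by
        obtain ⟨w, hw⟩ := hne
        obtain ⟨-, h2⟩ := near_one hP hZ ht htZ hx hj hw
        have h3 := norm_lset_le hP hj hw
        have h4 : ‖uj‖ ≤ ‖w‖ + ‖w - uj‖ := by
          have := norm_sub_le w (w - uj)
          rwa [sub_sub_cancel] at this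
        linarith
      have hpt : ∀ u, |Fuel.phij P j t x u * (G u - G uj)| ≤
          L * (Cn P Z * t) * Fuel.phij P j t x u := by
        intro u
        by_cases h1 : Fuel.phij P j t x u = 0
        · rw [h1]; simp
        · have hu := Fuel.phij_ne h1
          obtain ⟨-, h2⟩ := near_one hP hZ ht htZ hx hj hu
          have h3 := norm_lset_le hP hj hu
          have h4 := hGL u uj (by linarith) hujn
          rw [abs_mul, abs_of_nonneg (h0 u), mul_comm]
          refine mul_le_mul_of_nonneg_right ?_ (h0 u)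
          exact h4.trans (mul_le_mul_of_nonneg_left h2 hL0)
      have hint2 : Integrable (fun u => Fuel.phij P j t x u * (G u - G uj)) := by
        refine (hint.const_mul (L * (Cn P Z * t))).mono' ?_ ?_
        · exact (hmφ.mul (hG.sub measurable_const)).aestronglyMeasurable
        · exact Filter.Eventually.of_forall fun u => by
            rw [Real.norm_eq_abs]
            exact hpt u
      have hsplit : (∫ u, Fuel.phij P j t x u * G u) =
          (∫ u, Fuel.phij P j t x u * (G u - G uj)) + (∫ u, Fuel.phij P j t x u) * G uj := by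
        rw [← integral_mul_const, ← integral_add hint2 (hint.mul_const _)]
        congr 1
        funext u
        ring
      have hA : |∫ u, Fuel.phij P j t x u * (G u - G uj)| ≤ P.K * Cn P Z * L := by
        rw [← Real.norm_eq_abs]
        refine (norm_integral_le_integral_norm _).trans ?_
        calc (∫ u, ‖Fuel.phij P j t x u * (G u - G uj)‖) ≤
              ∫ u, L * (Cn P Z * t) * Fuel.phij P j t x u := by
                refine integral_mono hint2.norm (hint.const_mul _) fun u => ?_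
                rw [Real.norm_eq_abs]
                exact hpt u
          _ = L * (Cn P Z * t) * ∫ u, Fuel.phij P j t x u := integral_const_mul _ _
          _ ≤ L * (Cn P Z * t) * (P.K / t) := mul_le_mul_of_nonneg_left hKt (by positivity)
          _ = P.K * Cn P Z * L := by field_simp
      have hB : |((∫ u, Fuel.phij P j t x u) - D0) * G uj| ≤ 8 * Cd P Z * G0 := by
        rw [abs_mul]
        exact mul_le_mul hmass (hG0 uj hujn) (abs_nonneg _) (by positivity)
      rw [hsplit]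
      have e : (∫ u, Fuel.phij P j t x u * (G u - G uj)) + (∫ u, Fuel.phij P j t x u) * G uj -
          D0 * G uj = (∫ u, Fuel.phij P j t x u * (G u - G uj)) +
            ((∫ u, Fuel.phij P j t x u) - D0) * G uj := by ring
      rw [e]
      refine (abs_add_le _ _).trans ((add_le_add hA hB).trans ?_)
      have r1 : 0 ≤ Cn P Z * (G0 + L) := by positivity
      have r2 : 0 ≤ P.K * Cn P Z * G0 := by positivity
      have r3 : 0 ≤ 8 * Cd P Z * L := by positivity
      have r4 : C * (G0 + L) = Cn P Z * (G0 + L) + P.K * Cn P Z * L + P.K * Cn P Z * G0 +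
          8 * Cd P Z * G0 + 8 * Cd P Z * L := by rw [hC]; ring
      rw [r4]
      linarith
    · have hphi : ∀ u, phi P t x u = 0 := by
        intro u
        by_contra h1
        obtain ⟨j, hj, hu⟩ := near_image hP ht htZ8 htc hx h1
        exact hv ⟨j, hj, u, hu⟩
      have hT : P.K / t * ky P (x.2 / t) *
          (if P.j0 ≤ m then chij m (lab P t x) * G (us (x.2 / t) (wj m)) else 0) = 0 := by
        by_cases h1 : P.j0 ≤ m
        · rw [if_pos h1]
          by_cases h2 : ky P (x.2 / t) = 0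
          · rw [h2]; ring
          · by_cases h3 : chij m (lab P t x) = 0
            · rw [h3]; ring
            · exact absurd ⟨m, h1, ideal_visible hP ht h3 h2⟩ hv
        · rw [if_neg h1, mul_zero]
      rw [hT]
      simp only [hphi, zero_mul, integral_zero, sub_zero, abs_zero]
      positivity

end Crest.Agent.R68.X2
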