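import Crest.Agent.R68.XDefs2
import Crest.Agent.R68.X2Gs
import Crest.Agent.R68.X2Frame
import Crest.Agent.R68.X2Fuel

/-!
# Row 68, X2Pt (helper616): pointwise facts on `OmE`, `psi0`, `psiP`, `gL` for the seeds
-/

set_option autoImplicit false
open MeasureTheory Set Filter
open scoped ENNReal Real
open Crest.AnalysisR.VecCalc3 Crest.AnalysisR.PDE.Boltzmann

noncomputable section

namespace Crest.Agent.R68.X2

/-! ### bounds of the cut-offs and of `f0` -/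

theorem pt_cutB_nonneg (B w : ℝ) : 0 ≤ cutB B w := sq_nonneg _

theorem pt_cutB_le_one (B w : ℝ) : cutB B w ≤ 1 := by
  unfold cutB
  have h0 : 0 ≤ max 0 (1 - w ^ 2 / B ^ 2) := le_max_left _ _
  have h1 : max 0 (1 - w ^ 2 / B ^ 2) ≤ 1 := by
    apply max_le zero_le_one
    have : 0 ≤ w ^ 2 / B ^ 2 := by positivity
    linarith
  nlinarith

theorem pt_lamd_nonneg (d a : ℝ) : 0 ≤ lamd d a := le_max_left _ _

theorem pt_lamd_le_one (d a : ℝ) : lamd d a ≤ 1 := max_le zero_le_one (min_le_left _ _)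

theorem pt_ramp_nonneg (r : ℝ) : 0 ≤ ramp r := le_max_left _ _

theorem pt_ramp_le_one (r : ℝ) : ramp r ≤ 1 := max_le zero_le_one (min_le_left _ _)

theorem pt_ramp_zero {r : ℝ} (h : 2 ≤ r) : ramp r = 0 := by
  unfold ramp
  rw [max_eq_left]
  exact (min_le_right _ _).trans (by linarith)

section
variable {N A Yp Y ey e : ℝ}

theorem TentOK.pt_A (h : TentOK N A Yp Y ey e) : 98 ≤ A := by
  rw [h.AN]; linarith [h.N1]

theorem TentOK.pt_AYp (h : TentOK N A Yp Y ey e) : 1 + A - e / 10 ≤ (1 + A) * Yp := by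
  have h1 := h.eye
  have h2 := h.Y1
  have h3 := h.pt_A
  rw [h.Ypd]
  nlinarith

theorem TentOK.pt_AYp0 (h : TentOK N A Yp Y ey e) : 0 ≤ (1 + A) * Yp := by
  have := h.pt_AYp
  have := h.e1
  have := h.pt_A
  linarith

theorem pt_tentp_le (h : TentOK N A Yp Y ey e) (y : ℝ) (q : R3) :
    tentp A Yp e y q ≤ (1 + A) * Yp := by
  unfold tentp tent
  apply max_le h.pt_AYp0
  have h1 : 0 ≤ |(1 + A) * y + q 1| := abs_nonneg _
  have h2 : 0 ≤ e * ‖q‖ ^ 2 := mul_nonneg h.e0.le (by positivity)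
  linarith

end

theorem pt_tentp_nonneg (A Yp e y : ℝ) (q : R3) : 0 ≤ tentp A Yp e y q := le_max_left _ _

theorem pt_f0_nonneg (X : XP) (z : P2) (v : R3) : 0 ≤ f0 X z v :=
  mul_nonneg (mul_nonneg (pt_tentp_nonneg _ _ _ _ _) (pt_cutB_nonneg _ _)) (pt_lamd_nonneg _ _)

section
variable {X : XP} {N Y ey : ℝ}

theorem pt_f0_le (h : TentOK N X.A X.Yp Y ey X.e) (z : P2) (v : R3) :
    f0 X z v ≤ (1 + X.A) * X.Yp := by
  unfold f0
  have h1 := pt_tentp_le h z.2 (fr z.2 v)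
  have h2 := pt_tentp_nonneg X.A X.Yp X.e z.2 (fr z.2 v)
  have h3 := pt_cutB_le_one X.B z.1
  have h4 := pt_cutB_nonneg X.B z.1
  have h5 := pt_lamd_le_one X.d (v 0)
  have h6 := pt_lamd_nonneg X.d (v 0)
  calc tentp X.A X.Yp X.e z.2 (fr z.2 v) * cutB X.B z.1 * lamd X.d (v 0)
      ≤ tentp X.A X.Yp X.e z.2 (fr z.2 v) * 1 * 1 := by gcongr
    _ ≤ _ := by linarith

theorem pt_psi0_nonneg (X : XP) (t : ℝ) (x : P2) (v : R3) : 0 ≤ psi0 X t x v := pt_f0_nonneg _ _ _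

theorem pt_psi0_le (h : TentOK N X.A X.Yp Y ey X.e) (t : ℝ) (x : P2) (v : R3) :
    psi0 X t x v ≤ (1 + X.A) * X.Yp := pt_f0_le h _ _

end

/-- norm in self-similar variables -/
theorem pt_norm_z {t : ℝ} (ht : 0 < t) (x : P2) : ‖t⁻¹ • x‖ = ‖x‖ / t := by
  rw [norm_smul, norm_inv, Real.norm_of_nonneg ht.le, inv_mul_eq_div]

/-- support of `psi0` -/
theorem pt_psi0_supp {X : XP} {Zs Vs : ℝ} (hs : ∀ z v, f0 X z v ≠ 0 → ‖z‖ ≤ Zs ∧ ‖v‖ ≤ Vs) {t : ℝ}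
    (ht : 0 < t) {x : P2} {v : R3} (h : psi0 X t x v ≠ 0) : ‖x‖ ≤ Zs * t ∧ ‖v‖ ≤ Vs := by
  obtain ⟨h1, h2⟩ := hs _ _ h
  rw [pt_norm_z ht, div_le_iff₀ ht] at h1
  exact ⟨h1, h2⟩

/-- `psiP` is bounded: at most one lattice point contributes -/
theorem pt_psiP_le {X : XP} {N Y ey Zs Vs : ℝ} (h : TentOK N X.A X.Yp Y ey X.e)
    (hs : ∀ z v, f0 X z v ≠ 0 → ‖z‖ ≤ Zs ∧ ‖v‖ ≤ Vs) {t : ℝ} (ht : 0 < t)
    (hZ : Zs * t < 7 / 20) (x : P2) (v : R3) :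
    psiP X t x v ≤ ENNReal.ofReal ((1 + X.A) * X.Yp) := by
  unfold psiP
  by_cases hex : ∃ k, psiE X t (x + latt k) v ≠ 0
  · obtain ⟨k, hk⟩ := hex
    rw [tsum_eq_single k]
    · exact ENNReal.ofReal_le_ofReal (pt_psi0_le h _ _ _)
    · intro l hl
      by_contra h0
      apply hl
      have a1 : psi0 X t (x + latt k) v ≠ 0 := by
        intro h3; apply hk; unfold psiE; rw [h3, ENNReal.ofReal_zero]
      have a2 : psi0 X t (x + latt l) v ≠ 0 := by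
        intro h3; apply h0; unfold psiE; rw [h3, ENNReal.ofReal_zero]
      exact latt_unique ((pt_psi0_supp hs ht a2).1.trans_lt hZ) ((pt_psi0_supp hs ht a1).1.trans_lt hZ)
  · push Not at hex
    rw [ENNReal.tsum_eq_zero.2 hex]
    exact zero_le

/-! ### the weight `Om` dominates polynomials -/

theorem pt_norm_fr (y : ℝ) (v : R3) : ‖v‖ ≤ ‖fr y v‖ + |y| := by
  have h1 : v = fr y v + !₂[0, y, 0] := by unfold fr; abel
  have h2 : ‖(!₂[0, y, 0] : R3)‖ = |y| := by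
    rw [EuclideanSpace.norm_eq, Fin.sum_univ_three]
    simp [Real.sqrt_sq_eq_abs]
  calc ‖v‖ = ‖fr y v + !₂[0, y, 0]‖ := by rw [← h1]
    _ ≤ ‖fr y v‖ + ‖(!₂[0, y, 0] : R3)‖ := norm_add_le _ _
    _ = _ := by rw [h2]

theorem pt_norm_fr' (y : ℝ) (v : R3) : ‖fr y v‖ ≤ ‖v‖ + |y| := by
  have h2 : ‖(!₂[0, y, 0] : R3)‖ = |y| := by
    rw [EuclideanSpace.norm_eq, Fin.sum_univ_three]
    simp [Real.sqrt_sq_eq_abs]
  calc ‖fr y v‖ = ‖v - !₂[0, y, 0]‖ := rfl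
    _ ≤ ‖v‖ + ‖(!₂[0, y, 0] : R3)‖ := norm_sub_le _ _
    _ = _ := by rw [h2]

theorem pt_hh_ge {C2 : ℝ} (h : 0 ≤ C2) (q : R3) : 1 + ‖q‖ ^ 12 ≤ hh C2 q := by
  unfold hh
  have : 0 ≤ C2 * |q 1| := mul_nonneg h (abs_nonneg _)
  linarith

theorem pt_Om_ge {Y C2 gp : ℝ} (hC2 : 0 ≤ C2) (hgp : 0 ≤ gp) (t : ℝ) (x : P2) (v : R3) :
    1 + ‖fr (Yc Y t x) v‖ ^ 12 ≤ Om Y C2 gp t x v := by
  unfold Om
  have h1 := pt_hh_ge hC2 (fr (Yc Y t x) v)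
  have h2 : 1 ≤ Real.exp (gp * mm t x v ^ 2) := Real.one_le_exp (by positivity)
  have h3 : 0 ≤ hh C2 (fr (Yc Y t x) v) := by
    have : 0 ≤ ‖fr (Yc Y t x) v‖ ^ 12 := by positivity
    linarith
  nlinarith

theorem pt_Om_nonneg {Y C2 gp : ℝ} (hC2 : 0 ≤ C2) (hgp : 0 ≤ gp) (t : ℝ) (x : P2) (v : R3) :
    0 ≤ Om Y C2 gp t x v := by
  have := pt_Om_ge (Y := Y) hC2 hgp t x v
  have : 0 ≤ ‖fr (Yc Y t x) v‖ ^ 12 := by positivity
  linarith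

theorem pt_one_add_pow4 {Y a b : ℝ} (_hY : 0 ≤ Y) (ha : 0 ≤ a) (hb : 0 ≤ b) (h : a ≤ b + 2 * Y) :
    1 + a ^ 4 ≤ (1 + 8 * (1 + 16 * Y ^ 4)) * (1 + b ^ 12) := by
  have h1 : a ^ 4 ≤ (b + 2 * Y) ^ 4 := pow_le_pow_left₀ ha h 4
  have h2 : (b + 2 * Y) ^ 4 ≤ 8 * (b ^ 4 + (2 * Y) ^ 4) := by
    have e1 : (b + 2 * Y) ^ 2 ≤ 2 * (b ^ 2 + (2 * Y) ^ 2) := by nlinarith [sq_nonneg (b - 2 * Y)]
    have e2 : ((b + 2 * Y) ^ 2) ^ 2 ≤ (2 * (b ^ 2 + (2 * Y) ^ 2)) ^ 2 :=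
      pow_le_pow_left₀ (by positivity) e1 2
    nlinarith [sq_nonneg (b ^ 2 - (2 * Y) ^ 2)]
  have h3 : b ^ 4 ≤ 1 + b ^ 12 := by
    rcases le_total b 1 with h | h
    · have : b ^ 4 ≤ 1 := pow_le_one₀ hb h
      have : 0 ≤ b ^ 12 := by positivity
      linarith
    · have : b ^ 4 ≤ b ^ 12 := pow_le_pow_right₀ h (by norm_num)
      linarith
  have h4 : 0 ≤ b ^ 12 := by positivity
  have h5 : 0 ≤ Y ^ 4 := by positivity
  nlinarith [mul_nonneg h5 h4]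

/-- **(w4)** -/
theorem pt_w4 {Y C2 gp : ℝ} (hY : 0 ≤ Y) (hC2 : 0 ≤ C2) (hgp : 0 ≤ gp) (t : ℝ) (x : P2) (v : R3) :
    ENNReal.ofReal (1 + ‖v‖ ^ 4) ≤
      ENNReal.ofReal (1 + 8 * (1 + 16 * Y ^ 4)) * OmE Y C2 gp t x v := by
  unfold OmE
  rw [← ENNReal.ofReal_mul (by positivity)]
  apply ENNReal.ofReal_le_ofReal
  have h1 := pt_norm_fr (Yc Y t x) v
  have h2 := abs_Yc_le hY t x
  have h3 := pt_one_add_pow4 hY (norm_nonneg v) (norm_nonneg (fr (Yc Y t x) v)) (by linarith)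
  refine h3.trans ?_
  exact mul_le_mul_of_nonneg_left (pt_Om_ge hC2 hgp t x v) (by positivity)

theorem pt_w1 {Y C2 gp : ℝ} (hY : 0 ≤ Y) (hC2 : 0 ≤ C2) (hgp : 0 ≤ gp) (t : ℝ) (x : P2) (v : R3) :
    ENNReal.ofReal (1 + ‖v‖) ≤
      ENNReal.ofReal (2 * (1 + 8 * (1 + 16 * Y ^ 4))) * OmE Y C2 gp t x v := by
  have h := pt_w4 hY hC2 hgp t x v
  have h1 : 1 + ‖v‖ ≤ 2 * (1 + ‖v‖ ^ 4) := by
    have h0 := norm_nonneg v
    rcases le_total ‖v‖ 1 with h | h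
    · have : 0 ≤ ‖v‖ ^ 4 := by positivity
      linarith
    · have : ‖v‖ ≤ ‖v‖ ^ 4 := le_self_pow₀ h (by norm_num)
      linarith
  calc ENNReal.ofReal (1 + ‖v‖) ≤ ENNReal.ofReal (2 * (1 + ‖v‖ ^ 4)) :=
        ENNReal.ofReal_le_ofReal h1
    _ = ENNReal.ofReal 2 * ENNReal.ofReal (1 + ‖v‖ ^ 4) := ENNReal.ofReal_mul (by norm_num)
    _ ≤ ENNReal.ofReal 2 * (ENNReal.ofReal (1 + 8 * (1 + 16 * Y ^ 4)) * OmE Y C2 gp t x v) :=
        mul_le_mul_right h _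
    _ = _ := by rw [← mul_assoc, ← ENNReal.ofReal_mul (by norm_num)]

/-- **(crude)** -/
theorem pt_crude {X : XP} {P : Par} {N Y ey d1 Zs Vs : ℝ} (h : LowOK X P Y ey N d1 Zs Vs)
    {C2 gp : ℝ} (hC2 : 0 ≤ C2) (hgp : 0 ≤ gp) :
    ∃ t0 C : ℝ, 0 < t0 ∧ 0 ≤ C ∧ ∀ t, 0 < t → t ≤ t0 → ∀ x v,
      GA (L.phiE P) (psiP X) t x v ≤ ENNReal.ofReal (C / t) * OmE P.Y C2 gp t x v := by
  obtain ⟨t1, ht1, hf⟩ := fuel_all h.ok
  have hZ : 0 < Zs := lt_of_lt_of_le one_pos h.Zs1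
  have hK := h.ok.K0
  have hY := h.ok.Y0
  set M : ℝ := (1 + X.A) * X.Yp with hM
  have hM0 : 0 ≤ M := h.tent.pt_AYp0
  set W : ℝ := 2 * (1 + 8 * (1 + 16 * P.Y ^ 4)) with hW
  have hW0 : 0 ≤ W := by positivity
  refine ⟨min t1 (1 / (3 * Zs)), 4 * π * (P.Y + 2) * M * P.K * W, lt_min ht1 (by positivity),
    by positivity, fun t ht htt x v => ?_⟩
  have hZt : Zs * t < 7 / 20 := by
    have h1 : t ≤ 1 / (3 * Zs) := htt.trans (min_le_right _ _)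
    rw [le_div_iff₀ (by positivity)] at h1
    nlinarith
  obtain ⟨hf1, hf2⟩ := hf t ht (htt.trans (min_le_left _ _)) x
  have hb : ∀ u, L.phiE P t x u * gsE (psiP X t x) v u ≤
      ENNReal.ofReal (4 * π * (P.Y + 2) * M) * ENNReal.ofReal (1 + ‖v‖) * L.phiE P t x u := by
    intro u
    by_cases hu : phi P t x u = 0
    · have : L.phiE P t x u = 0 := by unfold L.phiE; rw [hu, ENNReal.ofReal_zero]
      rw [this, zero_mul]; exact zero_le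
    · have hun := (hf1 u hu).1
      have h1 : gsE (psiP X t x) v u ≤ gsE (fun _ => ENNReal.ofReal M) v u :=
        gsE_mono (fun w => pt_psiP_le h.tent h.supp ht hZt x w) v u
      rw [gsE_const] at h1
      calc L.phiE P t x u * gsE (psiP X t x) v u
          ≤ L.phiE P t x u * (ENNReal.ofReal (4 * π * ‖v - u‖) * ENNReal.ofReal M) :=
            mul_le_mul_right h1 _
        _ ≤ L.phiE P t x u * (ENNReal.ofReal (4 * π * ((P.Y + 2) * (1 + ‖v‖))) *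
            ENNReal.ofReal M) := by
            gcongr
            have h2 := norm_sub_le v u
            have h3 := norm_nonneg v
            nlinarith
        _ = _ := by
            rw [← ENNReal.ofReal_mul (by positivity), ← ENNReal.ofReal_mul (by positivity),
              mul_comm]
            congr 2
            ring
  unfold GA
  calc ∫⁻ u, L.phiE P t x u * gsE (psiP X t x) v u
      ≤ ∫⁻ u, ENNReal.ofReal (4 * π * (P.Y + 2) * M) * ENNReal.ofReal (1 + ‖v‖) * L.phiE P t x u :=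
        lintegral_mono hb
    _ = ENNReal.ofReal (4 * π * (P.Y + 2) * M) * ENNReal.ofReal (1 + ‖v‖) * ∫⁻ u, L.phiE P t x u :=
        lintegral_const_mul' _ _ (ENNReal.mul_ne_top ENNReal.ofReal_ne_top ENNReal.ofReal_ne_top)
    _ ≤ ENNReal.ofReal (4 * π * (P.Y + 2) * M) * (ENNReal.ofReal W * OmE P.Y C2 gp t x v) *
        ENNReal.ofReal (P.K / t) := by
        gcongr
        exact pt_w1 hY.le hC2 hgp t x v
    _ = _ := by
        have e : 4 * π * (P.Y + 2) * M * P.K * W / t = 4 * π * (P.Y + 2) * M * (P.K / t) * W := by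
          ring
        rw [e, ENNReal.ofReal_mul (p := 4 * π * (P.Y + 2) * M * (P.K / t)) (by positivity),
          ENNReal.ofReal_mul (p := 4 * π * (P.Y + 2) * M) (by positivity)]
        ring

/-! ### the seed set -/

/-- centre of the seed set in velocity -/
def v00 : R3 := !₂[1, 0, 0]

theorem pt_norm_v00 : ‖v00‖ = 1 := by
  unfold v00
  rw [EuclideanSpace.norm_eq, Fin.sum_univ_three]
  simp

theorem pt_abs_coord (a : R3) (i : Fin 3) : |a i| ≤ ‖a‖ := by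
  have := PiLp.norm_apply_le a i
  simpa [Real.norm_eq_abs] using this

/-- **(sg)** -/
theorem pt_sg {X : XP} {N Y ey : ℝ} (h : TentOK N X.A X.Yp Y ey X.e) (hB : 1 ≤ X.B) (hd : 0 < X.d)
    (hd8 : X.d ≤ 1 / 8) {t : ℝ} (ht : 0 < t) {x : P2} {v : R3} (hx : ‖x‖ ≤ t / 2)
    (hv : ‖v - v00‖ ≤ 1 / 4) : 1 / 8 ≤ psi0 X t x v := by
  set z : P2 := t⁻¹ • x with hz
  have hzn : ‖z‖ ≤ 1 / 2 := by
    rw [hz, pt_norm_z ht, div_le_iff₀ ht]; linarith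
  have hz1 : |z.1| ≤ 1 / 2 := (norm_fst_le z).trans hzn
  have hz2 : |z.2| ≤ 1 / 2 := (norm_snd_le z).trans hzn
  have c0 : |v 0 - 1| ≤ 1 / 4 := by
    have := (pt_abs_coord (v - v00) 0).trans hv
    simpa [v00] using this
  have c1 : |v 1| ≤ 1 / 4 := by
    have := (pt_abs_coord (v - v00) 1).trans hv
    simpa [v00] using this
  have hvn : ‖v‖ ≤ 5 / 4 := by
    have := norm_sub_norm_le v v00
    rw [pt_norm_v00] at this
    linarith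
  have hA := h.pt_A
  have hq : ‖fr z.2 v‖ ≤ 2 := by
    have := pt_norm_fr' z.2 v
    linarith
  have hq1 : (fr z.2 v) 1 = v 1 - z.2 := by simp [fr]
  have ht1 : 1 / 4 ≤ tent X.A X.Yp X.e z.2 (fr z.2 v) := by
    unfold tent
    have a1 := h.pt_AYp
    have a2 := h.e1
    have a3 := h.e0
    have a4 : ‖fr z.2 v‖ ^ 2 ≤ 4 := by
      have := norm_nonneg (fr z.2 v)
      nlinarith
    have a5 : X.e * ‖fr z.2 v‖ ^ 2 ≤ X.e * 4 := mul_le_mul_of_nonneg_left a4 a3.le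
    have a6 : |(1 + X.A) * z.2 + (fr z.2 v) 1| ≤ X.A / 2 + 1 / 4 := by
      rw [hq1]
      have e : (1 + X.A) * z.2 + (v 1 - z.2) = X.A * z.2 + v 1 := by ring
      rw [e]
      refine (abs_add_le _ _).trans ?_
      rw [abs_mul, abs_of_nonneg (by linarith : 0 ≤ X.A)]
      nlinarith
    nlinarith
  have ht2 : 1 / 4 ≤ tentp X.A X.Yp X.e z.2 (fr z.2 v) := ht1.trans (le_max_right _ _)
  have hc : 9 / 16 ≤ cutB X.B z.1 := by
    unfold cutB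
    have b1 : z.1 ^ 2 / X.B ^ 2 ≤ 1 / 4 := by
      rw [div_le_iff₀ (by positivity)]
      have : z.1 ^ 2 ≤ 1 / 4 := by
        rw [← sq_abs]
        have := abs_nonneg z.1
        nlinarith
      nlinarith
    have b2 : 3 / 4 ≤ max 0 (1 - z.1 ^ 2 / X.B ^ 2) := le_max_of_le_right (by linarith)
    nlinarith
  have hl : lamd X.d (v 0) = 1 := by
    unfold lamd
    obtain ⟨b1, b2⟩ := abs_le.1 c0
    have b3 : |v 0| = v 0 := abs_of_nonneg (by linarith)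
    have b4 : 1 ≤ |v 0| / X.d - 1 := by
      rw [b3, le_sub_iff_add_le, le_div_iff₀ hd]
      linarith
    rw [min_eq_left b4, max_eq_right zero_le_one]
  change 1 / 8 ≤ f0 X z v
  unfold f0
  rw [hl, mul_one]
  nlinarith

theorem pt_sg_exists {X : XP} {N Y ey : ℝ} (h : TentOK N X.A X.Yp Y ey X.e) (hB : 1 ≤ X.B)
    (hd : 0 < X.d) (hd8 : X.d ≤ 1 / 8) : ∃ c1 : ℝ, 0 < c1 ∧ ∀ t : ℝ, 0 < t → ∀ (x : P2) (v : R3),
      ‖x‖ ≤ t / 2 → ‖v - v00‖ ≤ 1 / 4 → c1 ≤ psi0 X t x v :=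
  ⟨1 / 8, by norm_num, fun _ ht _ _ hx hv => pt_sg h hB hd hd8 ht hx hv⟩

/-- **(sW)** -/
theorem pt_sW {Y C2 gp : ℝ} (hY : 0 ≤ Y) (hC2 : 0 ≤ C2) (hgp : 0 ≤ gp) : ∃ C : ℝ, 0 ≤ C ∧
    ∀ t : ℝ, 0 < t → ∀ (x : P2) (v : R3), distG x ≤ t / 2 → ‖v - v00‖ ≤ 1 / 4 →
      OmE Y C2 gp t x v ≤ ENNReal.ofReal C := by
  refine ⟨(1 + C2 * (2 + 2 * Y) + (2 + 2 * Y) ^ 12) * Real.exp (gp * 4), by positivity,
    fun t ht x v hx hv => ?_⟩
  unfold OmE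
  apply ENNReal.ofReal_le_ofReal
  have hvn : ‖v‖ ≤ 5 / 4 := by
    have := norm_sub_norm_le v v00
    rw [pt_norm_v00] at this
    linarith
  have hq : ‖fr (Yc Y t x) v‖ ≤ 2 + 2 * Y := by
    have h1 := pt_norm_fr' (Yc Y t x) v
    have h2 := abs_Yc_le hY t x
    linarith
  have hm : mm t x v ≤ 2 := by
    unfold mm
    apply max_le (by linarith)
    rw [div_le_iff₀ ht]; linarith
  have hm0 : 0 ≤ mm t x v := le_max_of_le_left (norm_nonneg _)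
  unfold Om hh
  have h1 := pt_abs_coord (fr (Yc Y t x) v) 1
  have h3 : mm t x v ^ 2 ≤ 4 := by nlinarith
  have h4 : C2 * |fr (Yc Y t x) v 1| ≤ C2 * (2 + 2 * Y) :=
    mul_le_mul_of_nonneg_left (h1.trans hq) hC2
  have h5 : ‖fr (Yc Y t x) v‖ ^ 12 ≤ (2 + 2 * Y) ^ 12 := pow_le_pow_left₀ (norm_nonneg _) hq 12
  have h6 : Real.exp (gp * mm t x v ^ 2) ≤ Real.exp (gp * 4) :=
    Real.exp_le_exp.2 (mul_le_mul_of_nonneg_left h3 hgp)
  have h7 : 0 ≤ C2 * |fr (Yc Y t x) v 1| := by positivity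
  exact mul_le_mul (by linarith) h6 (Real.exp_pos _).le (by positivity)

/-! ### the corrected test function -/

/-- `|gL - psi0| ≤ C t²`, support and bound of `gL`, from `corr_small` -/
theorem pt_gL {X : XP} {P : Par} {N Y ey d1 Zs Vs : ℝ} (h : LowOK X P Y ey N d1 Zs Vs) (Cg : ℝ)
    (hcs : ∃ t0 C : ℝ, 0 < t0 ∧ 0 ≤ C ∧ ∀ t, 0 < t → t ≤ t0 → ∀ x v,
      |corr X P d1 Zs Vs t x v| ≤ C * t ^ 2 ∧
      (corr X P d1 Zs Vs t x v ≠ 0 → ‖t⁻¹ • x‖ ≤ 2 * Zs ∧ ‖v‖ ≤ 2 * Vs)) :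
    ∃ t0 C : ℝ, 0 < t0 ∧ t0 ≤ 1 ∧ 0 ≤ C ∧ ∀ t, 0 < t → t ≤ t0 → ∀ x v,
      |gL X P d1 Zs Vs Cg t x v - psi0 X t x v| ≤ C * t ^ 2 ∧
      |gL X P d1 Zs Vs Cg t x v| ≤ C ∧
      (gL X P d1 Zs Vs Cg t x v ≠ 0 → ‖x‖ ≤ 4 * Zs * t ∧ ‖v‖ ≤ 4 * Vs ∧ ‖x‖ < 1 / 4) := by
  obtain ⟨t1, C1, ht1, hC1, hc⟩ := hcs
  have hZ : 0 < Zs := lt_of_lt_of_le one_pos h.Zs1
  have hV : 0 < Vs := lt_of_lt_of_le one_pos h.Vs1
  set M : ℝ := (1 + X.A) * X.Yp with hM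
  have hM0 : 0 ≤ M := h.tent.pt_AYp0
  refine ⟨min 1 (min t1 (1 / (17 * Zs))), C1 + |Cg| + M, lt_min one_pos (lt_min ht1 (by positivity)),
    min_le_left _ _, by positivity, fun t ht htt x v => ?_⟩
  have htle1 : t ≤ 1 := htt.trans (min_le_left _ _)
  obtain ⟨h1, h2⟩ := hc t ht (htt.trans ((min_le_right _ _).trans (min_le_left _ _))) x v
  have hZt : 4 * Zs * t < 1 / 4 := by
    have h3 : t ≤ 1 / (17 * Zs) := htt.trans ((min_le_right _ _).trans (min_le_right _ _))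
    rw [le_div_iff₀ (by positivity)] at h3
    nlinarith
  have hr0 := pt_ramp_nonneg (‖t⁻¹ • x‖ / (2 * Zs))
  have hr1 := pt_ramp_le_one (‖t⁻¹ • x‖ / (2 * Zs))
  have hs0 := pt_ramp_nonneg (‖v‖ / (2 * Vs))
  have hs1 := pt_ramp_le_one (‖v‖ / (2 * Vs))
  have hrs0 : 0 ≤ ramp (‖t⁻¹ • x‖ / (2 * Zs)) * ramp (‖v‖ / (2 * Vs)) := mul_nonneg hr0 hs0
  have hrs1 : ramp (‖t⁻¹ • x‖ / (2 * Zs)) * ramp (‖v‖ / (2 * Vs)) ≤ 1 := by nlinarith
  have hdiff : |gL X P d1 Zs Vs Cg t x v - psi0 X t x v| ≤ (C1 + |Cg|) * t ^ 2 := by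
    have e : gL X P d1 Zs Vs Cg t x v - psi0 X t x v = corr X P d1 Zs Vs t x v +
        Cg * t ^ 2 * (ramp (‖t⁻¹ • x‖ / (2 * Zs)) * ramp (‖v‖ / (2 * Vs))) := by
      unfold gL; ring
    rw [e]
    refine (abs_add_le _ _).trans ?_
    have h3 : |Cg * t ^ 2 * (ramp (‖t⁻¹ • x‖ / (2 * Zs)) * ramp (‖v‖ / (2 * Vs)))| ≤
        |Cg| * t ^ 2 := by
      rw [abs_mul, abs_mul, abs_of_nonneg hrs0, abs_of_nonneg (sq_nonneg t)]
      have : 0 ≤ |Cg| * t ^ 2 := by positivity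
      nlinarith
    linarith
  have hpsi0 := pt_psi0_nonneg X t x v
  have hpsi1 : psi0 X t x v ≤ M := pt_psi0_le h.tent t x v
  have ht2 : t ^ 2 ≤ 1 := by nlinarith
  have hCC : 0 ≤ C1 + |Cg| := by positivity
  refine ⟨?_, ?_, ?_⟩
  · refine hdiff.trans ?_
    nlinarith [sq_nonneg t]
  · have h3 : |gL X P d1 Zs Vs Cg t x v| ≤
        |gL X P d1 Zs Vs Cg t x v - psi0 X t x v| + |psi0 X t x v| := by
      have := abs_add_le (gL X P d1 Zs Vs Cg t x v - psi0 X t x v) (psi0 X t x v)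
      rwa [sub_add_cancel] at this
    rw [abs_of_nonneg hpsi0] at h3
    nlinarith
  · intro hne
    have key : ‖x‖ ≤ 4 * Zs * t ∧ ‖v‖ ≤ 4 * Vs := by
      by_contra hcon
      apply hne
      have hcor : corr X P d1 Zs Vs t x v = 0 := by
        by_contra h0
        obtain ⟨a1, a2⟩ := h2 h0
        rw [pt_norm_z ht, div_le_iff₀ ht] at a1
        exact hcon ⟨by nlinarith, by linarith⟩
      have hps : psi0 X t x v = 0 := by
        by_contra h0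
        obtain ⟨a1, a2⟩ := pt_psi0_supp h.supp ht h0
        exact hcon ⟨by nlinarith, by linarith⟩
      have hrr : ramp (‖t⁻¹ • x‖ / (2 * Zs)) * ramp (‖v‖ / (2 * Vs)) = 0 := by
        by_contra h0
        have a1 : ¬ 2 ≤ ‖t⁻¹ • x‖ / (2 * Zs) := fun hh => h0 (by rw [pt_ramp_zero hh, zero_mul])
        have a2 : ¬ 2 ≤ ‖v‖ / (2 * Vs) := fun hh => h0 (by rw [pt_ramp_zero hh, mul_zero])
        rw [not_le, div_lt_iff₀ (by positivity)] at a1 a2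
        rw [pt_norm_z ht, div_lt_iff₀ ht] at a1
        exact hcon ⟨by nlinarith, by linarith⟩
      unfold gL
      rw [hcor, hps, hrr]
      ring
    exact ⟨key.1, key.2, lt_of_le_of_lt key.1 hZt⟩

/-- **(gs, gb)** in `ℝ≥0∞` form, `g = ofReal gL` -/
theorem pt_gE {X : XP} {P : Par} {N Y ey d1 Zs Vs : ℝ} (h : LowOK X P Y ey N d1 Zs Vs) (Cg : ℝ)
    (hcs : ∃ t0 C : ℝ, 0 < t0 ∧ 0 ≤ C ∧ ∀ t, 0 < t → t ≤ t0 → ∀ x v,
      |corr X P d1 Zs Vs t x v| ≤ C * t ^ 2 ∧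
      (corr X P d1 Zs Vs t x v ≠ 0 → ‖t⁻¹ • x‖ ≤ 2 * Zs ∧ ‖v‖ ≤ 2 * Vs)) :
    ∃ t0 C : ℝ, 0 < t0 ∧ t0 ≤ 1 ∧ 0 ≤ C ∧ ∀ t, 0 < t → t ≤ t0 → ∀ x v,
      ENNReal.ofReal (gL X P d1 Zs Vs Cg t x v) ≤ ENNReal.ofReal C ∧
      (1 / 4 ≤ ‖x‖ → ENNReal.ofReal (gL X P d1 Zs Vs Cg t x v) = 0) ∧
      (4 * Zs * t < ‖x‖ → ENNReal.ofReal (gL X P d1 Zs Vs Cg t x v) = 0) ∧
      psiE X t x v ≤ ENNReal.ofReal (gL X P d1 Zs Vs Cg t x v) + ENNReal.ofReal (C * t ^ 2) *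
        (if ‖x‖ < 1 / 4 then 1 else 0) ∧
      ENNReal.ofReal (gL X P d1 Zs Vs Cg t x v) ≤ psiE X t x v + ENNReal.ofReal (C * t ^ 2) *
        (if ‖x‖ < 1 / 4 then 1 else 0) := by
  obtain ⟨t0, C, ht0, ht01, hC, hg⟩ := pt_gL h Cg hcs
  have hZ : 0 < Zs := lt_of_lt_of_le one_pos h.Zs1
  refine ⟨min t0 (1 / (17 * Zs)), C, lt_min ht0 (by positivity), (min_le_left _ _).trans ht01, hC,
    fun t ht htt x v => ?_⟩
  obtain ⟨a1, a2, a3⟩ := hg t ht (htt.trans (min_le_left _ _)) x v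
  have hZt : 4 * Zs * t < 1 / 4 := by
    have h3 : t ≤ 1 / (17 * Zs) := htt.trans (min_le_right _ _)
    rw [le_div_iff₀ (by positivity)] at h3
    nlinarith
  obtain ⟨b1, b2⟩ := abs_le.1 a1
  have hCt : 0 ≤ C * t ^ 2 := by positivity
  refine ⟨ENNReal.ofReal_le_ofReal ((le_abs_self _).trans a2), ?_, ?_, ?_, ?_⟩
  · intro hx
    have : gL X P d1 Zs Vs Cg t x v = 0 := by
      by_contra h0
      exact absurd (a3 h0).2.2 (not_lt.2 hx)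
    rw [this, ENNReal.ofReal_zero]
  · intro hx
    have : gL X P d1 Zs Vs Cg t x v = 0 := by
      by_contra h0
      exact absurd (a3 h0).1 (not_le.2 hx)
    rw [this, ENNReal.ofReal_zero]
  · by_cases hx : ‖x‖ < 1 / 4
    · rw [if_pos hx, mul_one]
      unfold psiE
      refine le_trans (ENNReal.ofReal_le_ofReal (show psi0 X t x v ≤
        gL X P d1 Zs Vs Cg t x v + C * t ^ 2 by linarith)) ENNReal.ofReal_add_le
    · have : psi0 X t x v = 0 := by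
        by_contra h0
        have := (pt_psi0_supp h.supp ht h0).1
        apply hx
        nlinarith
      unfold psiE
      rw [this, ENNReal.ofReal_zero]
      exact zero_le
  · by_cases hx : ‖x‖ < 1 / 4
    · rw [if_pos hx, mul_one]
      unfold psiE
      refine le_trans (ENNReal.ofReal_le_ofReal (show gL X P d1 Zs Vs Cg t x v ≤
        psi0 X t x v + C * t ^ 2 by linarith)) ENNReal.ofReal_add_le
    · have : gL X P d1 Zs Vs Cg t x v = 0 := by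
        by_contra h0
        exact hx (a3 h0).2.2
      rw [this, ENNReal.ofReal_zero]
      exact zero_le

/-- `gL` on the seed set -/
theorem pt_sg_gL {X : XP} {P : Par} {N Y ey d1 Zs Vs : ℝ} (h : LowOK X P Y ey N d1 Zs Vs)
    (hd8 : X.d ≤ 1 / 8) (Cg : ℝ)
    (hcs : ∃ t0 C : ℝ, 0 < t0 ∧ 0 ≤ C ∧ ∀ t, 0 < t → t ≤ t0 → ∀ x v,
      |corr X P d1 Zs Vs t x v| ≤ C * t ^ 2 ∧
      (corr X P d1 Zs Vs t x v ≠ 0 → ‖t⁻¹ • x‖ ≤ 2 * Zs ∧ ‖v‖ ≤ 2 * Vs)) :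
    ∃ t0 : ℝ, 0 < t0 ∧ ∀ t, 0 < t → t ≤ t0 → ∀ (x : P2) (v : R3), ‖x‖ ≤ t / 2 →
      ‖v - v00‖ ≤ 1 / 4 → 1 / 16 ≤ gL X P d1 Zs Vs Cg t x v := by
  obtain ⟨t0, C, ht0, ht01, hC, hg⟩ := pt_gL h Cg hcs
  refine ⟨min t0 (1 / (16 * (C + 1))), lt_min ht0 (by positivity), fun t ht htt x v hx hv => ?_⟩
  obtain ⟨a1, -, -⟩ := hg t ht (htt.trans (min_le_left _ _)) x v
  have h1 := pt_sg h.tent h.B1 h.d0 hd8 ht hx hv
  obtain ⟨b1, b2⟩ := abs_le.1 a1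
  have h2 : t ≤ 1 / (16 * (C + 1)) := htt.trans (min_le_right _ _)
  rw [le_div_iff₀ (by positivity)] at h2
  have h3 : t ≤ 1 := (htt.trans (min_le_left _ _)).trans ht01
  have h4 : C * t ^ 2 ≤ 1 / 16 := by nlinarith
  linarith

/-- the pointwise fields of `SeedData` with one constant -/
theorem pt_fields {X : XP} {P : Par} {N Y ey d1 Zs Vs : ℝ} (h : LowOK X P Y ey N d1 Zs Vs)
    (hd8 : X.d ≤ 1 / 8) {C2 gp : ℝ} (hC2 : 0 ≤ C2) (hgp : 0 ≤ gp) (Cg : ℝ)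
    (hcs : ∃ t0 C : ℝ, 0 < t0 ∧ 0 ≤ C ∧ ∀ t, 0 < t → t ≤ t0 → ∀ x v,
      |corr X P d1 Zs Vs t x v| ≤ C * t ^ 2 ∧
      (corr X P d1 Zs Vs t x v ≠ 0 → ‖t⁻¹ • x‖ ≤ 2 * Zs ∧ ‖v‖ ≤ 2 * Vs)) :
    ∃ t0 C : ℝ, 0 < t0 ∧ t0 ≤ 1 ∧ 0 ≤ C ∧ ∀ t, 0 < t → t ≤ t0 → ∀ (x : P2) (v : R3),
      (GA (L.phiE P) (psiP X) t x v ≤ ENNReal.ofReal (C / t) * OmE P.Y C2 gp t x v) ∧
      (1 / 4 < ‖x‖ → ENNReal.ofReal (gL X P d1 Zs Vs Cg t x v) = 0) ∧
      (ENNReal.ofReal (gL X P d1 Zs Vs Cg t x v) ≤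
        ENNReal.ofReal C * ENNReal.ofReal (1 + ‖v‖ ^ 4)) ∧
      (ENNReal.ofReal (1 + ‖v‖ ^ 4) ≤ ENNReal.ofReal C * OmE P.Y C2 gp t x v) ∧
      (‖x‖ ≤ t / 2 → ‖v - v00‖ ≤ 1 / 4 →
        ENNReal.ofReal (1 / 16) ≤ ENNReal.ofReal (gL X P d1 Zs Vs Cg t x v)) ∧
      (distG x ≤ t / 2 → ‖v - v00‖ ≤ 1 / 4 → OmE P.Y C2 gp t x v ≤ ENNReal.ofReal C) := by
  have hY := h.ok.Y0
  obtain ⟨ta, Ca, hta, hCa, ha⟩ := pt_crude h hC2 hgp
  obtain ⟨tb, Cb, htb, htb1, hCb, hb⟩ := pt_gE h Cg hcs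
  obtain ⟨tc, htc, hc⟩ := pt_sg_gL h hd8 Cg hcs
  obtain ⟨Cd, hCd, hd⟩ := pt_sW (Y := P.Y) hY.le hC2 hgp
  set Ce : ℝ := 1 + 8 * (1 + 16 * P.Y ^ 4) with hCe
  have hCe0 : 0 ≤ Ce := by positivity
  refine ⟨min ta (min tb tc), Ca + Cb + Cd + Ce, lt_min hta (lt_min htb htc),
    (min_le_right _ _).trans ((min_le_left _ _).trans htb1), by positivity,
    fun t ht htt x v => ⟨?_, ?_, ?_, ?_, ?_, ?_⟩⟩
  · refine (ha t ht (htt.trans (min_le_left _ _)) x v).trans (mul_le_mul_left ?_ _)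
    apply ENNReal.ofReal_le_ofReal
    gcongr
    linarith
  · intro hx
    exact (hb t ht (htt.trans ((min_le_right _ _).trans (min_le_left _ _))) x v).2.1 hx.le
  · refine (hb t ht (htt.trans ((min_le_right _ _).trans (min_le_left _ _))) x v).1.trans ?_
    rw [← ENNReal.ofReal_mul (by positivity)]
    apply ENNReal.ofReal_le_ofReal
    have : 0 ≤ ‖v‖ ^ 4 := by positivity
    nlinarith
  · refine (pt_w4 hY.le hC2 hgp t x v).trans (mul_le_mul_left ?_ _)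
    apply ENNReal.ofReal_le_ofReal
    linarith
  · intro hx hv
    exact ENNReal.ofReal_le_ofReal
      (hc t ht (htt.trans ((min_le_right _ _).trans (min_le_right _ _))) x v hx hv)
  · intro hx hv
    refine (hd t ht x v hx hv).trans (ENNReal.ofReal_le_ofReal ?_)
    linarith

end Crest.Agent.R68.X2
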