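import Crest.Agent.R68.XDefs

/-!
# Row 68, PART X2: the test function along flights (helper60)
-/

set_option autoImplicit false
open MeasureTheory Set Filter
open scoped ENNReal Real Interval
open Crest.AnalysisR.VecCalc3 Crest.AnalysisR.PDE.Boltzmann

noncomputable section

namespace Crest.Agent.R68.X2.Flt60

open Crest.Agent.R68.X2

/-! ### one-variable facts -/

theorem hasDerivAt_max_sq (x : ℝ) : HasDerivAt (fun x : ℝ => (max 0 x) ^ 2) (2 * max 0 x) x := by
  rcases lt_trichotomy x 0 with hx | hx | hx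
  · have h1 : (fun x : ℝ => (max 0 x) ^ 2) =ᶠ[nhds x] fun _ => 0 := by
      filter_upwards [Iio_mem_nhds hx] with y hy
      rw [max_eq_left (le_of_lt hy)]; norm_num
    rw [max_eq_left hx.le, mul_zero]
    exact (hasDerivAt_const x (0 : ℝ)).congr_of_eventuallyEq h1
  · subst hx
    rw [max_self, mul_zero, hasDerivAt_iff_isLittleO_nhds_zero]
    simp only [zero_add, max_self, smul_zero, sub_zero, ne_eq, OfNat.ofNat_ne_zero,
      not_false_eq_true, zero_pow]
    rw [Asymptotics.isLittleO_iff]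
    intro c hc
    filter_upwards [Metric.ball_mem_nhds (0 : ℝ) hc] with y hy
    rw [Metric.mem_ball, dist_zero_right] at hy
    rw [Real.norm_eq_abs, Real.norm_eq_abs, abs_of_nonneg (sq_nonneg _)]
    have h1 : max 0 y ≤ |y| := max_le (abs_nonneg _) (le_abs_self _)
    have h2 : (max 0 y) ^ 2 ≤ |y| ^ 2 := pow_le_pow_left₀ (le_max_left _ _) h1 2
    rw [Real.norm_eq_abs] at hy
    nlinarith [abs_nonneg y]
  · have h1 : (fun x : ℝ => (max 0 x) ^ 2) =ᶠ[nhds x] fun x => x ^ 2 := by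
      filter_upwards [Ioi_mem_nhds hx] with y hy
      rw [max_eq_right (le_of_lt hy)]
    rw [max_eq_right hx.le]
    have h2 := (hasDerivAt_pow 2 x).congr_of_eventuallyEq h1
    simpa using h2

theorem hasDerivAt_cutB (B w : ℝ) :
    HasDerivAt (cutB B) (2 * max 0 (1 - w ^ 2 / B ^ 2) * (-(2 * w / B ^ 2))) w := by
  have h1 : HasDerivAt (fun w : ℝ => 1 - w ^ 2 / B ^ 2) (-(2 * w / B ^ 2)) w := by
    have h := ((hasDerivAt_pow 2 w).div_const (B ^ 2)).const_sub 1
    simpa using h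
  have h2 := (hasDerivAt_max_sq (1 - w ^ 2 / B ^ 2)).comp w h1
  exact h2

theorem quad_finite {p q r : ℝ} (hp : p ≠ 0) : {u : ℝ | p * u ^ 2 + q * u + r = 0}.Finite := by
  by_cases h : ∃ u0, p * u0 ^ 2 + q * u0 + r = 0
  · obtain ⟨u0, hu0⟩ := h
    refine (Set.toFinite {u0, -q / p - u0}).subset ?_
    intro u hu
    rw [mem_ofPred_eq] at hu
    have h1 : (u - u0) * (p * (u + u0) + q) = 0 := by ring_nf; linarith
    rcases mul_eq_zero.1 h1 with h2 | h2
    · left; linarith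
    · right
      rw [mem_singleton_iff]
      field_simp
      linarith
  · push Not at h
    have : {u : ℝ | p * u ^ 2 + q * u + r = 0} = ∅ := by
      ext u
      simp only [mem_ofPred_eq, mem_empty_iff_false, iff_false]
      exact h u
    rw [this]
    exact Set.finite_empty

/-! ### the flight -/

/-- `z₂` along a flight: `v₁ + b / ρ` (second components) -/
theorem z_flight {s ρ : ℝ} (hρ : ρ ≠ 0) (x : P2) (v : R3) :
    ρ⁻¹ • (x + (ρ - s) • bar v) = (v 0 + (x.1 - s * v 0) / ρ, v 1 + (x.2 - s * v 1) / ρ) := by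
  unfold bar
  apply Prod.ext
  · simp only [Prod.smul_fst, Prod.fst_add, smul_eq_mul]
    field_simp; ring
  · simp only [Prod.smul_snd, Prod.snd_add, smul_eq_mul]
    field_simp; ring

theorem fr_zero (y : ℝ) (v : R3) : fr y v 0 = v 0 := by simp [fr]

theorem fr_one (y : ℝ) (v : R3) : fr y v 1 = v 1 - y := by simp [fr]

theorem fr_two (y : ℝ) (v : R3) : fr y v 2 = v 2 := by simp [fr]

theorem norm_sq_fr (y : ℝ) (v : R3) : ‖fr y v‖ ^ 2 = v 0 ^ 2 + (v 1 - y) ^ 2 + v 2 ^ 2 := by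
  rw [EuclideanSpace.norm_sq_eq, Fin.sum_univ_three, fr_zero, fr_one, fr_two]
  simp only [Real.norm_eq_abs, sq_abs]

/-- the tent along a flight -/
theorem tent_flight (A Yp e b ρ : ℝ) (v : R3) :
    tent A Yp e (v 1 + b / ρ) (fr (v 1 + b / ρ) v) =
      (1 + A) * Yp - |(1 + A) * v 1 + A * b * ρ⁻¹| - e * (v 0 ^ 2 + v 2 ^ 2)
        - e * b ^ 2 * (ρ⁻¹) ^ 2 := by
  unfold tent
  rw [norm_sq_fr, fr_one]
  have h1 : (1 + A) * (v 1 + b / ρ) + (v 1 - (v 1 + b / ρ)) = (1 + A) * v 1 + A * b * ρ⁻¹ := by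
    rw [div_eq_mul_inv]; ring
  rw [h1]
  rw [div_eq_mul_inv]
  ring

theorem hasDerivAt_tent_flight (A Yp e b : ℝ) (v : R3) {ρ : ℝ} (hρ : ρ ≠ 0)
    (hk : A * b = 0 ∨ (1 + A) * v 1 + A * b * ρ⁻¹ ≠ 0) :
    HasDerivAt (fun ρ => tent A Yp e (v 1 + b / ρ) (fr (v 1 + b / ρ) v))
      (ρ⁻¹ * (-sg ((1 + A) * (v 1 + b / ρ) + fr (v 1 + b / ρ) v 1) * A * (fr (v 1 + b / ρ) v 1)
        + 2 * e * (fr (v 1 + b / ρ) v 1) ^ 2)) ρ := by
  have hi : HasDerivAt (fun ρ : ℝ => ρ⁻¹) (-(ρ ^ 2)⁻¹) ρ := hasDerivAt_inv hρ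
  have hm : HasDerivAt (fun ρ : ℝ => (1 + A) * v 1 + A * b * ρ⁻¹) (A * b * -(ρ ^ 2)⁻¹) ρ :=
    (hi.const_mul (A * b)).const_add _
  have hq : HasDerivAt (fun ρ : ℝ => e * b ^ 2 * (ρ⁻¹) ^ 2)
      (e * b ^ 2 * (2 * ρ⁻¹ * -(ρ ^ 2)⁻¹)) ρ := by
    have h := (hi.pow 2).const_mul (e * b ^ 2)
    simpa using h
  have habs : HasDerivAt (fun ρ : ℝ => |(1 + A) * v 1 + A * b * ρ⁻¹|)
      (sg ((1 + A) * v 1 + A * b * ρ⁻¹) * (A * b * -(ρ ^ 2)⁻¹)) ρ := by
    rcases hk with hk | hk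
    · simp only [hk, zero_mul, add_zero, mul_zero]
      exact hasDerivAt_const _ _
    · rcases lt_or_gt_of_ne hk with h0 | h0
      · have h1 : sg ((1 + A) * v 1 + A * b * ρ⁻¹) = -1 := by
          unfold sg; rw [if_neg (not_le.2 h0)]
        rw [h1]
        have h2 := hm.neg
        have h3 : (fun ρ : ℝ => |(1 + A) * v 1 + A * b * ρ⁻¹|) =ᶠ[nhds ρ]
            -(fun ρ : ℝ => (1 + A) * v 1 + A * b * ρ⁻¹) := by
          filter_upwards [hm.continuousAt.eventually (gt_mem_nhds h0)] with y hy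
          rw [Pi.neg_apply, abs_of_neg hy]
        refine (h2.congr_of_eventuallyEq h3).congr_deriv ?_
        ring
      · have h1 : sg ((1 + A) * v 1 + A * b * ρ⁻¹) = 1 := by
          unfold sg; rw [if_pos h0.le]
        rw [h1, one_mul]
        have h3 : (fun ρ : ℝ => |(1 + A) * v 1 + A * b * ρ⁻¹|) =ᶠ[nhds ρ]
            (fun ρ : ℝ => (1 + A) * v 1 + A * b * ρ⁻¹) := by
          filter_upwards [hm.continuousAt.eventually (lt_mem_nhds h0)] with y hy
          rw [abs_of_pos hy]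
        exact hm.congr_of_eventuallyEq h3
  have hall := (((habs.const_sub ((1 + A) * Yp)).sub_const (e * (v 0 ^ 2 + v 2 ^ 2))).sub hq)
  have hfun : (fun ρ => tent A Yp e (v 1 + b / ρ) (fr (v 1 + b / ρ) v)) =
      (fun ρ => (1 + A) * Yp - |(1 + A) * v 1 + A * b * ρ⁻¹| - e * (v 0 ^ 2 + v 2 ^ 2))
        - fun ρ => e * b ^ 2 * (ρ⁻¹) ^ 2 := by
    funext ρ
    rw [Pi.sub_apply, tent_flight]
  rw [hfun]
  refine hall.congr_deriv ?_
  have e1 : (1 + A) * (v 1 + b / ρ) + fr (v 1 + b / ρ) v 1 = (1 + A) * v 1 + A * b * ρ⁻¹ := by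
    rw [fr_one, div_eq_mul_inv]; ring
  rw [e1, fr_one]
  field_simp
  ring

/-- the exceptional times -/
def exc (X : XP) (b : ℝ) (v : R3) : Set ℝ :=
  {ρ | ρ ≠ 0 ∧ X.A * b ≠ 0 ∧ (1 + X.A) * v 1 + X.A * b * ρ⁻¹ = 0} ∪
  {ρ | b ≠ 0 ∧ tent X.A X.Yp X.e (v 1 + b / ρ) (fr (v 1 + b / ρ) v) = 0}

theorem exc_countable (X : XP) (he : X.e ≠ 0) (b : ℝ) (v : R3) : (exc X b v).Countable := by
  refine Set.Countable.union ?_ ?_
  · refine Set.Subsingleton.countable ?_
    rintro r1 ⟨h1, h2, h3⟩ r2 ⟨h4, -, h5⟩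
    have h6 : X.A * b * r1⁻¹ = X.A * b * r2⁻¹ := by linarith
    exact inv_injective (mul_left_cancel₀ h2 h6)
  · by_cases hb : b = 0
    · simp [hb]
    · set S1 : Set ℝ := {u | (-(X.e * b ^ 2)) * u ^ 2 + (-(X.A * b)) * u +
        ((1 + X.A) * X.Yp - (1 + X.A) * v 1 - X.e * (v 0 ^ 2 + v 2 ^ 2)) = 0} with hS1
      set S2 : Set ℝ := {u | (-(X.e * b ^ 2)) * u ^ 2 + (X.A * b) * u +
        ((1 + X.A) * X.Yp + (1 + X.A) * v 1 - X.e * (v 0 ^ 2 + v 2 ^ 2)) = 0} with hS2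
      have hp : -(X.e * b ^ 2) ≠ 0 := by
        rw [neg_ne_zero]; positivity
      have hf1 : S1.Finite := quad_finite hp
      have hf2 : S2.Finite := quad_finite hp
      have hf : ((fun ρ : ℝ => ρ⁻¹) ⁻¹' (S1 ∪ S2)).Finite :=
        (hf1.union hf2).preimage (inv_injective.injOn)
      refine (hf.subset ?_).countable
      rintro ρ ⟨-, h⟩
      rw [tent_flight] at h
      rcases abs_choice ((1 + X.A) * v 1 + X.A * b * ρ⁻¹) with h1 | h1
      · left
        rw [h1] at h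
        show _ = (0 : ℝ)
        linarith
      · right
        rw [h1] at h
        show _ = (0 : ℝ)
        linarith

theorem hasDerivAt_tentp_flight (X : XP) (b : ℝ) (v : R3) {ρ : ℝ} (hρ : ρ ≠ 0)
    (hx : ρ ∉ exc X b v) :
    HasDerivAt (fun ρ => tentp X.A X.Yp X.e (v 1 + b / ρ) (fr (v 1 + b / ρ) v))
      (if 0 < tent X.A X.Yp X.e (v 1 + b / ρ) (fr (v 1 + b / ρ) v) then
        ρ⁻¹ * (-sg ((1 + X.A) * (v 1 + b / ρ) + fr (v 1 + b / ρ) v 1) * X.A *
          (fr (v 1 + b / ρ) v 1) + 2 * X.e * (fr (v 1 + b / ρ) v 1) ^ 2) else 0) ρ := by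
  have hk : X.A * b = 0 ∨ (1 + X.A) * v 1 + X.A * b * ρ⁻¹ ≠ 0 := by
    by_contra hcon
    push Not at hcon
    exact hx (Or.inl ⟨hρ, hcon.1, hcon.2⟩)
  have hT := hasDerivAt_tent_flight X.A X.Yp X.e b v hρ hk
  rcases lt_trichotomy (tent X.A X.Yp X.e (v 1 + b / ρ) (fr (v 1 + b / ρ) v)) 0 with h0 | h0 | h0
  · rw [if_neg (not_lt.2 h0.le)]
    have h1 : (fun ρ => tentp X.A X.Yp X.e (v 1 + b / ρ) (fr (v 1 + b / ρ) v)) =ᶠ[nhds ρ]
        fun _ => 0 := by
      filter_upwards [hT.continuousAt.eventually (gt_mem_nhds h0)] with y hy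
      unfold tentp
      rw [max_eq_left (le_of_lt hy)]
    exact (hasDerivAt_const ρ (0 : ℝ)).congr_of_eventuallyEq h1
  · rw [if_neg (by rw [h0]; exact lt_irrefl _)]
    -- then `b = 0` and everything is constant
    have hb : b = 0 := by
      by_contra hb
      exact hx (Or.inr ⟨hb, h0⟩)
    subst hb
    have h1 : (fun ρ : ℝ => tentp X.A X.Yp X.e (v 1 + 0 / ρ) (fr (v 1 + 0 / ρ) v)) =
        fun _ => tentp X.A X.Yp X.e (v 1) (fr (v 1) v) := by
      funext y
      simp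
    rw [h1]
    exact hasDerivAt_const _ _
  · rw [if_pos h0]
    have h1 : (fun ρ => tentp X.A X.Yp X.e (v 1 + b / ρ) (fr (v 1 + b / ρ) v)) =ᶠ[nhds ρ]
        fun ρ => tent X.A X.Yp X.e (v 1 + b / ρ) (fr (v 1 + b / ρ) v) := by
      filter_upwards [hT.continuousAt.eventually (lt_mem_nhds h0)] with y hy
      unfold tentp
      rw [max_eq_right (le_of_lt hy)]
    exact hT.congr_of_eventuallyEq h1

/-- derivative of the test function along a flight, off the exceptional times -/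
theorem hasDerivAt_psi0_flight (X : XP) {s ρ : ℝ} (hρ : 0 < ρ) (x : P2) (v : R3)
    (hx : ρ ∉ exc X (x.2 - s * v 1) v) :
    HasDerivAt (fun ρ => psi0 X ρ (x + (ρ - s) • bar v) v)
      (ρ⁻¹ * L0 X (ρ⁻¹ • (x + (ρ - s) • bar v)) v) ρ := by
  set a := x.1 - s * v 0 with ha
  set b := x.2 - s * v 1 with hb
  have hfun : (fun ρ => psi0 X ρ (x + (ρ - s) • bar v) v) =ᶠ[nhds ρ]
      fun ρ => tentp X.A X.Yp X.e (v 1 + b / ρ) (fr (v 1 + b / ρ) v) * cutB X.B (v 0 + a / ρ)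
        * lamd X.d (v 0) := by
    filter_upwards [Ioi_mem_nhds hρ] with y hy
    have hy0 : y ≠ 0 := ne_of_gt hy
    unfold psi0 f0
    rw [z_flight hy0]
  have hT := hasDerivAt_tentp_flight X b v hρ.ne' hx
  have hw : HasDerivAt (fun ρ : ℝ => v 0 + a / ρ) (a * -(ρ ^ 2)⁻¹) ρ := by
    have h := ((hasDerivAt_inv hρ.ne').const_mul a).const_add (v 0)
    have h2 : (fun ρ : ℝ => v 0 + a / ρ) = fun ρ => v 0 + a * ρ⁻¹ := by
      funext y; rw [div_eq_mul_inv]
    rw [h2]; exact h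
  have hC := (hasDerivAt_cutB X.B (v 0 + a / ρ)).comp ρ hw
  have hall := (hT.mul hC).mul_const (lamd X.d (v 0))
  refine (hall.congr_of_eventuallyEq hfun).congr_deriv ?_
  rw [z_flight hρ.ne', ← ha, ← hb]
  unfold L0
  simp only [Function.comp]
  by_cases h0 : 0 < tent X.A X.Yp X.e (v 1 + b / ρ) (fr (v 1 + b / ρ) v)
  · rw [if_pos h0, if_pos h0]
    have h1 : tentp X.A X.Yp X.e (v 1 + b / ρ) (fr (v 1 + b / ρ) v) =
        tent X.A X.Yp X.e (v 1 + b / ρ) (fr (v 1 + b / ρ) v) := by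
      unfold tentp; rw [max_eq_right h0.le]
    rw [h1]
    have h2 : a * -(ρ ^ 2)⁻¹ = ρ⁻¹ * (v 0 - (v 0 + a / ρ)) := by field_simp; ring
    rw [h2]
    ring
  · rw [if_neg h0, if_neg h0]
    have h1 : tentp X.A X.Yp X.e (v 1 + b / ρ) (fr (v 1 + b / ρ) v) = 0 := by
      unfold tentp; rw [max_eq_left (not_lt.1 h0)]
    rw [h1]
    ring

/-! ### continuity and measurability -/

theorem continuous_fr : Continuous fun p : ℝ × R3 => fr p.1 p.2 := by
  have h : Continuous fun p : ℝ × R3 => (!₂[0, p.1, 0] : R3) := by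
    apply (PiLp.continuous_toLp 2 _).comp
    apply continuous_pi
    intro i
    fin_cases i <;> simp <;> fun_prop
  exact continuous_snd.sub h

theorem continuous_f0 (X : XP) : Continuous fun p : P2 × R3 => f0 X p.1 p.2 := by
  have hq : Continuous fun p : P2 × R3 => fr p.1.2 p.2 :=
    continuous_fr.comp (by fun_prop : Continuous fun p : P2 × R3 => (p.1.2, p.2))
  unfold f0 tentp tent cutB lamd
  fun_prop

theorem continuous_tent2 (X : XP) :
    Continuous fun p : P2 × R3 => tent X.A X.Yp X.e p.1.2 (fr p.1.2 p.2) := by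
  have hq : Continuous fun p : P2 × R3 => fr p.1.2 p.2 :=
    continuous_fr.comp (by fun_prop : Continuous fun p : P2 × R3 => (p.1.2, p.2))
  unfold tent
  fun_prop

theorem measurable_sgr : Measurable sg :=
  Measurable.ite measurableSet_Ici measurable_const measurable_const

theorem abs_sgr (m : ℝ) : |sg m| = 1 := by
  unfold sg
  split_ifs <;> simp

theorem measurable_L0 (X : XP) : Measurable fun p : P2 × R3 => L0 X p.1 p.2 := by
  have hq : Continuous fun p : P2 × R3 => fr p.1.2 p.2 :=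
    continuous_fr.comp (by fun_prop : Continuous fun p : P2 × R3 => (p.1.2, p.2))
  have hq1 : Measurable fun p : P2 × R3 => fr p.1.2 p.2 1 := by
    have : Continuous fun p : P2 × R3 => fr p.1.2 p.2 1 := by fun_prop
    exact this.measurable
  have hT := (continuous_tent2 X).measurable
  have hcut : Measurable fun p : P2 × R3 => cutB X.B p.1.1 := by
    unfold cutB; fun_prop
  have hv : Measurable fun p : P2 × R3 => p.2 0 := by
    have : Continuous fun p : P2 × R3 => p.2 0 := by fun_prop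
    exact this.measurable
  have hlam0 : Measurable fun a : ℝ => lamd X.d a := by
    unfold lamd; fun_prop
  have hlam : Measurable fun p : P2 × R3 => lamd X.d (p.2 0) := hlam0.comp hv
  have hsg0 : Measurable fun p : P2 × R3 => (1 + X.A) * p.1.2 + fr p.1.2 p.2 1 :=
    ((measurable_snd.comp measurable_fst).const_mul _).add hq1
  have hsg : Measurable fun p : P2 × R3 => sg ((1 + X.A) * p.1.2 + fr p.1.2 p.2 1) :=
    measurable_sgr.comp hsg0
  have hz : Measurable fun p : P2 × R3 => p.1.1 := measurable_fst.comp measurable_fst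
  have hR0 : Measurable fun q : ℝ × ℝ => 2 * max 0 (1 - q.1 ^ 2 / X.B ^ 2) *
      (-(2 * q.1 * (q.2 - q.1) / X.B ^ 2)) := by fun_prop
  have hR : Measurable fun p : P2 × R3 => 2 * max 0 (1 - p.1.1 ^ 2 / X.B ^ 2) *
      (-(2 * p.1.1 * (p.2 0 - p.1.1) / X.B ^ 2)) := hR0.comp (hz.prodMk hv)
  have h1 : Measurable fun p : P2 × R3 => (-sg ((1 + X.A) * p.1.2 + fr p.1.2 p.2 1) * X.A *
      (fr p.1.2 p.2 1) + 2 * X.e * (fr p.1.2 p.2 1) ^ 2) * cutB X.B p.1.1 :=
    (((hsg.neg.mul_const X.A).mul hq1).add ((hq1.pow_const 2).const_mul (2 * X.e))).mul hcut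
  have h2 := (h1.add (hT.mul hR)).mul hlam
  exact Measurable.ite (measurableSet_lt measurable_const hT) h2 measurable_const

theorem abs_L0_le (X : XP) (z : P2) (v : R3) : |L0 X z v| ≤
    ((|X.A| * |fr z.2 v 1| + |2 * X.e * (fr z.2 v 1) ^ 2|) * |cutB X.B z.1|
      + |tent X.A X.Yp X.e z.2 (fr z.2 v)| *
        |2 * max 0 (1 - z.1 ^ 2 / X.B ^ 2) * (-(2 * z.1 * (v 0 - z.1) / X.B ^ 2))|)
      * |lamd X.d (v 0)| := by
  unfold L0
  split_ifs with h
  · rw [abs_mul]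
    refine mul_le_mul_of_nonneg_right ?_ (abs_nonneg _)
    refine (abs_add_le _ _).trans ?_
    rw [abs_mul, abs_mul (tent X.A X.Yp X.e z.2 (fr z.2 v))]
    refine add_le_add (mul_le_mul_of_nonneg_right ?_ (abs_nonneg _)) le_rfl
    refine (abs_add_le _ _).trans (add_le_add ?_ le_rfl)
    rw [abs_mul, abs_mul, abs_neg, abs_sgr, one_mul]
  · rw [abs_zero]; positivity

/-- **the test function along a flight** -/
theorem psi0_flight (X : XP) (he : X.e ≠ 0) {s r : ℝ} (hs : 0 < s) (hsr : s ≤ r) (x : P2)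
    (v : R3) :
    IntervalIntegrable (fun ρ => ρ⁻¹ * L0 X (ρ⁻¹ • (x + (ρ - s) • bar v)) v) volume s r ∧
    ∫ ρ in s..r, ρ⁻¹ * L0 X (ρ⁻¹ • (x + (ρ - s) • bar v)) v =
      psi0 X r (x + (r - s) • bar v) v - psi0 X s x v := by
  have hI : uIcc s r = Icc s r := uIcc_of_le hsr
  have hpos : ∀ ρ ∈ uIcc s r, ρ ≠ 0 := fun ρ hρ => by
    rw [hI] at hρ; exact (hs.trans_le hρ.1).ne'
  have hz : ContinuousOn (fun ρ : ℝ => ρ⁻¹ • (x + (ρ - s) • bar v)) (uIcc s r) := by
    refine ContinuousOn.smul (continuousOn_inv₀.mono fun ρ hρ => hpos ρ hρ) ?_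
    fun_prop
  have hzv : ContinuousOn (fun ρ : ℝ => (ρ⁻¹ • (x + (ρ - s) • bar v), v)) (uIcc s r) :=
    hz.prodMk continuousOn_const
  have hint : IntervalIntegrable (fun ρ => ρ⁻¹ * L0 X (ρ⁻¹ • (x + (ρ - s) • bar v)) v)
      volume s r := by
    have hm : Measurable fun ρ : ℝ => ρ⁻¹ * L0 X (ρ⁻¹ • (x + (ρ - s) • bar v)) v := by
      refine measurable_inv.mul ?_
      exact (measurable_L0 X).comp (f := fun ρ : ℝ => (ρ⁻¹ • (x + (ρ - s) • bar v), v))
        (by fun_prop)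
    set G : P2 × R3 → ℝ := fun p => ((|X.A| * |fr p.1.2 p.2 1| + |2 * X.e * (fr p.1.2 p.2 1) ^ 2|)
        * |cutB X.B p.1.1| + |tent X.A X.Yp X.e p.1.2 (fr p.1.2 p.2)| *
        |2 * max 0 (1 - p.1.1 ^ 2 / X.B ^ 2) * (-(2 * p.1.1 * (p.2 0 - p.1.1) / X.B ^ 2))|)
      * |lamd X.d (p.2 0)| with hG
    have hGc : Continuous G := by
      have hq : Continuous fun p : P2 × R3 => fr p.1.2 p.2 :=
        continuous_fr.comp (by fun_prop : Continuous fun p : P2 × R3 => (p.1.2, p.2))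
      have hT := continuous_tent2 X
      rw [hG]
      unfold cutB lamd
      fun_prop
    have hg : IntervalIntegrable (fun ρ => |ρ⁻¹| * G (ρ⁻¹ • (x + (ρ - s) • bar v), v))
        volume s r := by
      refine ContinuousOn.intervalIntegrable ?_
      refine ContinuousOn.mul (continuousOn_inv₀.mono fun ρ hρ => hpos ρ hρ).abs ?_
      exact hGc.comp_continuousOn hzv
    refine hg.mono_fun hm.aestronglyMeasurable ?_
    refine Eventually.of_forall fun ρ => ?_
    beta_reduce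
    rw [norm_mul, norm_mul, Real.norm_eq_abs, Real.norm_eq_abs, Real.norm_eq_abs, Real.norm_eq_abs,
      abs_abs]
    refine mul_le_mul_of_nonneg_left ?_ (abs_nonneg _)
    exact (abs_L0_le X _ v).trans (le_abs_self _)
  refine ⟨hint, ?_⟩
  have hcont : ContinuousOn (fun ρ => psi0 X ρ (x + (ρ - s) • bar v) v) (uIcc s r) := by
    have := (continuous_f0 X).comp_continuousOn hzv
    exact this
  have hmain := integral_eq_of_hasDerivAt_off_countable
    (fun ρ => psi0 X ρ (x + (ρ - s) • bar v) v)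
    (fun ρ => ρ⁻¹ * L0 X (ρ⁻¹ • (x + (ρ - s) • bar v)) v)
    (exc_countable X he (x.2 - s * v 1) v) hcont ?_ hint
  · rw [hmain]
    simp only [sub_self, zero_smul, add_zero]
  · rintro ρ ⟨hρ, hρx⟩
    have hρ0 : 0 < ρ := by
      rw [min_eq_left hsr] at hρ
      exact hs.trans hρ.1
    exact hasDerivAt_psi0_flight X hρ0 x v hρx

end Crest.Agent.R68.X2.Flt60
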