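import Crest.Agent.R68.X2Gs
import Crest.Agent.R68.XFlt60
import Crest.Agent.R68.FOne
import Crest.Agent.R68.FCell
import Crest.Agent.R68.LK

/-!
# Row 68, PART X2: measurability, periodicity, support of the test functions (helper60)
-/

set_option autoImplicit false
open MeasureTheory Set Filter
open scoped ENNReal Real
open Crest.AnalysisR.VecCalc3 Crest.AnalysisR.PDE.Boltzmann

noncomputable section

namespace Crest.Agent.R68.X2.M60

open Crest.Agent.R68.X2 Crest.Agent.R68.X2.Flt60

open Crest.Agent.R68.L (Den phiE Gf Dam TL sol)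
open Crest.Agent.R68.A (Meas3)
open Crest.Agent.R68.X (chs Cs)

/-! ### measurability -/

theorem measurable_f0 (X : XP) : Measurable fun p : P2 × R3 => f0 X p.1 p.2 :=
  (continuous_f0 X).measurable

theorem measurable_sc : Measurable fun p : ℝ × P2 × R3 => (p.1⁻¹ • p.2.1, p.2.2) := by
  fun_prop

theorem measurable_psi0 (X : XP) : Measurable fun p : ℝ × P2 × R3 => psi0 X p.1 p.2.1 p.2.2 := by
  have h := (measurable_f0 X).comp measurable_sc
  exact h

theorem meas3_psiE (X : XP) : Meas3 (psiE X) := (measurable_psi0 X).ennreal_ofReal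

theorem meas3_shift {F : Den} (hF : Meas3 F) (a : P2) : Meas3 fun t x v => F t (x + a) v :=
  hF.comp (f := fun p : ℝ × P2 × R3 => p.1) (g := fun p => p.2.1 + a) (h := fun p => p.2.2)
    (by fun_prop) (by fun_prop) (by fun_prop)

theorem meas3_psiP (X : XP) : Meas3 (psiP X) :=
  Measurable.tsum (f := fun (k : ℤ × ℤ) (p : ℝ × P2 × R3) => psiE X p.1 (p.2.1 + latt k) p.2.2)
    fun k => meas3_shift (meas3_psiE X) (latt k)

theorem perG_tsum (F : Den) (t : ℝ) (v : R3) :
    PerG fun x => ∑' k : ℤ × ℤ, F t (x + latt k) v := by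
  intro x k
  have h : ∀ l : ℤ × ℤ, F t (x + latt k + latt l) v = F t (x + latt (k + l)) v := by
    intro l; rw [latt_add, add_assoc]
  simp only [h]
  exact (Equiv.addLeft k).tsum_eq fun l => F t (x + latt l) v

theorem perG_psiP (X : XP) (t : ℝ) (v : R3) : PerG fun x => psiP X t x v :=
  perG_tsum (psiE X) t v

theorem psiE_le_psiP (X : XP) (t : ℝ) (x : P2) (v : R3) : psiE X t x v ≤ psiP X t x v := by
  have h := ENNReal.le_tsum (f := fun k : ℤ × ℤ => psiE X t (x + latt k) v) 0
  beta_reduce at h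
  rw [latt_zero, add_zero] at h
  exact h

theorem continuous_us (s : ℝ) : Continuous fun y : ℝ => us y s := by
  unfold us
  apply (PiLp.continuous_toLp 2 _).comp
  apply continuous_pi
  intro i
  fin_cases i <;> simp <;> fun_prop

theorem measurable_ws (X : XP) (d1 s : ℝ) :
    Measurable fun p : ℝ × P2 × R3 => ws X d1 p.1 s p.2.1 p.2.2 := by
  have hus : Measurable fun p : ℝ × P2 × R3 => us p.2.1.2 s :=
    (continuous_us s).measurable.comp (by fun_prop)
  have h1 : Measurable fun p : ℝ × P2 × R3 => gsR (f0 X p.2.1) p.2.2 (us p.2.1.2 s) := by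
    refine meas_gsR (α := ℝ × P2 × R3) (g := fun p => f0 X p.2.1) ?_ (by fun_prop) hus
    exact (measurable_f0 X).comp (f := fun q : (ℝ × P2 × R3) × R3 => (q.1.2.1, q.2))
      (by fun_prop)
  have h2 : Measurable fun p : ℝ × P2 × R3 => ‖p.2.2 - us p.2.1.2 s‖ :=
    (Measurable.sub (by fun_prop) hus).norm
  have h3 : Measurable fun p : ℝ × P2 × R3 => f0 X p.2.1 p.2.2 :=
    (measurable_f0 X).comp (by fun_prop)
  exact measurable_fst.mul ((h1.const_mul (1 - d1)).sub ((h2.const_mul (2 * π)).mul h3))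

theorem measurable_ramp : Measurable ramp := by unfold ramp; fun_prop

theorem measurable_th (X : XP) (Zs Vs : ℝ) : Measurable fun p : P2 × R3 => th X Zs Vs p.1 p.2 := by
  have h1 : Measurable fun p : P2 × R3 => ramp (‖p.1‖ / Zs) := measurable_ramp.comp (by fun_prop)
  have h2 : Measurable fun p : P2 × R3 => ramp (‖p.2‖ / Vs) := measurable_ramp.comp (by fun_prop)
  have h3 : Measurable fun p : P2 × R3 => lamd (X.d / 2) (p.2 0) := by
    have h4 : Measurable fun p : P2 × R3 => p.2 0 := by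
      have : Continuous fun p : P2 × R3 => p.2 0 := by fun_prop
      exact this.measurable
    have h5 : Measurable fun a : ℝ => lamd (X.d / 2) a := by unfold lamd; fun_prop
    exact h5.comp h4
  exact (h1.mul h2).mul h3

theorem measurable_osc (X : XP) (P : Par) (d1 Zs Vs s : ℝ) :
    Measurable fun p : ℝ × P2 × R3 => osc X P d1 Zs Vs s p.1 p.2.1 p.2.2 := by
  have h1 : Measurable fun p : ℝ × P2 × R3 => th X Zs Vs (p.1⁻¹ • p.2.1) p.2.2 := by
    have h := (measurable_th X Zs Vs).comp measurable_sc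
    exact h
  have h0 : Measurable fun p : ℝ × P2 × R3 => (p.1⁻¹ • p.2.1).2 := by fun_prop
  have h2 : Measurable fun p : ℝ × P2 × R3 => P.K * ky P (p.1⁻¹ • p.2.1).2 :=
    ((measurable_ky P).comp h0).const_mul _
  have h3 : Measurable fun p : ℝ × P2 × R3 =>
      ws X d1 (P.K * ky P (p.1⁻¹ • p.2.1).2) s (p.1⁻¹ • p.2.1) p.2.2 := by
    have h := (measurable_ws X d1 s).comp (h2.prodMk measurable_sc)
    exact h
  exact ((measurable_inv.comp measurable_fst).mul h1).mul h3

theorem measurable_lab60 (P : Par) : Measurable fun p : ℝ × P2 × R3 => lab P p.1 p.2.1 := by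
  unfold lab
  fun_prop

theorem measurable_corr (X : XP) (P : Par) (d1 Zs Vs : ℝ) :
    Measurable fun p : ℝ × P2 × R3 => corr X P d1 Zs Vs p.1 p.2.1 p.2.2 := by
  have hv : Measurable fun p : ℝ × P2 × R3 => p.2.2 0 := by
    have : Continuous fun p : ℝ × P2 × R3 => p.2.2 0 := by fun_prop
    exact this.measurable
  have h1 : Measurable fun p : ℝ × P2 × R3 => q1u P p.1 p.2.1 p.2.2 := by
    unfold q1u
    refine hv.sub ?_
    fun_prop
  have h2 : Measurable fun p : ℝ × P2 × R3 => (P.dl + P.c * p.1) / (P.dl * q1u P p.1 p.2.1 p.2.2) :=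
    Measurable.div (by fun_prop) (h1.const_mul _)
  have h3 : Measurable fun p : ℝ × P2 × R3 => Cs 1 (lab P p.1 p.2.1) :=
    (Crest.Agent.R68.X.measurable_Cs 1).comp (measurable_lab60 P)
  have h4 : Measurable fun p : ℝ × P2 × R3 => Cs (-1) (lab P p.1 p.2.1) :=
    (Crest.Agent.R68.X.measurable_Cs (-1)).comp (measurable_lab60 P)
  exact h2.mul ((h3.mul (measurable_osc X P d1 Zs Vs 1)).add
    (h4.mul (measurable_osc X P d1 Zs Vs (-1))))

theorem measurable_ramps (Zs Vs : ℝ) : Measurable fun p : ℝ × P2 × R3 =>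
    ramp (‖p.1⁻¹ • p.2.1‖ / (2 * Zs)) * ramp (‖p.2.2‖ / (2 * Vs)) := by
  have h1 : Measurable fun p : ℝ × P2 × R3 => ‖p.1⁻¹ • p.2.1‖ / (2 * Zs) := by fun_prop
  have h2 : Measurable fun p : ℝ × P2 × R3 => ‖p.2.2‖ / (2 * Vs) := by fun_prop
  exact (measurable_ramp.comp h1).mul (measurable_ramp.comp h2)

theorem measurable_gL (X : XP) (P : Par) (d1 Zs Vs Cg : ℝ) :
    Measurable fun p : ℝ × P2 × R3 => gL X P d1 Zs Vs Cg p.1 p.2.1 p.2.2 := by
  have h1 : Measurable fun p : ℝ × P2 × R3 => Cg * p.1 ^ 2 := by fun_prop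
  exact ((measurable_psi0 X).add (measurable_corr X P d1 Zs Vs)).add
    (h1.mul (measurable_ramps Zs Vs))

theorem measurable_nearI (Zs Vs : ℝ) :
    Measurable fun p : ℝ × P2 × R3 => nearI Zs Vs p.1 p.2.1 p.2.2 := by
  have h1 : Measurable fun p : ℝ × P2 × R3 => ‖p.2.1‖ := by fun_prop
  have h2 : Measurable fun p : ℝ × P2 × R3 => 4 * Zs * p.1 := by fun_prop
  have h3 : Measurable fun p : ℝ × P2 × R3 => ‖p.2.2‖ := by fun_prop
  have hs : MeasurableSet {p : ℝ × P2 × R3 | ‖p.2.1‖ ≤ 4 * Zs * p.1 ∧ ‖p.2.2‖ ≤ 4 * Vs} :=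
    (measurableSet_le h1 h2).inter (measurableSet_le h3 measurable_const)
  exact Measurable.ite hs measurable_const measurable_const

theorem measurable_Lg (X : XP) (P : Par) (d1 Zs Vs C : ℝ) :
    Measurable fun p : ℝ × P2 × R3 => Lg X P d1 Zs Vs C p.1 p.2.1 p.2.2 := by
  have h0 : Measurable fun p : ℝ × P2 × R3 => L0 X (p.1⁻¹ • p.2.1) p.2.2 := by
    have h := (measurable_L0 X).comp measurable_sc
    exact h
  have h1 : Measurable fun p : ℝ × P2 × R3 => p.1⁻¹ := measurable_inv.comp measurable_fst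
  have h3 : Measurable fun p : ℝ × P2 × R3 => chs P 1 (lab P p.1 p.2.1) - 197 / 400 :=
    ((Crest.Agent.R68.X.measurable_chs P 1).comp (measurable_lab60 P)).sub_const _
  have h4 : Measurable fun p : ℝ × P2 × R3 => chs P (-1) (lab P p.1 p.2.1) - 197 / 400 :=
    ((Crest.Agent.R68.X.measurable_chs P (-1)).comp (measurable_lab60 P)).sub_const _
  exact (((h1.mul h0).sub (h3.mul (measurable_osc X P d1 Zs Vs 1))).sub
    (h4.mul (measurable_osc X P d1 Zs Vs (-1)))).sub ((measurable_nearI Zs Vs).const_mul C)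

theorem meas3_gL (X : XP) (P : Par) (d1 Zs Vs Cg : ℝ) :
    Meas3 fun t x v => ENNReal.ofReal (gL X P d1 Zs Vs Cg t x v) :=
  (measurable_gL X P d1 Zs Vs Cg).ennreal_ofReal

theorem meas3_Lg (X : XP) (P : Par) (d1 Zs Vs C : ℝ) :
    Meas3 fun t x v => ENNReal.ofReal (Lg X P d1 Zs Vs C t x v) :=
  (measurable_Lg X P d1 Zs Vs C).ennreal_ofReal

theorem meas3_Lg_neg (X : XP) (P : Par) (d1 Zs Vs C : ℝ) :
    Meas3 fun t x v => ENNReal.ofReal (-Lg X P d1 Zs Vs C t x v) :=
  (measurable_Lg X P d1 Zs Vs C).neg.ennreal_ofReal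

/-! ### the fuel as a field -/

theorem meas3_GA_phiE (P : Par) (hP : P.Ok) {g : Den} (hg : Meas3 g) : Meas3 (GA (phiE P) g) :=
  meas3_GA (L.meas3_phiE hP) hg

/-- lattice sums commute with the dual gain against the fuel -/
theorem GA_psiP {P : Par} (hP : P.Ok) (X : XP) (t : ℝ) (x : P2) (v : R3) :
    GA (phiE P) (psiP X) t x v = ∑' k : ℤ × ℤ, GA (phiE P) (psiE X) t (x + latt k) v := by
  have h1 := GA_tsum (φ := phiE P) (g := fun (k : ℤ × ℤ) t x v => psiE X t (x + latt k) v)
    (L.meas3_phiE hP) (fun k => meas3_shift (meas3_psiE X) (latt k)) t x v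
  refine Eq.trans h1 (tsum_congr fun k => ?_)
  show ∫⁻ u, phiE P t x u * gsE (psiE X t (x + latt k)) v u =
    ∫⁻ u, phiE P t (x + latt k) u * gsE (psiE X t (x + latt k)) v u
  refine lintegral_congr fun u => ?_
  exact congrArg (· * _) (L.perG_phiE P t u x k).symm

/-! ### unfolding the period -/

/-- plane integral against a periodic density = cell integral of the periodised weight -/
theorem plane_eq_cell {F H : Den} (hF : Meas3 F) (mH : Meas3 H)
    (pH : ∀ t v, PerG (fun x => H t x v)) (t : ℝ) :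
    ∫⁻ x, ∫⁻ v, F t x v * H t x v =
      MW (fun t x v => ∑' k : ℤ × ℤ, F t (x + latt k) v) H t := by
  have hG0 : Measurable fun p : P2 × R3 => F t p.1 p.2 * H t p.1 p.2 :=
    (hF.comp (f := fun _ : P2 × R3 => t) measurable_const measurable_fst measurable_snd).mul
      (mH.comp (f := fun _ : P2 × R3 => t) measurable_const measurable_fst measurable_snd)
  have hG : Measurable fun x : P2 => ∫⁻ v, F t x v * H t x v :=
    Measurable.lintegral_prod_right' (f := fun p : P2 × R3 => F t p.1 p.2 * H t p.1 p.2) hG0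
  rw [← lintegral_cellG_tsum hG]
  unfold MW
  refine lintegral_congr fun x => ?_
  have h1 : ∀ k : ℤ × ℤ, Measurable fun v => F t (x + latt k) v * H t (x + latt k) v :=
    fun k => (hF.slice t (x + latt k)).mul (mH.slice t (x + latt k))
  rw [← lintegral_tsum fun k => (h1 k).aemeasurable]
  refine lintegral_congr fun v => ?_
  rw [← ENNReal.tsum_mul_right]
  refine tsum_congr fun k => ?_
  exact congrArg (F t (x + latt k) v * ·) (pH t v x k)

/-- periodisation of the dual gain of the test function -/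
theorem plane_GA_eq {P : Par} (hP : P.Ok) {X : XP} {H : Den} (mH : Meas3 H)
    (pH : ∀ t v, PerG (fun x => H t x v)) (t : ℝ) :
    ∫⁻ x, ∫⁻ v, GA (phiE P) (psiE X) t x v * H t x v = MW (GA (phiE P) (psiP X)) H t := by
  rw [plane_eq_cell (meas3_GA_phiE P hP (meas3_psiE X)) mH pH t]
  unfold MW
  refine lintegral_congr fun x => lintegral_congr fun v => ?_
  rw [GA_psiP hP]

/-- periodisation of the test function -/
theorem plane_psi_eq {X : XP} {H : Den} (mH : Meas3 H) (pH : ∀ t v, PerG (fun x => H t x v))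
    (t : ℝ) : ∫⁻ x, ∫⁻ v, psiE X t x v * H t x v = MW (psiP X) H t :=
  plane_eq_cell (meas3_psiE X) mH pH t

end Crest.Agent.R68.X2.M60
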