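import Crest.Agent.R68.XDefs2
import Crest.Agent.R68.X2Gs
import Crest.Agent.R68.X2Fuel
import Crest.Agent.R68.X2Meas

/-!
# Row 68, PART X2 (helper546): pointwise inequality for the corrected test function
-/

set_option autoImplicit false
open MeasureTheory Set Filter
open scoped ENNReal Real
open Crest.AnalysisR.VecCalc3 Crest.AnalysisR.PDE.Boltzmann

noncomputable section

namespace Crest.Agent.R68.X2.PL

open Crest.Agent.R68.X2

open Crest.Agent.R68.L (Den phiE Gf Dam TL sol)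
open Crest.Agent.R68.X (chs)
open Crest.Agent.R68.A (Meas3)

/-! ### velocity integrals against the fuel -/

theorem measurable_phi_slice {P : Par} (hP : P.Ok) (t : ℝ) (x : P2) :
    Measurable fun u => phi P t x u := by
  have h1 : Measurable fun u : R3 => (t, x, u) := by fun_prop
  exact (Fuel.measurable_phi hP).comp h1

theorem integrable_phi {P : Par} (hP : P.Ok) {t : ℝ} {x : P2}
    (hfin : ∫⁻ u, phiE P t x u ≠ ⊤) : Integrable fun u => phi P t x u := by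
  refine ⟨(measurable_phi_slice hP t x).aestronglyMeasurable, ?_⟩
  rw [hasFiniteIntegral_iff_ofReal (Eventually.of_forall fun u => Fuel.phi_nonneg hP t x u)]
  exact lt_of_le_of_ne le_top hfin

theorem integrable_phi_mul {P : Par} (hP : P.Ok) {t : ℝ} {x : P2} {G : R3 → ℝ}
    (hG : Measurable G) {B : ℝ} (hB : ∀ u, phi P t x u ≠ 0 → |G u| ≤ B)
    (hfin : ∫⁻ u, phiE P t x u ≠ ⊤) : Integrable fun u => phi P t x u * G u := by
  have h1 := integrable_phi hP hfin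
  refine Integrable.mono' (h1.const_mul |B|)
    ((measurable_phi_slice hP t x).mul hG).aestronglyMeasurable (Eventually.of_forall fun u => ?_)
  rw [Real.norm_eq_abs, abs_mul, abs_of_nonneg (Fuel.phi_nonneg hP t x u), mul_comm]
  by_cases h : phi P t x u = 0
  · rw [h]; simp
  · exact mul_le_mul_of_nonneg_right ((hB u h).trans (le_abs_self B)) (Fuel.phi_nonneg hP t x u)

theorem lint_phi_ofReal {P : Par} (hP : P.Ok) {t : ℝ} {x : P2} {G : R3 → ℝ}
    (hG : Measurable G) {B : ℝ} (hG0 : ∀ u, 0 ≤ G u) (hB : ∀ u, phi P t x u ≠ 0 → G u ≤ B)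
    (hfin : ∫⁻ u, phiE P t x u ≠ ⊤) :
    ∫⁻ u, phiE P t x u * ENNReal.ofReal (G u) = ENNReal.ofReal (∫ u, phi P t x u * G u) := by
  rw [ofReal_integral_eq_lintegral_ofReal]
  · refine lintegral_congr fun u => ?_
    rw [ENNReal.ofReal_mul (Fuel.phi_nonneg hP t x u)]
    rfl
  · exact integrable_phi_mul hP hG (B := B) (fun u hu => by rw [abs_of_nonneg (hG0 u)]; exact hB u hu) hfin
  · exact Eventually.of_forall fun u => mul_nonneg (Fuel.phi_nonneg hP t x u) (hG0 u)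

/-- collision frequency as a real integral -/
theorem Lc_phi {P : Par} (hP : P.Ok) {t : ℝ} {x : P2} {B : ℝ}
    (hB : ∀ u, phi P t x u ≠ 0 → ‖u‖ ≤ B) (hfin : ∫⁻ u, phiE P t x u ≠ ⊤) (v : R3) :
    Lc (phiE P t x) v = ENNReal.ofReal (∫ u, phi P t x u * (2 * π * ‖v - u‖)) := by
  rw [← lint_phi_ofReal hP (B := 2 * π * (‖v‖ + B)) (by fun_prop)
    (fun u => by positivity) (fun u hu => ?_) hfin]
  · unfold Lc
    refine lintegral_congr fun u => ?_
    rw [lintegral_abs_inner_mul, mul_comm]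
  · have := norm_sub_le v u
    have := hB u hu
    have := Real.pi_pos
    nlinarith

theorem gsR_le_const {g : R3 → ℝ} (hg : Measurable g) {C : ℝ} (h0 : ∀ w, 0 ≤ g w)
    (hC : ∀ w, g w ≤ C) (v u : R3) : gsR g v u ≤ 4 * π * ‖v - u‖ * C := by
  rw [← gsR_const C v u]
  refine gsR_mono hg measurable_const (C := C) (fun w _ => ?_) (fun w _ => ?_) (fun w _ => hC w)
  · rw [abs_of_nonneg (h0 w)]; exact hC w
  · rw [abs_of_nonneg ((h0 w).trans (hC w))]

theorem mf0 (X : XP) (z : P2) : Measurable fun v => f0 X z v :=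
  by
  have h : Measurable fun v : R3 => ((z, v) : P2 × R3) := by fun_prop
  have h2 := (M60.measurable_f0 X).comp h
  exact h2

theorem measurable_gL_slice (X : XP) (P : Par) (d1 Zs Vs Cg t : ℝ) (x : P2) :
    Measurable fun v => gL X P d1 Zs Vs Cg t x v :=
  by
  have h : Measurable fun v : R3 => ((t, x, v) : ℝ × P2 × R3) := by fun_prop
  have h2 := (M60.measurable_gL X P d1 Zs Vs Cg).comp h
  exact h2

/-- properties of `f0` used below -/
structure F0Ok (X : XP) (C : ℝ) : Prop where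
  C1 : 1 ≤ C
  nn : ∀ z v, 0 ≤ f0 X z v
  le : ∀ z v, f0 X z v ≤ C
  lip : ∀ z v z' v', |f0 X z v - f0 X z' v'| ≤ C * (‖z - z'‖ + ‖v - v'‖)
  d : ∀ z v, f0 X z v ≠ 0 → X.d ≤ |v 0|

/-- the real function `G` of the fuel velocity -/
def GG (X : XP) (d1 : ℝ) (z : P2) (v u : R3) : ℝ :=
  (1 - d1) * gsR (f0 X z) v u - 2 * π * ‖v - u‖ * f0 X z v

theorem GG_bound {X : XP} {C d1 U : ℝ} (h : F0Ok X C) (hd0 : 0 ≤ d1) (hd1 : d1 ≤ 1)
    (z : P2) (v u : R3) (hu : ‖u‖ ≤ U) :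
    |GG X d1 z v u| ≤ 6 * π * C * (‖v‖ + U) := by
  have h1 := gsR_le_const (mf0 X z) (h.nn z) (h.le z) v u
  have h2 := gsR_nonneg (h.nn z) v u
  have h3 := h.nn z v
  have h4 := h.le z v
  have h5 : ‖v - u‖ ≤ ‖v‖ + U := (norm_sub_le v u).trans (by linarith)
  have h6 := norm_nonneg (v - u)
  have hC := h.C1
  have hpi := Real.pi_pos
  have e1 : (1 - d1) * gsR (f0 X z) v u ≤ 4 * π * (‖v‖ + U) * C := by
    calc (1 - d1) * gsR (f0 X z) v u ≤ 1 * gsR (f0 X z) v u := by gcongr; linarith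
      _ ≤ 4 * π * ‖v - u‖ * C := by rw [one_mul]; exact h1
      _ ≤ _ := by gcongr
  have hVU : 0 ≤ ‖v‖ + U := h6.trans h5
  have e2 : 2 * π * ‖v - u‖ * f0 X z v ≤ 2 * π * (‖v‖ + U) * C := by gcongr
  have e3 : 0 ≤ (1 - d1) * gsR (f0 X z) v u := mul_nonneg (by linarith) h2
  have e4 : 0 ≤ 2 * π * ‖v - u‖ * f0 X z v := by positivity
  unfold GG
  rw [abs_le]
  constructor <;> nlinarith

theorem GG_lip {X : XP} {C d1 U : ℝ} (h : F0Ok X C) (hd0 : 0 ≤ d1) (hd1 : d1 ≤ 1)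
    (z : P2) (v u u' : R3) (hu' : ‖u'‖ ≤ U) :
    |GG X d1 z v u - GG X d1 z v u'| ≤ (10 * π * C + 8 * π * C * (‖v‖ + U)) * ‖u - u'‖ := by
  have hC := h.C1
  have hpi := Real.pi_pos
  have h1 := gsR_lip (mf0 X z) (mf0 X z) (C := C) (L := C) (ε := 0)
    (fun w => by rw [abs_of_nonneg (h.nn z w)]; exact h.le z w)
    (fun w => by rw [abs_of_nonneg (h.nn z w)]; exact h.le z w)
    (fun w w' => by have := h.lip z w z w'; simpa using this) (fun w => by simp) v u u'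
  have h3 := h.nn z v
  have h4 := h.le z v
  have h5 : ‖v - u'‖ ≤ ‖v‖ + U := (norm_sub_le v u').trans (by linarith)
  have h6 : |‖v - u‖ - ‖v - u'‖| ≤ ‖u - u'‖ := by
    have := abs_norm_sub_norm_le (v - u) (v - u')
    rwa [show v - u - (v - u') = u' - u by abel, norm_sub_rev u' u] at this
  have h7 := norm_nonneg (u - u')
  have e0 : GG X d1 z v u - GG X d1 z v u' = (1 - d1) * (gsR (f0 X z) v u - gsR (f0 X z) v u')
      - 2 * π * (‖v - u‖ - ‖v - u'‖) * f0 X z v := by unfold GG; ring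
  rw [e0]
  have e1 : |(1 - d1) * (gsR (f0 X z) v u - gsR (f0 X z) v u')| ≤
      8 * π * C * ‖u - u'‖ + 8 * π * (‖v‖ + U) * (C * ‖u - u'‖) := by
    rw [abs_mul, abs_of_nonneg (by linarith : 0 ≤ 1 - d1)]
    calc (1 - d1) * |gsR (f0 X z) v u - gsR (f0 X z) v u'| ≤
        1 * |gsR (f0 X z) v u - gsR (f0 X z) v u'| := by gcongr; linarith
      _ ≤ 8 * π * C * ‖u - u'‖ + 8 * π * ‖v - u'‖ * (C * ‖u - u'‖ + 0) := by rw [one_mul]; exact h1
      _ ≤ _ := by rw [add_zero]; gcongr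
  have e2 : |2 * π * (‖v - u‖ - ‖v - u'‖) * f0 X z v| ≤ 2 * π * ‖u - u'‖ * C := by
    rw [abs_mul, abs_mul, abs_of_nonneg h3, abs_of_pos (by positivity : 0 < 2 * π)]
    gcongr
  calc _ ≤ |(1 - d1) * (gsR (f0 X z) v u - gsR (f0 X z) v u')|
        + |2 * π * (‖v - u‖ - ‖v - u'‖) * f0 X z v| := abs_sub _ _
    _ ≤ _ := by linarith

/-! ### facts at a point without the true fuel -/

theorem lamd_half {d a : ℝ} (hd : 0 < d) (h : d ≤ |a|) : lamd (d / 2) a = 1 := by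
  unfold lamd
  have h1 : 1 ≤ |a| / (d / 2) - 1 := by
    rw [le_sub_iff_add_le, le_div_iff₀ (by positivity)]; linarith
  rw [min_eq_left h1, max_eq_right zero_le_one]

theorem ramp_one {r : ℝ} (h : r ≤ 1) : ramp r = 1 := by
  unfold ramp
  rw [min_eq_left (by linarith), max_eq_right zero_le_one]

theorem ramp_zero {r : ℝ} (h : 2 ≤ r) : ramp r = 0 := by
  unfold ramp
  rw [max_eq_left]
  exact (min_le_right _ _).trans (by linarith)

theorem ramp_nonneg (r : ℝ) : 0 ≤ ramp r := le_max_left _ _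
theorem ramp_le_one (r : ℝ) : ramp r ≤ 1 := max_le zero_le_one (min_le_left _ _)
theorem lamd_nonneg (d a : ℝ) : 0 ≤ lamd d a := le_max_left _ _
theorem lamd_le_one (d a : ℝ) : lamd d a ≤ 1 := max_le zero_le_one (min_le_left _ _)

theorem th_nonneg (X : XP) (Zs Vs : ℝ) (z : P2) (v : R3) : 0 ≤ th X Zs Vs z v :=
  mul_nonneg (mul_nonneg (ramp_nonneg _) (ramp_nonneg _)) (lamd_nonneg _ _)

theorem th_le_one (X : XP) (Zs Vs : ℝ) (z : P2) (v : R3) : th X Zs Vs z v ≤ 1 := by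
  unfold th
  exact mul_le_one₀ (mul_le_one₀ (ramp_le_one _) (ramp_nonneg _) (ramp_le_one _))
    (lamd_nonneg _ _) (lamd_le_one _ _)

theorem th_one {X : XP} {Zs Vs : ℝ} (hd : 0 < X.d) (hZ : 1 ≤ Zs) (hV : 1 ≤ Vs) {z : P2} {v : R3}
    (hz : ‖z‖ ≤ Zs) (hv : ‖v‖ ≤ Vs) (hv0 : X.d ≤ |v 0|) : th X Zs Vs z v = 1 := by
  unfold th
  rw [lamd_half hd hv0, ramp_one ((div_le_one (by linarith)).2 hz),
    ramp_one ((div_le_one (by linarith)).2 hv)]
  norm_num

/-- where `f0 = 0` also `L0 = 0` -/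
theorem L0_zero {X : XP} {z : P2} {v : R3} (h : f0 X z v = 0) : L0 X z v = 0 := by
  unfold L0
  split_ifs with ht
  · unfold f0 tentp at h
    rw [max_eq_right ht.le] at h
    rcases mul_eq_zero.1 h with h1 | h1
    · rcases mul_eq_zero.1 h1 with h2 | h2
      · exact absurd h2 ht.ne'
      · have h3 : max 0 (1 - z.1 ^ 2 / X.B ^ 2) = 0 := by
          unfold cutB at h2
          exact pow_eq_zero_iff (two_ne_zero) |>.1 h2
        rw [h2, h3]; ring
    · rw [h1]; ring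
  · rfl

theorem ws_eq (X : XP) (d1 ρ s : ℝ) (z : P2) (v : R3) :
    ws X d1 ρ s z v = ρ * GG X d1 z v (us z.2 s) := rfl

/-- `(K/t) ky Σ chs G(us) = t⁻¹ Σ chs ws` and the `f0`-inequality give the pointwise inequality
for the ideal fuel -/
theorem ideal_low {X : XP} {d1 Zs Vs K k t c1 c2 N : ℝ} {z : P2} {v : R3} (hd1 : d1 ≤ 1)
    (hK : 0 ≤ K) (hk : 0 ≤ k) (ht : 0 < t) (hc1 : 0 ≤ c1) (hc2 : 0 ≤ c2)
    (hnn : ∀ z v, 0 ≤ f0 X z v)
    (hth : f0 X z v ≠ 0 → th X Zs Vs z v = 1)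
    (hf : 193 / 200 * N * f0 X z v ≤ L0 X z v
        + 197 / 400 * (ws X d1 (K * k) 1 z v + ws X d1 (K * k) (-1) z v)) :
    193 / 200 * N / t * f0 X z v ≤ t⁻¹ * L0 X z v
      - (c1 - 197 / 400) * (t⁻¹ * th X Zs Vs z v * ws X d1 (K * k) 1 z v)
      - (c2 - 197 / 400) * (t⁻¹ * th X Zs Vs z v * ws X d1 (K * k) (-1) z v)
      + K / t * k * (c1 * GG X d1 z v (us z.2 1) + c2 * GG X d1 z v (us z.2 (-1))) := by
  have ht' : 0 < t⁻¹ := inv_pos.2 ht
  by_cases h0 : f0 X z v = 0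
  · have hL := L0_zero h0
    have hG : ∀ u, 0 ≤ GG X d1 z v u := by
      intro u
      unfold GG
      rw [h0, mul_zero, sub_zero]
      exact mul_nonneg (by linarith) (gsR_nonneg (hnn z) v u)
    have hw : ∀ s, 0 ≤ ws X d1 (K * k) s z v := fun s => by
      rw [ws_eq]; exact mul_nonneg (mul_nonneg hK hk) (hG _)
    have e : ∀ s, K / t * k * GG X d1 z v (us z.2 s) = t⁻¹ * ws X d1 (K * k) s z v := fun s => by
      rw [ws_eq]; field_simp
    have h1 := th_nonneg X Zs Vs z v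
    have h2 := th_le_one X Zs Vs z v
    rw [h0, hL]
    have e3 : K / t * k * (c1 * GG X d1 z v (us z.2 1) + c2 * GG X d1 z v (us z.2 (-1)))
        = c1 * (t⁻¹ * ws X d1 (K * k) 1 z v) + c2 * (t⁻¹ * ws X d1 (K * k) (-1) z v) := by
      rw [← e, ← e]; ring
    rw [e3]
    have k1 : 0 ≤ t⁻¹ * ws X d1 (K * k) 1 z v := mul_nonneg ht'.le (hw 1)
    have k2 : 0 ≤ t⁻¹ * ws X d1 (K * k) (-1) z v := mul_nonneg ht'.le (hw (-1))
    have k3 : c1 * (th X Zs Vs z v) * (t⁻¹ * ws X d1 (K * k) 1 z v) ≤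
        c1 * 1 * (t⁻¹ * ws X d1 (K * k) 1 z v) := by gcongr
    have k4 : c2 * (th X Zs Vs z v) * (t⁻¹ * ws X d1 (K * k) (-1) z v) ≤
        c2 * 1 * (t⁻¹ * ws X d1 (K * k) (-1) z v) := by gcongr
    have k5 : 0 ≤ th X Zs Vs z v * (t⁻¹ * ws X d1 (K * k) 1 z v) := mul_nonneg h1 k1
    have k6 : 0 ≤ th X Zs Vs z v * (t⁻¹ * ws X d1 (K * k) (-1) z v) := mul_nonneg h1 k2
    nlinarith
  · rw [hth h0]
    have e : ∀ s, K / t * k * GG X d1 z v (us z.2 s) = t⁻¹ * ws X d1 (K * k) s z v := fun s => by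
      rw [ws_eq]; field_simp
    have e3 : K / t * k * (c1 * GG X d1 z v (us z.2 1) + c2 * GG X d1 z v (us z.2 (-1)))
        = c1 * (t⁻¹ * ws X d1 (K * k) 1 z v) + c2 * (t⁻¹ * ws X d1 (K * k) (-1) z v) := by
      rw [← e, ← e]; ring
    rw [e3]
    have h5 := mul_le_mul_of_nonneg_left hf ht'.le
    have e4 : 193 / 200 * N / t * f0 X z v = t⁻¹ * (193 / 200 * N * f0 X z v) := by field_simp
    rw [e4]
    linarith


/-- the true fuel against `GG` -/
theorem fuel_GG {P : Par} (hP : P.Ok) {X : XP} {C0 : ℝ} (hF : F0Ok X C0) {d1 : ℝ} (hd0 : 0 ≤ d1)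
    (hd1 : d1 ≤ 1) (Z : ℝ) (hZ : 1 ≤ Z) :
    ∃ t0 C : ℝ, 0 < t0 ∧ 0 ≤ C ∧ ∀ t, 0 < t → t ≤ t0 → ∀ x : P2, ‖x‖ ≤ Z * t → ∀ v,
      P.K / t * ky P (t⁻¹ • x).2 * (chs P 1 (lab P t x) * GG X d1 (t⁻¹ • x) v (us (t⁻¹ • x).2 1)
        + chs P (-1) (lab P t x) * GG X d1 (t⁻¹ • x) v (us (t⁻¹ • x).2 (-1))) - C * (1 + ‖v‖)
      ≤ ∫ u, phi P t x u * GG X d1 (t⁻¹ • x) v u := by
  obtain ⟨t0, C, ht0, hC, h⟩ := fuel_near hP Z hZ
  have hC0 := hF.C1
  have hpi := Real.pi_pos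
  have hY := hP.Y0
  refine ⟨t0, C * (34 * π * C0 * (P.Y + 4)), ht0, by positivity, fun t ht htt x hx v => ?_⟩
  have h2 := (h t ht htt x hx).2 (fun u => GG X d1 (t⁻¹ • x) v u) (6 * π * C0 * (‖v‖ + (P.Y + 3)))
    (10 * π * C0 + 8 * π * C0 * (‖v‖ + (P.Y + 3))) ?_ ?_ ?_
  · have e1 : (t⁻¹ • x).2 = x.2 / t := by simp [div_eq_inv_mul]
    rw [e1]
    have h3 := (abs_le.1 h2).1
    have h4 : C * (6 * π * C0 * (‖v‖ + (P.Y + 3)) + (10 * π * C0 + 8 * π * C0 * (‖v‖ + (P.Y + 3)))) ≤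
        C * (34 * π * C0 * (P.Y + 4)) * (1 + ‖v‖) := by
      have hv := norm_nonneg v
      have e5 : 6 * π * C0 * (‖v‖ + (P.Y + 3)) + (10 * π * C0 + 8 * π * C0 * (‖v‖ + (P.Y + 3)))
          ≤ 34 * π * C0 * (P.Y + 4) * (1 + ‖v‖) := by
        have e6 : 0 ≤ π * C0 := by positivity
        have e7 : 6 * (‖v‖ + (P.Y + 3)) + (10 + 8 * (‖v‖ + (P.Y + 3))) ≤ 34 * (P.Y + 4) * (1 + ‖v‖) := by
          nlinarith [mul_nonneg hY.le hv]
        calc _ = π * C0 * (6 * (‖v‖ + (P.Y + 3)) + (10 + 8 * (‖v‖ + (P.Y + 3)))) := by ring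
          _ ≤ π * C0 * (34 * (P.Y + 4) * (1 + ‖v‖)) := mul_le_mul_of_nonneg_left e7 e6
          _ = _ := by ring
      calc _ ≤ C * (34 * π * C0 * (P.Y + 4) * (1 + ‖v‖)) := mul_le_mul_of_nonneg_left e5 hC
        _ = _ := by ring
    linarith
  · unfold GG
    exact ((measurable_gsR_u (mf0 X _) v).const_mul _).sub (by fun_prop)
  · intro u hu
    exact GG_bound hF hd0 hd1 _ v u hu
  · intro u u' hu hu'
    exact GG_lip hF hd0 hd1 _ v u u' hu'

set_option maxHeartbeats 1000000 in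
/-- LOWER, pointwise (`corr_small` as a hypothesis) -/
theorem _root_.Crest.Agent.R68.X2.pw_low_of {X : XP} {P : Par} {Y ey N d1 Zs Vs Cg C' C0 : ℝ} (h : LowOK X P Y ey N d1 Zs Vs)
    (hF : F0Ok X C0) (hCg : 0 ≤ Cg)
    (hcs : ∃ t0 C : ℝ, 0 < t0 ∧ 0 ≤ C ∧ ∀ t, 0 < t → t ≤ t0 → ∀ x v,
      |corr X P d1 Zs Vs t x v| ≤ C * t ^ 2 ∧
      (corr X P d1 Zs Vs t x v ≠ 0 → ‖t⁻¹ • x‖ ≤ 2 * Zs ∧ ‖v‖ ≤ 2 * Vs))
    (hf : ∀ (z : P2) (v : R3) (k : ℝ), 0 ≤ k → k ≤ 1 → (|z.2| ≤ X.Yp → k = 1) →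
      (Y ≤ |z.2| → k = 0) →
      193 / 200 * N * f0 X z v ≤ L0 X z v
        + 197 / 400 * (ws X d1 (P.K * k) 1 z v + ws X d1 (P.K * k) (-1) z v)) :
    ∃ t0 C : ℝ, 0 < t0 ∧ 0 ≤ C ∧ ∀ t, 0 < t → t ≤ t0 → ∀ (x : P2) (v : R3),
      ENNReal.ofReal (-(Lg X P d1 Zs Vs C' t x v))
        + Lc (phiE P t x) v * ENNReal.ofReal (gL X P d1 Zs Vs Cg t x v)
        + ENNReal.ofReal (193 / 200 * N / t) * psiE X t x v
        + ENNReal.ofReal d1 * GA (phiE P) (psiE X) t x v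
      ≤ ENNReal.ofReal (Lg X P d1 Zs Vs C' t x v)
        + GA (phiE P) (fun t x v => ENNReal.ofReal (gL X P d1 Zs Vs Cg t x v)) t x v
        + ENNReal.ofReal (C * (if ‖x‖ ≤ C * t then (1 + ‖v‖) else 0)) := by
  have hP := h.ok
  have hZs := h.Zs1
  have hVs := h.Vs1
  have hY := hP.Y0
  have hpi := Real.pi_pos
  have hC0 := hF.C1
  obtain ⟨t1, ht1, hall⟩ := fuel_all hP
  obtain ⟨t2, C2, ht2, hC2, hGG⟩ := fuel_GG hP hF h.d10.le h.d11.le (8 * Zs) (by linarith)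
  obtain ⟨t3, C3, ht3, hC3, hcorr⟩ := hcs
  have hK := hP.K0
  set E : ℝ := C2 + |C'| + P.K * 6 * π * (P.Y + 3) * (C3 + Cg) with hE
  have hE0 : 0 ≤ E := by positivity
  refine ⟨min (min t1 t2) (min t3 1), E + 8 * Zs, lt_min (lt_min ht1 ht2) (lt_min ht3 one_pos),
    by linarith, fun t ht htt x v => ?_⟩
  have htt1 : t ≤ t1 := htt.trans ((min_le_left _ _).trans (min_le_left _ _))
  have htt2 : t ≤ t2 := htt.trans ((min_le_left _ _).trans (min_le_right _ _))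
  have htt3 : t ≤ t3 := htt.trans ((min_le_right _ _).trans (min_le_left _ _))
  have htt4 : t ≤ 1 := htt.trans ((min_le_right _ _).trans (min_le_right _ _))
  obtain ⟨hsup, hfin⟩ := hall t ht htt1 x
  have hfin' : ∫⁻ u, phiE P t x u ≠ ⊤ := (hfin.trans_lt ENNReal.ofReal_lt_top).ne
  have ht' : 0 < t⁻¹ := inv_pos.2 ht
  have hnz : ‖t⁻¹ • x‖ = ‖x‖ / t := by
    rw [norm_smul, Real.norm_eq_abs, abs_of_pos ht', div_eq_inv_mul]
  have hthf : ∀ w, f0 X (t⁻¹ • x) w ≠ 0 → th X Zs Vs (t⁻¹ • x) w = 1 := fun w hw =>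
    th_one h.d0 hZs hVs (h.supp _ _ hw).1 (h.supp _ _ hw).2 (hF.d _ _ hw)
  by_cases hx : 8 * Zs * t < ‖x‖
  · -- far from the origin everything vanishes
    have hz : 8 * Zs < ‖t⁻¹ • x‖ := by rw [hnz, lt_div_iff₀ ht]; exact hx
    have hf0 : ∀ w, f0 X (t⁻¹ • x) w = 0 := by
      intro w
      by_contra hw
      have := (h.supp _ _ hw).1
      linarith
    have hcor : ∀ w, corr X P d1 Zs Vs t x w = 0 := by
      intro w
      by_contra hw
      have := ((hcorr t ht htt3 x w).2 hw).1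
      linarith
    have hg : ∀ w, gL X P d1 Zs Vs Cg t x w = 0 := by
      intro w
      unfold gL psi0
      rw [hf0, hcor, ramp_zero (r := ‖t⁻¹ • x‖ / (2 * Zs))]
      · ring
      · rw [le_div_iff₀ (by linarith)]; linarith
    have hth0 : th X Zs Vs (t⁻¹ • x) v = 0 := by
      unfold th
      rw [ramp_zero (r := ‖t⁻¹ • x‖ / Zs)]
      · ring
      · rw [le_div_iff₀ (by linarith)]; linarith
    have hL : Lg X P d1 Zs Vs C' t x v = 0 := by
      unfold Lg osc nearI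
      rw [hth0, L0_zero (hf0 v), if_neg]
      · ring
      · rintro ⟨h1, -⟩
        nlinarith
    have hpsi : ∀ w, psiE X t x w = 0 := fun w => by
      unfold psiE psi0; rw [hf0]; simp
    have hGA : GA (phiE P) (psiE X) t x v = 0 := by
      unfold GA gsE
      simp [hpsi]
    rw [hL, hg, hpsi, hGA]
    simp
  push Not at hx
  -- real quantities
  set z := t⁻¹ • x with hz
  have hk0 : 0 ≤ ky P z.2 := Fuel.ky_nonneg P _
  have hk1 : ky P z.2 ≤ 1 := Fuel.ky_le_one P _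
  have hky1 : |z.2| ≤ X.Yp → ky P z.2 = 1 := by
    intro hh
    have h1 := h.tent.Ypd
    unfold ky
    rw [h.YP, h.eyP]
    have h2 : 1 ≤ (Y - |z.2|) / ey := by
      rw [le_div_iff₀ h.tent.ey0]; linarith
    rw [min_eq_left h2, max_eq_right zero_le_one]
  have hky0 : Y ≤ |z.2| → ky P z.2 = 0 := by
    intro hh
    unfold ky
    rw [h.YP, h.eyP]
    have h2 : (Y - |z.2|) / ey ≤ 0 := div_nonpos_of_nonpos_of_nonneg (by linarith) h.tent.ey0.le
    rw [max_eq_left]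
    exact (min_le_right _ _).trans h2
  have hchs : ∀ s a, 0 ≤ chs P s a := fun s a => Crest.Agent.R68.X.chs_nonneg P s a
  have hid := ideal_low (Zs := Zs) (Vs := Vs) (c1 := chs P 1 (lab P t x)) (c2 := chs P (-1) (lab P t x))
    h.d11.le hK hk0 ht (hchs _ _) (hchs _ _) hF.nn (hthf v)
    (hf z v (ky P z.2) hk0 hk1 hky1 hky0)
  have hGG' := hGG t ht htt2 x hx v
  -- the real integrals
  set I1 : ℝ := ∫ u, phi P t x u * gsR (f0 X z) v u with hI1
  set I2 : ℝ := ∫ u, phi P t x u * (2 * π * ‖v - u‖) with hI2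
  have hsupB : ∀ u, phi P t x u ≠ 0 → ‖u‖ ≤ P.Y + 2 := fun u hu => (hsup u hu).1
  have hgsb : ∀ u, phi P t x u ≠ 0 → gsR (f0 X z) v u ≤ 4 * π * (‖v‖ + (P.Y + 2)) * C0 := by
    intro u hu
    refine (gsR_le_const (mf0 X z) (hF.nn z) (hF.le z) v u).trans ?_
    have := norm_sub_le v u
    have := hsupB u hu
    gcongr
    linarith
  have hint1 : Integrable fun u => phi P t x u * gsR (f0 X z) v u :=
    integrable_phi_mul hP (measurable_gsR_u (mf0 X z) v)
      (fun u hu => by rw [abs_of_nonneg (gsR_nonneg (hF.nn z) v u)]; exact hgsb u hu) hfin'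
  have hint2 : Integrable fun u => phi P t x u * (2 * π * ‖v - u‖) := by
    refine integrable_phi_mul hP (B := 2 * π * (‖v‖ + (P.Y + 2))) (by fun_prop) (fun u hu => ?_) hfin'
    rw [abs_of_nonneg (by positivity)]
    have := norm_sub_le v u
    have := hsupB u hu
    gcongr
    linarith
  have hGGint : ∫ u, phi P t x u * GG X d1 z v u = (1 - d1) * I1 - f0 X z v * I2 := by
    rw [hI1, hI2, ← integral_const_mul, ← integral_const_mul, ← integral_sub]
    · refine integral_congr_ae (Eventually.of_forall fun u => ?_)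
      simp only [GG]; ring
    · exact hint1.const_mul _
    · exact hint2.const_mul _
  have hI1n : 0 ≤ I1 := integral_nonneg fun u =>
    mul_nonneg (Fuel.phi_nonneg hP t x u) (gsR_nonneg (hF.nn z) v u)
  have hI2n : 0 ≤ I2 := integral_nonneg fun u =>
    mul_nonneg (Fuel.phi_nonneg hP t x u) (by positivity)
  have hI2le : I2 ≤ P.K / t * (2 * π * (‖v‖ + (P.Y + 2))) := by
    have hle : ∀ u, phi P t x u * (2 * π * ‖v - u‖) ≤ phi P t x u * (2 * π * (‖v‖ + (P.Y + 2))) := by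
      intro u
      by_cases hu : phi P t x u = 0
      · rw [hu]; simp
      · have h1 := norm_sub_le v u
        have h2 := hsupB u hu
        have h3 := Fuel.phi_nonneg hP t x u
        gcongr
        linarith
    have hip := integrable_phi hP hfin'
    have h1 : ∫ u, phi P t x u ≤ P.K / t := by
      have h2 := ofReal_integral_eq_lintegral_ofReal hip
        (Eventually.of_forall fun u => Fuel.phi_nonneg hP t x u)
      have h3 : ENNReal.ofReal (∫ u, phi P t x u) ≤ ENNReal.ofReal (P.K / t) := by rw [h2]; exact hfin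
      exact (ENNReal.ofReal_le_ofReal_iff (by positivity)).1 h3
    calc I2 ≤ ∫ u, phi P t x u * (2 * π * (‖v‖ + (P.Y + 2))) :=
          integral_mono hint2 (hip.mul_const _) hle
      _ = (∫ u, phi P t x u) * (2 * π * (‖v‖ + (P.Y + 2))) := integral_mul_const _ _
      _ ≤ _ := by gcongr
  have hI2t : t ^ 2 * I2 ≤ P.K * 2 * π * (P.Y + 3) * (1 + ‖v‖) := by
    have hv := norm_nonneg v
    calc t ^ 2 * I2 ≤ t ^ 2 * (P.K / t * (2 * π * (‖v‖ + (P.Y + 2)))) := by gcongr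
      _ = t * (P.K * 2 * π * (‖v‖ + (P.Y + 2))) := by field_simp
      _ ≤ 1 * (P.K * 2 * π * ((P.Y + 3) * (1 + ‖v‖))) := by
          gcongr
          nlinarith [mul_nonneg hY.le hv]
      _ = _ := by ring
  have hLc := Lc_phi hP hsupB hfin' v
  have hGAψ : GA (phiE P) (psiE X) t x v = ENNReal.ofReal I1 := by
    unfold GA
    rw [hI1, ← lint_phi_ofReal hP (measurable_gsR_u (mf0 X z) v)
      (gsR_nonneg (hF.nn z) v) hgsb hfin']
    refine lintegral_congr fun u => ?_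
    congr 1
    exact gsE_ofReal (mf0 X z) (hF.nn z) (hF.le z) v u
  -- comparison of gL and psi0
  have hcl : ∀ w, |corr X P d1 Zs Vs t x w| ≤ C3 * t ^ 2 := fun w => (hcorr t ht htt3 x w).1
  have hr0 : ∀ w : R3, 0 ≤ ramp (‖t⁻¹ • x‖ / (2 * Zs)) * ramp (‖w‖ / (2 * Vs)) := fun w =>
    mul_nonneg (ramp_nonneg _) (ramp_nonneg _)
  have hr1 : ∀ w : R3, ramp (‖t⁻¹ • x‖ / (2 * Zs)) * ramp (‖w‖ / (2 * Vs)) ≤ 1 := fun w =>
    mul_le_one₀ (ramp_le_one _) (ramp_nonneg _) (ramp_le_one _)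
  have hg1 : ∀ w, gL X P d1 Zs Vs Cg t x w ≤ f0 X z w + (C3 + Cg) * t ^ 2 := by
    intro w
    have h1 := (abs_le.1 (hcl w)).2
    have h2 : Cg * t ^ 2 * (ramp (‖t⁻¹ • x‖ / (2 * Zs)) * ramp (‖w‖ / (2 * Vs))) ≤ Cg * t ^ 2 * 1 :=
      mul_le_mul_of_nonneg_left (hr1 w) (by positivity)
    unfold gL psi0
    linarith
  have hg2 : ∀ w, f0 X z w ≤ gL X P d1 Zs Vs Cg t x w + C3 * t ^ 2 := by
    intro w
    have h1 := (abs_le.1 (hcl w)).1
    have h2 : 0 ≤ Cg * t ^ 2 * (ramp (‖t⁻¹ • x‖ / (2 * Zs)) * ramp (‖w‖ / (2 * Vs))) :=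
      mul_nonneg (by positivity) (hr0 w)
    unfold gL psi0
    linarith
  have hGAle : ENNReal.ofReal I1 ≤
      GA (phiE P) (fun t x v => ENNReal.ofReal (gL X P d1 Zs Vs Cg t x v)) t x v
        + ENNReal.ofReal (2 * C3 * (t ^ 2 * I2)) := by
    rw [← hGAψ]
    have h1 : ∀ u, gsE (psiE X t x) v u ≤
        gsE (fun w => ENNReal.ofReal (gL X P d1 Zs Vs Cg t x w)) v u
          + ENNReal.ofReal (2 * π * ‖v - u‖) * ENNReal.ofReal (2 * C3 * t ^ 2) := by
      intro u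
      have h2 : gsE (psiE X t x) v u ≤ gsE (fun w => ENNReal.ofReal (gL X P d1 Zs Vs Cg t x w)
          + ENNReal.ofReal (C3 * t ^ 2)) v u := by
        refine gsE_mono (fun w => ?_) v u
        unfold psiE psi0
        exact (ENNReal.ofReal_le_ofReal (hg2 w)).trans ENNReal.ofReal_add_le
      refine h2.trans ?_
      rw [gsE_add (measurable_gL_slice X P d1 Zs Vs Cg t x).ennreal_ofReal measurable_const, gsE_const]
      refine add_le_add_right ?_ _
      rw [← ENNReal.ofReal_mul (by positivity), ← ENNReal.ofReal_mul (by positivity)]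
      refine ENNReal.ofReal_le_ofReal (le_of_eq ?_)
      ring
    unfold GA
    calc ∫⁻ u, phiE P t x u * gsE (psiE X t x) v u
        ≤ ∫⁻ u, (phiE P t x u * gsE (fun w => ENNReal.ofReal (gL X P d1 Zs Vs Cg t x w)) v u
          + phiE P t x u * ENNReal.ofReal (2 * π * ‖v - u‖) * ENNReal.ofReal (2 * C3 * t ^ 2)) := by
          refine lintegral_mono fun u => ?_
          rw [mul_assoc, ← mul_add]
          exact mul_le_mul_right (h1 u) _
      _ = (∫⁻ u, phiE P t x u * gsE (fun w => ENNReal.ofReal (gL X P d1 Zs Vs Cg t x w)) v u)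
          + (∫⁻ u, phiE P t x u * ENNReal.ofReal (2 * π * ‖v - u‖)) *
            ENNReal.ofReal (2 * C3 * t ^ 2) := by
          have hm : Measurable fun u => phiE P t x u * ENNReal.ofReal (2 * π * ‖v - u‖) :=
            (measurable_phi_slice hP t x).ennreal_ofReal.mul (by fun_prop)
          rw [lintegral_add_right _ (hm.mul_const _), lintegral_mul_const _ hm]
      _ = _ := by
          have h3 : ∫⁻ u, phiE P t x u * ENNReal.ofReal (2 * π * ‖v - u‖) = ENNReal.ofReal I2 := by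
            rw [hI2]
            refine lint_phi_ofReal hP (B := 2 * π * (‖v‖ + (P.Y + 2))) (by fun_prop)
              (fun u => by positivity) (fun u hu => ?_) hfin'
            have := norm_sub_le v u
            have := hsupB u hu
            gcongr
            linarith
          rw [h3, ← ENNReal.ofReal_mul hI2n]
          congr 2
          ring
  -- the real inequality
  have hv := norm_nonneg v
  have hnI : C' * nearI Zs Vs t x v ≤ |C'| := by
    unfold nearI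
    split_ifs
    · rw [mul_one]; exact le_abs_self _
    · rw [mul_zero]; exact abs_nonneg _
  set Lgv := Lg X P d1 Zs Vs C' t x v with hLgv
  have hreal : 193 / 200 * N / t * f0 X z v ≤
      Lgv + |C'| + (1 - d1) * I1 - f0 X z v * I2 + C2 * (1 + ‖v‖) := by
    have e1 : Lgv = t⁻¹ * L0 X z v
      - (chs P 1 (lab P t x) - 197 / 400) *
        (t⁻¹ * th X Zs Vs z v * ws X d1 (P.K * ky P z.2) 1 z v)
      - (chs P (-1) (lab P t x) - 197 / 400) *
        (t⁻¹ * th X Zs Vs z v * ws X d1 (P.K * ky P z.2) (-1) z v)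
      - C' * nearI Zs Vs t x v := rfl
    rw [hGGint] at hGG'
    linarith
  have hN0 : 0 ≤ N := by linarith [h.tent.N1]
  have hf0v := hF.nn z v
  have hfinal : max (-Lgv) 0 + I2 * (f0 X z v + (C3 + Cg) * t ^ 2)
      + 193 / 200 * N / t * f0 X z v + d1 * I1 + 2 * C3 * (t ^ 2 * I2)
      ≤ max Lgv 0 + I1 + (E + 8 * Zs) * (1 + ‖v‖) := by
    have e1 : max (-Lgv) 0 = max Lgv 0 - Lgv := by
      rcases le_total 0 Lgv with h1 | h1
      · rw [max_eq_right (by linarith), max_eq_left h1]; ring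
      · rw [max_eq_left (by linarith), max_eq_right h1]; ring
    have e2 : I2 * ((C3 + Cg) * t ^ 2) + 2 * C3 * (t ^ 2 * I2) ≤
        3 * (C3 + Cg) * (P.K * 2 * π * (P.Y + 3) * (1 + ‖v‖)) := by
      calc I2 * ((C3 + Cg) * t ^ 2) + 2 * C3 * (t ^ 2 * I2) = (3 * C3 + Cg) * (t ^ 2 * I2) := by ring
        _ ≤ (3 * (C3 + Cg)) * (t ^ 2 * I2) := by
            apply mul_le_mul_of_nonneg_right _ (by positivity)
            linarith
        _ ≤ _ := mul_le_mul_of_nonneg_left hI2t (by positivity)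
    have e3 : |C'| ≤ |C'| * (1 + ‖v‖) := by nlinarith [abs_nonneg C']
    have e4 : 0 ≤ 8 * Zs * (1 + ‖v‖) := by positivity
    have e5 : (E + 8 * Zs) * (1 + ‖v‖) = C2 * (1 + ‖v‖) + |C'| * (1 + ‖v‖)
        + 3 * (C3 + Cg) * (P.K * 2 * π * (P.Y + 3) * (1 + ‖v‖)) + 8 * Zs * (1 + ‖v‖) := by
      rw [hE]; ring
    rw [e1, e5]
    have e6 : I2 * (f0 X z v + (C3 + Cg) * t ^ 2) = f0 X z v * I2 + I2 * ((C3 + Cg) * t ^ 2) := by
      ring
    rw [e6]
    linarith
  -- back to ENNReal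
  have hif : (if ‖x‖ ≤ (E + 8 * Zs) * t then (1 + ‖v‖) else 0) = 1 + ‖v‖ := by
    rw [if_pos]
    calc ‖x‖ ≤ 8 * Zs * t := hx
      _ ≤ (E + 8 * Zs) * t := by gcongr; linarith
  rw [hif, hLc, hGAψ]
  have hpsi : psiE X t x v = ENNReal.ofReal (f0 X z v) := rfl
  rw [hpsi]
  have hmx : ∀ r : ℝ, ENNReal.ofReal r = ENNReal.ofReal (max r 0) := fun r => by
    rcases le_total 0 r with h1 | h1
    · rw [max_eq_left h1]
    · rw [max_eq_right h1, ENNReal.ofReal_of_nonpos h1]; simp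
  have hb : ENNReal.ofReal (2 * C3 * (t ^ 2 * I2)) ≠ ⊤ := ENNReal.ofReal_ne_top
  have hmain : ENNReal.ofReal (-Lgv) + ENNReal.ofReal I2 * ENNReal.ofReal (gL X P d1 Zs Vs Cg t x v)
      + ENNReal.ofReal (193 / 200 * N / t) * ENNReal.ofReal (f0 X z v)
      + ENNReal.ofReal d1 * ENNReal.ofReal I1 + ENNReal.ofReal (2 * C3 * (t ^ 2 * I2))
      ≤ ENNReal.ofReal Lgv + ENNReal.ofReal I1 + ENNReal.ofReal ((E + 8 * Zs) * (1 + ‖v‖)) := by
    calc _ ≤ ENNReal.ofReal (max (-Lgv) 0)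
          + ENNReal.ofReal (I2 * (f0 X z v + (C3 + Cg) * t ^ 2))
          + ENNReal.ofReal (193 / 200 * N / t * f0 X z v)
          + ENNReal.ofReal (d1 * I1) + ENNReal.ofReal (2 * C3 * (t ^ 2 * I2)) := by
          rw [ENNReal.ofReal_mul hI2n, ENNReal.ofReal_mul (by positivity : 0 ≤ 193 / 200 * N / t),
            ENNReal.ofReal_mul h.d10.le, ← hmx]
          gcongr
          exact hg1 v
      _ = ENNReal.ofReal (max (-Lgv) 0 + I2 * (f0 X z v + (C3 + Cg) * t ^ 2)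
          + 193 / 200 * N / t * f0 X z v + d1 * I1 + 2 * C3 * (t ^ 2 * I2)) := by
          have a1 : 0 ≤ max (-Lgv) 0 := le_max_right _ _
          have a2 : 0 ≤ I2 * (f0 X z v + (C3 + Cg) * t ^ 2) := by positivity
          have a3 : 0 ≤ 193 / 200 * N / t * f0 X z v := by positivity
          have a4 : 0 ≤ d1 * I1 := mul_nonneg h.d10.le hI1n
          have a5 : 0 ≤ 2 * C3 * (t ^ 2 * I2) := by positivity
          rw [ENNReal.ofReal_add (by positivity) a5, ENNReal.ofReal_add (by positivity) a4,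
            ENNReal.ofReal_add (by positivity) a3, ENNReal.ofReal_add a1 a2]
      _ ≤ ENNReal.ofReal (max Lgv 0 + I1 + (E + 8 * Zs) * (1 + ‖v‖)) :=
          ENNReal.ofReal_le_ofReal hfinal
      _ = _ := by
          have a1 : 0 ≤ max Lgv 0 := le_max_right _ _
          have a3 : 0 ≤ (E + 8 * Zs) * (1 + ‖v‖) := by positivity
          rw [ENNReal.ofReal_add (by positivity) a3, ENNReal.ofReal_add a1 hI1n, ← hmx]
  have hmain2 : ENNReal.ofReal (-Lgv) + ENNReal.ofReal I2 * ENNReal.ofReal (gL X P d1 Zs Vs Cg t x v)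
      + ENNReal.ofReal (193 / 200 * N / t) * ENNReal.ofReal (f0 X z v)
      + ENNReal.ofReal d1 * ENNReal.ofReal I1 + ENNReal.ofReal (2 * C3 * (t ^ 2 * I2))
      ≤ ENNReal.ofReal Lgv + GA (phiE P) (fun t x v => ENNReal.ofReal (gL X P d1 Zs Vs Cg t x v)) t x v
        + ENNReal.ofReal ((E + 8 * Zs) * (1 + ‖v‖)) + ENNReal.ofReal (2 * C3 * (t ^ 2 * I2)) := by
    refine hmain.trans ?_
    calc _ ≤ ENNReal.ofReal Lgv
          + (GA (phiE P) (fun t x v => ENNReal.ofReal (gL X P d1 Zs Vs Cg t x v)) t x v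
            + ENNReal.ofReal (2 * C3 * (t ^ 2 * I2)))
          + ENNReal.ofReal ((E + 8 * Zs) * (1 + ‖v‖)) := by gcongr
      _ = _ := by ring
  exact (ENNReal.add_le_add_iff_right hb).1 hmain2

end Crest.Agent.R68.X2.PL
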