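import Crest.Agent.R68.XDefs2
import Crest.Agent.R68.XSph2

/-!
# Row 68, PART X2 (helper944): the near Harnack inequality `har_near`
-/

set_option autoImplicit false
open MeasureTheory Set Filter
open scoped ENNReal Real Topology
open Crest.AnalysisR.VecCalc3 Crest.AnalysisR.PDE.Boltzmann

noncomputable section

namespace Crest.Agent.R68.X2.Har

open Crest.Agent.R68.XSph

theorem gsR_eq_smean {f : R3 → ℝ} (hf : Continuous f) (v u : R3) :
    gsR f v u = 2 * π * ‖v - u‖ * (2 * smean f v u) :=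
  XSph.gainT_eq_smean hf.measurable v u (XSph.integrable_pt_of_continuous hf v u)

theorem gsR_nonneg {f : R3 → ℝ} (hf : ∀ w, 0 ≤ f w) (v u : R3) : 0 ≤ gsR f v u :=
  integral_nonneg fun _ => mul_nonneg (abs_nonneg _) (add_nonneg (hf _) (hf _))

theorem pow6 {x a : ℝ} (hx : 0 ≤ x) (ha : 0 ≤ a) (ha1 : a ≤ 10021 / 10000) :
    2 / 7 * (x + a) ^ 6 ≤ x ^ 6 + 563 := by
  have hx' : x / (78 / 100) ∈ Ici (0 : ℝ) := by simp only [mem_Ici]; positivity
  have ha' : a / (22 / 100) ∈ Ici (0 : ℝ) := by simp only [mem_Ici]; positivity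
  have h := (convexOn_pow (𝕜 := ℝ) 6).2 hx' ha' (by norm_num : (0 : ℝ) ≤ 78 / 100)
    (by norm_num : (0 : ℝ) ≤ 22 / 100) (by norm_num)
  simp only [smul_eq_mul] at h
  have e1 : 78 / 100 * (x / (78 / 100)) + 22 / 100 * (a / (22 / 100)) = x + a := by ring
  rw [e1] at h
  have h2 : a ^ 6 ≤ (10021 / 10000) ^ 6 := pow_le_pow_left₀ ha ha1 6
  have h3 : 0 ≤ x ^ 6 := by positivity
  have e2 : 78 / 100 * (x / (78 / 100)) ^ 6 = 78 / 100 / (78 / 100) ^ 6 * x ^ 6 := by ring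
  have e3 : 22 / 100 * (a / (22 / 100)) ^ 6 = 22 / 100 / (22 / 100) ^ 6 * a ^ 6 := by ring
  rw [e2, e3] at h
  have h4 : (2 : ℝ) / 7 * (78 / 100 / (78 / 100) ^ 6) ≤ 1 := by norm_num
  have h5 : (2 : ℝ) / 7 * (22 / 100 / (22 / 100) ^ 6) * (10021 / 10000) ^ 6 ≤ 563 := by norm_num
  calc 2 / 7 * (x + a) ^ 6
      ≤ 2 / 7 * (78 / 100 / (78 / 100) ^ 6 * x ^ 6 + 22 / 100 / (22 / 100) ^ 6 * a ^ 6) := by
        gcongr
    _ = 2 / 7 * (78 / 100 / (78 / 100) ^ 6) * x ^ 6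
        + 2 / 7 * (22 / 100 / (22 / 100) ^ 6) * a ^ 6 := by ring
    _ ≤ 1 * x ^ 6 + 2 / 7 * (22 / 100 / (22 / 100) ^ 6) * (10021 / 10000) ^ 6 := by
        gcongr
    _ ≤ _ := by linarith

theorem continuous_abs_coord (i : Fin 3) : Continuous fun w : R3 => |w i| := by fun_prop

theorem continuous_hh (C2 : ℝ) : Continuous (hh C2) := by unfold hh; fun_prop

theorem abs_coord_le (w : R3) (i : Fin 3) : |w i| ≤ ‖w‖ := by
  have := PiLp.norm_apply_le w i
  simpa using this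

/-- expansion of the mean of the weight -/
theorem smean_hh (C2 : ℝ) (q p : R3) :
    smean (hh C2) q p = 1 + C2 * smean (fun w => |w 1|) q p + smean (fun w => ‖w‖ ^ 12) q p := by
  have h1 : Continuous fun w : R3 => C2 * |w 1| := by fun_prop
  have h2 : Continuous fun w : R3 => 1 + C2 * |w 1| := by fun_prop
  have h3 : Continuous fun w : R3 => ‖w‖ ^ 12 := by fun_prop
  have e1 := smean_add (g := fun w : R3 => 1 + C2 * |w 1|) (h := fun w : R3 => ‖w‖ ^ 12) q p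
    (integrable_pt_of_continuous h2 q p) (integrable_pt_of_continuous h3 q p)
  have e2 := smean_add (g := fun _ => 1) (h := fun w : R3 => C2 * |w 1|) q p
    (integrable_pt_of_continuous (continuous_const (y := (1 : ℝ))) q p)
    (integrable_pt_of_continuous h1 q p)
  have e3 := smean_const_mul C2 (fun w : R3 => |w 1|) q p
  rw [smean_const] at e2
  rw [← e3, ← e2, ← e1]
  rfl

theorem smean_abs_le_norm (q p : R3) : smean (fun w => |w 1|) q p ≤ ‖q‖ + ‖p‖ :=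
  smean_le_const q p (integrable_pt_of_continuous (continuous_abs_coord 1) q p)
    fun _ hs => (abs_coord_le _ _).trans (norm_pt_le hs)

/-- the mean of `|w₁|` -/
theorem mean_abs (q p : R3) :
    ‖q - p‖ * (2 * smean (fun w => |w 1|) q p - |q 1|) ≤
      (‖q - p‖ - |q 1|) ^ 2 / 2 + |q 1| * |p 1| + |p 1| ^ 2 / 2 + ‖q - p‖ * |p 1| := by
  have hab : |q 1 + p 1| ≤ |q 1| + |p 1| := abs_add_le _ _
  rcases eq_or_ne q p with rfl | hne
  · simp only [sub_self, norm_zero, zero_mul]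
    positivity
  · have hd : 0 < ‖q - p‖ := norm_pos_iff.2 (sub_ne_zero.2 hne)
    rcases le_total |q 1 + p 1| ‖q - p‖ with h | h
    · rw [smean_abs_coord hne h]
      have e : ‖q - p‖ * (2 * ((‖q - p‖ ^ 2 + (q 1 + p 1) ^ 2) / (4 * ‖q - p‖)) - |q 1|) =
          (‖q - p‖ ^ 2 + (q 1 + p 1) ^ 2) / 2 - ‖q - p‖ * |q 1| := by
        field_simp
        ring
      rw [e, ← sq_abs (q 1 + p 1)]
      have h1 : |q 1 + p 1| ^ 2 ≤ (|q 1| + |p 1|) ^ 2 := pow_le_pow_left₀ (abs_nonneg _) hab 2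
      have h2 : 0 ≤ ‖q - p‖ * |p 1| := by positivity
      nlinarith
    · rw [smean_abs_coord_out h]
      have h1 : ‖q - p‖ * (2 * (|q 1 + p 1| / 2) - |q 1|) ≤ ‖q - p‖ * |p 1| := by
        gcongr
        linarith
      have h2 : 0 ≤ (‖q - p‖ - |q 1|) ^ 2 / 2 + |q 1| * |p 1| + |p 1| ^ 2 / 2 := by positivity
      linarith

/-! ### fractions of the sphere -/

theorem integral_ind {a b c d : ℝ} (hab : a ≤ b) (hcd : c ≤ d) :
    ∫ t in c..d, (Icc a b).indicator (fun _ => (1 : ℝ)) t ≤ b - a := by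
  rw [intervalIntegral.integral_of_le hcd, integral_indicator measurableSet_Icc,
    setIntegral_const, smul_eq_mul, mul_one]
  have h : (volume.restrict (Ioc c d)).real (Icc a b) ≤ volume.real (Icc a b) := by
    apply ENNReal.toReal_mono (by simp)
    exact Measure.restrict_apply_le _ _
  refine h.trans ?_
  rw [Real.volume_real_Icc_of_le hab]

theorem integral_ind_ge {a b c d : ℝ} (hab : a ≤ b) (hca : c < a) (hbd : b ≤ d) :
    b - a ≤ ∫ t in c..d, (Icc a b).indicator (fun _ => (1 : ℝ)) t := by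
  rw [intervalIntegral.integral_of_le (by linarith), integral_indicator measurableSet_Icc,
    setIntegral_const, smul_eq_mul, mul_one, Measure.real, Measure.restrict_apply measurableSet_Icc]
  have e : Icc a b ∩ Ioc c d = Icc a b := by
    apply inter_eq_left.2
    intro t ht
    exact ⟨lt_of_lt_of_le hca ht.1, ht.2.trans hbd⟩
  rw [e, Real.volume_Icc, ENNReal.toReal_ofReal (by linarith)]

/-- mean of the indicator of a coordinate slab -/
theorem smean_slab {q p : R3} (hd : 0 < ‖q - p‖) (i : Fin 3) (a b : ℝ) :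
    smean (fun w => (Icc a b).indicator (fun _ => (1 : ℝ)) (w i)) q p =
      (∫ t in ((q i + p i) / 2 - ‖q - p‖ / 2)..((q i + p i) / 2 + ‖q - p‖ / 2),
        (Icc a b).indicator (fun _ => (1 : ℝ)) t) / ‖q - p‖ := by
  rw [smean_coord q p i (fun t => (Icc a b).indicator (fun _ => (1 : ℝ)) t)
    (measurable_const.indicator measurableSet_Icc)]
  have h := intervalIntegral.integral_comp_add_mul (a := -1) (b := 1)
    (fun t => (Icc a b).indicator (fun _ => (1 : ℝ)) t)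
    (c := ‖q - p‖ / 2) (by positivity) ((q i + p i) / 2)
  rw [h]
  have e1 : (q i + p i) / 2 + ‖q - p‖ / 2 * -1 = (q i + p i) / 2 - ‖q - p‖ / 2 := by ring
  have e2 : (q i + p i) / 2 + ‖q - p‖ / 2 * 1 = (q i + p i) / 2 + ‖q - p‖ / 2 := by ring
  rw [e1, e2, smul_eq_mul]
  field_simp

theorem smean_slab_le {q p : R3} (hd : 0 < ‖q - p‖) (i : Fin 3) {a b : ℝ} (hab : a ≤ b) :
    smean (fun w => (Icc a b).indicator (fun _ => (1 : ℝ)) (w i)) q p ≤ (b - a) / ‖q - p‖ := by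
  rw [smean_slab hd]
  gcongr
  exact integral_ind hab (by linarith)

theorem smean_slab_ge {q p : R3} (hd : 0 < ‖q - p‖) (i : Fin 3) {a b : ℝ} (hab : a ≤ b)
    (h1 : (q i + p i) / 2 - ‖q - p‖ / 2 < a) (h2 : b ≤ (q i + p i) / 2 + ‖q - p‖ / 2) :
    (b - a) / ‖q - p‖ ≤ smean (fun w => (Icc a b).indicator (fun _ => (1 : ℝ)) (w i)) q p := by
  rw [smean_slab hd]
  gcongr
  exact integral_ind_ge hab h1 h2

theorem integrable_slab (q p : R3) (i : Fin 3) (a b : ℝ) :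
    Integrable (fun s => (Icc a b).indicator (fun _ => (1 : ℝ)) (pt q p s i)) sphereMeasure := by
  refine integrable_pt_of_bounded (g := fun w : R3 => (Icc a b).indicator (fun _ => (1 : ℝ)) (w i))
    ?_ q p (C := 1) ?_
  · exact (measurable_const.indicator measurableSet_Icc).comp (by fun_prop)
  · intro w _
    simp only [indicator]
    split_ifs <;> simp

/-- lower bound of the mean of a function which is large on a slab, away from `|w₀|` small -/
theorem mean_lower {F : R3 → ℝ} (hF : Continuous F) (hF0 : ∀ w, 0 ≤ F w) {q p : R3}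
    (hd : 0 < ‖q - p‖) {a b c δ : ℝ} (hc : 0 ≤ c) (hδ : 0 ≤ δ) (hab : a ≤ b)
    (h1 : (q 1 + p 1) / 2 - ‖q - p‖ / 2 < a) (h2 : b ≤ (q 1 + p 1) / 2 + ‖q - p‖ / 2)
    (hb : ∀ w : R3, ‖w‖ ≤ ‖q‖ + ‖p‖ → a ≤ w 1 → w 1 ≤ b → δ ≤ |w 0| → c ≤ F w) :
    4 * π * c * (b - a - 2 * δ) ≤ gsR F q p := by
  rw [gsR_eq_smean hF]
  have key : smean (fun w => c * ((Icc a b).indicator (fun _ => (1 : ℝ)) (w 1)
      - (Icc (-δ) δ).indicator (fun _ => (1 : ℝ)) (w 0))) q p ≤ smean F q p := by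
    refine smean_mono q p ?_ (integrable_pt_of_continuous hF q p) fun s hs => ?_
    · exact ((integrable_slab q p 1 a b).sub (integrable_slab q p 0 (-δ) δ)).const_mul c
    · by_cases hw : pt q p s 1 ∈ Icc a b
      · rw [indicator_of_mem hw]
        by_cases hw0 : pt q p s 0 ∈ Icc (-δ) δ
        · rw [indicator_of_mem hw0]
          have := hF0 (pt q p s)
          simpa using this
        · rw [indicator_of_notMem hw0]
          have h3 : δ ≤ |pt q p s 0| := by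
            by_contra hcon
            push Not at hcon
            exact hw0 (abs_le.1 hcon.le)
          have := hb _ (norm_pt_le hs) hw.1 hw.2 h3
          simpa using this
      · rw [indicator_of_notMem hw]
        have h3 : 0 ≤ (Icc (-δ) δ).indicator (fun _ => (1 : ℝ)) (pt q p s 0) :=
          indicator_nonneg (fun _ _ => zero_le_one) _
        have := hF0 (pt q p s)
        nlinarith [mul_nonneg hc h3]
  rw [smean_const_mul, smean_sub q p (g := fun w => (Icc a b).indicator (fun _ => (1 : ℝ)) (w 1))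
    (h := fun w => (Icc (-δ) δ).indicator (fun _ => (1 : ℝ)) (w 0)) (integrable_slab q p 1 a b)
    (integrable_slab q p 0 (-δ) δ)] at key
  have h3 := smean_slab_ge hd 1 hab h1 h2
  have h4 := smean_slab_le (q := q) (p := p) hd 0 (a := -δ) (b := δ) (by linarith)
  have h5 : c * ((b - a) / ‖q - p‖ - (δ - -δ) / ‖q - p‖) ≤ smean F q p :=
    le_trans (mul_le_mul_of_nonneg_left (by linarith) hc) key
  have h6 : 4 * π * c * (b - a - 2 * δ) =
      2 * π * ‖q - p‖ * (2 * (c * ((b - a) / ‖q - p‖ - (δ - -δ) / ‖q - p‖))) := by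
    field_simp
    ring
  rw [h6]
  gcongr

/-! ### the three cases -/

/-- large `q` -/
theorem case_a {k0 Q1 ε1 : ℝ} (hk0 : 6000 ≤ k0) (hQ : 9600 * k0 ≤ Q1 ^ 11) (hQ4 : 4 ≤ Q1)
    (h0 : 0 ≤ ε1) (hε : ε1 ≤ 1 / 1000) {q p : R3} (hq : Q1 ≤ ‖q‖) (hp : ‖p‖ ≤ 1 + ε1) :
    (1 + ε1) * (2 * smean (hh (1200 * k0)) q p) ≤ hh (1200 * k0) q := by
  rw [smean_hh]
  have hS := smean_abs_le_norm q p
  have hT := smean_norm_pow12_le q p
  set r := ‖q‖ with hr
  have hr4 : 4 ≤ r := hQ4.trans hq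
  have hp0 : 0 ≤ ‖p‖ := norm_nonneg p
  have h1 : 9600 * k0 ≤ r ^ 11 := hQ.trans (pow_le_pow_left₀ (by linarith) hq 11)
  have hS2 : smean (fun w => |w 1|) q p ≤ 5 / 4 * r + 1 / 1000 := by linarith
  have h2 : r ^ 2 + ‖p‖ ^ 2 ≤ 107 / 100 * r ^ 2 := by nlinarith
  have h3 : (r ^ 2 + ‖p‖ ^ 2) ^ 6 ≤ (107 / 100 * r ^ 2) ^ 6 :=
    pow_le_pow_left₀ (by positivity) h2 6
  have e3 : (107 / 100 * r ^ 2) ^ 6 = (107 / 100) ^ 6 * r ^ 12 := by ring
  rw [e3] at h3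
  have hr12 : (4 : ℝ) ^ 12 ≤ r ^ 12 := pow_le_pow_left₀ (by norm_num) hr4 12
  have h4 : 1200 * k0 * smean (fun w => |w 1|) q p ≤ 1200 * k0 * (126 / 100 * r) := by
    apply mul_le_mul_of_nonneg_left _ (by linarith)
    linarith
  have h5 : 9600 * k0 * r ≤ r ^ 12 := by
    have := mul_le_mul_of_nonneg_right h1 (by linarith : 0 ≤ r)
    calc 9600 * k0 * r ≤ r ^ 11 * r := this
      _ = r ^ 12 := by ring
  have h6 : 1 + 1200 * k0 * smean (fun w => |w 1|) q p + smean (fun w => ‖w‖ ^ 12) q p ≤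
      1 + 40 / 100 * r ^ 12 := by
    have h7 : smean (fun w => ‖w‖ ^ 12) q p ≤ (107 / 100) ^ 6 / 7 * r ^ 12 := by linarith
    have h8 : (107 / 100 : ℝ) ^ 6 / 7 ≤ 22 / 100 := by norm_num
    have h9 : (107 / 100 : ℝ) ^ 6 / 7 * r ^ 12 ≤ 22 / 100 * r ^ 12 := by gcongr
    linarith
  have h10 : (1 + ε1) * (2 * (1 + 1200 * k0 * smean (fun w => |w 1|) q p
      + smean (fun w => ‖w‖ ^ 12) q p)) ≤ (1 + 1 / 1000) * (2 * (1 + 40 / 100 * r ^ 12)) := by
    apply mul_le_mul (by linarith) (by linarith) _ (by norm_num)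
    have : 0 ≤ smean (fun w : R3 => |w 1|) q p := smean_nonneg (fun _ => abs_nonneg _) _ _
    have : 0 ≤ smean (fun w : R3 => ‖w‖ ^ 12) q p := smean_nonneg (fun _ => by positivity) _ _
    positivity
  refine h10.trans ?_
  have h11 : 0 ≤ 1200 * k0 * |q 1| := by positivity
  have h12 : hh (1200 * k0) q = 1 + 1200 * k0 * |q 1| + r ^ 12 := rfl
  rw [h12]
  have : (4 : ℝ) ^ 12 = 16777216 := by norm_num
  linarith

/-- `q` close to the cone `‖q - p‖ = |q₁|` -/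
theorem case_c {k0 Q1 κ ε1 M : ℝ} (hk0 : 6000 ≤ k0) (hQ4 : 4 ≤ Q1) (hκ : 0 < κ)
    (hκ1 : κ ≤ 1 / 6000) (hκ2 : 6000 * k0 * κ ^ 2 ≤ 1) (h0 : 0 ≤ ε1) (hε : ε1 ≤ 1 / 1000)
    (hεκ : ε1 ≤ κ) (hM0 : 0 ≤ M) (hεM : (Q1 + 2) * ε1 * M ≤ 1 / 20)
    (hεk : 1200 * k0 * ((2 * Q1 + 3) * ε1) ≤ 1 / 20)
    {q p : R3} (hq : ‖q‖ ≤ Q1) (hp : ‖p‖ ≤ 1 + ε1) (hp1 : |p 1| ≤ ε1)
    (hd : ‖q - p‖ ≤ |q 1| + κ) (hM : 2 * smean (hh (1200 * k0)) q p ≤ M) :
    k0 * (‖q - p‖ * ((1 + ε1) * (2 * smean (hh (1200 * k0)) q p) - hh (1200 * k0) q)) ≤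
      1200 * k0 * |q 1| + k0 / 2 * hh (1200 * k0) q := by
  set d := ‖q - p‖ with hdd
  have hd0 : 0 ≤ d := norm_nonneg _
  have hdQ : d ≤ Q1 + 2 := by
    have : d ≤ ‖q‖ + ‖p‖ := norm_sub_le _ _
    linarith
  have hq1 : |q 1| ≤ Q1 := (abs_coord_le q 1).trans hq
  have hq1d : |q 1| ≤ d + ε1 := by
    have h1 : |(q - p) 1| ≤ d := abs_coord_le _ _
    have h2 : |q 1| ≤ |(q - p) 1| + |p 1| := by
      have := abs_add_le ((q - p) 1) (p 1)
      simpa using this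
    linarith
  have hA := mean_abs q p
  rw [← hdd] at hA
  have hT := smean_norm_pow12_le q p
  have hP := pow6 (x := ‖q‖ ^ 2) (a := ‖p‖ ^ 2) (by positivity) (by positivity) (by
    have := norm_nonneg p
    nlinarith)
  have e12 : (‖q‖ ^ 2) ^ 6 = ‖q‖ ^ 12 := by ring
  rw [e12] at hP
  have hT2 : 2 * smean (fun w => ‖w‖ ^ 12) q p ≤ ‖q‖ ^ 12 + 563 := by linarith
  have h12 : hh (1200 * k0) q = 1 + 1200 * k0 * |q 1| + ‖q‖ ^ 12 := rfl
  -- the main part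
  have h1 : d * (2 * smean (hh (1200 * k0)) q p - hh (1200 * k0) q) ≤
      564 * d + 1200 * k0 * ((d - |q 1|) ^ 2 / 2 + |q 1| * |p 1| + |p 1| ^ 2 / 2 + d * |p 1|) := by
    rw [smean_hh, h12]
    have h2 : d * (2 + 2 * smean (fun w => ‖w‖ ^ 12) q p - 1 - ‖q‖ ^ 12) ≤ d * 564 := by
      apply mul_le_mul_of_nonneg_left _ hd0
      linarith
    have h3 := mul_le_mul_of_nonneg_left hA (by linarith : 0 ≤ 1200 * k0)
    calc _ = d * (2 + 2 * smean (fun w => ‖w‖ ^ 12) q p - 1 - ‖q‖ ^ 12) +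
          1200 * k0 * (d * (2 * smean (fun w => |w 1|) q p - |q 1|)) := by ring
      _ ≤ _ := by linarith
  have h2 : (d - |q 1|) ^ 2 ≤ κ ^ 2 := by
    apply sq_le_sq'
    · linarith
    · linarith
  have h3 : |q 1| * |p 1| ≤ Q1 * ε1 := mul_le_mul hq1 hp1 (abs_nonneg _) (by linarith)
  have h4 : |p 1| ^ 2 / 2 ≤ ε1 := by
    have : |p 1| ^ 2 ≤ ε1 ^ 2 := pow_le_pow_left₀ (abs_nonneg _) hp1 2
    nlinarith
  have h5 : d * |p 1| ≤ (Q1 + 2) * ε1 := mul_le_mul hdQ hp1 (abs_nonneg _) (by linarith)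
  have h6 : (d - |q 1|) ^ 2 / 2 + |q 1| * |p 1| + |p 1| ^ 2 / 2 + d * |p 1| ≤
      κ ^ 2 / 2 + (2 * Q1 + 3) * ε1 := by linarith
  have h7 := mul_le_mul_of_nonneg_left h6 (by linarith : 0 ≤ 1200 * k0)
  have h8 : d * (ε1 * (2 * smean (hh (1200 * k0)) q p)) ≤ 1 / 20 := by
    calc d * (ε1 * (2 * smean (hh (1200 * k0)) q p)) ≤ d * (ε1 * M) := by gcongr
      _ ≤ (Q1 + 2) * (ε1 * M) := by gcongr
      _ ≤ 1 / 20 := by linarith
  have h9 : d * ((1 + ε1) * (2 * smean (hh (1200 * k0)) q p) - hh (1200 * k0) q) ≤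
      1200 * |q 1| + 1 / 2 := by
    have e : d * ((1 + ε1) * (2 * smean (hh (1200 * k0)) q p) - hh (1200 * k0) q) =
        d * (2 * smean (hh (1200 * k0)) q p - hh (1200 * k0) q) +
          d * (ε1 * (2 * smean (hh (1200 * k0)) q p)) := by ring
    rw [e]
    have := abs_nonneg (q 1)
    linarith
  have h10 : 1 ≤ hh (1200 * k0) q := by
    rw [h12]
    have : 0 ≤ 1200 * k0 * |q 1| := by positivity
    have : 0 ≤ ‖q‖ ^ 12 := by positivity
    linarith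
  calc _ ≤ k0 * (1200 * |q 1| + 1 / 2) := by gcongr
    _ = 1200 * k0 * |q 1| + k0 / 2 * 1 := by ring
    _ ≤ _ := by gcongr

theorem continuous_F (A Yp e y : ℝ) {dc : ℝ} :
    Continuous fun w : R3 => tentp A Yp e y w * lamd dc (w 0) := by
  unfold tentp tent lamd
  fun_prop

theorem F_nonneg (A Yp e y dc : ℝ) (w : R3) : 0 ≤ tentp A Yp e y w * lamd dc (w 0) :=
  mul_nonneg (le_max_left _ _) (le_max_left _ _)

theorem lamd_one {dc a : ℝ} (hdc : 0 < dc) (h : 2 * dc ≤ |a|) : lamd dc a = 1 := by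
  have h1 : 1 ≤ |a| / dc - 1 := by
    rw [le_sub_iff_add_le, le_div_iff₀ hdc]
    linarith
  unfold lamd
  rw [min_eq_left h1]
  norm_num

theorem tent_aux {A Yp Y ey e κ ε1 y w : ℝ} (h6 : (1 + A) * Yp = (1 + A) * Y - (1 + A) * ey)
    (h7 : 1 ≤ (1 + A) * Yp) (hey : (1 + A) * ey ≤ e / 10) (h8 : e ≤ κ / 576)
    (hεA : (1 + A) * ε1 ≤ κ / 32) (hκ : 0 < κ) (hκ1 : κ ≤ 1 / 6000)
    (h11 : (1 + A) * y ≤ (1 + A) * (Y + ε1)) (h12 : 0 ≤ (1 + A) * y) (hw1 : -(7 * κ / 16) ≤ w)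
    (hw2 : w ≤ -(κ / 4)) : |(1 + A) * y + w| ≤ (1 + A) * Yp - κ / 8 := by
  rw [mul_add (1 + A) Y ε1] at h11
  generalize (1 + A) * y = a1 at *
  generalize (1 + A) * Yp = a2 at *
  generalize (1 + A) * Y = a3 at *
  generalize (1 + A) * ey = a4 at *
  generalize (1 + A) * ε1 = a5 at *
  rw [abs_le]
  constructor <;> linarith

/-- the tent is seen -/
theorem case_d {A Yp Y ey e : ℝ} (hA : 0 ≤ A) (hYp : Yp = Y - ey) (hey : (1 + A) * ey ≤ e / 10)
    (he0 : 0 < e) (he1 : e ≤ 1 / 100000) (he2 : 600 / e ≤ (1 + A) * Yp)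
    {Q1 κ ε1 : ℝ} (hQ4 : 4 ≤ Q1) (hκ : 0 < κ) (hκ1 : κ ≤ 1 / 6000)
    (he : 16 * e * (Q1 + 2) ^ 2 ≤ κ) (hεκ : ε1 ≤ κ / 32) (hεA : (1 + A) * ε1 ≤ κ / 32)
    {dc : ℝ} (hdc : 0 < dc) (hdc1 : dc ≤ κ / 64) {q p : R3} (hq : ‖q‖ ≤ Q1) (hp : ‖p‖ ≤ 1 + ε1)
    (hp1 : |p 1| ≤ ε1) (hd : |q 1| + κ ≤ ‖q - p‖) {y : ℝ} (hy : |y| ≤ Y + ε1) :
    π * κ ^ 2 / 32 ≤ gsR (fun w => tentp A Yp e y w * lamd dc (w 0)) q p := by
  have hd0 : 0 < ‖q - p‖ := by
    have := abs_nonneg (q 1)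
    linarith
  obtain ⟨hq1, hq2⟩ := abs_le.1 (le_refl |q 1|)
  obtain ⟨hp2, hp3⟩ := abs_le.1 hp1
  obtain ⟨hy1, hy2⟩ := abs_le.1 hy
  have h6 : (1 + A) * Yp = (1 + A) * Y - (1 + A) * ey := by rw [hYp]; ring
  have h7 : 1 ≤ (1 + A) * Yp := by
    refine le_trans ?_ he2
    rw [le_div_iff₀ he0]
    linarith
  have h8 : e ≤ κ / 576 := by
    have : (6 : ℝ) ^ 2 ≤ (Q1 + 2) ^ 2 := pow_le_pow_left₀ (by norm_num) (by linarith) 2
    have h9 : 16 * e * 6 ^ 2 ≤ 16 * e * (Q1 + 2) ^ 2 := by gcongr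
    linarith
  have hw2 : ∀ w : R3, ‖w‖ ≤ ‖q‖ + ‖p‖ → e * ‖w‖ ^ 2 ≤ κ / 16 := by
    intro w hw
    have h9 : ‖w‖ ^ 2 ≤ (Q1 + 2) ^ 2 := pow_le_pow_left₀ (norm_nonneg _) (by linarith) 2
    have h10 : e * ‖w‖ ^ 2 ≤ e * (Q1 + 2) ^ 2 := by gcongr
    linarith
  have hfin : ∀ w : R3, 2 * dc ≤ |w 0| → κ / 16 ≤ tent A Yp e y w →
      κ / 16 ≤ tentp A Yp e y w * lamd dc (w 0) := by
    intro w hw0 ht
    rw [lamd_one hdc hw0, mul_one]
    exact ht.trans (le_max_right _ _)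
  have hA1 : 0 < 1 + A := by linarith
  have hbnd : 4 * π * (κ / 16) * (κ / 8) = π * κ ^ 2 / 32 := by ring
  rcases le_total 0 y with hy0 | hy0
  · have h1 := mean_lower (F := fun w => tentp A Yp e y w * lamd dc (w 0))
      (continuous_F A Yp e y) (F_nonneg A Yp e y dc) hd0 (a := -(7 * κ / 16)) (b := -(κ / 4))
      (c := κ / 16) (δ := 2 * dc) (by positivity) (by positivity) (by linarith) (by linarith)
      (by linarith) (by
        intro w hw hw1 hw2' hw0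
        apply hfin w hw0
        unfold tent
        have h9 := hw2 w hw
        have h10 : |(1 + A) * y + w 1| ≤ (1 + A) * Yp - κ / 8 := by
          have h11 : (1 + A) * y ≤ (1 + A) * (Y + ε1) := mul_le_mul_of_nonneg_left hy2 hA1.le
          have h12 : 0 ≤ (1 + A) * y := by positivity
          exact tent_aux h6 h7 hey h8 hεA hκ hκ1 h11 h12 hw1 hw2'
        linarith)
    refine le_trans ?_ h1
    rw [← hbnd]
    gcongr
    linarith
  · have h1 := mean_lower (F := fun w => tentp A Yp e y w * lamd dc (w 0))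
      (continuous_F A Yp e y) (F_nonneg A Yp e y dc) hd0 (a := κ / 4) (b := 7 * κ / 16)
      (c := κ / 16) (δ := 2 * dc) (by positivity) (by positivity) (by linarith) (by linarith)
      (by linarith) (by
        intro w hw hw1 hw2' hw0
        apply hfin w hw0
        unfold tent
        have h9 := hw2 w hw
        have h10 : |(1 + A) * y + w 1| ≤ (1 + A) * Yp - κ / 8 := by
          have h11 : (1 + A) * (-y) ≤ (1 + A) * (Y + ε1) :=
            mul_le_mul_of_nonneg_left (by linarith) hA1.le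
          have h12 : 0 ≤ (1 + A) * (-y) := by
            apply mul_nonneg hA1.le
            linarith
          have h13 := tent_aux (w := -w 1) h6 h7 hey h8 hεA hκ hκ1 h11 h12 (by linarith)
            (by linarith)
          have e : (1 + A) * -y + -w 1 = -((1 + A) * y + w 1) := by ring
          rwa [e, abs_neg] at h13
        linarith)
    refine le_trans ?_ h1
    rw [← hbnd]
    gcongr
    linarith

theorem norm_us0 {s : ℝ} (hs : s = 1 ∨ s = -1) : ‖us 0 s‖ = 1 := by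
  unfold us
  rw [EuclideanSpace.norm_eq]
  rcases hs with rfl | rfl <;> simp [Fin.sum_univ_three]

theorem near_p {p : R3} {s ε1 : ℝ} (hs : s = 1 ∨ s = -1) (h : ‖p - us 0 s‖ ≤ ε1) :
    ‖p‖ ≤ 1 + ε1 ∧ |p 1| ≤ ε1 := by
  constructor
  · have h1 : ‖p‖ ≤ ‖p - us 0 s‖ + ‖us 0 s‖ := by
      have := norm_add_le (p - us 0 s) (us 0 s)
      simpa using this
    rw [norm_us0 hs] at h1
    linarith
  · have h1 := abs_coord_le (p - us 0 s) 1
    have h2 : (p - us 0 s) 1 = p 1 := by simp [us]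
    rw [h2] at h1
    exact h1.trans h

/-- **near inequality**, explicit hypotheses -/
theorem har_near_core {A Yp Y ey e : ℝ} (hA : 0 ≤ A) (hYp : Yp = Y - ey)
    (hey : (1 + A) * ey ≤ e / 10) (he0 : 0 < e) (he1 : e ≤ 1 / 100000)
    (he2 : 600 / e ≤ (1 + A) * Yp) {k0 Q1 κ : ℝ} (hk0 : 6000 ≤ k0)
    (hQ : 9600 * k0 ≤ Q1 ^ 11) (hQ4 : 4 ≤ Q1) (hκ : 0 < κ) (hκ1 : κ ≤ 1 / 6000)
    (hκ2 : 6000 * k0 * κ ^ 2 ≤ 1) (he : 16 * e * (Q1 + 2) ^ 2 ≤ κ) :
    ∃ ε1 d0 : ℝ, 0 < ε1 ∧ 0 < d0 ∧ ∀ d, 0 < d → d ≤ d0 → ∃ C : ℝ, 0 ≤ C ∧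
      ∀ (q p : R3) (y s : ℝ), (s = 1 ∨ s = -1) → ‖p - us 0 s‖ ≤ ε1 → |y| ≤ Y + ε1 →
        k0 * ((1 + ε1) / (2 * π) * gsR (hh (1200 * k0)) q p - ‖q - p‖ * hh (1200 * k0) q) ≤
          1200 * k0 * |q 1| + k0 / 2 * hh (1200 * k0) q
            + C * gsR (fun w => tentp A Yp e y w * lamd d (w 0)) q p := by
  set M : ℝ := 2 * (1 + 1200 * k0 * (Q1 + 2) + (Q1 ^ 2 + 4) ^ 6 / 7) with hM
  have hk : 0 < k0 := by linarith
  have hM0 : 0 < M := by positivity
  have hA1 : 0 < 1 + A := by linarith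
  set ε1 : ℝ := min (min (1 / 1000) (κ / 32)) (min (κ / 32 / (1 + A))
    (min (1 / 20 / ((Q1 + 2) * M)) (1 / 20 / (1200 * k0 * (2 * Q1 + 3))))) with hε
  have hε0 : 0 < ε1 := by
    have : 0 < (Q1 + 2) * M := by positivity
    have : 0 < 1200 * k0 * (2 * Q1 + 3) := by positivity
    rw [hε]
    refine lt_min (lt_min (by norm_num) (by positivity)) (lt_min (by positivity)
      (lt_min (by positivity) (by positivity)))
  have h1 : ε1 ≤ 1 / 1000 := (min_le_left _ _).trans (min_le_left _ _)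
  have h2 : ε1 ≤ κ / 32 := (min_le_left _ _).trans (min_le_right _ _)
  have h3 : (1 + A) * ε1 ≤ κ / 32 := by
    have : ε1 ≤ κ / 32 / (1 + A) := (min_le_right _ _).trans (min_le_left _ _)
    rw [le_div_iff₀ hA1] at this
    linarith
  have h4 : (Q1 + 2) * ε1 * M ≤ 1 / 20 := by
    have h : ε1 ≤ 1 / 20 / ((Q1 + 2) * M) :=
      (min_le_right _ _).trans ((min_le_right _ _).trans (min_le_left _ _))
    rw [le_div_iff₀ (by positivity)] at h
    linarith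
  have h5 : 1200 * k0 * ((2 * Q1 + 3) * ε1) ≤ 1 / 20 := by
    have h : ε1 ≤ 1 / 20 / (1200 * k0 * (2 * Q1 + 3)) :=
      (min_le_right _ _).trans ((min_le_right _ _).trans (min_le_right _ _))
    rw [le_div_iff₀ (by positivity)] at h
    linarith
  clear_value ε1
  refine ⟨ε1, κ / 64, hε0, by positivity, fun dc hdc hdc1 => ?_⟩
  refine ⟨k0 * ((Q1 + 2) * (2 * M)) / (π * κ ^ 2 / 32), by positivity, ?_⟩
  intro q p y s hs hps hy
  obtain ⟨hp, hp1⟩ := near_p hs hps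
  have hG := gsR_nonneg (F_nonneg A Yp e y dc) q p
  have hC0 : 0 ≤ k0 * ((Q1 + 2) * (2 * M)) / (π * κ ^ 2 / 32) := by positivity
  have hq1 : 0 ≤ 1200 * k0 * |q 1| := by positivity
  have hh0 : 0 ≤ hh (1200 * k0) q := by unfold hh; positivity
  have hsm0 : 0 ≤ smean (hh (1200 * k0)) q p := by
    apply smean_nonneg
    intro w
    unfold hh
    positivity
  have e1 : k0 * ((1 + ε1) / (2 * π) * gsR (hh (1200 * k0)) q p - ‖q - p‖ * hh (1200 * k0) q) =
      k0 * (‖q - p‖ * ((1 + ε1) * (2 * smean (hh (1200 * k0)) q p) - hh (1200 * k0) q)) := by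
    rw [gsR_eq_smean (continuous_hh _)]
    field_simp
  rw [e1]
  rcases le_total Q1 ‖q‖ with hq | hq
  · -- large `q`
    have h6 := case_a hk0 hQ hQ4 hε0.le h1 hq hp
    have h7 : k0 * (‖q - p‖ * ((1 + ε1) * (2 * smean (hh (1200 * k0)) q p)
        - hh (1200 * k0) q)) ≤ 0 := by
      apply mul_nonpos_of_nonneg_of_nonpos hk.le
      apply mul_nonpos_of_nonneg_of_nonpos (norm_nonneg _)
      linarith
    have h8 := mul_nonneg hC0 hG
    have h9 : 0 ≤ k0 / 2 * hh (1200 * k0) q := by positivity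
    linarith
  · have hMle : 2 * smean (hh (1200 * k0)) q p ≤ M := by
      rw [smean_hh, hM]
      have h6 : smean (fun w => |w 1|) q p ≤ Q1 + 2 := by
        have := smean_abs_le_norm q p
        linarith
      have h7 : smean (fun w => ‖w‖ ^ 12) q p ≤ (Q1 ^ 2 + 4) ^ 6 / 7 := by
        refine (smean_norm_pow12_le q p).trans ?_
        have h8 : ‖q‖ ^ 2 ≤ Q1 ^ 2 := pow_le_pow_left₀ (norm_nonneg _) hq 2
        have h9 : ‖p‖ ^ 2 ≤ 4 := by
          have := norm_nonneg p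
          nlinarith
        gcongr
      have h8 : 1200 * k0 * smean (fun w => |w 1|) q p ≤ 1200 * k0 * (Q1 + 2) := by gcongr
      linarith
    rcases le_total ‖q - p‖ (|q 1| + κ) with hd | hd
    · have h6 := case_c hk0 hQ4 hκ hκ1 hκ2 hε0.le h1 (by linarith) hM0.le h4 h5 hq hp hp1 hd hMle
      have h8 := mul_nonneg hC0 hG
      linarith
    · have h6 := case_d hA hYp hey he0 he1 he2 hQ4 hκ hκ1 he h2 h3 hdc hdc1 hq hp hp1 hd hy
      have h7 : k0 * ((Q1 + 2) * (2 * M)) ≤ k0 * ((Q1 + 2) * (2 * M)) / (π * κ ^ 2 / 32) *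
          gsR (fun w => tentp A Yp e y w * lamd dc (w 0)) q p := by
        calc k0 * ((Q1 + 2) * (2 * M))
            = k0 * ((Q1 + 2) * (2 * M)) / (π * κ ^ 2 / 32) * (π * κ ^ 2 / 32) := by
              field_simp
          _ ≤ _ := by gcongr
      have h8 : k0 * (‖q - p‖ * ((1 + ε1) * (2 * smean (hh (1200 * k0)) q p)
          - hh (1200 * k0) q)) ≤ k0 * ((Q1 + 2) * (2 * M)) := by
        have h9 : ‖q - p‖ ≤ Q1 + 2 := by
          have := norm_sub_le q p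
          linarith
        have h10 : (1 + ε1) * (2 * smean (hh (1200 * k0)) q p) - hh (1200 * k0) q ≤ 2 * M := by
          have : (1 + ε1) * (2 * smean (hh (1200 * k0)) q p) ≤ 2 * M := by
            apply mul_le_mul (by linarith) hMle (by positivity) (by norm_num)
          linarith
        apply mul_le_mul_of_nonneg_left _ hk.le
        calc ‖q - p‖ * ((1 + ε1) * (2 * smean (hh (1200 * k0)) q p) - hh (1200 * k0) q)
            ≤ ‖q - p‖ * (2 * M) := by gcongr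
          _ ≤ (Q1 + 2) * (2 * M) := by gcongr
      have h9 : 0 ≤ k0 / 2 * hh (1200 * k0) q := by positivity
      linarith

end Crest.Agent.R68.X2.Har

namespace Crest.Agent.R68.X2

/-- **near inequality** (XIface) -/
theorem har_near {N A Yp Y ey e : ℝ} (h : TentOK N A Yp Y ey e) {k0 Q1 κ : ℝ} (hk0 : 6000 ≤ k0)
    (hQ : 9600 * k0 ≤ Q1 ^ 11) (hQ4 : 4 ≤ Q1) (hκ : 0 < κ) (hκ1 : κ ≤ 1 / 6000)
    (hκ2 : 6000 * k0 * κ ^ 2 ≤ 1) (he : 16 * e * (Q1 + 2) ^ 2 ≤ κ) :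
    ∃ ε1 d0 : ℝ, 0 < ε1 ∧ 0 < d0 ∧ ∀ d, 0 < d → d ≤ d0 → ∃ C : ℝ, 0 ≤ C ∧
      ∀ (q p : R3) (y s : ℝ), (s = 1 ∨ s = -1) → ‖p - us 0 s‖ ≤ ε1 → |y| ≤ Y + ε1 →
        k0 * ((1 + ε1) / (2 * π) * gsR (hh (1200 * k0)) q p - ‖q - p‖ * hh (1200 * k0) q) ≤
          1200 * k0 * |q 1| + k0 / 2 * hh (1200 * k0) q
            + C * gsR (fun w => tentp A Yp e y w * lamd d (w 0)) q p := by
  have hA : 0 ≤ A := by
    have h1 := h.AN
    have h2 := h.N1
    linarith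
  exact Har.har_near_core hA h.Ypd h.eye h.e0 h.e1 h.e2 hk0 hQ hQ4 hκ hκ1 hκ2 he

end Crest.Agent.R68.X2
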