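import Crest.Agent.R68.X2PwOm
import Crest.Agent.R68.X2Har
import Crest.Agent.R68.X2Gs2
import Crest.Agent.R68.X2Fuel
import Crest.Agent.R68.X2Frame

/-!
# Row 68, PART X2: pointwise upper inequality of the Harnack weight, final form (helper211)
-/

set_option autoImplicit false
open MeasureTheory Set Filter
open scoped ENNReal Real
open Crest.AnalysisR.VecCalc3 Crest.AnalysisR.PDE.Boltzmann

noncomputable section

namespace Crest.Agent.R68.X2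

open Crest.Agent.R68.L (Den phiE Gf Dam TL sol)

/-- **UPPER (Harnack), pointwise** -/
theorem pw_Om {P : Par} (hP : P.Ok) {N A Yp ey e : ℝ} (h : TentOK N A Yp P.Y ey e)
    {Q1 κ : ℝ} (hk0 : 6000 ≤ 2 * π * P.K)
    (hQ : 9600 * (2 * π * P.K) ≤ Q1 ^ 11) (hQ4 : 4 ≤ Q1) (hκ : 0 < κ) (hκ1 : κ ≤ 1 / 6000)
    (hκ2 : 6000 * (2 * π * P.K) * κ ^ 2 ≤ 1) (he : 16 * e * (Q1 + 2) ^ 2 ≤ κ) :
    ∃ gp0 d0 : ℝ, 0 < gp0 ∧ 0 < d0 ∧ ∀ gp, 0 < gp → gp ≤ gp0 → ∃ B0 Z1 : ℝ, 1 ≤ B0 ∧ 1 ≤ Z1 ∧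
      ∀ B d, B0 ≤ B → 0 < d → d ≤ d0 →
      ∃ t0 C : ℝ, 0 < t0 ∧ 0 ≤ C ∧ ∀ t, 0 < t → t ≤ t0 → ∀ (x : P2) (v : R3),
      GA (phiE P) (OmE P.Y (1200 * (2 * π * P.K)) gp) t x v
      ≤ Lc (phiE P t x) v * OmE P.Y (1200 * (2 * π * P.K)) gp t x v
        + kap1 P.Y (1200 * (2 * π * P.K)) gp t x v + kap2 P.Y (1200 * (2 * π * P.K)) gp Z1 t x v
        + ENNReal.ofReal (π * P.K / t + C) * OmE P.Y (1200 * (2 * π * P.K)) gp t x v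
        + ENNReal.ofReal C * GA (phiE P) (psiP ⟨A, Yp, e, B, d⟩) t x v :=
  pw_Om_of hP h.Y1 hk0 (har_near h hk0 hQ hQ4 hκ hκ1 hκ2 he) har_crude har_far (fuel_all hP)
    (fun Z hZ => by
      obtain ⟨t0, C, ht0, hC, H⟩ := fuel_near hP Z hZ
      exact ⟨t0, C, ht0, hC, fun t ht htt x hx => (H t ht htt x hx).1⟩)
    (fun _ _ _ _ _ hx => Yc_near hx) (fun _ hY t x => abs_Yc_le hY t x)

end Crest.Agent.R68.X2
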