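import Crest.Agent.R68.X2Seed2

/-!
# Row 68, PART X2 (helper330): the core theorem: `SeedData` gives (X2)
-/

set_option autoImplicit false
open MeasureTheory Set Filter
open scoped Topology ENNReal
open Crest.AnalysisR.VecCalc3 Crest.AnalysisR.PDE.Boltzmann

noncomputable section

namespace Crest.Agent.R68.X2

open Crest.Agent.R68.L (Den phiE Gf Dam TL sol PerF WW WW_pos meas3_WW PerF_WW Mom X2Out)
open Crest.Agent.R68.A (Meas3)

/-- the weight `1 + |v|⁴` -/
def w4D : Den := fun _ _ v => ENNReal.ofReal (1 + ‖v‖ ^ 4)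

theorem meas3_w4D : Meas3 w4D := by unfold Meas3 w4D; fun_prop

theorem Mom_eq (h : Den) (t : ℝ) : Mom h t = MW w4D h t := rfl

section core

variable {P : Par} {g1 g2 T A1 A2 C d1 c1 : ℝ} {v0 : R3} {W g Ψp : Den}

/-- bounds of the functionals of a seed solution -/
theorem seed_bounds (S : SeedData P g1 g2 T A1 A2 C d1 c1 v0 W g Ψp) {τ : ℝ} (hτ : 0 < τ)
    {σ H : Den} (hH : SeedH P g1 g2 τ T σ H) (hσ1 : ∃ B : ℝ≥0∞, B ≠ ⊤ ∧ ∀ t ∈ Icc τ T, MW W σ t ≤ B) :
    ∃ B : ℝ, 0 ≤ B ∧ ∀ r ∈ Icc τ T, MW W H r ≤ ENNReal.ofReal B ∧ PW g H r ≤ ENNReal.ofReal B ∧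
      MW (GA (phiE P) Ψp) H r ≤ ENNReal.ofReal B ∧ PW g σ r ≤ ENNReal.ofReal B := by
  obtain ⟨A, hA, hHA⟩ := hH.bdd
  obtain ⟨B1, hB1, hfin⟩ := S.fin
  obtain ⟨B2', hB2, hσ⟩ := hσ1
  have hC := S.C0
  have hgW : ∀ t, 0 < t → t ≤ T → ∀ x v, g t x v ≤ ENNReal.ofReal (C * C) * W t x v := by
    intro t ht htT x v
    rw [ENNReal.ofReal_mul hC, mul_assoc]
    exact (S.gb t ht htT x v).trans (mul_le_mul' le_rfl (S.w4 t ht htT x v))
  have hm : ∀ r ∈ Icc τ T, MW W H r ≤ A * B1 := by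
    intro r hr
    have hr0 := hτ.trans_le hr.1
    refine (MW_mono_right hA (fun x v => hHA r hr0 hr.2 x v)).trans ?_
    exact mul_le_mul' le_rfl (hfin r hr0 hr.2)
  set Bt : ℝ≥0∞ := A * B1 + ENNReal.ofReal (C * C) * (A * B1) + ENNReal.ofReal (C / τ) * (A * B1)
    + ENNReal.ofReal (C * C) * B2' with hBt
  have hBt1 : Bt ≠ ⊤ := by
    have h1 : A * B1 ≠ ⊤ := ENNReal.mul_ne_top hA hB1
    refine ENNReal.add_ne_top.2 ⟨ENNReal.add_ne_top.2 ⟨ENNReal.add_ne_top.2 ⟨h1, ?_⟩, ?_⟩, ?_⟩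
    · exact ENNReal.mul_ne_top ENNReal.ofReal_ne_top h1
    · exact ENNReal.mul_ne_top ENNReal.ofReal_ne_top h1
    · exact ENNReal.mul_ne_top ENNReal.ofReal_ne_top hB2
  refine ⟨Bt.toReal, ENNReal.toReal_nonneg, fun r hr => ?_⟩
  have hr0 := hτ.trans_le hr.1
  rw [ENNReal.ofReal_toReal hBt1]
  refine ⟨?_, ?_, ?_, ?_⟩
  · refine (hm r hr).trans ?_
    rw [hBt, add_assoc, add_assoc]
    exact le_self_add
  · refine (PW_le_MW S.mW hH.mH S.pW hH.pH ENNReal.ofReal_ne_top (S.gs r hr0 hr.2)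
      (hgW r hr0 hr.2)).trans ?_
    refine (mul_le_mul' le_rfl (hm r hr)).trans ?_
    rw [hBt, add_assoc, add_comm (A * B1), add_assoc]
    exact le_self_add
  · have h1 : MW (GA (phiE P) Ψp) H r ≤ ENNReal.ofReal (C / r) * MW W H r :=
      MW_mono_left ENNReal.ofReal_ne_top (S.crude r hr0 hr.2)
    refine h1.trans ?_
    refine (mul_le_mul' (ENNReal.ofReal_le_ofReal
      (div_le_div_of_nonneg_left hC hτ hr.1)) (hm r hr)).trans ?_
    rw [hBt]
    exact le_add_right (le_add_self)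
  · refine (PW_le_MW S.mW hH.ms S.pW hH.ps ENNReal.ofReal_ne_top (S.gs r hr0 hr.2)
      (hgW r hr0 hr.2)).trans ?_
    refine (mul_le_mul' le_rfl (hσ r hr)).trans ?_
    rw [hBt]
    exact le_add_self

/-- **growth of the unit seed**, all constants independent of `τ` -/
theorem unit_growth (hP : P.Ok) (S : SeedData P g1 g2 T A1 A2 C d1 c1 v0 W g Ψp) :
    ∃ rho t0 : ℝ, 0 < rho ∧ 0 < t0 ∧ t0 ≤ T ∧ ∀ τ t1 : ℝ, 0 < τ → 4 * τ ≤ t1 → t1 ≤ t0 →
      (∀ t ∈ Icc τ t1, MW W (sol (phiE P) (seed1 v0 τ)) t ≤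
        ENNReal.ofReal rho * PW g (sol (phiE P) (seed1 v0 τ)) t) ∧
      (∀ s t, τ ≤ s → s ≤ t → t ≤ t1 → ENNReal.ofReal (1 / 2 * (t / s) ^ A1) *
        PW g (sol (phiE P) (seed1 v0 τ)) s ≤ PW g (sol (phiE P) (seed1 v0 τ)) t) ∧
      (ENNReal.ofReal τ * (ENNReal.ofReal c1 * ENNReal.ofReal (τ ^ 2) * V3 v0) ≤
        2 * PW g (sol (phiE P) (seed1 v0 τ)) (2 * τ)) ∧
      (∀ t ∈ Icc τ t1, PW g (sol (phiE P) (seed1 v0 τ)) t ≠ ⊤) ∧
      (∀ t ∈ Icc (t1 / 2) t1, MW W (sol (phiE P) (seed1 v0 τ)) t1 ≤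
        ENNReal.ofReal (2 ^ (A2 + C + C ^ 2)) * MW W (sol (phiE P) (seed1 v0 τ)) t) := by
  have hC := S.C0
  have hA2 := S.A20
  have hA12 := S.A12
  have hc1 := S.c10
  have hT0 := S.T0
  obtain ⟨rho, t0, h1, h2, h3, h4⟩ := ratio_enn A1 A2 C d1 (C / c1) hA2 hA12 hC S.d10
    (div_nonneg hC hc1.le)
  refine ⟨rho, min (min t0 T) (1 / (2 * C * rho + 1)), h1, lt_min (lt_min h2 hT0) (by positivity),
    (min_le_left _ _).trans (min_le_right _ _), ?_⟩
  intro τ t1 hτ hτt ht1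
  have ht1a : t1 ≤ t0 := ht1.trans ((min_le_left _ _).trans (min_le_left _ _))
  have ht1b : t1 ≤ T := ht1.trans ((min_le_left _ _).trans (min_le_right _ _))
  have ht1c : t1 ≤ 1 / (2 * C * rho + 1) := ht1.trans (min_le_right _ _)
  have hH := seedH_unit hP S.hg1 S.hg2 S.T1 S.Tg v0 hτ
  set σ : Den := seed1 v0 τ with hσdef
  set H : Den := sol (phiE P) σ with hHdef
  have hms := meas3_seed1 v0 τ
  -- the source
  have hs0 : ∀ (F : Den) (t : ℝ), (t ≤ τ ∨ 2 * τ ≤ t) → MW F σ t = 0 := fun F t h =>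
    MW_seed_zero h
  have hsW : ∀ t ∈ Icc τ T, MW W σ t ≤ ENNReal.ofReal C * ENNReal.ofReal (τ ^ 2) * V3 v0 := by
    intro t ht
    by_cases h : t ∈ Ioo τ (2 * τ)
    · exact MW_seed_le hτ h fun x v => S.sW t (hτ.trans_le ht.1) ht.2 x v
    · have h' : t ≤ τ ∨ 2 * τ ≤ t := by
        by_contra hc
        push Not at hc
        exact h hc
      rw [hs0 W t h']; exact zero_le
  have hsg : ∀ t ∈ Ioo τ (2 * τ), ENNReal.ofReal c1 * ENNReal.ofReal (τ ^ 2) * V3 v0 ≤ PW g σ t := by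
    intro t ht
    exact PW_seed_ge hτ ht fun x v => S.sg t (hτ.trans ht.1) (by linarith [ht.2]) x v
  have hrel : ∀ r ∈ Icc τ t1, MW W σ r ≤ ENNReal.ofReal (C / c1) * PW g σ r := by
    intro r hr
    by_cases h : r ∈ Ioo τ (2 * τ)
    · refine (hsW r ⟨hr.1, hr.2.trans ht1b⟩).trans ?_
      refine le_trans (le_of_eq ?_) (mul_le_mul' le_rfl (hsg r h))
      rw [← mul_assoc, ← mul_assoc, ← ENNReal.ofReal_mul (div_nonneg hC hc1.le),
        div_mul_cancel₀ _ hc1.ne']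
    · have h' : r ≤ τ ∨ 2 * τ ≤ r := by
        by_contra hc
        push Not at hc
        exact h hc
      rw [hs0 W r h']; exact zero_le
  have hVt : ENNReal.ofReal C * ENNReal.ofReal (τ ^ 2) * V3 v0 ≠ ⊤ :=
    ENNReal.mul_ne_top (ENNReal.mul_ne_top ENNReal.ofReal_ne_top ENNReal.ofReal_ne_top)
      (V3_ne_top v0)
  obtain ⟨B, hB0, hB⟩ := seed_bounds S hτ hH ⟨_, hVt, hsW⟩
  have hBt1 : ∀ r ∈ Icc τ t1, MW W H r ≤ ENNReal.ofReal B ∧ PW g H r ≤ ENNReal.ofReal B ∧
      MW (GA (phiE P) Ψp) H r ≤ ENNReal.ofReal B ∧ PW g σ r ≤ ENNReal.ofReal B :=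
    fun r hr => hB r ⟨hr.1, hr.2.trans ht1b⟩
  have hup : ∀ s t, τ ≤ s → s ≤ t → t ≤ t1 → MW W H t ≤ MW W H s + ∫⁻ r in Ioo s t,
      (ENNReal.ofReal (A2 / r + C) * MW W H r + ENNReal.ofReal C * MW (GA (phiE P) Ψp) H r
        + MW W σ r) := fun s t hs hst ht => S.up τ σ H hτ hH s t hs hst (ht.trans ht1b)
  have hlow : ∀ s t, τ ≤ s → s ≤ t → t ≤ t1 → PW g H s + ∫⁻ r in Ioo s t,
      (ENNReal.ofReal (A1 / r) * PW g H r + ENNReal.ofReal d1 * MW (GA (phiE P) Ψp) H r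
        + PW g σ r) ≤ PW g H t + ∫⁻ r in Ioo s t, ENNReal.ofReal C * MW W H r :=
    fun s t hs hst ht => S.low τ σ H hτ hH s t hs hst (ht.trans ht1b)
  have hm0 : MW W H τ = 0 := by
    unfold MW
    simp [hH.zero τ le_rfl]
  have hmm := measurable_MW S.mW hH.mH
  have hmp := measurable_PW S.mg hH.mH
  have hmg := measurable_MW S.mG hH.mH
  obtain ⟨r1, r2⟩ := h4 τ t1 hτ (by linarith) ht1a (MW W H) (PW g H) (MW (GA (phiE P) Ψp) H)
    (MW W σ) (PW g σ) hmm hmp hmg (measurable_MW S.mW hms) (measurable_PW S.mg hms)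
    ⟨B, hB0, hBt1⟩ hrel hup hlow hm0
  refine ⟨r1, r2, ?_, fun t ht => ne_top_of_le_ne_top ENNReal.ofReal_ne_top (hBt1 t ht).2.1, ?_⟩
  · refine seed_amount (A1 := A1) (C := C) (d1 := d1) (rho := rho) (t1 := t1) (m := MW W H)
      (g := MW (GA (phiE P) Ψp) H) (sp := PW g σ) (hA2.trans hA12).le hC h1.le hτ
      (by linarith) ?_ hlow r1 r2 hsg
    have h5 : τ ≤ 1 / (2 * C * rho + 1) := by linarith
    have h6 : 0 < 2 * C * rho + 1 := by positivity
    rw [le_div_iff₀ h6] at h5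
    linarith
  · intro t ht
    have ht0 : 0 < t := by linarith [ht.1]
    have htτ : 2 * τ ≤ t := by linarith [ht.1]
    have hgro := upper_enn (a := t) (b := t1) (c := A2 + C + C ^ 2) ht0 ht.2 (by positivity)
      (m := MW W H) hmm hB0 (fun r hr => (hBt1 r ⟨by linarith [hr.1], hr.2⟩).1) ?_ t1 ⟨ht.2, le_rfl⟩
    · refine hgro.trans (mul_le_mul' (ENNReal.ofReal_le_ofReal ?_) le_rfl)
      refine Real.rpow_le_rpow (div_nonneg (ht0.le.trans ht.2) ht0.le) ?_ (by positivity)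
      rw [div_le_iff₀ ht0]
      linarith [ht.1]
    · intro t' ht'
      refine (hup t t' (by linarith) ht'.1 ht'.2).trans ?_
      refine add_le_add le_rfl (setLIntegral_mono' measurableSet_Ioo fun r hr => ?_)
      have hr0 : 0 < r := ht0.trans hr.1
      have hrT : r ≤ T := hr.2.le.trans (ht'.2.trans ht1b)
      have hr1 : r ≤ 1 := hrT.trans S.T1
      have e1 : MW W σ r = 0 := hs0 W r (Or.inr (by linarith [hr.1]))
      have e2 : MW (GA (phiE P) Ψp) H r ≤ ENNReal.ofReal (C / r) * MW W H r :=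
        MW_mono_left ENNReal.ofReal_ne_top (S.crude r hr0 hrT)
      calc ENNReal.ofReal (A2 / r + C) * MW W H r + ENNReal.ofReal C * MW (GA (phiE P) Ψp) H r
          + MW W σ r
          ≤ ENNReal.ofReal (A2 / r + C) * MW W H r +
            ENNReal.ofReal C * (ENNReal.ofReal (C / r) * MW W H r) + 0 := by
            rw [e1]
            exact add_le_add (add_le_add le_rfl (mul_le_mul' le_rfl e2)) le_rfl
        _ = ENNReal.ofReal (A2 / r + C + C * (C / r)) * MW W H r := by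
            rw [add_zero, ← mul_assoc, ← ENNReal.ofReal_mul hC, ← add_mul,
              ← ENNReal.ofReal_add (by positivity) (by positivity)]
        _ ≤ ENNReal.ofReal ((A2 + C + C ^ 2) / r) * MW W H r := by
            refine mul_le_mul' (ENNReal.ofReal_le_ofReal ?_) le_rfl
            have h5 : C ≤ C / r := by
              rw [le_div_iff₀ hr0]
              nlinarith
            have h6 : (A2 + C + C ^ 2) / r = A2 / r + C / r + C * (C / r) := by
              field_simp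
            rw [h6]
            linarith

/-- **(X2) from `SeedData`** -/
theorem X2_core (hP : P.Ok) (S : SeedData P g1 g2 T A1 A2 C d1 c1 v0 W g Ψp) {a : ℝ}
    (ha3 : 3 ≤ a) (haA : a ≤ A1) :
    ∃ t0 : ℝ, 0 < t0 ∧ ∀ t1, 0 < t1 → t1 ≤ t0 →
      ∃ (CH c0 : ℝ≥0∞) (tau : ℕ → ℝ) (sg : ℕ → Den), X2Out P g1 g2 t1 a CH c0 tau sg := by
  obtain ⟨rho, t0, hrho, ht0, ht0T, key⟩ := unit_growth hP S
  refine ⟨t0, ht0, fun t1 ht1 ht10 => ?_⟩
  have hC := S.C0
  have hc1 := S.c10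
  have ht1T : t1 ≤ T := ht10.trans ht0T
  have ht11 : t1 ≤ 1 := ht1T.trans S.T1
  have hφ := L.meas3_phiE hP
  have pφ : PerF (phiE P) := fun t v => L.perG_phiE P t v
  have hA1 : 0 < A1 := S.A20.trans S.A12
  -- the normalisation
  set pn : ℝ → ℝ≥0∞ := fun τ => PW g (sol (phiE P) (seed1 v0 τ)) t1 with hpn
  -- lower bound of `pn`
  set Kn : ℝ := (2 / t1) ^ A1 * (4 / c1) with hKn
  have hKn0 : 0 < Kn := by positivity
  have hV := V3_pos v0
  have hVt := V3_ne_top v0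
  have hpn_ge : ∀ τ, 0 < τ → 4 * τ ≤ t1 →
      V3 v0 ≤ ENNReal.ofReal (Kn * τ ^ (A1 - 3)) * pn τ := by
    intro τ hτ hτt
    obtain ⟨k1, k2, k3, k4, k5⟩ := key τ t1 hτ hτt ht10
    have h1 := k2 (2 * τ) t1 (by linarith) (by linarith) le_rfl
    have h2 : V3 v0 = ENNReal.ofReal (1 / (c1 * τ ^ 3)) *
        (ENNReal.ofReal τ * (ENNReal.ofReal c1 * ENNReal.ofReal (τ ^ 2) * V3 v0)) := by
      rw [← mul_assoc, ← mul_assoc, ← ENNReal.ofReal_mul hc1.le, ← ENNReal.ofReal_mul (by positivity),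
        ← ENNReal.ofReal_mul (by positivity)]
      have : 1 / (c1 * τ ^ 3) * τ * (c1 * τ ^ 2) = 1 := by field_simp
      rw [this, ENNReal.ofReal_one, one_mul]
    have h3 : PW g (sol (phiE P) (seed1 v0 τ)) (2 * τ) ≤
        ENNReal.ofReal (2 * (2 * τ / t1) ^ A1) * pn τ := by
      have e : (1 : ℝ) = (2 * (2 * τ / t1) ^ A1) * (1 / 2 * (t1 / (2 * τ)) ^ A1) := by
        have : (2 * τ / t1) ^ A1 * (t1 / (2 * τ)) ^ A1 = 1 := by
          rw [← Real.mul_rpow (by positivity) (by positivity)]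
          have : 2 * τ / t1 * (t1 / (2 * τ)) = 1 := by field_simp
          rw [this, Real.one_rpow]
        linarith
      calc PW g (sol (phiE P) (seed1 v0 τ)) (2 * τ)
          = ENNReal.ofReal ((2 * (2 * τ / t1) ^ A1) * (1 / 2 * (t1 / (2 * τ)) ^ A1)) *
            PW g (sol (phiE P) (seed1 v0 τ)) (2 * τ) := by
            rw [← e, ENNReal.ofReal_one, one_mul]
        _ = ENNReal.ofReal (2 * (2 * τ / t1) ^ A1) * (ENNReal.ofReal (1 / 2 * (t1 / (2 * τ)) ^ A1) *
            PW g (sol (phiE P) (seed1 v0 τ)) (2 * τ)) := by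
            rw [ENNReal.ofReal_mul (by positivity), mul_assoc]
        _ ≤ _ := mul_le_mul' le_rfl h1
    calc V3 v0 ≤ ENNReal.ofReal (1 / (c1 * τ ^ 3)) *
          (2 * (ENNReal.ofReal (2 * (2 * τ / t1) ^ A1) * pn τ)) := by
          rw [h2]
          exact mul_le_mul' le_rfl (k3.trans (mul_le_mul' le_rfl h3))
      _ = ENNReal.ofReal (Kn * τ ^ (A1 - 3)) * pn τ := by
          rw [← ENNReal.ofReal_ofNat, ← mul_assoc, ← mul_assoc, ← ENNReal.ofReal_mul (by positivity),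
            ← ENNReal.ofReal_mul (by positivity)]
          congr 2
          rw [hKn, Real.rpow_sub hτ, show 2 * τ / t1 = (2 / t1) * τ by ring,
            Real.mul_rpow (by positivity) hτ.le]
          have : τ ^ (3 : ℝ) = τ ^ 3 := by norm_cast
          rw [this]
          field_simp
          norm_num
  have hpn_ne : ∀ τ, 0 < τ → 4 * τ ≤ t1 → pn τ ≠ 0 ∧ pn τ ≠ ⊤ := by
    intro τ hτ hτt
    refine ⟨fun h => ?_, ?_⟩
    · have := hpn_ge τ hτ hτt
      rw [h, mul_zero] at this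
      exact hV (le_antisymm this zero_le)
    · obtain ⟨k1, k2, k3, k4, k5⟩ := key τ t1 hτ hτt ht10
      exact k4 t1 ⟨by linarith, le_rfl⟩
  -- seeds
  set tau : ℕ → ℝ := fun n => t1 / 4 / (n + 1) with htau
  have htau0 : ∀ n, 0 < tau n := fun n => by simp only [htau]; positivity
  have htau4 : ∀ n, 4 * tau n ≤ t1 := by
    intro n
    simp only [htau]
    have : t1 / 4 / ((n : ℝ) + 1) ≤ t1 / 4 := div_le_self (by positivity) (by
      have : (0 : ℝ) ≤ n := Nat.cast_nonneg n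
      linarith)
    linarith
  set lam : ℕ → ℝ≥0∞ := fun n => (pn (tau n))⁻¹ with hlam
  have hlamt : ∀ n, lam n ≠ ⊤ := fun n => ENNReal.inv_ne_top.2 (hpn_ne _ (htau0 n) (htau4 n)).1
  have hlam1 : ∀ n, lam n * pn (tau n) = 1 := fun n =>
    ENNReal.inv_mul_cancel (hpn_ne _ (htau0 n) (htau4 n)).1 (hpn_ne _ (htau0 n) (htau4 n)).2
  set CL : ℝ≥0∞ := ENNReal.ofReal Kn * (V3 v0)⁻¹ with hCL
  have hCLt : CL ≠ ⊤ := ENNReal.mul_ne_top ENNReal.ofReal_ne_top (ENNReal.inv_ne_top.2 hV)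
  have hlam_le : ∀ n, lam n ≤ CL * ENNReal.ofReal (tau n ^ (A1 - 3)) := by
    intro n
    have h1 := hpn_ge _ (htau0 n) (htau4 n)
    obtain ⟨h2, h3⟩ := hpn_ne _ (htau0 n) (htau4 n)
    calc lam n = lam n * (V3 v0 * (V3 v0)⁻¹) := by rw [ENNReal.mul_inv_cancel hV hVt, mul_one]
      _ ≤ lam n * ((ENNReal.ofReal (Kn * tau n ^ (A1 - 3)) * pn (tau n)) * (V3 v0)⁻¹) := by
          gcongr
      _ = (lam n * pn (tau n)) * (ENNReal.ofReal (Kn * tau n ^ (A1 - 3)) * (V3 v0)⁻¹) := by ring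
      _ = CL * ENNReal.ofReal (tau n ^ (A1 - 3)) := by
          rw [hlam1, one_mul, hCL, ENNReal.ofReal_mul hKn0.le]; ring
  set sgm : ℕ → Den := fun n t x v => lam n * seed1 v0 (tau n) t x v with hsgm
  have hsol : ∀ n t x v, sol (phiE P) (sgm n) t x v =
      lam n * sol (phiE P) (seed1 v0 (tau n)) t x v := fun n t x v =>
    L.sol_smul hφ (meas3_seed1 v0 (tau n)) (lam n) t x v
  have hMom : ∀ n t, Mom (sol (phiE P) (sgm n)) t =
      lam n * MW w4D (sol (phiE P) (seed1 v0 (tau n))) t := by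
    intro n t
    rw [Mom_eq, ← MW_smul_right (hlamt n)]
    unfold MW
    simp only [hsol]
  -- constants
  set Cs : ℝ := Real.exp ((g1 + g2) * (‖v0‖ + 1) ^ 2) with hCs
  set CH1 : ℝ≥0∞ := CL * ENNReal.ofReal Cs with hCH1
  set CH2 : ℝ≥0∞ := ENNReal.ofReal (C * (rho * (2 * (1 / t1) ^ A1))) with hCH2
  set D : ℝ := (C * C) * (2 ^ (A2 + C + C ^ 2) * (rho * C)) with hD
  have hD0 : 0 ≤ D := by positivity
  -- lower bound of the mass
  have hlow : ∀ n, ∀ t ∈ Ioo (t1 / 2) t1, 1 ≤ ENNReal.ofReal D * Mom (sol (phiE P) (sgm n)) t := by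
    intro n t ht
    obtain ⟨k1, k2, k3, k4, k5⟩ := key (tau n) t1 (htau0 n) (htau4 n) ht10
    have hH := seedH_unit hP S.hg1 S.hg2 S.T1 S.Tg v0 (htau0 n)
    have ht0' : 0 < t := by linarith [ht.1]
    have htT : t ≤ T := ht.2.le.trans ht1T
    have hτt : tau n ≤ t := by linarith [ht.1, htau4 n, htau0 n]
    have e1 : pn (tau n) ≤ ENNReal.ofReal (C * C) *
        MW W (sol (phiE P) (seed1 v0 (tau n))) t1 := by
      refine PW_le_MW S.mW hH.mH S.pW hH.pH ENNReal.ofReal_ne_top (S.gs t1 ht1 ht1T) fun x v => ?_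
      rw [ENNReal.ofReal_mul hC, mul_assoc]
      exact (S.gb t1 ht1 ht1T x v).trans (mul_le_mul' le_rfl (S.w4 t1 ht1 ht1T x v))
    have e2 := k5 t ⟨ht.1.le, ht.2.le⟩
    have e3 := k1 t ⟨hτt, ht.2.le⟩
    have e4 : PW g (sol (phiE P) (seed1 v0 (tau n))) t ≤ ENNReal.ofReal C *
        MW w4D (sol (phiE P) (seed1 v0 (tau n))) t := by
      refine PW_le_MW meas3_w4D hH.mH (fun _ _ _ _ => rfl) hH.pH ENNReal.ofReal_ne_top
        (S.gs t ht0' htT) fun x v => ?_
      exact S.gb t ht0' htT x v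
    have e5 : pn (tau n) ≤ ENNReal.ofReal D * MW w4D (sol (phiE P) (seed1 v0 (tau n))) t := by
      calc pn (tau n) ≤ ENNReal.ofReal (C * C) * MW W (sol (phiE P) (seed1 v0 (tau n))) t1 := e1
        _ ≤ ENNReal.ofReal (C * C) * (ENNReal.ofReal (2 ^ (A2 + C + C ^ 2)) *
            (ENNReal.ofReal rho * (ENNReal.ofReal C *
              MW w4D (sol (phiE P) (seed1 v0 (tau n))) t))) :=
            mul_le_mul' le_rfl (e2.trans (mul_le_mul' le_rfl (e3.trans (mul_le_mul' le_rfl e4))))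
        _ = _ := by
            rw [hD, ENNReal.ofReal_mul (p := C * C) (by positivity),
              ENNReal.ofReal_mul (p := 2 ^ (A2 + C + C ^ 2)) (by positivity),
              ENNReal.ofReal_mul (p := rho) hrho.le]
            ring
    rw [hMom]
    calc (1 : ℝ≥0∞) = lam n * pn (tau n) := (hlam1 n).symm
      _ ≤ lam n * (ENNReal.ofReal D * MW w4D (sol (phiE P) (seed1 v0 (tau n))) t) :=
          mul_le_mul' le_rfl e5
      _ = _ := by ring
  refine ⟨max CH1 CH2, ENNReal.ofReal (t1 / 2) * (ENNReal.ofReal D)⁻¹, tau, sgm, ?_⟩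
  refine ⟨?_, ?_, htau0, ?_, ?_, ?_, ?_, ?_, ?_, ?_⟩
  · exact (max_lt (ENNReal.mul_lt_top hCLt.lt_top ENNReal.ofReal_lt_top)
      ENNReal.ofReal_lt_top).ne
  · refine ENNReal.mul_pos ?_ (ENNReal.inv_ne_zero.2 ENNReal.ofReal_ne_top)
    exact (ENNReal.ofReal_pos.2 (by positivity)).ne'
  · have h1 : Tendsto (fun n : ℕ => t1 / 4 / ((n : ℝ) + 1)) atTop (𝓝 0) :=
      tendsto_const_nhds.div_atTop (tendsto_atTop_add_const_right _ _ tendsto_natCast_atTop_atTop)
    exact h1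
  · intro n
    exact Meas3.const_mul (meas3_seed1 v0 (tau n)) (lam n)
  · intro n t v x k
    have := perF_seed1 v0 (tau n) t v x k
    simp only at this
    show lam n * seed1 v0 (tau n) t (x + latt k) v = lam n * seed1 v0 (tau n) t x v
    rw [this]
  · intro n t x v h
    simp only [hsgm]
    rw [seed1_zero h, mul_zero]
  · -- pointwise bound of the seeds
    intro n t ht x v
    simp only [hsgm]
    by_cases h : tau n < t
    · have h1 := seed1_le_B2 (P := P) S.hg1.le S.hg2 (a - 3) v0 (tau n) ht.1 x v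
      have h2 := hlam_le n
      have h3 : tau n ^ (A1 - 3) * t ^ (-(a - 3)) ≤ 1 := by
        have e1 : tau n ^ (A1 - 3) ≤ t ^ (A1 - 3) :=
          Real.rpow_le_rpow (htau0 n).le h.le (by linarith)
        have e2 : 0 ≤ t ^ (-(a - 3)) := Real.rpow_nonneg ht.1.le _
        calc tau n ^ (A1 - 3) * t ^ (-(a - 3)) ≤ t ^ (A1 - 3) * t ^ (-(a - 3)) := by gcongr
          _ = t ^ (A1 - a) := by rw [← Real.rpow_add ht.1]; congr 1; ring
          _ ≤ 1 := Real.rpow_le_one ht.1.le (ht.2.trans ht11) (by linarith)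
      calc lam n * seed1 v0 (tau n) t x v
          ≤ (CL * ENNReal.ofReal (tau n ^ (A1 - 3))) * (ENNReal.ofReal (t ^ (-(a - 3)) * Cs) *
            B2 P g1 g2 (a - 3) t x v) := mul_le_mul' h2 h1
        _ = CL * ENNReal.ofReal ((tau n ^ (A1 - 3) * t ^ (-(a - 3))) * Cs) *
            B2 P g1 g2 (a - 3) t x v := by
            have e2 : 0 ≤ t ^ (-(a - 3)) := Real.rpow_nonneg ht.1.le _
            have e3 : 0 ≤ tau n ^ (A1 - 3) := Real.rpow_nonneg (htau0 n).le _
            rw [mul_assoc (tau n ^ (A1 - 3)), ENNReal.ofReal_mul e3]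
            ring
        _ ≤ CL * ENNReal.ofReal (1 * Cs) * B2 P g1 g2 (a - 3) t x v := by
            gcongr
        _ = CH1 * B2 P g1 g2 (a - 3) t x v := by rw [one_mul, hCH1]
        _ ≤ max CH1 CH2 * B2 P g1 g2 (a - 3) t x v := by
            gcongr
            exact le_max_left _ _
    · rw [seed1_zero (Or.inl (not_lt.1 h)), mul_zero]
      exact zero_le
  · -- upper bound of the mass
    intro n t ht
    rw [hMom]
    obtain ⟨k1, k2, k3, k4, k5⟩ := key (tau n) t1 (htau0 n) (htau4 n) ht10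
    have hH := seedH_unit hP S.hg1 S.hg2 S.T1 S.Tg v0 (htau0 n)
    by_cases h : tau n ≤ t
    · have htT : t ≤ T := ht.2.trans ht1T
      have e1 : MW w4D (sol (phiE P) (seed1 v0 (tau n))) t ≤ ENNReal.ofReal C *
          MW W (sol (phiE P) (seed1 v0 (tau n))) t :=
        MW_mono_left ENNReal.ofReal_ne_top (S.w4 t ht.1 htT)
      have e2 := k1 t ⟨h, ht.2⟩
      have e3 := k2 t t1 h ht.2 le_rfl
      have e4 : PW g (sol (phiE P) (seed1 v0 (tau n))) t ≤
          ENNReal.ofReal (2 * (t / t1) ^ A1) * pn (tau n) := by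
        have e : (1 : ℝ) = (2 * (t / t1) ^ A1) * (1 / 2 * (t1 / t) ^ A1) := by
          have : (t / t1) ^ A1 * (t1 / t) ^ A1 = 1 := by
            have ht0 := ht.1
            rw [← Real.mul_rpow (by positivity) (by positivity)]
            have : t / t1 * (t1 / t) = 1 := by field_simp
            rw [this, Real.one_rpow]
          linarith
        have ht0 := ht.1
        calc PW g (sol (phiE P) (seed1 v0 (tau n))) t
            = ENNReal.ofReal ((2 * (t / t1) ^ A1) * (1 / 2 * (t1 / t) ^ A1)) *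
              PW g (sol (phiE P) (seed1 v0 (tau n))) t := by
              rw [← e, ENNReal.ofReal_one, one_mul]
          _ = ENNReal.ofReal (2 * (t / t1) ^ A1) * (ENNReal.ofReal (1 / 2 * (t1 / t) ^ A1) *
              PW g (sol (phiE P) (seed1 v0 (tau n))) t) := by
              rw [ENNReal.ofReal_mul (by positivity), mul_assoc]
          _ ≤ _ := mul_le_mul' le_rfl e3
      have ht0 := ht.1
      calc lam n * MW w4D (sol (phiE P) (seed1 v0 (tau n))) t
          ≤ lam n * (ENNReal.ofReal C * (ENNReal.ofReal rho *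
            (ENNReal.ofReal (2 * (t / t1) ^ A1) * pn (tau n)))) :=
            mul_le_mul' le_rfl (e1.trans (mul_le_mul' le_rfl (e2.trans (mul_le_mul' le_rfl e4))))
        _ = (lam n * pn (tau n)) * ENNReal.ofReal (C * (rho * (2 * (t / t1) ^ A1))) := by
            rw [ENNReal.ofReal_mul hC, ENNReal.ofReal_mul hrho.le]
            ring
        _ = ENNReal.ofReal (C * (rho * (2 * (1 / t1) ^ A1))) * ENNReal.ofReal (t ^ A1) := by
            rw [hlam1, one_mul, ← ENNReal.ofReal_mul (by positivity)]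
            congr 1
            rw [show t / t1 = (1 / t1) * t by ring, Real.mul_rpow (by positivity) ht0.le]
            ring
        _ ≤ CH2 * ENNReal.ofReal (t ^ a) := by
            refine mul_le_mul' le_rfl (ENNReal.ofReal_le_ofReal ?_)
            exact Real.rpow_le_rpow_of_exponent_ge ht0 (ht.2.trans ht11) haA
        _ ≤ max CH1 CH2 * ENNReal.ofReal (t ^ a) := by
            gcongr
            exact le_max_right _ _
    · have : MW w4D (sol (phiE P) (seed1 v0 (tau n))) t = 0 := by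
        unfold MW
        simp [hH.zero t (not_le.1 h).le]
      rw [this, mul_zero]
      exact zero_le
  · -- lower bound
    intro n
    have e1 : (ENNReal.ofReal D)⁻¹ * ENNReal.ofReal (t1 / 2) =
        ∫⁻ _ in Ioo (t1 / 2) t1, (ENNReal.ofReal D)⁻¹ := by
      rw [setLIntegral_const, Real.volume_Ioo]
      congr 2; ring
    rw [mul_comm, e1]
    refine le_trans (setLIntegral_mono' measurableSet_Ioo fun t ht => ?_)
      (lintegral_mono_set (Ioo_subset_Ioo_left (by linarith)))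
    have h1 := hlow n t ht
    rcases eq_or_ne (ENNReal.ofReal D) 0 with h0 | h0
    · rw [h0, zero_mul] at h1
      exact absurd h1 (by simp)
    · rw [ENNReal.inv_le_iff_le_mul]
      · exact h1
      · intro _; exact h0
      · intro h; exact absurd h ENNReal.ofReal_ne_top

end core

end Crest.Agent.R68.X2
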