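import Crest.Agent.R68.X2Up
import Crest.Agent.R68.X2Const
import Crest.Agent.R68.X2Seed3
import Crest.Agent.R68.X2Pt
import Crest.Agent.R68.X2Meas2
import Crest.Agent.R68.X2OmB2
import Crest.Agent.R68.X2FlOm
import Crest.Agent.R68.X2PwOm2
import Crest.Agent.R68.X2PwLow
import Crest.Agent.R68.X2LowFl
import Crest.Agent.R68.X2Corr
import Crest.Agent.R68.X2F0
import Crest.Agent.R68.X2F0f
import Crest.Agent.R68.LMass2
import Crest.Agent.R68.LProps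

/-!
# Row 68, PART X2 (helper810): the final statement of X2
-/

set_option autoImplicit false
set_option maxHeartbeats 400000
open MeasureTheory Set Filter
open scoped ENNReal Real Topology
open Crest.AnalysisR.VecCalc3 Crest.AnalysisR.PDE.Boltzmann

noncomputable section

namespace Crest.Agent.R68.X2.Fin

open Crest.Agent.R68.L (Den Gf Dam TL sol)
open Crest.Agent.R68.A (Meas3)

/-! ### the field `up` -/

theorem kap1_le {Y C2 gp : ℝ} (_hC2 : 0 ≤ C2) {t : ℝ} (ht : 0 < t) (x : P2) (v : R3) :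
    kap1 Y C2 gp t x v ≤ ENNReal.ofReal (1 / t) * OmE Y C2 gp t x v := by
  unfold kap1
  split_ifs
  · unfold OmE Om
    rw [← ENNReal.ofReal_mul (by positivity)]
    refine ENNReal.ofReal_le_ofReal ?_
    have h1 : C2 * |fr (Yc Y t x) v 1| ≤ hh C2 (fr (Yc Y t x) v) := by
      unfold hh
      have : 0 ≤ ‖fr (Yc Y t x) v‖ ^ 12 := by positivity
      linarith
    have h2 : 0 < Real.exp (gp * mm t x v ^ 2) := Real.exp_pos _
    calc C2 * |fr (Yc Y t x) v 1| / t * Real.exp (gp * mm t x v ^ 2)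
        ≤ hh C2 (fr (Yc Y t x) v) / t * Real.exp (gp * mm t x v ^ 2) := by gcongr
      _ = 1 / t * (hh C2 (fr (Yc Y t x) v) * Real.exp (gp * mm t x v ^ 2)) := by ring
  · exact zero_le

theorem kap2_le {Y C2 gp Z1 : ℝ} (hC2 : 0 ≤ C2) (hgp : 0 ≤ gp) {t : ℝ} (ht : 0 < t) (x : P2)
    (v : R3) : kap2 Y C2 gp Z1 t x v ≤ ENNReal.ofReal (gp / t ^ 3) * OmE Y C2 gp t x v := by
  unfold kap2
  split_ifs
  · unfold OmE
    rw [← ENNReal.ofReal_mul (by positivity)]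
    refine ENNReal.ofReal_le_ofReal ?_
    have h1 : distG x ≤ 1 := distG_le_one x
    have h2 : 0 ≤ distG x := distG_nonneg x
    have h3 := pt_Om_nonneg (Y := Y) hC2 hgp t x v
    have h4 : gp / 2 * (distG x / t) ^ 2 / t ≤ gp / t ^ 3 := by
      have e1 : gp / 2 * (distG x / t) ^ 2 / t = (gp / 2 * distG x ^ 2) / t ^ 3 := by
        field_simp
      rw [e1]
      gcongr
      nlinarith [mul_nonneg hgp h2]
    gcongr
  · exact zero_le

theorem up_fin {P : Par} (hP : P.Ok) (hY1 : 1 ≤ P.Y) {g1 g2 gp C2 Z1 : ℝ} (hg2 : 0 < g2)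
    (hg21 : g2 ≤ g1) (hgp : 0 < gp) (hgp2 : 4 * gp ≤ g2) (hC2 : 0 ≤ C2) (hZ1 : 1 ≤ Z1) (X : XP)
    (hpw : ∃ t0 C : ℝ, 0 < t0 ∧ 0 ≤ C ∧ ∀ t, 0 < t → t ≤ t0 → ∀ (x : P2) (v : R3),
      GA (L.phiE P) (OmE P.Y C2 gp) t x v ≤ Lc (L.phiE P t x) v * OmE P.Y C2 gp t x v
        + kap1 P.Y C2 gp t x v + kap2 P.Y C2 gp Z1 t x v
        + ENNReal.ofReal (π * P.K / t + C) * OmE P.Y C2 gp t x v
        + ENNReal.ofReal C * GA (L.phiE P) (psiP X) t x v) :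
    ∃ T0 C0 : ℝ, 0 < T0 ∧ 0 ≤ C0 ∧ ∀ T C, 0 < T → T ≤ T0 → C0 ≤ C →
      UpP P g1 g2 (π * P.K) (OmE P.Y C2 gp) (psiP X) T C := by
  have hK := hP.K0
  refine up_ev hP (k := fun t x v => kap1 P.Y C2 gp t x v + kap2 P.Y C2 gp Z1 t x v)
    (meas3_OmE _ _ _) (M60.meas3_psiP X)
    ((M60.meas3_kap1 _ _ _).add (M60.meas3_kap2 _ _ _ _))
    (fun t v => perG_OmE _ _ _ t v) (fun t v => M60.perG_psiP X t v) ?_ (by positivity)
    (Om_B2 hP hg2 hg21 hgp.le hgp2 hC2) ?_ ?_ ?_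
  · intro t v x k
    have e1 := M60.perG_kap1 P.Y C2 gp t v x k
    have e2 := M60.perG_kap2 P.Y C2 gp Z1 t v x k
    simp only at e1 e2 ⊢
    rw [e1, e2]
  · refine ⟨1, 1 + gp, one_pos, by positivity, fun t ht ht1 x v => ?_⟩
    refine (add_le_add (kap1_le hC2 ht x v) (kap2_le hC2 hgp.le ht x v)).trans ?_
    rw [← add_mul, ← ENNReal.ofReal_add (by positivity) (by positivity)]
    gcongr ENNReal.ofReal ?_ * _
    have e1 : (1 : ℝ) / t ≤ 1 / t ^ 3 := by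
      apply one_div_le_one_div_of_le (by positivity)
      calc t ^ 3 = t * t ^ 2 := by ring
        _ ≤ t * 1 := by
          gcongr
          exact pow_le_one₀ ht.le ht1
        _ = t := mul_one t
    calc 1 / t + gp / t ^ 3 ≤ 1 / t ^ 3 + gp / t ^ 3 := by gcongr
      _ = (1 + gp) / t ^ 3 := by ring
  · obtain ⟨t0, C, ht0, hC, h⟩ := hpw
    refine ⟨t0, C, ht0, hC, fun t ht ht1 x v => ?_⟩
    refine (h t ht ht1 x v).trans (le_of_eq ?_)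
    ring
  · obtain ⟨t0, C, ht0, -, hC, h⟩ := flight_Om (C2 := C2) (gp := gp) (Z1 := Z1) hY1 hC2 hgp hZ1
    exact ⟨t0, C, ht0, hC, h⟩

/-! ### the field `low` -/

theorem one_le_OmE {Y C2 gp : ℝ} (hC2 : 0 ≤ C2) (hgp : 0 ≤ gp) (t : ℝ) (x : P2) (v : R3) :
    1 ≤ OmE Y C2 gp t x v := by
  unfold OmE
  rw [← ENNReal.ofReal_one]
  refine ENNReal.ofReal_le_ofReal ?_
  have := pt_Om_ge (Y := Y) hC2 hgp t x v
  have : 0 ≤ ‖fr (Yc Y t x) v‖ ^ 12 := by positivity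
  linarith

/-- `psi0 ≤ gL` when the constant `Cg` dominates the corrector -/
theorem psi0_le_gL {X : XP} {P : Par} {Y ey N d1 Zs Vs Cg : ℝ} (h : LowOK X P Y ey N d1 Zs Vs)
    (hCg : 0 ≤ Cg) {t : ℝ} {x : P2} {v : R3}
    (hc : |corr X P d1 Zs Vs t x v| ≤ Cg * t ^ 2 ∧
      (corr X P d1 Zs Vs t x v ≠ 0 → ‖t⁻¹ • x‖ ≤ 2 * Zs ∧ ‖v‖ ≤ 2 * Vs)) :
    psi0 X t x v ≤ gL X P d1 Zs Vs Cg t x v := by
  have hZ : 0 < Zs := lt_of_lt_of_le one_pos h.Zs1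
  have hV : 0 < Vs := lt_of_lt_of_le one_pos h.Vs1
  unfold gL
  by_cases h0 : corr X P d1 Zs Vs t x v = 0
  · rw [h0]
    have e1 := M60.ramp_nonneg (‖t⁻¹ • x‖ / (2 * Zs))
    have e2 := M60.ramp_nonneg (‖v‖ / (2 * Vs))
    have : 0 ≤ Cg * t ^ 2 * (ramp (‖t⁻¹ • x‖ / (2 * Zs)) * ramp (‖v‖ / (2 * Vs))) := by
      positivity
    linarith
  · obtain ⟨h1, h2⟩ := hc.2 h0
    rw [M60.ramp_one (r := ‖t⁻¹ • x‖ / (2 * Zs)) (by rw [div_le_one₀ (by positivity)]; exact h1),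
      M60.ramp_one (r := ‖v‖ / (2 * Vs)) (by rw [div_le_one₀ (by positivity)]; exact h2)]
    have := (abs_le.1 hc.1).1
    linarith

theorem hfin_low {P : Par} (hP : P.Ok) {g1 g2 gp C2 : ℝ} (hg2 : 0 < g2)
    (hg21 : g2 ≤ g1) (hgp : 0 < gp) (hgp2 : 4 * gp ≤ g2) (hC2 : 0 ≤ C2) {Z : ℝ} (hZ : 0 ≤ Z) :
    ∃ t0 : ℝ, 0 < t0 ∧ ∃ B : ℝ≥0∞, B ≠ ⊤ ∧ ∀ t, 0 < t → t ≤ t0 →
      ∫⁻ x in {x : P2 | ‖x‖ ≤ Z * t}, ∫⁻ v, ENNReal.ofReal (1 + ‖v‖) * B2 P g1 g2 0 t x v ≤ B := by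
  obtain ⟨t0, ht0, B, hB, h⟩ := Om_B2 hP hg2 hg21 hgp.le hgp2 hC2
  refine ⟨min t0 (1 / (4 * (Z + 1))), by positivity, B, hB, fun t ht ht1 => ?_⟩
  refine le_trans ?_ (h t ht (ht1.trans (min_le_left _ _)))
  have hZt : Z * t < 7 / 20 := by
    have e1 : t ≤ 1 / (4 * (Z + 1)) := ht1.trans (min_le_right _ _)
    calc Z * t ≤ (Z + 1) * (1 / (4 * (Z + 1))) := mul_le_mul (by linarith) e1 ht.le (by positivity)
      _ = 1 / 4 := by field_simp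
      _ < 7 / 20 := by norm_num
  set F : P2 → ℝ≥0∞ := fun x => ∫⁻ v, ENNReal.ofReal (1 + ‖v‖) * B2 P g1 g2 0 t x v with hF
  have mF : Measurable F := by
    refine Measurable.lintegral_prod_right'
      (f := fun p : P2 × R3 => ENNReal.ofReal (1 + ‖p.2‖) * B2 P g1 g2 0 t p.1 p.2) ?_
    exact (by fun_prop : Measurable fun p : P2 × R3 => ENNReal.ofReal (1 + ‖p.2‖)).mul
      (LMass.measurable_B2_t hP.Y0 g1 g2 0 ht.le)
  have pF : PerG F := by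
    intro x k
    refine lintegral_congr fun v => ?_
    have e1 := LMass.perG_B2 P g1 g2 0 t v x k
    simp only at e1
    rw [e1]
  have h1 := LMass.lintegral_ball_le mF pF 0 hZt
  simp only [sub_zero] at h1
  refine h1.trans ?_
  unfold MW
  refine lintegral_mono fun x => lintegral_mono fun v => ?_
  refine mul_le_mul' ?_ le_rfl
  calc ENNReal.ofReal (1 + ‖v‖) = ENNReal.ofReal (1 + ‖v‖) * 1 := (mul_one _).symm
    _ ≤ _ := mul_le_mul' le_rfl (one_le_OmE hC2 hgp.le t x v)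

theorem low_fin {X : XP} {P : Par} {Y ey N d1 Zs Vs Cg : ℝ} (h : LowOK X P Y ey N d1 Zs Vs)
    (hCg : 0 ≤ Cg)
    (hcs : ∃ t0 : ℝ, 0 < t0 ∧ ∀ t, 0 < t → t ≤ t0 → ∀ x v,
      |corr X P d1 Zs Vs t x v| ≤ Cg * t ^ 2 ∧
      (corr X P d1 Zs Vs t x v ≠ 0 → ‖t⁻¹ • x‖ ≤ 2 * Zs ∧ ‖v‖ ≤ 2 * Vs))
    (hf : ∀ (z : P2) (v : R3) (k : ℝ), 0 ≤ k → k ≤ 1 → (|z.2| ≤ X.Yp → k = 1) →
      (Y ≤ |z.2| → k = 0) →
      193 / 200 * N * f0 X z v ≤ L0 X z v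
        + 197 / 400 * (ws X d1 (P.K * k) 1 z v + ws X d1 (P.K * k) (-1) z v))
    {g1 g2 gp C2 : ℝ} (hg2 : 0 < g2) (hg21 : g2 ≤ g1) (hgp : 0 < gp) (hgp2 : 4 * gp ≤ g2)
    (hC2 : 0 ≤ C2) :
    ∃ T0 C0 : ℝ, 0 < T0 ∧ 0 ≤ C0 ∧ ∀ T C, 0 < T → T ≤ T0 → C0 ≤ C →
      LowP P g1 g2 (193 / 200 * N) d1
        (fun t x v => ENNReal.ofReal (gL X P d1 Zs Vs Cg t x v)) (psiP X) (OmE P.Y C2 gp) T C := by
  have hP := h.ok
  have hN : 0 ≤ N := by linarith [h.tent.N1]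
  have hZ : 0 < Zs := lt_of_lt_of_le one_pos h.Zs1
  have hcs' : ∃ t0 C : ℝ, 0 < t0 ∧ 0 ≤ C ∧ ∀ t, 0 < t → t ≤ t0 → ∀ x v,
      |corr X P d1 Zs Vs t x v| ≤ C * t ^ 2 ∧
      (corr X P d1 Zs Vs t x v ≠ 0 → ‖t⁻¹ • x‖ ≤ 2 * Zs ∧ ‖v‖ ≤ 2 * Vs) := by
    obtain ⟨t0, ht0, hh⟩ := hcs
    exact ⟨t0, Cg, ht0, hCg, hh⟩
  obtain ⟨tc, htc, hcs⟩ := hcs
  obtain ⟨tl, CL, htl, hCL, hfl⟩ := flight_gL h Cg
  obtain ⟨CF, hCF1, hCF2, hCF3, hCF4⟩ := f0_facts h.tent X.B X.d h.B1 h.d0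
  obtain ⟨tp, Cp, htp, hCp, hpw⟩ := pw_low_of (C' := CL) h
    (PL.F0Ok.mk hCF1 (fun z v => (hCF2 z v).1) (fun z v => (hCF2 z v).2) hCF4
      (fun z v hh => (hCF3 z v hh).2.2)) hCg hcs' hf
  obtain ⟨tg, Cgg, htg, htg1, hCgg, hgL⟩ := pt_gE h Cg hcs'
  obtain ⟨tg', Cg', htg', htg1', hCg', hgL'⟩ := pt_gL h Cg hcs'
  obtain ⟨CL', hCL', hLg⟩ := h.abs_Lg_le hCL
  refine low_ev hP (kp := fun t x v => ENNReal.ofReal (-Lg X P d1 Zs Vs CL t x v))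
    (em := fun t x v => ENNReal.ofReal (Lg X P d1 Zs Vs CL t x v))
    (R := fun t x v => ENNReal.ofReal (Cp * (if ‖x‖ ≤ Cp * t then (1 + ‖v‖) else 0)))
    (Z := 4 * Zs)
    (meas3_OmE _ _ _) (M60.meas3_gL _ _ _ _ _ _) (M60.meas3_Lg_neg _ _ _ _ _ _)
    (M60.meas3_Lg _ _ _ _ _ _) ?_ (fun t v => perG_OmE _ _ _ t v) (by positivity) h.d10
    (by positivity) ?_ ?_ (hfin_low hP hg2 hg21 hgp hgp2 hC2 (by positivity)) ?_ ?_ ?_ ?_
  · -- measurability of the error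
    show Measurable fun p : ℝ × P2 × R3 =>
      ENNReal.ofReal (Cp * (if ‖p.2.1‖ ≤ Cp * p.1 then (1 + ‖p.2.2‖) else 0))
    refine Measurable.ennreal_ofReal (Measurable.const_mul ?_ _)
    exact Measurable.ite (measurableSet_le (by fun_prop) (by fun_prop)) (by fun_prop)
      measurable_const
  · -- supports
    refine ⟨1, one_pos, fun t ht _ x v hx => ?_⟩
    have e1 : 4 * Zs ≤ ‖t⁻¹ • x‖ := by
      rw [pt_norm_z ht, le_div_iff₀ ht]; exact hx.le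
    have e2 := h.gL_zero Cg (v := v) (Or.inl e1)
    have e3 := h.Lg_zero CL (v := v) ht (Or.inl hx)
    simp only [e2, e3, neg_zero, ENNReal.ofReal_zero, and_self]
  · -- bounds
    refine ⟨tg', htg', fun τ hτ => ⟨ENNReal.ofReal (Cg' + CL' * (2 / τ + 1)),
      ENNReal.ofReal_ne_top, fun t ht1 ht2 x v => ?_⟩⟩
    have ht : 0 < t := by linarith
    have e1 : |gL X P d1 Zs Vs Cg t x v| ≤ Cg' := (hgL' t ht ht2 x v).2.1
    have e2 := hLg t ht x v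
    have e3 : t⁻¹ ≤ 2 / τ := by
      rw [inv_eq_one_div, div_le_div_iff₀ ht hτ]; linarith
    have e4 : CL' * (t⁻¹ + 1) ≤ CL' * (2 / τ + 1) := by gcongr
    have e5 : 0 ≤ CL' * (2 / τ + 1) := by positivity
    refine ⟨ENNReal.ofReal_le_ofReal ?_, ENNReal.ofReal_le_ofReal ?_, ENNReal.ofReal_le_ofReal ?_⟩
    · exact ((le_abs_self _).trans e1).trans (by linarith)
    · exact ((neg_le_abs _).trans e2).trans (by linarith)
    · exact ((le_abs_self _).trans e2).trans (by linarith)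
  · -- pointwise inequality
    exact ⟨tp, htp, fun t ht ht1 x v => hpw t ht ht1 x v⟩
  · -- flights
    refine ⟨min tl tc, lt_min htl htc, fun s r hs hsr hr x v => ?_⟩
    obtain ⟨i1, i2⟩ := hfl s r hs hsr (hr.trans (min_le_left _ _)) x v
    refine flow_enn hsr i1 ?_ i2
    refine (pt_psi0_nonneg X s x v).trans (psi0_le_gL h hCg ?_)
    exact hcs s hs (hsr.trans (hr.trans (min_le_right _ _))) x v
  · -- size of the error
    set c1 : ℝ := 2 * (1 + 8 * (1 + 16 * P.Y ^ 4)) with hc1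
    have hc11 : 1 ≤ c1 := by
      rw [hc1]
      have : 0 ≤ P.Y ^ 4 := by positivity
      linarith
    refine ⟨1, Cp * c1, one_pos, by positivity, fun t ht _ x v => ?_⟩
    by_cases hx : ‖x‖ ≤ Cp * t
    · have hx' : ‖x‖ ≤ Cp * c1 * t := by
        refine hx.trans ?_
        have : 0 ≤ Cp * t := by positivity
        nlinarith
      rw [if_pos hx', if_pos hx, ENNReal.ofReal_mul hCp, ENNReal.ofReal_mul hCp, mul_assoc]
      gcongr
      exact pt_w1 hP.Y0.le hC2 hgp.le t x v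
    · rw [if_neg hx, mul_zero, ENNReal.ofReal_zero]
      exact zero_le
  · -- size of the correction
    refine ⟨min tg 1, Cgg + 4 * Zs, lt_min htg one_pos, by positivity, fun t ht ht1 x v => ?_⟩
    have ht2 : t ≤ tg := ht1.trans (min_le_left _ _)
    have ht3 : t ≤ 1 := ht1.trans (min_le_right _ _)
    obtain ⟨-, -, b3, -, b5⟩ := hgL t ht ht2 x v
    by_cases hx : 4 * Zs * t < ‖x‖
    · rw [b3 hx]; exact zero_le
    · push Not at hx
      refine b5.trans ?_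
      gcongr
      unfold errD
      have hx' : ‖x‖ ≤ (Cgg + 4 * Zs) * t := by
        refine hx.trans ?_
        have : 0 ≤ Cgg * t := by positivity
        linarith
      rw [if_pos hx']
      have e1 : (if ‖x‖ < 1 / 4 then (1 : ℝ≥0∞) else 0) ≤ OmE P.Y C2 gp t x v := by
        split_ifs
        · exact one_le_OmE hC2 hgp.le t x v
        · exact zero_le
      refine mul_le_mul' (ENNReal.ofReal_le_ofReal ?_) e1
      calc Cgg * t ^ 2 = Cgg * t * t := by ring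
        _ ≤ Cgg * t * 1 := by gcongr
        _ ≤ (Cgg + 4 * Zs) * t := by nlinarith

/-! ### all the data of the seeds -/

theorem seedData {P : Par} (hP : P.Ok) {N A Yp ey e Q1 κ g1 g2 : ℝ}
    (hK : KOK P.K P.Y N A Yp ey e Q1 κ) (hey : P.ey = ey) (hY : 1 ≤ P.Y) (hg2 : 0 < g2)
    (hg21 : g2 ≤ g1) :
    ∃ (T C d1 c1 : ℝ) (v0 : R3) (W g Ψp : Den),
      SeedData P g1 g2 T (193 / 200 * N) (π * P.K) C d1 c1 v0 W g Ψp := by
  have tent : TentOK N A Yp P.Y ey e :=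
    ⟨hK.N1, hK.AN, hK.Ypd, hY, hK.ey0, hK.eye, hK.e0, hK.e1, hK.e2⟩
  have hg1 : 0 < g1 := hg2.trans_le hg21
  have hK0 : 0 < P.K := by
    have h1 := hK.a3
    linarith
  obtain ⟨B0, d0, δ0, hB0, hd0, hδ0, hf⟩ := f0_ineq hK.Nd tent
  obtain ⟨gp0, d0', hgp0, hd0', hOm⟩ :=
    pw_Om hP tent hK.k1 hK.q1 hK.q4 hK.κ0 hK.κ1 hK.κ2 hK.he
  obtain ⟨gp, hgp, hgp1, hgp2⟩ : ∃ gp : ℝ, 0 < gp ∧ gp ≤ gp0 ∧ 4 * gp ≤ g2 :=
    ⟨min gp0 (g2 / 4), lt_min hgp0 (by linarith), min_le_left _ _, by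
      have := min_le_right gp0 (g2 / 4)
      linarith⟩
  obtain ⟨B0', Z1, hB0', hZ1, hOm⟩ := hOm gp hgp hgp1
  obtain ⟨B, hB1, hB2⟩ : ∃ B : ℝ, B0 ≤ B ∧ B0' ≤ B := ⟨max B0 B0', le_max_left _ _, le_max_right _ _⟩
  obtain ⟨d, hd, hd1, hd2, hd3⟩ : ∃ d : ℝ, 0 < d ∧ d ≤ d0 ∧ d ≤ d0' ∧ d ≤ 1 / 8 :=
    ⟨min d0 (min d0' (1 / 8)), by positivity, min_le_left _ _,
      (min_le_right _ _).trans (min_le_left _ _), (min_le_right _ _).trans (min_le_right _ _)⟩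
  obtain ⟨d1, hd10, hd1δ, hd11⟩ : ∃ d1 : ℝ, 0 < d1 ∧ d1 ≤ δ0 ∧ d1 < 1 :=
    ⟨min δ0 (1 / 2), by positivity, min_le_left _ _, (min_le_right _ _).trans_lt (by norm_num)⟩
  set X : XP := ⟨A, Yp, e, B, d⟩ with hX
  have hBB : 1 ≤ B := hB0.trans hB1
  obtain ⟨Cs, hCs1, -, hsupp, -⟩ := f0_facts tent B d hBB hd
  have hlow : LowOK X P P.Y ey N d1 Cs Cs :=
    ⟨hP, rfl, hey, tent, hBB, hd, hd10, hd11, hCs1, hCs1, fun z v h => ⟨(hsupp z v h).1,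
      (hsupp z v h).2.1⟩⟩
  have hC2 : 0 ≤ 1200 * (2 * π * P.K) := by positivity
  set C2 : ℝ := 1200 * (2 * π * P.K) with hC2d
  obtain ⟨tc, Cg, htc, hCg, hcs⟩ := corr_small hlow
  have hcs1 : ∃ t0 : ℝ, 0 < t0 ∧ ∀ t, 0 < t → t ≤ t0 → ∀ x v,
      |corr X P d1 Cs Cs t x v| ≤ Cg * t ^ 2 ∧
      (corr X P d1 Cs Cs t x v ≠ 0 → ‖t⁻¹ • x‖ ≤ 2 * Cs ∧ ‖v‖ ≤ 2 * Cs) := ⟨tc, htc, hcs⟩
  obtain ⟨Tu, Cu, hTu, hCu, hup⟩ := up_fin hP hY hg2 hg21 hgp hgp2 hC2 hZ1 X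
    (hOm B d hB2 hd hd2)
  obtain ⟨Tl, Cl, hTl, hCl, hlw⟩ := low_fin hlow hCg hcs1
    (fun z v k h1 h2 h3 h4 => hf B d d1 hB1 hd hd1 hd10 hd1δ z v k h1 h2 h3 h4)
    hg2 hg21 hgp hgp2 hC2
  obtain ⟨Tp, Cp, hTp, hTp1, hCp, hpt⟩ := pt_fields hlow hd3 hC2 hgp.le Cg ⟨tc, Cg, htc, hCg, hcs⟩
  obtain ⟨Tf, hTf, Bf, hBf, hfin⟩ := Om_B2 hP hg2 hg21 hgp.le hgp2 hC2
  set T : ℝ := min (min Tu Tl) (min (min Tp Tf) (g1 ^ 2)) with hT
  have hT0 : 0 < T := by positivity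
  have h1 : T ≤ Tu := (min_le_left _ _).trans (min_le_left _ _)
  have h2 : T ≤ Tl := (min_le_left _ _).trans (min_le_right _ _)
  have h3 : T ≤ Tp := (min_le_right _ _).trans ((min_le_left _ _).trans (min_le_left _ _))
  have h4 : T ≤ Tf := (min_le_right _ _).trans ((min_le_left _ _).trans (min_le_right _ _))
  have h5 : T ≤ g1 ^ 2 := (min_le_right _ _).trans (min_le_right _ _)
  have k1 : Cu ≤ Cu + Cl + Cp := by linarith
  have k2 : Cl ≤ Cu + Cl + Cp := by linarith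
  have k3 : Cp ≤ Cu + Cl + Cp := by linarith
  refine ⟨T, Cu + Cl + Cp, d1, 1 / 16, v00, OmE P.Y C2 gp,
    fun t x v => ENNReal.ofReal (gL X P d1 Cs Cs Cg t x v), psiP X, ?_⟩
  exact
    { T0 := hT0
      T1 := h3.trans hTp1
      hg1 := hg1
      hg2 := hg2.le
      Tg := by
        have : √T ≤ g1 := by
          rw [Real.sqrt_le_left hg1.le]
          exact h5
        linarith
      A20 := by positivity
      A12 := hK.a2
      C0 := by positivity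
      d10 := hd10
      c10 := by norm_num
      mW := meas3_OmE _ _ _
      mg := M60.meas3_gL _ _ _ _ _ _
      mG := M60.meas3_GA_phiE P hP (M60.meas3_psiP X)
      pW := fun t v => perG_OmE _ _ _ t v
      up := hup T _ hT0 h1 k1
      low := hlw T _ hT0 h2 k2
      crude := fun t ht htT x v => by
        refine ((hpt t ht (htT.trans h3) x v).1).trans ?_
        gcongr
      fin := ⟨Bf, hBf, fun t ht htT => by
        refine le_trans ?_ (hfin t ht (htT.trans h4))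
        unfold MW
        refine lintegral_mono fun x => lintegral_mono fun v => ?_
        refine mul_le_mul' ?_ le_rfl
        calc OmE P.Y C2 gp t x v = 1 * OmE P.Y C2 gp t x v := (one_mul _).symm
          _ ≤ _ := by
            refine mul_le_mul' ?_ le_rfl
            rw [← ENNReal.ofReal_one]
            exact ENNReal.ofReal_le_ofReal (by linarith [norm_nonneg v])⟩
      gs := fun t ht htT x v hx => (hpt t ht (htT.trans h3) x v).2.1 hx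
      gb := fun t ht htT x v => by
        refine ((hpt t ht (htT.trans h3) x v).2.2.1).trans ?_
        gcongr
      w4 := fun t ht htT x v => by
        refine ((hpt t ht (htT.trans h3) x v).2.2.2.1).trans ?_
        gcongr
      sg := fun t ht htT x v hx hv => (hpt t ht (htT.trans h3) x v).2.2.2.2.1 hx hv
      sW := fun t ht htT x v hx hv => by
        refine ((hpt t ht (htT.trans h3) x v).2.2.2.2.2 hx hv).trans ?_
        gcongr }

end Crest.Agent.R68.X2.Fin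

namespace Crest.Agent.R68.X2

open Crest.Agent.R68.L (Den)

/-- **(X2), the final statement** -/
theorem X2Out'_holds {Y g1 g2 : ℝ} (hY : 1 ≤ Y) (hg2 : 0 < g2) (hg21 : g2 ≤ g1) :
    L.X2Out' Y g1 g2 := by
  obtain ⟨K0, hK0⟩ := exists_K0 hY
  refine ⟨K0, fun K hK => ?_⟩
  obtain ⟨N, A, Yp, ey, e, Q1, κ, h⟩ := hK0 K hK
  refine ⟨ey, h.ey0, h.ey1, ?_⟩
  have hKK : 0 < K := by
    have := h.a3
    linarith
  filter_upwards [eventually_ge_atTop 3] with p hp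
  filter_upwards [R68.ev_Ok K Y ey p hKK.le (by linarith : (0 : ℝ) < Y) h.ey0 hp] with j0 hP
  have hK' : KOK (par K Y ey p j0).K (par K Y ey p j0).Y N A Yp ey e Q1 κ := h
  obtain ⟨T, C, d1, c1, v0, W, g, Ψp, S⟩ := Fin.seedData hP hK' rfl hY hg2 hg21
  exact X2_core hP S h.a3 h.a1

end Crest.Agent.R68.X2
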