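import Crest.Agent.R68.LGlueB
import Crest.Agent.R68.SOutF
import Crest.Agent.R68.X1
import Crest.Agent.R68.X2Fin

/-!
# Row 68, PART L (helper685): the output of part L for `Main0`
-/

set_option autoImplicit false
open MeasureTheory Set Filter
open scoped ENNReal Real
open Crest.AnalysisR.VecCalc3 Crest.AnalysisR.PDE.Boltzmann

noncomputable section

namespace Crest.Agent.R68.L

/-- part L from the mass bound `X2Out'` -/
theorem LOut_of_X2 {Y : ℝ} (hY : 1 ≤ Y) (hX2 : X2Out' Y (1 / 25) (1 / 25)) : Main0.LOut Y :=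
  LOut_of hY (SOut_holds Y (1 / 25) hY (by norm_num)) (SOut_holds Y (1 / 50) hY (by norm_num))
    (X1.X1Out_holds hY (by norm_num) (by norm_num)) hX2

/-- part L -/
theorem LOut_holds_of {Y : ℝ} (hY : 1 ≤ Y) : Main0.LOut Y :=
  LOut_of_X2 hY (X2.X2Out'_holds hY (by norm_num) le_rfl)

/-- part L at the height used in `Main0` -/
theorem LOut_holds : Main0.LOut 10 := LOut_holds_of (by norm_num)

end Crest.Agent.R68.L
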