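import Crest.Agent.R68.LExt
import Crest.Agent.R68.NExt2

/-!
# Row 68, Part L: from the solver bound, (X2) and the slaving bound to `LInp` on `(0,T]`
-/

set_option autoImplicit false
open MeasureTheory Set Filter
open scoped ENNReal Topology
open Crest.AnalysisR.VecCalc3 Crest.AnalysisR.PDE.Boltzmann

noncomputable section

namespace Crest.Agent.R68.L

open Crest.Agent.R68.A

/-- Fubini over `(0,t0) × cell × R³` -/
theorem lintegral_cell3 {t0 : ℝ} {F : Den} (hF : Meas3 F) :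
    ∫⁻ p in Ioo 0 t0 ×ˢ (cellG ×ˢ (univ : Set R3)), unc F p =
      ∫⁻ t in Ioo 0 t0, ∫⁻ x in cellG, ∫⁻ v, F t x v := by
  have e1 : (volume : Measure XX).restrict (Ioo 0 t0 ×ˢ (cellG ×ˢ (univ : Set R3))) =
      ((volume : Measure ℝ).restrict (Ioo 0 t0)).prod
        (((volume : Measure P2).restrict cellG).prod (volume : Measure R3)) := by
    have e2 : ((volume : Measure P2).restrict cellG).prod (volume : Measure R3) =
        ((volume : Measure P2).prod (volume : Measure R3)).restrict (cellG ×ˢ univ) := by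
      rw [← Measure.prod_restrict, Measure.restrict_univ]
    rw [e2, Measure.prod_restrict]
    rfl
  have hFu : Measurable (unc F) := hF
  rw [e1, lintegral_prod _ hFu.aemeasurable]
  refine lintegral_congr fun t => ?_
  have hm : Measurable fun q : P2 × R3 => unc F (t, q) := hFu.comp (by fun_prop)
  rw [lintegral_prod _ hm.aemeasurable]
  rfl

theorem not_ae_zero {t0 T : ℝ} (htT : t0 ≤ T) {F : Den} (hF : Meas3 F)
    (hpos : 0 < ∫⁻ t in Ioo 0 t0, ∫⁻ x in cellG, ∫⁻ v, F t x v) :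
    ¬ ∀ᵐ p : ℝ × P2 × R3, p.1 ∈ Ioo 0 T → F p.1 p.2.1 p.2.2 = 0 := by
  intro h
  rw [← lintegral_cell3 hF] at hpos
  have hJ : MeasurableSet (Ioo 0 t0 ×ˢ (cellG ×ˢ (univ : Set R3))) :=
    measurableSet_Ioo.prod (measurableSet_cellG.prod MeasurableSet.univ)
  have : ∫⁻ p in Ioo 0 t0 ×ˢ (cellG ×ˢ (univ : Set R3)), unc F p = 0 := by
    refine (lintegral_eq_zero_iff hF).2 ?_
    refine (ae_restrict_iff' hJ).2 ?_
    filter_upwards [h] with p hp hpJ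
    exact hp ⟨hpJ.1.1, hpJ.1.2.trans_le htT⟩
  rw [this] at hpos
  exact lt_irrefl _ hpos

/-- `(K2)` without the velocity gain -/
theorem K2_plain {P : Par} (h : P.Ok) {g1 g2 b s : ℝ} (hg1 : 0 < g1) (hg2 : 0 ≤ g2) (hs : 0 < s)
    (hs1 : s ≤ 1) (hsg : √s / 100 ≤ g1 / 2) (x : P2) (v : R3) :
    Gf (phiE P) (B2 P g1 g2 b) s x v ≤
      ENNReal.ofReal (CT P.Y g1 g2 * P.K / s) * B2 P g1 g2 b s x v := by
  refine (K2_Gf h hg1 hg2 hs hs1 hsg x v).trans (mul_le_mul' (ENNReal.ofReal_le_ofReal ?_) le_rfl)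
  have h1 : 0 ≤ CT P.Y g1 g2 * P.K / s :=
    div_nonneg (mul_nonneg (CT_nonneg _ _ _) h.K0) hs.le
  have hV : 0 < VV P.Y := by have := h.Y0; unfold VV; positivity
  have h2 : VV P.Y / max (VV P.Y) ‖v‖ ≤ 1 :=
    div_le_one_of_le₀ (le_max_left _ _) (hV.le.trans (le_max_left _ _))
  exact mul_le_of_le_one_right h1 h2

theorem linp_of {P : Par} (h : P.Ok) {T t0 g1 g2 g1' g2' a b : ℝ}
    (hg1 : 0 < g1) (hg2 : 0 < g2) (hg1' : 0 < g1') (hg2' : 0 < g2')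
    (ht0 : 0 < t0) (ht0T : t0 ≤ T) (hT1 : T ≤ 1) (hTg : √T / 100 ≤ g1 / 2)
    (hTg' : √T / 100 ≤ g1' / 2) (hsm : (P.Y + 2) * (t0 + P.dl) < 7 / 20) (ha : 3 ≤ a)
    (hb : 0 < b)
    (hsol' : ∃ C : ℝ≥0∞, C ≠ ⊤ ∧ ∀ (σ : Den) (A : ℝ≥0∞), Meas3 σ → PerF σ →
      (∀ t ∈ Ioc 0 t0, ∀ x v, σ t x v ≤ A * B2 P g1' g2' (b - 1) t x v) →
      ∀ t ∈ Ioc 0 t0, ∀ x v, sol (phiE P) σ t x v ≤ C * A * B2 P g1' g2' b t x v)
    {CH c0 : ℝ≥0∞} {tau : ℕ → ℝ} {sg : ℕ → Den} (hX : X2Out P g1 g2 t0 a CH c0 tau sg)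
    {CE : ℝ≥0∞} (hCE : CE ≠ ⊤)
    (hsolX : ∀ n, ∀ t ∈ Ioc 0 t0, ∀ x v,
      sol (phiE P) (sg n) t x v ≤ CE * B2 P g1 g2 (a - 2) t x v) :
    ∃ (Hs : Den) (CL : ℝ≥0∞), N.LInp P T Hs g1 g2 g1' g2' a b CL := by
  have hD := parD_of_ok h
  have hφ : Meas3 (phiE P) := meas3_phiE h
  have pφ : PerF (phiE P) := perG_phiE P
  have hCK : 0 ≤ CT P.Y g1 g2 * P.K := mul_nonneg (CT_nonneg _ _ _) h.K0
  have ht01 : t0 ≤ 1 := ht0T.trans hT1
  have hsg0 : √t0 / 100 ≤ g1 / 2 := by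
    have := Real.sqrt_le_sqrt ht0T
    linarith
  -- the ancient solution on `(0,t0]`
  obtain ⟨H, hHm, pH, hHeq, ⟨C1, hC1, hHle⟩, hHpos⟩ := ancient_of_X2 (CK := CT P.Y g1 g2 * P.K)
    hD hg1 hg2 ht01 hsg0 hsm ha hCK hφ pφ (nullOK hφ) (twoOK hφ)
    (fun s hs x v => K2_plain h hg1 hg2.le hs.1 (hs.2.trans ht01)
      (by have := Real.sqrt_le_sqrt hs.2; linarith) x v)
    hX (CE := max 1 CE) (max_ne_top ENNReal.one_ne_top hCE) (le_max_left _ _)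
    (fun n t ht x v => (hsolX n t ht x v).trans (mul_le_mul' (le_max_right _ _) le_rfl))
  -- extension
  have hW := ND.wtHyp_EE h (g1 := g1) (g2 := g2) (T := T) hg1 hg2.le hT1 hTg
  have ha2 : 0 < a - 2 := by linarith
  obtain ⟨G, B, hB, hGm, pG, hGH, hGeq, hGle⟩ := exists_ext hφ pφ hW ht0 ht0T hHm pH hHeq
    (c := a - 2) ha2 (A := C1.toReal) ENNReal.toReal_nonneg (by
      intro t ht x v
      refine (hHle t ht x v).trans_eq ?_
      rw [ND.B2_eq_EE P g1 g2 (a - 2) ht.1, ENNReal.ofReal_mul ENNReal.toReal_nonneg,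
        ENNReal.ofReal_toReal hC1, mul_assoc])
  obtain ⟨CL, hCL, hneu⟩ := ND.neu_T h hg1' hg2'.le hT1 hTg' ht0 ht0T hb hsol'
  refine ⟨G, max CL (ENNReal.ofReal B), ⟨max_ne_top hCL ENNReal.ofReal_ne_top, ?_, hGm, pG, ?_, ?_,
    ?_⟩⟩
  · intro t ht x v
    refine (hneu t ht x v).trans ?_
    gcongr
    exact le_max_left _ _
  · intro t ht x v
    rw [hGeq t ht x v]
    exact (TT_eq hφ hGm (fun s hs y z => rfl) x v).symm
  · intro t ht x v
    refine (hGle t ht x v).trans ?_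
    rw [ENNReal.ofReal_mul hB]
    gcongr
    exact le_max_right _ _
  · refine not_ae_zero ht0T hGm (lt_of_lt_of_eq hHpos ?_)
    refine setLIntegral_congr_fun measurableSet_Ioo fun t ht => ?_
    refine lintegral_congr fun x => lintegral_congr fun v => ?_
    exact (hGH t ⟨ht.1, ht.2.le⟩ x v).symm

end Crest.Agent.R68.L
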