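import Crest.Agent.R68.FLattice

/-!
# Row 68, PART L (helper685): envelope `EE = B2 .. 0` along flights, elementary integrals
-/

set_option autoImplicit false
open MeasureTheory Set
open scoped ENNReal
open Crest.AnalysisR.VecCalc3 Crest.AnalysisR.PDE.Boltzmann

noncomputable section

namespace Crest.Agent.R68.L

/-- `m = max(|v|, |x|_Γ / t)` -/
def mm (t : ℝ) (x : P2) (v : R3) : ℝ := max ‖v‖ (distG x / t)

/-- the envelope of Part L -/
def EE (P : Par) (g1 g2 : ℝ) (t : ℝ) (x : P2) (v : R3) : ℝ≥0∞ := B2 P g1 g2 0 t x v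

lemma EE_eq (P : Par) (g1 g2 t : ℝ) (x : P2) (v : R3) :
    EE P g1 g2 t x v =
      ENNReal.ofReal (Real.exp (-(g1 - √t / 100) * ‖v‖ ^ 2) * Real.exp (-g2 * mm t x v ^ 2)) *
        Dm P t x v := by
  unfold EE B2 mm gau
  rw [Real.rpow_zero, one_mul]

/-- Duhamel integral started at `τ` -/
def Du (τ : ℝ) (q : ℝ → P2 → R3 → ℝ≥0∞) (t : ℝ) (x : P2) (v : R3) : ℝ≥0∞ :=
  ∫⁻ s in Ioo τ t, q s (x - (t - s) • bar v) v

lemma norm_bar_le (v : R3) : ‖bar v‖ ≤ ‖v‖ := by
  have h : ∀ i : Fin 3, |v i| ≤ ‖v‖ := fun i => by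
    have := EuclideanSpace.norm_eq v
    rw [this]
    apply Real.le_sqrt_of_sq_le
    rw [sq_abs]
    have : v i ^ 2 = ‖v i‖ ^ 2 := by rw [Real.norm_eq_abs, sq_abs]
    rw [this]
    exact Finset.single_le_sum (f := fun i => ‖v i‖ ^ 2) (fun _ _ => by positivity) (Finset.mem_univ i)
  rw [bar, Prod.norm_mk]
  exact max_le (by rw [Real.norm_eq_abs]; exact h 0) (by rw [Real.norm_eq_abs]; exact h 1)

lemma distG_flight_le {s t : ℝ} (hst : s ≤ t) (x : P2) (v : R3) :
    distG x ≤ distG (x - (t - s) • bar v) + (t - s) * ‖v‖ := by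
  have h := distG_le_add (x - (t - s) • bar v) ((t - s) • bar v)
  rw [sub_add_cancel, norm_smul, Real.norm_eq_abs, abs_of_nonneg (sub_nonneg.2 hst)] at h
  have := mul_le_mul_of_nonneg_left (norm_bar_le v) (sub_nonneg.2 hst)
  linarith

lemma mm_nonneg (t : ℝ) (x : P2) (v : R3) : 0 ≤ mm t x v := le_max_of_le_left (norm_nonneg _)

/-- `m` is non-increasing along free flights -/
lemma mm_flight {s t : ℝ} (hs : 0 < s) (hst : s ≤ t) (x : P2) (v : R3) :
    mm t x v ≤ mm s (x - (t - s) • bar v) v := by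
  have ht : 0 < t := hs.trans_le hst
  unfold mm
  refine max_le (le_max_left _ _) ?_
  have h := distG_flight_le hst x v
  set z := distG (x - (t - s) • bar v) / s with hz
  have hz' : distG (x - (t - s) • bar v) = z * s := by rw [hz]; field_simp
  rw [div_le_iff₀ ht]
  have h1 : z ≤ max ‖v‖ z := le_max_right _ _
  have h2 : ‖v‖ ≤ max ‖v‖ z := le_max_left _ _
  rw [hz'] at h
  nlinarith [mul_le_mul_of_nonneg_right h1 hs.le,
    mul_le_mul_of_nonneg_left h2 (sub_nonneg.2 hst)]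

/-- far from the lattice `m²` grows backwards -/
lemma mm_far {s t V0 : ℝ} (hs : 0 < s) (hst : s ≤ t) {x : P2} {v : R3}
    (hv : ‖v‖ ≤ V0) (hz : 2 * V0 ≤ distG x / t) :
    mm t x v ^ 2 + (distG x / t) ^ 2 * ((t - s) / t) ≤ mm s (x - (t - s) • bar v) v ^ 2 := by
  have ht : 0 < t := hs.trans_le hst
  have hV : 0 ≤ V0 := (norm_nonneg v).trans hv
  set z := distG x / t with hzd
  have hx : distG x = z * t := by rw [hzd]; field_simp
  have hm : mm t x v = z := by
    unfold mm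
    exact max_eq_right (by linarith)
  have h := distG_flight_le hst x v
  have h1 : (t - s) * ‖v‖ ≤ (t - s) * V0 := mul_le_mul_of_nonneg_left hv (sub_nonneg.2 hst)
  have h2 : z * t - (t - s) * V0 ≤ distG (x - (t - s) • bar v) := by rw [← hx]; linarith
  have h3 : z + (z / 2) * ((t - s) / t) ≤ distG (x - (t - s) • bar v) / s := by
    rw [le_div_iff₀ hs]
    refine le_trans ?_ h2
    have h4 : (t - s) / t * s ≤ t - s := by
      rw [div_mul_eq_mul_div, div_le_iff₀ ht]
      nlinarith [sub_nonneg.2 hst]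
    have h5 : z / 2 * ((t - s) / t * s) ≤ z / 2 * (t - s) :=
      mul_le_mul_of_nonneg_left h4 (by linarith)
    nlinarith [mul_le_mul_of_nonneg_right (show V0 ≤ z / 2 by linarith) (sub_nonneg.2 hst)]
  have h6 : z + (z / 2) * ((t - s) / t) ≤ mm s (x - (t - s) • bar v) v :=
    h3.trans (le_max_right _ _)
  have h7 : 0 ≤ (t - s) / t := div_nonneg (sub_nonneg.2 hst) ht.le
  have hz0 : 0 ≤ z := by linarith
  rw [hm]
  have h8 : 0 ≤ z + (z / 2) * ((t - s) / t) := by positivity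
  calc z ^ 2 + z ^ 2 * ((t - s) / t) ≤ (z + (z / 2) * ((t - s) / t)) ^ 2 := by nlinarith [sq_nonneg (z / 2 * ((t - s) / t))]
    _ ≤ _ := pow_le_pow_left₀ h8 h6 2

lemma gau_le {g1 s t : ℝ} (hst : s ≤ t) (v : R3) :
    Real.exp (-(g1 - √s / 100) * ‖v‖ ^ 2) ≤ Real.exp (-(g1 - √t / 100) * ‖v‖ ^ 2) := by
  apply Real.exp_le_exp.2
  have := Real.sqrt_le_sqrt hst
  nlinarith [sq_nonneg ‖v‖]

/-- the envelope along a flight, with the far gain -/
lemma EE_flight_far {P : Par} {g1 g2 : ℝ} (hg2 : 0 ≤ g2) {s t q : ℝ} {x : P2} {v : R3}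
    (hst : s ≤ t) (hD : Dm P s (x - (t - s) • bar v) v ≤ Dm P t x v)
    (hq : mm t x v ^ 2 + q ≤ mm s (x - (t - s) • bar v) v ^ 2) :
    EE P g1 g2 s (x - (t - s) • bar v) v ≤ ENNReal.ofReal (Real.exp (-g2 * q)) * EE P g1 g2 t x v := by
  rw [EE_eq, EE_eq, ← mul_assoc, ← ENNReal.ofReal_mul (Real.exp_pos _).le]
  refine mul_le_mul' (ENNReal.ofReal_le_ofReal ?_) hD
  have h1 := gau_le (g1 := g1) hst v
  have h2 : Real.exp (-g2 * mm s (x - (t - s) • bar v) v ^ 2) ≤
      Real.exp (-g2 * q) * Real.exp (-g2 * mm t x v ^ 2) := by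
    rw [← Real.exp_add]
    apply Real.exp_le_exp.2
    nlinarith
  calc _ ≤ Real.exp (-(g1 - √t / 100) * ‖v‖ ^ 2) * (Real.exp (-g2 * q) * Real.exp (-g2 * mm t x v ^ 2)) :=
        mul_le_mul h1 h2 (Real.exp_pos _).le (Real.exp_pos _).le
    _ = _ := by ring

lemma EE_flight {P : Par} {g1 g2 : ℝ} (hg2 : 0 ≤ g2) {s t : ℝ} {x : P2} {v : R3}
    (hs : 0 < s) (hst : s ≤ t) (hD : Dm P s (x - (t - s) • bar v) v ≤ Dm P t x v) :
    EE P g1 g2 s (x - (t - s) • bar v) v ≤ EE P g1 g2 t x v := by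
  have h := EE_flight_far (g1 := g1) hg2 (q := 0) hst hD
    (by simpa using pow_le_pow_left₀ (mm_nonneg _ _ _) (mm_flight hs hst x v) 2)
  simpa using h

/-! ### elementary integrals -/

lemma lint_pow {b t : ℝ} (hb : 1 ≤ b) (ht : 0 < t) :
    (∫⁻ s in Ioo (0 : ℝ) t, ENNReal.ofReal (s ^ (b - 1))) ≤ ENNReal.ofReal (t ^ b / b) := by
  have hint : IntervalIntegrable (fun s : ℝ => s ^ (b - 1)) volume 0 t :=
    intervalIntegral.intervalIntegrable_rpow' (by linarith)
  have h1 : (∫⁻ s in Ioc (0 : ℝ) t, ENNReal.ofReal (s ^ (b - 1))) =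
      ENNReal.ofReal (∫ s in (0 : ℝ)..t, s ^ (b - 1)) := by
    rw [intervalIntegral.integral_of_le ht.le]
    rw [ofReal_integral_eq_lintegral_ofReal hint.1]
    filter_upwards [ae_restrict_mem measurableSet_Ioc] with s hs
    exact Real.rpow_nonneg hs.1.le _
  calc _ ≤ ∫⁻ s in Ioc (0 : ℝ) t, ENNReal.ofReal (s ^ (b - 1)) :=
        lintegral_mono_set Ioo_subset_Ioc_self
    _ = _ := h1
    _ ≤ _ := by
        apply ENNReal.ofReal_le_ofReal
        rw [integral_rpow (Or.inl (by linarith))]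
        rw [show b - 1 + 1 = b by ring, Real.zero_rpow (by linarith)]
        simp

lemma lint_inv {τ t lam : ℝ} (ht : 0 < t) (hl : 0 ≤ lam) (hl2 : lam ≤ 1 / 2) (hτ : τ = t * (1 - lam)) :
    (∫⁻ s in Ioo τ t, ENNReal.ofReal (1 / s)) ≤ ENNReal.ofReal (2 * lam) := by
  have hτ0 : 0 < τ := by rw [hτ]; exact mul_pos ht (by linarith)
  calc (∫⁻ s in Ioo τ t, ENNReal.ofReal (1 / s)) ≤ ∫⁻ _ in Ioo τ t, ENNReal.ofReal (1 / τ) := by
        refine setLIntegral_mono measurable_const fun s hs => ENNReal.ofReal_le_ofReal ?_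
        exact one_div_le_one_div_of_le hτ0 hs.1.le
    _ = ENNReal.ofReal (1 / τ) * ENNReal.ofReal (t - τ) := by
        rw [setLIntegral_const, Real.volume_Ioo]
    _ = ENNReal.ofReal (1 / τ * (t - τ)) := by rw [ENNReal.ofReal_mul (by positivity)]
    _ ≤ _ := by
        apply ENNReal.ofReal_le_ofReal
        rw [one_div, inv_mul_le_iff₀ hτ0, hτ]
        nlinarith [mul_nonneg ht.le hl, mul_nonneg ht.le (mul_nonneg hl (show 0 ≤ 1 / 2 - lam by linarith))]

lemma lint_far {b t q : ℝ} (hb : 1 ≤ b) (ht : 0 < t) (hq : 0 < q) :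
    (∫⁻ s in Ioo (0 : ℝ) t, ENNReal.ofReal (s ^ (b - 1) * Real.exp (-q * ((t - s) / t)))) ≤
      ENNReal.ofReal (t ^ b / q) := by
  have hcont : Continuous (fun s : ℝ => Real.exp (-q * ((t - s) / t))) := by fun_prop
  have h2 : (∫⁻ s in Ioc (0 : ℝ) t, ENNReal.ofReal (Real.exp (-q * ((t - s) / t)))) =
      ENNReal.ofReal (∫ s in (0 : ℝ)..t, Real.exp (-q * ((t - s) / t))) := by
    rw [intervalIntegral.integral_of_le ht.le]
    rw [ofReal_integral_eq_lintegral_ofReal (hcont.intervalIntegrable 0 t).1]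
    exact Filter.Eventually.of_forall fun s => (Real.exp_pos _).le
  have h3 : (∫ s in (0 : ℝ)..t, Real.exp (-q * ((t - s) / t))) = t / q - t / q * Real.exp (-q) := by
    have hd : ∀ s ∈ uIcc (0 : ℝ) t, HasDerivAt (fun s : ℝ => t / q * Real.exp (-q * ((t - s) / t)))
        (Real.exp (-q * ((t - s) / t))) s := by
      intro s _
      have h4 : HasDerivAt (fun s : ℝ => -q * ((t - s) / t)) (q / t) s := by
        have h5 := (((hasDerivAt_id s).const_sub t).div_const t).const_mul (-q)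
        have e : -q * (-1 / t) = q / t := by ring
        rw [e] at h5
        exact h5
      have h6 := (h4.exp).const_mul (t / q)
      have e : t / q * (Real.exp (-q * ((t - s) / t)) * (q / t)) = Real.exp (-q * ((t - s) / t)) := by
        field_simp
      rw [e] at h6
      exact h6
    rw [intervalIntegral.integral_eq_sub_of_hasDerivAt hd (hcont.intervalIntegrable 0 t)]
    simp [ht.ne']
  calc (∫⁻ s in Ioo (0 : ℝ) t, ENNReal.ofReal (s ^ (b - 1) * Real.exp (-q * ((t - s) / t))))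
      ≤ ∫⁻ s in Ioo (0 : ℝ) t, ENNReal.ofReal (t ^ (b - 1)) * ENNReal.ofReal (Real.exp (-q * ((t - s) / t))) := by
        refine setLIntegral_mono (by fun_prop) fun s hs => ?_
        rw [← ENNReal.ofReal_mul (by positivity)]
        apply ENNReal.ofReal_le_ofReal
        exact mul_le_mul_of_nonneg_right (Real.rpow_le_rpow hs.1.le hs.2.le (by linarith)) (Real.exp_pos _).le
    _ = ENNReal.ofReal (t ^ (b - 1)) * ∫⁻ s in Ioo (0 : ℝ) t, ENNReal.ofReal (Real.exp (-q * ((t - s) / t))) :=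
        lintegral_const_mul' _ _ ENNReal.ofReal_ne_top
    _ ≤ ENNReal.ofReal (t ^ (b - 1)) * ENNReal.ofReal (t / q) := by
        gcongr
        calc _ ≤ _ := lintegral_mono_set Ioo_subset_Ioc_self
          _ = _ := h2
          _ ≤ _ := by
              rw [h3]
              apply ENNReal.ofReal_le_ofReal
              have : 0 ≤ t / q * Real.exp (-q) := by positivity
              linarith
    _ = ENNReal.ofReal (t ^ b / q) := by
        rw [← ENNReal.ofReal_mul (by positivity)]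
        congr 1
        rw [Real.rpow_sub_one ht.ne']
        field_simp

end Crest.Agent.R68.L
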