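import Crest.Agent.R68.LSlave1

/-!
# Row 68, PART L (helper685): the slaving theorem L2, abstract in the gain operator

`SlaveHyp` collects the inputs (K1), (K2), (K4), (S); `slave` is theorem L2 of note 10436.
-/

set_option autoImplicit false
open MeasureTheory Set
open scoped ENNReal
open Crest.AnalysisR.VecCalc3 Crest.AnalysisR.PDE.Boltzmann

noncomputable section

namespace Crest.Agent.R68.L

/-- one collision followed by free flight, started at `τ` -/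
def DG (Gf : (ℝ → P2 → R3 → ℝ≥0∞) → ℝ → P2 → R3 → ℝ≥0∞) (τ : ℝ)
    (h : ℝ → P2 → R3 → ℝ≥0∞) : ℝ → P2 → R3 → ℝ≥0∞ := Du τ (Gf h)

/-- `ω = exp(g₂ m²)` -/
def om (g2 t : ℝ) (x : P2) (v : R3) : ℝ≥0∞ := ENNReal.ofReal (Real.exp (g2 * mm t x v ^ 2))

/-- abstract positive linear operator acting at fixed `(t,x)` -/
structure GLin (Gf : (ℝ → P2 → R3 → ℝ≥0∞) → ℝ → P2 → R3 → ℝ≥0∞)
    (E : ℝ → P2 → R3 → ℝ≥0∞) : Prop where
  /-- monotone and homogeneous at fixed `(t,x)` -/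
  le : ∀ (c : ℝ≥0∞) (t : ℝ) (x : P2) (f g : ℝ → P2 → R3 → ℝ≥0∞), c ≠ ⊤ →
    (∀ v, f t x v ≤ c * g t x v) → ∀ v, Gf f t x v ≤ c * Gf g t x v
  /-- subadditive against multiples of the envelope -/
  add : ∀ (c : ℝ≥0∞) (t : ℝ) (x : P2) (g : ℝ → P2 → R3 → ℝ≥0∞), c ≠ ⊤ → 0 < t →
    ∀ v, Gf (fun t x v => c * E t x v + g t x v) t x v ≤ c * Gf E t x v + Gf g t x v

lemma GLin.mono {Gf : (ℝ → P2 → R3 → ℝ≥0∞) → ℝ → P2 → R3 → ℝ≥0∞} {E : ℝ → P2 → R3 → ℝ≥0∞}
    (hG : GLin Gf E) {t : ℝ} {x : P2} {f g : ℝ → P2 → R3 → ℝ≥0∞}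
    (h : ∀ v, f t x v ≤ g t x v) (v : R3) : Gf f t x v ≤ Gf g t x v := by
  have := hG.le 1 t x f g ENNReal.one_ne_top (fun v => by rw [one_mul]; exact h v) v
  rwa [one_mul] at this

variable {Gf : (ℝ → P2 → R3 → ℝ≥0∞) → ℝ → P2 → R3 → ℝ≥0∞}

lemma Du_mono {τ t : ℝ} {q r : ℝ → P2 → R3 → ℝ≥0∞} {x : P2} {v : R3}
    (h : ∀ s ∈ Ioo τ t, q s (x - (t - s) • bar v) v ≤ r s (x - (t - s) • bar v) v) :
    Du τ q t x v ≤ Du τ r t x v := by
  unfold Du
  exact lintegral_mono_ae ((ae_restrict_mem measurableSet_Ioo).mono h)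

lemma om_ne_top (g2 t : ℝ) (x : P2) (v : R3) : om g2 t x v ≠ ⊤ := ENNReal.ofReal_ne_top

lemma om_ne_zero (g2 t : ℝ) (x : P2) (v : R3) : om g2 t x v ≠ 0 := by
  unfold om; simp [Real.exp_pos]

lemma om_flight {g2 s t : ℝ} (hg2 : 0 ≤ g2) (hs : 0 < s) (hst : s ≤ t) (x : P2) (v : R3) :
    om g2 t x v ≤ om g2 s (x - (t - s) • bar v) v := by
  unfold om
  apply ENNReal.ofReal_le_ofReal
  apply Real.exp_le_exp.2
  exact mul_le_mul_of_nonneg_left
    (pow_le_pow_left₀ (mm_nonneg _ _ _) (mm_flight hs hst x v) 2) hg2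

/-- the weight `ω` can be moved inside the iterates, at the price `e^{g₂U²}` per collision -/
lemma om_iter {E : ℝ → P2 → R3 → ℝ≥0∞} (hG : GLin Gf E) {g2 : ℝ} (hg2 : 0 ≤ g2) {cU : ℝ≥0∞}
    (hcU : cU ≠ ⊤)
    (K4 : ∀ (h : ℝ → P2 → R3 → ℝ≥0∞) (s : ℝ) (x : P2) (v : R3), 0 < s →
      om g2 s x v * Gf h s x v ≤ cU * Gf (fun s x v => om g2 s x v * h s x v) s x v)
    {τ : ℝ} (hτ : 0 < τ) (h : ℝ → P2 → R3 → ℝ≥0∞) (j : ℕ) :
    ∀ (t : ℝ) (x : P2) (v : R3), τ ≤ t → om g2 t x v * ((DG Gf τ)^[j] h) t x v ≤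
      cU ^ j * ((DG Gf τ)^[j] (fun s x v => om g2 s x v * h s x v)) t x v := by
  induction j with
  | zero => intro t x v _; simp
  | succ j ih =>
    intro t x v _
    rw [Function.iterate_succ_apply', Function.iterate_succ_apply']
    set f := (DG Gf τ)^[j] h with hf
    set f' := (DG Gf τ)^[j] (fun s x v => om g2 s x v * h s x v) with hf'
    show om g2 t x v * Du τ (Gf f) t x v ≤ cU ^ (j + 1) * Du τ (Gf f') t x v
    unfold Du
    rw [← lintegral_const_mul' _ _ (om_ne_top _ _ _ _),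
      ← lintegral_const_mul' _ _ (ENNReal.pow_ne_top hcU)]
    refine lintegral_mono_ae ((ae_restrict_mem measurableSet_Ioo).mono fun s hs => ?_)
    have hs0 : 0 < s := hτ.trans hs.1
    calc om g2 t x v * Gf f s (x - (t - s) • bar v) v
        ≤ om g2 s (x - (t - s) • bar v) v * Gf f s (x - (t - s) • bar v) v :=
          mul_le_mul' (om_flight hg2 hs0 hs.2.le x v) le_rfl
      _ ≤ cU * Gf (fun s x v => om g2 s x v * f s x v) s (x - (t - s) • bar v) v := K4 _ _ _ _ hs0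
      _ ≤ cU * (cU ^ j * Gf f' s (x - (t - s) • bar v) v) := by
          refine mul_le_mul' le_rfl (hG.le _ _ _ _ _ (ENNReal.pow_ne_top hcU) (fun w => ?_) v)
          exact ih s _ w hs.1.le
      _ = _ := by ring

/-- expansion in the number of collisions inside a window, for sequences -/
lemma expand {E : ℝ → P2 → R3 → ℝ≥0∞} (hG : GLin Gf E) {τ T : ℝ} (hτ : 0 < τ)
    {H : ℕ → ℝ → P2 → R3 → ℝ≥0∞} {κ θ : ℝ≥0∞} (hκ : κ ≠ ⊤) (hθ : θ ≠ ⊤)
    (hE : ∀ t x v, τ ≤ t → t ≤ T → Du τ (Gf E) t x v ≤ θ * E t x v)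
    (hEm : ∀ t x v, τ ≤ t → t ≤ T → AEMeasurable (fun s => Gf E s (x - (t - s) • bar v) v)
      (volume.restrict (Ioo τ t))) (n : ℕ)
    (hH : ∀ i < n, ∀ t x v, τ ≤ t → t ≤ T →
      H (i + 1) t x v ≤ κ * E t x v + Du τ (Gf (H i)) t x v) (j : ℕ) :
    j ≤ n → ∀ (t : ℝ) (x : P2) (v : R3), τ ≤ t → t ≤ T →
      H j t x v ≤ κ * (∑ i ∈ Finset.range j, θ ^ i) * E t x v + ((DG Gf τ)^[j] (H 0)) t x v := by
  induction j with
  | zero => intro _ t x v _ _; simp
  | succ j ih =>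
    intro hj t x v h1 h2
    set S := ∑ i ∈ Finset.range j, θ ^ i with hS
    have hSt : S ≠ ⊤ := by
      rw [hS]; exact ENNReal.sum_ne_top.2 fun i _ => ENNReal.pow_ne_top hθ
    have hκS : κ * S ≠ ⊤ := ENNReal.mul_ne_top hκ hSt
    set f := (DG Gf τ)^[j] (H 0) with hf
    have h3 : Du τ (Gf (H j)) t x v ≤ κ * S * (θ * E t x v) + Du τ (Gf f) t x v := by
      calc Du τ (Gf (H j)) t x v
          ≤ Du τ (fun s y w => κ * S * Gf E s y w + Gf f s y w) t x v := by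
            refine Du_mono fun s hs => ?_
            refine le_trans (hG.mono (g := fun s y w => κ * S * E s y w + f s y w) (fun w => ?_) v)
              (hG.add _ _ _ _ hκS (hτ.trans hs.1) v)
            exact ih (by omega) s _ w hs.1.le (hs.2.le.trans h2)
        _ = κ * S * Du τ (Gf E) t x v + Du τ (Gf f) t x v := by
            unfold Du
            rw [lintegral_add_left' ((hEm t x v h1 h2).const_mul _), lintegral_const_mul' _ _ hκS]
        _ ≤ _ := by gcongr; exact hE t x v h1 h2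
    rw [Function.iterate_succ_apply']
    calc H (j + 1) t x v ≤ κ * E t x v + Du τ (Gf (H j)) t x v := hH j (by omega) t x v h1 h2
      _ ≤ κ * E t x v + (κ * S * (θ * E t x v) + Du τ (Gf f) t x v) := by gcongr
      _ = κ * (1 + θ * S) * E t x v + Du τ (Gf f) t x v := by ring
      _ = κ * (∑ i ∈ Finset.range (j + 1), θ ^ i) * E t x v + DG Gf τ f t x v := by
          rw [Finset.sum_range_succ' (fun i => θ ^ i), hS, Finset.mul_sum]
          congr 3
          rw [pow_zero, add_comm]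
          congr 1
          exact Finset.sum_congr rfl fun i _ => by rw [pow_succ, mul_comm]

end Crest.Agent.R68.L
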