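import Crest.Agent.R68.LSlave3

/-!
# Row 68, PART L (helper685): the slaving theorem L2, improvement step
-/

set_option autoImplicit false
open MeasureTheory Set
open scoped ENNReal
open Crest.AnalysisR.VecCalc3 Crest.AnalysisR.PDE.Boltzmann

noncomputable section

namespace Crest.Agent.R68.L

/-- the additive constant of the improvement step -/
def C0 (g2 CK lam R Z0 : ℝ) (cU CS A AM : ℝ≥0∞) : ℝ≥0∞ :=
  A * (1 + ∑ i ∈ Finset.range 4, ENNReal.ofReal (CK * (2 * lam)) ^ i) +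
    cU ^ 4 * CS * ENNReal.ofReal (Real.exp (g2 * (2 * (Z0 + R)) ^ 2)) * AM

lemma om_EE (P : Par) (g1 g2 s : ℝ) (y : P2) (w : R3) :
    om g2 s y w * EE P g1 g2 s y w =
      Dm P s y w * ENNReal.ofReal (Real.exp (-(g1 - √s / 100) * ‖w‖ ^ 2)) := by
  rw [EE_eq, om, ← mul_assoc, ← ENNReal.ofReal_mul (Real.exp_pos _).le, mul_comm (Dm P s y w)]
  congr 2
  rw [mul_comm, mul_assoc, ← Real.exp_add]
  simp

lemma measurable_mm : Measurable (fun p : ℝ × P2 × R3 => mm p.1 p.2.1 p.2.2) := by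
  unfold mm
  have h := measurable_distG
  fun_prop

lemma measurable_om (g2 : ℝ) : Measurable (fun p : ℝ × P2 × R3 => om g2 p.1 p.2.1 p.2.2) := by
  unfold om
  have h := measurable_mm
  fun_prop

variable {P : Par} {g1 g2 t0 : ℝ} {Gf : (ℝ → P2 → R3 → ℝ≥0∞) → ℝ → P2 → R3 → ℝ≥0∞}
  {CK kV V0 lam R Z0 : ℝ} {cU eS CS : ℝ≥0∞} {b rho0 : ℝ} {A AM : ℝ≥0∞}
  {H : ℕ → ℝ → P2 → R3 → ℝ≥0∞} {sg : ℝ → P2 → R3 → ℝ≥0∞}

/-- large velocities -/
lemma improve_V (hS : SlaveHyp P g1 g2 t0 Gf CK kV V0 lam R cU eS CS)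
    (hN : SlaveNum g2 t0 CK kV V0 lam R Z0 b rho0 cU eS) (hA : A ≠ ⊤)
    (hQ : SlaveSeq P g1 g2 t0 b Gf rho0 A AM H sg) {c : ℝ≥0∞} (hc : c ≠ ⊤) (k : ℕ)
    (hk : ∀ s x v, 0 < s → s ≤ t0 → H k s x v ≤ c * ENNReal.ofReal (s ^ b) * EE P g1 g2 s x v)
    {t : ℝ} (ht : 0 < t) (ht0 : t ≤ t0) (x : P2) (v : R3) (hv : V0 ≤ ‖v‖) :
    H (k + 1) t x v ≤ (c * ENNReal.ofReal (1 / 8) + A) * ENNReal.ofReal (t ^ b) *
      EE P g1 g2 t x v := by
  have h1 := Du_gain_crude hS hN.hg2.le hN.hb hN.hkV hc hk ht ht0 x v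
    (fun s x' hs hs0 => hS.K2V s x' v hs hs0 hv)
  have h2 := Du_src_le hS hN.hg2.le hN.hb hA hQ.src le_rfl ht ht0 x v
  calc H (k + 1) t x v ≤ Du 0 (Gf (H k)) t x v + Du 0 sg t x v := hQ.eq0 k t x v ht ht0
    _ ≤ ENNReal.ofReal (kV / b) * c * ENNReal.ofReal (t ^ b) * EE P g1 g2 t x v +
        A * ENNReal.ofReal (t ^ b) * EE P g1 g2 t x v := add_le_add h1 h2
    _ ≤ ENNReal.ofReal (1 / 8) * c * ENNReal.ofReal (t ^ b) * EE P g1 g2 t x v +
        A * ENNReal.ofReal (t ^ b) * EE P g1 g2 t x v :=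
        add_le_add (mul_le_mul' (mul_le_mul' (mul_le_mul' (ENNReal.ofReal_le_ofReal hN.n1) le_rfl)
          le_rfl) le_rfl) le_rfl
    _ = _ := by ring

/-- far from the lattice -/
lemma improve_Z (hS : SlaveHyp P g1 g2 t0 Gf CK kV V0 lam R cU eS CS)
    (hN : SlaveNum g2 t0 CK kV V0 lam R Z0 b rho0 cU eS) (hA : A ≠ ⊤)
    (hQ : SlaveSeq P g1 g2 t0 b Gf rho0 A AM H sg) {c : ℝ≥0∞} (hc : c ≠ ⊤) (k : ℕ)
    (hk : ∀ s x v, 0 < s → s ≤ t0 → H k s x v ≤ c * ENNReal.ofReal (s ^ b) * EE P g1 g2 s x v)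
    {t : ℝ} (ht : 0 < t) (ht0 : t ≤ t0) (x : P2) (v : R3) (hv : ‖v‖ ≤ V0) (hz : Z0 ≤ distG x / t) :
    H (k + 1) t x v ≤ (c * ENNReal.ofReal (1 / 8) + A) * ENNReal.ofReal (t ^ b) *
      EE P g1 g2 t x v := by
  have hg2 := hN.hg2
  have hZ0 := hN.hZ0
  set z := distG x / t with hzd
  have hz0 : 0 < z := hZ0.trans_le hz
  have h1 := Du_gain_le hS hN.hg2.le (b := b) hc hk hN.hCK (x := x) (v := v) ht0 (z ^ 2)
    (fun s hs hst => mm_far hs hst hv (hN.hZ0V.trans hz))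
    (fun s x' hs hs0 => hS.K2 s x' v hs hs0)
  have h2 := Du_src_le hS hN.hg2.le hN.hb hA hQ.src le_rfl ht ht0 x v
  have h3 := lint_far hN.hb ht (q := g2 * z ^ 2) (by positivity)
  have h4 : CK * (t ^ b / (g2 * z ^ 2)) ≤ 1 / 8 * t ^ b := by
    have h5 : CK / (g2 * z ^ 2) ≤ CK / (g2 * Z0 ^ 2) :=
      div_le_div_of_nonneg_left hN.hCK (by positivity)
        (mul_le_mul_of_nonneg_left (pow_le_pow_left₀ hZ0.le hz 2) hg2.le)
    have h6 : 0 ≤ t ^ b := Real.rpow_nonneg ht.le b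
    calc CK * (t ^ b / (g2 * z ^ 2)) = CK / (g2 * z ^ 2) * t ^ b := by ring
      _ ≤ 1 / 8 * t ^ b := mul_le_mul_of_nonneg_right (h5.trans hN.n2) h6
  calc H (k + 1) t x v ≤ Du 0 (Gf (H k)) t x v + Du 0 sg t x v := hQ.eq0 k t x v ht ht0
    _ ≤ c * ENNReal.ofReal CK * ENNReal.ofReal (t ^ b / (g2 * z ^ 2)) * EE P g1 g2 t x v +
        A * ENNReal.ofReal (t ^ b) * EE P g1 g2 t x v := by
        refine add_le_add (h1.trans ?_) h2
        gcongr
    _ ≤ c * (ENNReal.ofReal (1 / 8) * ENNReal.ofReal (t ^ b)) * EE P g1 g2 t x v +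
        A * ENNReal.ofReal (t ^ b) * EE P g1 g2 t x v := by
        rw [mul_assoc c, ← ENNReal.ofReal_mul hN.hCK, ← ENNReal.ofReal_mul (by norm_num)]
        gcongr
    _ = _ := by ring

/-- near region: expansion in a window -/
lemma improve_near (hS : SlaveHyp P g1 g2 t0 Gf CK kV V0 lam R cU eS CS)
    (hN : SlaveNum g2 t0 CK kV V0 lam R Z0 b rho0 cU eS) (hA : A ≠ ⊤)
    (hQ : SlaveSeq P g1 g2 t0 b Gf rho0 A AM H sg) {c : ℝ≥0∞} (hc : c ≠ ⊤) (m : ℕ) (hm : 1 ≤ m)
    (hk : ∀ j ≤ 4, ∀ s x v, 0 < s → s ≤ t0 →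
      H (m + j) s x v ≤ c * ENNReal.ofReal (s ^ b) * EE P g1 g2 s x v)
    {t : ℝ} (ht : 0 < t) (ht0 : t ≤ t0) (x : P2) (v : R3) (hv : ‖v‖ ≤ V0) (hz : distG x / t ≤ Z0) :
    H (m + 4) t x v ≤ (c * ENNReal.ofReal (1 / 4) + (A * (∑ i ∈ Finset.range 4, ENNReal.ofReal (CK * (2 * lam)) ^ i) +
    cU ^ 4 * CS * ENNReal.ofReal (Real.exp (g2 * (2 * (Z0 + R)) ^ 2)) * AM)) * ENNReal.ofReal (t ^ b) *
      EE P g1 g2 t x v := by
  have hg2 := hN.hg2
  have hZ0 := hN.hZ0
  have hlam0 := hN.hlam0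
  have hlam1 := hN.hlam1
  have hCK := hN.hCK
  have hb := hN.hb
  set τ := t * (1 - lam) with hτ
  have hτ0 : 0 < τ := mul_pos ht (by linarith)
  have hτt : τ ≤ t := by rw [hτ]; nlinarith
  set θ := ENNReal.ofReal (CK * (2 * lam)) with hθ
  set Sθ := ∑ i ∈ Finset.range 4, θ ^ i with hSθ
  set κ := c * ENNReal.ofReal (τ ^ b) + A * ENNReal.ofReal (t ^ b) with hκ
  have hκt : κ ≠ ⊤ := ENNReal.add_ne_top.2
    ⟨ENNReal.mul_ne_top hc ENNReal.ofReal_ne_top, ENNReal.mul_ne_top hA ENNReal.ofReal_ne_top⟩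
  -- one collision in the window
  have hE : ∀ t' x' v', τ ≤ t' → t' ≤ t →
      Du τ (Gf (EE P g1 g2)) t' x' v' ≤ θ * EE P g1 g2 t' x' v' := by
    intro t' x' v' h1 h2
    unfold Du
    calc ∫⁻ s in Ioo τ t', Gf (EE P g1 g2) s (x' - (t' - s) • bar v') v'
        ≤ ∫⁻ s in Ioo τ t', ENNReal.ofReal CK * (ENNReal.ofReal (1 / s) * EE P g1 g2 t' x' v') := by
          refine lintegral_mono_ae ((ae_restrict_mem measurableSet_Ioo).mono fun s hs => ?_)
          have hs0 : 0 < s := hτ0.trans hs.1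
          refine (hS.K2 s _ v' hs0 (by linarith [hs.2])).trans ?_
          rw [← mul_assoc, ← ENNReal.ofReal_mul hCK, mul_one_div]
          gcongr
          exact EE_flight hg2.le hs0 hs.2.le (hS.K1 s t' x' v' hs0 hs.2.le (h2.trans ht0))
      _ = ENNReal.ofReal CK * ((∫⁻ s in Ioo τ t', ENNReal.ofReal (1 / s)) * EE P g1 g2 t' x' v') := by
          rw [lintegral_const_mul' _ _ ENNReal.ofReal_ne_top, lintegral_mul_const _ (by fun_prop)]
      _ ≤ ENNReal.ofReal CK * (ENNReal.ofReal (2 * lam) * EE P g1 g2 t' x' v') := by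
          gcongr
          exact (lintegral_mono_set (Ioo_subset_Ioo_right h2)).trans (lint_inv ht hlam0.le hlam1 hτ)
      _ = _ := by rw [hθ, ENNReal.ofReal_mul hCK]; ring
  -- one step inequality in the window
  have hH : ∀ i < 4, ∀ t' x' v', τ ≤ t' → t' ≤ t →
      H (m + (i + 1)) t' x' v' ≤ κ * EE P g1 g2 t' x' v' + Du τ (Gf (H (m + i))) t' x' v' := by
    intro i hi t' x' v' h1 h2
    rcases h1.eq_or_lt with h1 | h1
    · refine le_trans ?_ le_self_add
      rw [← h1]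
      refine (hk (i + 1) (by omega) τ x' v' hτ0 (hτt.trans ht0)).trans ?_
      exact mul_le_mul' le_self_add le_rfl
    · have h3 := hQ.eqτ (m + i) τ t' x' v' hτ0 h1 (h2.trans ht0)
      have h4 : H (m + i + 1) τ (x' - (t' - τ) • bar v') v' ≤
          c * ENNReal.ofReal (τ ^ b) * EE P g1 g2 t' x' v' := by
        refine (hk (i + 1) (by omega) τ _ v' hτ0 (hτt.trans ht0)).trans ?_
        gcongr
        exact EE_flight hg2.le hτ0 h1.le (hS.K1 τ t' x' v' hτ0 h1.le (h2.trans ht0))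
      have h5 : Du τ sg t' x' v' ≤ A * ENNReal.ofReal (t ^ b) * EE P g1 g2 t' x' v' := by
        refine (Du_src_le hS hg2.le hb hA hQ.src hτ0.le (hτ0.trans h1) (h2.trans ht0) x' v').trans ?_
        gcongr
        exact (hτ0.trans h1).le
      calc H (m + (i + 1)) t' x' v' ≤ _ := h3
        _ ≤ c * ENNReal.ofReal (τ ^ b) * EE P g1 g2 t' x' v' + Du τ (Gf (H (m + i))) t' x' v' +
            A * ENNReal.ofReal (t ^ b) * EE P g1 g2 t' x' v' := by gcongr
        _ = _ := by rw [hκ]; ring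
  have hexp := expand hS.lin hτ0 (H := fun i => H (m + i)) (T := t) hκt ENNReal.ofReal_ne_top hE
    (fun t' x' v' _ _ => hS.measE τ t' x' v' hτ0) 4 hH 4 le_rfl t x v hτt le_rfl
  -- the last term
  have hlast : ((DG Gf τ)^[4] (H m)) t x v ≤
      (c * ENNReal.ofReal (1 / 8) + cU ^ 4 * CS * ENNReal.ofReal (Real.exp (g2 * (2 * (Z0 + R)) ^ 2)) * AM) *
        ENNReal.ofReal (t ^ b) * EE P g1 g2 t x v := by
    set Cω := ENNReal.ofReal (Real.exp (g2 * (2 * (Z0 + R)) ^ 2)) with hCω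
    have hK4 := om_iter hS.lin hg2.le hN.hcU hS.K4 hτ0 (H m) 4 t x v hτt
    have hSm := hS.S (fun s y w => om g2 s y w * H m s y w)
      ((measurable_om g2).mul (hQ.meas m)) t x v (c * ENNReal.ofReal (t ^ b))
      (Cω * (AM * ENNReal.ofReal (t ^ (b + 2)))) ht ht0 hv
      (ENNReal.mul_ne_top hc ENNReal.ofReal_ne_top) ?_ ?_
    · have h6 : om g2 t x v * ((DG Gf τ)^[4] (H m)) t x v ≤ om g2 t x v *
        ((c * ENNReal.ofReal (1 / 8) + cU ^ 4 * CS * Cω * AM) *
        ENNReal.ofReal (t ^ b) * EE P g1 g2 t x v) := by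
        calc _ ≤ cU ^ 4 * ((DG Gf τ)^[4] (fun s x v => om g2 s x v * H m s x v)) t x v := hK4
          _ ≤ cU ^ 4 * (Dm P t x v * ENNReal.ofReal (Real.exp (-(g1 - √t / 100) * ‖v‖ ^ 2)) *
              (eS * (c * ENNReal.ofReal (t ^ b)) + CS * ENNReal.ofReal (t ^ (-2 : ℝ)) *
                (Cω * (AM * ENNReal.ofReal (t ^ (b + 2)))))) := by gcongr
          _ = (om g2 t x v * EE P g1 g2 t x v) * (cU ^ 4 * eS * c * ENNReal.ofReal (t ^ b) +
              cU ^ 4 * CS * Cω * AM * (ENNReal.ofReal (t ^ (-2 : ℝ)) * ENNReal.ofReal (t ^ (b + 2)))) := by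
              rw [om_EE]; ring
          _ ≤ (om g2 t x v * EE P g1 g2 t x v) * (ENNReal.ofReal (1 / 8) * c * ENNReal.ofReal (t ^ b) +
              cU ^ 4 * CS * Cω * AM * ENNReal.ofReal (t ^ b)) := by
              have h7 : ENNReal.ofReal (t ^ (-2 : ℝ)) * ENNReal.ofReal (t ^ (b + 2)) =
                  ENNReal.ofReal (t ^ b) := by
                rw [← ENNReal.ofReal_mul (by positivity), ← Real.rpow_add ht]
                congr 2; ring
              rw [h7]
              gcongr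
              exact hN.n4
          _ = _ := by ring
      exact (ENNReal.mul_le_mul_iff_right (om_ne_zero _ _ _ _) (om_ne_top _ _ _ _)).1 h6
    · intro s hs y w
      have hs0 : 0 < s := hτ0.trans_le hs.1
      calc om g2 s y w * H m s y w
          ≤ om g2 s y w * (c * ENNReal.ofReal (s ^ b) * EE P g1 g2 s y w) := by
            gcongr
            exact hk 0 (by norm_num) s y w hs0 (hs.2.trans ht0)
        _ = c * ENNReal.ofReal (s ^ b) * (om g2 s y w * EE P g1 g2 s y w) := by ring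
        _ ≤ _ := by
            rw [om_EE]
            gcongr
            · exact hs.2
            · exact hs.2
    · intro s hs
      have hs0 : 0 < s := hτ0.trans_le hs.1
      have hst : t / 2 ≤ s := by
        have : t / 2 ≤ τ := by rw [hτ]; nlinarith
        exact this.trans hs.1
      calc (∫⁻ y in Metric.closedBall x (R * t), ∫⁻ w in Metric.closedBall (0 : R3) R,
              om g2 s y w * H m s y w)
          ≤ ∫⁻ y in Metric.closedBall x (R * t), ∫⁻ w in Metric.closedBall (0 : R3) R,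
              Cω * H m s y w := by
            refine lintegral_mono_ae ((ae_restrict_mem Metric.isClosed_closedBall.measurableSet).mono
              fun y hy => ?_)
            refine lintegral_mono_ae ((ae_restrict_mem Metric.isClosed_closedBall.measurableSet).mono
              fun w hw => ?_)
            gcongr
            unfold om
            rw [hCω]
            apply ENNReal.ofReal_le_ofReal
            apply Real.exp_le_exp.2
            refine mul_le_mul_of_nonneg_left (pow_le_pow_left₀ (mm_nonneg _ _ _) ?_ 2) hg2.le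
            have hR := hN.hR
            refine max_le ?_ ?_
            · have := mem_closedBall_zero_iff.1 hw
              linarith
            · rw [div_le_iff₀ hs0]
              have h8 := distG_le_add x (y - x)
              rw [add_sub_cancel] at h8
              have h9 : ‖y - x‖ ≤ R * t := by
                rw [← dist_eq_norm]; exact Metric.mem_closedBall.1 hy
              have h10 : distG x ≤ Z0 * t := by rwa [div_le_iff₀ ht] at hz
              nlinarith [mul_nonneg (show 0 ≤ Z0 + R by linarith) (show 0 ≤ s - t / 2 by linarith)]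
        _ ≤ ∫⁻ y in Metric.closedBall x (R * t), Cω * ∫⁻ w, H m s y w := by
            refine lintegral_mono fun y => ?_
            rw [lintegral_const_mul' _ _ ENNReal.ofReal_ne_top]
            gcongr
            exact Measure.restrict_le_self
        _ = Cω * ∫⁻ y in Metric.closedBall x (R * t), ∫⁻ w, H m s y w :=
            lintegral_const_mul' _ _ ENNReal.ofReal_ne_top
        _ ≤ Cω * ∫⁻ y in Metric.closedBall x rho0, ∫⁻ w, H m s y w := by
            gcongr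
            exact (mul_le_mul_of_nonneg_left ht0 hN.hR).trans hN.hRt
        _ ≤ Cω * (AM * ENNReal.ofReal (s ^ (b + 2))) := by
            gcongr
            exact hQ.mass m s x hm hs0 (hs.2.trans ht0)
        _ ≤ _ := by
            gcongr
            exact hs.2
  -- numerics for the first part
  have hτb : ENNReal.ofReal (τ ^ b) * Sθ ≤ ENNReal.ofReal (1 / 8) * ENNReal.ofReal (t ^ b) := by
    have h11 : Sθ = ENNReal.ofReal (∑ i ∈ Finset.range 4, (CK * (2 * lam)) ^ i) := by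
      rw [hSθ, ENNReal.ofReal_sum_of_nonneg (fun i _ => by positivity)]
      exact Finset.sum_congr rfl fun i _ => by rw [hθ, ENNReal.ofReal_pow (by positivity)]
    rw [h11, ← ENNReal.ofReal_mul (by positivity), ← ENNReal.ofReal_mul (by norm_num)]
    apply ENNReal.ofReal_le_ofReal
    rw [hτ, Real.mul_rpow ht.le (by linarith)]
    have := mul_le_mul_of_nonneg_left hN.n3 (Real.rpow_nonneg ht.le b)
    nlinarith
  calc H (m + 4) t x v ≤ κ * Sθ * EE P g1 g2 t x v + ((DG Gf τ)^[4] (H m)) t x v := by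
        simpa using hexp
    _ ≤ κ * Sθ * EE P g1 g2 t x v +
      (c * ENNReal.ofReal (1 / 8) + cU ^ 4 * CS * ENNReal.ofReal (Real.exp (g2 * (2 * (Z0 + R)) ^ 2)) * AM) *
        ENNReal.ofReal (t ^ b) * EE P g1 g2 t x v := by gcongr
    _ = c * (ENNReal.ofReal (τ ^ b) * Sθ) * EE P g1 g2 t x v + A * Sθ * ENNReal.ofReal (t ^ b) * EE P g1 g2 t x v +
      (c * ENNReal.ofReal (1 / 8) + cU ^ 4 * CS * ENNReal.ofReal (Real.exp (g2 * (2 * (Z0 + R)) ^ 2)) * AM) *
        ENNReal.ofReal (t ^ b) * EE P g1 g2 t x v := by rw [hκ]; ring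
    _ ≤ c * (ENNReal.ofReal (1 / 8) * ENNReal.ofReal (t ^ b)) * EE P g1 g2 t x v +
      A * Sθ * ENNReal.ofReal (t ^ b) * EE P g1 g2 t x v +
      (c * ENNReal.ofReal (1 / 8) + cU ^ 4 * CS * ENNReal.ofReal (Real.exp (g2 * (2 * (Z0 + R)) ^ 2)) * AM) *
        ENNReal.ofReal (t ^ b) * EE P g1 g2 t x v := by gcongr
    _ = _ := by
        have h12 : ENNReal.ofReal (1 / 4) = ENNReal.ofReal (1 / 8) + ENNReal.ofReal (1 / 8) := by
          rw [← ENNReal.ofReal_add (by norm_num) (by norm_num)]; norm_num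
        rw [h12]; ring

/-- THE IMPROVEMENT STEP of theorem L2: from `h_m, …, h_{m+4} ≤ c t^b EE` to
`h_{m+4} ≤ (c/2 + C0) t^b EE` -/
theorem improve (hS : SlaveHyp P g1 g2 t0 Gf CK kV V0 lam R cU eS CS)
    (hN : SlaveNum g2 t0 CK kV V0 lam R Z0 b rho0 cU eS) (hA : A ≠ ⊤)
    (hQ : SlaveSeq P g1 g2 t0 b Gf rho0 A AM H sg) {c : ℝ≥0∞} (hc : c ≠ ⊤) (m : ℕ) (hm : 1 ≤ m)
    (hk : ∀ j ≤ 4, ∀ s x v, 0 < s → s ≤ t0 →
      H (m + j) s x v ≤ c * ENNReal.ofReal (s ^ b) * EE P g1 g2 s x v) :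
    ∀ t x v, 0 < t → t ≤ t0 → H (m + 4) t x v ≤
      (c * ENNReal.ofReal (1 / 2) + C0 g2 CK lam R Z0 cU CS A AM) * ENNReal.ofReal (t ^ b) *
        EE P g1 g2 t x v := by
  intro t x v ht ht0
  have h8 : ENNReal.ofReal (1 / 8) ≤ ENNReal.ofReal (1 / 2) :=
    ENNReal.ofReal_le_ofReal (by norm_num)
  have h4 : ENNReal.ofReal (1 / 4) ≤ ENNReal.ofReal (1 / 2) :=
    ENNReal.ofReal_le_ofReal (by norm_num)
  have hAC : A ≤ C0 g2 CK lam R Z0 cU CS A AM := by
    unfold C0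
    rw [mul_add, mul_one, add_assoc]
    exact le_self_add
  rcases le_total V0 ‖v‖ with hv | hv
  · refine (improve_V hS hN hA hQ hc (m + 3) (hk 3 (by norm_num)) ht ht0 x v hv).trans ?_
    gcongr
  rcases le_total Z0 (distG x / t) with hz | hz
  · refine (improve_Z hS hN hA hQ hc (m + 3) (hk 3 (by norm_num)) ht ht0 x v hv hz).trans ?_
    gcongr
  · refine (improve_near hS hN hA hQ hc m hm hk ht ht0 x v hv hz).trans ?_
    gcongr
    unfold C0
    gcongr
    exact le_add_self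

end Crest.Agent.R68.L
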