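import Crest.Agent.R68.LSlave4

/-!
# Row 68, PART L (helper685): the slaving theorem L2

`slave_sol` (solutions of the linear equation; the constant does not depend on the a-priori bound)
and `slave_seq` (sequences `h_{k+1} ≤ T h_k + Dam σ`).
-/

set_option autoImplicit false
open MeasureTheory Set Filter Topology
open scoped ENNReal
open Crest.AnalysisR.VecCalc3 Crest.AnalysisR.PDE.Boltzmann

noncomputable section

namespace Crest.Agent.R68.L

variable {P : Par} {g1 g2 t0 : ℝ} {Gf : (ℝ → P2 → R3 → ℝ≥0∞) → ℝ → P2 → R3 → ℝ≥0∞}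
  {CK kV V0 lam R Z0 : ℝ} {cU eS CS : ℝ≥0∞} {b rho0 : ℝ} {A A' AM : ℝ≥0∞}
  {H : ℕ → ℝ → P2 → R3 → ℝ≥0∞} {sg : ℝ → P2 → R3 → ℝ≥0∞}

lemma A_le_C0 : A ≤ C0 g2 CK lam R Z0 cU CS A AM := by
  unfold C0
  rw [mul_add, mul_one, add_assoc]
  exact le_self_add

lemma C0_ne_top (hA : A ≠ ⊤) (hAM : AM ≠ ⊤) (hcU : cU ≠ ⊤) (hCS : CS ≠ ⊤) :
    C0 g2 CK lam R Z0 cU CS A AM ≠ ⊤ := by
  unfold C0
  refine ENNReal.add_ne_top.2 ⟨ENNReal.mul_ne_top hA (ENNReal.add_ne_top.2 ⟨ENNReal.one_ne_top,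
    ENNReal.sum_ne_top.2 fun i _ => ENNReal.pow_ne_top ENNReal.ofReal_ne_top⟩),
    ENNReal.mul_ne_top (ENNReal.mul_ne_top (ENNReal.mul_ne_top (ENNReal.pow_ne_top hcU) hCS)
      ENNReal.ofReal_ne_top) hAM⟩

/-- limit in the iteration -/
lemma le_of_halving {h W C c : ℝ≥0∞} (hc : c ≠ ⊤) (hW : C ≠ 0 ∨ W ≠ ⊤ ∨ c = 0)
    (hn : ∀ n : ℕ, h ≤ (C + c * ENNReal.ofReal (1 / 2) ^ n) * W) : h ≤ C * W := by
  rcases eq_or_ne W ⊤ with hWt | hWt
  · rcases hW with hW | hW | hW
    · rw [hWt, ENNReal.mul_top hW]; exact le_top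
    · exact absurd hWt hW
    · simpa [hW] using hn 0
  · have h1 : Tendsto (fun n : ℕ => (C + c * ENNReal.ofReal (1 / 2) ^ n) * W) atTop
        (𝓝 ((C + c * 0) * W)) := by
      refine ENNReal.Tendsto.mul_const (tendsto_const_nhds.add (ENNReal.Tendsto.const_mul ?_
        (Or.inr hc))) (Or.inr hWt)
      exact ENNReal.tendsto_pow_atTop_nhds_zero_of_lt_one (by
        rw [← ENNReal.ofReal_one]; exact (ENNReal.ofReal_lt_ofReal_iff one_pos).2 (by norm_num))
    have := ge_of_tendsto' h1 hn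
    simpa using this

/-- one more `h` in a sequence: `C` is reproduced -/
lemma seq_step (hS : SlaveHyp P g1 g2 t0 Gf CK kV V0 lam R cU eS CS)
    (hN : SlaveNum g2 t0 CK kV V0 lam R Z0 b rho0 cU eS) (hA : A ≠ ⊤)
    (hQ : SlaveSeq P g1 g2 t0 b Gf rho0 A AM H sg) {C : ℝ≥0∞} (hC : C ≠ ⊤)
    (hC0 : 2 * C0 g2 CK lam R Z0 cU CS A AM ≤ C) (m : ℕ) (hm : 1 ≤ m)
    (hk : ∀ j ≤ 3, ∀ s x v, 0 < s → s ≤ t0 →
      H (m + j) s x v ≤ C * ENNReal.ofReal (s ^ b) * EE P g1 g2 s x v) :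
    ∀ t x v, 0 < t → t ≤ t0 → H (m + 4) t x v ≤ C * ENNReal.ofReal (t ^ b) * EE P g1 g2 t x v := by
  set c : ℝ≥0∞ := ENNReal.ofReal (CK / b) * C + A with hc
  have hct : c ≠ ⊤ := ENNReal.add_ne_top.2 ⟨ENNReal.mul_ne_top ENNReal.ofReal_ne_top hC, hA⟩
  have hhalf : ENNReal.ofReal (1 / 2) ≠ ⊤ := ENNReal.ofReal_ne_top
  have hhalf1 : ENNReal.ofReal (1 / 2) ≤ 1 := by
    rw [← ENNReal.ofReal_one]; exact ENNReal.ofReal_le_ofReal (by norm_num)
  have key : ∀ n : ℕ, ∀ t x v, 0 < t → t ≤ t0 → H (m + 4) t x v ≤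
      (C + c * ENNReal.ofReal (1 / 2) ^ n) * ENNReal.ofReal (t ^ b) * EE P g1 g2 t x v := by
    intro n
    induction n with
    | zero =>
      intro t x v ht ht0
      have h1 := Du_gain_crude hS hN.hg2.le hN.hb hN.hCK hC (hk 3 le_rfl) ht ht0 x v
        (fun s x' hs hs0 => hS.K2 s x' v hs hs0)
      have h2 := Du_src_le hS hN.hg2.le hN.hb hA hQ.src le_rfl ht ht0 x v
      calc H (m + 4) t x v ≤ Du 0 (Gf (H (m + 3))) t x v + Du 0 sg t x v :=
            hQ.eq0 (m + 3) t x v ht ht0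
        _ ≤ _ := add_le_add h1 h2
        _ = c * ENNReal.ofReal (t ^ b) * EE P g1 g2 t x v := by rw [hc]; ring
        _ ≤ _ := by
            gcongr
            rw [pow_zero, mul_one]
            exact le_add_self
    | succ n ih =>
      intro t x v ht ht0
      have hcn : C + c * ENNReal.ofReal (1 / 2) ^ n ≠ ⊤ :=
        ENNReal.add_ne_top.2 ⟨hC, ENNReal.mul_ne_top hct (ENNReal.pow_ne_top hhalf)⟩
      refine (improve hS hN hA hQ hcn m hm (fun j hj s x v hs hs0 => ?_) t x v ht ht0).trans ?_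
      · rcases Nat.lt_or_ge j 4 with hj4 | hj4
        · refine (hk j (by omega) s x v hs hs0).trans ?_
          gcongr
          exact le_self_add
        · have : j = 4 := by omega
          subst this
          exact ih s x v hs hs0
      · refine mul_le_mul' (mul_le_mul' ?_ le_rfl) le_rfl
        have h3 : C0 g2 CK lam R Z0 cU CS A AM ≤ ENNReal.ofReal (1 / 2) * C := by
          calc C0 g2 CK lam R Z0 cU CS A AM
              = ENNReal.ofReal (1 / 2) * (2 * C0 g2 CK lam R Z0 cU CS A AM) := by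
                rw [← mul_assoc]
                have : ENNReal.ofReal (1 / 2) * 2 = 1 := by
                  rw [show (2 : ℝ≥0∞) = ENNReal.ofReal 2 by simp, ← ENNReal.ofReal_mul (by norm_num)]
                  norm_num
                rw [this, one_mul]
            _ ≤ _ := by gcongr
        calc (C + c * ENNReal.ofReal (1 / 2) ^ n) * ENNReal.ofReal (1 / 2) +
              C0 g2 CK lam R Z0 cU CS A AM
            ≤ (C + c * ENNReal.ofReal (1 / 2) ^ n) * ENNReal.ofReal (1 / 2) +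
              ENNReal.ofReal (1 / 2) * C := by gcongr
          _ = (ENNReal.ofReal (1 / 2) + ENNReal.ofReal (1 / 2)) * C +
              c * ENNReal.ofReal (1 / 2) ^ (n + 1) := by rw [pow_succ]; ring
          _ = C + c * ENNReal.ofReal (1 / 2) ^ (n + 1) := by
              rw [← ENNReal.ofReal_add (by norm_num) (by norm_num)]
              norm_num
  intro t x v ht ht0
  rw [mul_assoc]
  refine le_of_halving hct ?_ (fun n => ?_)
  · rcases eq_or_ne C 0 with h0 | h0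
    · right; right
      have hA0 : A = 0 := by
        have h5 : A ≤ C0 g2 CK lam R Z0 cU CS A AM := A_le_C0
        have h6 : C0 g2 CK lam R Z0 cU CS A AM ≤ 2 * C0 g2 CK lam R Z0 cU CS A AM := by
          rw [two_mul]; exact le_self_add
        exact le_antisymm ((h5.trans (h6.trans hC0)).trans h0.le) bot_le
      rw [hc, h0, hA0]; simp
    · exact Or.inl h0
  · have := key n t x v ht ht0
    rwa [mul_assoc] at this

/-- THEOREM L2 for sequences (version needed for the everywhere fixed point) -/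
theorem slave_seq (hS : SlaveHyp P g1 g2 t0 Gf CK kV V0 lam R cU eS CS)
    (hN : SlaveNum g2 t0 CK kV V0 lam R Z0 b rho0 cU eS) (hA : A ≠ ⊤) (hA' : A' ≠ ⊤)
    (hAM : AM ≠ ⊤) (hCS : CS ≠ ⊤)
    (hQ : SlaveSeq P g1 g2 t0 b Gf rho0 A AM H sg)
    (hinit : ∀ s x v, 0 < s → s ≤ t0 →
      H 0 s x v ≤ A' * ENNReal.ofReal (s ^ b) * EE P g1 g2 s x v) (k : ℕ) :
    ∀ t x v, 0 < t → t ≤ t0 → H k t x v ≤
      ((1 + ENNReal.ofReal (CK / b)) ^ 4 * (A + A') + 2 * C0 g2 CK lam R Z0 cU CS A AM) *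
        ENNReal.ofReal (t ^ b) * EE P g1 g2 t x v := by
  set M : ℝ≥0∞ := 1 + ENNReal.ofReal (CK / b) with hM
  have hMt : M ≠ ⊤ := ENNReal.add_ne_top.2 ⟨ENNReal.one_ne_top, ENNReal.ofReal_ne_top⟩
  have hM1 : 1 ≤ M := by rw [hM]; exact le_self_add
  set C : ℝ≥0∞ := M ^ 4 * (A + A') + 2 * C0 g2 CK lam R Z0 cU CS A AM with hC
  have hAA : A + A' ≠ ⊤ := ENNReal.add_ne_top.2 ⟨hA, hA'⟩
  have hCt : C ≠ ⊤ := ENNReal.add_ne_top.2 ⟨ENNReal.mul_ne_top (ENNReal.pow_ne_top hMt) hAA,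
    ENNReal.mul_ne_top (by norm_num) (C0_ne_top hA hAM hN.hcU hCS)⟩
  -- the first steps
  have crude : ∀ j : ℕ, ∀ t x v, 0 < t → t ≤ t0 → H j t x v ≤
      M ^ j * (A + A') * ENNReal.ofReal (t ^ b) * EE P g1 g2 t x v := by
    intro j
    induction j with
    | zero =>
      intro t x v ht ht0
      refine (hinit t x v ht ht0).trans ?_
      gcongr
      rw [pow_zero, one_mul]
      exact le_add_self
    | succ j ih =>
      intro t x v ht ht0
      have hMj : M ^ j * (A + A') ≠ ⊤ := ENNReal.mul_ne_top (ENNReal.pow_ne_top hMt) hAA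
      have h1 := Du_gain_crude hS hN.hg2.le hN.hb hN.hCK hMj ih ht ht0 x v
        (fun s x' hs hs0 => hS.K2 s x' v hs hs0)
      have h2 := Du_src_le hS hN.hg2.le hN.hb hA hQ.src le_rfl ht ht0 x v
      calc H (j + 1) t x v ≤ Du 0 (Gf (H j)) t x v + Du 0 sg t x v := hQ.eq0 j t x v ht ht0
        _ ≤ _ := add_le_add h1 h2
        _ = (ENNReal.ofReal (CK / b) * (M ^ j * (A + A')) + A) * ENNReal.ofReal (t ^ b) *
            EE P g1 g2 t x v := by ring
        _ ≤ (ENNReal.ofReal (CK / b) * (M ^ j * (A + A')) + M ^ j * (A + A')) *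
            ENNReal.ofReal (t ^ b) * EE P g1 g2 t x v := by
            gcongr
            calc A ≤ 1 * (A + A') := by rw [one_mul]; exact le_self_add
              _ ≤ _ := by gcongr; exact one_le_pow₀ hM1
        _ = _ := by rw [hM, pow_succ]; ring
  induction k using Nat.strong_induction_on with
  | _ k ih =>
    rcases Nat.lt_or_ge k 5 with hk | hk
    · intro t x v ht ht0
      refine (crude k t x v ht ht0).trans ?_
      refine mul_le_mul' (mul_le_mul' ?_ le_rfl) le_rfl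
      calc M ^ k * (A + A') ≤ M ^ 4 * (A + A') :=
            mul_le_mul' (pow_le_pow_right₀ hM1 (by omega)) le_rfl
        _ ≤ C := le_self_add
    · obtain ⟨m, rfl⟩ := Nat.exists_eq_add_of_le' (show 4 ≤ k by omega)
      exact seq_step hS hN hA hQ hCt (by rw [hC]; exact le_add_self) m (by omega)
        (fun j hj => ih (m + j) (by omega))

/-- THEOREM L2 for solutions: the constant does not depend on the a-priori bound `A'` -/
theorem slave_sol (hS : SlaveHyp P g1 g2 t0 Gf CK kV V0 lam R cU eS CS)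
    (hN : SlaveNum g2 t0 CK kV V0 lam R Z0 b rho0 cU eS) (hA : A ≠ ⊤) (hA0 : A ≠ 0)
    (hAM : AM ≠ ⊤) (hCS : CS ≠ ⊤) {h : ℝ → P2 → R3 → ℝ≥0∞}
    (hQ : SlaveSeq P g1 g2 t0 b Gf rho0 A AM (fun _ => h) sg) (hA' : A' ≠ ⊤)
    (hh : ∀ s x v, 0 < s → s ≤ t0 → h s x v ≤ A' * ENNReal.ofReal (s ^ b) * EE P g1 g2 s x v) :
    ∀ t x v, 0 < t → t ≤ t0 → h t x v ≤
      2 * C0 g2 CK lam R Z0 cU CS A AM * ENNReal.ofReal (t ^ b) * EE P g1 g2 t x v := by
  set C : ℝ≥0∞ := 2 * C0 g2 CK lam R Z0 cU CS A AM with hC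
  have hCt : C ≠ ⊤ := ENNReal.mul_ne_top (by norm_num) (C0_ne_top hA hAM hN.hcU hCS)
  have hC0 : C ≠ 0 := by
    intro h0
    have h1 : C0 g2 CK lam R Z0 cU CS A AM = 0 := by
      rcases mul_eq_zero.1 h0 with h2 | h2
      · norm_num at h2
      · exact h2
    exact hA0 (le_antisymm (A_le_C0.trans h1.le) bot_le)
  have hhalf : ENNReal.ofReal (1 / 2) ≠ ⊤ := ENNReal.ofReal_ne_top
  have h2h : ENNReal.ofReal (1 / 2) * 2 = 1 := by
    rw [show (2 : ℝ≥0∞) = ENNReal.ofReal 2 by simp, ← ENNReal.ofReal_mul (by norm_num)]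
    norm_num
  have key : ∀ n : ℕ, ∀ t x v, 0 < t → t ≤ t0 → h t x v ≤
      (C + A' * ENNReal.ofReal (1 / 2) ^ n) * ENNReal.ofReal (t ^ b) * EE P g1 g2 t x v := by
    intro n
    induction n with
    | zero =>
      intro t x v ht ht0
      refine (hh t x v ht ht0).trans ?_
      gcongr
      rw [pow_zero, mul_one]
      exact le_add_self
    | succ n ih =>
      intro t x v ht ht0
      have hcn : C + A' * ENNReal.ofReal (1 / 2) ^ n ≠ ⊤ :=
        ENNReal.add_ne_top.2 ⟨hCt, ENNReal.mul_ne_top hA' (ENNReal.pow_ne_top hhalf)⟩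
      refine (improve hS hN hA hQ hcn 1 le_rfl (fun j hj s x v hs hs0 => ih s x v hs hs0)
        t x v ht ht0).trans ?_
      refine mul_le_mul' (mul_le_mul' ?_ le_rfl) le_rfl
      have h3 : C0 g2 CK lam R Z0 cU CS A AM = ENNReal.ofReal (1 / 2) * C := by
        rw [hC, ← mul_assoc, h2h, one_mul]
      rw [h3]
      apply le_of_eq
      calc (C + A' * ENNReal.ofReal (1 / 2) ^ n) * ENNReal.ofReal (1 / 2) +
            ENNReal.ofReal (1 / 2) * C
          = (ENNReal.ofReal (1 / 2) + ENNReal.ofReal (1 / 2)) * C +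
              A' * ENNReal.ofReal (1 / 2) ^ (n + 1) := by rw [pow_succ]; ring
        _ = C + A' * ENNReal.ofReal (1 / 2) ^ (n + 1) := by
              rw [← ENNReal.ofReal_add (by norm_num) (by norm_num)]
              norm_num
  intro t x v ht ht0
  rw [mul_assoc]
  refine le_of_halving hA' (Or.inl hC0) (fun n => ?_)
  have := key n t x v ht ht0
  rwa [mul_assoc] at this

end Crest.Agent.R68.L
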