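import Crest.Agent.R68.LSlave5
import Crest.Agent.R68.LNeu
import Crest.Agent.R68.LMass

/-!
# Row 68, PART L (helper685): theorem L1, part 1: the concrete gain operator in the slaving theorem
-/

set_option autoImplicit false
open MeasureTheory Set Filter Topology
open scoped ENNReal
open Crest.AnalysisR.VecCalc3 Crest.AnalysisR.PDE.Boltzmann

noncomputable section

namespace Crest.Agent.R68.L

open Crest.Agent.R68.A (Meas3)

variable {φ : Den}

theorem Qp_const_mul_right'' {f g : R3 → ℝ≥0∞} {c : ℝ≥0∞} (hc : c ≠ ⊤) (v : R3) :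
    Qp f (fun z => c * g z) v = c * Qp f g v := by
  unfold Qp
  rw [← lintegral_const_mul' _ _ hc]
  refine lintegral_congr fun vs => ?_
  rw [← lintegral_const_mul' _ _ hc]
  refine lintegral_congr fun w => ?_
  ring

/-- the gain is an abstract positive linear operator in the sense of `GLin` -/
theorem glin_Gf_gen (hφ : ∀ t x, Measurable (φ t x)) {E : Den}
    (hE : ∀ t x, 0 < t → Measurable (E t x)) : GLin (Gf φ) E where
  le := by
    intro c t x f g hc h v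
    unfold Gf
    calc 2 * Qp (φ t x) (f t x) v ≤ 2 * Qp (φ t x) (fun z => c * g t x z) v :=
          mul_le_mul' le_rfl (A.Qp_mono (fun _ => le_rfl) h v)
      _ = _ := by rw [Qp_const_mul_right'' hc]; ring
  add := by
    intro c t x g hc ht v
    unfold Gf
    have h1 : Qp (φ t x) (fun z => c * E t x z + g t x z) v =
        Qp (φ t x) (fun z => c * E t x z) v + Qp (φ t x) (g t x) v :=
      A.Qp_add_right (hφ t x) ((hE t x ht).const_mul c) v
    show 2 * Qp (φ t x) (fun z => c * E t x z + g t x z) v ≤ _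
    rw [h1, Qp_const_mul_right'' hc]
    apply le_of_eq; ring

/-- `B2` with exponent `b` is `t^b` times the envelope -/
theorem B2_env (P : Par) (g1 g2 b : ℝ) {t : ℝ} (ht : 0 ≤ t) (x : P2) (v : R3) :
    B2 P g1 g2 b t x v = ENNReal.ofReal (t ^ b) * EE P g1 g2 t x v := by
  unfold EE B2
  rw [Real.rpow_zero, one_mul, ← mul_assoc, ← ENNReal.ofReal_mul (Real.rpow_nonneg ht b), mul_assoc]

/-- the envelope cut to positive times (jointly measurable) -/
def EEt (P : Par) (g1 g2 : ℝ) : Den := fun t x v => if 0 < t then EE P g1 g2 t x v else 0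

theorem EEt_pos (P : Par) (g1 g2 : ℝ) {t : ℝ} (ht : 0 < t) (x : P2) (v : R3) :
    EEt P g1 g2 t x v = EE P g1 g2 t x v := if_pos ht

theorem meas3_EEt {P : Par} (hY : 0 < P.Y) (g1 g2 : ℝ) : Meas3 (EEt P g1 g2) := by
  have h1 := DPole.measurable_Dm (P := P) hY
  have h2 := measurable_mm
  have h3 : Measurable (fun p : ℝ × P2 × R3 =>
      ENNReal.ofReal (Real.exp (-(g1 - √p.1 / 100) * ‖p.2.2‖ ^ 2) *
        Real.exp (-g2 * mm p.1 p.2.1 p.2.2 ^ 2)) *
        (if 0 ≤ p.1 then Dm P p.1 p.2.1 p.2.2 else 1)) := by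
    refine Measurable.mul ?_ h1
    fun_prop
  have h4 : Measurable (fun p : ℝ × P2 × R3 => if 0 < p.1 then
      ENNReal.ofReal (Real.exp (-(g1 - √p.1 / 100) * ‖p.2.2‖ ^ 2) *
        Real.exp (-g2 * mm p.1 p.2.1 p.2.2 ^ 2)) *
        (if 0 ≤ p.1 then Dm P p.1 p.2.1 p.2.2 else 1) else 0) :=
    Measurable.ite (measurableSet_lt measurable_const measurable_fst) h3 measurable_const
  unfold Meas3 EEt
  convert h4 using 2 with p
  split_ifs with h5 h6
  · rw [EE_eq]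
  · exact absurd h5.le h6
  · rfl

theorem measurable_EE_slice {P : Par} (hY : 0 < P.Y) (g1 g2 : ℝ) {t : ℝ} (ht : 0 < t) (x : P2) :
    Measurable (EE P g1 g2 t x) := by
  have h := (meas3_EEt hY g1 g2).slice t x
  have e : EEt P g1 g2 t x = EE P g1 g2 t x := by
    funext v; exact EEt_pos P g1 g2 ht x v
  rwa [e] at h

theorem Gf_EEt (P : Par) (g1 g2 : ℝ) {t : ℝ} (ht : 0 < t) (x : P2) (v : R3) :
    Gf φ (EEt P g1 g2) t x v = Gf φ (EE P g1 g2) t x v := by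
  unfold Gf
  congr 2
  funext w
  exact EEt_pos P g1 g2 ht x w

theorem measE_Gf_gen {P : Par} (hY : 0 < P.Y) (hφ : Meas3 φ) (g1 g2 : ℝ) (τ t : ℝ) (x : P2) (v : R3)
    (hτ : 0 < τ) : AEMeasurable (fun s => Gf φ (EE P g1 g2) s (x - (t - s) • bar v) v)
      (volume.restrict (Ioo τ t)) := by
  have h1 : Measurable (fun s => Gf φ (EEt P g1 g2) s (x - (t - s) • bar v) v) :=
    (meas3_Gf hφ (meas3_EEt hY g1 g2)).comp measurable_id (by fun_prop) measurable_const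
  refine ⟨_, h1, (ae_restrict_mem measurableSet_Ioo).mono fun s hs => ?_⟩
  exact (Gf_EEt P g1 g2 (hτ.trans hs.1) _ v).symm

/-- the inputs (K1), (K2), (K4), (S) for the actual gain operator; everything else in `SlaveHyp`
is proved here -/
structure SInput (P : Par) (φ : Den) (g1 g2 t0 CK kV V0 lam R : ℝ) (cU eS CS : ℝ≥0∞) : Prop where
  Y : 0 < P.Y
  mφ : Meas3 φ
  K2 : ∀ (s : ℝ) (x : P2) (v : R3), 0 < s → s ≤ t0 →
    Gf φ (EE P g1 g2) s x v ≤ ENNReal.ofReal (CK / s) * EE P g1 g2 s x v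
  K2V : ∀ (s : ℝ) (x : P2) (v : R3), 0 < s → s ≤ t0 → V0 ≤ ‖v‖ →
    Gf φ (EE P g1 g2) s x v ≤ ENNReal.ofReal (kV / s) * EE P g1 g2 s x v
  K4 : ∀ (h : ℝ → P2 → R3 → ℝ≥0∞) (s : ℝ) (x : P2) (v : R3), 0 < s →
      om g2 s x v * Gf φ h s x v ≤ cU * Gf φ (fun s x v => om g2 s x v * h s x v) s x v
  S : ∀ (h : ℝ → P2 → R3 → ℝ≥0∞), Measurable (fun p : ℝ × P2 × R3 => h p.1 p.2.1 p.2.2) →
    ∀ (t : ℝ) (x : P2) (v : R3) (b1 b2 : ℝ≥0∞), 0 < t → t ≤ t0 → ‖v‖ ≤ V0 → b1 ≠ ⊤ →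
    (∀ s ∈ Icc (t * (1 - lam)) t, ∀ y w, h s y w ≤
      b1 * (Dm P s y w * ENNReal.ofReal (Real.exp (-(g1 - √t / 100) * ‖w‖ ^ 2)))) →
    (∀ s ∈ Icc (t * (1 - lam)) t, (∫⁻ y in Metric.closedBall x (R * t),
      ∫⁻ w in Metric.closedBall (0 : R3) R, h s y w) ≤ b2) →
    ((DG (Gf φ) (t * (1 - lam)))^[4] h) t x v ≤
      Dm P t x v * ENNReal.ofReal (Real.exp (-(g1 - √t / 100) * ‖v‖ ^ 2)) *
        (eS * b1 + CS * ENNReal.ofReal (t ^ (-2 : ℝ)) * b2)

variable {P : Par} {g1 g2 t0 CK kV V0 lam R : ℝ} {cU eS CS : ℝ≥0∞}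

theorem SInput.slaveHyp (hI : SInput P φ g1 g2 t0 CK kV V0 lam R cU eS CS) :
    SlaveHyp P g1 g2 t0 (Gf φ) CK kV V0 lam R cU eS CS where
  lin := glin_Gf_gen (fun t x => hI.mφ.slice t x) (fun t x ht => measurable_EE_slice hI.Y g1 g2 ht x)
  measE := fun τ t x v hτ => measE_Gf_gen hI.Y hI.mφ g1 g2 τ t x v hτ
  K1 := fun s t x v hs hst _ => DPole.Dm_flight hI.Y hs.le hst x v
  K2 := hI.K2
  K2V := hI.K2V
  K4 := hI.K4
  S := hI.S

end Crest.Agent.R68.L
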