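import Crest.Agent.R68.LSol3
import Crest.Agent.R68.LK

/-!
# Row 68, PART L (helper685): choice of the numerical constants, concrete inputs
-/

set_option autoImplicit false
open MeasureTheory Set Filter Topology
open scoped ENNReal
open Crest.AnalysisR.VecCalc3 Crest.AnalysisR.PDE.Boltzmann

noncomputable section

namespace Crest.Agent.R68.L

open Crest.Agent.R68.A (Meas3 en Acc)

/-- choice of the window length `L` -/
theorem exists_window (CT : ℝ) : ∃ L : ℝ, 1 ≤ L ∧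
    Real.exp (-(59 / 10) * L) * (∑ i ∈ Finset.range 4, (2 * CT * L) ^ i) ≤ 1 / 8 := by
  have h1 : ∀ i : ℕ, Tendsto (fun L : ℝ => (2 * CT) ^ i * (L ^ i * Real.exp (-L))) atTop
      (𝓝 ((2 * CT) ^ i * 0)) := fun i =>
    (Real.tendsto_pow_mul_exp_neg_atTop_nhds_zero i).const_mul _
  have h2 : Tendsto (fun L : ℝ => ∑ i ∈ Finset.range 4, (2 * CT) ^ i * (L ^ i * Real.exp (-L)))
      atTop (𝓝 0) := by
    have := tendsto_finsetSum (Finset.range 4) (fun i _ => h1 i)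
    simpa using this
  have h3 : ∀ᶠ L : ℝ in atTop,
      |∑ i ∈ Finset.range 4, (2 * CT) ^ i * (L ^ i * Real.exp (-L))| < 1 / 8 := by
    have := (h2.abs).eventually_lt_const (u := (1 / 8 : ℝ)) (by norm_num)
    exact this
  obtain ⟨L, hL, hL1⟩ := (h3.and (eventually_ge_atTop (1 : ℝ))).exists
  refine ⟨L, hL1, ?_⟩
  have h4 : Real.exp (-(59 / 10) * L) ≤ Real.exp (-L) := Real.exp_le_exp.2 (by linarith)
  set S := ∑ i ∈ Finset.range 4, (2 * CT * L) ^ i with hS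
  have h5 : Real.exp (-L) * S = ∑ i ∈ Finset.range 4, (2 * CT) ^ i * (L ^ i * Real.exp (-L)) := by
    rw [hS, Finset.mul_sum]
    exact Finset.sum_congr rfl fun i _ => by rw [mul_pow]; ring
  rw [← h5, abs_mul, abs_of_pos (Real.exp_pos _)] at hL
  calc Real.exp (-(59 / 10) * L) * S ≤ Real.exp (-(59 / 10) * L) * |S| :=
        mul_le_mul_of_nonneg_left (le_abs_self S) (Real.exp_pos _).le
    _ ≤ Real.exp (-L) * |S| := mul_le_mul_of_nonneg_right h4 (abs_nonneg _)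
    _ ≤ 1 / 8 := hL.le

/-- the numerical conditions: `V0`, `L` do not depend on `K` -/
theorem exists_slaveNum {CT VV g2 : ℝ} (hCT : 0 ≤ CT) (hVV : 0 ≤ VV) (hg2 : 0 < g2) :
    ∃ V0 L : ℝ, 0 < V0 ∧ 1 ≤ L ∧ ∀ K b : ℝ, 2 * L ≤ K → 59 / 10 * K ≤ b →
      ∃ Z0 : ℝ, ∀ (t0 R rho0 : ℝ) (cU eS : ℝ≥0∞), 0 ≤ R → R * t0 ≤ rho0 → cU ≠ ⊤ →
        cU ^ 4 * eS ≤ ENNReal.ofReal (1 / 8) →
        SlaveNum g2 t0 (CT * K) (CT * K * VV / V0) V0 (L / K) R Z0 b rho0 cU eS := by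
  obtain ⟨L, hL1, hL⟩ := exists_window CT
  refine ⟨2 * CT * VV + 1, L, by positivity, hL1, fun K b hK hb => ?_⟩
  have hK0 : 0 < K := by linarith
  have hb0 : 0 < b := by linarith [hb, hK0]
  have hV : 0 < 2 * CT * VV + 1 := by positivity
  refine ⟨2 * (2 * CT * VV + 1) + 8 * (CT * K) / g2, fun t0 R rho0 cU eS hR hRt hcU h4 => ?_⟩
  have hZ1 : 1 ≤ 2 * (2 * CT * VV + 1) + 8 * (CT * K) / g2 := by
    have : 0 ≤ 8 * (CT * K) / g2 := by positivity
    have : 0 ≤ CT * VV := by positivity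
    linarith
  refine
  { hg2 := hg2
    hb := by linarith
    hCK := by positivity
    hkV := by positivity
    hR := hR
    hRt := hRt
    hcU := hcU
    hZ0 := by linarith
    hZ0V := by
      have : 0 ≤ 8 * (CT * K) / g2 := by positivity
      linarith
    hlam0 := by positivity
    hlam1 := by rw [div_le_iff₀ hK0]; linarith
    n1 := ?_
    n2 := ?_
    n3 := ?_
    n4 := h4 }
  · rw [div_div, div_le_iff₀ (by positivity)]
    have h1 : 59 / 10 * K * (2 * CT * VV + 1) ≤ (2 * CT * VV + 1) * b := by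
      rw [mul_comm (2 * CT * VV + 1) b]
      exact mul_le_mul_of_nonneg_right hb hV.le
    have h2 : 0 ≤ K * (CT * VV) := by positivity
    nlinarith
  · set Z := 2 * (2 * CT * VV + 1) + 8 * (CT * K) / g2 with hZ
    have hZ2 : Z ≤ Z ^ 2 := by nlinarith
    have hZ3 : 8 * (CT * K) / g2 ≤ Z := by
      have : 0 ≤ CT * VV := by positivity
      rw [hZ]; linarith
    rw [div_le_iff₀ (by positivity)]
    have h1 : 8 * (CT * K) ≤ g2 * Z ^ 2 := by
      calc 8 * (CT * K) = g2 * (8 * (CT * K) / g2) := by field_simp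
        _ ≤ g2 * Z ^ 2 := mul_le_mul_of_nonneg_left (hZ3.trans hZ2) hg2.le
    linarith
  · have hLK : L / K ≤ 1 / 2 := by rw [div_le_iff₀ hK0]; linarith
    have hLK0 : 0 < L / K := by positivity
    have h1 : (1 - L / K) ^ b ≤ Real.exp (-(59 / 10) * L) := by
      calc (1 - L / K) ^ b ≤ (Real.exp (-(L / K))) ^ b :=
            Real.rpow_le_rpow (by linarith) (Real.one_sub_le_exp_neg _) hb0.le
        _ = Real.exp (-(L / K) * b) := by rw [← Real.exp_mul]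
        _ ≤ _ := by
            apply Real.exp_le_exp.2
            have hbK : 59 / 10 ≤ b / K := by rw [le_div_iff₀ hK0]; exact hb
            have : 59 / 10 * L ≤ L / K * b := by
              calc 59 / 10 * L ≤ b / K * L := mul_le_mul_of_nonneg_right hbK (by linarith)
                _ = L / K * b := by ring
            linarith
    have h2 : (∑ i ∈ Finset.range 4, (CT * K * (2 * (L / K))) ^ i) =
        ∑ i ∈ Finset.range 4, (2 * CT * L) ^ i :=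
      Finset.sum_congr rfl fun i _ => by
        congr 1; field_simp
    rw [h2]
    exact (mul_le_mul_of_nonneg_right h1 (by positivity)).trans hL

/-- field `S` of `SInput` as a separate proposition (output of Part S) -/
def SWindow (P : Par) (φ : Den) (g1 t0 V0 lam R : ℝ) (eS CS : ℝ≥0∞) : Prop :=
  ∀ (h : ℝ → P2 → R3 → ℝ≥0∞), Measurable (fun p : ℝ × P2 × R3 => h p.1 p.2.1 p.2.2) →
    ∀ (t : ℝ) (x : P2) (v : R3) (b1 b2 : ℝ≥0∞), 0 < t → t ≤ t0 → ‖v‖ ≤ V0 → b1 ≠ ⊤ →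
    (∀ s ∈ Icc (t * (1 - lam)) t, ∀ y w, h s y w ≤
      b1 * (Dm P s y w * ENNReal.ofReal (Real.exp (-(g1 - √t / 100) * ‖w‖ ^ 2)))) →
    (∀ s ∈ Icc (t * (1 - lam)) t, (∫⁻ y in Metric.closedBall x (R * t),
      ∫⁻ w in Metric.closedBall (0 : R3) R, h s y w) ≤ b2) →
    ((DG (Gf φ) (t * (1 - lam)))^[4] h) t x v ≤
      Dm P t x v * ENNReal.ofReal (Real.exp (-(g1 - √t / 100) * ‖v‖ ^ 2)) *
        (eS * b1 + CS * ENNReal.ofReal (t ^ (-2 : ℝ)) * b2)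

theorem SWindow.mono_t {P : Par} {φ : Den} {g1 t0 t1 V0 lam R : ℝ} {eS CS : ℝ≥0∞}
    (h : SWindow P φ g1 t0 V0 lam R eS CS) (h01 : t1 ≤ t0) : SWindow P φ g1 t1 V0 lam R eS CS :=
  fun f hf t x v b1 b2 ht ht0 => h f hf t x v b1 b2 ht (ht0.trans h01)

/-- the price of moving `ω` through a collision -/
def cUe (Y g2 : ℝ) : ℝ≥0∞ := ENNReal.ofReal (Real.exp (g2 * (Y + 5) ^ 2))

/-- the small constant asked from Part S -/
def epsS (Y g2 : ℝ) : ℝ := Real.exp (-(4 * (g2 * (Y + 5) ^ 2))) / 8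

theorem epsS_pos (Y g2 : ℝ) : 0 < epsS Y g2 := by unfold epsS; positivity

theorem cUe_epsS (Y g2 : ℝ) : cUe Y g2 ^ 4 * ENNReal.ofReal (epsS Y g2) ≤ ENNReal.ofReal (1 / 8) := by
  unfold cUe epsS
  rw [← ENNReal.ofReal_pow (Real.exp_pos _).le, ← ENNReal.ofReal_mul (by positivity)]
  apply ENNReal.ofReal_le_ofReal
  rw [← Real.exp_nat_mul, mul_div_assoc', ← Real.exp_add]
  norm_num

/-- concrete inputs of L1/L2 -/
theorem sInput_of {P : Par} (h : P.Ok) {g1 g2 t0 V0 lam R : ℝ} {eS CS : ℝ≥0∞} (hg1 : 0 < g1)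
    (hg2 : 0 ≤ g2) (ht0 : t0 ≤ 1) (htg : √t0 / 100 ≤ g1 / 2) (hV0 : 0 < V0)
    (hS : SWindow P (phiE P) g1 t0 V0 lam R eS CS) :
    SInput P (phiE P) g1 g2 t0 (CT P.Y g1 g2 * P.K) (CT P.Y g1 g2 * P.K * VV P.Y / V0) V0 lam R
      (cUe P.Y g2) eS CS where
  Y := h.Y0
  mφ := meas3_phiE h
  K2 := fun s x v hs hs0 => K2_EE h hg1 hg2 hs (hs0.trans ht0)
    ((div_le_div_of_nonneg_right (Real.sqrt_le_sqrt hs0) (by norm_num)).trans htg) x v
  K2V := fun s x v hs hs0 hv => K2V_EE h hg1 hg2 hs (hs0.trans ht0)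
    ((div_le_div_of_nonneg_right (Real.sqrt_le_sqrt hs0) (by norm_num)).trans htg) hV0 x hv
  K4 := fun f s x v hs => K4_om h hg2 f hs x v
  S := hS

/-- (K3) from 944's `mass_B2` -/
theorem massEE_of {P : Par} (h : P.Ok) {g1 g2 t0 : ℝ} (hg1 : 0 < g1) (hg2 : 0 < g2)
    (htg : √t0 / 100 ≤ g1 / 2) (hsm : (P.Y + 2) * (t0 + P.dl) < 7 / 20) :
    MassEE P g1 g2 t0 (LMass.CM P.Y g1 g2) := by
  intro s hs hs0
  refine LMass.mass_B2 (parD_of_ok h) hg1 hg2 hs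
    ((div_le_div_of_nonneg_right (Real.sqrt_le_sqrt hs0) (by norm_num)).trans htg) ?_
  have : (P.Y + 2) * (s + P.dl) ≤ (P.Y + 2) * (t0 + P.dl) :=
    mul_le_mul_of_nonneg_left (by linarith) (by linarith [h.Y0])
  linarith

/-- the body of `SolBound` for the actual fuel, from Part S and X1 -/
theorem solBound_of {P : Par} (h : P.Ok) {g1 g2 t0 V0 L R Z0 b be rho0 : ℝ} {eS CS CX : ℝ≥0∞}
    (hg1 : 0 < g1) (hg2 : 0 < g2) (ht01 : t0 ≤ 1) (htg : √t0 / 100 ≤ g1 / 2)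
    (hsm : (P.Y + 2) * (t0 + P.dl) < 7 / 20) (hV0 : 0 < V0)
    (hN : SlaveNum g2 t0 (CT P.Y g1 g2 * P.K) (CT P.Y g1 g2 * P.K * VV P.Y / V0) V0 (L / P.K) R Z0 b
      rho0 (cUe P.Y g2) eS)
    (hS : SWindow P (phiE P) g1 t0 V0 (L / P.K) R eS CS) (hCS : CS ≠ ⊤) (hrho : rho0 < 7 / 20)
    (hM : MassBound P (phiE P) g1 g2 t0 be CX) (hCX : CX ≠ ⊤) (hb : be < b + 2) :
    ∃ C : ℝ≥0∞, C ≠ ⊤ ∧ ∀ (σ : Den) (A : ℝ≥0∞), Meas3 σ → PerD σ →
      (∀ t ∈ Ioc 0 t0, ∀ x v, σ t x v ≤ A * B2 P g1 g2 (b - 1) t x v) →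
      ∀ t ∈ Ioc 0 t0, ∀ x v, sol (phiE P) σ t x v ≤ C * A * B2 P g1 g2 b t x v :=
  sol_bound (sInput_of h hg1 hg2.le ht01 htg hV0 hS) (fun t v => perG_phiE P t v) hN hCS hrho hM hCX
    (massEE_of h hg1 hg2 htg hsm) (LMass.CM_ne_top _ _ _) hb

end Crest.Agent.R68.L
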