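import Mathlib

/-!
# Row 68, Part L: ultrafilter limits of bounded measurable functions (weak-* compactness of the
unit ball of `L^∞` over a finite measure, by hand)
-/

set_option autoImplicit false
open MeasureTheory Set Filter Topology
open scoped ENNReal

namespace Crest.Agent.R68.L

section UL

variable (U : Ultrafilter ℕ)

/-- limit along an ultrafilter in `ℝ≥0∞` -/
noncomputable def ulim (u : ℕ → ℝ≥0∞) : ℝ≥0∞ := (U.map u).lim

theorem tendsto_ulim (u : ℕ → ℝ≥0∞) : Tendsto u U (𝓝 (ulim U u)) := by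
  have := Ultrafilter.le_nhds_lim (U.map u)
  exact this

theorem ulim_eq {u : ℕ → ℝ≥0∞} {a : ℝ≥0∞} (h : Tendsto u U (𝓝 a)) : ulim U u = a :=
  tendsto_nhds_unique (tendsto_ulim U u) h

theorem ulim_add (u w : ℕ → ℝ≥0∞) : ulim U (fun n => u n + w n) = ulim U u + ulim U w :=
  ulim_eq U ((tendsto_ulim U u).add (tendsto_ulim U w))

theorem ulim_const (a : ℝ≥0∞) : ulim U (fun _ => a) = a :=
  ulim_eq U tendsto_const_nhds

theorem ulim_le_of_le {u : ℕ → ℝ≥0∞} {a : ℝ≥0∞} (h : ∀ n, u n ≤ a) : ulim U u ≤ a :=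
  le_of_tendsto (tendsto_ulim U u) (Eventually.of_forall h)

theorem le_ulim_of_le {u : ℕ → ℝ≥0∞} {a : ℝ≥0∞} (h : ∀ n, a ≤ u n) : a ≤ ulim U u :=
  ge_of_tendsto (tendsto_ulim U u) (Eventually.of_forall h)

theorem ulim_mono {u w : ℕ → ℝ≥0∞} (h : ∀ n, u n ≤ w n) : ulim U u ≤ ulim U w :=
  le_of_tendsto_of_tendsto (tendsto_ulim U u) (tendsto_ulim U w) (Eventually.of_forall h)

theorem ulim_const_mul {a : ℝ≥0∞} (ha : a ≠ ∞) (u : ℕ → ℝ≥0∞) :
    ulim U (fun n => a * u n) = a * ulim U u :=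
  ulim_eq U (ENNReal.Tendsto.const_mul (tendsto_ulim U u) (Or.inr ha))

variable {Ω : Type*} [MeasurableSpace Ω] (m : Measure Ω) (f : ℕ → Ω → ℝ≥0∞)

/-- the limit functional -/
noncomputable def Lam (ρ : Ω → ℝ≥0∞) : ℝ≥0∞ := ulim U (fun n => ∫⁻ x, f n x * ρ x ∂m)

theorem Lam_le (h1 : ∀ n x, f n x ≤ 1) (ρ : Ω → ℝ≥0∞) : Lam U m f ρ ≤ ∫⁻ x, ρ x ∂m := by
  refine ulim_le_of_le U (fun n => lintegral_mono (fun x => ?_))
  calc f n x * ρ x ≤ 1 * ρ x := mul_le_mul' (h1 n x) le_rfl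
    _ = ρ x := one_mul _

theorem Lam_add (hf : ∀ n, Measurable (f n)) {ρ σ : Ω → ℝ≥0∞} (hρ : Measurable ρ) :
    Lam U m f (fun x => ρ x + σ x) = Lam U m f ρ + Lam U m f σ := by
  unfold Lam
  rw [← ulim_add]
  congr 1
  funext n
  have h := lintegral_add_left (μ := m) ((hf n).mul hρ) (fun x => f n x * σ x)
  simp only [Pi.mul_apply] at h
  rw [← h]
  congr 1
  funext x
  rw [mul_add]

theorem Lam_const_mul (hf : ∀ n, Measurable (f n)) {c : ℝ≥0∞} (hc : c ≠ ∞) {ρ : Ω → ℝ≥0∞}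
    (hρ : Measurable ρ) : Lam U m f (fun x => c * ρ x) = c * Lam U m f ρ := by
  unfold Lam
  rw [← ulim_const_mul U hc]
  congr 1
  funext n
  have h := lintegral_const_mul (μ := m) c ((hf n).mul hρ)
  simp only [Pi.mul_apply] at h
  rw [← h]
  congr 1
  funext x
  ring

theorem Lam_finset_sum (hf : ∀ n, Measurable (f n)) (ρ : ℕ → Ω → ℝ≥0∞)
    (hρ : ∀ k, Measurable (ρ k)) (N : ℕ) :
    Lam U m f (fun x => ∑ k ∈ Finset.range N, ρ k x) = ∑ k ∈ Finset.range N, Lam U m f (ρ k) := by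
  induction N with
  | zero =>
    simp only [Finset.range_zero, Finset.sum_empty]
    unfold Lam
    simp only [mul_zero, lintegral_zero]
    exact ulim_const U 0
  | succ N ih =>
    rw [Finset.sum_range_succ, ← ih]
    rw [← Lam_add U m f hf (Finset.measurable_sum _ (fun k _ => hρ k))]
    congr 1
    funext x
    rw [Finset.sum_range_succ]

/-- countable additivity of the limit functional -/
theorem Lam_tsum (hf : ∀ n, Measurable (f n)) (h1 : ∀ n x, f n x ≤ 1) (ρ : ℕ → Ω → ℝ≥0∞)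
    (hρ : ∀ k, Measurable (ρ k)) (hfin : ∫⁻ x, ∑' k, ρ k x ∂m ≠ ∞) :
    Lam U m f (fun x => ∑' k, ρ k x) = ∑' k, Lam U m f (ρ k) := by
  have hsum : ∫⁻ x, ∑' k, ρ k x ∂m = ∑' k, ∫⁻ x, ρ k x ∂m :=
    lintegral_tsum (fun k => (hρ k).aemeasurable)
  have hsplit : ∀ N : ℕ, Lam U m f (fun x => ∑' k, ρ k x) =
      ∑ k ∈ Finset.range N, Lam U m f (ρ k) + Lam U m f (fun x => ∑' k, ρ (k + N) x) := by
    intro N
    rw [← Lam_finset_sum U m f hf ρ hρ N,
      ← Lam_add U m f hf (Finset.measurable_sum _ (fun k _ => hρ k))]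
    congr 1
    funext x
    exact (ENNReal.summable.sum_add_tsum_nat_add' (f := fun k => ρ k x)).symm
  have htail : Tendsto (fun N : ℕ => ∑' k, ∫⁻ x, ρ (k + N) x ∂m) atTop (𝓝 0) := by
    exact ENNReal.tendsto_sum_nat_add (fun k => ∫⁻ x, ρ k x ∂m) (by rw [← hsum]; exact hfin)
  have htail2 : Tendsto (fun N : ℕ => Lam U m f (fun x => ∑' k, ρ (k + N) x)) atTop (𝓝 0) := by
    refine tendsto_of_tendsto_of_tendsto_of_le_of_le tendsto_const_nhds htail
      (fun N => bot_le) (fun N => ?_)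
    refine (Lam_le U m f h1 _).trans ?_
    rw [lintegral_tsum (fun k => (hρ (k + N)).aemeasurable)]
  have h3 : Tendsto (fun N : ℕ => ∑ k ∈ Finset.range N, Lam U m f (ρ k) +
      Lam U m f (fun x => ∑' k, ρ (k + N) x)) atTop (𝓝 ((∑' k, Lam U m f (ρ k)) + 0)) :=
    (ENNReal.tendsto_nat_tsum _).add htail2
  rw [add_zero] at h3
  refine tendsto_nhds_unique ?_ h3
  have : (fun N : ℕ => ∑ k ∈ Finset.range N, Lam U m f (ρ k) +
      Lam U m f (fun x => ∑' k, ρ (k + N) x)) = fun _ => Lam U m f (fun x => ∑' k, ρ k x) := by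
    funext N; exact (hsplit N).symm
  rw [this]
  exact tendsto_const_nhds

variable [IsFiniteMeasure m]

/-- the limit measure -/
noncomputable def nuL (hf : ∀ n, Measurable (f n)) (h1 : ∀ n x, f n x ≤ 1) : Measure Ω :=
  Measure.ofMeasurable (fun A _ => Lam U m f (A.indicator 1))
    (by
      have : (∅ : Set Ω).indicator (1 : Ω → ℝ≥0∞) = fun _ => 0 := by
        funext x; simp
      rw [this]
      unfold Lam
      simp only [mul_zero, lintegral_zero]
      exact ulim_const U 0)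
    (by
      intro A hA hd
      have h0 : ∀ x, (⋃ i, A i).indicator (1 : Ω → ℝ≥0∞) x = ∑' i, (A i).indicator 1 x := by
        intro x
        have := congrFun (indicator_iUnion_of_pairwise_disjoint A hd (1 : Ω → ℝ≥0∞)) x
        exact this
      have h2 : (⋃ i, A i).indicator (1 : Ω → ℝ≥0∞) = fun x => ∑' i, (A i).indicator 1 x :=
        funext h0
      show Lam U m f ((⋃ i, A i).indicator 1) = ∑' i, Lam U m f ((A i).indicator 1)
      rw [h2]
      refine Lam_tsum U m f hf h1 _ (fun k => measurable_one.indicator (hA k)) ?_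
      rw [← h2]
      rw [lintegral_indicator_one (MeasurableSet.iUnion hA)]
      exact measure_ne_top _ _)

theorem nuL_apply (hf : ∀ n, Measurable (f n)) (h1 : ∀ n x, f n x ≤ 1) {A : Set Ω}
    (hA : MeasurableSet A) : nuL U m f hf h1 A = Lam U m f (A.indicator 1) :=
  Measure.ofMeasurable_apply A hA

theorem nuL_le (hf : ∀ n, Measurable (f n)) (h1 : ∀ n x, f n x ≤ 1) : nuL U m f hf h1 ≤ m := by
  refine Measure.le_iff.2 (fun A hA => ?_)
  rw [nuL_apply U m f hf h1 hA]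
  refine (Lam_le U m f h1 _).trans ?_
  rw [lintegral_indicator_one hA]

omit [IsFiniteMeasure m] in
theorem Lam_mono {ρ σ : Ω → ℝ≥0∞} (h : ∀ x, ρ x ≤ σ x) : Lam U m f ρ ≤ Lam U m f σ :=
  ulim_mono U (fun _ => lintegral_mono (fun x => mul_le_mul' le_rfl (h x)))

/-- the functional is integration against `nuL` -/
theorem Lam_eq_lintegral (hf : ∀ n, Measurable (f n)) (h1 : ∀ n x, f n x ≤ 1)
    {ρ : Ω → ℝ≥0∞} (hρ : Measurable ρ) (hfin : ∫⁻ x, ρ x ∂m ≠ ∞) :
    Lam U m f ρ = ∫⁻ x, ρ x ∂(nuL U m f hf h1) := by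
  revert hfin
  refine Measurable.ennreal_induction (motive := fun ρ => (∫⁻ x, ρ x ∂m) ≠ ∞ →
    Lam U m f ρ = ∫⁻ x, ρ x ∂(nuL U m f hf h1)) ?_ ?_ ?_ hρ
  · intro c s hs hfin
    rw [lintegral_indicator_const hs] at hfin
    rw [lintegral_indicator_const hs, nuL_apply U m f hf h1 hs]
    by_cases hc : c = ∞
    · subst hc
      have hm : m s = 0 := by
        by_contra hne
        exact hfin (ENNReal.top_mul hne)
      have h0 : Lam U m f (s.indicator 1) = 0 := by
        refine le_antisymm ((Lam_le U m f h1 _).trans ?_) bot_le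
        rw [lintegral_indicator_one hs, hm]
      rw [h0, mul_zero]
      refine le_antisymm ((Lam_le U m f h1 _).trans ?_) bot_le
      rw [lintegral_indicator_const hs, hm, mul_zero]
    · rw [← Lam_const_mul U m f hf hc (measurable_one.indicator hs)]
      congr 1
      funext x
      by_cases hx : x ∈ s <;> simp [hx]
  · intro f1 g1 _ hf1 hg1 ih1 ih2 hfin
    have hadd : ∫⁻ x, (f1 + g1) x ∂m = ∫⁻ x, f1 x ∂m + ∫⁻ x, g1 x ∂m :=
      lintegral_add_left hf1 g1
    rw [hadd] at hfin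
    have e1 := ih1 (fun h => hfin (by rw [h, top_add]))
    have e2 := ih2 (fun h => hfin (by rw [h, add_top]))
    have := Lam_add U m f hf (σ := g1) hf1
    show Lam U m f (fun x => f1 x + g1 x) = _
    rw [this, e1, e2]
    exact (lintegral_add_left hf1 g1).symm
  · intro r hr hmono ih hfin
    have hle : ∀ k x, r k x ≤ ⨆ n, r n x := fun k x => le_iSup (fun n => r n x) k
    have hkfin : ∀ k, ∫⁻ x, r k x ∂m ≠ ∞ := fun k =>
      ne_top_of_le_ne_top hfin (lintegral_mono (hle k))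
    have hmc : ∫⁻ x, ⨆ n, r n x ∂(nuL U m f hf h1) =
        ⨆ n, ∫⁻ x, r n x ∂(nuL U m f hf h1) := lintegral_iSup hr hmono
    rw [hmc]
    have hL : ∀ k, Lam U m f (r k) = ∫⁻ x, r k x ∂(nuL U m f hf h1) := fun k => ih k (hkfin k)
    refine le_antisymm ?_ (iSup_le (fun k => by rw [← hL k]; exact Lam_mono U m f (hle k)))
    have hstep : ∀ k, Lam U m f (fun x => ⨆ n, r n x) ≤
        (⨆ n, ∫⁻ x, r n x ∂(nuL U m f hf h1)) +
          ((∫⁻ x, ⨆ n, r n x ∂m) - ∫⁻ x, r k x ∂m) := by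
      intro k
      have e1 : (fun x => ⨆ n, r n x) = fun x => r k x + ((⨆ n, r n x) - r k x) := by
        funext x
        rw [add_tsub_cancel_of_le (hle k x)]
      have e2 : Lam U m f (fun x => ⨆ n, r n x) =
          Lam U m f (r k) + Lam U m f (fun x => (⨆ n, r n x) - r k x) := by
        conv_lhs => rw [e1]
        exact Lam_add U m f hf (hr k)
      rw [e2]
      refine add_le_add ?_ ?_
      · rw [hL k]; exact le_iSup (fun n => ∫⁻ x, r n x ∂(nuL U m f hf h1)) k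
      · refine (Lam_le U m f h1 _).trans ?_
        rw [lintegral_sub (hr k) (hkfin k) (Eventually.of_forall (hle k))]
    have hconv : Tendsto (fun k => (⨆ n, ∫⁻ x, r n x ∂(nuL U m f hf h1)) +
          ((∫⁻ x, ⨆ n, r n x ∂m) - ∫⁻ x, r k x ∂m)) atTop
        (𝓝 ((⨆ n, ∫⁻ x, r n x ∂(nuL U m f hf h1)) + 0)) := by
      refine tendsto_const_nhds.add ?_
      have h3 : Tendsto (fun k => ∫⁻ x, r k x ∂m) atTop (𝓝 (∫⁻ x, ⨆ n, r n x ∂m)) := by
        rw [lintegral_iSup hr hmono]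
        exact tendsto_atTop_iSup (fun i j hij => lintegral_mono (hmono hij))
      have h4 := ENNReal.Tendsto.sub (tendsto_const_nhds (x := ∫⁻ x, ⨆ n, r n x ∂m)) h3
        (Or.inl hfin)
      rwa [tsub_self] at h4
    rw [add_zero] at hconv
    exact ge_of_tendsto hconv (Eventually.of_forall hstep)

/-- **Weak-* limit.**  Bounded measurable functions on a finite measure space have an
ultrafilter limit tested against all integrable functions. -/
theorem exists_weak_limit (hf : ∀ n, Measurable (f n)) (h1 : ∀ n x, f n x ≤ 1) :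
    ∃ g : Ω → ℝ≥0∞, Measurable g ∧ (∀ x, g x ≤ 1) ∧
      ∀ ρ : Ω → ℝ≥0∞, Measurable ρ → ∫⁻ x, ρ x ∂m ≠ ∞ →
        Tendsto (fun n => ∫⁻ x, f n x * ρ x ∂m) U (𝓝 (∫⁻ x, g x * ρ x ∂m)) := by
  set ν := nuL U m f hf h1 with hν
  have hle : ν ≤ m := nuL_le U m f hf h1
  have : IsFiniteMeasure ν := ⟨lt_of_le_of_lt (hle univ) (measure_lt_top m univ)⟩
  have hac : ν ≪ m := Measure.absolutelyContinuous_of_le hle
  have hwd : m.withDensity (ν.rnDeriv m) = ν := Measure.withDensity_rnDeriv_eq ν m hac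
  have hmeas : Measurable (ν.rnDeriv m) := Measure.measurable_rnDeriv ν m
  have hae : ∀ᵐ x ∂m, ν.rnDeriv m x ≤ 1 := by
    have := Measure.rnDeriv_le_one_of_le hle
    exact this
  refine ⟨fun x => min (ν.rnDeriv m x) 1, hmeas.min measurable_const, fun x => min_le_right _ _,
    fun ρ hρ hfin => ?_⟩
  have e1 : ∫⁻ x, min (ν.rnDeriv m x) 1 * ρ x ∂m = ∫⁻ x, ρ x ∂ν := by
    have e0 : ∫⁻ x, ρ x ∂ν = ∫⁻ x, (ν.rnDeriv m * ρ) x ∂m := by
      conv_lhs => rw [← hwd]
      exact lintegral_withDensity_eq_lintegral_mul _ hmeas hρ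
    rw [e0]
    refine lintegral_congr_ae ?_
    filter_upwards [hae] with x hx
    simp only [Pi.mul_apply]
    rw [min_eq_left hx]
  rw [e1, ← Lam_eq_lintegral U m f hf h1 hρ hfin]
  exact tendsto_ulim U _

/-- a positive, additive, monotone-continuous operator on nonnegative measurable functions -/
structure PosOp (m : Measure Ω) (T : (Ω → ℝ≥0∞) → Ω → ℝ≥0∞) : Prop where
  meas : ∀ f, Measurable f → Measurable (T f)
  add : ∀ f g, Measurable f → Measurable g → T (f + g) = T f + T g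
  sup : ∀ f : ℕ → Ω → ℝ≥0∞, (∀ n, Measurable (f n)) → Monotone f →
    T (fun x => ⨆ n, f n x) = fun x => ⨆ n, T (f n) x
  smul : ∀ (c : ℝ≥0∞) f, Measurable f → T (fun x => c * f x) = fun x => c * T f x
  null : ∀ f, Measurable f → (∀ᵐ x ∂m, f x = 0) → ∀ᵐ x ∂m, T f x = 0

variable {m}

omit [IsFiniteMeasure m] in
theorem PosOp.mono {T : (Ω → ℝ≥0∞) → Ω → ℝ≥0∞} (hT : PosOp m T) {f g : Ω → ℝ≥0∞}
    (hf : Measurable f) (hg : Measurable g) (h : ∀ x, f x ≤ g x) : ∀ x, T f x ≤ T g x := by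
  have hm : Monotone (fun n : ℕ => if n = 0 then f else g) := by
    intro a b hab x
    by_cases ha : a = 0 <;> by_cases hb : b = 0 <;> simp [ha, hb]
    · exact h x
    · omega
  have hmeas : ∀ n : ℕ, Measurable ((fun n : ℕ => if n = 0 then f else g) n) := by
    intro n; by_cases hn : n = 0 <;> simp [hn, hf, hg]
  have := hT.sup _ hmeas hm
  have e1 : (fun x => ⨆ n : ℕ, (if n = 0 then f else g) x) = g := by
    funext x
    refine le_antisymm (iSup_le (fun n => ?_)) ?_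
    · by_cases hn : n = 0 <;> simp [hn, h x]
    · exact le_iSup_of_le 1 (by simp)
  rw [e1] at this
  intro x
  rw [this]
  exact le_iSup_of_le 0 (by simp)

omit [IsFiniteMeasure m] in
theorem PosOp.tsum {T : (Ω → ℝ≥0∞) → Ω → ℝ≥0∞} (hT : PosOp m T) (f : ℕ → Ω → ℝ≥0∞)
    (hf : ∀ n, Measurable (f n)) : T (fun x => ∑' n, f n x) = fun x => ∑' n, T (f n) x := by
  have hfs : ∀ N : ℕ, T (fun x => ∑ k ∈ Finset.range N, f k x) =
      fun x => ∑ k ∈ Finset.range N, T (f k) x := by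
    intro N
    induction N with
    | zero =>
      have h0 := hT.smul 0 (fun _ => 0) measurable_const
      simp only [zero_mul] at h0
      simpa using h0
    | succ N ih =>
      have e1 : (fun x => ∑ k ∈ Finset.range (N + 1), f k x) =
          (fun x => ∑ k ∈ Finset.range N, f k x) + f N := by
        funext x
        simp [Finset.sum_range_succ]
      rw [e1, hT.add _ _ (Finset.measurable_sum _ (fun k _ => hf k)) (hf N), ih]
      funext x
      simp [Finset.sum_range_succ]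
  have e2 : (fun x => ∑' n, f n x) = fun x => ⨆ N : ℕ, ∑ k ∈ Finset.range N, f k x := by
    funext x
    exact ENNReal.tsum_eq_iSup_nat
  rw [e2, hT.sup (fun N x => ∑ k ∈ Finset.range N, f k x)
    (fun N => Finset.measurable_sum _ (fun k _ => hf k))]
  · funext x
    rw [ENNReal.tsum_eq_iSup_nat]
    congr 1
    funext N
    exact congrFun (hfs N) x
  · intro a b hab x
    exact Finset.sum_le_sum_of_subset (Finset.range_mono hab)

/-- the measure `B ↦ ∫_A T 1_B dm` -/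
noncomputable def lamA {T : (Ω → ℝ≥0∞) → Ω → ℝ≥0∞} (hT : PosOp m T) (A : Set Ω) : Measure Ω :=
  Measure.ofMeasurable (fun B _ => ∫⁻ x in A, T (B.indicator 1) x ∂m)
    (by
      have h0 := hT.smul 0 (fun _ => 0) measurable_const
      simp only [zero_mul] at h0
      have : (∅ : Set Ω).indicator (1 : Ω → ℝ≥0∞) = fun _ => 0 := by
        funext x; simp
      rw [this, h0]
      simp)
    (by
      intro B hB hd
      have h2 : (⋃ i, B i).indicator (1 : Ω → ℝ≥0∞) = fun x => ∑' i, (B i).indicator 1 x := by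
        funext x
        exact congrFun (indicator_iUnion_of_pairwise_disjoint B hd (1 : Ω → ℝ≥0∞)) x
      show ∫⁻ x in A, T ((⋃ i, B i).indicator 1) x ∂m = ∑' i, ∫⁻ x in A, T ((B i).indicator 1) x ∂m
      rw [h2, hT.tsum _ (fun k => measurable_one.indicator (hB k))]
      exact lintegral_tsum (fun k => (hT.meas _ (measurable_one.indicator (hB k))).aemeasurable))

omit [IsFiniteMeasure m] in
theorem lamA_apply {T : (Ω → ℝ≥0∞) → Ω → ℝ≥0∞} (hT : PosOp m T) (A : Set Ω) {B : Set Ω}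
    (hB : MeasurableSet B) : lamA hT A B = ∫⁻ x in A, T (B.indicator 1) x ∂m :=
  Measure.ofMeasurable_apply B hB

omit [IsFiniteMeasure m] in
theorem lintegral_lamA {T : (Ω → ℝ≥0∞) → Ω → ℝ≥0∞} (hT : PosOp m T) (A : Set Ω)
    {f : Ω → ℝ≥0∞} (hf : Measurable f) : ∫⁻ x, f x ∂(lamA hT A) = ∫⁻ x in A, T f x ∂m := by
  refine Measurable.ennreal_induction (motive := fun f => ∫⁻ x, f x ∂(lamA hT A) =
    ∫⁻ x in A, T f x ∂m) ?_ ?_ ?_ hf
  · intro c s hs
    rw [lintegral_indicator_const hs, lamA_apply hT A hs]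
    have e1 : s.indicator (fun _ => c) = fun x => c * s.indicator (1 : Ω → ℝ≥0∞) x := by
      funext x
      by_cases hx : x ∈ s <;> simp [hx]
    rw [e1, hT.smul c _ (measurable_one.indicator hs)]
    exact (lintegral_const_mul c (hT.meas _ (measurable_one.indicator hs))).symm
  · intro f1 g1 _ hf1 hg1 ih1 ih2
    rw [hT.add f1 g1 hf1 hg1]
    have e1 : ∫⁻ x, (f1 + g1) x ∂(lamA hT A) =
        ∫⁻ x, f1 x ∂(lamA hT A) + ∫⁻ x, g1 x ∂(lamA hT A) := lintegral_add_left hf1 g1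
    rw [e1, ih1, ih2]
    exact (lintegral_add_left (hT.meas _ hf1) _).symm
  · intro r hr hmono ih
    rw [hT.sup r hr hmono, lintegral_iSup hr hmono]
    have hm2 : Monotone (fun n => T (r n)) := fun i j hij x =>
      hT.mono (hr i) (hr j) (fun y => hmono hij y) x
    rw [lintegral_iSup (fun n => hT.meas _ (hr n)) hm2]
    congr 1
    funext n
    exact ih n

/-- **Fixed point in the limit.** -/
theorem exists_fixed_ae {T : (Ω → ℝ≥0∞) → Ω → ℝ≥0∞} (hT : PosOp m T)
    (hT1 : ∫⁻ x, T 1 x ∂m ≠ ∞) (hf : ∀ n, Measurable (f n)) (h1 : ∀ n x, f n x ≤ 1)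
    (e : ℕ → Ω → ℝ≥0∞) (he : ∀ n, Measurable (e n))
    (hfe : ∀ n, ∀ᵐ x ∂m, f n x = T (f n) x + e n x)
    (hlim : Tendsto (fun n => ∫⁻ x, e n x ∂m) U (𝓝 0)) :
    ∃ g : Ω → ℝ≥0∞, Measurable g ∧ (∀ x, g x ≤ 1) ∧ (∀ᵐ x ∂m, g x = T g x) ∧
      ∀ ρ : Ω → ℝ≥0∞, Measurable ρ → ∫⁻ x, ρ x ∂m ≠ ∞ →
        Tendsto (fun n => ∫⁻ x, f n x * ρ x ∂m) U (𝓝 (∫⁻ x, g x * ρ x ∂m)) := by
  obtain ⟨g, hg, hg1, hgl⟩ := exists_weak_limit U m f hf h1
  refine ⟨g, hg, hg1, ?_, hgl⟩
  have hTg : Measurable (T g) := hT.meas g hg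
  refine ae_eq_of_forall_setLIntegral_eq_of_sigmaFinite hg hTg (fun A hA _ => ?_)
  -- density of lamA
  set lam := lamA hT A with hlam
  have hfinl : IsFiniteMeasure lam := by
    refine ⟨?_⟩
    rw [hlam, lamA_apply hT A MeasurableSet.univ, indicator_univ]
    exact lt_of_le_of_lt (setLIntegral_le_lintegral _ _) (lt_top_iff_ne_top.2 hT1)
  have hac : lam ≪ m := by
    refine Measure.AbsolutelyContinuous.mk (fun B hB hB0 => ?_)
    rw [hlam, lamA_apply hT A hB]
    have hz : ∀ᵐ x ∂m, B.indicator (1 : Ω → ℝ≥0∞) x = 0 := by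
      have : ∀ᵐ x ∂m, x ∉ B := measure_eq_zero_iff_ae_notMem.1 hB0
      filter_upwards [this] with x hx
      simp [hx]
    have := hT.null _ (measurable_one.indicator hB) hz
    rw [lintegral_eq_zero_iff (hT.meas _ (measurable_one.indicator hB))]
    exact ae_restrict_of_ae this
  set d := lam.rnDeriv m with hd
  have hdm : Measurable d := Measure.measurable_rnDeriv _ _
  have hwd : m.withDensity d = lam := Measure.withDensity_rnDeriv_eq lam m hac
  have hdfin : ∫⁻ x, d x ∂m ≠ ∞ := by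
    have : ∫⁻ x, d x ∂m = lam univ := by
      rw [← hwd, withDensity_apply _ MeasurableSet.univ, Measure.restrict_univ]
    rw [this]
    exact measure_ne_top _ _
  have key : ∀ h : Ω → ℝ≥0∞, Measurable h → ∫⁻ x in A, T h x ∂m = ∫⁻ x, h x * d x ∂m := by
    intro h hh
    rw [← lintegral_lamA hT A hh, ← hlam]
    conv_lhs => rw [← hwd]
    rw [lintegral_withDensity_eq_lintegral_mul _ hdm hh]
    refine lintegral_congr (fun x => ?_)
    simp [mul_comm]
  have hLA : ∫⁻ x, A.indicator (1 : Ω → ℝ≥0∞) x ∂m ≠ ∞ := by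
    rw [lintegral_indicator_one hA]; exact measure_ne_top _ _
  have hA' : ∀ h : Ω → ℝ≥0∞, ∫⁻ x, h x * A.indicator (1 : Ω → ℝ≥0∞) x ∂m = ∫⁻ x in A, h x ∂m := by
    intro h
    rw [← lintegral_indicator hA]
    refine lintegral_congr (fun x => ?_)
    by_cases hx : x ∈ A <;> simp [hx]
  have t1 := hgl _ (measurable_one.indicator hA) hLA
  simp only [hA'] at t1
  have t2 := hgl d hdm hdfin
  have t3 : Tendsto (fun n => ∫⁻ x in A, f n x ∂m) U (𝓝 (∫⁻ x, g x * d x ∂m + 0)) := by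
    have h4 : Tendsto (fun n => ∫⁻ x in A, e n x ∂m) U (𝓝 0) :=
      tendsto_of_tendsto_of_tendsto_of_le_of_le tendsto_const_nhds hlim (fun n => bot_le)
        (fun n => setLIntegral_le_lintegral _ _)
    refine (t2.add h4).congr (fun n => ?_)
    rw [← key (f n) (hf n), ← lintegral_add_left (hT.meas _ (hf n))]
    refine lintegral_congr_ae (ae_restrict_of_ae ?_)
    filter_upwards [hfe n] with x hx
    exact hx.symm
  rw [add_zero, ← key g hg] at t3
  exact tendsto_nhds_unique t1 t3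

end UL

end Crest.Agent.R68.L
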