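import Crest.Agent.R68.LAnc

/-!
# Row 68, Part L: the form in which the lower exponent (X2) is used
-/

set_option autoImplicit false
open MeasureTheory Set Filter
open scoped ENNReal Topology
open Crest.AnalysisR.VecCalc3 Crest.AnalysisR.PDE.Boltzmann

noncomputable section

namespace Crest.Agent.R68.L

open Crest.Agent.R68.A

/-- mass with the weight `1 + |v|⁴` over one period -/
def Mom (h : Den) (t : ℝ) : ℝ≥0∞ :=
  ∫⁻ x in cellG, ∫⁻ v, ENNReal.ofReal (1 + ‖v‖ ^ 4) * h t x v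

/-- (X2): seeds at the scales `tau n → 0` whose solutions have mass `≤ CH t^a` and keep a fixed
amount of mass on `(0,t0)` -/
structure X2Out (P : Par) (g1 g2 t0 a : ℝ) (CH c0 : ℝ≥0∞) (tau : ℕ → ℝ) (sg : ℕ → Den) :
    Prop where
  CH_ne : CH ≠ ⊤
  c0_pos : 0 < c0
  tau_pos : ∀ n, 0 < tau n
  tau_lim : Tendsto tau atTop (𝓝 0)
  meas : ∀ n, Meas3 (sg n)
  per : ∀ n, PerF (sg n)
  supp : ∀ n t x v, (t ≤ tau n ∨ 2 * tau n ≤ t) → sg n t x v = 0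
  bd : ∀ n, ∀ t ∈ Ioc 0 t0, ∀ x v, sg n t x v ≤ CH * B2 P g1 g2 (a - 3) t x v
  mom : ∀ n, ∀ t ∈ Ioc 0 t0, Mom (sol (phiE P) (sg n)) t ≤ CH * ENNReal.ofReal (t ^ a)
  low : ∀ n, c0 ≤ ∫⁻ t in Ioo 0 t0, Mom (sol (phiE P) (sg n)) t

end Crest.Agent.R68.L
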