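import Crest.Agent.R68.ZMain
import Crest.Agent.R68.EFinal

/-!
Row 68, part Z: final assembly. Two different `MildG` solutions with the same datum give S0091.
-/

set_option autoImplicit false
open MeasureTheory Set
open scoped ENNReal
open Crest.AnalysisR.VecCalc3 Crest.AnalysisR.PDE.Boltzmann

namespace Crest.Agent.R68

/-- **Final assembly.** -/
theorem S0091_of_mildG {G G' : ℝ → P2 → R3 → ℝ} {G0 : P2 → R3 → ℝ} {R : ℝ}
    (h : MildG G G0 R) (h' : MildG G' G0 R)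
    (hne : 0 < volume {p : ℝ × P2 × R3 | 0 < p.1 ∧ G p.1 p.2.1 p.2.2 ≠ G' p.1 p.2.1 p.2.2}) :
    ∃ R : ℝ, ∃ F₀ : R3 → R3 → ℝ, IsAdmissibleDatum F₀ R ∧
      ∃ F₁ F₂ : ℝ → R3 → R3 → ℝ, IsGlobalSolution F₁ F₀ ∧ IsGlobalSolution F₂ F₀ ∧
        0 < volume {p : ℝ × R3 × R3 | p ∈ region ∧ F₁ p.1 p.2.1 p.2.2 ≠ F₂ p.1 p.2.1 p.2.2} := by
  have m1 := mildSol_of_mildG h
  have m2 := mildSol_of_mildG h'
  exact ⟨R, _, m1.datum, pull G, pull G', isGlobalSolution_of_mild m1, isGlobalSolution_of_mild m2,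
    pos_measure_pull h.meas h'.meas h.per h'.per hne⟩

end Crest.Agent.R68
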