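import Crest.Agent.R68.Main0
import Crest.Agent.R68.ZFinal

/-!
# Row 68: final assembly, part 2 (helper195): `main0` derives S0091 from the outputs of the parts.
-/

set_option autoImplicit false
open MeasureTheory Set Filter
open scoped ENNReal Topology
open Crest.AnalysisR.VecCalc3 Crest.AnalysisR.PDE.Boltzmann

noncomputable section

namespace Crest.Agent.R68.Main0

open Crest.Agent.R68.A (en Meas3)
open Crest.Agent.R68.N

/-! ### Assembly -/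

theorem main0 {Y : ℝ} (hY : 0 < Y) (hL : LOut Y) (hA : AOut Y) (hC : CKOut Y) (hN : NOut)
    (hW : WOut Y) (hD : DOut Y) : Concl := by
  obtain ⟨K0, hK0⟩ := hL
  obtain ⟨KA, hA⟩ := hA
  obtain ⟨KC, hC⟩ := hC
  obtain ⟨KW, hW⟩ := hW
  obtain ⟨KD, hD⟩ := hD
  obtain ⟨K, hK0', hKA, hKC, hKW, hKD, hK1⟩ : ∃ K : ℝ, K0 ≤ K ∧ KA ≤ K ∧ KC ≤ K ∧ KW ≤ K ∧
      KD ≤ K ∧ 1 ≤ K :=
    ⟨max K0 (max KA (max KC (max KW (max KD 1)))), by simp⟩
  obtain ⟨ey, hey, hey1, a, b, ha, hb, hba, hL⟩ := hK0 K hK0'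
  obtain ⟨p, hLp, hAp, hCp, hWp, hDp, hp3⟩ := (((hL.and ((hA K hK1 hKA ey b hey hey1 hb.le).and
    ((hC K hK1 hKC ey b hey hey1 hb.le).and ((hW K hK1 hKW ey hey hey1).and
      ((hD K hK1 hKD ey hey hey1).and (eventually_ge_atTop 3))))))).exists)
  obtain ⟨R, ε, hε, hWp⟩ := hWp
  have hε2 : 0 < ε / 2 := by positivity
  obtain ⟨j0, hL, hA, hC, hW, hD, hpos, hT1, hrh1, hOk⟩ := (hLp.and ((hAp R (ε / 2) hε2).and
    (hCp.and (hWp.and (hDp.and (ev_pos.and ((ev_T1_le one_pos).and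
      ((ev_rh_le one_pos).and (ev_Ok K Y ey p (zero_le_one.trans hK1) hY hey hp3))))))))).exists
  obtain ⟨hdl, hrh, hT⟩ := hpos
  obtain ⟨Hs, CL, hLi⟩ := hL
  obtain ⟨H1, C1, hH1, hC1, hB1, hcl⟩ := hA
  obtain ⟨V, Mc, Wm, CC, CK, hV, hCi, hKi, hKi'⟩ := hC
  set P := par K Y ey p j0 with hP
  have hsq : √(T1j j0) / 100 < 1 / 50 := by
    have : √(T1j j0) ≤ 1 := by
      rw [Real.sqrt_le_one]
      exact hT1
    linarith
  have hε0 : 0 < ENNReal.ofReal (ε / 2) := ENNReal.ofReal_pos.2 hε2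
  obtain ⟨H2, hH2, hdd, hne⟩ := hN (P := P) (T := T1j j0) (V := V) (Cf := coldR P)
    (Sf := coldSpill P) (q := b) (β := b) (g0 := 1 / 10) (g1 := 1 / 25) (g2 := 1 / 25)
    (g1' := 1 / 50) (g2' := 1 / 50) (a := a) (b := b) hOk hT hT1 hV hOk.c0.le
    (by norm_num) hsq (by norm_num) (by norm_num) (by norm_num) (by norm_num) hb hba le_rfl le_rfl
    ha hCi hKi hKi' (measurable_H0f j0 R) (perG_H0f j0 R) (H0f_zero hrh R) hH1 hC1 hB1 hLi hε0
  -- bounds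
  have hpow : ∀ t ∈ Ioc 0 (T1j j0), ENNReal.ofReal (t ^ (min b (a - 2))) ≤ 1 := by
    intro t ht
    rw [← ENNReal.ofReal_one]
    refine ENNReal.ofReal_le_ofReal (Real.rpow_le_one ht.1.le (ht.2.trans hT1) ?_)
    exact le_min hb.le (by linarith)
  have hdd' : ∀ t ∈ Ioc 0 (T1j j0), ∀ x v, dd (H1 t x v) (H2 t x v) ≤
      ENNReal.ofReal (ε / 2) * Zg P (1 / 50) t x v := by
    intro t ht x v
    refine (hdd t ht x v).trans ?_
    calc ENNReal.ofReal (ε / 2) * ENNReal.ofReal (t ^ (min b (a - 2))) * EE P (1 / 50) (1 / 50) t x v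
        ≤ ENNReal.ofReal (ε / 2) * 1 * Zg P (1 / 50) t x v :=
          mul_le_mul' (mul_le_mul_right (hpow t ht) _) (EE_le_Zg P (by norm_num) t x v)
      _ = _ := by rw [mul_one]
  have htx : ∀ t ∈ Ioc 0 (T1j j0), ∀ x : P2, tx b t x ≤ ENNReal.ofReal (2 ^ b) := by
    intro t ht x
    unfold tx
    refine ENNReal.ofReal_le_ofReal (Real.rpow_le_rpow ?_ ?_ hb.le)
    · have := distG_nonneg x
      have := ht.1
      linarith
    · have := distG_le_one x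
      have := ht.2.trans hT1
      linarith
  set A : ℝ≥0∞ := C1 * ENNReal.ofReal (2 ^ b) + ENNReal.ofReal (ε / 2) with hAdef
  have hAne : A ≠ ⊤ := by
    rw [hAdef]
    exact ENNReal.add_ne_top.2 ⟨ENNReal.mul_ne_top hC1 ENNReal.ofReal_ne_top, ENNReal.ofReal_ne_top⟩
  have hbd1' : ∀ t ∈ Ioc 0 (T1j j0), ∀ x v,
      H1 t x v ≤ C1 * ENNReal.ofReal (2 ^ b) * Zg P (1 / 50) t x v := by
    intro t ht x v
    refine (hB1 t ht x v).trans ?_
    exact mul_le_mul' (mul_le_mul_right (htx t ht x) _) (Zg_mono P (by norm_num) t x v)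
  have hbd1 : ∀ t ∈ Ioc 0 (T1j j0), ∀ x v, H1 t x v ≤ A * Zg P (1 / 50) t x v := by
    intro t ht x v
    refine (hbd1' t ht x v).trans ?_
    rw [hAdef, add_mul]
    exact le_self_add
  have hbd2 : ∀ t ∈ Ioc 0 (T1j j0), ∀ x v, H2 t x v ≤ A * Zg P (1 / 50) t x v := by
    intro t ht x v
    refine (le_add_dd (H2 t x v) (H1 t x v)).trans ?_
    rw [dd_comm, hAdef, add_mul]
    exact add_le_add (hbd1' t ht x v) (hdd' t ht x v)
  have hTm : T1j j0 ∈ Ioc 0 (T1j j0) := ⟨hT, le_rfl⟩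
  have hcl1' : ∀ x v, dd (H1 (T1j j0) x v) (H0f j0 R (x - T1j j0 • bar v) v) ≤
      ENNReal.ofReal (ε / 2) * Zg P (1 / 50) (T1j j0) x v := fun x v =>
    (hcl _ hTm x v).trans (mul_le_mul_right (Zg_mono P (by norm_num) _ x v) _)
  have hcl1 : ∀ x v, dd (H1 (T1j j0) x v) (H0f j0 R (x - T1j j0 • bar v) v) ≤
      ENNReal.ofReal ε * Zg P (1 / 50) (T1j j0) x v := fun x v =>
    (hcl1' x v).trans (mul_le_mul_left (ENNReal.ofReal_le_ofReal (by linarith)) _)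
  have hcl2 : ∀ x v, dd (H2 (T1j j0) x v) (H0f j0 R (x - T1j j0 • bar v) v) ≤
      ENNReal.ofReal ε * Zg P (1 / 50) (T1j j0) x v := by
    intro x v
    refine (dd_triangle _ (H1 (T1j j0) x v) _).trans ?_
    have e1 : ENNReal.ofReal ε = ENNReal.ofReal (ε / 2) + ENNReal.ofReal (ε / 2) := by
      rw [← ENNReal.ofReal_add hε2.le hε2.le, add_halves]
    rw [e1, add_mul]
    refine add_le_add ?_ (hcl1' x v)
    rw [dd_comm]
    exact hdd' _ hTm x v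
  obtain ⟨G1, hG1, hE1⟩ := hW H1 A hH1 hAne hbd1 hcl1
  obtain ⟨G2, hG2, hE2⟩ := hW H2 A hH2 hAne hbd2 hcl2
  refine S0091_of_mildG hG1 hG2 ?_
  rw [pos_iff_ne_zero]
  intro h0
  apply hne
  refine hD R H1 H2 A hH1 hH2 hAne hbd1 hbd2 ?_
  have h1 : ∀ᵐ z : ℝ × P2 × R3, ¬ (0 < z.1 ∧ G1 z.1 z.2.1 z.2.2 ≠ G2 z.1 z.2.1 z.2.2) := by
    rw [ae_iff]
    simpa using h0
  filter_upwards [h1, hE1, hE2] with z hz h2 h3 hzT
  rw [← h2 hzT, ← h3 hzT]
  have h4 : G1 z.1 z.2.1 z.2.2 = G2 z.1 z.2.1 z.2.2 := by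
    by_contra h5
    exact hz ⟨hzT.1, h5⟩
  rw [h4]

end Crest.Agent.R68.Main0
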