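import Crest.Agent.R68.NExt3
import Crest.Agent.R68.NAlg
import Crest.Agent.R68.LAncF
import Crest.Agent.R68.LNull

/-!
# Row 68, PART N (helper559): the two hot components differ

If `Hs = T Hs` on `(0,T]` and `Hs` is a.e. dominated by a weight `W` whose Neumann series `∑ T^m W`
is finite at `(t,x,v)`, then `Hs t x v = 0`.  Consequently a second solution which is close to
`H1 + eps Hs` (error in the weight `W`) differs from `H1`.
-/

set_option autoImplicit false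
open MeasureTheory Set Filter
open scoped ENNReal Topology
open Crest.AnalysisR.VecCalc3 Crest.AnalysisR.PDE.Boltzmann

noncomputable section

namespace Crest.Agent.R68.ND

open Crest.Agent.R68.A (en Meas3)
open Crest.Agent.R68.N (Fld PerF TT EE nuf LInp ddF dd)
open Crest.Agent.R68.L (TL TL_tsum TL_add TL_smul meas3_TL meas3_iter sol)

/-- cut to the times `(0,T)` -/
def cutO (T : ℝ) (f : Fld) : Fld := fun t x v => if t ∈ Ioo 0 T then f t x v else 0

theorem meas3_cutO {T : ℝ} {f : Fld} (hf : Meas3 f) : Meas3 (cutO T f) :=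
  Measurable.ite (measurable_fst measurableSet_Ioo) hf measurable_const

theorem cutO_le (T : ℝ) (f : Fld) (t : ℝ) (x : P2) (v : R3) : cutO T f t x v ≤ f t x v := by
  unfold cutO
  split_ifs
  · exact le_rfl
  · exact zero_le

theorem iter_mono {φ : Fld} {f g : Fld} (h : ∀ s y z, f s y z ≤ g s y z) (m : ℕ) :
    ∀ s y z, (TL φ)^[m] f s y z ≤ (TL φ)^[m] g s y z := by
  induction m with
  | zero => exact h
  | succ m ih =>
    intro s y z
    rw [Function.iterate_succ_apply', Function.iterate_succ_apply']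
    exact TL_mono_lt (fun r _ y z => ih r y z) y z

/-- **Uniqueness below the weight**: a solution of `Hs = T Hs` which is a.e. `≤ W` vanishes wherever
`∑ T^m W` is finite. -/
theorem eq_zero_of_ae_le {φ : Fld} (hφ : Meas3 φ) {Hs W : Fld} (hH : Meas3 Hs) (hW : Meas3 W)
    {T : ℝ} (heqn : ∀ t, 0 < t → t ≤ T → ∀ x v, Hs t x v = TL φ Hs t x v)
    (hle : ∀ᵐ p : ℝ × P2 × R3, p.1 ∈ Ioo 0 T → Hs p.1 p.2.1 p.2.2 ≤ W p.1 p.2.1 p.2.2)
    {t : ℝ} (ht : t ∈ Ioo 0 T) (x : P2) (v : R3) (hfin : neuL φ W t x v ≠ ⊤) : Hs t x v = 0 := by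
  set A : Fld := cutO T Hs with hA
  set M : Fld := fun t x v => min (A t x v) (W t x v) with hM
  have mA : Meas3 A := meas3_cutO hH
  have mM : Meas3 M := Measurable.min mA hW
  have hae : ∀ᵐ p : D.Ph, 0 < p.1 → A p.1 p.2.1 p.2.2 = M p.1 p.2.1 p.2.2 := by
    filter_upwards [hle] with p hp _
    rw [hM]
    symm
    refine min_eq_left ?_
    by_cases hpt : p.1 ∈ Ioo 0 T
    · rw [hA]; unfold cutO; rw [if_pos hpt]; exact hp hpt
    · rw [hA]; unfold cutO; rw [if_neg hpt]; exact zero_le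
  have hTT := L.TL_TL_congr' hφ mA mM hae
  -- `Hs ≤ T T W` on `(0,T)`
  have h2 : ∀ s, s ∈ Ioo 0 T → ∀ y z, Hs s y z ≤ (TL φ)^[2] W s y z := by
    intro s hs y z
    have e1 : Hs s y z = TL φ (TL φ A) s y z := by
      rw [heqn s hs.1 hs.2.le]
      refine TL_congr_lt (fun r hr y z => ?_) y z
      rw [heqn r hr.1 (hr.2.le.trans hs.2.le)]
      refine TL_congr_lt (fun q hq y z => ?_) y z
      rw [hA]; unfold cutO
      rw [if_pos ⟨hq.1, hq.2.trans (hr.2.trans hs.2)⟩]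
    rw [e1, hTT]
    show TL φ (TL φ M) s y z ≤ TL φ (TL φ W) s y z
    exact TL_mono_lt (fun r _ y z => TL_mono_lt (fun q _ y z => min_le_right _ _) y z) y z
  -- iteration
  have hk : ∀ k : ℕ, ∀ s, s ∈ Ioo 0 T → ∀ y z, Hs s y z ≤ (TL φ)^[k + 2] W s y z := by
    intro k
    induction k with
    | zero => exact h2
    | succ k ih =>
      intro s hs y z
      rw [show k + 1 + 2 = (k + 2) + 1 from by ring, Function.iterate_succ_apply',
        heqn s hs.1 hs.2.le]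
      exact TL_mono_lt (fun r hr y z => ih r ⟨hr.1, hr.2.trans hs.2⟩ y z) y z
  have hten : Tendsto (fun m : ℕ => (TL φ)^[m] W t x v) atTop (𝓝 0) :=
    ENNReal.tendsto_atTop_zero_of_tsum_ne_top hfin
  have hten2 : Tendsto (fun k : ℕ => (TL φ)^[k + 2] W t x v) atTop (𝓝 0) :=
    (tendsto_add_atTop_iff_nat 2).2 hten
  exact le_antisymm (ge_of_tendsto' hten2 fun k => hk k t ht x v) zero_le

theorem neuL_const_mul {φ : Fld} (hφ : Meas3 φ) {f : Fld} (hf : Meas3 f) (c : ℝ≥0∞) (t : ℝ)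
    (x : P2) (v : R3) : neuL φ (fun t x v => c * f t x v) t x v = c * neuL φ f t x v := by
  have key : ∀ m : ℕ, (TL φ)^[m] (fun t x v => c * f t x v) =
      fun t x v => c * (TL φ)^[m] f t x v := by
    intro m
    induction m with
    | zero => rfl
    | succ m ih =>
      rw [Function.iterate_succ_apply', ih, Function.iterate_succ_apply']
      exact TL_smul (φ := φ) hφ (meas3_iter hφ hf m) c
  unfold neuL
  rw [← ENNReal.tsum_mul_left]
  exact tsum_congr fun m => by rw [key m]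

theorem Dw_pos_of_Dm {P : Par} {t : ℝ} {x : P2} {v : R3} (h : Dm P t x v ≠ ⊤) : 0 < Dw P t x v := by
  by_contra hc
  push Not at hc
  apply h
  unfold Dm
  rw [ENNReal.ofReal_of_nonpos hc]
  exact ENNReal.zero_rpow_of_neg (by norm_num)

/-- `Dw > 0` for almost every `(t,x,v)` with `t > 0` -/
theorem ae_Dw_pos {P : Par} (hP : P.Ok) :
    ∀ᵐ p : ℝ × P2 × R3, 0 < p.1 → 0 < Dw P p.1 p.2.1 p.2.2 := by
  have hD := L.parD_of_ok hP
  have hm : MeasurableSet {p : (ℝ × P2) × R3 | 0 < p.1.1 → 0 < Dw P p.1.1 p.1.2 p.2} := by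
    have h1 : Measurable fun p : ℝ × P2 × R3 => if 0 ≤ p.1 then Dm P p.1 p.2.1 p.2.2 else 1 :=
      DPole.measurable_Dm hD.Y
    have h2 : MeasurableSet {p : ℝ × P2 × R3 | 0 < p.1 →
        (if 0 ≤ p.1 then Dm P p.1 p.2.1 p.2.2 else 1) ≠ ⊤} := by
      have e : {p : ℝ × P2 × R3 | 0 < p.1 →
          (if 0 ≤ p.1 then Dm P p.1 p.2.1 p.2.2 else 1) ≠ ⊤} =
          {p : ℝ × P2 × R3 | 0 < p.1}ᶜ ∪ {p : ℝ × P2 × R3 |
          (if 0 ≤ p.1 then Dm P p.1 p.2.1 p.2.2 else 1) ≠ ⊤} := by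
        ext p
        simp only [mem_union, mem_compl_iff, mem_ofPred_eq]
        tauto
      rw [e]
      exact (measurableSet_lt measurable_const measurable_fst).compl.union
        (h1 (measurableSet_singleton _)).compl
    have h3 : {p : (ℝ × P2) × R3 | 0 < p.1.1 → 0 < Dw P p.1.1 p.1.2 p.2} =
        (MeasurableEquiv.prodAssoc : (ℝ × P2) × R3 ≃ᵐ ℝ × P2 × R3) ⁻¹' {p : ℝ × P2 × R3 |
        0 < p.1 → (if 0 ≤ p.1 then Dm P p.1 p.2.1 p.2.2 else 1) ≠ ⊤} := by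
      ext p
      simp only [mem_ofPred_eq, mem_preimage]
      show _ ↔ (0 < p.1.1 → (if 0 ≤ p.1.1 then Dm P p.1.1 p.1.2 p.2 else 1) ≠ ⊤)
      by_cases hp : 0 < p.1.1
      · simp only [hp, hp.le, if_true, true_imp_iff]
        refine ⟨fun h => ?_, Dw_pos_of_Dm⟩
        unfold Dm
        exact ENNReal.rpow_ne_top_of_ne_zero (by simpa using h) ENNReal.ofReal_ne_top
      · simp [hp]
    rw [h3]
    exact MeasurableEquiv.prodAssoc.measurable h2
  have h4 : ∀ᵐ p : (ℝ × P2) × R3, 0 < p.1.1 → 0 < Dw P p.1.1 p.1.2 p.2 := by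
    rw [Measure.volume_eq_prod, Measure.ae_prod_iff_ae_ae hm]
    refine Eventually.of_forall fun q => ?_
    by_cases hq : 0 < q.1
    · filter_upwards [L.ae_Dm_ne_top hD hq.le q.2] with v hv _ using Dw_pos_of_Dm hv
    · exact Eventually.of_forall fun v h => absurd h hq
  exact (volume_preserving_prodAssoc (α₁ := ℝ) (β₁ := P2) (γ₁ := R3)).symm.quasiMeasurePreserving.ae h4

/-- **(F1 ≠ F2) The two hot components differ.** -/
theorem diff_not_ae {P : Par} (hP : P.Ok) (hφ : Meas3 (Crest.Agent.R68.phiE P)) {T : ℝ} {Hs : Fld}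
    {g1 g2 g1' g2' a b lam : ℝ} {CL : ℝ≥0∞} (hl : 0 ≤ lam)
    (hL : LInp P T Hs g1 g2 g1' g2' a b CL) {H1 H2 : Fld} {eps C : ℝ≥0∞} (he : eps ≠ 0)
    (he' : eps ≠ ⊤) (hC : C ≠ ⊤)
    (hfin : ∀ t ∈ Ioo 0 T, ∀ x v, 0 < Dw P t x v → H1 t x v ≠ ⊤)
    (hcl : ∀ t ∈ Ioo 0 T, ∀ x v, 0 < Dw P t x v →
      dd (H2 t x v) (H1 t x v + eps * Hs t x v) ≤ C * Wp P lam g1' g2' b t x v) :
    ¬ ∀ᵐ p : ℝ × P2 × R3, p.1 ∈ Ioo 0 T → H1 p.1 p.2.1 p.2.2 = H2 p.1 p.2.1 p.2.2 := by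
  intro hae
  have hD := L.parD_of_ok hP
  have hDw := ae_Dw_pos hP
  set W : Fld := fun t x v => (eps⁻¹ * (C * CL)) * WWc P lam g1' g2' b t x v with hW
  have mW : Meas3 W := Measurable.const_mul (meas3_WWc hD.Y) _
  have hle : ∀ᵐ p : ℝ × P2 × R3, p.1 ∈ Ioo 0 T → Hs p.1 p.2.1 p.2.2 ≤ W p.1 p.2.1 p.2.2 := by
    filter_upwards [hae, hDw] with p hp hDp hpt
    have hD0 := hDp hpt.1
    have h1 := hfin p.1 hpt p.2.1 p.2.2 hD0
    have h2 := hcl p.1 hpt p.2.1 p.2.2 hD0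
    rw [← hp hpt] at h2
    have h3 := (N.dd_le_iff.1 h2).2
    have h4 : eps * Hs p.1 p.2.1 p.2.2 ≤ C * Wp P lam g1' g2' b p.1 p.2.1 p.2.2 := by
      rwa [ENNReal.add_le_add_iff_left h1] at h3
    have h5 := Wp_le (lam := lam) hφ hD.Y hl hL.neu (t := p.1) ⟨hpt.1, hpt.2.le⟩ p.2.1 p.2.2
    rw [WW_eq_WWc hpt.1] at h5
    have h6 : eps * Hs p.1 p.2.1 p.2.2 ≤ C * (CL * WWc P lam g1' g2' b p.1 p.2.1 p.2.2) :=
      h4.trans (by gcongr)
    calc Hs p.1 p.2.1 p.2.2 = eps⁻¹ * (eps * Hs p.1 p.2.1 p.2.2) := by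
          rw [← mul_assoc, ENNReal.inv_mul_cancel he he', one_mul]
      _ ≤ eps⁻¹ * (C * (CL * WWc P lam g1' g2' b p.1 p.2.1 p.2.2)) := by gcongr
      _ = W p.1 p.2.1 p.2.2 := by rw [hW]; ring
  have heqn : ∀ t, 0 < t → t ≤ T → ∀ x v, Hs t x v = TL (Crest.Agent.R68.phiE P) Hs t x v := by
    intro t ht htT x v
    rw [hL.eqn t ⟨ht, htT⟩ x v]
    exact TT_eq_TL hφ hL.meas (fun s _ y z => rfl) x v
  apply hL.pos
  filter_upwards [hDw] with p hDp hpt
  refine eq_zero_of_ae_le hφ hL.meas mW heqn hle hpt p.2.1 p.2.2 ?_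
  rw [hW, neuL_const_mul hφ (meas3_WWc hD.Y), ← Wp_eq hφ hD.Y hpt.1]
  refine ENNReal.mul_ne_top (ENNReal.mul_ne_top (ENNReal.inv_ne_top.2 he)
    (ENNReal.mul_ne_top hC hL.ne)) ?_
  exact Wp_ne_top hφ hD.Y hl hL.ne hL.neu ⟨hpt.1, hpt.2.le⟩ (hDp hpt.1)

end Crest.Agent.R68.ND
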