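import Crest.Agent.R68.NMain
import Crest.Agent.R68.NDiff
import Crest.Agent.R68.Main0

/-!
# Row 68, PART N (helper621, helper559): the nonlinear step, final statement
-/

set_option autoImplicit false
open MeasureTheory Set Filter
open scoped ENNReal Topology
open Crest.AnalysisR.VecCalc3 Crest.AnalysisR.PDE.Boltzmann

noncomputable section

namespace Crest.Agent.R68.N

open Crest.Agent.R68.A (en Meas3)

/-- **Part N.** If the unburnt solution `H1` and an ancient solution `Hs` of the linear hot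
equation are given, there is a second solution `H2` with the same datum. -/
theorem N_main {P : Par} {T V : ℝ} {Cf Sf : Fld → Fld} {Mc Wm : Fld} {CC CK CL C1 : ℝ≥0∞} {q : ℝ}
    {g0 g1 g2 g1' g2' a b β : ℝ}
    (hOk : P.Ok) (hT1 : T ≤ 1) (hV : 0 ≤ V)
    (hg2 : 0 < g2') (hg1' : g1' + g2' ≤ 1) (hgg1 : g1' < g1) (hgg2 : g2' < g2)
    (hg0 : g1 + g2 ≤ g0)
    (hb0 : 0 < b) (hb : b ≤ 2 * (a - 2)) (hbβ : b ≤ β) (hbq : b ≤ q)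
    (ha : 2 < a)
    (hC : ColdInp P T V Cf Sf Mc Wm CC q)
    (hK : KInp P T Mc Wm q g0 g1 g2 CK) (hK' : KInp P T Mc Wm q (g1' + g2') g1' g2' CK)
    {H0 : P2 → R3 → ℝ≥0∞} (mH0 : Measurable (fun p : P2 × R3 => H0 p.1 p.2))
    (pH0 : ∀ v, PerG (fun x => H0 x v))
    {H1 : Fld} (h1 : HotSol P Cf Sf H0 T H1) (hC1 : C1 ≠ ⊤)
    (hH1 : ∀ t ∈ Ioc 0 T, ∀ x v, H1 t x v ≤ C1 * tx β t x * Zg P g0 t x v)
    {Hs : Fld} (hL : LInp P T Hs g1 g2 g1' g2' a b CL)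
    {ε0 : ℝ≥0∞} (hε0 : 0 < ε0) :
    ∃ H2 : Fld, HotSol P Cf Sf H0 T H2 ∧
      (∀ t ∈ Ioc 0 T, ∀ x v, dd (H1 t x v) (H2 t x v) ≤
        ε0 * ENNReal.ofReal (t ^ (min b (a - 2))) * EE P g1' g2' t x v) ∧
      ¬ ∀ᵐ p : ℝ × P2 × R3, p.1 ∈ Ioo 0 T → H1 p.1 p.2.1 p.2.2 = H2 p.1 p.2.1 p.2.2 := by
  obtain ⟨H2, ε, lam, hε00, hεt, hl, hsol, hcl, hclose⟩ :=
    N_main_pre hOk hT1 hV hg2 hg1' hgg1 hgg2 hg0 hb0 hb hbβ hbq ha hC hK hK' mH0 pH0 h1 hC1 hH1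
      hL hε0
  refine ⟨H2, hsol, hclose, ?_⟩
  have mφ : Meas3 (phiE P) := L.meas3_phiE hOk
  refine ND.diff_not_ae (lam := lam) hOk mφ (zero_le_one.trans hl) hL hε00 hεt hεt ?_ ?_
  · intro t ht x v hD
    refine ne_top_of_le_ne_top ?_ (hH1 t ⟨ht.1, ht.2.le⟩ x v)
    refine ENNReal.mul_ne_top (ENNReal.mul_ne_top hC1 (tx_ne_top _ _ _)) ?_
    exact ENNReal.mul_ne_top ENNReal.ofReal_ne_top (Dm_ne_top hD)
  · intro t ht x v _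
    rw [ND.Wp_eq mφ hOk.Y0 ht.1]
    exact hcl t ⟨ht.1, ht.2.le⟩ x v

/-- **Part N, final statement** -/
theorem NOut_holds : Main0.NOut := by
  intro P T V Cf Sf Mc Wm CC CK CL C1 q g0 g1 g2 g1' g2' a b β hOk _ hT1 hV _ hg2 _ hg1' hgg1 hgg2
    hg0 hb0 hb hbβ hbq ha hC hK hK' H0 mH0 pH0 _ H1 h1 hC1 hH1 Hs hL ε0 hε0
  exact N_main hOk hT1 hV hg2 hg1' hgg1 hgg2 hg0 hb0 hb hbβ hbq ha hC hK hK' mH0 pH0 h1 hC1 hH1
    hL hε0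

end Crest.Agent.R68.N
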