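import Crest.Agent.R68.ColdDefs
import Crest.Agent.R68.A2

/-!
# Row 68, PART N (helper621, helper559): definitions

Everything is `ℝ≥0∞`-valued; inequalities hold everywhere (weights may be `⊤`).
-/

set_option autoImplicit false
open MeasureTheory Set Filter
open scoped ENNReal Topology
open Crest.AnalysisR.VecCalc3 Crest.AnalysisR.PDE.Boltzmann

noncomputable section

namespace Crest.Agent.R68.N

open Crest.Agent.R68.A (en Meas3)

/-- fields -/
abbrev Fld : Type := ℝ → P2 → R3 → ℝ≥0∞

/-- symmetric difference (distance) on `[0,∞]` -/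
def dd (a b : ℝ≥0∞) : ℝ≥0∞ := (a - b) + (b - a)

/-- distance of two fields -/
def ddF (f g : Fld) : Fld := fun t x v => dd (f t x v) (g t x v)

/-- accumulated rate `∫_s^t n` along the flight ending in `(t,x,v)` -/
def acc (n : Fld) (s t : ℝ) (x : P2) (v : R3) : ℝ≥0∞ :=
  ∫⁻ r in Ioo s t, n r (x - (t - r) • bar v) v

/-- damped Duhamel integral with the rate `n` -/
def Dam (n q : Fld) : Fld := fun t x v =>
  ∫⁻ s in Ioo 0 t, en (acc n s t x v) * q s (x - (t - s) • bar v) v

/-- collision frequency of the free fuel -/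
def nuf (P : Par) : Fld := fun t x v => Lc (phiE P t x) v

/-- linear gain: collisions with the free fuel -/
def Gf (P : Par) (f : Fld) : Fld := fun t x v =>
  Qp (phiE P t x) (f t x) v + Qp (f t x) (phiE P t x) v

/-- the linear operator `T` -/
def TT (P : Par) (f : Fld) : Fld := Dam (nuf P) (Gf P f)

/-- collision frequency of a field, as a field -/
def LcF (f : Fld) : Fld := fun t x v => Lc (f t x) v

/-- gain of the hot equation with cold component `c` and spill `sp` -/
def gainH (c sp H : Fld) : Fld := fun t x v =>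
  sp t x v + Qp (c t x) (H t x) v + Qp (H t x) (c t x) v + Qp (H t x) (H t x) v

/-- total collision frequency -/
def lossH (c H : Fld) : Fld := fun t x v => Lc (fun z => c t x z + H t x z) v

/-- periodic in position -/
def PerF (f : Fld) : Prop := ∀ t v, PerG (fun x => f t x v)

/-- the damping used in the fixed point map -/
def nuT (P : Par) (L0 : ℝ≥0∞) : Fld := fun t x v => nuf P t x v + L0 * (1 + ENNReal.ofReal ‖v‖)

/-- the fixed point map; `Cf`, `Sf` = cold component and spill as functions of the damping rate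
`lam = Lc H` of the cold component -/
def Psi (P : Par) (L0 : ℝ≥0∞) (Cf Sf : Fld → Fld) (H0 : P2 → R3 → ℝ≥0∞) (H : Fld) : Fld :=
  fun t x v =>
    en (acc (nuT P L0) 0 t x v) * H0 (x - t • bar v) v +
    Dam (nuT P L0) (fun s y z => gainH (Cf (LcF H)) (Sf (LcF H)) H s y z +
      (nuT P L0 s y z - lossH (Cf (LcF H)) H s y z) * H s y z) t x v

/-- the hot component solves the Boltzmann equation in exponential form -/
structure HotSol (P : Par) (Cf Sf : Fld → Fld) (H0 : P2 → R3 → ℝ≥0∞) (T : ℝ) (H : Fld) : Prop where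
  meas : Meas3 H
  per : PerF H
  eqn : ∀ t ∈ Ioc 0 T, ∀ x v, 0 < Dw P t x v →
    H t x v = en (acc (lossH (Cf (LcF H)) H) 0 t x v) * H0 (x - t • bar v) v +
      Dam (lossH (Cf (LcF H)) H) (gainH (Cf (LcF H)) (Sf (LcF H)) H) t x v

/-- `Z_g = e^{-(g-√t/100)|v|²} D^{-3/2}` -/
def Zg (P : Par) (g : ℝ) : Fld := fun t x v => ENNReal.ofReal (gau g t v) * Dm P t x v

/-- `EE(g1,g2)` = `B2` with exponent `0` -/
def EE (P : Par) (g1 g2 : ℝ) : Fld := fun t x v => B2 P g1 g2 0 t x v

/-- `(1+|v|)` -/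
def ev (v : R3) : ℝ≥0∞ := 1 + ENNReal.ofReal ‖v‖

/-- `e^{-g z²}`, `z = |x|_Γ/t` -/
def ez2 (g : ℝ) (t : ℝ) (x : P2) : ℝ≥0∞ := ENNReal.ofReal (Real.exp (-g * (distG x / t) ^ 2))

end Crest.Agent.R68.N
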