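import Mathlib
import Crest.Agent.R68.WK5
import Crest.Agent.R68.FCell
import Crest.Agent.R68.DPoles3
import Crest.Agent.R68.WA0

/-!
R68 / WK6 (helper330, Part W, (W1f)): averaging of periodic functions over velocity balls.
-/

set_option autoImplicit false
open MeasureTheory Set Metric Submodule
open scoped ENNReal Real NNReal
open Crest.AnalysisR.VecCalc3 Crest.AnalysisR.PDE.Boltzmann

namespace Crest.Agent.R68.WK

attribute [local irreducible] rot vec3

/-- periodic functions on boxes -/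
theorem lintegral_box_le {h : P2 → ℝ≥0∞} (hm : Measurable h) (hp : PerG h) (x : P2) {L : ℝ}
    (hL : 0 ≤ L) :
    ∫⁻ y in {y : P2 | ‖y - x‖ ≤ L}, h y ≤ ENNReal.ofReal ((3 * L + 1) ^ 2) * ∫⁻ y in cellG, h y := by
  have hB : MeasurableSet {y : P2 | ‖y - x‖ ≤ L} :=
    measurableSet_le (by fun_prop) measurable_const
  rw [← lintegral_indicator hB]
  have e : ∀ y, {y : P2 | ‖y - x‖ ≤ L}.indicator h y
      = {y : P2 | ‖y - x‖ ≤ L}.indicator (1 : P2 → ℝ≥0∞) y * h y := by
    intro y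
    by_cases hy : y ∈ {y : P2 | ‖y - x‖ ≤ L}
    · simp [hy]
    · simp [hy]
  simp_rw [e]
  rw [← lintegral_cellG_tsum_mul (measurable_one.indicator hB) hm hp]
  rw [← lintegral_const_mul _ hm]
  refine lintegral_mono fun y => mul_le_mul' ?_ le_rfl
  have hfin := finite_latt_near (y - x) L
  have hcard := ncard_latt_near (y - x) (L := L) hL
  have e2 : ∀ k : ℤ × ℤ, {y : P2 | ‖y - x‖ ≤ L}.indicator (1 : P2 → ℝ≥0∞) (y + latt k)
      = {k : ℤ × ℤ | ‖y - x + latt k‖ ≤ L}.indicator (1 : ℤ × ℤ → ℝ≥0∞) k := by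
    intro k
    have : y + latt k - x = y - x + latt k := by abel
    by_cases hk : ‖y - x + latt k‖ ≤ L
    · rw [indicator_of_mem (show y + latt k ∈ {y : P2 | ‖y - x‖ ≤ L} by
        show ‖y + latt k - x‖ ≤ L; rw [this]; exact hk),
        indicator_of_mem (show k ∈ {k : ℤ × ℤ | ‖y - x + latt k‖ ≤ L} from hk)]
      rfl
    · rw [indicator_of_notMem (show y + latt k ∉ {y : P2 | ‖y - x‖ ≤ L} by
        show ¬ ‖y + latt k - x‖ ≤ L; rw [this]; exact hk),
        indicator_of_notMem (show k ∉ {k : ℤ × ℤ | ‖y - x + latt k‖ ≤ L} from hk)]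
  simp_rw [e2]
  rw [← tsum_subtype]
  simp only [Pi.one_apply]
  rw [ENNReal.tsum_set_one, ← hfin.cast_ncard_eq]
  rw [ENat.toENNReal_coe, ← ENNReal.ofReal_natCast]
  exact ENNReal.ofReal_le_ofReal hcard

theorem norm_bar_le (v : R3) : ‖bar v‖ ≤ ‖v‖ := by
  unfold bar
  rw [Prod.norm_def]
  exact max_le (PiLp.norm_apply_le v 0) (PiLp.norm_apply_le v 1)

/-- scaling of planar integrals -/
theorem lintegral_comp_smul_P2 {F : P2 → ℝ≥0∞} (hF : Measurable F) {τ : ℝ} (hτ : 0 < τ) (x : P2) :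
    ∫⁻ p : P2, F (x - τ • p) = ENNReal.ofReal (1 / τ ^ 2) * ∫⁻ y, F y := by
  have h1 := Measure.map_addHaar_smul (volume : Measure P2) hτ.ne'
  have hfr : Module.finrank ℝ P2 = 2 := by simp [P2]
  have hFx : Measurable fun y : P2 => F (x - y) := hF.comp (by fun_prop)
  calc ∫⁻ p : P2, F (x - τ • p) = ∫⁻ y, F (x - y) ∂(Measure.map (τ • ·) (volume : Measure P2)) := by
        rw [lintegral_map hFx (measurable_const_smul τ)]
    _ = ENNReal.ofReal (1 / τ ^ 2) * ∫⁻ y, F (x - y) := by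
        rw [h1, lintegral_smul_measure, hfr, smul_eq_mul]
        congr 2
        rw [abs_of_pos (by positivity), one_div]
    _ = _ := by
        rw [lintegral_sub_left_eq_self]

/-- **(W1f)** averaging a periodic function over a velocity ball -/
theorem lintegral_ball_flight_le {h : P2 → ℝ≥0∞} (hm : Measurable h) (hp : PerG h) (x : P2)
    {r τ : ℝ} (hr : 0 ≤ r) (hτ : 0 < τ) :
    ∫⁻ v in {v : R3 | ‖v‖ ≤ r}, h (x - τ • bar v) ≤
      ENNReal.ofReal (2 * r) * (ENNReal.ofReal (1 / τ ^ 2) *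
        (ENNReal.ofReal ((3 * (τ * r) + 1) ^ 2) * ∫⁻ y in cellG, h y)) := by
  have hms : MeasurableSet {v : R3 | ‖v‖ ≤ r} := measurableSet_le measurable_norm measurable_const
  have hbar : Measurable bar := by unfold bar; fun_prop
  have hB : MeasurableSet {y : P2 | ‖y - x‖ ≤ τ * r} :=
    measurableSet_le (by fun_prop) measurable_const
  set G : P2 → ℝ≥0∞ := {y : P2 | ‖y - x‖ ≤ τ * r}.indicator h with hG
  have hGm : Measurable G := hm.indicator hB
  rw [← lintegral_indicator hms]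
  have hfm : Measurable fun v : R3 => (Icc (-r) r).indicator (fun _ => (1 : ℝ≥0∞)) (v 2) *
      G (x - τ • bar v) := by
    apply Measurable.mul
    · exact (measurable_const.indicator measurableSet_Icc).comp (by fun_prop)
    · exact hGm.comp (by fun_prop)
  calc ∫⁻ v, {v : R3 | ‖v‖ ≤ r}.indicator (fun v => h (x - τ • bar v)) v
      ≤ ∫⁻ v : R3, (Icc (-r) r).indicator (fun _ => (1 : ℝ≥0∞)) (v 2) * G (x - τ • bar v) := by
        refine lintegral_mono fun v => ?_
        by_cases hv : ‖v‖ ≤ r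
        · rw [indicator_of_mem (show v ∈ {v : R3 | ‖v‖ ≤ r} from hv)]
          have h2 : |v 2| ≤ r := le_trans (by simpa using PiLp.norm_apply_le v 2) hv
          rw [indicator_of_mem (show v 2 ∈ Icc (-r) r from abs_le.1 h2), one_mul, hG,
            indicator_of_mem]
          show ‖x - τ • bar v - x‖ ≤ τ * r
          rw [sub_sub_cancel_left, norm_neg, norm_smul, Real.norm_of_nonneg hτ.le]
          gcongr
          exact (norm_bar_le v).trans hv
        · rw [indicator_of_notMem (show v ∉ {v : R3 | ‖v‖ ≤ r} from hv)]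
          exact bot_le
    _ = ∫⁻ c : ℝ, ∫⁻ p : ℝ × ℝ, (Icc (-r) r).indicator (fun _ => (1 : ℝ≥0∞)) c *
          G (x - τ • p) := by
        rw [lintegral_R3' hfm]
        refine lintegral_congr fun c => lintegral_congr fun p => ?_
        have e0 : bar (vec3 p.1 p.2 c) = p := by
          unfold bar; rw [vec3_zero, vec3_one]
        rw [e0, vec3_two]
    _ = ∫⁻ c : ℝ, (Icc (-r) r).indicator (fun _ => (1 : ℝ≥0∞)) c * ∫⁻ p : P2, G (x - τ • p) := by
        refine lintegral_congr fun c => ?_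
        exact lintegral_const_mul _ (hGm.comp (by fun_prop))
    _ = ENNReal.ofReal (2 * r) * (ENNReal.ofReal (1 / τ ^ 2) * ∫⁻ y, G y) := by
        rw [lintegral_mul_const _ (measurable_const.indicator measurableSet_Icc),
          lintegral_indicator measurableSet_Icc, setLIntegral_const, Real.volume_Icc,
          lintegral_comp_smul_P2 hGm hτ, one_mul]
        congr 2
        ring
    _ ≤ _ := by
        gcongr
        rw [hG, lintegral_indicator hB]
        exact lintegral_box_le hm hp x (by positivity)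

/-- the form used by `WA0` -/
theorem trans : WA.Trans fun r => Real.toNNReal (2 * r * (4 + 36 * r ^ 2)) := by
  intro r τ hτ h hm hp x
  refine (lintegral_ball_flight_le hm hp x r.2 hτ).trans ?_
  rw [← mul_assoc, ← mul_assoc]
  refine mul_le_mul' ?_ le_rfl
  have hr : (0 : ℝ) ≤ r := r.2
  rw [← ENNReal.ofReal_mul (by positivity), ← ENNReal.ofReal_mul (by positivity)]
  have e1 : (1 : ℝ≥0∞) + ENNReal.ofReal (1 / τ ^ 2) = ENNReal.ofReal (1 + 1 / τ ^ 2) := by
    rw [ENNReal.ofReal_add zero_le_one (by positivity), ENNReal.ofReal_one]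
  rw [e1]
  change _ ≤ ENNReal.ofReal (2 * r * (4 + 36 * r ^ 2)) * _
  rw [← ENNReal.ofReal_mul (by positivity)]
  apply ENNReal.ofReal_le_ofReal
  have h1 : (3 * (τ * r) + 1) ^ 2 ≤ 18 * r ^ 2 * τ ^ 2 + 2 := by nlinarith [sq_nonneg (3 * (τ * r) - 1)]
  have h2 : 1 / τ ^ 2 * (3 * (τ * r) + 1) ^ 2 ≤ 18 * r ^ 2 + 2 / τ ^ 2 := by
    calc 1 / τ ^ 2 * (3 * (τ * r) + 1) ^ 2 ≤ 1 / τ ^ 2 * (18 * r ^ 2 * τ ^ 2 + 2) := by gcongr
      _ = _ := by field_simp
  have h3 : 18 * r ^ 2 + 2 / τ ^ 2 ≤ (4 + 36 * (r : ℝ) ^ 2) * (1 + 1 / τ ^ 2) := by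
    have : 0 ≤ 1 / τ ^ 2 := by positivity
    have e : 2 / τ ^ 2 = 2 * (1 / τ ^ 2) := by ring
    rw [e]
    nlinarith [mul_nonneg (sq_nonneg (r : ℝ)) this, sq_nonneg (r : ℝ)]
  calc 2 * (r : ℝ) * (1 / τ ^ 2) * (3 * (τ * r) + 1) ^ 2
      = 2 * r * (1 / τ ^ 2 * (3 * (τ * r) + 1) ^ 2) := by ring
    _ ≤ 2 * r * ((4 + 36 * (r : ℝ) ^ 2) * (1 + 1 / τ ^ 2)) :=
        mul_le_mul_of_nonneg_left (h2.trans h3) (by positivity)
    _ = _ := by ring

end Crest.Agent.R68.WK
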