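import Crest.Agent.R68.WG3
import Crest.Agent.R68.WB7
import Crest.Agent.R68.WE3
import Crest.Agent.R68.WM
import Crest.Agent.R68.WK6
import Crest.Agent.R68.NDefs

/-!
# Row 68, PART W (helper153): the truncated solution is a global solution
-/

set_option autoImplicit false
open MeasureTheory Set
open scoped ENNReal NNReal
open Crest.AnalysisR.VecCalc3 Crest.AnalysisR.PDE.Boltzmann

noncomputable section

namespace Crest.Agent.R68.WG

open Crest.Agent.R68.W Crest.Agent.R68.WA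
open Crest.Agent.R68.A (Meas3)
open Crest.Agent.R68.N (Fld dd lossH gainH PerF LcF)

/-- rate of the glued hot component -/
def lamG (T1 : ℝ) (lamA Hh : Fld) : Fld := fun t x v =>
  open scoped Classical in if T1 ≤ t then Lc (Hh t x) v else lamA t x v

section

variable {T1 lam Y A' : ℝ} {E N0 : Fld} {h1 : P2 → R3 → ℝ≥0∞} {lamA : Fld} {cf sp : Fld → Fld}
  {B0 : ℝ≥0} {u : Om → ℝ}

theorem lamu_eq (T1 : ℝ) (E : Fld) (B0 : ℝ≥0) (lamA : Fld) (u : Om → ℝ) :
    lamu T1 E B0 lamA u = lamG T1 lamA (hc T1 E B0 u) := rfl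

theorem hc_eq_min (h0 : ∀ z, ¬ (T1 ≤ z.1 ∧ Eo E z < ⊤) → u z = 0) (t : ℝ) (x : P2) (v : R3) :
    hc T1 E B0 u t x v = min (ENNReal.ofReal (u (t, x, v))) (B0 * E t x v) := by
  unfold hc
  split_ifs with h
  · rfl
  · rw [h0 (t, x, v) h, ENNReal.ofReal_zero]
    exact (min_eq_left bot_le).symm

theorem opt_fin (H : THyp T1 lam Y A' E N0 h1 lamA cf sp) (hu : u ∈ Cl T1 E) {z : Om}
    (hz : T1 ≤ z.1) : opt (Lu T1 E B0 lamA cf u) z T1 ≠ ⊤ := by
  obtain ⟨B, hB⟩ := H.kb z.1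
  have h2 : ∀ r ∈ Ioo T1 z.1, Lu T1 E B0 lamA cf u (fl z r) ≤ (B + B0 * B) * w1 z.2.2 := by
    intro r hr
    exact Lu_le H hu (z := fl z r) hr.1.le (hB r hr.1.le hr.2.le)
  unfold opt
  refine ne_top_of_le_ne_top ?_ (setLIntegral_mono' measurableSet_Ioo h2)
  rw [setLIntegral_const, Real.volume_Ioo]
  have h3 : (B : ℝ≥0∞) + B0 * B ≠ ⊤ := by
    exact_mod_cast ENNReal.coe_ne_top (r := B + B0 * B)
  exact ENNReal.mul_ne_top (ENNReal.mul_ne_top h3 (w1_ne_top _)) ENNReal.ofReal_ne_top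

/-- the solution of the truncated problem gives a truncated system -/
theorem tsys (H : THyp T1 lam Y A' E N0 h1 lamA cf sp) (hu : Measurable u) (hu0 : ∀ z, 0 ≤ u z)
    (hper : ∀ k z, u (sh k z) = u z) (h0 : ∀ z, ¬ (T1 ≤ z.1 ∧ Eo E z < ⊤) → u z = 0)
    (heq : ∀ z : Om, T1 ≤ z.1 → Eo E z < ⊤ → ENNReal.ofReal (u z) =
      damped T1 h1 (Lu T1 E B0 lamA cf u) (Pu T1 E B0 lamA cf sp u) z) :
    TSys T1 B0 E u (fun z => cf (lamu T1 E B0 lamA u) z.1 z.2.1 z.2.2)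
      (fun z => sp (lamu T1 E B0 lamA u) z.1 z.2.1 z.2.2) h1
      (fun z => hc T1 E B0 u z.1 z.2.1 z.2.2) (Lu T1 E B0 lamA cf u) (Pu T1 E B0 lamA cf sp u) := by
  have hcl : u ∈ Cl T1 E := ⟨hu, fun z _ _ k => hper k z⟩
  refine ⟨hu, hu0, ?_, ?_, ?_, ?_, ?_, ?_, ?_, ?_⟩
  · intro t v x k
    exact hper k (t, x, v)
  · exact H.cfm _ (meas3_lamu H hcl) (per_lamu H hcl)
  · exact H.spm _ (meas3_lamu H hcl) (per_lamu H hcl)
  · intro z
    exact hc_eq_min h0 _ _ _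
  · intro z
    have m1 : Measurable fun w => hc T1 E B0 u z.1 z.2.1 w := (meas3_hc H.Em hu).slice z.1 z.2.1
    unfold Lu
    rw [Lc_add m1, add_comm]
  · intro z
    rfl
  · intro z hz hE
    exact heq z hz (lt_top_iff_ne_top.2 hE)
  · intro z hz _
    exact opt_fin H hcl hz

end

/-- elementary facts on `dd` -/
theorem le_add_dd (a b : ℝ≥0∞) : a ≤ b + dd a b := by
  unfold dd
  calc a ≤ b + (a - b) := le_add_tsub
    _ ≤ b + (a - b + (b - a)) := add_le_add le_rfl le_self_add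

theorem dd_comm (a b : ℝ≥0∞) : dd a b = dd b a := by unfold dd; rw [add_comm]

theorem enorm_sub_le_dd {a c : ℝ} (ha : 0 ≤ a) (hc : 0 ≤ c) :
    ‖a - c‖ₑ ≤ dd (ENNReal.ofReal a) (ENNReal.ofReal c) := by
  refine enorm_sub_le_of ha hc (le_add_dd _ _) ?_
  rw [dd_comm]
  exact le_add_dd _ _

theorem dd_le_enorm_sub {a c : ℝ} (ha : 0 ≤ a) (hc : 0 ≤ c) :
    dd (ENNReal.ofReal a) (ENNReal.ofReal c) ≤ ‖a - c‖ₑ := by
  unfold dd
  rw [← ENNReal.ofReal_sub _ hc, ← ENNReal.ofReal_sub _ ha, ← ofReal_norm, Real.norm_eq_abs]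
  rcases le_total a c with h | h
  · rw [ENNReal.ofReal_of_nonpos (sub_nonpos.2 h), zero_add, abs_sub_comm,
      abs_of_nonneg (sub_nonneg.2 h)]
  · rw [ENNReal.ofReal_of_nonpos (sub_nonpos.2 h), add_zero, abs_of_nonneg (sub_nonneg.2 h)]

/-- **MAIN THEOREM of Part W (continuation).** -/
theorem main (Y : ℝ) (A : ℝ≥0) :
    ∃ (hs : ℝ≥0) (ell : ℝ) (e0 d0 S0 : ℝ≥0), 1 ≤ hs ∧ 0 < ell ∧ ell ≤ 1 ∧ 0 < e0 ∧ 0 < d0 ∧
      0 < S0 ∧
      ∀ (P : Par) (T1 A' : ℝ) (N0 : Fld) (h1 : P2 → R3 → ℝ≥0∞) (lamA : Fld) (cf sp : Fld → Fld)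
        (vs : ℝ → ℝ≥0∞), DPole.ParD P → P.Y = Y → 0 ≤ T1 → T1 ≤ 1 →
        THyp T1 (1 / 8) Y A' (EW P (1 / 8) T1) N0 h1 lamA cf sp → Measurable vs →
        (∫⁻ t in Ioi T1, vs t) ≤ S0 →
        -- data
        (∀ x v, dd (h1 x v) (Mx v) ≤ A * EW P (1 / 8) T1 T1 x v) →
        (∀ t x, T1 + ell ≤ t → ENNReal.ofReal (Real.exp (-(1 / 2 * (t - (T1 + ell))))) *
          ∫⁻ v, w1 v * dd (h1 (x - (t - T1) • bar v) v) (Mx v) ≤ d0) →
        -- cold part
        (∀ lam : Fld, Meas3 lam → PerF lam → ∀ T : ℝ, T1 ≤ T →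
          (∀ t x v, T1 + ell ≤ t → t ≤ T → ENNReal.ofReal (1 / 2) * w1 v ≤ lam t x v) →
          (∀ t x v, T1 ≤ t → t ≤ T + 1 →
            Qp (cf lam t x) (EW P (1 / 8) T1 t x) v + Qp (EW P (1 / 8) T1 t x) (cf lam t x) v +
              sp lam t x v + Mx v * Lc (cf lam t x) v ≤ vs t * EW P (1 / 8) T1 t x v) ∧
          (∀ t, T1 ≤ t → t ≤ T + 1 → ∫⁻ y in cellG, ∫⁻ v, cf lam t y v ≤ e0)) →
        -- entropy
        (∀ (Hh : Fld) (T : ℝ), T1 ≤ T → Meas3 Hh → PerF Hh →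
          (∀ t x v, T1 ≤ t → Hh t x v ≤ (2 * hs : ℝ≥0) * EW P (1 / 8) T1 t x v) →
          (∀ t x v, T1 ≤ t → t ≤ T → EW P (1 / 8) T1 t x v ≠ ⊤ →
            Hh t x v = damped T1 h1 (fun z => lossH (cf (lamG T1 lamA Hh)) Hh z.1 z.2.1 z.2.2)
              (fun z => gainH (cf (lamG T1 lamA Hh)) (sp (lamG T1 lamA Hh)) Hh z.1 z.2.1 z.2.2)
              (t, x, v)) →
          ∀ s, T1 ≤ s → s ≤ T →
            ∫⁻ y in cellG, ∫⁻ v, dd (cf (lamG T1 lamA Hh) s y v + Hh s y v) (Mx v) ≤ e0) →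
        ∃ Hh : Fld, Meas3 Hh ∧ PerF Hh ∧
          (∀ t x v, T1 ≤ t → Hh t x v ≤ hs * EW P (1 / 8) T1 t x v) ∧
          (∀ t x v, T1 ≤ t → EW P (1 / 8) T1 t x v ≠ ⊤ →
            Hh t x v = damped T1 h1 (fun z => lossH (cf (lamG T1 lamA Hh)) Hh z.1 z.2.1 z.2.2)
              (fun z => gainH (cf (lamG T1 lamA Hh)) (sp (lamG T1 lamA Hh)) Hh z.1 z.2.1 z.2.2)
              (t, x, v)) := by
  have hnuM : ∀ v : R3, ENNReal.ofReal (1 * (1 + ‖v‖)) ≤ Lc Mx v := by
    intro v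
    rw [one_mul]
    exact w1_le_Lc_Mx v
  obtain ⟨hs, ell, del, e0, d0, Sg, hhs, hell, hell1, hdel, he0, hd0, hSg, key⟩ :=
    global (nu0 := 1) (lam := 1 / 8) one_pos (by norm_num) (by norm_num) hnuM (C1E Y (1 / 8))
      (CfE Y (1 / 8)) _ WK.trans (A + 1)
  have hb0 : (2 * hs : ℝ≥0) ≠ 0 :=
    mul_ne_zero two_ne_zero (lt_of_lt_of_le one_pos hhs).ne'
  have hb1 : (1 : ℝ≥0∞) ≤ ((2 * hs : ℝ≥0) : ℝ≥0∞) := by
    have : (1 : ℝ≥0) ≤ 2 * hs := hhs.trans (by rw [two_mul]; exact le_self_add)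
    exact_mod_cast this
  refine ⟨hs, ell, e0, d0, Sg / (2 * hs), hhs, hell, hell1, he0, hd0, by positivity, ?_⟩
  intro P T1 A' N0 h1 lamA cf sp vs hP hPY hT0 hT1 H hvs hvs0 hdat hdat2 hcold hent
  set E : Fld := EW P (1 / 8) T1 with hE
  obtain ⟨b, hb⟩ : ∃ b : ℝ≥0, b = 2 * hs := ⟨_, rfl⟩
  rw [← hb] at hb0 hb1 hvs0 hent
  have hKH : KHyp T1 (1 / 8) (C1E Y (1 / 8)) (CfE Y (1 / 8)) E := by
    rw [← hPY]
    exact KHyp_EW hP (by norm_num) hT0 hT1
  obtain ⟨u, hu, hu0, hper, hz0, hfix⟩ := truncFix H b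
  have hcl : u ∈ Cl T1 E := ⟨hu, fun z _ _ k => hper k z⟩
  have S := tsys H hu hu0 hper hz0 (fun z h2 h3 => (hfix z h2 h3).2)
  set lm : Fld := lamu T1 E b lamA u with hlm
  have hlmM : Meas3 lm := meas3_lamu H hcl
  have hlmP : PerF lm := per_lamu H hcl
  have hcM : Meas3 (cf lm) := H.cfm _ hlmM hlmP
  have hHM : Meas3 (hc T1 E b u) := meas3_hc H.Em hu
  have hHP : PerF (hc T1 E b u) := fun t v => per_hc H hcl t v
  have hHle : ∀ t x v, hc T1 E b u t x v ≤ b * E t x v := fun t x v => hc_le t x v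
  -- the equation in the form of the theorem
  have hLeq : (fun z : Om => lossH (cf lm) (hc T1 E b u) z.1 z.2.1 z.2.2) =
      Lu T1 E b lamA cf u := by
    funext z
    unfold lossH Lu
    exact Lc_add (hcM.slice z.1 z.2.1) _
  have hPeq : (fun z : Om => gainH (cf lm) (sp lm) (hc T1 E b u) z.1 z.2.1 z.2.2) =
      Pu T1 E b lamA cf sp u := by
    funext z
    unfold gainH Pu
    rw [← hlm]
    ring
  have heqn : ∀ t x v, T1 ≤ t → E t x v ≠ ⊤ → ENNReal.ofReal (u (t, x, v)) ≤ b * E t x v →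
      hc T1 E b u t x v = damped T1 h1
        (fun z => lossH (cf (lamG T1 lamA (hc T1 E b u))) (hc T1 E b u) z.1 z.2.1 z.2.2)
        (fun z => gainH (cf (lamG T1 lamA (hc T1 E b u))) (sp (lamG T1 lamA (hc T1 E b u)))
          (hc T1 E b u) z.1 z.2.1 z.2.2) (t, x, v) := by
    intro t x v h2 h3 h4
    rw [← lamu_eq, ← hlm, hLeq, hPeq, ← (hfix (t, x, v) h2 (lt_top_iff_ne_top.2 h3)).2]
    rw [hc_eq_min hz0, min_eq_left h4]
  -- value at `T1`
  have hT1v : ∀ x v, E T1 x v ≠ ⊤ → ENNReal.ofReal (u (T1, x, v)) = h1 x v := by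
    intro x v h3
    rw [(hfix (T1, x, v) le_rfl (lt_top_iff_ne_top.2 h3)).2]
    unfold damped dmp opt fl
    simp
  have hgd : ∀ x v, E T1 x v ≠ ⊤ → ghf u T1 x v ≤ dd (h1 x v) (Mx v) := by
    intro x v h3
    rw [← hT1v x v h3]
    exact enorm_sub_le_dd (hu0 _) (maxw_nonneg v)
  have r := key T1 E u _ _ h1 _ _ _ (fun t => b * vs t) hKH (by rw [← hb]; exact S)
    (hvs.const_mul _) ?_ ?_ ?_ ?_ ?_
  · refine ⟨hc T1 E b u, hHM, hHP, ?_, ?_⟩
    · intro t x v h2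
      refine le_trans ?_ (r.1 t x v h2)
      rw [hc_eq_min hz0]
      exact min_le_left _ _
    · intro t x v h2 h3
      refine heqn t x v h2 h3 ((r.1 t x v h2).trans ?_)
      gcongr
      rw [hb, two_mul]
      exact le_self_add
  · -- integral of `vs`
    rw [lintegral_const_mul _ hvs]
    calc (b : ℝ≥0∞) * ∫⁻ t in Ioi T1, vs t ≤ b * ((Sg / b : ℝ≥0) : ℝ≥0∞) := by
          gcongr
      _ = Sg := by
          rw [← ENNReal.coe_mul, mul_div_cancel₀ _ hb0]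
  · -- data 1
    intro x v
    by_cases h3 : E T1 x v = ⊤
    · rw [h3, ENNReal.mul_top (by positivity)]
      exact le_top
    · refine (hgd x v h3).trans ((hdat x v).trans ?_)
      gcongr
      exact le_self_add
  · -- data 2
    intro t x h2
    refine le_trans ?_ (hdat2 t x h2)
    gcongr ?_ * ?_
    · exact le_rfl
    · refine lintegral_mono_ae ?_
      filter_upwards [ae_EW_ne_top hP (lam := 1 / 8) (by norm_num) hT0 hT1
        (show T1 ≤ t by linarith) x] with v hv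
      gcongr
      refine hgd _ v ?_
      refine ne_top_of_le_ne_top ?_ (hKH.flight T1 t x v le_rfl (by linarith))
      exact ENNReal.mul_ne_top ENNReal.ofReal_ne_top hv
  · -- entropy
    intro T hT hcr s hs1 hs2
    rw [← hb] at hcr
    have h2 := hent (hc T1 E b u) T hT hHM hHP (fun t x v _ => hHle t x v)
      (fun t x v h2 h3 h4 => heqn t x v h2 h4 (hcr t x v h2 h3)) s hs1 hs2
    rw [← lamu_eq, ← hlm] at h2
    have hpt : ∀ y v, ghf u s y v ≤ dd (cf lm s y v + hc T1 E b u s y v) (Mx v) + cf lm s y v := by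
      intro y v
      have hcu : hc T1 E b u s y v = ENNReal.ofReal (u (s, y, v)) := by
        rw [hc_eq_min hz0, min_eq_left (hcr s y v hs1 hs2)]
      rw [hcu]
      set cc := cf lm s y v with hcc
      refine enorm_sub_le_of (hu0 _) (maxw_nonneg v) ?_ ?_
      · calc ENNReal.ofReal (u (s, y, v)) ≤ cc + ENNReal.ofReal (u (s, y, v)) := le_add_self
          _ ≤ Mx v + dd (cc + ENNReal.ofReal (u (s, y, v))) (Mx v) := le_add_dd _ _
          _ ≤ Mx v + (dd (cc + ENNReal.ofReal (u (s, y, v))) (Mx v) + cc) := by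
              gcongr; exact le_self_add
      · calc Mx v ≤ (cc + ENNReal.ofReal (u (s, y, v))) +
              dd (Mx v) (cc + ENNReal.ofReal (u (s, y, v))) := le_add_dd _ _
          _ = ENNReal.ofReal (u (s, y, v)) +
              (dd (cc + ENNReal.ofReal (u (s, y, v))) (Mx v) + cc) := by
              rw [dd_comm]; ring
    have hcs : Measurable fun q : P2 × R3 => cf lm s q.1 q.2 :=
      (show Measurable (fun p : ℝ × P2 × R3 => cf lm p.1 p.2.1 p.2.2) from hcM).comp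
        (measurable_const.prodMk measurable_id)
    calc ∫⁻ y in cellG, ∫⁻ z, ghf u s y z
        ≤ ∫⁻ y in cellG, ∫⁻ v, (dd (cf lm s y v + hc T1 E b u s y v) (Mx v) + cf lm s y v) :=
          lintegral_mono fun y => lintegral_mono fun v => hpt y v
      _ = ∫⁻ y in cellG, ((∫⁻ v, dd (cf lm s y v + hc T1 E b u s y v) (Mx v)) +
            ∫⁻ v, cf lm s y v) := by
          refine lintegral_congr fun y => ?_
          exact lintegral_add_right _ (hcs.comp measurable_prodMk_left)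
      _ = (∫⁻ y in cellG, ∫⁻ v, dd (cf lm s y v + hc T1 E b u s y v) (Mx v)) +
            ∫⁻ y in cellG, ∫⁻ v, cf lm s y v :=
          lintegral_add_right _ hcs.lintegral_prod_right'
      _ ≤ _ := by gcongr
  · -- cold part
    intro T hT hcr hrate
    rw [show (1 : ℝ) / 2 = 1 / 2 from rfl] at hrate
    have h2 := hcold lm hlmM hlmP T hT (fun t x v h3 h4 => by
      have h5 := hrate t x v h3 h4
      rw [hlm]
      unfold lamu
      rw [if_pos (by linarith)]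
      exact h5)
    refine ⟨fun t x v h3 h4 => ?_, h2.2⟩
    have h5 := h2.1 t x v h3 h4
    have q1 : Qp (cf lm t x) (hc T1 E b u t x) v ≤ b * Qp (cf lm t x) (E t x) v := by
      rw [← WA.Qp_smul_right ENNReal.coe_ne_top]
      exact WA.Qp_mono (fun _ => le_rfl) (hHle t x) v
    have q2 : Qp (hc T1 E b u t x) (cf lm t x) v ≤ b * Qp (E t x) (cf lm t x) v := by
      rw [← WA.Qp_smul_left ENNReal.coe_ne_top]
      exact WA.Qp_mono (hHle t x) (fun _ => le_rfl) v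
    constructor
    · calc Qp (cf lm t x) (hc T1 E b u t x) v + Qp (hc T1 E b u t x) (cf lm t x) v + sp lm t x v
          ≤ b * Qp (cf lm t x) (E t x) v + b * Qp (E t x) (cf lm t x) v + b * sp lm t x v := by
            gcongr
            exact le_mul_of_one_le_left' hb1
        _ = b * (Qp (cf lm t x) (E t x) v + Qp (E t x) (cf lm t x) v + sp lm t x v) := by ring
        _ ≤ b * (vs t * E t x v) := by
            gcongr
            exact le_self_add.trans h5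
        _ = _ := by ring
    · calc Mx v * Lc (cf lm t x) v ≤ vs t * E t x v := le_add_self.trans h5
        _ ≤ b * (vs t * E t x v) := le_mul_of_one_le_left' hb1
        _ = _ := by ring

end Crest.Agent.R68.WG
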