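import Crest.Agent.R68.WOutA
import Crest.Agent.R68.WG4

/-!
# Row 68, PART W (helper835): `GMain_holds` from helper153's `WG.main`.
-/

set_option autoImplicit false
open MeasureTheory Set Filter
open scoped ENNReal NNReal Topology
open Crest.AnalysisR.VecCalc3 Crest.AnalysisR.PDE.Boltzmann

noncomputable section

namespace Crest.Agent.R68.WP

open Crest.Agent.R68.A (en Meas3)
open WA DPole N Main0
open Crest.Agent.R68.W (Om damped THyp)

theorem GMain_holds (Y : ℝ) : GMain Y := by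
  intro A
  obtain ⟨hs, ell, e0, d0, S0, -, hell, -, he0, hd0, hS0, hmain⟩ := WG.main Y A
  have c1 : ∀ x : ℝ≥0, ENNReal.ofReal (x : ℝ) = x := fun x => ENNReal.ofReal_coe_nnreal
  refine ⟨2 * hs, hs, ell, e0, d0, S0, hell, by exact_mod_cast he0, by exact_mod_cast hd0,
    by exact_mod_cast hS0, ?_⟩
  intro P hP hPY T1 hT0 hT1 A' N0 h1 lamA cf sp vs hTH hvs hvsS hd1 hd2 hcold hent
  simp only [c1] at hvsS hd2 hcold hent
  obtain ⟨Hh, q1, q2, q3, q4⟩ := hmain P T1 A' N0 h1 lamA cf sp vs hP hPY hT0 hT1 hTH hvs hvsS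
    hd1 hd2 hcold (fun Hh T hT hm hp hb heq => hent Hh T hT hm hp hb heq)
  exact ⟨Hh, q1, q2, q3, fun T t x v h2 _ h3 => q4 t x v h2 h3⟩

/-- Part W from the four remaining inputs -/
theorem WOut_of' {Y : ℝ} (hY : 0 < Y) (hT : TruncOut Y) (hC : ColdOut Y)
    (hM : MildOut Y) (hCa : CausOut Y) : WOut Y :=
  WOut_of hY (GMain_holds Y) hT hC hM hCa

end Crest.Agent.R68.WP
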