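import Crest.Agent.R68.Main1
import Crest.Agent.R68.LGlueB
import Crest.Agent.R68.SOutF
import Crest.Agent.R68.X1
import Crest.Agent.R68.AOut
import Crest.Agent.R68.CKOut
import Crest.Agent.R68.KWs
import Crest.Agent.R68.NOut
import Crest.Agent.R68.WOutB
import Crest.Agent.R68.WGlue3
import Crest.Agent.R68.CausOut
import Crest.Agent.R68.IntOut
import Crest.Agent.R68.DOut

/-!
# Row 68: final assembly, part 3 (helper195): what is left

Hypotheses of `main2` = the statements not yet proved (kept up to date).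
-/

set_option autoImplicit false
open MeasureTheory Set Filter
open scoped ENNReal Topology
open Crest.AnalysisR.VecCalc3 Crest.AnalysisR.PDE.Boltzmann

noncomputable section

namespace Crest.Agent.R68.Main0

theorem main2 {Y : ℝ} (hY : 1 ≤ Y)
    -- X2 (330, 810, 546)
    (hX2 : L.X2Out' Y (1 / 25) (1 / 25))
    -- Part C (819, 475, 150)
    (hC : KC.ColdOutAll Y) (hsp : A.SpillOutAll Y)
    -- Part W (475, 827, 819, 418)
    (hT : WP.TruncOut Y) (hCo : WP.ColdOut Y) (hCm : WP.ColdMildOut Y) (hSz : WP.SizeOut Y)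
    -- distinguishing (559)
    (hD : ∀ K : ℝ, 1 ≤ K → ∀ ey : ℝ, 0 < ey → ey ≤ 1 / 100 → ∀ᶠ p : ℕ in atTop,
      ∀ᶠ j0 : ℕ in atTop, DCong.ColdD (par K Y ey p j0) (T1j j0)) : Concl := by
  have hY0 : 0 < Y := by linarith
  exact main0 hY0
    (L.LOut_of hY (L.SOut_holds Y (1 / 25) hY (by norm_num)) (L.SOut_holds Y (1 / 50) hY (by norm_num))
      (X1.X1Out_holds hY (by norm_num) (by norm_num)) hX2)
    (A.AOut_of hY hC KC.warmSize_holds hsp)
    (KC.CKOut_of hY hC KC.warmSize_holds)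
    N.NOut_holds
    (WP.WOut_of' hY0 hT hCo (WP.MildOut_of hY (WP.CausOut_holds Y hY) hCm hSz (WP.IntOut_holds hY))
      (WP.CausOut_holds Y hY))
    (DCong.DOut_of ⟨1, fun K hK _ ey hey hey1 => hD K hK ey hey hey1⟩)

end Crest.Agent.R68.Main0
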