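import Crest.Agent.R68.NDamp1
import Crest.Agent.R68.NDefs
import Crest.Agent.R68.NAlg

/-!
# Row 68, PART N (helper559): damped Duhamel operators along flights (`[0,∞]`-valued)

`acc n s t x v` = optical depth of the rate `n` between the times `s < t` on the flight ending at
`(t,x,v)`; `Dam n q` = Duhamel integral of `q` damped by the rate `n` (both in `NDefs`);
`Dat n h0` = damped datum.
-/

set_option autoImplicit false
open MeasureTheory Set Filter
open scoped ENNReal Topology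
open Crest.AnalysisR.VecCalc3 Crest.AnalysisR.PDE.Boltzmann

noncomputable section

namespace Crest.Agent.R68.ND

open Crest.Agent.R68.N (Fld dd ddF acc Dam ev EE dd_comm dd_self dd_le_iff dd_le_add dd_add_add dd_mul_left
  dd_lintegral measurable_acc measurable_Dam_integrand)

open Crest.Agent.R68.A (en Meas3 Acc en_top en_zero en_antitone en_le_one en_add continuous_en
  measurable_en en_ne_top one_le_en_add measurable_bar continuous_bar measurable_lintegral_Ioo
  measurable_flight lintegral_triangle flight_pos flight_pos0 Duh_add Duh_const_mul Duh_mono_on)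

/-! ### optical depth and damped Duhamel integral -/

/-- damped datum -/
def Dat (n : ℝ → P2 → R3 → ℝ≥0∞) (h0 : P2 → R3 → ℝ≥0∞) (t : ℝ) (x : P2) (v : R3) : ℝ≥0∞ :=
  en (acc n 0 t x v) * h0 (x - t • bar v) v

theorem acc_eq_O1 (n : ℝ → P2 → R3 → ℝ≥0∞) (s t : ℝ) (x : P2) (v : R3) :
    acc n s t x v = O1 (fun r => n r (x - (t - r) • bar v) v) s t := rfl

theorem Acc_eq_acc (F : ℝ → P2 → R3 → ℝ≥0∞) (s t : ℝ) (x : P2) (v : R3) :
    Acc F s t x v = acc (fun r y z => Lc (F r y) z) s t x v := rfl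

/-- optical depth of an earlier point of the flight -/
theorem acc_flight (n : ℝ → P2 → R3 → ℝ≥0∞) (r s t : ℝ) (x : P2) (v : R3) :
    acc n r s (x - (t - s) • bar v) v = O1 (fun r => n r (x - (t - r) • bar v) v) r s := by
  unfold acc O1
  refine lintegral_congr fun a => ?_
  rw [flight_pos]

theorem acc_zero (s t : ℝ) (x : P2) (v : R3) : acc (fun _ _ _ => 0) s t x v = 0 := by
  simp [acc]

theorem acc_split (n : ℝ → P2 → R3 → ℝ≥0∞) {r s t : ℝ} (h1 : r ≤ s) (h2 : s ≤ t) (x : P2)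
    (v : R3) : acc n r t x v = acc n r s (x - (t - s) • bar v) v + acc n s t x v := by
  rw [acc_flight, acc_eq_O1, acc_eq_O1, O1_split _ h1 h2]

theorem acc_mono {n n' : ℝ → P2 → R3 → ℝ≥0∞} {s t : ℝ} {x : P2} {v : R3}
    (h : ∀ r ∈ Ioo s t, n r (x - (t - r) • bar v) v ≤ n' r (x - (t - r) • bar v) v) :
    acc n s t x v ≤ acc n' s t x v :=
  setLIntegral_mono_ae' measurableSet_Ioo (Eventually.of_forall h)

theorem acc_mono_left (n : ℝ → P2 → R3 → ℝ≥0∞) {r s t : ℝ} (h : r ≤ s) (x : P2) (v : R3) :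
    acc n s t x v ≤ acc n r t x v := O1_mono_left _ h

theorem acc_add {n n' : ℝ → P2 → R3 → ℝ≥0∞} (hn : Meas3 n) (s t : ℝ) (x : P2) (v : R3) :
    acc (fun a y z => n a y z + n' a y z) s t x v = acc n s t x v + acc n' s t x v := by
  unfold acc
  rw [← lintegral_add_left (measurable_flight hn t x v)]

theorem meas3_Dam {n q : ℝ → P2 → R3 → ℝ≥0∞} (hn : Meas3 n) (hq : Meas3 q) :
    Meas3 (Dam n q) := by
  unfold Meas3 Dam
  refine measurable_lintegral_Ioo (α := ℝ × P2 × R3) (q := fun z : (ℝ × P2 × R3) × ℝ =>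
      en (acc n z.2 z.1.1 z.1.2.1 z.1.2.2) *
      q z.2 (z.1.2.1 - (z.1.1 - z.2) • bar z.1.2.2) z.1.2.2) ?_ measurable_const (by fun_prop)
  refine Measurable.mul ?_ ?_
  · exact measurable_en.comp (measurable_acc hn (by fun_prop) (by fun_prop) (by fun_prop)
        (by fun_prop))
  · exact hq.comp (by fun_prop) (by fun_prop) (by fun_prop)

theorem meas3_Dat {n : ℝ → P2 → R3 → ℝ≥0∞} {h0 : P2 → R3 → ℝ≥0∞} (hn : Meas3 n)
    (hh : Measurable (fun p : P2 × R3 => h0 p.1 p.2)) : Meas3 (Dat n h0) := by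
  unfold Meas3 Dat
  refine Measurable.mul ?_ ?_
  · exact measurable_en.comp (measurable_acc hn (by fun_prop) (by fun_prop) (by fun_prop)
        (by fun_prop))
  · exact hh.comp (g := fun p : P2 × R3 => h0 p.1 p.2)
      (f := fun p : ℝ × P2 × R3 => (p.2.1 - p.1 • bar p.2.2, p.2.2)) (by fun_prop)

theorem Dam_zero_time (n q : ℝ → P2 → R3 → ℝ≥0∞) {t : ℝ} (ht : t ≤ 0) (x : P2) (v : R3) :
    Dam n q t x v = 0 := by
  unfold Dam
  rw [Ioo_eq_empty (not_lt.2 ht)]
  simp

theorem Dam_mono {n q q' : ℝ → P2 → R3 → ℝ≥0∞} {t : ℝ} {x : P2} {v : R3}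
    (h : ∀ s ∈ Ioo 0 t, q s (x - (t - s) • bar v) v ≤ q' s (x - (t - s) • bar v) v) :
    Dam n q t x v ≤ Dam n q' t x v :=
  setLIntegral_mono_ae' measurableSet_Ioo
    (Eventually.of_forall fun s hs => mul_le_mul' le_rfl (h s hs))

theorem Dam_anti {n n' q : ℝ → P2 → R3 → ℝ≥0∞} {t : ℝ} {x : P2} {v : R3}
    (h : ∀ r ∈ Ioo 0 t, n r (x - (t - r) • bar v) v ≤ n' r (x - (t - r) • bar v) v) :
    Dam n' q t x v ≤ Dam n q t x v := by
  refine setLIntegral_mono_ae' measurableSet_Ioo (Eventually.of_forall fun s hs => ?_)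
  refine mul_le_mul' (en_antitone (acc_mono fun r hr => h r ⟨hs.1.trans hr.1, hr.2⟩)) le_rfl

theorem Dat_anti {n n' : ℝ → P2 → R3 → ℝ≥0∞} {h0 : P2 → R3 → ℝ≥0∞} {t : ℝ} {x : P2} {v : R3}
    (h : ∀ r ∈ Ioo 0 t, n r (x - (t - r) • bar v) v ≤ n' r (x - (t - r) • bar v) v) :
    Dat n' h0 t x v ≤ Dat n h0 t x v :=
  mul_le_mul' (en_antitone (acc_mono h)) le_rfl

theorem Dam_add {n q q' : ℝ → P2 → R3 → ℝ≥0∞} (hn : Meas3 n) (hq : Meas3 q) (t : ℝ) (x : P2)
    (v : R3) :
    Dam n (fun s y z => q s y z + q' s y z) t x v = Dam n q t x v + Dam n q' t x v := by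
  unfold Dam
  rw [← lintegral_add_left (measurable_Dam_integrand hn hq t x v)]
  refine lintegral_congr fun s => ?_
  ring

theorem Dam_const_mul {c : ℝ≥0∞} (hc : c ≠ ⊤) (n q : ℝ → P2 → R3 → ℝ≥0∞) (t : ℝ) (x : P2)
    (v : R3) : Dam n (fun s y z => c * q s y z) t x v = c * Dam n q t x v := by
  unfold Dam
  rw [← lintegral_const_mul' _ _ hc]
  refine lintegral_congr fun s => ?_
  ring

theorem Dam_tsum {n : ℝ → P2 → R3 → ℝ≥0∞} {q : ℕ → ℝ → P2 → R3 → ℝ≥0∞} (hn : Meas3 n)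
    (hq : ∀ k, Meas3 (q k)) (t : ℝ) (x : P2) (v : R3) :
    Dam n (fun s y z => ∑' k, q k s y z) t x v = ∑' k, Dam n (q k) t x v := by
  unfold Dam
  rw [← lintegral_tsum (fun k => (measurable_Dam_integrand hn (hq k) t x v).aemeasurable)]
  refine lintegral_congr fun s => ?_
  rw [ENNReal.tsum_mul_left]

theorem Dam_le_Duh (n q : ℝ → P2 → R3 → ℝ≥0∞) (t : ℝ) (x : P2) (v : R3) :
    Dam n q t x v ≤ Duh q t x v := by
  refine lintegral_mono fun s => ?_
  calc en (acc n s t x v) * q s (x - (t - s) • bar v) v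
      ≤ 1 * q s (x - (t - s) • bar v) v := mul_le_mul' (en_le_one _) le_rfl
    _ = _ := one_mul _

theorem Dam_zero_rate (q : ℝ → P2 → R3 → ℝ≥0∞) (t : ℝ) (x : P2) (v : R3) :
    Dam (fun _ _ _ => 0) q t x v = Duh q t x v := by
  unfold Dam Duh
  refine lintegral_congr fun s => ?_
  simp [acc_zero]

/-- restart of the damped Duhamel integral at time `τ` -/
theorem Dam_restart (n q : ℝ → P2 → R3 → ℝ≥0∞) {τ t : ℝ} (h0 : 0 ≤ τ) (hτ : τ ≤ t) (x : P2)
    (v : R3) : Dam n q t x v = en (acc n τ t x v) * Dam n q τ (x - (t - τ) • bar v) v +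
      ∫⁻ s in Ioo τ t, en (acc n s t x v) * q s (x - (t - s) • bar v) v := by
  have h1 := O1_split (fun s => en (acc n s t x v) * q s (x - (t - s) • bar v) v) h0 hτ
  unfold O1 at h1
  unfold Dam
  rw [h1]
  congr 1
  rw [← lintegral_const_mul' _ _ (en_ne_top _)]
  refine setLIntegral_congr_fun measurableSet_Ioo fun s hs => ?_
  simp only [flight_pos]
  rw [acc_split n hs.2.le hτ, en_add]
  ring

/-! ### periodicity -/

theorem acc_per {n : ℝ → P2 → R3 → ℝ≥0∞} (hn : ∀ t v, PerG (fun x => n t x v)) (s t : ℝ)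
    (v : R3) : PerG (fun x => acc n s t x v) := by
  intro x k
  unfold acc
  refine lintegral_congr fun r => ?_
  have := hn r v (x - (t - r) • bar v) k
  simp only at this
  rw [← this]
  congr 1
  abel

theorem Dam_per {n q : ℝ → P2 → R3 → ℝ≥0∞} (hn : ∀ t v, PerG (fun x => n t x v))
    (hq : ∀ t v, PerG (fun x => q t x v)) (t : ℝ) (v : R3) : PerG (fun x => Dam n q t x v) := by
  intro x k
  unfold Dam
  refine lintegral_congr fun s => ?_
  have h1 := hq s v (x - (t - s) • bar v) k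
  have h2 := acc_per hn s t v x k
  simp only at h1 h2
  rw [h2, ← h1]
  congr 2
  abel

theorem Dat_per {n : ℝ → P2 → R3 → ℝ≥0∞} {h0 : P2 → R3 → ℝ≥0∞}
    (hn : ∀ t v, PerG (fun x => n t x v))
    (hh : ∀ v, PerG (fun x => h0 x v)) (t : ℝ) (v : R3) : PerG (fun x => Dat n h0 t x v) := by
  intro x k
  unfold Dat
  have h1 := hh v (x - t • bar v) k
  have h2 := acc_per hn 0 t v x k
  simp only at h1 h2 ⊢
  rw [h2, ← h1]
  congr 2
  abel

/-! ### flight identities -/

/-- (I1) change of the damping rate `n ↦ n + μ` -/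
theorem change_rate_flight {n μ q H : ℝ → P2 → R3 → ℝ≥0∞} {h0 : P2 → R3 → ℝ≥0∞} (hn : Meas3 n)
    (hμ : Meas3 μ) (hq : Meas3 q) {t : ℝ} {x : P2} {v : R3} (ht : 0 < t)
    (hH : ∀ s ∈ Ioc 0 t, H s (x - (t - s) • bar v) v =
      Dat n h0 s (x - (t - s) • bar v) v + Dam n q s (x - (t - s) • bar v) v)
    (hfin : ∀ r, 0 < r → r < t → acc μ r t x v ≠ ⊤) :
    H t x v = Dat (fun s y z => n s y z + μ s y z) h0 t x v +
      Dam (fun s y z => n s y z + μ s y z) (fun s y z => q s y z + μ s y z * H s y z) t x v := by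
  set n1 : ℝ → ℝ≥0∞ := fun r => n r (x - (t - r) • bar v) v with hn1
  set μ1 : ℝ → ℝ≥0∞ := fun r => μ r (x - (t - r) • bar v) v with hμ1
  set q1 : ℝ → ℝ≥0∞ := fun r => q r (x - (t - r) • bar v) v with hq1
  set y1 : ℝ → ℝ≥0∞ := fun r => H r (x - (t - r) • bar v) v with hy1
  have hform : ∀ s ∈ Ioc 0 t, y1 s = en (O1 n1 0 s) * h0 (x - t • bar v) v +
      ∫⁻ r in Ioo 0 s, en (O1 n1 r s) * q1 r := by
    intro s hs
    rw [hy1]
    simp only
    rw [hH s hs]
    unfold Dat Dam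
    rw [acc_flight, flight_pos0]
    congr 1
    refine lintegral_congr fun r => ?_
    rw [acc_flight, flight_pos]
  have key := change_rate (measurable_flight hn t x v) (measurable_flight hμ t x v)
    (measurable_flight hq t x v) ht.le (h0 (x - t • bar v) v) hform hfin
  have h2 : H t x v = y1 t := by simp [hy1]
  rw [h2, hform t ⟨ht, le_rfl⟩, key]
  rfl

/-- (I1) for rates `n ≤ n'` -/
theorem change_rate_flight' {n n' q H : ℝ → P2 → R3 → ℝ≥0∞} {h0 : P2 → R3 → ℝ≥0∞}
    (hn : Meas3 n) (hn' : Meas3 n') (hq : Meas3 q) {t : ℝ} {x : P2} {v : R3} (ht : 0 < t)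
    (hle : ∀ s ∈ Ioo 0 t, n s (x - (t - s) • bar v) v ≤ n' s (x - (t - s) • bar v) v)
    (hH : ∀ s ∈ Ioc 0 t, H s (x - (t - s) • bar v) v =
      Dat n h0 s (x - (t - s) • bar v) v + Dam n q s (x - (t - s) • bar v) v)
    (hfin : ∀ r, 0 < r → r < t → acc n' r t x v ≠ ⊤) :
    H t x v = Dat n' h0 t x v +
      Dam n' (fun s y z => q s y z + (n' s y z - n s y z) * H s y z) t x v := by
  have hμ : Meas3 (fun s y z => n' s y z - n s y z) := Measurable.sub hn' hn
  rw [change_rate_flight hn hμ hq ht hH (fun r h1 h2 => ne_top_of_le_ne_top (hfin r h1 h2)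
    (acc_mono fun s hs => tsub_le_self))]
  have hacc : ∀ s ∈ Ico 0 t, acc (fun s y z => n s y z + (n' s y z - n s y z)) s t x v =
      acc n' s t x v := by
    intro s hs
    unfold acc
    refine setLIntegral_congr_fun measurableSet_Ioo fun r hr => ?_
    exact add_tsub_cancel_of_le (hle r ⟨lt_of_le_of_lt hs.1 hr.1, hr.2⟩)
  unfold Dat Dam
  rw [hacc 0 ⟨le_rfl, ht⟩]
  congr 1
  refine setLIntegral_congr_fun measurableSet_Ioo fun s hs => ?_
  simp only
  rw [hacc s ⟨hs.1.le, hs.2⟩]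

/-- (I2) from the damped to the integrated form along a flight -/
theorem undamp_flight {n q H : ℝ → P2 → R3 → ℝ≥0∞} {h0 : P2 → R3 → ℝ≥0∞} (hn : Meas3 n)
    (hq : Meas3 q) {t : ℝ} {x : P2} {v : R3} (ht : 0 < t)
    (hH : ∀ s ∈ Ioc 0 t, H s (x - (t - s) • bar v) v =
      Dat n h0 s (x - (t - s) • bar v) v + Dam n q s (x - (t - s) • bar v) v)
    (hfin : ∀ r, 0 < r → r < t → acc n r t x v ≠ ⊤)
    (h00 : acc n 0 t x v ≠ ⊤ ∨ h0 (x - t • bar v) v = 0) :
    H t x v + Duh (fun s y z => n s y z * H s y z) t x v =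
      h0 (x - t • bar v) v + Duh q t x v := by
  set n1 : ℝ → ℝ≥0∞ := fun r => n r (x - (t - r) • bar v) v with hn1
  set q1 : ℝ → ℝ≥0∞ := fun r => q r (x - (t - r) • bar v) v with hq1
  set y1 : ℝ → ℝ≥0∞ := fun r => H r (x - (t - r) • bar v) v with hy1
  have hform : ∀ s ∈ Ioc 0 t, y1 s = en (O1 n1 0 s) * h0 (x - t • bar v) v +
      ∫⁻ r in Ioo 0 s, en (O1 n1 r s) * q1 r := by
    intro s hs
    rw [hy1]
    simp only
    rw [hH s hs]
    unfold Dat Dam
    rw [acc_flight, flight_pos0]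
    congr 1
    refine lintegral_congr fun r => ?_
    rw [acc_flight, flight_pos]
  have key := undamp (measurable_flight hn t x v)
    (measurable_flight hq t x v) ht.le (h0 (x - t • bar v) v) hform hfin h00
  have h2 : H t x v = y1 t := by simp [hy1]
  rw [h2, hform t ⟨ht, le_rfl⟩]
  exact key

/-- (I2') `y = E y₀ + Dam n' (q + (n'-n) y)` gives `y + ∫ n y = y₀ + ∫ q` -/
theorem undamp_flight' {n n' q H : ℝ → P2 → R3 → ℝ≥0∞} {h0 : P2 → R3 → ℝ≥0∞} (hn : Meas3 n)
    (hn' : Meas3 n') (hq : Meas3 q) (hHm : Meas3 H) {t : ℝ} {x : P2} {v : R3} (ht : 0 < t)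
    (hle : ∀ s ∈ Ioo 0 t, n s (x - (t - s) • bar v) v ≤ n' s (x - (t - s) • bar v) v)
    (hH : ∀ s ∈ Ioc 0 t, H s (x - (t - s) • bar v) v =
      Dat n' h0 s (x - (t - s) • bar v) v +
        Dam n' (fun s y z => q s y z + (n' s y z - n s y z) * H s y z) s
          (x - (t - s) • bar v) v)
    (hfin : ∀ r, 0 < r → r < t → acc n' r t x v ≠ ⊤)
    (h00 : acc n' 0 t x v ≠ ⊤ ∨ h0 (x - t • bar v) v = 0)
    (hfin2 : Duh (fun s y z => n' s y z * H s y z) t x v ≠ ⊤) :
    H t x v + Duh (fun s y z => n s y z * H s y z) t x v =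
      h0 (x - t • bar v) v + Duh q t x v := by
  have hμ : Meas3 (fun s y z => n' s y z - n s y z) := Measurable.sub hn' hn
  have hμH : Meas3 (fun s y z => (n' s y z - n s y z) * H s y z) := Measurable.mul hμ hHm
  have hqs : Meas3 (fun s y z => q s y z + (n' s y z - n s y z) * H s y z) :=
    Measurable.add hq hμH
  have h1 := undamp_flight hn' hqs ht hH hfin h00
  have hnH : Meas3 (fun s y z => n s y z * H s y z) := Measurable.mul hn hHm
  have h2 : Duh (fun s y z => n' s y z * H s y z) t x v =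
      Duh (fun s y z => n s y z * H s y z) t x v +
        Duh (fun s y z => (n' s y z - n s y z) * H s y z) t x v := by
    rw [← Duh_add hnH]
    unfold Duh
    refine setLIntegral_congr_fun measurableSet_Ioo fun s hs => ?_
    simp only
    rw [← add_mul, add_tsub_cancel_of_le (hle s hs)]
  rw [Duh_add hq, h2] at h1
  have h3 : Duh (fun s y z => (n' s y z - n s y z) * H s y z) t x v ≠ ⊤ := by
    refine ne_top_of_le_ne_top hfin2 ?_
    rw [h2]
    exact le_add_self
  have h4 : (H t x v + Duh (fun s y z => n s y z * H s y z) t x v) +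
      Duh (fun s y z => (n' s y z - n s y z) * H s y z) t x v =
      (h0 (x - t • bar v) v + Duh q t x v) +
      Duh (fun s y z => (n' s y z - n s y z) * H s y z) t x v := by
    rw [add_assoc, h1]
    ring
  exact (ENNReal.add_left_inj h3).1 h4

end Crest.Agent.R68.ND
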