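import Crest.Agent.R68.K3
import Crest.Agent.R68.NDamp

/-!
# Row 68, PART N (helper559): absorption of `1+|v|` with the factor `e^{λ t}`
-/

set_option autoImplicit false
open MeasureTheory Set Filter
open scoped ENNReal Topology
open Crest.AnalysisR.VecCalc3 Crest.AnalysisR.PDE.Boltzmann

noncomputable section

namespace Crest.Agent.R68.ND

open Crest.Agent.R68.N (Fld dd ddF acc Dam ev EE dd_comm dd_self dd_le_iff dd_le_add dd_add_add dd_mul_left
  dd_lintegral measurable_acc measurable_Dam_integrand)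

open Crest.Agent.R68.A (en Meas3)

/-- `∫_0^t e^{-κ(t-s)} ds ≤ 1/κ` -/
theorem lintegral_exp_le {κ t c : ℝ} (hκ : 0 < κ) (ht : 0 < t) (hc : 0 ≤ c) :
    ∫⁻ s in Ioo 0 t, ENNReal.ofReal (c * Real.exp (-κ * (t - s))) ≤ ENNReal.ofReal (c / κ) := by
  have hint : IntervalIntegrable (fun s : ℝ => c * Real.exp (-κ * (t - s))) volume 0 t := by
    apply Continuous.intervalIntegrable
    fun_prop
  have h2 : ∫⁻ s in Ioo 0 t, ENNReal.ofReal (c * Real.exp (-κ * (t - s))) =
      ENNReal.ofReal (∫ s in (0 : ℝ)..t, c * Real.exp (-κ * (t - s))) := by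
    rw [intervalIntegrable_iff_integrableOn_Ioc_of_le ht.le] at hint
    rw [intervalIntegral.integral_of_le ht.le, restrict_Ioo_eq_restrict_Ioc]
    rw [ofReal_integral_eq_lintegral_ofReal hint]
    rw [Filter.EventuallyLE, ae_restrict_iff' measurableSet_Ioc]
    filter_upwards with s hs
    have := Real.exp_pos (-κ * (t - s))
    simp only [Pi.zero_apply]
    positivity
  rw [h2]
  apply ENNReal.ofReal_le_ofReal
  have h3 : ∫ s in (0 : ℝ)..t, c * Real.exp (-κ * (t - s)) =
      c / κ * Real.exp (-κ * (t - t)) - c / κ * Real.exp (-κ * (t - 0)) := by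
    refine intervalIntegral.integral_eq_sub_of_hasDerivAt
      (f := fun s : ℝ => c / κ * Real.exp (-κ * (t - s))) (fun s _ => ?_) hint
    have h4 : HasDerivAt (fun s : ℝ => -κ * (t - s)) κ s := by
      have := ((hasDerivAt_id s).const_sub t).const_mul (-κ)
      simpa using this
    have h5 := (h4.exp).const_mul (c / κ)
    have e : c / κ * (Real.exp (-κ * (t - s)) * κ) = c * Real.exp (-κ * (t - s)) := by
      field_simp
    rw [e] at h5
    exact h5
  rw [h3]
  have h6 : 0 ≤ c / κ * Real.exp (-κ * (t - 0)) := by positivity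
  simp only [sub_self, mul_zero, Real.exp_zero, mul_one]
  linarith

/-- the absorption integral -/
theorem lintegral_absorb_exp {lam t : ℝ} (hl : 1 ≤ lam) (ht : 0 < t) (ht1 : t ≤ 1) {a : ℝ}
    (ha : 0 ≤ a) :
    ∫⁻ s in Ioo 0 t, ENNReal.ofReal ((1 + a) * (Real.exp (-lam * (t - s)) *
      Real.exp (-((√t - √s) / 100) * a ^ 2))) ≤ ENNReal.ofReal (9 / √lam) := by
  set κ : ℝ := lam + a ^ 2 / 200 with hκ
  have hl0 : 0 < lam := by linarith
  have hκ0 : 0 < κ := by positivity
  have h1 : ∀ s ∈ Ioo 0 t, ENNReal.ofReal ((1 + a) * (Real.exp (-lam * (t - s)) *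
      Real.exp (-((√t - √s) / 100) * a ^ 2))) ≤
      ENNReal.ofReal ((1 + a) * Real.exp (-κ * (t - s))) := by
    intro s hs
    apply ENNReal.ofReal_le_ofReal
    rw [← Real.exp_add]
    apply mul_le_mul_of_nonneg_left _ (by positivity)
    apply Real.exp_le_exp.2
    have h2 : (t - s) / 2 ≤ √t - √s := by
      have e1 : t - s = (√t - √s) * (√t + √s) := by
        have := Real.mul_self_sqrt ht.le
        have := Real.mul_self_sqrt hs.1.le
        nlinarith
      have e2 : √t ≤ 1 := Real.sqrt_le_one.2 ht1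
      have e3 : √s ≤ √t := Real.sqrt_le_sqrt hs.2.le
      have e4 : 0 ≤ √s := Real.sqrt_nonneg _
      rw [e1]
      nlinarith
    rw [hκ]
    have h3 : 0 ≤ a ^ 2 := sq_nonneg a
    nlinarith
  refine (setLIntegral_mono' measurableSet_Ioo h1).trans ?_
  refine (lintegral_exp_le hκ0 ht (by positivity)).trans ?_
  apply ENNReal.ofReal_le_ofReal
  have hs1 : 1 ≤ √lam := Real.one_le_sqrt.2 hl
  have hss : √lam * √lam = lam := Real.mul_self_sqrt hl0.le
  rw [div_le_div_iff₀ hκ0 (by positivity), hκ]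
  nlinarith [sq_nonneg (√lam * 3 - a / 6), sq_nonneg (√lam - a)]

/-- **absorption lemma** for `e^{λ s} B2` -/
theorem Duh_lin_exp (P : Par) {g1 g2 b lam : ℝ} (hb : 0 ≤ b) (hg : 0 ≤ g2) (hl : 1 ≤ lam)
    {t : ℝ} (ht : 0 < t) (ht1 : t ≤ 1) (x : P2) (v : R3) :
    Duh (fun s y z => ev z * (ENNReal.ofReal (Real.exp (lam * s)) *
      (ENNReal.ofReal (s ^ b) * EE P g1 g2 s y z))) t x v ≤
      ENNReal.ofReal (9 / √lam) * (ENNReal.ofReal (Real.exp (lam * t)) *
        (ENNReal.ofReal (t ^ b) * EE P g1 g2 t x v)) := by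
  apply K.Duh_le_of _ x v
    (fun s => ENNReal.ofReal ((1 + ‖v‖) * (Real.exp (-lam * (t - s)) *
      Real.exp (-((√t - √s) / 100) * ‖v‖ ^ 2)))) _ _ _
    (lintegral_absorb_exp hl ht ht1 (norm_nonneg v))
  · fun_prop
  · intro s hs
    have h1 : EE P g1 g2 s (x - (t - s) • bar v) v ≤
        ENNReal.ofReal (Real.exp (-((√t - √s) / 100) * ‖v‖ ^ 2)) * EE P g1 g2 t x v := by
      have := K.B2_flight' P (g1 := g1) (b := 0) hg hs.1 hs.2.le x v
      unfold EE
      simpa using this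
    have h2 : ev v = ENNReal.ofReal (1 + ‖v‖) := by
      unfold ev
      rw [ENNReal.ofReal_add zero_le_one (norm_nonneg v), ENNReal.ofReal_one]
    have h3 : ENNReal.ofReal (s ^ b) ≤ ENNReal.ofReal (t ^ b) :=
      ENNReal.ofReal_le_ofReal (Real.rpow_le_rpow hs.1.le hs.2.le hb)
    have h4 : ENNReal.ofReal (Real.exp (lam * s)) =
        ENNReal.ofReal (Real.exp (-lam * (t - s))) * ENNReal.ofReal (Real.exp (lam * t)) := by
      rw [← ENNReal.ofReal_mul (Real.exp_pos _).le, ← Real.exp_add]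
      congr 2
      ring
    calc ev v * (ENNReal.ofReal (Real.exp (lam * s)) *
          (ENNReal.ofReal (s ^ b) * EE P g1 g2 s (x - (t - s) • bar v) v))
        ≤ ENNReal.ofReal (1 + ‖v‖) * ((ENNReal.ofReal (Real.exp (-lam * (t - s))) *
          ENNReal.ofReal (Real.exp (lam * t))) * (ENNReal.ofReal (t ^ b) *
          (ENNReal.ofReal (Real.exp (-((√t - √s) / 100) * ‖v‖ ^ 2)) * EE P g1 g2 t x v))) := by
          rw [h2, h4]
          gcongr
      _ = _ := by
          rw [ENNReal.ofReal_mul (p := 1 + ‖v‖) (by positivity),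
            ENNReal.ofReal_mul (Real.exp_pos _).le]
          ring

/-- the same for the damped Duhamel integral -/
theorem Dam_lin_exp (P : Par) (n : Fld) {g1 g2 b lam : ℝ} (hb : 0 ≤ b) (hg : 0 ≤ g2)
    (hl : 1 ≤ lam) {t : ℝ} (ht : 0 < t) (ht1 : t ≤ 1) (x : P2) (v : R3) :
    Dam n (fun s y z => ev z * (ENNReal.ofReal (Real.exp (lam * s)) *
      (ENNReal.ofReal (s ^ b) * EE P g1 g2 s y z))) t x v ≤
      ENNReal.ofReal (9 / √lam) * (ENNReal.ofReal (Real.exp (lam * t)) *
        (ENNReal.ofReal (t ^ b) * EE P g1 g2 t x v)) :=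
  (Dam_le_Duh n _ t x v).trans (Duh_lin_exp P hb hg hl ht ht1 x v)

end Crest.Agent.R68.ND
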