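import Crest.Agent.R68.NW

/-!
# Row 68, PART N (helper621): bounds for the remainder `restF`
-/

set_option autoImplicit false
open MeasureTheory Set Filter
open scoped ENNReal Topology
open Crest.AnalysisR.VecCalc3 Crest.AnalysisR.PDE.Boltzmann

noncomputable section

namespace Crest.Agent.R68.N

open Crest.Agent.R68.A (en Meas3)

theorem Qp_le_mul {f g F G : R3 → ℝ≥0∞} {a b : ℝ≥0∞} (ha : a ≠ ⊤) (hb : b ≠ ⊤)
    (hf : ∀ z, f z ≤ a * F z) (hg : ∀ z, g z ≤ b * G z) (v : R3) :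
    Qp f g v ≤ a * b * Qp F G v := by
  calc Qp f g v ≤ Qp (fun z => a * F z) (fun z => b * G z) v := A.Qp_mono hf hg v
    _ = a * b * Qp F G v := by
        rw [A.Qp_const_mul_left ha, A.Qp_const_mul_right hb, mul_assoc]

theorem Lc_le_mul {f F : R3 → ℝ≥0∞} {a : ℝ≥0∞} (ha : a ≠ ⊤)
    (hf : ∀ z, f z ≤ a * F z) (v : R3) : Lc f v ≤ a * Lc F v := by
  calc Lc f v ≤ Lc (fun z => a * F z) v := A.Lc_mono hf v
    _ = a * Lc F v := A.Lc_const_mul ha _ v

theorem one_le_ev (v : R3) : 1 ≤ ev v := le_self_add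

theorem ev_le {v : R3} {V : ℝ} (hv : ‖v‖ ≤ V) : ev v ≤ ENNReal.ofReal (1 + V) := by
  unfold ev
  rw [ENNReal.ofReal_add zero_le_one ((norm_nonneg v).trans hv), ENNReal.ofReal_one]
  gcongr

private theorem ev_ne_top (v : R3) : ev v ≠ ⊤ := by
  unfold ev
  exact ENNReal.add_ne_top.2 ⟨ENNReal.one_ne_top, ENNReal.ofReal_ne_top⟩

theorem ez2_ne_top (g t : ℝ) (x : P2) : ez2 g t x ≠ ⊤ := ENNReal.ofReal_ne_top
theorem tx_ne_top (q t : ℝ) (x : P2) : tx q t x ≠ ⊤ := ENNReal.ofReal_ne_top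

theorem t_mul_inv {t : ℝ} (ht : 0 < t) : ENNReal.ofReal t * ENNReal.ofReal (1 / t) = 1 := by
  rw [← ENNReal.ofReal_mul ht.le, mul_one_div_cancel ht.ne', ENNReal.ofReal_one]

theorem ofReal_t_le_one {t : ℝ} (ht : t ≤ 1) : ENNReal.ofReal t ≤ 1 := by
  rw [← ENNReal.ofReal_one]; exact ENNReal.ofReal_le_ofReal ht

variable {P : Par} {T V : ℝ} {Cf Sf : Fld → Fld} {Mc Wm : Fld} {CC CK : ℝ≥0∞} {q : ℝ}

/-- difference of two cold components in the weight form -/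
theorem cold_diff (hC : ColdInp P T V Cf Sf Mc Wm CC q) (hV : 0 ≤ V) {g : ℝ} (hg : 0 ≤ g)
    {lam lam' : Fld} (m1 : Meas3 lam) (p1 : PerF lam) (m2 : Meas3 lam') (p2 : PerF lam')
    {A : ℝ≥0∞} {w : ℝ → ℝ≥0∞} (mw : Measurable w)
    (hw : ∀ s t, 0 < s → s ≤ t → t ≤ T → w s ≤ w t)
    (h : ∀ s ∈ Ioc 0 T, ∀ y v, ‖v‖ ≤ V → dd (lam s y v) (lam' s y v) ≤ A * w s * ez2 g s y)
    {t : ℝ} (ht : t ∈ Ioc 0 T) (x : P2) (v : R3) :
    dd (Cf lam t x v) (Cf lam' t x v) ≤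
        CC * ENNReal.ofReal t * (A * Ce V g * w t * ez2 g t x) * Mc t x v ∧
    dd (Sf lam t x v) (Sf lam' t x v) ≤
        CC * ENNReal.ofReal t * (A * Ce V g * w t * ez2 g t x) * tx q t x *
          ENNReal.ofReal (Real.exp (-‖v‖ ^ 2)) := by
  set Del : ℝ → P2 → ℝ≥0∞ := fun s y => A * Ce V g * w s * em V g s y with hDel
  have hm : Measurable (fun p : ℝ × P2 => Del p.1 p.2) := by
    simp only [hDel]
    exact ((mw.comp measurable_fst).const_mul _).mul (measurable_em V g)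
  have hmono : MonoFl V T Del := by
    intro s t hs hst htT x v hv
    simp only [hDel]
    gcongr
    · exact hw s t hs hst htT
    · exact em_flight hV hg hs hst x v hv
  have hle : ∀ s ∈ Ioc 0 T, ∀ y v, ‖v‖ ≤ V → dd (lam s y v) (lam' s y v) ≤ Del s y := by
    intro s hs y v hv
    refine (h s hs y v hv).trans ?_
    simp only [hDel]
    calc A * w s * ez2 g s y ≤ A * w s * (Ce V g * em V g s y) := by
          gcongr; exact ez2_le_em hV hg hs.1.le y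
      _ = _ := by ring
  have hup : Del t x ≤ A * Ce V g * w t * ez2 g t x := by
    simp only [hDel]
    gcongr
    exact em_le_ez2 hg ht.1.le x
  constructor
  · refine (hC.lip lam lam' m1 p1 m2 p2 Del hm hmono hle t ht x v).trans ?_
    gcongr
  · refine (hC.spill lam lam' m1 p1 m2 p2 Del hm hmono hle t ht x v).trans ?_
    gcongr

/-- crude comparison of the cold component with the free fuel -/
theorem cold_phi (hC : ColdInp P T V Cf Sf Mc Wm CC q) (hT1 : T ≤ 1) (hq : 0 ≤ q)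
    {lam : Fld} (m1 : Meas3 lam) (p1 : PerF lam) {D0 : ℝ≥0∞}
    (h : ∀ s ∈ Ioc 0 T, ∀ y v, ‖v‖ ≤ V → lam s y v ≤ D0)
    {t : ℝ} (ht : t ∈ Ioc 0 T) (x : P2) (v : R3) :
    dd (Cf lam t x v) (phiE P t x v) ≤
      CC * (D0 + ENNReal.ofReal (2 ^ q) + 1) * ENNReal.ofReal t * Mc t x v := by
  refine (hC.lip0 lam m1 p1 (fun _ _ => D0) measurable_const (fun _ _ _ _ _ _ _ _ => le_rfl) h
    t ht x v).trans ?_
  have h1 : tx q t x ≤ ENNReal.ofReal (2 ^ q) := tx_le_const hq ht.1.le (ht.2.trans hT1) x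
  calc CC * ENNReal.ofReal t * ((D0 + tx q t x) * Mc t x v + Wm t x v)
      ≤ CC * ENNReal.ofReal t * ((D0 + ENNReal.ofReal (2 ^ q)) * Mc t x v + Mc t x v) := by
        gcongr
        exact hC.W_le t ht x v
    _ = _ := by ring

/-- the constant in the bound of `restF` -/
def CR (V q g2 : ℝ) (CC CK CH L0 : ℝ≥0∞) : ℝ≥0∞ :=
  CC * (CK * ENNReal.ofReal (1 + V)) * Ce V g2 * ENNReal.ofReal (2 ^ q) +
  2 * CC * (CK * ENNReal.ofReal (1 + V)) * Ce V g2 * CH * CK +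
  2 * CC * (CH * CK * ENNReal.ofReal (1 + V) + ENNReal.ofReal (2 ^ q) + 1) * CK +
  2 * CH * CK +
  (CC * (CK * ENNReal.ofReal (1 + V)) * Ce V g2 + 1) * CK * CH +
  (CC * (CH * CK * ENNReal.ofReal (1 + V) + ENNReal.ofReal (2 ^ q) + 1) * CK + L0)

theorem CR_ne_top {V q g2 : ℝ} {CC CK CH L0 : ℝ≥0∞} (h1 : CC ≠ ⊤) (h2 : CK ≠ ⊤) (h3 : CH ≠ ⊤)
    (h4 : L0 ≠ ⊤) : CR V q g2 CC CK CH L0 ≠ ⊤ := by
  have h5 : Ce V g2 ≠ ⊤ := Ce_ne_top V g2
  have h6 : ENNReal.ofReal (1 + V) ≠ ⊤ := ENNReal.ofReal_ne_top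
  have h7 : ENNReal.ofReal (2 ^ q) ≠ ⊤ := ENNReal.ofReal_ne_top
  unfold CR
  finiteness

/-- **Bound of the remainder.** -/
theorem restF_le (hC : ColdInp P T V Cf Sf Mc Wm CC q) (hV : 0 ≤ V) (hT1 : T ≤ 1) (hq : 0 ≤ q)
    {g1 g2 : ℝ} (hg2 : 0 ≤ g2) (hg : g1 + g2 ≤ 1)
    (hK : KInp P T Mc Wm q (g1 + g2) g1 g2 CK)
    {H H' : Fld} (mH : Meas3 H) (pH : PerF H) (mH' : Meas3 H') (pH' : PerF H')
    {CH L0 : ℝ≥0∞} (hCH : CH ≠ ⊤)
    (bH : ∀ t ∈ Ioc 0 T, ∀ x v, H t x v ≤ CH * Zg P (g1 + g2) t x v)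
    (bH' : ∀ t ∈ Ioc 0 T, ∀ x v, H' t x v ≤ CH * Zg P (g1 + g2) t x v)
    {w : ℝ → ℝ≥0∞} (mw : Measurable w) (hw : ∀ s t, 0 < s → s ≤ t → t ≤ T → w s ≤ w t)
    (wt : ∀ t ∈ Ioc 0 T, w t ≠ ⊤)
    (bk : ∀ t ∈ Ioc 0 T, ∀ x v, ddF H H' t x v ≤ w t * EE P g1 g2 t x v)
    {t : ℝ} (ht : t ∈ Ioc 0 T) (x : P2) (v : R3) :
    restF P L0 (Cf (LcF H)) (Cf (LcF H')) (Sf (LcF H)) (Sf (LcF H')) H H' t x v ≤
      CR V q g2 CC CK CH L0 * (ev v * (w t * EE P g1 g2 t x v)) := by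
  have mL : Meas3 (LcF H) := meas3_LcF mH
  have mL' : Meas3 (LcF H') := meas3_LcF mH'
  have pL : PerF (LcF H) := perF_LcF pH
  have pL' : PerF (LcF H') := perF_LcF pH'
  have hCC := hC.CC_ne
  have hCK := hK.ne
  -- differences of the damping rates
  have hlam : ∀ s ∈ Ioc 0 T, ∀ y u, ‖u‖ ≤ V → dd (LcF H s y u) (LcF H' s y u) ≤
      (CK * ENNReal.ofReal (1 + V)) * w s * ez2 g2 s y := by
    intro s hs y u hu
    have h1 : dd (LcF H s y u) (LcF H' s y u) ≤ Lc (ddF H H' s y) u :=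
      dd_Lc (mH.slice _ _) (mH'.slice _ _) u
    refine h1.trans ((Lc_le_mul (wt s hs) (bk s hs y) u).trans ?_)
    calc w s * Lc (EE P g1 g2 s y) u ≤ w s * (CK * ev u * ez2 g2 s y) := by
          gcongr; exact hK.lE s hs y u
      _ ≤ w s * (CK * ENNReal.ofReal (1 + V) * ez2 g2 s y) := by
          gcongr; exact ev_le hu
      _ = _ := by ring
  have hdc := fun z => (cold_diff hC hV hg2 mL pL mL' pL' mw hw hlam ht x z).1
  have hsp := (cold_diff hC hV hg2 mL pL mL' pL' mw hw hlam ht x v).2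
  -- comparison with the free fuel
  have hbd : ∀ s ∈ Ioc 0 T, ∀ y u, ‖u‖ ≤ V → LcF H' s y u ≤ CH * CK * ENNReal.ofReal (1 + V) := by
    intro s hs y u hu
    refine (Lc_le_mul hCH (bH' s hs y) u).trans ?_
    calc CH * Lc (Zg P (g1 + g2) s y) u ≤ CH * (CK * ev u) := by gcongr; exact hK.lZ s hs y u
      _ ≤ CH * (CK * ENNReal.ofReal (1 + V)) := by gcongr; exact ev_le hu
      _ = _ := by ring
  have hdp := fun z => cold_phi hC hT1 hq mL' pL' hbd ht x z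
  set A := CK * ENNReal.ofReal (1 + V) with hA
  set F := CH * CK * ENNReal.ofReal (1 + V) + ENNReal.ofReal (2 ^ q) + 1 with hF
  set E := EE P g1 g2 t x v with hE
  set W := w t with hWdef
  have hW : W ≠ ⊤ := wt t ht
  set τ := ENNReal.ofReal t with hτ
  set τ' := ENNReal.ofReal (1 / t) with hτ'
  have hττ : τ * τ' = 1 := t_mul_inv ht.1
  have hτ1 : τ ≤ 1 := ofReal_t_le_one (ht.2.trans hT1)
  set e2 := ez2 g2 t x with he2
  have hez : e2 * Zg P (g1 + g2) t x v ≤ E := ez2_mul_Zg P hg2 ht.1.le x v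
  have hCe := Ce_ne_top V g2
  have he2t : e2 ≠ ⊤ := ez2_ne_top _ _ _
  have hAt : A ≠ ⊤ := ENNReal.mul_ne_top hCK ENNReal.ofReal_ne_top
  have hFt : F ≠ ⊤ := by
    have h7 : ENNReal.ofReal (2 ^ q) ≠ ⊤ := ENNReal.ofReal_ne_top
    have h6 : ENNReal.ofReal (1 + V) ≠ ⊤ := ENNReal.ofReal_ne_top
    rw [hF]; finiteness
  have hτt : τ ≠ ⊤ := ENNReal.ofReal_ne_top
  have e1v := one_le_ev v
  -- G1
  have G1 : dd (Sf (LcF H) t x v) (Sf (LcF H') t x v) ≤
      CC * A * Ce V g2 * ENNReal.ofReal (2 ^ q) * (ev v * (W * E)) := by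
    refine hsp.trans ?_
    calc CC * τ * (A * Ce V g2 * W * e2) * tx q t x * ENNReal.ofReal (Real.exp (-‖v‖ ^ 2))
        ≤ CC * 1 * (A * Ce V g2 * W * e2) * ENNReal.ofReal (2 ^ q) *
          ENNReal.ofReal (Real.exp (-‖v‖ ^ 2)) := by
          gcongr
          exact tx_le_const hq ht.1.le (ht.2.trans hT1) x
      _ = CC * A * Ce V g2 * ENNReal.ofReal (2 ^ q) *
          (1 * (W * (ENNReal.ofReal (Real.exp (-‖v‖ ^ 2)) * e2))) := by ring
      _ ≤ _ := by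
          gcongr
          exact exp_mul_ez2 P hg2 hg ht.1.le x v
  -- G2
  have G2 : Qp (ddF (Cf (LcF H)) (Cf (LcF H')) t x) (H t x) v ≤
      CC * A * Ce V g2 * CH * CK * (ev v * (W * E)) := by
    have ha : CC * τ * (A * Ce V g2 * W * e2) ≠ ⊤ := by finiteness
    refine (Qp_le_mul ha hCH hdc (bH t ht x) v).trans ?_
    calc CC * τ * (A * Ce V g2 * W * e2) * CH * Qp (Mc t x) (Zg P (g1 + g2) t x) v
        ≤ CC * τ * (A * Ce V g2 * W * e2) * CH * (CK * τ' * Zg P (g1 + g2) t x v) := by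
          gcongr
          exact hK.qMZ t ht x v
      _ = CC * A * Ce V g2 * CH * CK * ((τ * τ') * (W * (e2 * Zg P (g1 + g2) t x v))) := by ring
      _ ≤ CC * A * Ce V g2 * CH * CK * (ev v * (W * E)) := by
          rw [hττ]
          gcongr
  -- G3
  have hdpk : Qp (ddF (Cf (LcF H')) (phiE P) t x) (ddF H H' t x) v ≤
      CC * F * CK * (ev v * (W * E)) := by
    have ha : CC * F * τ ≠ ⊤ := by finiteness
    refine (Qp_le_mul ha hW hdp (bk t ht x) v).trans ?_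
    calc CC * F * τ * W * Qp (Mc t x) (EE P g1 g2 t x) v
        ≤ CC * F * τ * W * (CK * τ' * E) := by gcongr; exact hK.qME t ht x v
      _ = CC * F * CK * ((τ * τ') * (W * E)) := by ring
      _ ≤ _ := by rw [hττ]; gcongr
  -- G4
  have G4 : ∀ K : Fld, (∀ z, K t x z ≤ CH * Zg P (g1 + g2) t x z) →
      Qp (K t x) (ddF H H' t x) v ≤ CH * CK * (ev v * (W * E)) := by
    intro K hKb
    refine (Qp_le_mul hCH hW hKb (bk t ht x) v).trans ?_
    calc CH * W * Qp (Zg P (g1 + g2) t x) (EE P g1 g2 t x) v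
        ≤ CH * W * (CK * ev v * E) := by gcongr; exact hK.qZE t ht x v
      _ = _ := by ring
  -- G5
  have G5 : (Lc (ddF (Cf (LcF H)) (Cf (LcF H')) t x) v + Lc (ddF H H' t x) v) * H t x v ≤
      (CC * A * Ce V g2 + 1) * CK * CH * (ev v * (W * E)) := by
    have ha : CC * τ * (A * Ce V g2 * W * e2) ≠ ⊤ := by finiteness
    have h1 : Lc (ddF (Cf (LcF H)) (Cf (LcF H')) t x) v ≤ CC * A * Ce V g2 * CK * (ev v * (W * e2)) := by
      refine (Lc_le_mul ha hdc v).trans ?_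
      calc CC * τ * (A * Ce V g2 * W * e2) * Lc (Mc t x) v
          ≤ CC * τ * (A * Ce V g2 * W * e2) * (CK * τ' * ev v) := by gcongr; exact hK.lM t ht x v
        _ = CC * A * Ce V g2 * CK * ((τ * τ') * (ev v * (W * e2))) := by ring
        _ = _ := by rw [hττ, one_mul]
    have h2 : Lc (ddF H H' t x) v ≤ CK * (ev v * (W * e2)) := by
      refine (Lc_le_mul hW (bk t ht x) v).trans ?_
      calc W * Lc (EE P g1 g2 t x) v ≤ W * (CK * ev v * e2) := by gcongr; exact hK.lE t ht x v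
        _ = _ := by ring
    calc _ ≤ (CC * A * Ce V g2 * CK * (ev v * (W * e2)) + CK * (ev v * (W * e2))) *
          (CH * Zg P (g1 + g2) t x v) := by gcongr; exact bH t ht x v
      _ = (CC * A * Ce V g2 + 1) * CK * CH * (ev v * (W * (e2 * Zg P (g1 + g2) t x v))) := by ring
      _ ≤ _ := by gcongr
  -- G6
  have G6 : (Lc (ddF (Cf (LcF H')) (phiE P) t x) v + L0 * ev v) * ddF H H' t x v ≤
      (CC * F * CK + L0) * (ev v * (W * E)) := by
    have ha : CC * F * τ ≠ ⊤ := by finiteness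
    have h1 : Lc (ddF (Cf (LcF H')) (phiE P) t x) v ≤ CC * F * CK * ev v := by
      refine (Lc_le_mul ha hdp v).trans ?_
      calc CC * F * τ * Lc (Mc t x) v ≤ CC * F * τ * (CK * τ' * ev v) := by
            gcongr; exact hK.lM t ht x v
        _ = CC * F * CK * ((τ * τ') * ev v) := by ring
        _ = _ := by rw [hττ, one_mul]
    calc _ ≤ (CC * F * CK * ev v + L0 * ev v) * (W * E) := by gcongr; exact bk t ht x v
      _ = _ := by ring
  have G4a := G4 H (bH t ht x)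
  have G4b := G4 H' (bH' t ht x)
  unfold restF
  calc _ ≤ CC * A * Ce V g2 * ENNReal.ofReal (2 ^ q) * (ev v * (W * E)) +
        2 * (CC * A * Ce V g2 * CH * CK * (ev v * (W * E))) +
        2 * (CC * F * CK * (ev v * (W * E))) +
        (CH * CK * (ev v * (W * E)) + CH * CK * (ev v * (W * E))) +
        (CC * A * Ce V g2 + 1) * CK * CH * (ev v * (W * E)) +
        (CC * F * CK + L0) * (ev v * (W * E)) := by
        gcongr
    _ = _ := by
        unfold CR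
        ring

end Crest.Agent.R68.N
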