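import Crest.Agent.R68.NDamp

/-!
# Row 68, PART N (helper559): back from the enlarged damping rate to the true one (I3)
-/

set_option autoImplicit false
open MeasureTheory Set Filter
open scoped ENNReal Topology
open Crest.AnalysisR.VecCalc3 Crest.AnalysisR.PDE.Boltzmann

noncomputable section

namespace Crest.Agent.R68.ND

open Crest.Agent.R68.N (Fld dd ddF acc Dam ev EE dd_comm dd_self dd_le_iff dd_le_add dd_add_add dd_mul_left
  dd_lintegral measurable_acc measurable_Dam_integrand)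

open Crest.Agent.R68.A (en Meas3 Acc en_top en_zero en_antitone en_le_one en_add continuous_en
  measurable_en en_ne_top one_le_en_add measurable_bar continuous_bar measurable_lintegral_Ioo
  measurable_flight lintegral_triangle flight_pos flight_pos0 Duh_add Duh_const_mul Duh_mono_on)

theorem en_pos {a : ℝ≥0∞} (ha : a ≠ ⊤) : 0 < en a := by
  rw [en_eq_ofReal ha]
  simpa using Real.exp_pos _

theorem measurable_O1_joint {m : ℝ → ℝ≥0∞} (hm : Measurable m) :
    Measurable fun z : ℝ × ℝ => O1 m z.1 z.2 := by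
  unfold O1
  exact measurable_lintegral_Ioo (α := ℝ × ℝ) (q := fun z : (ℝ × ℝ) × ℝ => m z.2) (by fun_prop)
    measurable_fst measurable_snd

/-- (I3), one time variable -/
theorem undo_rate {n μ q y : ℝ → ℝ≥0∞} (hn : Measurable n) (hμ : Measurable μ)
    (hq : Measurable q) (hym : Measurable y) {t : ℝ} (y0 : ℝ≥0∞)
    (hy : ∀ s ∈ Ioc 0 t, y s = en (O1 (fun r => n r + μ r) 0 s) * y0 +
      ∫⁻ r in Ioo 0 s, en (O1 (fun r => n r + μ r) r s) * (q r + μ r * y r))
    (hfin : O1 μ 0 t ≠ ⊤) {M : ℝ≥0∞} (hM : M ≠ ⊤) (hb : ∀ s ∈ Ioc 0 t, y s ≤ M) :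
    ∀ s ∈ Ioc 0 t, y s = en (O1 n 0 s) * y0 + ∫⁻ r in Ioo 0 s, en (O1 n r s) * q r := by
  set z : ℝ → ℝ≥0∞ := fun s => en (O1 n 0 s) * y0 + ∫⁻ r in Ioo 0 s, en (O1 n r s) * q r with hz
  have hzm : Measurable z := by
    rw [hz]
    refine Measurable.add ?_ ?_
    · exact (measurable_en.comp (measurable_O1_right hn 0)).mul measurable_const
    · refine measurable_lintegral_Ioo (α := ℝ) (q := fun w : ℝ × ℝ => en (O1 n w.2 w.1) * q w.2)
        ?_ measurable_const measurable_id
      have : Measurable fun w : ℝ × ℝ => en (O1 n w.2 w.1) :=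
        measurable_en.comp ((measurable_O1_joint hn).comp (measurable_snd.prodMk measurable_fst))
      fun_prop
  have hadd : ∀ r s, O1 (fun r => n r + μ r) r s = O1 n r s + O1 μ r s := fun r s => O1_add hn r s
  have hle : ∀ r s, 0 ≤ r → s ≤ t → O1 μ r s ≤ O1 μ 0 t := fun r s h1 h2 =>
    (O1_mono_left μ h1).trans (O1_mono_right μ h2)
  -- `z` solves the same equation
  have hz2 : ∀ s ∈ Ioc 0 t, z s = en (O1 (fun r => n r + μ r) 0 s) * y0 +
      ∫⁻ r in Ioo 0 s, en (O1 (fun r => n r + μ r) r s) * (q r + μ r * z r) := by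
    intro s hs
    exact change_rate hn hμ hq hs.1.le y0 (fun r hr => rfl) (fun r h1 h2 =>
      ne_top_of_le_ne_top hfin (hle r s h1.le hs.2))
  -- `z` is bounded
  have hzb : ∀ s ∈ Ioc 0 t, en (O1 μ 0 t) * z s ≤ M := by
    intro s hs
    refine le_trans ?_ (hb s hs)
    rw [hy s hs, hz]
    simp only
    rw [mul_add]
    refine add_le_add ?_ ?_
    · rw [hadd, en_add, ← mul_assoc, mul_comm (en (O1 n 0 s))]
      gcongr
      exact en_antitone (hle 0 s le_rfl hs.2)
    · rw [← lintegral_const_mul' _ _ (en_ne_top _)]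
      refine setLIntegral_mono_ae' measurableSet_Ioo (Eventually.of_forall fun r hr => ?_)
      rw [hadd, en_add, ← mul_assoc, mul_comm (en (O1 n r s))]
      gcongr
      · exact en_antitone (hle r s hr.1.le hs.2)
      · exact le_self_add
  have hM' : M / en (O1 μ 0 t) ≠ ⊤ := ENNReal.div_ne_top hM (en_pos hfin).ne'
  have hzb' : ∀ s ∈ Ioc 0 t, z s ≤ M / en (O1 μ 0 t) := by
    intro s hs
    rw [ENNReal.le_div_iff_mul_le (Or.inl (en_pos hfin).ne') (Or.inl (en_ne_top _)), mul_comm]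
    exact hzb s hs
  -- the distance
  set S : ℝ≥0∞ := ⨆ s ∈ Ioc 0 t, dd (y s) (z s) with hS
  have hdS : ∀ s ∈ Ioc 0 t, dd (y s) (z s) ≤ S := fun s hs => le_iSup₂_of_le s hs le_rfl
  have hSfin : S ≠ ⊤ := by
    refine ne_top_of_le_ne_top (ENNReal.add_ne_top.2 ⟨hM, hM'⟩) (iSup₂_le fun s hs => ?_)
    exact (dd_le_add _ _).trans (add_le_add (hb s hs) (hzb' s hs))
  have hstep : ∀ s ∈ Ioc 0 t, dd (y s) (z s) ≤ S * (1 - en (O1 μ 0 t)) := by
    intro s hs
    have hmn : Measurable fun r => en (O1 (fun r => n r + μ r) r s) :=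
      measurable_en.comp (measurable_O1_left (hn.add hμ) s)
    have hmμ : Measurable fun r => en (O1 μ r s) := measurable_en.comp (measurable_O1_left hμ s)
    have h1 : dd (y s) (z s) ≤ ∫⁻ r in Ioo 0 s, μ r * en (O1 μ r s) * S := by
      rw [hy s hs, hz2 s hs]
      refine (dd_add_add _ _ _ _).trans ?_
      rw [dd_self, zero_add]
      refine (dd_lintegral (by fun_prop) (by fun_prop)).trans ?_
      refine setLIntegral_mono_ae' measurableSet_Ioo (Eventually.of_forall fun r hr => ?_)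
      refine (dd_mul_left _ _ _).trans ?_
      have h2 : dd (q r + μ r * y r) (q r + μ r * z r) ≤ μ r * S := by
        refine (dd_add_add _ _ _ _).trans ?_
        rw [dd_self, zero_add]
        refine (dd_mul_left _ _ _).trans ?_
        gcongr
        exact hdS r ⟨hr.1, hr.2.le.trans hs.2⟩
      calc en (O1 (fun r => n r + μ r) r s) * dd (q r + μ r * y r) (q r + μ r * z r)
          ≤ en (O1 μ r s) * (μ r * S) := by
            gcongr
            refine en_antitone ?_
            rw [hadd]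
            exact le_add_self
        _ = μ r * en (O1 μ r s) * S := by ring
    rw [lintegral_mul_const _ (by fun_prop)] at h1
    have h3 := ftc_back hμ (le_refl (0 : ℝ)) hs.1.le (fun r h1 h2 =>
      ne_top_of_le_ne_top hfin (hle r s h1.le hs.2))
    have h4 : (∫⁻ r in Ioo 0 s, μ r * en (O1 μ r s)) ≤ 1 - en (O1 μ 0 t) := by
      have h5 : (∫⁻ r in Ioo 0 s, μ r * en (O1 μ r s)) = 1 - en (O1 μ 0 s) :=
        ENNReal.eq_sub_of_add_eq (en_ne_top _) h3
      rw [h5]
      exact tsub_le_tsub_left (en_antitone (hle 0 s le_rfl hs.2)) 1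
    calc dd (y s) (z s) ≤ _ := h1
      _ ≤ (1 - en (O1 μ 0 t)) * S := by gcongr
      _ = _ := mul_comm _ _
  have hSle : S ≤ S * (1 - en (O1 μ 0 t)) := iSup₂_le hstep
  have hS0 : S = 0 := by
    by_contra hne
    have hlt : (1 - en (O1 μ 0 t)) < 1 :=
      ENNReal.sub_lt_self ENNReal.one_ne_top one_ne_zero (en_pos hfin).ne'
    have h6 : S * (1 - en (O1 μ 0 t)) < S * 1 :=
      (ENNReal.mul_lt_mul_iff_right hne hSfin).2 hlt
    rw [mul_one] at h6
    exact absurd hSle (not_le.2 h6)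
  intro s hs
  have h7 : dd (y s) (z s) ≤ 0 := by rw [← hS0]; exact hdS s hs
  rw [dd_le_iff, add_zero, add_zero] at h7
  exact le_antisymm h7.1 h7.2

/-- (I3) along a flight: from the enlarged rate `n'` back to the rate `n ≤ n'` -/
theorem undo_rate_flight {n n' q H : Fld} {h0 : P2 → R3 → ℝ≥0∞} (hn : Meas3 n) (hn' : Meas3 n')
    (hq : Meas3 q) (hHm : Meas3 H) {t : ℝ} {x : P2} {v : R3} (ht : 0 < t)
    (hle : ∀ s ∈ Ioo 0 t, n s (x - (t - s) • bar v) v ≤ n' s (x - (t - s) • bar v) v)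
    (hH : ∀ s ∈ Ioc 0 t, H s (x - (t - s) • bar v) v =
      Dat n' h0 s (x - (t - s) • bar v) v +
        Dam n' (fun s y z => q s y z + (n' s y z - n s y z) * H s y z) s
          (x - (t - s) • bar v) v)
    (hfin : acc (fun s y z => n' s y z - n s y z) 0 t x v ≠ ⊤)
    {M : ℝ≥0∞} (hM : M ≠ ⊤) (hb : ∀ s ∈ Ioc 0 t, H s (x - (t - s) • bar v) v ≤ M) :
    H t x v = Dat n h0 t x v + Dam n q t x v := by
  set n1 : ℝ → ℝ≥0∞ := fun r => n r (x - (t - r) • bar v) v with hn1
  set μ1 : ℝ → ℝ≥0∞ := fun r => n' r (x - (t - r) • bar v) v - n r (x - (t - r) • bar v) v with hμ1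
  set q1 : ℝ → ℝ≥0∞ := fun r => q r (x - (t - r) • bar v) v with hq1
  set y1 : ℝ → ℝ≥0∞ := fun r => H r (x - (t - r) • bar v) v with hy1
  have hn1m : Measurable n1 := measurable_flight hn t x v
  have hn'1m : Measurable fun r => n' r (x - (t - r) • bar v) v := measurable_flight hn' t x v
  have hμ1m : Measurable μ1 := hn'1m.sub hn1m
  have hO : ∀ r s, 0 ≤ r → s ≤ t → O1 (fun r => n1 r + μ1 r) r s =
      O1 (fun r => n' r (x - (t - r) • bar v) v) r s := by
    intro r s hr hs
    unfold O1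
    refine setLIntegral_congr_fun measurableSet_Ioo fun a ha => ?_
    exact add_tsub_cancel_of_le (hle a ⟨lt_of_le_of_lt hr ha.1, lt_of_lt_of_le ha.2 hs⟩)
  have hform : ∀ s ∈ Ioc 0 t, y1 s = en (O1 (fun r => n1 r + μ1 r) 0 s) * h0 (x - t • bar v) v +
      ∫⁻ r in Ioo 0 s, en (O1 (fun r => n1 r + μ1 r) r s) * (q1 r + μ1 r * y1 r) := by
    intro s hs
    rw [hy1]
    simp only
    rw [hH s hs]
    unfold Dat Dam
    rw [acc_flight, flight_pos0, hO 0 s le_rfl hs.2]
    congr 1
    refine setLIntegral_congr_fun measurableSet_Ioo fun r hr => ?_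
    simp only
    rw [acc_flight, flight_pos, hO r s hr.1.le hs.2]
  have key : y1 t = en (O1 n1 0 t) * h0 (x - t • bar v) v +
      ∫⁻ r in Ioo 0 t, en (O1 n1 r t) * q1 r :=
    undo_rate hn1m hμ1m (measurable_flight hq t x v) (measurable_flight hHm t x v)
      (h0 (x - t • bar v) v) hform hfin hM hb t ⟨ht, le_rfl⟩
  have h2 : H t x v = y1 t := by simp [hy1]
  rw [h2, key]
  rfl

end Crest.Agent.R68.ND
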