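import Crest.Agent.R68.NExt2

/-!
# Row 68, PART N (helper559): the equivalent weight `W' = ∑ T^m W`, `W = e^{λ t} t^b EE`
-/

set_option autoImplicit false
open MeasureTheory Set Filter
open scoped ENNReal Topology
open Crest.AnalysisR.VecCalc3 Crest.AnalysisR.PDE.Boltzmann

noncomputable section

namespace Crest.Agent.R68.ND

open Crest.Agent.R68.A (en Meas3)
open Crest.Agent.R68.N (Fld PerF TT EE nuf LInp ddF dd)
open Crest.Agent.R68.L (TL TL_tsum TL_add TL_smul meas3_TL meas3_iter sol)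

/-- the weight `e^{λ t} t^b EE(g1,g2)` -/
def WW (P : Par) (lam g1 g2 b : ℝ) : Fld := fun t x v =>
  ENNReal.ofReal (Real.exp (lam * t)) * (ENNReal.ofReal (t ^ b) * EE P g1 g2 t x v)

/-- the Neumann series of `WW` -/
def Wp (P : Par) (lam g1 g2 b : ℝ) : Fld := fun t x v =>
  ∑' m : ℕ, (TT P)^[m] (WW P lam g1 g2 b) t x v

/-- `WW` cut to positive times -/
def WWc (P : Par) (lam g1 g2 b : ℝ) : Fld := fun t x v =>
  ENNReal.ofReal (Real.exp (lam * t)) * cw P g1 g2 b t x v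

section

variable {P : Par} {lam g1 g2 b : ℝ}

theorem meas3_WWc (hY : 0 < P.Y) : Meas3 (WWc P lam g1 g2 b) := by
  have h1 : Measurable fun p : ℝ × P2 × R3 => ENNReal.ofReal (Real.exp (lam * p.1)) := by fun_prop
  exact Measurable.mul h1 (meas3_cw hY g1 g2 b)

theorem perF_WWc : PerF (WWc P lam g1 g2 b) := by
  intro t v x k
  unfold WWc
  have h := perF_cw P g1 g2 b t v x k
  simp only at h ⊢
  rw [h]

theorem WW_eq_WWc {s : ℝ} (hs : 0 < s) (y : P2) (z : R3) :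
    WW P lam g1 g2 b s y z = WWc P lam g1 g2 b s y z := by
  unfold WW WWc cw
  rw [if_pos hs, B2_eq_EE P g1 g2 b hs]

theorem Wp_eq (hφ : Meas3 (Crest.Agent.R68.phiE P)) (hY : 0 < P.Y) {t : ℝ} (ht : 0 < t) (x : P2)
    (v : R3) : Wp P lam g1 g2 b t x v = neuL (Crest.Agent.R68.phiE P) (WWc P lam g1 g2 b) t x v := by
  unfold Wp neuL
  refine tsum_congr fun m => ?_
  exact TT_iter_eq hφ (meas3_WWc hY) (T := t) (fun s hs _ y z => WW_eq_WWc hs y z) m t ht le_rfl x v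

theorem meas3_Wp' (hφ : Meas3 (Crest.Agent.R68.phiE P)) (hY : 0 < P.Y) :
    Meas3 (fun t x v => if 0 < t then Wp P lam g1 g2 b t x v else 0) := by
  have h := meas3_neuL hφ (meas3_WWc (P := P) (lam := lam) (g1 := g1) (g2 := g2) (b := b) hY)
  have h2 : Measurable fun p : ℝ × P2 × R3 => if 0 < p.1 then
      neuL (Crest.Agent.R68.phiE P) (WWc P lam g1 g2 b) p.1 p.2.1 p.2.2 else 0 :=
    Measurable.ite (measurableSet_lt measurable_const measurable_fst) h measurable_const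
  show Measurable fun p : ℝ × P2 × R3 => if 0 < p.1 then Wp P lam g1 g2 b p.1 p.2.1 p.2.2 else 0
  convert h2 using 2 with p
  by_cases hp : 0 < p.1
  · rw [if_pos hp, if_pos hp, Wp_eq hφ hY hp]
  · rw [if_neg hp, if_neg hp]

/-- (w1) -/
theorem Wp_eqn (hφ : Meas3 (Crest.Agent.R68.phiE P)) (hY : 0 < P.Y) {t : ℝ} (ht : 0 < t) (x : P2)
    (v : R3) : Wp P lam g1 g2 b t x v = WW P lam g1 g2 b t x v + TT P (Wp P lam g1 g2 b) t x v := by
  have h := neuL_eq hφ (meas3_WWc (P := P) (lam := lam) (g1 := g1) (g2 := g2) (b := b) hY) t x v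
  rw [Wp_eq hφ hY ht, h, WW_eq_WWc ht]
  congr 1
  symm
  refine TT_eq_TL hφ (meas3_neuL hφ (meas3_WWc hY)) (fun s hs y z => ?_) x v
  exact Wp_eq hφ hY hs.1 y z

/-- (w3) -/
theorem WW_le_Wp (t : ℝ) (x : P2) (v : R3) : WW P lam g1 g2 b t x v ≤ Wp P lam g1 g2 b t x v :=
  ENNReal.le_tsum (f := fun m : ℕ => (TT P)^[m] (WW P lam g1 g2 b) t x v) 0

/-- iterates with the factor `e^{λ t}` -/
theorem iter_exp_le {φ : Fld} (hφ : Meas3 φ) (hl : 0 ≤ lam) {f g : Fld} (hf : Meas3 f)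
    (hfg : ∀ s, 0 < s → ∀ y z, g s y z ≤ ENNReal.ofReal (Real.exp (lam * s)) * f s y z) (m : ℕ) :
    ∀ t, 0 < t → ∀ x v, (TL φ)^[m] g t x v ≤
      ENNReal.ofReal (Real.exp (lam * t)) * (TL φ)^[m] f t x v := by
  induction m with
  | zero => exact hfg
  | succ m ih =>
    intro t ht x v
    rw [Function.iterate_succ_apply', Function.iterate_succ_apply']
    have h1 : TL φ ((TL φ)^[m] g) t x v ≤
        TL φ (fun s y z => ENNReal.ofReal (Real.exp (lam * t)) * (TL φ)^[m] f s y z) t x v := by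
      refine TL_mono_lt (fun s hs y z => (ih s hs.1 y z).trans ?_) x v
      gcongr
      exact hs.2.le
    refine h1.trans (le_of_eq ?_)
    have h2 := TL_smul (φ := φ) hφ (meas3_iter hφ hf m) (ENNReal.ofReal (Real.exp (lam * t)))
    rw [h2]

/-- (w2) -/
theorem Wp_le (hφ : Meas3 (Crest.Agent.R68.phiE P)) (hY : 0 < P.Y) (hl : 0 ≤ lam) {T : ℝ}
    {CL : ℝ≥0∞} (hneu : ∀ t ∈ Ioc 0 T, ∀ x v,
      ∑' m : ℕ, (TT P)^[m] (fun s y z => ENNReal.ofReal (s ^ b) * EE P g1 g2 s y z) t x v ≤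
        CL * ENNReal.ofReal (t ^ b) * EE P g1 g2 t x v) {t : ℝ} (ht : t ∈ Ioc 0 T) (x : P2)
    (v : R3) : Wp P lam g1 g2 b t x v ≤ CL * WW P lam g1 g2 b t x v := by
  rw [Wp_eq hφ hY ht.1]
  unfold neuL
  have hcm : Meas3 (cw P g1 g2 b) := meas3_cw hY g1 g2 b
  calc ∑' m : ℕ, (TL (Crest.Agent.R68.phiE P))^[m] (WWc P lam g1 g2 b) t x v
      ≤ ∑' m : ℕ, ENNReal.ofReal (Real.exp (lam * t)) *
          (TL (Crest.Agent.R68.phiE P))^[m] (cw P g1 g2 b) t x v :=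
        ENNReal.tsum_le_tsum fun m => iter_exp_le hφ hl hcm (fun s _ y z => le_rfl) m t ht.1 x v
    _ = ENNReal.ofReal (Real.exp (lam * t)) * ∑' m : ℕ,
          (TL (Crest.Agent.R68.phiE P))^[m] (cw P g1 g2 b) t x v := ENNReal.tsum_mul_left
    _ = ENNReal.ofReal (Real.exp (lam * t)) * ∑' m : ℕ,
          (TT P)^[m] (fun s y z => ENNReal.ofReal (s ^ b) * EE P g1 g2 s y z) t x v := by
        congr 1
        refine tsum_congr fun m => ?_
        symm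
        refine TT_iter_eq hφ hcm (T := t) (fun s hs _ y z => ?_) m t ht.1 le_rfl x v
        unfold cw
        rw [if_pos hs, B2_eq_EE P g1 g2 b hs]
    _ ≤ ENNReal.ofReal (Real.exp (lam * t)) * (CL * ENNReal.ofReal (t ^ b) * EE P g1 g2 t x v) := by
        gcongr
        exact hneu t ht x v
    _ = _ := by unfold WW; ring

/-- (w4) -/
theorem Wp_ne_top (hφ : Meas3 (Crest.Agent.R68.phiE P)) (hY : 0 < P.Y) (hl : 0 ≤ lam) {T : ℝ}
    {CL : ℝ≥0∞} (hCL : CL ≠ ⊤) (hneu : ∀ t ∈ Ioc 0 T, ∀ x v,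
      ∑' m : ℕ, (TT P)^[m] (fun s y z => ENNReal.ofReal (s ^ b) * EE P g1 g2 s y z) t x v ≤
        CL * ENNReal.ofReal (t ^ b) * EE P g1 g2 t x v) {t : ℝ} (ht : t ∈ Ioc 0 T) {x : P2}
    {v : R3} (hD : 0 < Dw P t x v) : Wp P lam g1 g2 b t x v ≠ ⊤ := by
  refine ne_top_of_le_ne_top ?_ (Wp_le hφ hY hl hneu ht x v)
  have h1 : Dm P t x v ≠ ⊤ := by
    unfold Dm
    refine ENNReal.rpow_ne_top_of_ne_zero ?_ ENNReal.ofReal_ne_top
    simpa using hD
  unfold WW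
  rw [EE, B2]
  exact ENNReal.mul_ne_top hCL (ENNReal.mul_ne_top ENNReal.ofReal_ne_top
    (ENNReal.mul_ne_top ENNReal.ofReal_ne_top (ENNReal.mul_ne_top ENNReal.ofReal_ne_top h1)))

/-- (w5): `T` is a contraction in the weight `W'`: bound of `T d` -/
theorem TT_ddF_le (hφ : Meas3 (Crest.Agent.R68.phiE P)) (hY : 0 < P.Y) {k : Fld} (hk : Meas3 k)
    {d : ℝ≥0∞} {t : ℝ} (hle : ∀ s ∈ Ioo 0 t, ∀ y z, k s y z ≤ d * Wp P lam g1 g2 b s y z) (x : P2)
    (v : R3) : TT P k t x v ≤ d * TT P (Wp P lam g1 g2 b) t x v := by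
  have hm := meas3_neuL hφ (meas3_WWc (P := P) (lam := lam) (g1 := g1) (g2 := g2) (b := b) hY)
  rw [TT_eq_TL hφ hk (fun s _ y z => rfl) x v,
    TT_eq_TL hφ hm (fun s hs y z => Wp_eq hφ hY hs.1 y z) x v]
  have h1 : TL (Crest.Agent.R68.phiE P) k t x v ≤ TL (Crest.Agent.R68.phiE P)
      (fun s y z => d * neuL (Crest.Agent.R68.phiE P) (WWc P lam g1 g2 b) s y z) t x v := by
    refine TL_mono_lt (fun s hs y z => (hle s hs y z).trans (le_of_eq ?_)) x v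
    rw [Wp_eq hφ hY hs.1]
  refine h1.trans (le_of_eq ?_)
  have h2 := TL_smul (φ := Crest.Agent.R68.phiE P) hφ hm d
  rw [h2]

/-- (w6): contraction factor of `T`: `T W' + W = W'` and `W' ≤ CL W`, hence
`CL * T W' + W' ≤ CL * W'` -/
theorem TT_Wp_contr (hφ : Meas3 (Crest.Agent.R68.phiE P)) (hY : 0 < P.Y) (hl : 0 ≤ lam) {T : ℝ}
    {CL : ℝ≥0∞} (hneu : ∀ t ∈ Ioc 0 T, ∀ x v,
      ∑' m : ℕ, (TT P)^[m] (fun s y z => ENNReal.ofReal (s ^ b) * EE P g1 g2 s y z) t x v ≤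
        CL * ENNReal.ofReal (t ^ b) * EE P g1 g2 t x v) {t : ℝ} (ht : t ∈ Ioc 0 T) (x : P2)
    (v : R3) : CL * TT P (Wp P lam g1 g2 b) t x v + Wp P lam g1 g2 b t x v ≤
      CL * Wp P lam g1 g2 b t x v := by
  have h1 := Wp_eqn (lam := lam) (g1 := g1) (g2 := g2) (b := b) hφ hY ht.1 x v
  have h2 := Wp_le (lam := lam) hφ hY hl hneu ht x v
  calc CL * TT P (Wp P lam g1 g2 b) t x v + Wp P lam g1 g2 b t x v
      ≤ CL * TT P (Wp P lam g1 g2 b) t x v + CL * WW P lam g1 g2 b t x v := by gcongr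
    _ = CL * (WW P lam g1 g2 b t x v + TT P (Wp P lam g1 g2 b) t x v) := by ring
    _ = _ := by rw [← h1]

end

end Crest.Agent.R68.ND
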