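import Crest.Agent.R68.NHyp
import Crest.Agent.R68.FOne

/-!
# Row 68, PART N: interface (statements only; never import in proofs)
-/

set_option autoImplicit false
open MeasureTheory Set Filter
open scoped ENNReal Topology
open Crest.AnalysisR.VecCalc3 Crest.AnalysisR.PDE.Boltzmann

noncomputable section

namespace Crest.Agent.R68.NIface

open Crest.Agent.R68.A (en Meas3)
open Crest.Agent.R68.N

/-- **Part N.** If the unburnt solution `H1` and an ancient solution `Hs` of the linear hot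
equation are given, there is a second solution `H2` with the same datum. -/
theorem N_main {P : Par} {T V : ℝ} {Cf Sf : Fld → Fld} {Mc Wm : Fld} {CC CK CL C1 : ℝ≥0∞} {q : ℝ}
    {g0 g1 g2 g1' g2' a b β : ℝ}
    (hOk : P.Ok) (hT : 0 < T) (hT1 : T ≤ 1) (hV : 0 ≤ V) (hP : 0 ≤ P.c)
    (hg2 : 0 < g2') (hg1 : √T / 100 < g1') (hg1' : g1' + g2' ≤ 1) (hgg1 : g1' < g1) (hgg2 : g2' < g2)
    (hg0 : g1 + g2 ≤ g0)
    (hb0 : 0 < b) (hb : b ≤ 2 * (a - 2)) (hbβ : b ≤ β) (hbq : b ≤ q)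
    (ha : 2 < a)
    (hC : ColdInp P T V Cf Sf Mc Wm CC q)
    (hK : KInp P T Mc Wm q g0 g1 g2 CK) (hK' : KInp P T Mc Wm q (g1' + g2') g1' g2' CK)
    {H0 : P2 → R3 → ℝ≥0∞} (mH0 : Measurable (fun p : P2 × R3 => H0 p.1 p.2))
    (pH0 : ∀ v, PerG (fun x => H0 x v)) (hH0 : ∀ x v, distG x = 0 → H0 x v = 0)
    {H1 : Fld} (h1 : HotSol P Cf Sf H0 T H1) (hC1 : C1 ≠ ⊤)
    (hH1 : ∀ t ∈ Ioc 0 T, ∀ x v, H1 t x v ≤ C1 * tx β t x * Zg P g0 t x v)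
    {Hs : Fld} (hL : LInp P T Hs g1 g2 g1' g2' a b CL)
    {ε0 : ℝ≥0∞} (hε0 : 0 < ε0) :
    ∃ H2 : Fld, HotSol P Cf Sf H0 T H2 ∧
      (∀ t ∈ Ioc 0 T, ∀ x v, dd (H1 t x v) (H2 t x v) ≤
        ε0 * ENNReal.ofReal (t ^ (min b (a - 2))) * EE P g1' g2' t x v) ∧
      ¬ ∀ᵐ p : ℝ × P2 × R3, p.1 ∈ Ioo 0 T → H1 p.1 p.2.1 p.2.2 = H2 p.1 p.2.1 p.2.2 := by
  sorry

end Crest.Agent.R68.NIface
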