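import Crest.Agent.R68.NHyp
import Crest.Agent.R68.NAlg
import Crest.Agent.R68.NFix
import Crest.Agent.R68.Carl4

/-!
# Row 68, PART N (helper621): Lipschitz estimate of the fixed point map (abstract form)
-/

set_option autoImplicit false
open MeasureTheory Set Filter
open scoped ENNReal Topology
open Crest.AnalysisR.VecCalc3 Crest.AnalysisR.PDE.Boltzmann

noncomputable section

namespace Crest.Agent.R68.N

open Crest.Agent.R68.A (en Meas3)

/-- the remainder in the Lipschitz estimate of the sources: everything except the linear gain -/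
def restF (P : Par) (L0 : ℝ≥0∞) (c c' sp sp' H H' : Fld) : Fld := fun t x v =>
  dd (sp t x v) (sp' t x v) + 2 * Qp (ddF c c' t x) (H t x) v +
    2 * Qp (ddF c' (phiE P) t x) (ddF H H' t x) v +
    (Qp (H t x) (ddF H H' t x) v + Qp (H' t x) (ddF H H' t x) v) +
    (Lc (ddF c c' t x) v + Lc (ddF H H' t x) v) * H t x v +
    (Lc (ddF c' (phiE P) t x) v + L0 * ev v) * ddF H H' t x v

theorem dd_ne_top_le {a b : ℝ≥0∞} : a ≤ b + dd a b := le_add_dd a b

/-- `nuT - lossH` is bounded -/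
theorem nuT_sub_lossH {P : Par} {L0 : ℝ≥0∞} {c H : Fld} {t : ℝ} {x : P2}
    (hc : Measurable (c t x)) (hph : Measurable (phiE P t x)) (v : R3) :
    nuT P L0 t x v - lossH c H t x v ≤ Lc (ddF c (phiE P) t x) v + L0 * ev v := by
  rw [tsub_le_iff_right]
  have h1 : nuf P t x v ≤ lossH c H t x v + Lc (ddF c (phiE P) t x) v := by
    unfold nuf lossH
    have h2 : Lc (phiE P t x) v ≤ Lc (c t x) v + Lc (ddF c (phiE P) t x) v := by
      rw [← A.Lc_add hc v]
      exact A.Lc_mono (fun z => le_add_dd' _ _) v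
    refine h2.trans ?_
    gcongr
    exact A.Lc_mono (fun z => le_self_add) v
  unfold nuT
  calc nuf P t x v + L0 * (1 + ENNReal.ofReal ‖v‖)
      ≤ (lossH c H t x v + Lc (ddF c (phiE P) t x) v) + L0 * (1 + ENNReal.ofReal ‖v‖) := by gcongr
    _ = Lc (ddF c (phiE P) t x) v + L0 * ev v + lossH c H t x v := by unfold ev; ring

/-- **pointwise Lipschitz bound of the source of the fixed point map** -/
theorem dd_source {P : Par} {L0 : ℝ≥0∞} {c c' sp sp' H H' : Fld} {t : ℝ} {x : P2}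
    (hph : Measurable (phiE P t x))
    (hc : Measurable (c t x)) (hc' : Measurable (c' t x)) (hH : Measurable (H t x))
    (hH' : Measurable (H' t x)) (v : R3) :
    dd (gainH c sp H t x v + (nuT P L0 t x v - lossH c H t x v) * H t x v)
      (gainH c' sp' H' t x v + (nuT P L0 t x v - lossH c' H' t x v) * H' t x v) ≤
    Gf P (ddF H H') t x v + restF P L0 c c' sp sp' H H' t x v := by
  have hk : Measurable (ddF H H' t x) := Measurable.dd hH hH'
  have hdc : Measurable (ddF c c' t x) := Measurable.dd hc hc'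
  have hdp : Measurable (ddF c' (phiE P) t x) := Measurable.dd hc' hph
  refine (dd_add_add _ _ _ _).trans ?_
  refine (add_le_add (dd_gainH hc hc' hH hH' v) (dd_subH hc hc' hH hH' _ v)).trans ?_
  have h1 : Qp (c' t x) (ddF H H' t x) v ≤ Qp (phiE P t x) (ddF H H' t x) v +
      Qp (ddF c' (phiE P) t x) (ddF H H' t x) v := by
    rw [← A.Qp_add_left hph hk v]
    exact A.Qp_mono (fun z => le_add_dd _ _) (fun z => le_rfl) v
  have e1 : Qp (ddF H H' t x) (c' t x) v = Qp (c' t x) (ddF H H' t x) v := Qp_comm hk hc' v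
  have e2 : Qp (H t x) (ddF c c' t x) v = Qp (ddF c c' t x) (H t x) v := Qp_comm hH hdc v
  have e3 : Qp (ddF H H' t x) (H t x) v = Qp (H t x) (ddF H H' t x) v := Qp_comm hk hH v
  have e4 : Qp (ddF H H' t x) (phiE P t x) v = Qp (phiE P t x) (ddF H H' t x) v :=
    Qp_comm hk hph v
  have h2 := nuT_sub_lossH (P := P) (L0 := L0) (c := c') (H := H') (t := t) (x := x) hc' hph v
  rw [e1, e2, e3]
  unfold Gf restF
  rw [e4]
  set Q1 := Qp (ddF c c' t x) (H t x) v
  set Q2 := Qp (c' t x) (ddF H H' t x) v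
  set Q3 := Qp (phiE P t x) (ddF H H' t x) v
  set Q4 := Qp (ddF c' (phiE P) t x) (ddF H H' t x) v
  set Q5 := Qp (H t x) (ddF H H' t x) v
  set Q6 := Qp (H' t x) (ddF H H' t x) v
  calc _ ≤ dd (sp t x v) (sp' t x v) + (Q1 + Q1) + ((Q3 + Q4) + (Q3 + Q4)) + (Q5 + Q6) +
        ((Lc (ddF c c' t x) v + Lc (ddF H H' t x) v) * H t x v +
        (Lc (ddF c' (phiE P) t x) v + L0 * ev v) * ddF H H' t x v) := by
        gcongr
    _ = _ := by ring

theorem ddF_comm (f g : Fld) : ddF f g = ddF g f := by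
  funext t x v; exact dd_comm _ _

theorem Dam_le_Duh (n q : Fld) (t : ℝ) (x : P2) (v : R3) : Dam n q t x v ≤ Duh q t x v := by
  unfold Dam Duh
  refine lintegral_mono fun s => ?_
  calc _ ≤ 1 * q s (x - (t - s) • bar v) v := by gcongr; exact A.en_le_one _
    _ = _ := one_mul _

theorem Dam_add' {n q q' : Fld} (hn : Meas3 n) (hq : Meas3 q) (t : ℝ) (x : P2) (v : R3) :
    Dam n (fun s y z => q s y z + q' s y z) t x v = Dam n q t x v + Dam n q' t x v := by
  unfold Dam
  rw [← lintegral_add_left (measurable_Dam_integrand hn hq t x v)]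
  refine lintegral_congr fun s => ?_
  ring

theorem Dam_anti' {n n' q : Fld} {t : ℝ} {x : P2} {v : R3}
    (h : ∀ s ∈ Ioo 0 t, n' s (x - (t - s) • bar v) v ≤ n s (x - (t - s) • bar v) v) :
    Dam n q t x v ≤ Dam n' q t x v := by
  unfold Dam acc
  refine setLIntegral_mono_ae' measurableSet_Ioo (Eventually.of_forall fun s hs => ?_)
  gcongr
  refine A.en_antitone ?_
  refine setLIntegral_mono_ae' measurableSet_Ioo (Eventually.of_forall fun r hr => ?_)
  exact h r ⟨hs.1.trans hr.1, hr.2⟩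

/-- **Lipschitz estimate of the fixed point map.** -/
theorem psi_lip_core {P : Par} {L0 : ℝ≥0∞} {Cf Sf : Fld → Fld} {H0 : P2 → R3 → ℝ≥0∞} {H H' : Fld}
    (hph : Meas3 (phiE P)) (mH : Meas3 H) (mH' : Meas3 H')
    (mc : Meas3 (Cf (LcF H))) (mc' : Meas3 (Cf (LcF H')))
    (ms : Meas3 (Sf (LcF H))) (ms' : Meas3 (Sf (LcF H'))) (t : ℝ) (x : P2) (v : R3) :
    dd (Psi P L0 Cf Sf H0 H t x v) (Psi P L0 Cf Sf H0 H' t x v) ≤
      TT P (ddF H H') t x v +
      Duh (restF P L0 (Cf (LcF H)) (Cf (LcF H')) (Sf (LcF H)) (Sf (LcF H')) H H') t x v := by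
  have mn : Meas3 (nuT P L0) := meas3_nuT hph L0
  have mq : ∀ {c sp K : Fld}, Meas3 c → Meas3 sp → Meas3 K →
      Meas3 (fun s y z => gainH c sp K s y z + (nuT P L0 s y z - lossH c K s y z) * K s y z) := by
    intro c sp K h1 h2 h3
    exact Measurable.add (meas3_gainH h1 h2 h3)
      (Measurable.mul (Measurable.sub mn (meas3_lossH h1 h3)) h3)
  unfold Psi
  refine (dd_add_add _ _ _ _).trans ?_
  rw [dd_self, zero_add]
  refine (dd_Dam_le (r := fun s y z => Gf P (ddF H H') s y z +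
    restF P L0 (Cf (LcF H)) (Cf (LcF H')) (Sf (LcF H)) (Sf (LcF H')) H H' s y z) mn
    (mq mc ms mH) (mq mc' ms' mH') ?_).trans ?_
  · intro s _
    exact dd_source (hph.slice _ _) (mc.slice _ _) (mc'.slice _ _) (mH.slice _ _)
      (mH'.slice _ _) v
  · rw [Dam_add' mn (meas3_Gf hph (meas3_ddF mH mH'))]
    refine add_le_add ?_ (Dam_le_Duh _ _ _ _ _)
    unfold TT
    exact Dam_anti' fun s _ => le_self_add

end Crest.Agent.R68.N
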