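import Crest.Agent.R68.NWt
import Crest.Agent.R68.NAbs

/-!
# Row 68, PART N (helper621): the nonlinear step
-/

set_option autoImplicit false
open MeasureTheory Set Filter
open scoped ENNReal Topology
open Crest.AnalysisR.VecCalc3 Crest.AnalysisR.PDE.Boltzmann

noncomputable section

namespace Crest.Agent.R68.N

open Crest.Agent.R68.A (en Meas3)
open Crest.Agent.R68.ND (Dat change_rate_flight')

variable {P : Par} {T V : ℝ} {Cf Sf : Fld → Fld} {Mc Wm : Fld} {CC CK : ℝ≥0∞} {q : ℝ}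

/-- bounds of the loss rate of the hot equation for `H ≤ CB Z_g` -/
theorem loss_bds (hOk : P.Ok) (hC : ColdInp P T V Cf Sf Mc Wm CC q) (hT1 : T ≤ 1) (hq : 0 ≤ q)
    {g g1 g2 : ℝ} (hK : KInp P T Mc Wm q g g1 g2 CK) {H : Fld} (mH : Meas3 H) (pH : PerF H)
    {CB : ℝ≥0∞} (hCB : CB ≠ ⊤) (bH : ∀ t ∈ Ioc 0 T, ∀ x v, H t x v ≤ CB * Zg P g t x v)
    {t : ℝ} (ht : t ∈ Ioc 0 T) (x : P2) (v : R3) :
    lossH (Cf (LcF H)) H t x v ≤ nuT P
      (CC * (CB * CK * ENNReal.ofReal (1 + V) + ENNReal.ofReal (2 ^ q) + 1) * CK + CB * CK) t x v ∧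
    ∀ L0 : ℝ≥0∞, nuT P L0 t x v ≤ lossH (Cf (LcF H)) H t x v +
      (CC * (CB * CK * ENNReal.ofReal (1 + V) + ENNReal.ofReal (2 ^ q) + 1) * CK + L0) * ev v := by
  have mφ : Meas3 (phiE P) := L.meas3_phiE hOk
  have mL : Meas3 (LcF H) := meas3_LcF mH
  have pL : PerF (LcF H) := perF_LcF pH
  have mc : Meas3 (Cf (LcF H)) := hC.measC _ mL pL
  have hCC := hC.CC_ne
  have hCK := hK.ne
  have hbd : ∀ s ∈ Ioc 0 T, ∀ y u, ‖u‖ ≤ V → LcF H s y u ≤ CB * CK * ENNReal.ofReal (1 + V) := by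
    intro s hs y u hu
    refine (Lc_le_mul hCB (bH s hs y) u).trans ?_
    calc CB * Lc (Zg P g s y) u ≤ CB * (CK * ev u) := by gcongr; exact hK.lZ s hs y u
      _ ≤ CB * (CK * ENNReal.ofReal (1 + V)) := by gcongr; exact ev_le hu
      _ = _ := by ring
  have hdp := fun z => cold_phi hC hT1 hq mL pL hbd ht x z
  set F := CB * CK * ENNReal.ofReal (1 + V) + ENNReal.ofReal (2 ^ q) + 1 with hF
  set τ := ENNReal.ofReal t with hτ
  set τ' := ENNReal.ofReal (1 / t) with hτ'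
  have hττ : τ * τ' = 1 := t_mul_inv ht.1
  have hFt : F ≠ ⊤ := by
    have h7 : ENNReal.ofReal (2 ^ q) ≠ ⊤ := ENNReal.ofReal_ne_top
    have h6 : ENNReal.ofReal (1 + V) ≠ ⊤ := ENNReal.ofReal_ne_top
    rw [hF]; finiteness
  have hτt : τ ≠ ⊤ := ENNReal.ofReal_ne_top
  have h1 : Lc (ddF (Cf (LcF H)) (phiE P) t x) v ≤ CC * F * CK * ev v := by
    have ha : CC * F * τ ≠ ⊤ := by finiteness
    refine (Lc_le_mul ha hdp v).trans ?_
    calc CC * F * τ * Lc (Mc t x) v ≤ CC * F * τ * (CK * τ' * ev v) := by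
          gcongr; exact hK.lM t ht x v
      _ = CC * F * CK * ((τ * τ') * ev v) := by ring
      _ = _ := by rw [hττ, one_mul]
  constructor
  · have h2 : Lc (Cf (LcF H) t x) v ≤ nuf P t x v + Lc (ddF (Cf (LcF H)) (phiE P) t x) v := by
      unfold nuf
      rw [← A.Lc_add (mφ.slice t x) v]
      exact A.Lc_mono (fun z => le_add_dd _ _) v
    have h3 : Lc (H t x) v ≤ CB * CK * ev v := by
      refine (Lc_le_mul hCB (bH t ht x) v).trans ?_
      calc CB * Lc (Zg P g t x) v ≤ CB * (CK * ev v) := by gcongr; exact hK.lZ t ht x v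
        _ = _ := by ring
    have h4 : lossH (Cf (LcF H)) H t x v = Lc (Cf (LcF H) t x) v + Lc (H t x) v :=
      A.Lc_add (mc.slice t x) v
    rw [h4]
    calc Lc (Cf (LcF H) t x) v + Lc (H t x) v
        ≤ (nuf P t x v + CC * F * CK * ev v) + CB * CK * ev v := by
          refine add_le_add (h2.trans ?_) h3
          gcongr
      _ = nuf P t x v + (CC * F * CK + CB * CK) * ev v := by ring
      _ = _ := rfl
  · intro L0
    have h2 := nuT_sub_lossH (P := P) (L0 := L0) (c := Cf (LcF H)) (H := H) (mc.slice t x)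
      (mφ.slice t x) v
    rw [tsub_le_iff_left] at h2
    refine h2.trans ?_
    calc _ ≤ lossH (Cf (LcF H)) H t x v + (CC * F * CK * ev v + L0 * ev v) := by gcongr
      _ = _ := by ring

/-- choice of `λ` -/
theorem exists_lam {A η : ℝ≥0∞} (hA : A ≠ ⊤) (hη : η ≠ 0) :
    ∃ lam : ℝ, 1 ≤ lam ∧ A * ENNReal.ofReal (9 / √lam) ≤ η := by
  have h1 : Tendsto (fun lam : ℝ => 9 / √lam) atTop (𝓝 0) :=
    Tendsto.div_atTop tendsto_const_nhds (Real.tendsto_sqrt_atTop)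
  have h2 : Tendsto (fun lam : ℝ => ENNReal.ofReal (9 / √lam)) atTop (𝓝 0) := by
    have := ENNReal.tendsto_ofReal h1
    rwa [ENNReal.ofReal_zero] at this
  have h3 : Tendsto (fun lam : ℝ => A * ENNReal.ofReal (9 / √lam)) atTop (𝓝 0) := by
    have := ENNReal.Tendsto.const_mul (a := A) h2 (Or.inr hA)
    rwa [mul_zero] at this
  have h4 : ∀ᶠ lam : ℝ in atTop, A * ENNReal.ofReal (9 / √lam) < η :=
    h3.eventually_lt_const (pos_iff_ne_zero.2 hη)
  obtain ⟨lam, h5, h6⟩ := (h4.and (eventually_ge_atTop 1)).exists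
  exact ⟨lam, h6, h5.le⟩

theorem ofReal_rpow_le_one {t b : ℝ} (ht : 0 ≤ t) (ht1 : t ≤ 1) (hb : 0 ≤ b) :
    ENNReal.ofReal (t ^ b) ≤ 1 := by
  rw [← ENNReal.ofReal_one]
  exact ENNReal.ofReal_le_ofReal (Real.rpow_le_one ht ht1 hb)

theorem ofReal_rpow_anti {t b b' : ℝ} (ht : 0 < t) (ht1 : t ≤ 1) (hb : b ≤ b') :
    ENNReal.ofReal (t ^ b') ≤ ENNReal.ofReal (t ^ b) :=
  ENNReal.ofReal_le_ofReal (Real.rpow_le_rpow_of_exponent_ge ht ht1 hb)

theorem one_le_exp_mul {lam t : ℝ} (hl : 0 ≤ lam) (ht : 0 ≤ t) :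
    1 ≤ ENNReal.ofReal (Real.exp (lam * t)) := by
  rw [← ENNReal.ofReal_one]
  apply ENNReal.ofReal_le_ofReal
  exact Real.one_le_exp (by positivity)

/-- `Duh` of a multiple of the absorbed weight -/
theorem Duh_WW_le (P : Par) {f : Fld} {A : ℝ≥0∞} (hA : A ≠ ⊤) {g1 g2 b lam : ℝ} (hb : 0 ≤ b)
    (hg2 : 0 ≤ g2) (hl : 1 ≤ lam) {t : ℝ} (ht : 0 < t) (ht1 : t ≤ 1) (x : P2) (v : R3)
    (hf : ∀ s ∈ Ioo 0 t, ∀ y, f s y v ≤ A * (ev v * (ENNReal.ofReal (Real.exp (lam * s)) *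
      (ENNReal.ofReal (s ^ b) * EE P g1 g2 s y v)))) :
    Duh f t x v ≤ A * ENNReal.ofReal (9 / √lam) * WW P g1 g2 b lam t x v := by
  have h1 : Duh f t x v ≤ A * Duh (fun s y z => ev z * (ENNReal.ofReal (Real.exp (lam * s)) *
      (ENNReal.ofReal (s ^ b) * EE P g1 g2 s y z))) t x v := by
    unfold Duh
    rw [← lintegral_const_mul' _ _ hA]
    exact setLIntegral_mono_ae' measurableSet_Ioo (Eventually.of_forall fun s hs => hf s hs _)
  refine h1.trans ?_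
  rw [WW_eq P g1 g2 b lam ht, mul_assoc]
  gcongr
  exact ND.Duh_lin_exp P hb hg2 hl ht ht1 x v

theorem WW_eq_top {P : Par} {g1 g2 b lam : ℝ} {t : ℝ} (ht : 0 < t) {x : P2} {v : R3}
    (hD : Dw P t x v ≤ 0) : WW P g1 g2 b lam t x v = ⊤ := by
  have h1 : Dm P t x v = ⊤ := by
    unfold Dm
    rw [ENNReal.ofReal_of_nonpos hD]
    exact ENNReal.zero_rpow_of_neg (by norm_num)
  rw [WW_eq P g1 g2 b lam ht, EE_eq, h1, ENNReal.mul_top, ENNReal.mul_top, ENNReal.mul_top]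
  · exact (ENNReal.ofReal_pos.2 (Real.exp_pos _)).ne'
  · exact (ENNReal.ofReal_pos.2 (Real.rpow_pos_of_pos ht _)).ne'
  · refine (ENNReal.ofReal_pos.2 ?_).ne'
    unfold gau
    positivity

theorem half_facts (CL : ℝ≥0∞) : (CL + 1)⁻¹ / 2 < 1 ∧ 1 - (1 - (CL + 1)⁻¹ / 2) = (CL + 1)⁻¹ / 2 := by
  have hδ1 : (CL + 1)⁻¹ ≤ 1 := by
    rw [ENNReal.inv_le_one]
    exact le_add_self
  have hδ2 : (CL + 1)⁻¹ / 2 < 1 := by
    refine lt_of_le_of_lt (ENNReal.div_le_div_right hδ1 2) ?_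
    rw [one_div]
    exact ENNReal.inv_lt_one.2 (by norm_num)
  exact ⟨hδ2, ENNReal.sub_sub_cancel ENNReal.one_ne_top hδ2.le⟩

/-- **Lipschitz estimate of the fixed point map on the ball** -/
theorem psi_lip (hOk : P.Ok) (hC : ColdInp P T V Cf Sf Mc Wm CC q) (hV : 0 ≤ V) (hT1 : T ≤ 1)
    (hq : 0 ≤ q) {g1' g2' b : ℝ} (hg2' : 0 ≤ g2') (hg : g1' + g2' ≤ 1) (hb : 0 ≤ b)
    (hK' : KInp P T Mc Wm q (g1' + g2') g1' g2' CK) {CL : ℝ≥0∞} (hCL : CL ≠ ⊤)
    (neu : ∀ t ∈ Ioc 0 T, ∀ x v,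
      ∑' m : ℕ, (TT P)^[m] (fun s y z => ENNReal.ofReal (s ^ b) * EE P g1' g2' s y z) t x v ≤
        CL * ENNReal.ofReal (t ^ b) * EE P g1' g2' t x v)
    {H0 : P2 → R3 → ℝ≥0∞} {H H' : Fld} (mH : Meas3 H) (pH : PerF H) (mH' : Meas3 H')
    (pH' : PerF H') {CB L0 : ℝ≥0∞} (hCB : CB ≠ ⊤) (hL0 : L0 ≠ ⊤)
    (bH : ∀ t ∈ Ioc 0 T, ∀ x v, H t x v ≤ CB * Zg P (g1' + g2') t x v)
    (bH' : ∀ t ∈ Ioc 0 T, ∀ x v, H' t x v ≤ CB * Zg P (g1' + g2') t x v)
    {lam : ℝ} (hl : 1 ≤ lam)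
    (hlam : CR V q g2' CC CK CB L0 * CL * ENNReal.ofReal (9 / √lam) ≤ (CL + 1)⁻¹ / 2)
    {d : ℝ≥0∞} (hd : d ≠ ⊤)
    (hdd : ∀ t ∈ Ioc 0 T, ∀ x v, dd (H t x v) (H' t x v) ≤ d * Wt P g1' g2' b lam t x v) :
    ∀ t ∈ Ioc 0 T, ∀ x v, dd (Psi P L0 Cf Sf H0 H t x v) (Psi P L0 Cf Sf H0 H' t x v) ≤
      (1 - (CL + 1)⁻¹ / 2) * d * Wt P g1' g2' b lam t x v := by
  intro t ht x v
  have hl0 : 0 ≤ lam := zero_le_one.trans hl
  have mφ : Meas3 (phiE P) := L.meas3_phiE hOk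
  have mL : Meas3 (LcF H) := meas3_LcF mH
  have pL : PerF (LcF H) := perF_LcF pH
  have mL' : Meas3 (LcF H') := meas3_LcF mH'
  have pL' : PerF (LcF H') := perF_LcF pH'
  have hCC := hC.CC_ne
  have hCK := hK'.ne
  have hCR : CR V q g2' CC CK CB L0 ≠ ⊤ := CR_ne_top hCC hCK hCB hL0
  -- the weight of the difference
  set w : ℝ → ℝ≥0∞ := fun s => d * CL * (ENNReal.ofReal (Real.exp (lam * s)) *
    ENNReal.ofReal (s ^ b)) with hw
  have mw : Measurable w := by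
    rw [hw]; fun_prop
  have hmono : ∀ s t, 0 < s → s ≤ t → t ≤ T → w s ≤ w t := by
    intro s t hs hst _
    simp only [hw]
    gcongr
  have wt : ∀ t ∈ Ioc 0 T, w t ≠ ⊤ := by
    intro t _
    simp only [hw]
    have h1 : ENNReal.ofReal (Real.exp (lam * t)) ≠ ⊤ := ENNReal.ofReal_ne_top
    have h2 : ENNReal.ofReal (t ^ b) ≠ ⊤ := ENNReal.ofReal_ne_top
    finiteness
  have bk : ∀ t ∈ Ioc 0 T, ∀ x v, ddF H H' t x v ≤ w t * EE P g1' g2' t x v := by
    intro t ht x v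
    refine (hdd t ht x v).trans ?_
    calc d * Wt P g1' g2' b lam t x v ≤ d * (CL * WW P g1' g2' b lam t x v) := by
          gcongr
          exact Wt_le hOk hl0 neu ht x v
      _ = _ := by
          rw [WW_eq P g1' g2' b lam ht.1]
          simp only [hw]
          ring
  have hrest := fun s (hs : s ∈ Ioo 0 t) (y : P2) =>
    restF_le (L0 := L0) hC hV hT1 hq hg2' hg hK' mH pH mH' pH' hCB bH bH' mw hmono wt bk
      ⟨hs.1, hs.2.le.trans ht.2⟩ y v
  have h1 := psi_lip_core (P := P) (L0 := L0) (H0 := H0) mφ mH mH' (hC.measC _ mL pL)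
    (hC.measC _ mL' pL') (hC.measS _ mL pL) (hC.measS _ mL' pL') t x v
  refine h1.trans ?_
  -- the linear part
  have h2 : TT P (ddF H H') t x v ≤ d * TT P (Wt P g1' g2' b lam) t x v := by
    rw [← TT_smul (Wt P g1' g2' b lam) hd t x v]
    exact TT_mono_lt (fun s hs y z => hdd s ⟨hs.1, hs.2.le.trans ht.2⟩ y z) x v
  have hA : CR V q g2' CC CK CB L0 * CL * d ≠ ⊤ := by finiteness
  have h3 : Duh (restF P L0 (Cf (LcF H)) (Cf (LcF H')) (Sf (LcF H)) (Sf (LcF H')) H H') t x v ≤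
      CR V q g2' CC CK CB L0 * CL * d * ENNReal.ofReal (9 / √lam) *
        WW P g1' g2' b lam t x v := by
    refine Duh_WW_le P hA hb hg2' hl ht.1 (ht.2.trans hT1) x v (fun s hs y => ?_)
    refine (hrest s hs y).trans (le_of_eq ?_)
    simp only [hw]
    ring
  calc _ ≤ d * TT P (Wt P g1' g2' b lam) t x v +
        CR V q g2' CC CK CB L0 * CL * d * ENNReal.ofReal (9 / √lam) *
          WW P g1' g2' b lam t x v := add_le_add h2 h3
    _ = d * (TT P (Wt P g1' g2' b lam) t x v +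
        CR V q g2' CC CK CB L0 * CL * ENNReal.ofReal (9 / √lam) * WW P g1' g2' b lam t x v) := by
        ring
    _ ≤ d * (TT P (Wt P g1' g2' b lam) t x v +
        (CL + 1)⁻¹ / 2 * Wt P g1' g2' b lam t x v) := by
        gcongr
        exact WW_le_Wt hOk g1' g2' b lam t x v
    _ ≤ d * ((1 - (CL + 1)⁻¹ / 2) * Wt P g1' g2' b lam t x v) := by
        gcongr
        exact Wt_absorb hOk hl0 hCL neu ht x v
    _ = _ := by ring

/-- **the starting point is an approximate fixed point** -/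
theorem psi_start (hOk : P.Ok) (hC : ColdInp P T V Cf Sf Mc Wm CC q) (hV : 0 ≤ V) (hT1 : T ≤ 1)
    (hq : 0 ≤ q) {β g0 g1 g2 g1' g2' a b : ℝ} (hβ : 0 ≤ β) (hg2' : 0 ≤ g2') (hgg1 : g1' ≤ g1)
    (hgg2 : g2' < g2) (hg : g1' + g2' ≤ 1) (hg0 : g1 + g2 ≤ g0) (hb0 : 0 ≤ b)
    (hb : b ≤ 2 * (a - 2)) (hbβ : b ≤ β) (hbq : b ≤ q) (ha : 2 < a)
    (hK : KInp P T Mc Wm q g0 g1 g2 CK) (hK' : KInp P T Mc Wm q (g1' + g2') g1' g2' CK)
    {H0 : P2 → R3 → ℝ≥0∞} {H1 : Fld} (h1 : HotSol P Cf Sf H0 T H1) {C1 : ℝ≥0∞} (hC1 : C1 ≠ ⊤)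
    (hH1 : ∀ t ∈ Ioc 0 T, ∀ x v, H1 t x v ≤ C1 * tx β t x * Zg P g0 t x v)
    {Hs : Fld} {CL : ℝ≥0∞} (hL : LInp P T Hs g1 g2 g1' g2' a b CL) {L0 : ℝ≥0∞} (hL0 : L0 ≠ ⊤)
    (hloss : ∀ t ∈ Ioc 0 T, ∀ x v, lossH (Cf (LcF H1)) H1 t x v ≤ nuT P L0 t x v)
    {ε : ℝ≥0∞} (hε0 : ε ≠ 0) (hε1 : ε ≤ 1) {lam : ℝ} (hl : 1 ≤ lam)
    (hlam : CS V q β g2 g2' CC CK C1 * (CL * (2 + CL)) * ENNReal.ofReal (9 / √lam) ≤
      (CL + 1)⁻¹ / 2) :
    ∀ t ∈ Ioc 0 T, ∀ x v,
      dd (Psi P L0 Cf Sf H0 (addF H1 (fun s y z => ε * Hs s y z)) t x v)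
        (addF H1 (fun s y z => ε * Hs s y z) t x v) ≤
      (1 - (1 - (CL + 1)⁻¹ / 2)) * ε * Wt P g1' g2' b lam t x v := by
  intro t ht x v
  obtain ⟨hδ2, hδ3⟩ := half_facts CL
  have hCL := hL.ne
  have hl0 : 0 ≤ lam := zero_le_one.trans hl
  have hct : CL + 1 ≠ ⊤ := by finiteness
  rw [hδ3]
  rcases le_or_gt (Dw P t x v) 0 with hD | hD
  · -- `D = 0`: the weight is infinite
    have hW : Wt P g1' g2' b lam t x v = ⊤ := by
      refine top_le_iff.1 ?_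
      rw [← WW_eq_top (g1 := g1') (g2 := g2') (b := b) (lam := lam) ht.1 hD]
      exact WW_le_Wt hOk g1' g2' b lam t x v
    rw [hW, ENNReal.mul_top]
    · exact le_top
    · refine mul_ne_zero ?_ hε0
      exact (ENNReal.div_pos (ENNReal.inv_ne_zero.2 hct) (by norm_num)).ne'
  have hεt : ε ≠ ⊤ := ne_top_of_le_ne_top ENNReal.one_ne_top hε1
  have mφ : Meas3 (phiE P) := L.meas3_phiE hOk
  set k : Fld := fun s y z => ε * Hs s y z with hk
  have mk : Meas3 k := Measurable.const_mul hL.meas ε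
  have pk : PerF k := by
    intro s z y i
    simp only [hk]
    rw [show Hs s (y + latt i) z = Hs s y z from hL.per s z y i]
  have mu : Meas3 (addF H1 k) := meas3_addF h1.meas mk
  have pu : PerF (addF H1 k) := fun s z y i => by
    have e1 : H1 s (y + latt i) z = H1 s y z := h1.per s z y i
    have e2 : k s (y + latt i) z = k s y z := pk s z y i
    show addF H1 k s (y + latt i) z = addF H1 k s y z
    unfold addF
    rw [e1, e2]
  have mL : Meas3 (LcF (addF H1 k)) := meas3_LcF mu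
  have pL : PerF (LcF (addF H1 k)) := perF_LcF pu
  have mL1 : Meas3 (LcF H1) := meas3_LcF h1.meas
  have pL1 : PerF (LcF H1) := perF_LcF h1.per
  have mn : Meas3 (nuT P L0) := meas3_nuT mφ L0
  have mnu : Meas3 (nuf P) := meas3_nuf mφ
  set c := Cf (LcF (addF H1 k)) with hc
  set c1 := Cf (LcF H1) with hc1
  set sp := Sf (LcF (addF H1 k)) with hsp
  set sp1 := Sf (LcF H1) with hsp1
  have mc : Meas3 c := hC.measC _ mL pL
  have mc1 : Meas3 c1 := hC.measC _ mL1 pL1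
  have ms : Meas3 sp := hC.measS _ mL pL
  have ms1 : Meas3 sp1 := hC.measS _ mL1 pL1
  have mG : Meas3 (Gf P k) := meas3_Gf mφ mk
  -- sources
  set S0 : Fld := fun s y z => gainH c sp (addF H1 k) s y z +
    (nuT P L0 s y z - lossH c (addF H1 k) s y z) * addF H1 k s y z with hS0
  set S1 : Fld := fun s y z => gainH c1 sp1 H1 s y z +
    (nuT P L0 s y z - lossH c1 H1 s y z) * H1 s y z with hS1
  set S2 : Fld := fun s y z => Gf P k s y z + (nuT P L0 s y z - nuf P s y z) * k s y z with hS2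
  have mS0 : Meas3 S0 := Measurable.add (meas3_gainH mc ms mu)
    (Measurable.mul (Measurable.sub mn (meas3_lossH mc mu)) mu)
  have mS1 : Meas3 S1 := Measurable.add (meas3_gainH mc1 ms1 h1.meas)
    (Measurable.mul (Measurable.sub mn (meas3_lossH mc1 h1.meas)) h1.meas)
  have mS2 : Meas3 S2 := Measurable.add mG (Measurable.mul (Measurable.sub mn mnu) mk)
  -- `H1` is a fixed point
  have e1 : H1 t x v = Dat (nuT P L0) H0 t x v + Dam (nuT P L0) S1 t x v := by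
    have := HotSol.eq_Psi mφ hC hK hL0 h1 hloss t ht x v hD
    rw [Psi_eq] at this
    exact this
  -- the equation of `k` with the rate `nuT`
  have e2 : k t x v = Dam (nuT P L0) S2 t x v := by
    have h3 : ∀ s ∈ Ioc 0 t, k s (x - (t - s) • bar v) v =
        Dat (nuf P) (fun _ _ => 0) s (x - (t - s) • bar v) v +
          Dam (nuf P) (Gf P k) s (x - (t - s) • bar v) v := by
      intro s hs
      have h4 := hL.eqn s ⟨hs.1, hs.2.trans ht.2⟩ (x - (t - s) • bar v) v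
      have h5 : Dat (nuf P) (fun _ _ => 0) s (x - (t - s) • bar v) v = 0 := by
        unfold Dat; simp
      rw [h5, zero_add]
      show ε * Hs s (x - (t - s) • bar v) v = TT P k s (x - (t - s) • bar v) v
      rw [h4]
      exact (TT_smul Hs hεt s _ v).symm
    have h6 := change_rate_flight' (n := nuf P) (n' := nuT P L0) (q := Gf P k) (H := k)
      (h0 := fun _ _ => 0) mnu mn mG ht.1 (fun s _ => le_self_add) h3
      (fun r hr _ => acc_nuT_ne_top hC hK hL0 ht.2 x v hr)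
    rw [h6]
    have h7 : Dat (nuT P L0) (fun _ _ => 0) t x v = 0 := by
      unfold Dat; simp
    rw [h7, zero_add]
  have e3 : addF H1 k t x v = Dat (nuT P L0) H0 t x v +
      Dam (nuT P L0) (fun s y z => S1 s y z + S2 s y z) t x v := by
    rw [Dam_add' mn mS1 t x v]
    unfold addF
    rw [← add_assoc, ← e1, ← e2]
  have e4 : Psi P L0 Cf Sf H0 (addF H1 k) t x v = Dat (nuT P L0) H0 t x v +
      Dam (nuT P L0) S0 t x v := Psi_eq P L0 Cf Sf H0 (addF H1 k) t x v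
  rw [e3, e4]
  refine (dd_add_add _ _ _ _).trans ?_
  rw [dd_self, zero_add]
  -- pointwise estimate of the sources
  have h8 : dd (Dam (nuT P L0) S0 t x v) (Dam (nuT P L0) (fun s y z => S1 s y z + S2 s y z) t x v) ≤
      Dam (nuT P L0) (rest0F P c c1 sp sp1 H1 k (addF H1 k)) t x v := by
    have mS12 : Meas3 (fun s y z => S1 s y z + S2 s y z) := Measurable.add mS1 mS2
    refine dd_Dam_le mn mS0 mS12 (fun s _ => ?_)
    exact dd_source0 (mφ.slice _ _) (mc.slice _ _) (mc1.slice _ _) (h1.meas.slice _ _)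
      (mk.slice _ _) v
  refine h8.trans ((Dam_le_Duh _ _ _ _ _).trans ?_)
  -- the bound of the remainder
  set κ : ℝ → ℝ≥0∞ := fun s => ε * CL * ENNReal.ofReal (s ^ (a - 2)) with hκdef
  have mκ : Measurable κ := by rw [hκdef]; fun_prop
  have ha2 : 0 ≤ a - 2 := by linarith
  have hκ : ∀ s t, 0 < s → s ≤ t → t ≤ T → κ s ≤ κ t := by
    intro s t hs hst _
    simp only [hκdef]
    gcongr
  have κt : ∀ t ∈ Ioc 0 T, κ t ≠ ⊤ := by
    intro t _
    simp only [hκdef]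
    have h2 : ENNReal.ofReal (t ^ (a - 2)) ≠ ⊤ := ENNReal.ofReal_ne_top
    finiteness
  have bk : ∀ t ∈ Ioc 0 T, ∀ x v, k t x v ≤ κ t * EE P g1 g2 t x v := by
    intro t ht x v
    simp only [hk, hκdef]
    calc ε * Hs t x v ≤ ε * (CL * ENNReal.ofReal (t ^ (a - 2)) * EE P g1 g2 t x v) := by
          gcongr; exact hL.le t ht x v
      _ = _ := by ring
  have hCS : CS V q β g2 g2' CC CK C1 ≠ ⊤ := CS_ne_top hC.CC_ne hK.ne hC1
  have hA : CS V q β g2 g2' CC CK C1 * (CL * (2 + CL)) * ε ≠ ⊤ := by finiteness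
  have h9 : Duh (rest0F P c c1 sp sp1 H1 k (addF H1 k)) t x v ≤
      CS V q β g2 g2' CC CK C1 * (CL * (2 + CL)) * ε * ENNReal.ofReal (9 / √lam) *
        WW P g1' g2' b lam t x v := by
    refine Duh_WW_le P hA hb0 hg2' hl ht.1 (ht.2.trans hT1) x v (fun s hs y => ?_)
    have hs1 : s ≤ 1 := (hs.2.le.trans ht.2).trans hT1
    refine (rest0F_le hC hV hT1 hq hβ hg2' hgg1 hgg2 hg hg0 hK hK' h1.meas h1.per mk pk hC1 hH1
      mκ hκ κt bk ⟨hs.1, hs.2.le.trans ht.2⟩ y v).trans ?_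
    have i1 : κ s ≤ ε * CL := by
      simp only [hκdef]
      calc ε * CL * ENNReal.ofReal (s ^ (a - 2)) ≤ ε * CL * 1 := by
            gcongr; exact ofReal_rpow_le_one hs.1.le hs1 ha2
        _ = _ := mul_one _
    have i2 : κ s * κ s ≤ ε * CL * CL * ENNReal.ofReal (s ^ b) := by
      simp only [hκdef]
      have i3 : ENNReal.ofReal (s ^ (a - 2)) * ENNReal.ofReal (s ^ (a - 2)) ≤
          ENNReal.ofReal (s ^ b) := by
        rw [← ENNReal.ofReal_mul (Real.rpow_nonneg hs.1.le _), ← Real.rpow_add hs.1]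
        exact ofReal_rpow_anti hs.1 hs1 (by linarith)
      calc ε * CL * ENNReal.ofReal (s ^ (a - 2)) * (ε * CL * ENNReal.ofReal (s ^ (a - 2)))
          = ε * CL * (ε * CL) * (ENNReal.ofReal (s ^ (a - 2)) * ENNReal.ofReal (s ^ (a - 2))) := by
            ring
        _ ≤ ε * CL * (1 * CL) * ENNReal.ofReal (s ^ b) := by gcongr
        _ = _ := by ring
    have i4 : κ s * (ENNReal.ofReal (s ^ β) + ENNReal.ofReal (s ^ q) + κ s) ≤
        ε * (CL * (2 + CL)) * ENNReal.ofReal (s ^ b) := by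
      calc κ s * (ENNReal.ofReal (s ^ β) + ENNReal.ofReal (s ^ q) + κ s)
          = κ s * (ENNReal.ofReal (s ^ β) + ENNReal.ofReal (s ^ q)) + κ s * κ s := by ring
        _ ≤ ε * CL * (ENNReal.ofReal (s ^ b) + ENNReal.ofReal (s ^ b)) +
            ε * CL * CL * ENNReal.ofReal (s ^ b) := by
            gcongr ?_ * (?_ + ?_) + ?_
            · exact ofReal_rpow_anti hs.1 hs1 hbβ
            · exact ofReal_rpow_anti hs.1 hs1 hbq
        _ = _ := by ring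
    have i5 : 1 ≤ ENNReal.ofReal (Real.exp (lam * s)) := one_le_exp_mul hl0 hs.1.le
    calc CS V q β g2 g2' CC CK C1 * (ev v * (κ s *
          (ENNReal.ofReal (s ^ β) + ENNReal.ofReal (s ^ q) + κ s) * EE P g1' g2' s y v))
        ≤ CS V q β g2 g2' CC CK C1 * (ev v * (ε * (CL * (2 + CL)) * ENNReal.ofReal (s ^ b) *
          EE P g1' g2' s y v)) := by gcongr
      _ = CS V q β g2 g2' CC CK C1 * (CL * (2 + CL)) * ε * (ev v * (1 *
          (ENNReal.ofReal (s ^ b) * EE P g1' g2' s y v))) := by ring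
      _ ≤ _ := by gcongr
  refine h9.trans ?_
  calc CS V q β g2 g2' CC CK C1 * (CL * (2 + CL)) * ε * ENNReal.ofReal (9 / √lam) *
        WW P g1' g2' b lam t x v
      = (CS V q β g2 g2' CC CK C1 * (CL * (2 + CL)) * ENNReal.ofReal (9 / √lam)) * ε *
        WW P g1' g2' b lam t x v := by ring
    _ ≤ (CL + 1)⁻¹ / 2 * ε * Wt P g1' g2' b lam t x v := by
        gcongr
        exact WW_le_Wt hOk g1' g2' b lam t x v

theorem Wt_le' (hOk : P.Ok) (hT1 : T ≤ 1) {g1 g2 b lam : ℝ} (hl : 0 ≤ lam) {CL : ℝ≥0∞}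
    (neu : ∀ t ∈ Ioc 0 T, ∀ x v,
      ∑' m : ℕ, (TT P)^[m] (fun s y z => ENNReal.ofReal (s ^ b) * EE P g1 g2 s y z) t x v ≤
        CL * ENNReal.ofReal (t ^ b) * EE P g1 g2 t x v)
    {t : ℝ} (ht : t ∈ Ioc 0 T) (x : P2) (v : R3) :
    Wt P g1 g2 b lam t x v ≤
      CL * ENNReal.ofReal (Real.exp lam) * (ENNReal.ofReal (t ^ b) * EE P g1 g2 t x v) := by
  refine (Wt_le hOk hl neu ht x v).trans ?_
  rw [WW_eq P g1 g2 b lam ht.1, mul_assoc]
  gcongr
  nlinarith [ht.1, ht.2]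

/-- **Part N without the non-uniqueness statement** -/
theorem N_main_pre
    {CL C1 : ℝ≥0∞} {g0 g1 g2 g1' g2' a b β : ℝ}
    (hOk : P.Ok) (hT1 : T ≤ 1) (hV : 0 ≤ V)
    (hg2 : 0 < g2') (hg1' : g1' + g2' ≤ 1) (hgg1 : g1' < g1) (hgg2 : g2' < g2)
    (hg0 : g1 + g2 ≤ g0)
    (hb0 : 0 < b) (hb : b ≤ 2 * (a - 2)) (hbβ : b ≤ β) (hbq : b ≤ q)
    (ha : 2 < a)
    (hC : ColdInp P T V Cf Sf Mc Wm CC q)
    (hK : KInp P T Mc Wm q g0 g1 g2 CK) (hK' : KInp P T Mc Wm q (g1' + g2') g1' g2' CK)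
    {H0 : P2 → R3 → ℝ≥0∞} (mH0 : Measurable (fun p : P2 × R3 => H0 p.1 p.2))
    (pH0 : ∀ v, PerG (fun x => H0 x v))
    {H1 : Fld} (h1 : HotSol P Cf Sf H0 T H1) (hC1 : C1 ≠ ⊤)
    (hH1 : ∀ t ∈ Ioc 0 T, ∀ x v, H1 t x v ≤ C1 * tx β t x * Zg P g0 t x v)
    {Hs : Fld} (hL : LInp P T Hs g1 g2 g1' g2' a b CL)
    {ε0 : ℝ≥0∞} (hε0 : 0 < ε0) :
    ∃ (H2 : Fld) (ε : ℝ≥0∞) (lam : ℝ), ε ≠ 0 ∧ ε ≠ ⊤ ∧ 1 ≤ lam ∧ HotSol P Cf Sf H0 T H2 ∧
      (∀ t ∈ Ioc 0 T, ∀ x v, dd (H2 t x v) (addF H1 (fun s y z => ε * Hs s y z) t x v) ≤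
        ε * Wt P g1' g2' b lam t x v) ∧
      (∀ t ∈ Ioc 0 T, ∀ x v, dd (H1 t x v) (H2 t x v) ≤
        ε0 * ENNReal.ofReal (t ^ (min b (a - 2))) * EE P g1' g2' t x v) := by
  have hq : 0 ≤ q := hb0.le.trans hbq
  have hβ : 0 ≤ β := hb0.le.trans hbβ
  have ha2 : 0 ≤ a - 2 := by linarith
  have hCL := hL.ne
  have hCK := hK.ne
  have hCC := hC.CC_ne
  have mφ : Meas3 (phiE P) := L.meas3_phiE hOk
  have pφ : PerF (phiE P) := L.perG_phiE P
  -- constants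
  set CB : ℝ≥0∞ := C1 * ENNReal.ofReal (2 ^ β) + CL + 1 with hCBdef
  have h2β : ENNReal.ofReal (2 ^ β) ≠ ⊤ := ENNReal.ofReal_ne_top
  have hCB : CB ≠ ⊤ := by rw [hCBdef]; finiteness
  have h2q : ENNReal.ofReal (2 ^ q) ≠ ⊤ := ENNReal.ofReal_ne_top
  have h1V : ENNReal.ofReal (1 + V) ≠ ⊤ := ENNReal.ofReal_ne_top
  set F : ℝ≥0∞ := CB * CK * ENNReal.ofReal (1 + V) + ENNReal.ofReal (2 ^ q) + 1 with hF
  have hFt : F ≠ ⊤ := by rw [hF]; finiteness
  set L0 : ℝ≥0∞ := CC * F * CK + CB * CK with hL0def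
  have hL0 : L0 ≠ ⊤ := by rw [hL0def]; finiteness
  have hCR : CR V q g2' CC CK CB L0 ≠ ⊤ := CR_ne_top hCC hCK hCB hL0
  have hCS : CS V q β g2 g2' CC CK C1 ≠ ⊤ := CS_ne_top hCC hCK hC1
  have hct : CL + 1 ≠ ⊤ := by finiteness
  obtain ⟨hδ2, hδ3⟩ := half_facts CL
  have hδ0 : (CL + 1)⁻¹ / 2 ≠ 0 :=
    (ENNReal.div_pos (ENNReal.inv_ne_zero.2 hct) (by norm_num)).ne'
  -- choice of `λ`
  obtain ⟨lam, hl, hlam⟩ := exists_lam (A := CR V q g2' CC CK CB L0 * CL +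
    CS V q β g2 g2' CC CK C1 * (CL * (2 + CL))) (by finiteness) hδ0
  have hl0 : 0 ≤ lam := zero_le_one.trans hl
  have hlam1 : CR V q g2' CC CK CB L0 * CL * ENNReal.ofReal (9 / √lam) ≤ (CL + 1)⁻¹ / 2 :=
    le_trans (by gcongr; exact le_self_add) hlam
  have hlam2 : CS V q β g2 g2' CC CK C1 * (CL * (2 + CL)) * ENNReal.ofReal (9 / √lam) ≤
      (CL + 1)⁻¹ / 2 :=
    le_trans (by gcongr; exact le_add_self) hlam
  -- choice of `ε`
  have hexp : ENNReal.ofReal (Real.exp lam) ≠ ⊤ := ENNReal.ofReal_ne_top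
  set M : ℝ≥0∞ := CL + CL * ENNReal.ofReal (Real.exp lam) + 1 with hM
  have hMt : M ≠ ⊤ := by rw [hM]; finiteness
  have hM0 : M ≠ 0 := by rw [hM]; simp
  have hM1 : 1 ≤ M := le_add_self
  set m0 : ℝ≥0∞ := min ε0 1 with hm0
  have hm00 : m0 ≠ 0 := (lt_min hε0 zero_lt_one).ne'
  have hm01 : m0 ≤ 1 := min_le_right _ _
  have hm0t : m0 ≠ ⊤ := ne_top_of_le_ne_top ENNReal.one_ne_top hm01
  set ε : ℝ≥0∞ := m0 / M with hε
  have hε00 : ε ≠ 0 := (ENNReal.div_pos hm00 hMt).ne'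
  have hεM : ε * M = m0 := ENNReal.div_mul_cancel hM0 hMt
  have hε1 : ε ≤ 1 := by
    calc ε = ε * 1 := (mul_one _).symm
      _ ≤ ε * M := by gcongr
      _ = m0 := hεM
      _ ≤ 1 := hm01
  have hεt : ε ≠ ⊤ := ne_top_of_le_ne_top ENNReal.one_ne_top hε1
  have hεCLe : ε * (CL * ENNReal.ofReal (Real.exp lam)) ≤ 1 := by
    calc ε * (CL * ENNReal.ofReal (Real.exp lam)) ≤ ε * M := by
          gcongr
          rw [hM]
          exact le_trans (le_add_self) (le_self_add)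
      _ = m0 := hεM
      _ ≤ 1 := hm01
  have hεCL : ε * CL ≤ CL := by
    calc ε * CL ≤ 1 * CL := by gcongr
      _ = CL := one_mul _
  -- the starting point
  set k : Fld := fun s y z => ε * Hs s y z with hk
  have mk : Meas3 k := Measurable.const_mul hL.meas ε
  have pk : PerF k := by
    intro s z y i
    simp only [hk]
    rw [show Hs s (y + latt i) z = Hs s y z from hL.per s z y i]
  set u0 : Fld := addF H1 k with hu0
  have mu : Meas3 u0 := meas3_addF h1.meas mk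
  have pu : PerF u0 := fun s z y i => by
    have e1 : H1 s (y + latt i) z = H1 s y z := h1.per s z y i
    have e2 : k s (y + latt i) z = k s y z := pk s z y i
    show addF H1 k s (y + latt i) z = addF H1 k s y z
    unfold addF
    rw [e1, e2]
  -- bounds
  have hg0' : g1' + g2' ≤ g0 := by linarith
  have bH1 : ∀ t ∈ Ioc 0 T, ∀ x v, H1 t x v ≤
      C1 * ENNReal.ofReal (2 ^ β) * Zg P (g1' + g2') t x v := by
    intro t ht x v
    refine (hH1 t ht x v).trans ?_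
    gcongr
    · exact tx_le_const hβ ht.1.le (ht.2.trans hT1) x
    · exact Zg_anti P hg0' x v
  have bH1' : ∀ t ∈ Ioc 0 T, ∀ x v, H1 t x v ≤ CB * Zg P (g1' + g2') t x v := by
    intro t ht x v
    refine (bH1 t ht x v).trans ?_
    gcongr
    rw [hCBdef, add_assoc]
    exact le_self_add
  have bS : ∀ H, SS T ε u0 (Wt P g1' g2' b lam) H → ∀ t ∈ Ioc 0 T, ∀ x v,
      H t x v ≤ CB * Zg P (g1' + g2') t x v := by
    intro H hH t ht x v
    have hZ : EE P g1' g2' t x v ≤ Zg P (g1' + g2') t x v := EE_le_Zg P hg2.le x v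
    have h3 : H t x v ≤ u0 t x v + ε * Wt P g1' g2' b lam t x v :=
      (le_add_dd _ _).trans (add_le_add le_rfl (hH.2.2 t ht x v))
    have h4 : ε * Wt P g1' g2' b lam t x v ≤ 1 * Zg P (g1' + g2') t x v := by
      calc ε * Wt P g1' g2' b lam t x v ≤ ε * (CL * ENNReal.ofReal (Real.exp lam) *
            (ENNReal.ofReal (t ^ b) * EE P g1' g2' t x v)) := by
            gcongr
            exact Wt_le' hOk hT1 hl0 hL.neu ht x v
        _ = ε * (CL * ENNReal.ofReal (Real.exp lam)) *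
            (ENNReal.ofReal (t ^ b) * EE P g1' g2' t x v) := by ring
        _ ≤ 1 * (1 * EE P g1' g2' t x v) := by
            gcongr
            exact ofReal_rpow_le_one ht.1.le (ht.2.trans hT1) hb0.le
        _ = 1 * EE P g1' g2' t x v := by rw [one_mul]
        _ ≤ _ := by gcongr
    have h5 : k t x v ≤ CL * Zg P (g1' + g2') t x v := by
      simp only [hk]
      calc ε * Hs t x v ≤ ε * (CL * ENNReal.ofReal (t ^ (a - 2)) * EE P g1 g2 t x v) := by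
            gcongr
            exact hL.le t ht x v
        _ = ε * CL * ENNReal.ofReal (t ^ (a - 2)) * EE P g1 g2 t x v := by ring
        _ ≤ CL * 1 * EE P g1' g2' t x v := by
            gcongr
            · exact ofReal_rpow_le_one ht.1.le (ht.2.trans hT1) ha2
            · exact EE_mono P hgg1.le hgg2.le x v
        _ ≤ CL * Zg P (g1' + g2') t x v := by
            rw [mul_one]
            gcongr
    calc H t x v ≤ u0 t x v + ε * Wt P g1' g2' b lam t x v := h3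
      _ ≤ (C1 * ENNReal.ofReal (2 ^ β) * Zg P (g1' + g2') t x v +
          CL * Zg P (g1' + g2') t x v) + 1 * Zg P (g1' + g2') t x v := by
          refine add_le_add (add_le_add (bH1 t ht x v) h5) h4
      _ = _ := by rw [hCBdef]; ring
  -- the fixed point
  have hth : 1 - (CL + 1)⁻¹ / 2 < 1 :=
    ENNReal.sub_lt_self ENNReal.one_ne_top one_ne_zero hδ0
  have hloss1 : ∀ t ∈ Ioc 0 T, ∀ x v, lossH (Cf (LcF H1)) H1 t x v ≤ nuT P L0 t x v :=
    fun t ht x v => (loss_bds hOk hC hT1 hq hK' h1.meas h1.per hCB bH1' ht x v).1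
  obtain ⟨H2, hS2, hfix⟩ := exists_fix (T := T) (th := 1 - (CL + 1)⁻¹ / 2) (rho := ε) (u0 := u0)
    (W' := Wt P g1' g2' b lam) (L0 := L0) (Cf := Cf) (Sf := Sf) mφ pφ
    (fun lam m p => ⟨hC.measC lam m p, hC.perC lam m p⟩)
    (fun lam m p => ⟨hC.measS lam m p, hC.perS lam m p⟩) mH0 pH0 hth hε00 hεt mu pu
    (fun H H' hH hH' d hd hdd =>
      psi_lip hOk hC hV hT1 hq hg2.le hg1' hb0.le hK' hCL hL.neu hH.1 hH.2.1 hH'.1 hH'.2.1
        hCB hL0 (bS H hH) (bS H' hH') hl hlam1 hd hdd)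
    (psi_start hOk hC hV hT1 hq hβ hg2.le hgg1.le hgg2 hg1' hg0 hb0.le hb hbβ hbq ha hK hK' h1
      hC1 hH1 hL hL0 hloss1 hε00 hε1 hl hlam2)
  have bH2 := bS H2 hS2
  have hWt : ∀ t ∈ Ioc 0 T, ∀ x v, 0 < Dw P t x v → Wt P g1' g2' b lam t x v ≠ ⊤ := by
    intro t ht x v hD
    refine ne_top_of_le_ne_top ?_ (Wt_le' hOk hT1 hl0 hL.neu ht x v)
    have h3 : Dm P t x v ≠ ⊤ := Dm_ne_top hD
    have h4 : EE P g1' g2' t x v ≠ ⊤ := by
      rw [EE_eq]
      exact ENNReal.mul_ne_top ENNReal.ofReal_ne_top h3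
    exact ENNReal.mul_ne_top (by finiteness) (ENNReal.mul_ne_top ENNReal.ofReal_ne_top h4)
  have hsol : HotSol P Cf Sf H0 T H2 :=
    HotSol_of_Psi mφ hC hS2.1 hS2.2.1 (fun t ht x v hD => hfix t ht x v (hWt t ht x v hD))
      (fun t ht x v => (loss_bds hOk hC hT1 hq hK' hS2.1 hS2.2.1 hCB bH2 ht x v).1)
      (C3 := CC * F * CK + L0) (by finiteness)
      (fun t ht x v => (loss_bds hOk hC hT1 hq hK' hS2.1 hS2.2.1 hCB bH2 ht x v).2 L0)
      hCB bH2
  refine ⟨H2, ε, lam, hε00, hεt, hl, hsol, hS2.2.2, fun t ht x v => ?_⟩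
  have ht1 : t ≤ 1 := ht.2.trans hT1
  have h3 : dd (H1 t x v) (u0 t x v) ≤ k t x v := by
    rw [dd_comm]; exact dd_self_add _ _
  have h4 : dd (u0 t x v) (H2 t x v) ≤ ε * Wt P g1' g2' b lam t x v := by
    rw [dd_comm]; exact hS2.2.2 t ht x v
  have hmin1 : ENNReal.ofReal (t ^ b) ≤ ENNReal.ofReal (t ^ (min b (a - 2))) :=
    ofReal_rpow_anti ht.1 ht1 (min_le_left _ _)
  have hmin2 : ENNReal.ofReal (t ^ (a - 2)) ≤ ENNReal.ofReal (t ^ (min b (a - 2))) :=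
    ofReal_rpow_anti ht.1 ht1 (min_le_right _ _)
  calc dd (H1 t x v) (H2 t x v) ≤ dd (H1 t x v) (u0 t x v) + dd (u0 t x v) (H2 t x v) :=
        dd_triangle _ _ _
    _ ≤ ε * (CL * ENNReal.ofReal (t ^ (a - 2)) * EE P g1 g2 t x v) +
        ε * (CL * ENNReal.ofReal (Real.exp lam) *
          (ENNReal.ofReal (t ^ b) * EE P g1' g2' t x v)) := by
        refine add_le_add (h3.trans ?_) (h4.trans ?_)
        · simp only [hk]
          gcongr
          exact hL.le t ht x v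
        · gcongr
          exact Wt_le' hOk hT1 hl0 hL.neu ht x v
    _ ≤ ε * (CL * ENNReal.ofReal (t ^ (min b (a - 2))) * EE P g1' g2' t x v) +
        ε * (CL * ENNReal.ofReal (Real.exp lam) *
          (ENNReal.ofReal (t ^ (min b (a - 2))) * EE P g1' g2' t x v)) := by
        gcongr
        exact EE_mono P hgg1.le hgg2.le x v
    _ = ε * (CL + CL * ENNReal.ofReal (Real.exp lam)) *
        (ENNReal.ofReal (t ^ (min b (a - 2))) * EE P g1' g2' t x v) := by ring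
    _ ≤ ε * M * (ENNReal.ofReal (t ^ (min b (a - 2))) * EE P g1' g2' t x v) := by
        gcongr
        rw [hM]
        exact le_self_add
    _ ≤ ε0 * (ENNReal.ofReal (t ^ (min b (a - 2))) * EE P g1' g2' t x v) := by
        rw [hεM]
        gcongr
        exact min_le_left _ _
    _ = _ := by ring

end Crest.Agent.R68.N
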