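import Crest.Agent.R68.NLip
import Crest.Agent.R68.K3

/-!
# Row 68, PART N (helper621): weights
-/

set_option autoImplicit false
open MeasureTheory Set Filter
open scoped ENNReal Topology
open Crest.AnalysisR.VecCalc3 Crest.AnalysisR.PDE.Boltzmann

noncomputable section

namespace Crest.Agent.R68.N

open Crest.Agent.R68.A (en Meas3)

/-! ### comparison of the weights -/

theorem EE_eq (P : Par) (g1 g2 t : ℝ) (x : P2) (v : R3) :
    EE P g1 g2 t x v = ENNReal.ofReal (gau g1 t v *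
      Real.exp (-g2 * (max ‖v‖ (distG x / t)) ^ 2)) * Dm P t x v := by
  unfold EE B2
  rw [Real.rpow_zero, one_mul]

theorem max_sq_le {a b : ℝ} (ha : 0 ≤ a) (hb : 0 ≤ b) : (max a b) ^ 2 ≤ a ^ 2 + b ^ 2 := by
  rcases le_total a b with h | h
  · rw [max_eq_right h]; nlinarith [sq_nonneg a]
  · rw [max_eq_left h]; nlinarith [sq_nonneg b]

theorem z_nonneg {t : ℝ} (ht : 0 ≤ t) (x : P2) : 0 ≤ distG x / t := div_nonneg (distG_nonneg x) ht

/-- (W1) -/
theorem ez2_mul_Zg (P : Par) {g1 g2 t : ℝ} (hg2 : 0 ≤ g2) (ht : 0 ≤ t) (x : P2) (v : R3) :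
    ez2 g2 t x * Zg P (g1 + g2) t x v ≤ EE P g1 g2 t x v := by
  rw [EE_eq]
  unfold ez2 Zg
  rw [← mul_assoc, ← ENNReal.ofReal_mul (Real.exp_pos _).le]
  gcongr ENNReal.ofReal ?_ * _
  have h := max_sq_le (norm_nonneg v) (z_nonneg ht x)
  unfold gau
  rw [← Real.exp_add, ← Real.exp_add]
  apply Real.exp_le_exp.2
  nlinarith

/-- (W2) -/
theorem exp_mul_ez2 (P : Par) {g1 g2 t : ℝ} (hg2 : 0 ≤ g2) (hg : g1 + g2 ≤ 1) (ht : 0 ≤ t)
    (x : P2) (v : R3) :
    ENNReal.ofReal (Real.exp (-‖v‖ ^ 2)) * ez2 g2 t x ≤ EE P g1 g2 t x v := by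
  rw [EE_eq]
  calc ENNReal.ofReal (Real.exp (-‖v‖ ^ 2)) * ez2 g2 t x
      ≤ ENNReal.ofReal (gau g1 t v * Real.exp (-g2 * (max ‖v‖ (distG x / t)) ^ 2)) * 1 := by
        rw [mul_one]
        unfold ez2
        rw [← ENNReal.ofReal_mul (Real.exp_pos _).le]
        apply ENNReal.ofReal_le_ofReal
        unfold gau
        rw [← Real.exp_add, ← Real.exp_add]
        apply Real.exp_le_exp.2
        have h := max_sq_le (norm_nonneg v) (z_nonneg ht x)
        have h2 : 0 ≤ √t / 100 * ‖v‖ ^ 2 := by positivity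
        nlinarith [sq_nonneg ‖v‖]
    _ ≤ _ := by gcongr; exact K.one_le_Dm P t x v

/-- (W3) -/
theorem EE_mono (P : Par) {g1 g2 g1' g2' t : ℝ} (h1 : g1' ≤ g1) (h2 : g2' ≤ g2)
    (x : P2) (v : R3) : EE P g1 g2 t x v ≤ EE P g1' g2' t x v := by
  rw [EE_eq, EE_eq]
  gcongr ENNReal.ofReal ?_ * _
  unfold gau
  rw [← Real.exp_add, ← Real.exp_add]
  apply Real.exp_le_exp.2
  nlinarith [sq_nonneg ‖v‖, sq_nonneg (max ‖v‖ (distG x / t)),
    mul_le_mul_of_nonneg_right h1 (sq_nonneg ‖v‖),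
    mul_le_mul_of_nonneg_right h2 (sq_nonneg (max ‖v‖ (distG x / t)))]

/-- (W4) -/
theorem EE_le_Zg (P : Par) {g1 g2 t : ℝ} (hg2 : 0 ≤ g2) (x : P2) (v : R3) :
    EE P g1 g2 t x v ≤ Zg P (g1 + g2) t x v := by
  rw [EE_eq]
  unfold Zg
  gcongr ENNReal.ofReal ?_ * _
  unfold gau
  rw [← Real.exp_add]
  apply Real.exp_le_exp.2
  have h : ‖v‖ ^ 2 ≤ (max ‖v‖ (distG x / t)) ^ 2 :=
    pow_le_pow_left₀ (norm_nonneg v) (le_max_left _ _) 2
  nlinarith

/-- (W5) -/
theorem Zg_anti (P : Par) {g g' t : ℝ} (h : g ≤ g') (x : P2) (v : R3) :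
    Zg P g' t x v ≤ Zg P g t x v := by
  unfold Zg
  gcongr ENNReal.ofReal ?_ * _
  unfold gau
  apply Real.exp_le_exp.2
  nlinarith [sq_nonneg ‖v‖, mul_le_mul_of_nonneg_right h (sq_nonneg ‖v‖)]

/-- the constant in (W6) -/
def Cp (j δ : ℝ) : ℝ≥0∞ := ENNReal.ofReal (Real.exp (j ^ 2 / (4 * δ)))

theorem Cp_ne_top (j δ : ℝ) : Cp j δ ≠ ⊤ := ENNReal.ofReal_ne_top

theorem poly_le_exp {j δ z : ℝ} (hj : 0 ≤ j) (hδ : 0 < δ) (hz : 0 ≤ z) :
    (1 + z) ^ j ≤ Real.exp (j ^ 2 / (4 * δ)) * Real.exp (δ * z ^ 2) := by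
  have h1 : (1 + z) ^ j ≤ Real.exp (z * j) := by
    rw [Real.exp_mul]
    apply Real.rpow_le_rpow (by linarith) _ hj
    have := Real.add_one_le_exp z
    linarith
  refine h1.trans ?_
  rw [← Real.exp_add]
  apply Real.exp_le_exp.2
  have h2 : 0 ≤ (j - 2 * δ * z) ^ 2 / (4 * δ) := by positivity
  have h3 : (j - 2 * δ * z) ^ 2 / (4 * δ) = j ^ 2 / (4 * δ) - z * j + δ * z ^ 2 := by
    field_simp
    ring
  linarith

theorem tx_eq {j t : ℝ} (ht : 0 < t) (x : P2) :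
    tx j t x = ENNReal.ofReal (t ^ j) * ENNReal.ofReal ((1 + distG x / t) ^ j) := by
  unfold tx
  rw [← ENNReal.ofReal_mul (by positivity), ← Real.mul_rpow ht.le
    (by have := z_nonneg ht.le x; positivity)]
  congr 2
  field_simp

/-- (W6a) -/
theorem tx_mul_ez2 {j g2 g2' t : ℝ} (hj : 0 ≤ j) (hg : g2' < g2) (ht : 0 < t) (x : P2) :
    tx j t x * ez2 g2 t x ≤ Cp j (g2 - g2') * ENNReal.ofReal (t ^ j) * ez2 g2' t x := by
  rw [tx_eq ht]
  have hz := z_nonneg ht.le x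
  have h1 := poly_le_exp hj (sub_pos.2 hg) hz
  calc ENNReal.ofReal (t ^ j) * ENNReal.ofReal ((1 + distG x / t) ^ j) * ez2 g2 t x
      ≤ ENNReal.ofReal (t ^ j) * ENNReal.ofReal (Real.exp (j ^ 2 / (4 * (g2 - g2'))) *
        Real.exp ((g2 - g2') * (distG x / t) ^ 2)) * ez2 g2 t x := by gcongr
    _ = ENNReal.ofReal (t ^ j) * (Cp j (g2 - g2') * (ENNReal.ofReal
        (Real.exp ((g2 - g2') * (distG x / t) ^ 2)) * ez2 g2 t x)) := by
        rw [ENNReal.ofReal_mul (Real.exp_pos _).le]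
        unfold Cp
        ring
    _ = ENNReal.ofReal (t ^ j) * (Cp j (g2 - g2') * ez2 g2' t x) := by
        congr 2
        unfold ez2
        rw [← ENNReal.ofReal_mul (Real.exp_pos _).le, ← Real.exp_add]
        congr 2
        ring
    _ = _ := by ring

/-- (W6b) -/
theorem tx_mul_EE (P : Par) {j g1 g2 g2' t : ℝ} (hj : 0 ≤ j) (hg : g2' < g2) (ht : 0 < t)
    (x : P2) (v : R3) :
    tx j t x * EE P g1 g2 t x v ≤
      Cp j (g2 - g2') * ENNReal.ofReal (t ^ j) * EE P g1 g2' t x v := by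
  rw [tx_eq ht, EE_eq, EE_eq]
  have hz := z_nonneg ht.le x
  set m := max ‖v‖ (distG x / t) with hm
  have hzm : distG x / t ≤ m := le_max_right _ _
  have hm0 : 0 ≤ m := hz.trans hzm
  have h1 : (1 + distG x / t) ^ j ≤ Real.exp (j ^ 2 / (4 * (g2 - g2'))) *
      Real.exp ((g2 - g2') * m ^ 2) :=
    (Real.rpow_le_rpow (by linarith) (by linarith) hj).trans (poly_le_exp hj (sub_pos.2 hg) hm0)
  calc ENNReal.ofReal (t ^ j) * ENNReal.ofReal ((1 + distG x / t) ^ j) *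
        (ENNReal.ofReal (gau g1 t v * Real.exp (-g2 * m ^ 2)) * Dm P t x v)
      ≤ ENNReal.ofReal (t ^ j) * ENNReal.ofReal (Real.exp (j ^ 2 / (4 * (g2 - g2'))) *
        Real.exp ((g2 - g2') * m ^ 2)) *
        (ENNReal.ofReal (gau g1 t v * Real.exp (-g2 * m ^ 2)) * Dm P t x v) := by gcongr
    _ = Cp j (g2 - g2') * ENNReal.ofReal (t ^ j) *
        (ENNReal.ofReal (Real.exp ((g2 - g2') * m ^ 2)) *
          ENNReal.ofReal (gau g1 t v * Real.exp (-g2 * m ^ 2)) * Dm P t x v) := by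
        rw [ENNReal.ofReal_mul (Real.exp_pos _).le]
        unfold Cp
        ring
    _ = _ := by
        congr 2
        rw [← ENNReal.ofReal_mul (Real.exp_pos _).le]
        congr 1
        rw [mul_left_comm, ← Real.exp_add]
        congr 2
        ring

/-! ### majorants which are monotone along cold flights -/

/-- `e^{-g max(V,z)²}` -/
def em (V g : ℝ) (t : ℝ) (x : P2) : ℝ≥0∞ :=
  ENNReal.ofReal (Real.exp (-g * (max V (distG x / t)) ^ 2))

theorem em_le_ez2 {V g t : ℝ} (hg : 0 ≤ g) (ht : 0 ≤ t) (x : P2) : em V g t x ≤ ez2 g t x := by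
  unfold em ez2
  apply ENNReal.ofReal_le_ofReal
  apply Real.exp_le_exp.2
  have h : (distG x / t) ^ 2 ≤ (max V (distG x / t)) ^ 2 :=
    pow_le_pow_left₀ (z_nonneg ht x) (le_max_right _ _) 2
  nlinarith

/-- the constant `e^{gV²}` -/
def Ce (V g : ℝ) : ℝ≥0∞ := ENNReal.ofReal (Real.exp (g * V ^ 2))

theorem Ce_ne_top (V g : ℝ) : Ce V g ≠ ⊤ := ENNReal.ofReal_ne_top

theorem ez2_le_em {V g t : ℝ} (hV : 0 ≤ V) (hg : 0 ≤ g) (ht : 0 ≤ t) (x : P2) :
    ez2 g t x ≤ Ce V g * em V g t x := by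
  unfold em ez2 Ce
  rw [← ENNReal.ofReal_mul (Real.exp_pos _).le, ← Real.exp_add]
  apply ENNReal.ofReal_le_ofReal
  apply Real.exp_le_exp.2
  have h := max_sq_le hV (z_nonneg ht x)
  nlinarith

theorem max_flight_V {V s t : ℝ} (hs : 0 < s) (hst : s ≤ t) (x : P2) (v : R3)
    (hv : ‖v‖ ≤ V) : max V (distG x / t) ≤ max V (distG (x - (t - s) • bar v) / s) := by
  have h := K.max_flight hs hst x v
  have h1 : distG x / t ≤ max ‖v‖ (distG (x - (t - s) • bar v) / s) := (le_max_right _ _).trans h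
  apply max_le (le_max_left _ _)
  refine h1.trans (max_le_max hv le_rfl)

theorem em_flight {V g s t : ℝ} (hV : 0 ≤ V) (hg : 0 ≤ g) (hs : 0 < s) (hst : s ≤ t) (x : P2)
    (v : R3) (hv : ‖v‖ ≤ V) : em V g s (x - (t - s) • bar v) ≤ em V g t x := by
  unfold em
  apply ENNReal.ofReal_le_ofReal
  apply Real.exp_le_exp.2
  have h := max_flight_V hs hst x v hv
  have h0 : 0 ≤ max V (distG x / t) := hV.trans (le_max_left _ _)
  have h2 := pow_le_pow_left₀ h0 h 2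
  nlinarith

@[fun_prop]
theorem measurable_distG' : Measurable distG := measurable_distG

theorem measurable_em (V g : ℝ) : Measurable (fun p : ℝ × P2 => em V g p.1 p.2) := by
  unfold em
  fun_prop

/-- `(V+1)^β (t + |x|/(V+1))^β` -/
def txm (V β : ℝ) (t : ℝ) (x : P2) : ℝ≥0∞ :=
  ENNReal.ofReal ((V + 1) ^ β * (t + distG x / (V + 1)) ^ β)

theorem tx_le_txm {V β t : ℝ} (hV : 0 ≤ V) (hβ : 0 ≤ β) (ht : 0 ≤ t) (x : P2) :
    tx β t x ≤ txm V β t x := by
  unfold tx txm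
  apply ENNReal.ofReal_le_ofReal
  have hd := distG_nonneg x
  rw [← Real.mul_rpow (by positivity) (by positivity)]
  apply Real.rpow_le_rpow (by positivity) _ hβ
  have h : (V + 1) * (t + distG x / (V + 1)) = (V + 1) * t + distG x := by
    field_simp
  rw [h]
  nlinarith

theorem txm_le_tx {V β t : ℝ} (hV : 0 ≤ V) (hβ : 0 ≤ β) (ht : 0 ≤ t) (x : P2) :
    txm V β t x ≤ ENNReal.ofReal ((V + 1) ^ β) * tx β t x := by
  unfold tx txm
  have hd := distG_nonneg x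
  rw [ENNReal.ofReal_mul (by positivity)]
  gcongr _ * ?_
  apply ENNReal.ofReal_le_ofReal
  apply Real.rpow_le_rpow (by positivity) _ hβ
  have := div_le_self hd (by linarith : 1 ≤ V + 1)
  linarith

theorem txm_flight {V β s t : ℝ} (hV : 0 ≤ V) (hβ : 0 ≤ β) (hs : 0 < s) (hst : s ≤ t) (x : P2)
    (v : R3) (hv : ‖v‖ ≤ V) : txm V β s (x - (t - s) • bar v) ≤ txm V β t x := by
  unfold txm
  apply ENNReal.ofReal_le_ofReal
  have hd := distG_nonneg (x - (t - s) • bar v)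
  gcongr ?_ * ?_
  apply Real.rpow_le_rpow (by positivity) _ hβ
  have h1 := K.dist_flight hst x v
  have h2 : distG (x - (t - s) • bar v) ≤ distG x + (t - s) * V := by
    have : (t - s) * ‖v‖ ≤ (t - s) * V := mul_le_mul_of_nonneg_left hv (by linarith)
    nlinarith
  have h3 : distG (x - (t - s) • bar v) / (V + 1) ≤ (distG x + (t - s) * V) / (V + 1) := by
    gcongr
  have h4 : (distG x + (t - s) * V) / (V + 1) ≤ distG x / (V + 1) + (t - s) := by
    rw [add_div]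
    gcongr
    rw [div_le_iff₀ (by positivity)]
    nlinarith
  linarith

theorem measurable_txm (V β : ℝ) : Measurable (fun p : ℝ × P2 => txm V β p.1 p.2) := by
  unfold txm
  fun_prop

theorem tx_le_const {q t : ℝ} (hq : 0 ≤ q) (ht : 0 ≤ t) (ht1 : t ≤ 1) (x : P2) :
    tx q t x ≤ ENNReal.ofReal (2 ^ q) := by
  unfold tx
  apply ENNReal.ofReal_le_ofReal
  have hd := distG_nonneg x
  apply Real.rpow_le_rpow (by positivity) _ hq
  have := distG_le_one x
  linarith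

end Crest.Agent.R68.N
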