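import Crest.Agent.R68.NBnd
import Crest.Agent.R68.NStart

/-!
# Row 68, PART N (helper621): the starting point `u0 = H1 + k`, `k = ε Hs`
-/

set_option autoImplicit false
open MeasureTheory Set Filter
open scoped ENNReal Topology
open Crest.AnalysisR.VecCalc3 Crest.AnalysisR.PDE.Boltzmann

noncomputable section

namespace Crest.Agent.R68.N

open Crest.Agent.R68.A (en Meas3)

/-- the remainder at the starting point -/
def rest0F (P : Par) (c c1 sp sp1 H1 k u0 : Fld) : Fld := fun t x v =>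
  dd (sp t x v) (sp1 t x v) + 2 * Qp (ddF c c1 t x) (H1 t x) v +
    2 * Qp (ddF c (phiE P) t x) (k t x) v +
    (2 * Qp (H1 t x) (k t x) v + Qp (k t x) (k t x) v) +
    (Lc (ddF c c1 t x) v + Lc (k t x) v) * H1 t x v +
    (Lc (ddF c (phiE P) t x) v + Lc (u0 t x) v) * k t x v

/-- sum of two fields -/
def addF (f g : Fld) : Fld := fun t x v => f t x v + g t x v

theorem meas3_addF {f g : Fld} (hf : Meas3 f) (hg : Meas3 g) : Meas3 (addF f g) := hf.add hg

theorem dd_self_add (a b : ℝ≥0∞) : dd (a + b) a ≤ b :=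
  dd_le le_rfl (le_self_add.trans le_self_add)

/-- **pointwise estimate of the source at the starting point** -/
theorem dd_source0 {P : Par} {L0 : ℝ≥0∞} {c c1 sp sp1 H1 k : Fld} {t : ℝ} {x : P2}
    (hph : Measurable (phiE P t x))
    (hc : Measurable (c t x)) (hc1 : Measurable (c1 t x)) (hH : Measurable (H1 t x))
    (hk : Measurable (k t x)) (v : R3) :
    dd (gainH c sp (addF H1 k) t x v +
        (nuT P L0 t x v - lossH c (addF H1 k) t x v) * addF H1 k t x v)
      (gainH c1 sp1 H1 t x v + (nuT P L0 t x v - lossH c1 H1 t x v) * H1 t x v +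
        (Gf P k t x v + (nuT P L0 t x v - nuf P t x v) * k t x v)) ≤
    rest0F P c c1 sp sp1 H1 k (addF H1 k) t x v := by
  have hu : Measurable (addF H1 k t x) := hH.add hk
  have hdc : Measurable (ddF c c1 t x) := Measurable.dd hc hc1
  -- gain
  set U := addF H1 k with hU
  have eU1 : Qp (c t x) (U t x) v = Qp (c t x) (H1 t x) v + Qp (c t x) (k t x) v :=
    A.Qp_add_right hc hH v
  have eU2 : Qp (U t x) (c t x) v = Qp (c t x) (H1 t x) v + Qp (c t x) (k t x) v := by
    rw [Qp_comm hu hc, eU1]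
  have eU3 : Qp (U t x) (U t x) v = Qp (H1 t x) (H1 t x) v + 2 * Qp (H1 t x) (k t x) v +
      Qp (k t x) (k t x) v := by
    have h1 : Qp (U t x) (U t x) v = Qp (U t x) (H1 t x) v + Qp (U t x) (k t x) v :=
      A.Qp_add_right hu hH v
    have h2 : Qp (U t x) (H1 t x) v = Qp (H1 t x) (H1 t x) v + Qp (k t x) (H1 t x) v :=
      A.Qp_add_left hH hH v
    have h3 : Qp (U t x) (k t x) v = Qp (H1 t x) (k t x) v + Qp (k t x) (k t x) v :=
      A.Qp_add_left hH hk v
    rw [h1, h2, h3, Qp_comm hk hH]; ring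
  have e4 : Qp (H1 t x) (c1 t x) v = Qp (c1 t x) (H1 t x) v := Qp_comm hH hc1 v
  have e5 : Qp (k t x) (phiE P t x) v = Qp (phiE P t x) (k t x) v := Qp_comm hk hph v
  have d1 : dd (Qp (c t x) (H1 t x) v) (Qp (c1 t x) (H1 t x) v) ≤
      Qp (ddF c c1 t x) (H1 t x) v := by
    refine (dd_Qp hc hc1 hH hH v).trans (le_of_eq ?_)
    have h0 : Qp (c1 t x) (fun z => dd (H1 t x z) (H1 t x z)) v = 0 := by
      unfold Qp
      simp
    rw [h0, add_zero]
    rfl
  have d2 : dd (Qp (c t x) (k t x) v) (Qp (phiE P t x) (k t x) v) ≤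
      Qp (ddF c (phiE P) t x) (k t x) v := by
    refine (dd_Qp hc hph hk hk v).trans (le_of_eq ?_)
    have h0 : Qp (phiE P t x) (fun z => dd (k t x z) (k t x z)) v = 0 := by
      unfold Qp
      simp
    rw [h0, add_zero]
    rfl
  -- gain difference
  have G : dd (gainH c sp U t x v) (gainH c1 sp1 H1 t x v + Gf P k t x v) ≤
      dd (sp t x v) (sp1 t x v) + 2 * Qp (ddF c c1 t x) (H1 t x) v +
        2 * Qp (ddF c (phiE P) t x) (k t x) v +
        (2 * Qp (H1 t x) (k t x) v + Qp (k t x) (k t x) v) := by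
    unfold gainH Gf
    rw [eU1, eU2, eU3, e4, e5]
    set a := Qp (c t x) (H1 t x) v
    set a1 := Qp (c1 t x) (H1 t x) v
    set b := Qp (c t x) (k t x) v
    set b1 := Qp (phiE P t x) (k t x) v
    set m := Qp (H1 t x) (H1 t x) v
    set n := 2 * Qp (H1 t x) (k t x) v
    set r := Qp (k t x) (k t x) v
    have h1 : sp t x v + (a + b) + (a + b) + (m + n + r) =
        (sp t x v + (a + a)) + (b + b) + (m + (n + r)) := by ring
    have h2 : sp1 t x v + a1 + a1 + m + (b1 + b1) =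
        (sp1 t x v + (a1 + a1)) + (b1 + b1) + m := by ring
    rw [h1, h2]
    refine (dd_add_add _ _ _ _).trans ?_
    refine (add_le_add (dd_add_add _ _ _ _) (dd_self_add m (n + r))).trans ?_
    refine (add_le_add (add_le_add ((dd_add_add _ _ _ _).trans
      (add_le_add le_rfl (dd_add_add _ _ _ _))) (dd_add_add _ _ _ _)) le_rfl).trans ?_
    calc _ ≤ dd (sp t x v) (sp1 t x v) + (Qp (ddF c c1 t x) (H1 t x) v +
          Qp (ddF c c1 t x) (H1 t x) v) + (Qp (ddF c (phiE P) t x) (k t x) v +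
          Qp (ddF c (phiE P) t x) (k t x) v) + (n + r) := by gcongr
      _ = _ := by ring
  -- loss difference
  have L : dd ((nuT P L0 t x v - lossH c U t x v) * U t x v)
      ((nuT P L0 t x v - lossH c1 H1 t x v) * H1 t x v +
        (nuT P L0 t x v - nuf P t x v) * k t x v) ≤
      (Lc (ddF c c1 t x) v + Lc (k t x) v) * H1 t x v +
        (Lc (ddF c (phiE P) t x) v + Lc (U t x) v) * k t x v := by
    have h1 : (nuT P L0 t x v - lossH c U t x v) * U t x v =
        (nuT P L0 t x v - lossH c U t x v) * H1 t x v +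
        (nuT P L0 t x v - lossH c U t x v) * k t x v := by
      rw [← mul_add]; rfl
    rw [h1]
    refine (dd_add_add _ _ _ _).trans (add_le_add ?_ ?_)
    · refine (dd_mul_right _ _ _).trans ?_
      gcongr
      refine (dd_tsub _ _ _).trans ((dd_lossH hc hc1 hu hH v).trans ?_)
      gcongr
      refine A.Lc_mono (fun z => ?_) v
      exact dd_self_add _ _
    · refine (dd_mul_right _ _ _).trans ?_
      gcongr
      refine (dd_tsub _ _ _).trans ?_
      unfold lossH nuf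
      refine (dd_Lc (hc.add hu) hph v).trans ?_
      have hdp : Measurable (ddF c (phiE P) t x) := Measurable.dd hc hph
      rw [← A.Lc_add hdp v]
      refine A.Lc_mono (fun z => ?_) v
      refine (dd_triangle _ (c t x z) _).trans ?_
      rw [add_comm]
      exact add_le_add le_rfl (dd_self_add _ _)
  have hre : gainH c1 sp1 H1 t x v + (nuT P L0 t x v - lossH c1 H1 t x v) * H1 t x v +
        (Gf P k t x v + (nuT P L0 t x v - nuf P t x v) * k t x v) =
      (gainH c1 sp1 H1 t x v + Gf P k t x v) +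
        ((nuT P L0 t x v - lossH c1 H1 t x v) * H1 t x v +
        (nuT P L0 t x v - nuf P t x v) * k t x v) := by ring
  rw [hre]
  refine (dd_add_add _ _ _ _).trans ((add_le_add G L).trans (le_of_eq ?_))
  unfold rest0F
  ring

variable {P : Par} {T V : ℝ} {Cf Sf : Fld → Fld} {Mc Wm : Fld} {CC CK : ℝ≥0∞} {q : ℝ}

/-- constant of the starting estimate -/
def CS (V q β g2 g2' : ℝ) (CC CK C1 : ℝ≥0∞) : ℝ≥0∞ :=
  let A := CK * ENNReal.ofReal (1 + V)
  let B := Cp β (g2 - g2')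
  let Q := Cp q (g2 - g2')
  let F := C1 * A * ENNReal.ofReal ((V + 1) ^ β) * B + A * Ce V g2 + 2 * Q
  CC * A * Ce V g2 * Q + 2 * (CC * A * Ce V g2 * C1 * CK * B) +
    2 * (CC * CK * F) + (2 * (C1 * CK * B) + CK) +
    (CC * A * Ce V g2 + 1) * CK * C1 * B +
    (CC * CK * F + (C1 * CK * B + CK))

theorem CS_ne_top {V q β g2 g2' : ℝ} {CC CK C1 : ℝ≥0∞} (h1 : CC ≠ ⊤) (h2 : CK ≠ ⊤)
    (h3 : C1 ≠ ⊤) : CS V q β g2 g2' CC CK C1 ≠ ⊤ := by
  have h5 : Ce V g2 ≠ ⊤ := Ce_ne_top V g2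
  have h6 : ENNReal.ofReal (1 + V) ≠ ⊤ := ENNReal.ofReal_ne_top
  have h7 : Cp β (g2 - g2') ≠ ⊤ := Cp_ne_top _ _
  have h8 : Cp q (g2 - g2') ≠ ⊤ := Cp_ne_top _ _
  have h9 : ENNReal.ofReal ((V + 1) ^ β) ≠ ⊤ := ENNReal.ofReal_ne_top
  unfold CS
  simp only
  finiteness

/-- **Bound of the remainder at the starting point.** -/
theorem rest0F_le (hC : ColdInp P T V Cf Sf Mc Wm CC q) (hV : 0 ≤ V) (hT1 : T ≤ 1) (hq : 0 ≤ q)
    {β g0 g1 g2 g1' g2' : ℝ} (hβ : 0 ≤ β) (hg2' : 0 ≤ g2') (h1 : g1' ≤ g1) (h2 : g2' < g2)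
    (hg : g1' + g2' ≤ 1) (hg0 : g1 + g2 ≤ g0)
    (hK : KInp P T Mc Wm q g0 g1 g2 CK) (hK' : KInp P T Mc Wm q (g1' + g2') g1' g2' CK)
    {H1 k : Fld} (mH : Meas3 H1) (pH : PerF H1) (mk : Meas3 k) (pk : PerF k)
    {C1 : ℝ≥0∞} (hC1 : C1 ≠ ⊤)
    (bH : ∀ t ∈ Ioc 0 T, ∀ x v, H1 t x v ≤ C1 * tx β t x * Zg P g0 t x v)
    {κ : ℝ → ℝ≥0∞} (mκ : Measurable κ) (hκ : ∀ s t, 0 < s → s ≤ t → t ≤ T → κ s ≤ κ t)
    (κt : ∀ t ∈ Ioc 0 T, κ t ≠ ⊤)
    (bk : ∀ t ∈ Ioc 0 T, ∀ x v, k t x v ≤ κ t * EE P g1 g2 t x v)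
    {t : ℝ} (ht : t ∈ Ioc 0 T) (x : P2) (v : R3) :
    rest0F P (Cf (LcF (addF H1 k))) (Cf (LcF H1)) (Sf (LcF (addF H1 k))) (Sf (LcF H1)) H1 k
        (addF H1 k) t x v ≤
      CS V q β g2 g2' CC CK C1 * (ev v * (κ t *
        (ENNReal.ofReal (t ^ β) + ENNReal.ofReal (t ^ q) + κ t) * EE P g1' g2' t x v)) := by
  have mu : Meas3 (addF H1 k) := meas3_addF mH mk
  have pu : PerF (addF H1 k) := fun s z y i => by
    have e1 : H1 s (y + latt i) z = H1 s y z := pH s z y i
    have e2 : k s (y + latt i) z = k s y z := pk s z y i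
    show addF H1 k s (y + latt i) z = addF H1 k s y z
    unfold addF
    rw [e1, e2]
  have mL : Meas3 (LcF (addF H1 k)) := meas3_LcF mu
  have mL' : Meas3 (LcF H1) := meas3_LcF mH
  have pL : PerF (LcF (addF H1 k)) := perF_LcF pu
  have pL' : PerF (LcF H1) := perF_LcF pH
  have hCC := hC.CC_ne
  have hCK := hK.ne
  have hg2 : 0 ≤ g2 := hg2'.trans h2.le
  -- the contribution of k to the rate
  have hLk : ∀ s ∈ Ioc 0 T, ∀ y u, ‖u‖ ≤ V → Lc (k s y) u ≤
      (CK * ENNReal.ofReal (1 + V)) * κ s * ez2 g2 s y := by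
    intro s hs y u hu
    refine ((Lc_le_mul (κt s hs) (bk s hs y) u).trans ?_)
    calc κ s * Lc (EE P g1 g2 s y) u ≤ κ s * (CK * ev u * ez2 g2 s y) := by
          gcongr; exact hK.lE s hs y u
      _ ≤ κ s * (CK * ENNReal.ofReal (1 + V) * ez2 g2 s y) := by
          gcongr; exact ev_le hu
      _ = _ := by ring
  have hlam : ∀ s ∈ Ioc 0 T, ∀ y u, ‖u‖ ≤ V → dd (LcF (addF H1 k) s y u) (LcF H1 s y u) ≤
      (CK * ENNReal.ofReal (1 + V)) * κ s * ez2 g2 s y := by
    intro s hs y u hu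
    refine le_trans ?_ (hLk s hs y u hu)
    refine (dd_Lc (mu.slice _ _) (mH.slice _ _) u).trans ?_
    exact A.Lc_mono (fun z => dd_self_add _ _) u
  have hdc := fun z => (cold_diff hC hV hg2 mL pL mL' pL' mκ hκ hlam ht x z).1
  have hsp := (cold_diff hC hV hg2 mL pL mL' pL' mκ hκ hlam ht x v).2
  -- comparison with the free fuel
  have hdp : ∀ z, dd (Cf (LcF (addF H1 k)) t x z) (phiE P t x z) ≤
      CC * ENNReal.ofReal t * ((C1 * (CK * ENNReal.ofReal (1 + V)) *
        (ENNReal.ofReal ((V + 1) ^ β) * tx β t x) +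
        (CK * ENNReal.ofReal (1 + V)) * Ce V g2 * κ t * ez2 g2 t x + tx q t x) * Mc t x z +
        Wm t x z) := by
    intro z
    set Del : ℝ → P2 → ℝ≥0∞ := fun s y => C1 * (CK * ENNReal.ofReal (1 + V)) * txm V β s y +
      (CK * ENNReal.ofReal (1 + V)) * Ce V g2 * κ s * em V g2 s y with hDel
    have hm : Measurable (fun p : ℝ × P2 => Del p.1 p.2) := by
      simp only [hDel]
      exact ((measurable_txm V β).const_mul _).add
        (((mκ.comp measurable_fst).const_mul _).mul (measurable_em V g2))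
    have hmono : MonoFl V T Del := by
      intro s t hs hst htT x v hv
      simp only [hDel]
      have i1 := txm_flight hV hβ hs hst x v hv
      have i2 := em_flight hV hg2 hs hst x v hv
      have i3 := hκ s t hs hst htT
      gcongr
    have hle : ∀ s ∈ Ioc 0 T, ∀ y u, ‖u‖ ≤ V → LcF (addF H1 k) s y u ≤ Del s y := by
      intro s hs y u hu
      have e1 : LcF (addF H1 k) s y u = Lc (H1 s y) u + Lc (k s y) u :=
        A.Lc_add (mH.slice _ _) u
      rw [e1]
      simp only [hDel]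
      refine add_le_add ?_ ?_
      · have hne : C1 * tx β s y ≠ ⊤ := ENNReal.mul_ne_top hC1 (tx_ne_top _ _ _)
        refine (Lc_le_mul hne (bH s hs y) u).trans ?_
        calc C1 * tx β s y * Lc (Zg P g0 s y) u ≤ C1 * tx β s y * (CK * ev u) := by
              gcongr; exact hK.lZ s hs y u
          _ ≤ C1 * txm V β s y * (CK * ENNReal.ofReal (1 + V)) := by
              gcongr
              · exact tx_le_txm hV hβ hs.1.le y
              · exact ev_le hu
          _ = _ := by ring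
      · refine (hLk s hs y u hu).trans ?_
        calc CK * ENNReal.ofReal (1 + V) * κ s * ez2 g2 s y
            ≤ CK * ENNReal.ofReal (1 + V) * κ s * (Ce V g2 * em V g2 s y) := by
              gcongr; exact ez2_le_em hV hg2 hs.1.le y
          _ = _ := by ring
    refine (hC.lip0 _ mL pL Del hm hmono hle t ht x z).trans ?_
    simp only [hDel]
    gcongr
    · exact txm_le_tx hV hβ ht.1.le x
    · exact em_le_ez2 hg2 ht.1.le x
  set a₀ := CK * ENNReal.ofReal (1 + V) with hA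
  set E := EE P g1 g2 t x v with hE
  set E' := EE P g1' g2' t x v with hE'
  set K := κ t with hKdef
  have hKt : K ≠ ⊤ := κt t ht
  set τ := ENNReal.ofReal t with hτ
  set τ' := ENNReal.ofReal (1 / t) with hτ'
  have hττ : τ * τ' = 1 := t_mul_inv ht.1
  have hτ1 : τ ≤ 1 := ofReal_t_le_one (ht.2.trans hT1)
  set e2 := ez2 g2 t x with he2
  set Bβ := Cp β (g2 - g2') with hB
  set Bq := Cp q (g2 - g2') with hQ
  set X := ENNReal.ofReal (t ^ β) + ENNReal.ofReal (t ^ q) + K with hX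
  have hXβ : ENNReal.ofReal (t ^ β) ≤ X := by rw [hX, add_assoc]; exact le_self_add
  have hXq : ENNReal.ofReal (t ^ q) ≤ X := by
    rw [hX, add_right_comm]; exact le_add_self
  have hXK : K ≤ X := le_add_self
  have hCe := Ce_ne_top V g2
  have he2t : e2 ≠ ⊤ := ez2_ne_top _ _ _
  have hAt : a₀ ≠ ⊤ := ENNReal.mul_ne_top hCK ENNReal.ofReal_ne_top
  have hτt : τ ≠ ⊤ := ENNReal.ofReal_ne_top
  have htβ : tx β t x ≠ ⊤ := tx_ne_top _ _ _
  have htq : tx q t x ≠ ⊤ := tx_ne_top _ _ _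
  have hVβ : ENNReal.ofReal ((V + 1) ^ β) ≠ ⊤ := ENNReal.ofReal_ne_top
  have e1v := one_le_ev v
  have e2le : e2 ≤ 1 := by
    rw [he2]; unfold ez2
    rw [← ENNReal.ofReal_one]
    apply ENNReal.ofReal_le_ofReal
    rw [Real.exp_le_one_iff]
    nlinarith [sq_nonneg (distG x / t)]
  -- elementary weight inequalities
  have hEE' : E ≤ E' := EE_mono P h1 h2.le x v
  have hβE : tx β t x * E ≤ Bβ * X * E' := by
    refine (tx_mul_EE P hβ h2 ht.1 x v).trans ?_
    gcongr
    exact EE_mono P h1 le_rfl x v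
  have hqE : tx q t x * E ≤ Bq * X * E' := by
    refine (tx_mul_EE P hq h2 ht.1 x v).trans ?_
    gcongr
    exact EE_mono P h1 le_rfl x v
  have hg0' : g1' + g2' ≤ g0 := by linarith
  have hβZ : tx β t x * e2 * Zg P g0 t x v ≤ Bβ * X * E' := by
    calc tx β t x * e2 * Zg P g0 t x v
        ≤ (Bβ * ENNReal.ofReal (t ^ β) * ez2 g2' t x) * Zg P (g1' + g2') t x v :=
          mul_le_mul' (tx_mul_ez2 hβ h2 ht.1 x) (Zg_anti P hg0' x v)
      _ = Bβ * ENNReal.ofReal (t ^ β) * (ez2 g2' t x * Zg P (g1' + g2') t x v) := by ring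
      _ ≤ Bβ * X * E' := by
          gcongr
          exact ez2_mul_Zg P hg2' ht.1.le x v
  have hqx : tx q t x * e2 * ENNReal.ofReal (Real.exp (-‖v‖ ^ 2)) ≤ Bq * X * E' := by
    calc tx q t x * e2 * ENNReal.ofReal (Real.exp (-‖v‖ ^ 2))
        ≤ (Bq * ENNReal.ofReal (t ^ q) * ez2 g2' t x) * ENNReal.ofReal (Real.exp (-‖v‖ ^ 2)) :=
          mul_le_mul' (tx_mul_ez2 hq h2 ht.1 x) le_rfl
      _ = Bq * ENNReal.ofReal (t ^ q) * (ENNReal.ofReal (Real.exp (-‖v‖ ^ 2)) * ez2 g2' t x) := by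
          ring
      _ ≤ Bq * X * E' := by
          gcongr
          exact exp_mul_ez2 P hg2' hg ht.1.le x v
  set F := C1 * a₀ * ENNReal.ofReal ((V + 1) ^ β) * Bβ + a₀ * Ce V g2 + 2 * Bq with hF
  -- the factor D of the comparison with the fuel
  set D := C1 * a₀ * (ENNReal.ofReal ((V + 1) ^ β) * tx β t x) + a₀ * Ce V g2 * K * e2 + tx q t x
    with hD
  have hDt : D ≠ ⊤ := by rw [hD]; finiteness
  have hDE : (D + tx q t x) * E ≤ F * (X * E') := by
    calc (D + tx q t x) * E = C1 * a₀ * ENNReal.ofReal ((V + 1) ^ β) * (tx β t x * E) +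
          a₀ * Ce V g2 * K * e2 * E + 2 * (tx q t x * E) := by rw [hD]; ring
      _ ≤ C1 * a₀ * ENNReal.ofReal ((V + 1) ^ β) * (Bβ * X * E') +
          a₀ * Ce V g2 * X * 1 * E' + 2 * (Bq * X * E') := by gcongr
      _ = _ := by rw [hF]; ring
  -- S1
  have S1 : dd (Sf (LcF (addF H1 k)) t x v) (Sf (LcF H1) t x v) ≤
      CC * a₀ * Ce V g2 * Bq * (ev v * (K * X * E')) := by
    refine hsp.trans ?_
    calc CC * τ * (a₀ * Ce V g2 * K * e2) * tx q t x * ENNReal.ofReal (Real.exp (-‖v‖ ^ 2))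
        = CC * τ * a₀ * Ce V g2 * K * (tx q t x * e2 * ENNReal.ofReal (Real.exp (-‖v‖ ^ 2))) := by
          ring
      _ ≤ CC * 1 * a₀ * Ce V g2 * K * (Bq * X * E') := by gcongr
      _ = CC * a₀ * Ce V g2 * Bq * (1 * (K * X * E')) := by ring
      _ ≤ _ := by gcongr
  -- S2
  have hbH : ∀ z, H1 t x z ≤ C1 * tx β t x * Zg P g0 t x z := bH t ht x
  have hC1β : C1 * tx β t x ≠ ⊤ := ENNReal.mul_ne_top hC1 htβ
  have ha : CC * τ * (a₀ * Ce V g2 * K * e2) ≠ ⊤ := by finiteness
  have S2 : Qp (ddF (Cf (LcF (addF H1 k))) (Cf (LcF H1)) t x) (H1 t x) v ≤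
      CC * a₀ * Ce V g2 * C1 * CK * Bβ * (ev v * (K * X * E')) := by
    refine (Qp_le_mul ha hC1β hdc hbH v).trans ?_
    calc CC * τ * (a₀ * Ce V g2 * K * e2) * (C1 * tx β t x) * Qp (Mc t x) (Zg P g0 t x) v
        ≤ CC * τ * (a₀ * Ce V g2 * K * e2) * (C1 * tx β t x) * (CK * τ' * Zg P g0 t x v) := by
          gcongr
          exact hK.qMZ t ht x v
      _ = CC * a₀ * Ce V g2 * C1 * CK * ((τ * τ') * (K * (tx β t x * e2 * Zg P g0 t x v))) := by ring
      _ ≤ CC * a₀ * Ce V g2 * C1 * CK * (ev v * (K * (Bβ * X * E'))) := by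
          rw [hττ]
          gcongr
      _ = _ := by ring
  -- S3
  have S3 : Qp (ddF (Cf (LcF (addF H1 k))) (phiE P) t x) (k t x) v ≤
      CC * CK * F * (ev v * (K * X * E')) := by
    have hMW : ∀ z, ddF (Cf (LcF (addF H1 k))) (phiE P) t x z ≤
        (CC * τ) * (fun z => D * Mc t x z + Wm t x z) z := hdp
    have hct : CC * τ ≠ ⊤ := by finiteness
    have mM : Measurable (Mc t x) := hC.measM.slice _ _
    have mkx : Measurable (k t x) := mk.slice _ _
    have hadd : Qp (fun z => D * Mc t x z + Wm t x z) (k t x) v ≤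
        D * (K * Qp (Mc t x) (EE P g1 g2 t x) v) + K * Qp (Wm t x) (EE P g1 g2 t x) v := by
      rw [A.Qp_add_left (f := fun z => D * Mc t x z) (g := Wm t x) (mM.const_mul _) mkx v,
        A.Qp_const_mul_left hDt]
      have i1 : Qp (Mc t x) (k t x) v ≤ 1 * K * Qp (Mc t x) (EE P g1 g2 t x) v :=
        Qp_le_mul ENNReal.one_ne_top hKt (fun z => (one_mul _).ge) (bk t ht x) v
      have i2 : Qp (Wm t x) (k t x) v ≤ 1 * K * Qp (Wm t x) (EE P g1 g2 t x) v :=
        Qp_le_mul ENNReal.one_ne_top hKt (fun z => (one_mul _).ge) (bk t ht x) v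
      rw [one_mul] at i1 i2
      gcongr
    have h0 : Qp (ddF (Cf (LcF (addF H1 k))) (phiE P) t x) (k t x) v ≤
        CC * τ * 1 * Qp (fun z => D * Mc t x z + Wm t x z) (k t x) v :=
      Qp_le_mul hct ENNReal.one_ne_top hMW (fun z => (one_mul _).ge) v
    refine h0.trans ?_
    calc CC * τ * 1 * Qp (fun z => D * Mc t x z + Wm t x z) (k t x) v
        ≤ CC * τ * 1 * (D * (K * (CK * τ' * E)) + K * (CK * tx q t x * E)) := by
          gcongr
          refine hadd.trans ?_
          gcongr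
          · exact hK.qME t ht x v
          · exact hK.qWE t ht x v
      _ = CC * CK * K * ((τ * τ') * D * E + τ * tx q t x * E) := by ring
      _ ≤ CC * CK * K * (1 * D * E + 1 * tx q t x * E) := by rw [hττ]; gcongr
      _ = CC * CK * K * ((D + tx q t x) * E) := by ring
      _ ≤ CC * CK * K * (F * (X * E')) := by gcongr
      _ = CC * CK * F * (1 * (K * X * E')) := by ring
      _ ≤ _ := by gcongr
  -- S4
  have S4a : Qp (H1 t x) (k t x) v ≤ C1 * CK * Bβ * (ev v * (K * X * E')) := by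
    refine (Qp_le_mul hC1β hKt hbH (bk t ht x) v).trans ?_
    calc C1 * tx β t x * K * Qp (Zg P g0 t x) (EE P g1 g2 t x) v
        ≤ C1 * tx β t x * K * (CK * ev v * E) := by gcongr; exact hK.qZE t ht x v
      _ = C1 * CK * (ev v * (K * (tx β t x * E))) := by ring
      _ ≤ C1 * CK * (ev v * (K * (Bβ * X * E'))) := by gcongr
      _ = _ := by ring
  have S4b : Qp (k t x) (k t x) v ≤ CK * (ev v * (K * X * E')) := by
    have hk1 : ∀ z, k t x z ≤ K * Zg P (g1' + g2') t x z := fun z => by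
      refine (bk t ht x z).trans ?_
      gcongr
      exact (EE_mono P h1 h2.le x z).trans (EE_le_Zg P hg2' x z)
    have hk2 : ∀ z, k t x z ≤ K * EE P g1' g2' t x z := fun z => by
      refine (bk t ht x z).trans ?_
      gcongr
      exact EE_mono P h1 h2.le x z
    refine (Qp_le_mul hKt hKt hk1 hk2 v).trans ?_
    calc K * K * Qp (Zg P (g1' + g2') t x) (EE P g1' g2' t x) v
        ≤ K * X * (CK * ev v * E') := by gcongr; exact hK'.qZE t ht x v
      _ = _ := by ring
  -- S5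
  have hLdc : Lc (ddF (Cf (LcF (addF H1 k))) (Cf (LcF H1)) t x) v ≤
      CC * a₀ * Ce V g2 * CK * (ev v * (K * e2)) := by
    refine (Lc_le_mul ha hdc v).trans ?_
    calc CC * τ * (a₀ * Ce V g2 * K * e2) * Lc (Mc t x) v
        ≤ CC * τ * (a₀ * Ce V g2 * K * e2) * (CK * τ' * ev v) := by gcongr; exact hK.lM t ht x v
      _ = CC * a₀ * Ce V g2 * CK * ((τ * τ') * (ev v * (K * e2))) := by ring
      _ = _ := by rw [hττ, one_mul]
  have hLkv : Lc (k t x) v ≤ CK * (ev v * (K * e2)) := by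
    refine (Lc_le_mul hKt (bk t ht x) v).trans ?_
    calc K * Lc (EE P g1 g2 t x) v ≤ K * (CK * ev v * e2) := by gcongr; exact hK.lE t ht x v
      _ = _ := by ring
  have S5 : (Lc (ddF (Cf (LcF (addF H1 k))) (Cf (LcF H1)) t x) v + Lc (k t x) v) * H1 t x v ≤
      (CC * a₀ * Ce V g2 + 1) * CK * C1 * Bβ * (ev v * (K * X * E')) := by
    calc _ ≤ (CC * a₀ * Ce V g2 * CK * (ev v * (K * e2)) + CK * (ev v * (K * e2))) *
          (C1 * tx β t x * Zg P g0 t x v) := by gcongr; exact hbH v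
      _ = (CC * a₀ * Ce V g2 + 1) * CK * C1 * (ev v * (K * (tx β t x * e2 * Zg P g0 t x v))) := by
          ring
      _ ≤ (CC * a₀ * Ce V g2 + 1) * CK * C1 * (ev v * (K * (Bβ * X * E'))) := by gcongr
      _ = _ := by ring
  -- S6
  have hLdp : Lc (ddF (Cf (LcF (addF H1 k))) (phiE P) t x) v ≤
      CC * CK * ev v * (D + tx q t x) := by
    have hMW : ∀ z, ddF (Cf (LcF (addF H1 k))) (phiE P) t x z ≤
        (CC * τ) * (fun z => D * Mc t x z + Wm t x z) z := hdp
    have hct : CC * τ ≠ ⊤ := by finiteness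
    refine (Lc_le_mul hct hMW v).trans ?_
    have mM : Measurable (Mc t x) := hC.measM.slice _ _
    have hadd : Lc (fun z => D * Mc t x z + Wm t x z) v = D * Lc (Mc t x) v + Lc (Wm t x) v := by
      rw [A.Lc_add (f := fun z => D * Mc t x z) (g := Wm t x) (mM.const_mul _) v,
        A.Lc_const_mul hDt]
    rw [hadd]
    calc CC * τ * (D * Lc (Mc t x) v + Lc (Wm t x) v)
        ≤ CC * τ * (D * (CK * τ' * ev v) + CK * tx q t x * ev v) := by
          gcongr
          · exact hK.lM t ht x v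
          · exact hK.lW t ht x v
      _ = CC * CK * ev v * ((τ * τ') * D + τ * tx q t x) := by ring
      _ ≤ CC * CK * ev v * (1 * D + 1 * tx q t x) := by rw [hττ]; gcongr
      _ = _ := by ring
  have hLH : Lc (H1 t x) v ≤ C1 * CK * (ev v * tx β t x) := by
    refine (Lc_le_mul hC1β hbH v).trans ?_
    calc C1 * tx β t x * Lc (Zg P g0 t x) v ≤ C1 * tx β t x * (CK * ev v) := by
          gcongr; exact hK.lZ t ht x v
      _ = _ := by ring
  have hLu : Lc (addF H1 k t x) v ≤ C1 * CK * (ev v * tx β t x) + CK * (ev v * K) := by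
    have e1 : Lc (addF H1 k t x) v = Lc (H1 t x) v + Lc (k t x) v := A.Lc_add (mH.slice _ _) v
    rw [e1]
    refine add_le_add hLH (hLkv.trans ?_)
    calc CK * (ev v * (K * e2)) ≤ CK * (ev v * (K * 1)) := by gcongr
      _ = _ := by rw [mul_one]
  have S6 : (Lc (ddF (Cf (LcF (addF H1 k))) (phiE P) t x) v + Lc (addF H1 k t x) v) * k t x v ≤
      (CC * CK * F + (C1 * CK * Bβ + CK)) * (ev v * (K * X * E')) := by
    calc _ ≤ (CC * CK * ev v * (D + tx q t x) + (C1 * CK * (ev v * tx β t x) + CK * (ev v * K))) *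
          (K * E) := by gcongr; exact bk t ht x v
      _ = CC * CK * ev v * K * ((D + tx q t x) * E) + C1 * CK * ev v * K * (tx β t x * E) +
          CK * ev v * K * K * E := by ring
      _ ≤ CC * CK * ev v * K * (F * (X * E')) + C1 * CK * ev v * K * (Bβ * X * E') +
          CK * ev v * K * X * E' := by gcongr
      _ = _ := by ring
  unfold rest0F
  calc _ ≤ CC * a₀ * Ce V g2 * Bq * (ev v * (K * X * E')) +
        2 * (CC * a₀ * Ce V g2 * C1 * CK * Bβ * (ev v * (K * X * E'))) +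
        2 * (CC * CK * F * (ev v * (K * X * E'))) +
        (2 * (C1 * CK * Bβ * (ev v * (K * X * E'))) + CK * (ev v * (K * X * E'))) +
        (CC * a₀ * Ce V g2 + 1) * CK * C1 * Bβ * (ev v * (K * X * E')) +
        (CC * CK * F + (C1 * CK * Bβ + CK)) * (ev v * (K * X * E')) := by gcongr
    _ = _ := by
        unfold CS
        simp only [← hA, ← hB, ← hQ, ← hF]
        ring

end Crest.Agent.R68.N
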