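import Crest.Agent.R68.NExt2
import Crest.Agent.R68.NZero

/-!
# Row 68, PART N (helper621): the weight `Wt` of the fixed point argument
-/

set_option autoImplicit false
open MeasureTheory Set Filter
open scoped ENNReal Topology
open Crest.AnalysisR.VecCalc3 Crest.AnalysisR.PDE.Boltzmann

noncomputable section

namespace Crest.Agent.R68.N

open Crest.Agent.R68.A (en Meas3)
open Crest.Agent.R68.ND (cw meas3_cw perF_cw B2_eq_EE neuL neuL_eq meas3_neuL TT_eq_TL TT_iter_eq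
  TL_mono_lt)
open Crest.Agent.R68.L (TL TL_smul meas3_TL meas3_iter)

/-- `e^{λt} t^b EE`, cut to positive times -/
def WW (P : Par) (g1 g2 b lam : ℝ) : Fld := fun t x v =>
  ENNReal.ofReal (Real.exp (lam * t)) * cw P g1 g2 b t x v

/-- the weight of the fixed point argument -/
def Wt (P : Par) (g1 g2 b lam : ℝ) : Fld := neuL (Crest.Agent.R68.phiE P) (WW P g1 g2 b lam)

theorem meas3_WW {P : Par} (hY : 0 < P.Y) (g1 g2 b lam : ℝ) : Meas3 (WW P g1 g2 b lam) := by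
  have h := meas3_cw hY g1 g2 b
  unfold Meas3 at h ⊢
  unfold WW
  refine Measurable.mul ?_ h
  fun_prop

theorem meas3_Wt {P : Par} (hOk : P.Ok) (g1 g2 b lam : ℝ) : Meas3 (Wt P g1 g2 b lam) :=
  meas3_neuL (L.meas3_phiE hOk) (meas3_WW hOk.Y0 g1 g2 b lam)

theorem WW_eq (P : Par) (g1 g2 b lam : ℝ) {t : ℝ} (ht : 0 < t) (x : P2) (v : R3) :
    WW P g1 g2 b lam t x v = ENNReal.ofReal (Real.exp (lam * t)) *
      (ENNReal.ofReal (t ^ b) * EE P g1 g2 t x v) := by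
  unfold WW cw
  rw [if_pos ht, B2_eq_EE P g1 g2 b ht]

/-- (w1) -/
theorem Wt_eq {P : Par} (hOk : P.Ok) (g1 g2 b lam : ℝ) (t : ℝ) (x : P2) (v : R3) :
    Wt P g1 g2 b lam t x v = WW P g1 g2 b lam t x v + TT P (Wt P g1 g2 b lam) t x v := by
  have hφ : Meas3 (Crest.Agent.R68.phiE P) := L.meas3_phiE hOk
  have h1 := neuL_eq hφ (meas3_WW hOk.Y0 g1 g2 b lam) t x v
  rw [TT_eq_TL hφ (meas3_Wt hOk g1 g2 b lam) (fun s _ y z => rfl) x v]
  exact h1

/-- (w2) -/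
theorem WW_le_Wt {P : Par} (hOk : P.Ok) (g1 g2 b lam : ℝ) (t : ℝ) (x : P2) (v : R3) :
    WW P g1 g2 b lam t x v ≤ Wt P g1 g2 b lam t x v := by
  rw [Wt_eq hOk]; exact le_self_add

theorem iter_WW_le {P : Par} (hOk : P.Ok) (g1 g2 b : ℝ) {lam : ℝ} (hl : 0 ≤ lam) (m : ℕ) :
    ∀ t x v, (TL (Crest.Agent.R68.phiE P))^[m] (WW P g1 g2 b lam) t x v ≤
      ENNReal.ofReal (Real.exp (lam * t)) *
        (TL (Crest.Agent.R68.phiE P))^[m] (cw P g1 g2 b) t x v := by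
  have hφ : Meas3 (Crest.Agent.R68.phiE P) := L.meas3_phiE hOk
  have mc := meas3_cw hOk.Y0 g1 g2 b
  induction m with
  | zero => intro t x v; exact le_rfl
  | succ m ih =>
    intro t x v
    rw [Function.iterate_succ_apply', Function.iterate_succ_apply']
    have h1 := TL_smul hφ (meas3_iter hφ mc m) (ENNReal.ofReal (Real.exp (lam * t)))
    have h2 := congrFun (congrFun (congrFun h1 t) x) v
    rw [← h2]
    refine TL_mono_lt (fun s hs y z => (ih s y z).trans ?_) x v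
    gcongr
    exact hs.2.le

/-- (w3) -/
theorem Wt_le {P : Par} (hOk : P.Ok) {T g1 g2 b lam : ℝ} (hl : 0 ≤ lam) {CL : ℝ≥0∞}
    (neu : ∀ t ∈ Ioc 0 T, ∀ x v,
      ∑' m : ℕ, (TT P)^[m] (fun s y z => ENNReal.ofReal (s ^ b) * EE P g1 g2 s y z) t x v ≤
        CL * ENNReal.ofReal (t ^ b) * EE P g1 g2 t x v)
    {t : ℝ} (ht : t ∈ Ioc 0 T) (x : P2) (v : R3) :
    Wt P g1 g2 b lam t x v ≤ CL * WW P g1 g2 b lam t x v := by
  have hφ : Meas3 (Crest.Agent.R68.phiE P) := L.meas3_phiE hOk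
  have mc := meas3_cw hOk.Y0 g1 g2 b
  have h1 : neuL (Crest.Agent.R68.phiE P) (cw P g1 g2 b) t x v ≤
      CL * ENNReal.ofReal (t ^ b) * EE P g1 g2 t x v := by
    refine le_trans (le_of_eq ?_) (neu t ht x v)
    unfold neuL
    refine tsum_congr fun m => ?_
    refine (TT_iter_eq hφ mc (T := T) (fun s hs _ y z => ?_) m t ht.1 ht.2 x v).symm
    unfold cw
    rw [if_pos hs, B2_eq_EE P g1 g2 b hs]
  calc Wt P g1 g2 b lam t x v
      ≤ ∑' m : ℕ, ENNReal.ofReal (Real.exp (lam * t)) *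
        (TL (Crest.Agent.R68.phiE P))^[m] (cw P g1 g2 b) t x v :=
        ENNReal.tsum_le_tsum fun m => iter_WW_le hOk g1 g2 b hl m t x v
    _ = ENNReal.ofReal (Real.exp (lam * t)) * neuL (Crest.Agent.R68.phiE P) (cw P g1 g2 b) t x v := by
        rw [ENNReal.tsum_mul_left]; rfl
    _ ≤ ENNReal.ofReal (Real.exp (lam * t)) * (CL * ENNReal.ofReal (t ^ b) * EE P g1 g2 t x v) := by
        gcongr
    _ = _ := by rw [WW_eq P g1 g2 b lam ht.1]; ring

theorem TT_mono_lt {P : Par} {h k : Fld} {t : ℝ}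
    (hhk : ∀ s ∈ Ioo 0 t, ∀ y z, h s y z ≤ k s y z) (x : P2) (v : R3) :
    TT P h t x v ≤ TT P k t x v := by
  unfold TT Dam
  refine setLIntegral_mono_ae' measurableSet_Ioo (Eventually.of_forall fun s hs => ?_)
  gcongr _ * ?_
  unfold Gf
  exact add_le_add (A.Qp_mono (fun _ => le_rfl) (fun z => hhk s hs _ z) v)
    (A.Qp_mono (fun z => hhk s hs _ z) (fun _ => le_rfl) v)

theorem TT_smul {P : Par} (f : Fld) {c : ℝ≥0∞} (hc : c ≠ ⊤) (t : ℝ) (x : P2) (v : R3) :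
    TT P (fun s y z => c * f s y z) t x v = c * TT P f t x v := by
  unfold TT Dam
  rw [← lintegral_const_mul' _ _ hc]
  refine lintegral_congr fun s => ?_
  unfold Gf
  rw [A.Qp_const_mul_left hc, A.Qp_const_mul_right hc]
  ring

/-- the weight absorbs: `T W + (δ/2) W ≤ (1 - δ/2) W` -/
theorem Wt_absorb {P : Par} (hOk : P.Ok) {T g1 g2 b lam : ℝ} (hl : 0 ≤ lam) {CL : ℝ≥0∞}
    (hCL : CL ≠ ⊤)
    (neu : ∀ t ∈ Ioc 0 T, ∀ x v,
      ∑' m : ℕ, (TT P)^[m] (fun s y z => ENNReal.ofReal (s ^ b) * EE P g1 g2 s y z) t x v ≤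
        CL * ENNReal.ofReal (t ^ b) * EE P g1 g2 t x v)
    {t : ℝ} (ht : t ∈ Ioc 0 T) (x : P2) (v : R3) :
    TT P (Wt P g1 g2 b lam) t x v + (CL + 1)⁻¹ / 2 * Wt P g1 g2 b lam t x v ≤
      (1 - (CL + 1)⁻¹ / 2) * Wt P g1 g2 b lam t x v := by
  set δ : ℝ≥0∞ := (CL + 1)⁻¹ with hδ
  set W := Wt P g1 g2 b lam t x v with hW
  have hc0 : CL + 1 ≠ 0 := by simp
  have hct : CL + 1 ≠ ⊤ := by finiteness
  have hδ1 : δ ≤ 1 := by
    rw [hδ, ENNReal.inv_le_one]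
    exact le_add_self
  have hδ2 : δ / 2 < 1 := by
    refine lt_of_le_of_lt (ENNReal.div_le_div_right hδ1 2) ?_
    rw [one_div]
    exact ENNReal.inv_lt_one.2 (by norm_num)
  have h1 : δ * W ≤ WW P g1 g2 b lam t x v := by
    have h2 : W ≤ (CL + 1) * WW P g1 g2 b lam t x v :=
      (Wt_le hOk hl neu ht x v).trans (by gcongr; exact le_self_add)
    calc δ * W ≤ δ * ((CL + 1) * WW P g1 g2 b lam t x v) := by gcongr
      _ = WW P g1 g2 b lam t x v := by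
        rw [← mul_assoc, hδ, ENNReal.inv_mul_cancel hc0 hct, one_mul]
  have h2 : TT P (Wt P g1 g2 b lam) t x v + δ * W ≤ W := by
    calc _ ≤ TT P (Wt P g1 g2 b lam) t x v + WW P g1 g2 b lam t x v := by gcongr
      _ = W := by rw [hW, Wt_eq hOk g1 g2 b lam t x v, add_comm, ← Wt_eq hOk g1 g2 b lam t x v]
  have h3 : δ / 2 * W + δ / 2 * W = δ * W := by
    rw [← add_mul, ENNReal.add_halves]
  by_cases hWt : W = ⊤
  · rw [hWt, ENNReal.mul_top (a := 1 - δ / 2) (tsub_pos_of_lt hδ2).ne']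
    exact le_top
  · have hd : δ / 2 ≠ ⊤ := hδ2.ne_top
    rw [ENNReal.sub_mul (fun _ _ => hWt), one_mul]
    apply ENNReal.le_sub_of_add_le_right (ENNReal.mul_ne_top hd hWt)
    rw [add_assoc, h3]
    exact h2

end Crest.Agent.R68.N
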