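import Mathlib
import Crest.Agent.R68.SDefs
import Crest.Agent.R68.SPlane
import Crest.Agent.R68.SStrip

/-!
# Row 68, Part S: the complement of the good set costs `eps` (helper60)
-/

set_option autoImplicit false
open MeasureTheory Set Metric
open scoped ENNReal Real
open Crest.AnalysisR.VecCalc3 Crest.AnalysisR.PDE.Boltzmann

namespace Crest.Agent.R68.S

theorem small2_ker {M : ℕ} {κ eps δ : ℝ} (hκ : 0 ≤ κ)
    (h : ∀ (q : Fin M → P2) (S : Set P2), volume S ≤ ENNReal.ofReal δ →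
      ∫⁻ p in S, Sg2 q p ≤ ENNReal.ofReal eps)
    (q : Fin M → P2) (y : P2) (S : Set P2) (hS : volume S ≤ ENNReal.ofReal δ) :
    ∫⁻ p in S, ker2 κ y p * Sg2 q p ≤ ENNReal.ofReal eps := by
  refine (lintegral_mono fun p => ?_).trans (h q S hS)
  calc ker2 κ y p * Sg2 q p ≤ 1 * Sg2 q p := mul_le_mul' (ker2_le_one hκ y p) le_rfl
    _ = Sg2 q p := one_mul _

/-- (B1) first step: the complement of the good `p₁`. -/
theorem ZG_small (M : ℕ) {κ eps b0 : ℝ} (hκ : 0 < κ) (heps : 0 < eps) (hb0 : 0 < b0) :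
    ∃ R : ℝ, 0 < R ∧ ∀ dmax : ℝ, 0 < dmax → ∃ d : ℝ, 0 < d ∧ d ≤ dmax ∧
      ∀ (z0 a1 ap am : R3) (q : Fin M → P2),
        b0 ≤ |z0 2 - a1 2| → b0 ≤ |z0 2 - ap 2| → b0 ≤ |z0 2 - am 2| →
        ∫⁻ p in {p : P2 | ¬ (d ≤ ‖p - bar z0‖ ∧ ‖p - bar z0‖ ≤ R ∧
            d ≤ |AA z0 a1 ap p| ∧ d ≤ |AA z0 a1 am p|)},
          ker2 κ (bar z0) p * Sg2 q p ≤ ENNReal.ofReal eps := by
  obtain ⟨R, hR, hT⟩ := tail2 M hκ (eps := eps / 4) (by positivity)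
  obtain ⟨δ, hδ, hS⟩ := small2 M (eps := eps / 4) (by positivity)
  obtain ⟨C, hC, hA⟩ := volume_AA_strip R b0 hR hb0
  refine ⟨R, hR, fun dmax hdmax => ?_⟩
  refine ⟨min dmax (min (√δ / 2) (δ / C)), by positivity, min_le_left _ _, ?_⟩
  set d : ℝ := min dmax (min (√δ / 2) (δ / C)) with hd
  have hd0 : 0 < d := by positivity
  have hd1 : d ≤ √δ / 2 := (min_le_right _ _).trans (min_le_left _ _)
  have hd2 : d ≤ δ / C := (min_le_right _ _).trans (min_le_right _ _)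
  have h4d : 4 * d ^ 2 ≤ δ := by
    have h1 : d ^ 2 ≤ (√δ / 2) ^ 2 := pow_le_pow_left₀ hd0.le hd1 2
    have h2 := Real.sq_sqrt hδ.le
    nlinarith
  have hCd : C * d ≤ δ := by
    have := (le_div_iff₀ hC).1 hd2
    linarith
  intro z0 a1 ap am q h1 hp hm
  have hsub : {p : P2 | ¬ (d ≤ ‖p - bar z0‖ ∧ ‖p - bar z0‖ ≤ R ∧
            d ≤ |AA z0 a1 ap p| ∧ d ≤ |AA z0 a1 am p|)}
      ⊆ ({p : P2 | R ≤ ‖p - bar z0‖} ∪ {p : P2 | ‖p - bar z0‖ < d}) ∪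
        ({p : P2 | ‖p - bar z0‖ ≤ R ∧ |AA z0 a1 ap p| < d} ∪
          {p : P2 | ‖p - bar z0‖ ≤ R ∧ |AA z0 a1 am p| < d}) := by
    intro p hp'
    rw [mem_ofPred_eq] at hp'
    by_cases hR1 : R ≤ ‖p - bar z0‖
    · exact Or.inl (Or.inl hR1)
    push Not at hR1
    by_cases hR2 : ‖p - bar z0‖ < d
    · exact Or.inl (Or.inr hR2)
    push Not at hR2
    by_cases hR3 : |AA z0 a1 ap p| < d
    · exact Or.inr (Or.inl ⟨hR1.le, hR3⟩)
    push Not at hR3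
    by_cases hR4 : |AA z0 a1 am p| < d
    · exact Or.inr (Or.inr ⟨hR1.le, hR4⟩)
    push Not at hR4
    exact absurd ⟨hR2, hR1.le, hR3, hR4⟩ hp'
  refine (lintegral_mono_set hsub).trans ?_
  refine (lintegral_union_le _ _ _).trans ?_
  refine (add_le_add (lintegral_union_le _ _ _) (lintegral_union_le _ _ _)).trans ?_
  have e1 := hT q (bar z0)
  have e2 := small2_ker hκ.le hS q (bar z0) {p : P2 | ‖p - bar z0‖ < d}
    ((volume_ball2_le (bar z0) hd0.le).trans (ENNReal.ofReal_le_ofReal h4d))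
  have e3 := small2_ker hκ.le hS q (bar z0) {p : P2 | ‖p - bar z0‖ ≤ R ∧ |AA z0 a1 ap p| < d}
    ((hA z0 a1 ap h1 hp d hd0).trans (ENNReal.ofReal_le_ofReal hCd))
  have e4 := small2_ker hκ.le hS q (bar z0) {p : P2 | ‖p - bar z0‖ ≤ R ∧ |AA z0 a1 am p| < d}
    ((hA z0 a1 am h1 hm d hd0).trans (ENNReal.ofReal_le_ofReal hCd))
  refine (add_le_add (add_le_add e1 e2) (add_le_add e3 e4)).trans ?_
  rw [← ENNReal.ofReal_add (by positivity) (by positivity),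
    ← ENNReal.ofReal_add (by positivity) (by positivity)]
  apply le_of_eq
  congr 1; ring

/-- (B2) second step: the complement of the good `p₂`. -/
theorem bad2_small (M : ℕ) {κ eps U R0 L d b0 d1 R : ℝ} (hκ : 0 < κ) (heps : 0 < eps)
    (hU : 0 < U) (hR0 : 0 < R0) (hR : 0 < R) (hL : 0 < L) (hd : 0 < d) (hb0 : 0 < b0)
    (hd1 : 0 < d1) :
    ∃ R' d' : ℝ, R ≤ R' ∧ 0 < R' ∧ 0 < d' ∧ ∀ (z0 : R3) (ub : P2) (s1 s2 : ℝ),
      (s1 = 1 ∨ s1 = -1) → (s2 = 1 ∨ s2 = -1) →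
      ‖z0‖ ≤ R0 → ‖ub‖ ≤ U → b0 ≤ |z0 2 - 1| → b0 ≤ |z0 2 + 1| →
      d1 ≤ |(inner ℝ (z0 - vec3 ub.1 ub.2 1) (z0 - vec3 ub.1 ub.2 (-1)) : ℝ)| →
      ∀ (τ : ℝ) (p1 : P2), d ≤ τ → τ ≤ L → d ≤ ‖p1 - bar z0‖ → ‖p1 - bar z0‖ ≤ R' →
        d ≤ |AA z0 (vec3 ub.1 ub.2 s1) (vec3 ub.1 ub.2 s2) p1| →
        ∀ q : Fin M → P2,
        ∫⁻ p2 in {p2 : P2 | ¬ (‖p2 - p1‖ ≤ R' ∧
            d' ≤ |JJ z0 (vec3 ub.1 ub.2 s1) (vec3 ub.1 ub.2 s2) (τ, p1, p2)|)},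
          ker2 κ p1 p2 * Sg2 q p2 ≤ ENNReal.ofReal eps := by
  obtain ⟨Rt, hRt, hT⟩ := tail2 M hκ (eps := eps / 2) (by positivity)
  obtain ⟨δ, hδ, hS⟩ := small2 M (eps := eps / 2) (by positivity)
  set R' : ℝ := max R Rt with hR'
  have hR'0 : 0 < R' := lt_of_lt_of_le hR (le_max_left _ _)
  obtain ⟨C, hC, hJ⟩ := volume_JJ_strip U R0 R' L d b0 d1 hU hR0 hR'0 hL hd hb0 hd1
  refine ⟨R', δ / C, le_max_left _ _, hR'0, by positivity, ?_⟩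
  intro z0 ub s1 s2 hs1 hs2 hz0 hub hbp hbm hin τ p1 hτ hτL hZ hZR hA q
  have hsub : {p2 : P2 | ¬ (‖p2 - p1‖ ≤ R' ∧
            δ / C ≤ |JJ z0 (vec3 ub.1 ub.2 s1) (vec3 ub.1 ub.2 s2) (τ, p1, p2)|)}
      ⊆ {p2 : P2 | Rt ≤ ‖p2 - p1‖} ∪ {p2 : P2 | ‖p2 - p1‖ ≤ R' ∧
        |JJ z0 (vec3 ub.1 ub.2 s1) (vec3 ub.1 ub.2 s2) (τ, p1, p2)| < δ / C} := by
    intro p hp
    rw [mem_ofPred_eq] at hp
    by_cases hR1 : ‖p - p1‖ ≤ R'
    · right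
      refine ⟨hR1, ?_⟩
      by_contra hcon
      push Not at hcon
      exact hp ⟨hR1, hcon⟩
    · left
      push Not at hR1
      exact (le_max_right R Rt).trans hR1.le
  refine (lintegral_mono_set hsub).trans ?_
  refine (lintegral_union_le _ _ _).trans ?_
  have e1 := hT q p1
  have e2 := small2_ker hκ.le hS q p1 _
    ((hJ z0 ub s1 s2 hs1 hs2 hz0 hub hbp hbm hin τ p1 hτ hτL hZ hZR hA (δ / C)
      (by positivity)).trans (ENNReal.ofReal_le_ofReal (by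
        apply le_of_eq; field_simp)))
  refine (add_le_add e1 e2).trans ?_
  rw [← ENNReal.ofReal_add (by positivity) (by positivity)]
  apply le_of_eq
  congr 1; ring

end Crest.Agent.R68.S
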