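import Mathlib
import Crest.Agent.R68.SStrip

/-!
# Row 68, Part S: generic height in a plane (P3) (helper180)
-/

set_option autoImplicit false
open MeasureTheory Set Metric
open scoped ENNReal NNReal
open Crest.AnalysisR.VecCalc3 Crest.AnalysisR.PDE.Boltzmann

namespace Crest.Agent.R68.S

theorem volume_frame_eq {A : Set R3} (hA : MeasurableSet A) (v w : R3) :
    volume {p : P2 | v + rot w (vec3 p.1 p.2 0) ∈ A} = planeInt (A.indicator 1) v w := by
  have hB : Measurable fun p : P2 => v + rot w (vec3 p.1 p.2 0) :=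
    measurable_const.add ((rot w).continuous.measurable.comp (by fun_prop))
  have hms : MeasurableSet {p : P2 | v + rot w (vec3 p.1 p.2 0) ∈ A} := hB hA
  rw [← lintegral_indicator_one hms]
  unfold planeInt
  refine lintegral_congr fun p => ?_
  by_cases h : v + rot w (vec3 p.1 p.2 0) ∈ A
  · rw [indicator_of_mem (by exact h), indicator_of_mem (by exact h)]; rfl
  · rw [indicator_of_notMem (by exact h), indicator_of_notMem (by exact h)]

theorem nsq (x : R3) : ‖x‖ ^ 2 = x 0 ^ 2 + x 1 ^ 2 + x 2 ^ 2 := by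
  rw [← norm_sq_vec3, vec3_eta]

/-- points of a nearly horizontal plane have nearly constant height -/
theorem height_near (v : R3) {w : R3} (hw : ‖w‖ = 1) {k : ℝ} (hk : 0 ≤ k)
    (hwk : 1 - (w 2) ^ 2 ≤ k ^ 2) (p : P2) :
    |(v + rot w (vec3 p.1 p.2 0)) 2 - v 2| ≤ k * ‖v + rot w (vec3 p.1 p.2 0) - v‖ := by
  set ζ : R3 := rot w (vec3 p.1 p.2 0) with hζ
  have h0 : (inner ℝ w ζ : ℝ) = 0 := by
    have h := inner_rot w ez (vec3 p.1 p.2 0)
    rw [rot_ez hw, inner_ez, vec3_two] at h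
    exact h
  have h1 : (v + ζ) 2 - v 2 = (inner ℝ (ez - (w 2) • w) ζ : ℝ) := by
    rw [inner_sub_left, real_inner_smul_left, h0, inner_ez]
    simp
  have h2 : ‖ez - (w 2) • w‖ ≤ k := by
    have h3 : ‖ez - (w 2) • w‖ ^ 2 = 1 - (w 2) ^ 2 := by
      rw [norm_sub_sq_real, norm_ez, real_inner_smul_right, inner_ez, norm_smul, hw,
        Real.norm_eq_abs, mul_one, sq_abs]
      ring
    exact abs_le_of_sq_le_sq' (by rw [h3]; exact hwk) hk |>.2
  rw [h1, add_sub_cancel_left]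
  exact (abs_real_inner_le_norm _ _).trans (by gcongr)

set_option maxHeartbeats 4000000 in
/-- **(T5) = (P3)** generic height -/
theorem PA_height (M : ℕ) {κ U R1 d0 eps : ℝ} (hκ : 0 < κ) (hd0 : 0 < d0) (heps : 0 < eps) :
    ∃ d1 R e : ℝ, 0 < d1 ∧ 0 < R ∧ 0 < e ∧ ∀ (ub : P2) (s : ℝ) (v u : R3) (q : Fin M → R3),
      (s = 1 ∨ s = -1) → ‖ub‖ ≤ U → ‖v‖ ≤ R1 →
      d0 ≤ ‖v - vec3 ub.1 ub.2 1‖ → d0 ≤ ‖v - vec3 ub.1 ub.2 (-1)‖ →
      ‖u - vec3 ub.1 ub.2 s‖ ≤ e →
      PA κ u v ({z | R < ‖z‖ ∨ |z 2 - 1| < d1 ∨ |z 2 + 1| < d1 ∨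
        |(inner ℝ (z - vec3 ub.1 ub.2 1) (z - vec3 ub.1 ub.2 (-1)) : ℝ)| < d1}.indicator (Sg q))
        ≤ ENNReal.ofReal eps := by
  obtain ⟨R', hR', hT⟩ := tail2 M hκ (eps := eps / 2) (by positivity)
  obtain ⟨δ, hδ, hS⟩ := small2 M (eps := eps / 2) (by positivity)
  set R : ℝ := |R1| + 2 * R' + 1 with hR
  have hRpos : 0 < R := by positivity
  set R2 : ℝ := R + |R1| with hR2
  have hR2pos : 0 < R2 := by positivity
  set rm : ℝ := |R1| + 2 * |U| + 2 with hrm
  have hrmpos : 0 < rm := by positivity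
  set k : ℝ := d0 / (4 * (R2 + rm)) with hk
  have hkpos : 0 < k := by positivity
  have hkR : k * R2 ≤ d0 / 4 := by
    rw [hk, div_mul_eq_mul_div, div_le_div_iff₀ (by positivity) (by norm_num)]
    nlinarith [mul_pos hd0 hrmpos]
  have hkr : k * rm ≤ d0 / 4 := by
    rw [hk, div_mul_eq_mul_div, div_le_div_iff₀ (by positivity) (by norm_num)]
    nlinarith [mul_pos hd0 hR2pos]
  set e : ℝ := min 1 (d0 / 4) with he
  have hepos : 0 < e := lt_min one_pos (by positivity)
  set Q : ℝ := 12 * R2 / k + 2 * Real.pi + 1 with hQ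
  have hQpos : 0 < Q := by have := Real.pi_pos; positivity
  set d1 : ℝ := min (d0 / 4) (δ / Q) with hd1
  have hd1pos : 0 < d1 := lt_min (by positivity) (by positivity)
  have hd1δ : d1 * Q ≤ δ := by
    calc d1 * Q ≤ δ / Q * Q := by gcongr; exact min_le_right _ _
      _ = δ := by field_simp
  refine ⟨d1, R, e, hd1pos, hRpos, hepos, ?_⟩
  intro ub s v u q hs hub hv hvp hvm hu
  have hR1 : ‖v‖ ≤ |R1| := hv.trans (le_abs_self _)
  have hUn : ‖ub‖ ≤ |U| := hub.trans (le_abs_self _)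
  -- the direction
  have hvc : d0 ≤ ‖v - vec3 ub.1 ub.2 s‖ := by rcases hs with rfl | rfl <;> assumption
  have hr0 : 0 < ‖u - v‖ := by
    rw [norm_pos_iff, sub_ne_zero]
    intro h
    rw [← h] at hvc
    have : e ≤ d0 / 4 := min_le_right _ _
    linarith
  unfold PA
  set w : R3 := ‖u - v‖⁻¹ • (u - v) with hw
  have hw1 : ‖w‖ = 1 := by
    rw [hw, norm_smul, norm_inv, norm_norm, inv_mul_cancel₀ hr0.ne']
  refine (planeInt_frame_le hκ.le q _ v w).trans ?_
  set q' : Fin M → P2 := fun i => bar (rot w (q i - v)) with hq'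
  set a : R3 := vec3 ub.1 ub.2 1 with ha
  set b : R3 := vec3 ub.1 ub.2 (-1) with hb
  -- the three pieces
  set A1 : Set R3 := {z | |(inner ℝ ez z : ℝ) - 1| ≤ d1 ∧ ‖z - v‖ ≤ R2} with hA1
  set A2 : Set R3 := {z | |(inner ℝ ez z : ℝ) - (-1)| ≤ d1 ∧ ‖z - v‖ ≤ R2} with hA2
  set A3 : Set R3 := {z | |(inner ℝ (z - a) (z - b) : ℝ)| ≤ d1} with hA3
  have hmA : ∀ c : ℝ, MeasurableSet {z : R3 | |(inner ℝ ez z : ℝ) - c| ≤ d1 ∧ ‖z - v‖ ≤ R2} := by
    intro c
    have h1 : Measurable fun z : R3 => |(inner ℝ ez z : ℝ) - c| := by fun_prop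
    have h2 : Measurable fun z : R3 => ‖z - v‖ := by fun_prop
    exact (measurableSet_le h1 measurable_const).inter (measurableSet_le h2 measurable_const)
  have hmA3 : MeasurableSet A3 := by
    have h1 : Measurable fun z : R3 => |(inner ℝ (z - a) (z - b) : ℝ)| := by fun_prop
    exact measurableSet_le h1 measurable_const
  have hsub : {p : P2 | v + rot w (vec3 p.1 p.2 0) ∈
      {z : R3 | R < ‖z‖ ∨ |z 2 - 1| < d1 ∨ |z 2 + 1| < d1 ∨
        |(inner ℝ (z - a) (z - b) : ℝ)| < d1}}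
      ⊆ {p : P2 | R' ≤ ‖p - 0‖} ∪ {p : P2 | v + rot w (vec3 p.1 p.2 0) ∈ A1 ∪ A2 ∪ A3} := by
    intro p hp
    by_cases hz : R < ‖v + rot w (vec3 p.1 p.2 0)‖
    · left
      have h1 : ‖v + rot w (vec3 p.1 p.2 0)‖ ≤ ‖v‖ + ‖vec3 p.1 p.2 0‖ := by
        refine (norm_add_le _ _).trans ?_
        rw [norm_rot]
      have h2 : 2 * R' ≤ ‖vec3 p.1 p.2 0‖ := by linarith
      have h3 : ‖vec3 p.1 p.2 0‖ ^ 2 ≤ 2 * ‖p‖ ^ 2 := by
        rw [norm_sq_vec3]
        have := P2_norm_sq p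
        nlinarith
      have h4 : (2 * R') ^ 2 ≤ ‖vec3 p.1 p.2 0‖ ^ 2 := pow_le_pow_left₀ (by positivity) h2 2
      show R' ≤ ‖p - 0‖
      rw [sub_zero]
      by_contra hcon
      push Not at hcon
      have h5 : ‖p‖ ^ 2 < R' ^ 2 := pow_lt_pow_left₀ hcon (norm_nonneg _) (by norm_num)
      nlinarith
    · right
      push Not at hz
      have hz2 : ‖v + rot w (vec3 p.1 p.2 0) - v‖ ≤ R2 :=
        (norm_sub_le _ _).trans (add_le_add hz hR1)
      rcases hp with hp | hp | hp | hp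
      · exact absurd hp (not_lt.2 hz)
      · left; left
        exact ⟨by rw [inner_ez]; exact hp.le, hz2⟩
      · left; right
        exact ⟨by rw [inner_ez, sub_neg_eq_add]; exact hp.le, hz2⟩
      · right
        exact hp.le
  -- volume of the union
  have hvol : volume {p : P2 | v + rot w (vec3 p.1 p.2 0) ∈ A1 ∪ A2 ∪ A3} ≤ ENNReal.ofReal δ := by
    rw [volume_frame_eq (((hmA 1).union (hmA (-1))).union hmA3)]
    have hpl : planeInt ((A1 ∪ A2 ∪ A3).indicator 1) v w
        ≤ planeInt (A1.indicator 1) v w + planeInt (A2.indicator 1) v w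
          + planeInt (A3.indicator 1) v w := by
      rw [← volume_frame_eq (((hmA 1).union (hmA (-1))).union hmA3), ← volume_frame_eq (hmA 1),
        ← volume_frame_eq (hmA (-1)), ← volume_frame_eq hmA3]
      refine le_trans (measure_mono ?_) ((measure_union_le _ _).trans
        (add_le_add (measure_union_le _ _) le_rfl))
      rintro p ((hp | hp) | hp)
      · exact Or.inl (Or.inl hp)
      · exact Or.inl (Or.inr hp)
      · exact Or.inr hp
    refine hpl.trans ?_
    have h3 : planeInt (A3.indicator 1) v w ≤ ENNReal.ofReal (2 * Real.pi * d1) :=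
      planeInt_quadratic v a b hw1 d1
    by_cases hgrad : k ^ 2 ≤ 1 - (w 2) ^ 2
    · have hg : k ^ 2 ≤ ‖ez‖ ^ 2 - (inner ℝ w ez : ℝ) ^ 2 := by
        rw [norm_ez, real_inner_comm, inner_ez, one_pow]; exact hgrad
      have h1 : planeInt (A1.indicator 1) v w ≤ ENNReal.ofReal (6 * R2 * d1 / k) :=
        planeInt_strip v ez 1 hw1 hR2pos.le hd1pos.le hkpos hg
      have h2 : planeInt (A2.indicator 1) v w ≤ ENNReal.ofReal (6 * R2 * d1 / k) :=
        planeInt_strip v ez (-1) hw1 hR2pos.le hd1pos.le hkpos hg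
      refine (add_le_add (add_le_add h1 h2) h3).trans ?_
      have hpi := Real.pi_pos
      rw [← ENNReal.ofReal_add (by positivity) (by positivity),
        ← ENNReal.ofReal_add (by positivity) (by positivity)]
      apply ENNReal.ofReal_le_ofReal
      refine le_trans ?_ hd1δ
      rw [hQ]
      have : 6 * R2 * d1 / k + 6 * R2 * d1 / k + 2 * Real.pi * d1
          = d1 * (12 * R2 / k + 2 * Real.pi) := by field_simp; ring
      rw [this]
      nlinarith
    · push Not at hgrad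
      -- no points: the height stays away from `±1`
      have hE : ∀ σ : ℝ, d0 ≤ ‖v - vec3 ub.1 ub.2 σ‖ → 3 / 4 * d0 ≤ |v 2 - σ| := by
        intro σ hσ
        set r : ℝ := ‖u - v‖ with hrdef
        have hDw : ∀ i, (u - v) i = r * w i := by
          intro i
          rw [hw, PiLp.smul_apply, smul_eq_mul, ← mul_assoc, mul_inv_cancel₀ hr0.ne', one_mul]
        have hrle : r ≤ rm := by
          have h1 : ‖u‖ ≤ ‖u - vec3 ub.1 ub.2 s‖ + ‖vec3 ub.1 ub.2 s‖ := by
            have := norm_add_le (u - vec3 ub.1 ub.2 s) (vec3 ub.1 ub.2 s)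
            rwa [sub_add_cancel] at this
          have h2 : ‖vec3 ub.1 ub.2 s‖ ≤ 2 * |U| + 1 := by
            apply abs_le_of_sq_le_sq' _ (by positivity) |>.2
            rw [norm_sq_vec3]
            have h3 := P2_norm_sq ub
            have h4 : ‖ub‖ ^ 2 ≤ |U| ^ 2 := pow_le_pow_left₀ (norm_nonneg _) hUn 2
            have h5 : s ^ 2 = 1 := by rcases hs with rfl | rfl <;> norm_num
            nlinarith [abs_nonneg U]
          have h6 : r ≤ ‖u‖ + ‖v‖ := norm_sub_le _ _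
          have h7 : e ≤ 1 := min_le_left _ _
          rw [hrm]
          linarith
        have hhor : (u 0 - v 0) ^ 2 + (u 1 - v 1) ^ 2 ≤ (d0 / 4) ^ 2 := by
          have h1 := nsq (u - v)
          have h2 : (u - v) 2 ^ 2 = r ^ 2 * (w 2) ^ 2 := by rw [hDw]; ring
          have h3 : (u 0 - v 0) ^ 2 + (u 1 - v 1) ^ 2 = r ^ 2 * (1 - (w 2) ^ 2) := by
            rw [← hrdef] at h1
            rw [h2] at h1
            simp only [PiLp.sub_apply] at h1
            linarith
          rw [h3]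
          calc r ^ 2 * (1 - (w 2) ^ 2) ≤ r ^ 2 * k ^ 2 := by gcongr
            _ = (k * r) ^ 2 := by ring
            _ ≤ (d0 / 4) ^ 2 := by
                apply pow_le_pow_left₀ (by positivity)
                exact (mul_le_mul_of_nonneg_left hrle hkpos.le).trans hkr
        have hhor2 : (u 0 - ub.1) ^ 2 + (u 1 - ub.2) ^ 2 ≤ (d0 / 4) ^ 2 := by
          have h1 := nsq (u - vec3 ub.1 ub.2 s)
          have h2 : ‖u - vec3 ub.1 ub.2 s‖ ^ 2 ≤ (d0 / 4) ^ 2 :=
            pow_le_pow_left₀ (norm_nonneg _) (hu.trans (min_le_right _ _)) 2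
          simp only [PiLp.sub_apply, vec3_zero, vec3_one, vec3_two] at h1
          nlinarith [sq_nonneg (u 2 - s)]
        have h4 := nsq (v - vec3 ub.1 ub.2 σ)
        simp only [PiLp.sub_apply, vec3_zero, vec3_one, vec3_two] at h4
        have h5 : d0 ^ 2 ≤ ‖v - vec3 ub.1 ub.2 σ‖ ^ 2 := pow_le_pow_left₀ hd0.le hσ 2
        have h6 : (v 0 - ub.1) ^ 2 + (v 1 - ub.2) ^ 2 ≤ d0 ^ 2 / 4 := by
          nlinarith [sq_nonneg ((u 0 - v 0) + (u 0 - ub.1)), sq_nonneg ((u 1 - v 1) + (u 1 - ub.2))]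
        have h7 : (3 / 4 * d0) ^ 2 ≤ (v 2 - σ) ^ 2 := by nlinarith
        exact (pow_le_pow_iff_left₀ (by positivity) (abs_nonneg _) two_ne_zero).1
          (by rw [sq_abs]; exact h7)
      have hemp : ∀ σ : ℝ, d0 ≤ ‖v - vec3 ub.1 ub.2 σ‖ →
          planeInt ({z : R3 | |(inner ℝ ez z : ℝ) - σ| ≤ d1 ∧ ‖z - v‖ ≤ R2}.indicator 1) v w = 0 := by
        intro σ hσ
        rw [← volume_frame_eq (hmA σ)]
        have : {p : P2 | v + rot w (vec3 p.1 p.2 0) ∈
            {z : R3 | |(inner ℝ ez z : ℝ) - σ| ≤ d1 ∧ ‖z - v‖ ≤ R2}} = ∅ := by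
          ext p
          simp only [mem_ofPred_eq, mem_empty_iff_false, iff_false, not_and]
          intro h1 h2
          rw [inner_ez] at h1
          have h3 := height_near v hw1 hkpos.le hgrad.le p
          have h4 : |(v + rot w (vec3 p.1 p.2 0)) 2 - v 2| ≤ d0 / 4 :=
            h3.trans ((mul_le_mul_of_nonneg_left h2 hkpos.le).trans hkR)
          have h5 := hE σ hσ
          have h6 : |v 2 - σ| ≤ |(v + rot w (vec3 p.1 p.2 0)) 2 - σ|
              + |(v + rot w (vec3 p.1 p.2 0)) 2 - v 2| := by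
            have : v 2 - σ = ((v + rot w (vec3 p.1 p.2 0)) 2 - σ)
                - ((v + rot w (vec3 p.1 p.2 0)) 2 - v 2) := by ring
            rw [this]; exact abs_sub _ _
          have h7 : d1 ≤ d0 / 4 := min_le_left _ _
          linarith
        rw [this, measure_empty]
      have h1 : planeInt (A1.indicator 1) v w = 0 := hemp 1 hvp
      have h2 : planeInt (A2.indicator 1) v w = 0 := hemp (-1) hvm
      rw [h1, h2, zero_add, zero_add]
      refine h3.trans (ENNReal.ofReal_le_ofReal (le_trans ?_ hd1δ))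
      rw [hQ]
      have : 0 ≤ 12 * R2 / k := by positivity
      nlinarith
  refine (lintegral_mono_set hsub).trans ((lintegral_union_le _ _ _).trans ?_)
  have hb1 : ∫⁻ p in {p : P2 | R' ≤ ‖p - 0‖}, ker2 κ 0 p * Sg2 q' p
      ≤ ENNReal.ofReal (eps / 2) := hT q' 0
  have hb2 : ∫⁻ p in {p : P2 | v + rot w (vec3 p.1 p.2 0) ∈ A1 ∪ A2 ∪ A3},
      ker2 κ 0 p * Sg2 q' p ≤ ENNReal.ofReal (eps / 2) := by
    refine (lintegral_mono fun p => ?_).trans (hS q' _ hvol)
    calc ker2 κ 0 p * Sg2 q' p ≤ 1 * Sg2 q' p := mul_le_mul' (ker2_le_one hκ.le 0 p) le_rfl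
      _ = Sg2 q' p := one_mul _
  refine (add_le_add hb1 hb2).trans ?_
  rw [← ENNReal.ofReal_add (by positivity) (by positivity)]
  apply le_of_eq
  congr 1; ring

end Crest.Agent.R68.S
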