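import Mathlib
import Crest.Agent.R68.SGraph
import Crest.Agent.R68.SPlane

/-! Row 68, Part S: bounds of the scaled operator `Top` (helper262) -/

set_option autoImplicit false
open MeasureTheory Set Metric
open scoped ENNReal NNReal
open Crest.AnalysisR.VecCalc3 Crest.AnalysisR.PDE.Boltzmann

noncomputable section

namespace Crest.Agent.R68.S

theorem PA_mono {κ : ℝ} {u v : R3} {g g' : R3 → ℝ≥0∞} (h : ∀ z, g z ≤ g' z) :
    PA κ u v g ≤ PA κ u v g' := planeInt_mono (fun z => by gcongr; exact h z) _ _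

theorem Aop_mono {κ : ℝ} {u v : R3} {g g' : R3 → ℝ≥0∞} (h : ∀ z, g z ≤ g' z) :
    Aop κ u v g ≤ Aop κ u v g' := by
  unfold Aop
  gcongr
  exact PA_mono h

attribute [local irreducible] rot vec3

theorem measurable_planeInt_arg (v w : R3) :
    Measurable fun p : ℝ × ℝ => v + rot w (vec3 p.1 p.2 0) := by
  have h : Measurable fun p : ℝ × ℝ => vec3 p.1 p.2 0 := by fun_prop
  exact ((rot w).continuous.measurable.comp h).const_add v

theorem PA_add_le {κ : ℝ} {u v : R3} {g1 g2 : R3 → ℝ≥0∞} (h1 : Measurable g1) :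
    PA κ u v (fun z => g1 z + g2 z) ≤ PA κ u v g1 + PA κ u v g2 := by
  unfold PA planeInt
  rw [← lintegral_add_left]
  · exact le_of_eq (lintegral_congr fun p => by simp only [mul_add])
  · exact ((measurable_ker κ v).mul h1).comp (measurable_planeInt_arg v _)

theorem PA_const_mul {κ : ℝ} {u v : R3} {g : R3 → ℝ≥0∞} (hg : Measurable g) (a : ℝ≥0∞) :
    PA κ u v (fun z => a * g z) = a * PA κ u v g := by
  unfold PA planeInt
  rw [← lintegral_const_mul]
  · exact lintegral_congr fun p => by ring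
  · exact ((measurable_ker κ v).mul hg).comp (measurable_planeInt_arg v _)

theorem one_le_Sg {M : ℕ} (q : Fin M → R3) (z : R3) : 1 ≤ Sg q z := le_self_add

/-- plane integral of a function bounded by `B` off `S` and by `N * Sg` on `S` -/
theorem PA_le_split {M : ℕ} {κ : ℝ} {u v : R3} {g : R3 → ℝ≥0∞} {B N : ℝ≥0∞} {S : Set R3}
    (hS : MeasurableSet S)
    (q : Fin M → R3) (h : ∀ z, g z ≤ B + N * S.indicator (Sg q) z) :
    PA κ u v g ≤ B * PA κ u v (Sg q) + N * PA κ u v (S.indicator (Sg q)) := by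
  calc PA κ u v g ≤ PA κ u v (fun z => B * Sg q z + N * S.indicator (Sg q) z) := by
        apply PA_mono
        intro z
        refine (h z).trans ?_
        gcongr
        calc B = B * 1 := (mul_one _).symm
          _ ≤ B * Sg q z := by gcongr; exact one_le_Sg q z
    _ ≤ PA κ u v (fun z => B * Sg q z) + PA κ u v (fun z => N * S.indicator (Sg q) z) :=
        PA_add_le (measurable_const.mul (measurable_Sg q))
    _ = _ := by
        rw [PA_const_mul (measurable_Sg q), PA_const_mul ((measurable_Sg q).indicator hS)]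

section

variable {Ω : Type} [MeasurableSpace Ω] {π : Measure Ω} {κ L U CN CD : ℝ} {M : ℕ}
  {χ : Ω → ℝ → P2 → ℝ≥0∞} {u : Ω → ℝ → P2 → R3} {W : ℝ → P2 → R3 → ℝ≥0∞}

/-- general bound: plane integrals at most `B` on the fuel -/
theorem Top_le_of_PA' (H : Hyp π L U CN CD M χ u W) {f : ℝ → P2 → R3 → ℝ≥0∞} {B : ℝ≥0∞}
    {c d : ℝ} {ξ : P2} {v : R3} (hc : 0 ≤ c) (hd : d ≤ L)
    (hB : ∀ (ω : Ω) (c1 : ℝ), c < c1 → c1 < d → χ ω c1 (ξ - (c1 - c) • bar v) ≠ 0 →
      PA κ (u ω c1 (ξ - (c1 - c) • bar v)) v (f c1 (ξ - (c1 - c) • bar v)) ≤ B) :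
    Top π κ d χ u f c ξ v ≤ ENNReal.ofReal CN * ENNReal.ofReal (d - c) * B * W c ξ v := by
  unfold Top
  calc ∫⁻ c1 in Ioo c d, ∫⁻ ω, χ ω c1 (ξ - (c1 - c) • bar v) *
        Aop κ (u ω c1 (ξ - (c1 - c) • bar v)) v (f c1 (ξ - (c1 - c) • bar v)) ∂π
      ≤ ∫⁻ _ in Ioo c d, ENNReal.ofReal CN * B * W c ξ v := by
        apply setLIntegral_mono' measurableSet_Ioo
        intro c1 hc1
        calc ∫⁻ ω, χ ω c1 (ξ - (c1 - c) • bar v) *
            Aop κ (u ω c1 (ξ - (c1 - c) • bar v)) v (f c1 (ξ - (c1 - c) • bar v)) ∂π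
            ≤ ∫⁻ ω, (χ ω c1 (ξ - (c1 - c) • bar v) *
              ENNReal.ofReal ‖u ω c1 (ξ - (c1 - c) • bar v) - v‖⁻¹) * B ∂π := by
              apply lintegral_mono
              intro ω
              by_cases h0 : χ ω c1 (ξ - (c1 - c) • bar v) = 0
              · simp only [h0, zero_mul, le_refl]
              · simp only
                rw [mul_assoc]
                gcongr
                unfold Aop
                gcongr
                exact hB ω c1 hc1.1 hc1.2 h0
          _ = (∫⁻ ω, (χ ω c1 (ξ - (c1 - c) • bar v) *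
              ENNReal.ofReal ‖u ω c1 (ξ - (c1 - c) • bar v) - v‖⁻¹) ∂π) * B := by
              rw [lintegral_mul_const]
              have h1 : Measurable fun ω : Ω => (ω, c1, ξ - (c1 - c) • bar v) := by fun_prop
              have h2 := H.mχ.comp h1
              have h3 := H.mu.comp h1
              exact h2.mul (ENNReal.measurable_ofReal.comp ((h3.sub_const v).norm.inv))
          _ ≤ (ENNReal.ofReal CN * W c1 (ξ - (c1 - c) • bar v) v) * B := by
              gcongr
              exact H.newton c1 _ v (hc.trans hc1.1.le) (hc1.2.le.trans hd)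
          _ ≤ (ENNReal.ofReal CN * W c ξ v) * B := by
              gcongr
              exact H.Wmono c c1 ξ v hc hc1.1.le (hc1.2.le.trans hd)
          _ = ENNReal.ofReal CN * B * W c ξ v := by ring
    _ = ENNReal.ofReal CN * ENNReal.ofReal (d - c) * B * W c ξ v := by
        rw [setLIntegral_const, Real.volume_Ioo]
        ring

/-- bound with a lower bound of `‖u - v‖` -/
theorem Top_le_of_PA_far (H : Hyp π L U CN CD M χ u W) {f : ℝ → P2 → R3 → ℝ≥0∞} {B : ℝ≥0∞}
    {c d r : ℝ} {ξ : P2} {v : R3} (hr : 0 < r)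
    (hB : ∀ (ω : Ω) (c1 : ℝ), c < c1 → c1 < d → χ ω c1 (ξ - (c1 - c) • bar v) ≠ 0 →
      r ≤ ‖u ω c1 (ξ - (c1 - c) • bar v) - v‖ ∧
      PA κ (u ω c1 (ξ - (c1 - c) • bar v)) v (f c1 (ξ - (c1 - c) • bar v)) ≤ B) :
    Top π κ d χ u f c ξ v ≤ ENNReal.ofReal r⁻¹ * ENNReal.ofReal (d - c) * B := by
  unfold Top
  calc ∫⁻ c1 in Ioo c d, ∫⁻ ω, χ ω c1 (ξ - (c1 - c) • bar v) *
        Aop κ (u ω c1 (ξ - (c1 - c) • bar v)) v (f c1 (ξ - (c1 - c) • bar v)) ∂π
      ≤ ∫⁻ _ in Ioo c d, ENNReal.ofReal r⁻¹ * B := by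
        apply setLIntegral_mono' measurableSet_Ioo
        intro c1 hc1
        calc ∫⁻ ω, χ ω c1 (ξ - (c1 - c) • bar v) *
            Aop κ (u ω c1 (ξ - (c1 - c) • bar v)) v (f c1 (ξ - (c1 - c) • bar v)) ∂π
            ≤ ∫⁻ _, ENNReal.ofReal r⁻¹ * B ∂π := by
              apply lintegral_mono
              intro ω
              by_cases h0 : χ ω c1 (ξ - (c1 - c) • bar v) = 0
              · simp only [h0, zero_mul, zero_le]
              · simp only
                obtain ⟨h1, h2⟩ := hB ω c1 hc1.1 hc1.2 h0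
                calc χ ω c1 (ξ - (c1 - c) • bar v) *
                    Aop κ (u ω c1 (ξ - (c1 - c) • bar v)) v (f c1 (ξ - (c1 - c) • bar v))
                    ≤ 1 * Aop κ (u ω c1 (ξ - (c1 - c) • bar v)) v
                        (f c1 (ξ - (c1 - c) • bar v)) := by
                      gcongr
                      exact H.χ1 _ _ _
                  _ ≤ ENNReal.ofReal r⁻¹ * B := by
                      rw [one_mul]
                      unfold Aop
                      gcongr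
          _ = ENNReal.ofReal r⁻¹ * B * π univ := by rw [lintegral_const]
          _ ≤ ENNReal.ofReal r⁻¹ * B * 1 := by
              gcongr
              exact H.fin
          _ = ENNReal.ofReal r⁻¹ * B := mul_one _
    _ = ENNReal.ofReal r⁻¹ * ENNReal.ofReal (d - c) * B := by
        rw [setLIntegral_const, Real.volume_Ioo]
        ring

/-- boundedness of `Top` on the class `N W` -/
theorem Top_le' (H : Hyp π L U CN CD M χ u W) {CG : ℝ}
    (hCG : ∀ (q : Fin M → R3) (u v : R3), PA κ u v (Sg q) ≤ ENNReal.ofReal CG)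
    {f : ℝ → P2 → R3 → ℝ≥0∞} {N : ℝ≥0∞} {c d : ℝ} (hc : 0 ≤ c) (hd : d ≤ L)
    (hf : ∀ (c1 : ℝ) (ξ : P2) (v : R3), c < c1 → c1 < d → f c1 ξ v ≤ N * W c1 ξ v)
    (ξ : P2) (v : R3) :
    Top π κ d χ u f c ξ v ≤
      ENNReal.ofReal CN * ENNReal.ofReal (d - c) * (N * ENNReal.ofReal CD * ENNReal.ofReal CG) *
        W c ξ v := by
  apply Top_le_of_PA' H hc hd
  intro ω c1 h1 h2 _
  obtain ⟨q, hq⟩ := H.Wsg c1 (ξ - (c1 - c) • bar v) (hc.trans h1.le) (h2.le.trans hd)
  calc PA κ (u ω c1 (ξ - (c1 - c) • bar v)) v (f c1 (ξ - (c1 - c) • bar v))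
      ≤ PA κ (u ω c1 (ξ - (c1 - c) • bar v)) v (fun z => (N * ENNReal.ofReal CD) * Sg q z) := by
        apply PA_mono
        intro z
        rw [mul_assoc]
        exact (hf c1 _ z h1 h2).trans (by gcongr; exact hq z)
    _ = N * ENNReal.ofReal CD * PA κ (u ω c1 (ξ - (c1 - c) • bar v)) v (Sg q) :=
        PA_const_mul (measurable_Sg q) _
    _ ≤ _ := by gcongr; exact hCG q _ _

/-- the version on the full window -/
theorem Top_le (H : Hyp π L U CN CD M χ u W) {CG : ℝ}
    (hCG : ∀ (q : Fin M → R3) (u v : R3), PA κ u v (Sg q) ≤ ENNReal.ofReal CG)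
    {f : ℝ → P2 → R3 → ℝ≥0∞} {N : ℝ≥0∞}
    (hf : ∀ (c : ℝ) (ξ : P2) (v : R3), 0 ≤ c → c ≤ L → f c ξ v ≤ N * W c ξ v)
    (c : ℝ) (ξ : P2) (v : R3) (hc : 0 ≤ c) :
    Top π κ L χ u f c ξ v ≤
      (ENNReal.ofReal CN * ENNReal.ofReal L * ENNReal.ofReal CD * ENNReal.ofReal CG) * N *
        W c ξ v := by
  refine (Top_le' H hCG hc le_rfl (fun c1 ξ v h1 h2 => hf c1 ξ v (hc.trans h1.le) h2.le)
    ξ v).trans ?_
  calc ENNReal.ofReal CN * ENNReal.ofReal (L - c) * (N * ENNReal.ofReal CD * ENNReal.ofReal CG) *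
        W c ξ v
      ≤ ENNReal.ofReal CN * ENNReal.ofReal L * (N * ENNReal.ofReal CD * ENNReal.ofReal CG) *
        W c ξ v := by
        gcongr
        linarith
    _ = _ := by ring

end

end Crest.Agent.R68.S
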