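import Mathlib
import Crest.Agent.R68.STop
import Crest.Agent.R68.SHeight

/-! Row 68, Part S: the smoothing lemma `core`, from the two-step block (helper262) -/

set_option autoImplicit false
open MeasureTheory Set Metric
open scoped ENNReal NNReal
open Crest.AnalysisR.VecCalc3 Crest.AnalysisR.PDE.Boltzmann

noncomputable section

namespace Crest.Agent.R68.S

attribute [local irreducible] rot vec3

/-- exceptional velocities after the first collision -/
def bad1 (R d : ℝ) (ub : P2) : Set R3 :=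
  {z | R < ‖z‖ ∨ ‖z - vec3 ub.1 ub.2 1‖ < d ∨ ‖z - vec3 ub.1 ub.2 (-1)‖ < d}

/-- exceptional velocities after the second collision -/
def bad2 (R d : ℝ) (ub : P2) : Set R3 :=
  {z | R < ‖z‖ ∨ |z 2 - 1| < d ∨ |z 2 + 1| < d ∨
    |(inner ℝ (z - vec3 ub.1 ub.2 1) (z - vec3 ub.1 ub.2 (-1)) : ℝ)| < d}

/-- the conclusion of the two-step block lemma -/
def BlockStmt (κ L U CN CD : ℝ) (M : ℕ) (R0 d1 ε ρ e C : ℝ) : Prop :=
  ∀ (Ω : Type) [MeasurableSpace Ω] (π : Measure Ω) (χ : Ω → ℝ → P2 → ℝ≥0∞)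
    (u : Ω → ℝ → P2 → R3) (W : ℝ → P2 → R3 → ℝ≥0∞) (ub : P2) (s : Ω → ℝ),
    Hyp π L U CN CD M χ u W → Near L U e ρ χ u ub s → Measurable s →
    ∀ f : ℝ → P2 → R3 → ℝ≥0∞, Measurable (fun q : ℝ × P2 × R3 => f q.1 q.2.1 q.2.2) →
    ∀ N m : ℝ≥0∞, (∀ (c : ℝ) (ξ : P2) (v : R3), 0 ≤ c → c ≤ L → f c ξ v ≤ N * W c ξ v) →
    (∀ c : ℝ, 0 ≤ c → c ≤ L →
      ∫⁻ ξ in closedBall (0 : P2) ρ, ∫⁻ z in closedBall (0 : R3) ρ, f c ξ z ≤ m) →
    ∀ (c : ℝ) (ξ : P2) (z0 : R3), 0 ≤ c → c ≤ L → ‖ξ‖ ≤ R0 → z0 ∉ bad2 R0 d1 ub →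
    Top π κ L χ u (Top π κ L χ u f) c ξ z0 ≤ ENNReal.ofReal ε * N + ENNReal.ofReal C * m

theorem Near.mono {Ω : Type} {L U e e' ρ ρ' : ℝ} {χ : Ω → ℝ → P2 → ℝ≥0∞}
    {u : Ω → ℝ → P2 → R3} {ub : P2} {s : Ω → ℝ} (h : Near L U e ρ χ u ub s)
    (he : e ≤ e') (hρ : ρ' ≤ ρ) : Near L U e' ρ' χ u ub s where
  s1 := h.s1
  ubd := h.ubd
  close := fun ω c ξ h0 h1 h2 h3 => (h.close ω c ξ h0 h1 (h2.trans hρ) h3).trans he
  lip := fun ω c c' ξ ξ' h0 h1 h2 h3 h4 h5 h6 h7 =>
    (h.lip ω c c' ξ ξ' h0 h1 (h2.trans hρ) h3 h4 h5 (h6.trans hρ) h7).trans (by gcongr)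

theorem measurableSet_bad1 (R d : ℝ) (ub : P2) : MeasurableSet (bad1 R d ub) := by
  exact (measurableSet_lt measurable_const measurable_norm).union
    ((measurableSet_lt (measurable_id.sub_const _).norm measurable_const).union
      (measurableSet_lt (measurable_id.sub_const _).norm measurable_const))

theorem measurableSet_bad2 (R d : ℝ) (ub : P2) : MeasurableSet (bad2 R d ub) := by
  have h1 : Continuous fun z : R3 => |z 2 - 1| := by fun_prop
  have h2 : Continuous fun z : R3 => |z 2 + 1| := by fun_prop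
  have h3 : Continuous fun z : R3 =>
    |(inner ℝ (z - vec3 ub.1 ub.2 1) (z - vec3 ub.1 ub.2 (-1)) : ℝ)| := by fun_prop
  exact (measurableSet_lt measurable_const measurable_norm).union
    ((measurableSet_lt h1.measurable measurable_const).union
      ((measurableSet_lt h2.measurable measurable_const).union
        (measurableSet_lt h3.measurable measurable_const)))

set_option maxHeartbeats 1000000 in
theorem core (κ L U CN CD : ℝ) (M : ℕ) (hκ : 0 < κ) (hL : 0 < L) (hU : 0 < U) (hCN : 0 < CN)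
    (hCD : 0 < CD)
    (hblock : ∀ R0 d1 ε : ℝ, 0 < R0 → 0 < d1 → 0 < ε →
      ∃ ρ e C : ℝ, 0 < ρ ∧ 0 < e ∧ 0 < C ∧ BlockStmt κ L U CN CD M R0 d1 ε ρ e C)
    {ε : ℝ} (hε : 0 < ε) :
    ∃ ρ e C : ℝ, 0 < ρ ∧ 0 < e ∧ 0 < C ∧
    ∀ (Ω : Type) [MeasurableSpace Ω] (π : Measure Ω) (χ : Ω → ℝ → P2 → ℝ≥0∞)
      (u : Ω → ℝ → P2 → R3) (W : ℝ → P2 → R3 → ℝ≥0∞) (ub : P2) (s : Ω → ℝ),
      Hyp π L U CN CD M χ u W → Near L U e ρ χ u ub s → Measurable s →
      ∀ f : ℝ → P2 → R3 → ℝ≥0∞, Measurable (fun q : ℝ × P2 × R3 => f q.1 q.2.1 q.2.2) →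
      ∀ N m : ℝ≥0∞, (∀ (c : ℝ) (ξ : P2) (v : R3), 0 ≤ c → c ≤ L → f c ξ v ≤ N * W c ξ v) →
      (∀ c : ℝ, 0 ≤ c → c ≤ L →
        ∫⁻ ξ in closedBall (0 : P2) ρ, ∫⁻ z in closedBall (0 : R3) ρ, f c ξ z ≤ m) →
      ∀ v : R3, (Top π κ L χ u)^[4] f 0 0 v ≤
        (ENNReal.ofReal ε * N + ENNReal.ofReal C * m) * W 0 0 v := by
  obtain ⟨CG, hCG0, hCG⟩ := PA_whole M hκ
  set ct : ℝ := CN * L * CD * CG with hct
  have hct0 : 0 < ct := by positivity
  -- far velocities
  set R1 : ℝ := U + 1 + L * ct ^ 3 * CD * CG / ε with hR1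
  have hR1U : 0 < R1 - U := by
    have : 0 < L * ct ^ 3 * CD * CG / ε := by positivity
    linarith
  have hR10 : 0 < R1 := by linarith
  have hfar : (R1 - U)⁻¹ * L * ct ^ 3 * CD * CG ≤ ε := by
    have h1 : L * ct ^ 3 * CD * CG / ε ≤ R1 - U := by linarith
    have h2 : (R1 - U)⁻¹ * L * ct ^ 3 * CD * CG = (L * ct ^ 3 * CD * CG) / (R1 - U) := by
      field_simp
    rw [h2, div_le_iff₀ hR1U]
    rw [div_le_iff₀ hε] at h1
    linarith
  -- first step
  set ε2 : ℝ := ε / 3 / (CN * L * ct ^ 3 * CD) with hε2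
  have hε20 : 0 < ε2 := by positivity
  obtain ⟨d0, R2, hd0, hR2, hbad1⟩ := PA_dist M (R1 := R1) hκ hε20
  -- second step
  set ε3 : ℝ := ε / 3 / (CN * L * CG * (2 / d0) * L * ct ^ 2 * CD) with hε3
  have hε30 : 0 < ε3 := by positivity
  obtain ⟨d1, R3', e3, hd1, hR3, he3, hbad2⟩ :=
    PA_height M (U := U) (R1 := R2) hκ hd0 hε30
  -- block
  set ε4 : ℝ := ε / 3 / (CN * L * CG * (2 / d0) * L * CG) with hε4
  have hε40 : 0 < ε4 := by positivity
  set R0 : ℝ := max R3' (L * R1 + L * R2) with hR0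
  have hR00 : 0 < R0 := lt_of_lt_of_le hR3 (le_max_left _ _)
  obtain ⟨ρ4, e4, C4, hρ4, he4, hC4, hB⟩ := hblock R0 d1 ε4 hR00 hd1 hε40
  set C : ℝ := CN * L * CG * (2 / d0) * L * CG * C4 with hC
  have hC0 : 0 < C := by positivity
  refine ⟨max ρ4 R0, min (min e3 e4) (d0 / 2), C, lt_of_lt_of_le hρ4 (le_max_left _ _),
    by positivity, hC0, ?_⟩
  intro Ω _ π χ u W ub s H hN hs f hf N m hfN hfm v
  set ρ := max ρ4 R0 with hρ
  set e := min (min e3 e4) (d0 / 2) with he
  set T := Top π κ L χ u with hT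
  set CT : ℝ≥0∞ := ENNReal.ofReal ct with hCTdef
  have hCT : ENNReal.ofReal CN * ENNReal.ofReal L * ENNReal.ofReal CD * ENNReal.ofReal CG = CT := by
    rw [hCTdef, hct, ENNReal.ofReal_mul (by positivity), ENNReal.ofReal_mul (by positivity),
      ENNReal.ofReal_mul hCN.le]
  have hNear4 : Near L U e4 ρ4 χ u ub s :=
    hN.mono ((min_le_left _ _).trans (min_le_right _ _)) (le_max_left _ _)
  -- crude bounds
  have hT1 : ∀ (c : ℝ) (ξ : P2) (v : R3), 0 ≤ c → T f c ξ v ≤ (CT * N) * W c ξ v := by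
    intro c ξ v hc
    rw [← hCT]
    exact Top_le H hCG hfN c ξ v hc
  have hT2 : ∀ (c : ℝ) (ξ : P2) (v : R3), 0 ≤ c → T (T f) c ξ v ≤ (CT * (CT * N)) * W c ξ v := by
    intro c ξ v hc
    rw [← hCT]
    rw [← hCT] at hT1
    exact Top_le H hCG (fun c ξ v hc _ => hT1 c ξ v hc) c ξ v hc
  have hT3 : ∀ (c : ℝ) (ξ : P2) (v : R3), 0 ≤ c →
      T (T (T f)) c ξ v ≤ (CT * (CT * (CT * N))) * W c ξ v := by
    intro c ξ v hc
    rw [← hCT]
    rw [← hCT] at hT2
    exact Top_le H hCG (fun c ξ v hc _ => hT2 c ξ v hc) c ξ v hc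
  have hiter : (Top π κ L χ u)^[4] f = T (T (T (T f))) := rfl
  rw [hiter]
  -- block
  set B2 : ℝ≥0∞ := ENNReal.ofReal ε4 * N + ENNReal.ofReal C4 * m with hB2
  have hblk : ∀ (c : ℝ) (ξ : P2) (z0 : R3), 0 ≤ c → c ≤ L → ‖ξ‖ ≤ R0 → z0 ∉ bad2 R0 d1 ub →
      T (T f) c ξ z0 ≤ B2 := by
    apply hB Ω π χ u W ub s H hNear4 hs f hf N m hfN
    intro c h0 h1
    refine le_trans ?_ (hfm c h0 h1)
    have hρ' : ρ4 ≤ ρ := le_max_left _ _
    calc ∫⁻ ξ in closedBall (0 : P2) ρ4, ∫⁻ z in closedBall (0 : R3) ρ4, f c ξ z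
        ≤ ∫⁻ ξ in closedBall (0 : P2) ρ, ∫⁻ z in closedBall (0 : R3) ρ4, f c ξ z :=
          lintegral_mono_set (closedBall_subset_closedBall hρ')
      _ ≤ _ := lintegral_mono fun ξ => lintegral_mono_set (closedBall_subset_closedBall hρ')
  -- third application
  set B3 : ℝ≥0∞ := ENNReal.ofReal (2 / d0) * ENNReal.ofReal L *
    (B2 * ENNReal.ofReal CG + CT * (CT * N) * ENNReal.ofReal CD * ENNReal.ofReal ε3) with hB3
  have hthird : ∀ (c : ℝ) (ξ : P2) (z1 : R3), 0 ≤ c → c ≤ L → ‖ξ‖ ≤ L * R1 → z1 ∉ bad1 R2 d0 ub →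
      T (T (T f)) c ξ z1 ≤ B3 := by
    intro c ξ z1 hc hcL hξ hz1
    simp only [bad1, mem_ofPred_eq, not_or, not_lt] at hz1
    obtain ⟨hz1R, hz1p, hz1m⟩ := hz1
    have h := Top_le_of_PA_far (κ := κ) (d := L) H (f := T (T f))
      (B := B2 * ENNReal.ofReal CG + CT * (CT * N) * ENNReal.ofReal CD * ENNReal.ofReal ε3)
      (c := c) (r := d0 / 2) (ξ := ξ) (v := z1) (by positivity) ?_
    · refine h.trans ?_
      rw [hB3]
      have h2 : (d0 / 2)⁻¹ = 2 / d0 := by field_simp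
      rw [h2]
      gcongr
      linarith
    · intro ω c1 h1 h2 hχ
      have hξ1 : ‖ξ - (c1 - c) • bar z1‖ ≤ L * R1 + L * R2 := by
        calc ‖ξ - (c1 - c) • bar z1‖ ≤ ‖ξ‖ + ‖(c1 - c) • bar z1‖ := norm_sub_le _ _
          _ ≤ L * R1 + L * R2 := by
              rw [norm_smul, Real.norm_eq_abs, abs_of_pos (by linarith)]
              have := (nbar_le z1).trans hz1R
              gcongr
              linarith
      have hξρ : ‖ξ - (c1 - c) • bar z1‖ ≤ ρ :=
        hξ1.trans ((le_max_right _ _).trans (le_max_right _ _))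
      have hcl := hN.close ω c1 (ξ - (c1 - c) • bar z1) (hc.trans h1.le) h2.le hξρ hχ
      have hs := hN.s1 ω
      constructor
      · have h4 : d0 ≤ ‖z1 - vec3 ub.1 ub.2 (s ω)‖ := by
          rcases hs with hs | hs <;> rw [hs] <;> assumption
        have h5 : ‖z1 - vec3 ub.1 ub.2 (s ω)‖ ≤
            ‖u ω c1 (ξ - (c1 - c) • bar z1) - z1‖ +
              ‖u ω c1 (ξ - (c1 - c) • bar z1) - vec3 ub.1 ub.2 (s ω)‖ := by
          calc ‖z1 - vec3 ub.1 ub.2 (s ω)‖ =
              ‖(u ω c1 (ξ - (c1 - c) • bar z1) - vec3 ub.1 ub.2 (s ω)) -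
                (u ω c1 (ξ - (c1 - c) • bar z1) - z1)‖ := by congr 1; abel
            _ ≤ _ := by rw [add_comm]; exact norm_sub_le _ _
        have h6 : e ≤ d0 / 2 := min_le_right _ _
        linarith
      · obtain ⟨q, hq⟩ := H.Wsg c1 (ξ - (c1 - c) • bar z1) (hc.trans h1.le) h2.le
        have hsplit := PA_le_split (κ := κ) (u := u ω c1 (ξ - (c1 - c) • bar z1)) (v := z1)
          (g := T (T f) c1 (ξ - (c1 - c) • bar z1)) (B := B2)
          (N := CT * (CT * N) * ENNReal.ofReal CD)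
          (measurableSet_bad2 R3' d1 ub) q ?_
        · refine hsplit.trans ?_
          gcongr
          · exact hCG q _ _
          · exact hbad2 ub (s ω) z1 _ q hs hN.ubd hz1R hz1p hz1m
              (hcl.trans ((min_le_left _ _).trans (min_le_left _ _)))
        · intro z
          by_cases hz : z ∈ bad2 R3' d1 ub
          · rw [indicator_of_mem hz]
            calc T (T f) c1 (ξ - (c1 - c) • bar z1) z
                ≤ CT * (CT * N) * W c1 (ξ - (c1 - c) • bar z1) z := hT2 _ _ _ (hc.trans h1.le)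
              _ ≤ CT * (CT * N) * (ENNReal.ofReal CD * Sg q z) := by gcongr; exact hq z
              _ ≤ B2 + CT * (CT * N) * ENNReal.ofReal CD * Sg q z := by
                  rw [mul_assoc (CT * (CT * N))]
                  exact le_add_self
          · rw [indicator_of_notMem hz, mul_zero, add_zero]
            apply hblk _ _ _ (hc.trans h1.le) h2.le (hξ1.trans (le_max_right _ _))
            intro h
            apply hz
            simp only [bad2, mem_ofPred_eq] at h ⊢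
            rcases h with h | h
            · left
              exact lt_of_le_of_lt (le_max_left _ _) h
            · right; exact h
  -- fourth application
  rcases le_total R1 ‖v‖ with hv | hv
  · have h := Top_le_of_PA_far (κ := κ) (d := L) H (f := T (T (T f)))
      (B := CT * (CT * (CT * N)) * ENNReal.ofReal CD * ENNReal.ofReal CG)
      (c := 0) (r := R1 - U) (ξ := 0) (v := v) hR1U ?_
    · refine h.trans ?_
      rw [sub_zero]
      calc ENNReal.ofReal (R1 - U)⁻¹ * ENNReal.ofReal L *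
            (CT * (CT * (CT * N)) * ENNReal.ofReal CD * ENNReal.ofReal CG)
          = ENNReal.ofReal ((R1 - U)⁻¹ * L * ct ^ 3 * CD * CG) * N := by
            have e0 : ENNReal.ofReal (R1 - U)⁻¹ * ENNReal.ofReal L * ENNReal.ofReal ct ^ 3 *
                ENNReal.ofReal CD * ENNReal.ofReal CG =
                ENNReal.ofReal ((R1 - U)⁻¹ * L * ct ^ 3 * CD * CG) := by
              rw [← ENNReal.ofReal_pow hct0.le]
              simp only [ENNReal.ofReal_mul', hCG0.le, hL.le, hCD.le,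
                (by positivity : 0 ≤ ct ^ 3)]
            rw [hCTdef, ← e0]
            ring
        _ ≤ ENNReal.ofReal ε * N := by gcongr
        _ ≤ (ENNReal.ofReal ε * N + ENNReal.ofReal C * m) * 1 := by
            rw [mul_one]; exact le_self_add
        _ ≤ (ENNReal.ofReal ε * N + ENNReal.ofReal C * m) * W 0 0 v := by
            gcongr
            exact H.W1 _ _ _
    · intro ω c1 h1 h2 hχ
      constructor
      · have h3 := H.bd ω c1 _ hχ
        have h4 := norm_sub_norm_le v (u ω c1 (0 - (c1 - 0) • bar v))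
        rw [norm_sub_rev] at h4
        linarith
      · obtain ⟨q, hq⟩ := H.Wsg c1 (0 - (c1 - 0) • bar v) h1.le h2.le
        calc PA κ (u ω c1 (0 - (c1 - 0) • bar v)) v (T (T (T f)) c1 (0 - (c1 - 0) • bar v))
            ≤ PA κ (u ω c1 (0 - (c1 - 0) • bar v)) v
                (fun z => (CT * (CT * (CT * N)) * ENNReal.ofReal CD) * Sg q z) := by
              apply PA_mono
              intro z
              rw [mul_assoc (CT * (CT * (CT * N)))]
              exact (hT3 c1 _ z h1.le).trans (by gcongr; exact hq z)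
          _ = (CT * (CT * (CT * N)) * ENNReal.ofReal CD) *
                PA κ (u ω c1 (0 - (c1 - 0) • bar v)) v (Sg q) :=
              PA_const_mul (measurable_Sg q) _
          _ ≤ _ := by gcongr; exact hCG q _ _
  · have h := Top_le_of_PA' (κ := κ) (d := L) H (f := T (T (T f)))
      (B := B3 * ENNReal.ofReal CG +
        CT * (CT * (CT * N)) * ENNReal.ofReal CD * ENNReal.ofReal ε2)
      (c := 0) (ξ := 0) (v := v) le_rfl le_rfl ?_
    · refine h.trans ?_
      rw [sub_zero]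
      gcongr
      rw [hB3, hB2, hCTdef]
      have e1 : CN * L * CG * (2 / d0) * L * CG * ε4 = ε / 3 := by
        rw [hε4]; field_simp
      have e2 : CN * L * CG * (2 / d0) * L * ct ^ 2 * CD * ε3 = ε / 3 := by
        rw [hε3]; field_simp
      have e3 : CN * L * ct ^ 3 * CD * ε2 = ε / 3 := by
        rw [hε2]; field_simp
      have e1' : ENNReal.ofReal CN * ENNReal.ofReal L * ENNReal.ofReal CG *
          ENNReal.ofReal (2 / d0) * ENNReal.ofReal L * ENNReal.ofReal CG * ENNReal.ofReal ε4 =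
          ENNReal.ofReal (ε / 3) := by
        rw [← e1]
        simp only [ENNReal.ofReal_mul', hε40.le, hCG0.le, hL.le, (by positivity : 0 ≤ 2 / d0),
          hCN.le]
      have e2' : ENNReal.ofReal CN * ENNReal.ofReal L * ENNReal.ofReal CG *
          ENNReal.ofReal (2 / d0) * ENNReal.ofReal L * ENNReal.ofReal ct ^ 2 * ENNReal.ofReal CD *
            ENNReal.ofReal ε3 = ENNReal.ofReal (ε / 3) := by
        rw [← e2, ← ENNReal.ofReal_pow hct0.le]
        simp only [ENNReal.ofReal_mul', hε30.le, hCG0.le, hL.le, (by positivity : 0 ≤ 2 / d0),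
          hCN.le, hCD.le, (by positivity : 0 ≤ ct ^ 2)]
      have e3' : ENNReal.ofReal CN * ENNReal.ofReal L * ENNReal.ofReal ct ^ 3 * ENNReal.ofReal CD *
            ENNReal.ofReal ε2 = ENNReal.ofReal (ε / 3) := by
        rw [← e3, ← ENNReal.ofReal_pow hct0.le]
        simp only [ENNReal.ofReal_mul', hε20.le, hL.le, hCD.le, (by positivity : 0 ≤ ct ^ 3)]
      have e4' : ENNReal.ofReal CN * ENNReal.ofReal L * ENNReal.ofReal CG *
          ENNReal.ofReal (2 / d0) * ENNReal.ofReal L * ENNReal.ofReal CG * ENNReal.ofReal C4 =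
          ENNReal.ofReal C := by
        rw [hC]
        simp only [ENNReal.ofReal_mul', hC4.le, hCG0.le, hL.le, (by positivity : 0 ≤ 2 / d0)]
      have e5 : ENNReal.ofReal ε = ENNReal.ofReal (ε / 3) + ENNReal.ofReal (ε / 3) +
          ENNReal.ofReal (ε / 3) := by
        rw [← ENNReal.ofReal_add (by positivity) (by positivity),
          ← ENNReal.ofReal_add (by positivity) (by positivity)]
        congr 1; ring
      rw [e5]
      nth_rw 1 [← e1']
      nth_rw 1 [← e2']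
      nth_rw 1 [← e3']
      rw [← e4']
      apply le_of_eq
      ring
    · intro ω c1 h1 h2 hχ
      have hξ1 : ‖(0 : P2) - (c1 - 0) • bar v‖ ≤ L * R1 := by
        rw [zero_sub, norm_neg, sub_zero, norm_smul, Real.norm_eq_abs, abs_of_pos h1]
        have := (nbar_le v).trans hv
        gcongr
      obtain ⟨q, hq⟩ := H.Wsg c1 (0 - (c1 - 0) • bar v) h1.le h2.le
      have hsplit := PA_le_split (κ := κ) (u := u ω c1 (0 - (c1 - 0) • bar v)) (v := v)
        (g := T (T (T f)) c1 (0 - (c1 - 0) • bar v)) (B := B3)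
        (N := CT * (CT * (CT * N)) * ENNReal.ofReal CD)
        (measurableSet_bad1 R2 d0 ub) q ?_
      · refine hsplit.trans ?_
        gcongr
        · exact hCG q _ _
        · exact hbad1 q (vec3 ub.1 ub.2 1) (vec3 ub.1 ub.2 (-1)) _ v hv
      · intro z
        by_cases hz : z ∈ bad1 R2 d0 ub
        · rw [indicator_of_mem hz]
          calc T (T (T f)) c1 (0 - (c1 - 0) • bar v) z
              ≤ CT * (CT * (CT * N)) * W c1 (0 - (c1 - 0) • bar v) z := hT3 _ _ _ h1.le
            _ ≤ CT * (CT * (CT * N)) * (ENNReal.ofReal CD * Sg q z) := by gcongr; exact hq z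
            _ ≤ B3 + CT * (CT * (CT * N)) * ENNReal.ofReal CD * Sg q z := by
                rw [mul_assoc (CT * (CT * (CT * N)))]
                exact le_add_self
        · rw [indicator_of_notMem hz, mul_zero, add_zero]
          exact hthird _ _ _ h1.le h2.le hξ1 hz

end Crest.Agent.R68.S
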