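import Crest.Agent.R68.SMap
set_option autoImplicit false
open MeasureTheory Set Metric
open scoped ENNReal NNReal
open Crest.AnalysisR.VecCalc3 Crest.AnalysisR.PDE.Boltzmann

noncomputable section

namespace Crest.Agent.R68.S

/-- (M4): the two-step block in the frozen variables -/
theorem block_le {U R0 R L d d' b0 : ℝ} (hU : 0 < U) (hR0 : 0 < R0) (hR : 0 < R) (hL : 0 < L)
    (hd : 0 < d) (hd' : 0 < d') (hb0 : 0 < b0) :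
    ∃ e C : ℝ, 0 < e ∧ 0 < C ∧ ∀ (z0 a1 a2 : R3), ‖z0‖ ≤ R0 → ‖a1‖ ≤ U → ‖a2‖ ≤ U →
      b0 ≤ |z0 2 - a1 2| → ∀ G : Set (ℝ × P2 × P2), MeasurableSet G →
      G ⊆ Good d d' L R z0 a1 a2 → ∀ (x0 : P2) (u1 : ℝ → R3) (u2 : P2 → R3),
      Measurable u1 → Measurable u2 →
      (∀ θ ∈ G, ‖u1 θ.1 - a1‖ ≤ e) →
      (∀ θ ∈ G, ‖u2 (x0 - θ.1 • (θ.2.1 - bar z0)) - a2‖ ≤ e) →
      (∀ θ ∈ G, ∀ θ' ∈ G, ‖u1 θ.1 - u1 θ'.1‖ ≤ e * |θ.1 - θ'.1|) →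
      ∀ f : P2 → R3 → ℝ≥0∞, (Measurable fun q : P2 × R3 => f q.1 q.2) →
      ∫⁻ τ, ∫⁻ p1, ∫⁻ p2, G.indicator (fun θ => f (x0 - θ.1 • (θ.2.1 - bar z0))
          (gpt (gpt z0 (u1 θ.1) θ.2.1) (u2 (x0 - θ.1 • (θ.2.1 - bar z0))) θ.2.2)) (τ, p1, p2) ≤
        ENNReal.ofReal C * ∫⁻ ξ, ∫⁻ z, f ξ z := by
  obtain ⟨l, e, hl, he, h⟩ := antiLoc hU hR0 hR hL hd hd' hb0
  refine ⟨e, (d ^ 2)⁻¹ * (ncell L l * (1 / (d' / 4))), he, by unfold ncell; positivity, ?_⟩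
  intro z0 a1 a2 hz0 ha1 ha2 hb G hG hGood x0 u1 u2 hu1 hu2 hc1 hc2 hlip f hf
  -- translated good set
  have hanti : ∀ (X p : P2) (τ τ' : ℝ), (τ, bar z0 + τ⁻¹ • X, p) ∈ G →
      (τ', bar z0 + τ'⁻¹ • X, p) ∈ G → |τ - τ'| ≤ l →
      d' / 4 * |τ - τ'| ≤
        |gz (gpt z0 (u1 τ) (bar z0 + τ⁻¹ • X)) (u2 (x0 - τ • τ⁻¹ • X)) p -
          gz (gpt z0 (u1 τ') (bar z0 + τ'⁻¹ • X)) (u2 (x0 - τ' • τ'⁻¹ • X)) p| := by
    intro X p τ τ' hq hq' hττ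
    have hτ0 : 0 < τ := lt_of_lt_of_le hd (hGood hq).1
    have hτ0' : 0 < τ' := lt_of_lt_of_le hd (hGood hq').1
    have e1 : τ • τ⁻¹ • X = X := by rw [smul_smul, mul_inv_cancel₀ hτ0.ne', one_smul]
    have e2 : τ' • τ'⁻¹ • X = X := by rw [smul_smul, mul_inv_cancel₀ hτ0'.ne', one_smul]
    have c2 := hc2 (τ, bar z0 + τ⁻¹ • X, p) hq
    simp only [add_sub_cancel_left] at c2
    rw [e1] at c2
    rw [e1, e2]
    have g1 : (τ, bar z0 + τ⁻¹ • X, p) ∈ Good d d' L R z0 a1 a2 := hGood hq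
    have g2 : (τ', bar z0 + τ'⁻¹ • X, p) ∈ Good d d' L R z0 a1 a2 := hGood hq'
    have c1 : ‖u1 τ - a1‖ ≤ e := hc1 (τ, bar z0 + τ⁻¹ • X, p) hq
    have c1' : ‖u1 τ' - a1‖ ≤ e := hc1 (τ', bar z0 + τ'⁻¹ • X, p) hq'
    have c3 : ‖u1 τ - u1 τ'‖ ≤ e * |τ - τ'| :=
      hlip (τ, bar z0 + τ⁻¹ • X, p) hq (τ', bar z0 + τ'⁻¹ • X, p) hq'
    exact h z0 a1 a2 hz0 ha1 ha2 hb X p τ τ' g1 g2 hττ (u1 τ) (u1 τ') (u2 (x0 - X)) c1 c1' c2 c3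
  have hG'm : MeasurableSet {q : ℝ × P2 × P2 | (q.1, bar z0 + q.2.1, q.2.2) ∈ G} := by
    have : Measurable fun q : ℝ × P2 × P2 => (q.1, bar z0 + q.2.1, q.2.2) := by fun_prop
    exact this hG
  have hτG : ∀ q ∈ {q : ℝ × P2 × P2 | (q.1, bar z0 + q.2.1, q.2.2) ∈ G},
      q.1 ∈ Icc d (d + L) := by
    intro q hq
    have hq1 : (q.1, bar z0 + q.2.1, q.2.2) ∈ G := hq
    have := hGood hq1
    exact ⟨this.1, by linarith [this.2.1]⟩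
  have hζm : Measurable fun q : ℝ × P2 × P2 =>
      gz (gpt z0 (u1 q.1) (bar z0 + q.2.1)) (u2 (x0 - q.1 • q.2.1)) q.2.2 := by
    fun_prop
  have hfm : Measurable fun q : P2 × P2 × ℝ => f q.1 (vec3 q.2.1.1 q.2.1.2 q.2.2) :=
    hf.comp (by fun_prop : Measurable fun q : P2 × P2 × ℝ => (q.1, vec3 q.2.1.1 q.2.1.2 q.2.2))
  have hblock := lintegral_block_le (G := {q : ℝ × P2 × P2 | (q.1, bar z0 + q.2.1, q.2.2) ∈ G})
    hG'm (τ₀ := d) (L := L) (ℓ := l) (d := d' / 4)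
    hd hl (by positivity) hτG
    (ζ := fun τ Z p => gz (gpt z0 (u1 τ) (bar z0 + Z)) (u2 (x0 - τ • Z)) p) hζm
    (fun X p τ τ' hq hq' hττ => hanti X p τ τ' hq hq' hττ)
    (f := fun X p z => f X (vec3 p.1 p.2 z)) hfm x0
  have hfz : ∀ ξ, ∫⁻ z, f ξ z = ∫⁻ p : P2, ∫⁻ c : ℝ, f ξ (vec3 p.1 p.2 c) := fun ξ =>
    lintegral_R3_bar (hf.comp (by fun_prop : Measurable fun z : R3 => (ξ, z)))
  simp_rw [hfz]
  have hC : ENNReal.ofReal ((d ^ 2)⁻¹ * (ncell L l * (1 / (d' / 4)))) =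
      ENNReal.ofReal (d ^ 2)⁻¹ * (ncell L l * ENNReal.ofReal (1 / (d' / 4))) := by
    rw [ENNReal.ofReal_mul (by positivity), ENNReal.ofReal_mul (by positivity),
      ENNReal.ofReal_natCast]
  rw [hC]
  refine le_trans (le_of_eq ?_) hblock
  refine lintegral_congr fun τ => ?_
  rw [← lintegral_add_left_eq_self (μ := (volume : Measure P2)) _ (bar z0)]
  refine lintegral_congr fun Z => ?_
  refine lintegral_congr fun p => ?_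
  by_cases hq : (τ, bar z0 + Z, p) ∈ G
  · have hq' : (τ, Z, p) ∈ {q : ℝ × P2 × P2 | (q.1, bar z0 + q.2.1, q.2.2) ∈ G} := hq
    rw [indicator_of_mem hq, indicator_of_mem hq']
    simp only [add_sub_cancel_left]
    rfl
  · have hq' : (τ, Z, p) ∉ {q : ℝ × P2 × P2 | (q.1, bar z0 + q.2.1, q.2.2) ∈ G} := hq
    rw [indicator_of_notMem hq, indicator_of_notMem hq']

end Crest.Agent.R68.S
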