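import Mathlib
import Crest.Agent.R68.SDefs

/-! Row 68, Part S: reordering of a sixfold integral (helper262) -/

set_option autoImplicit false
open MeasureTheory Set
open scoped ENNReal

namespace Crest.Agent.R68.S

theorem swap6 {A B C D E G : Type*} [MeasurableSpace A] [MeasurableSpace B] [MeasurableSpace C]
    [MeasurableSpace D] [MeasurableSpace E] [MeasurableSpace G]
    (α : Measure A) (β : Measure B) (γ : Measure C) (δ : Measure D) (η : Measure E) (θ : Measure G)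
    [SFinite α] [SFinite β] [SFinite γ] [SFinite δ] [SFinite η] [SFinite θ]
    (F : A → B → C → D → E → G → ℝ≥0∞)
    (hF : Measurable fun q : A × B × C × D × E × G =>
      F q.1 q.2.1 q.2.2.1 q.2.2.2.1 q.2.2.2.2.1 q.2.2.2.2.2) :
    ∫⁻ a, ∫⁻ b, ∫⁻ c, ∫⁻ d, ∫⁻ e, ∫⁻ g, F a b c d e g ∂θ ∂η ∂δ ∂γ ∂β ∂α =
      ∫⁻ d, ∫⁻ b, ∫⁻ e, ∫⁻ a, ∫⁻ c, ∫⁻ g, F a b c d e g ∂θ ∂γ ∂α ∂η ∂β ∂δ := by
  -- innermost integral
  set I : A → B → C → D → E → ℝ≥0∞ := fun a b c d e => ∫⁻ g, F a b c d e g ∂θ with hI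
  have mI : Measurable fun q : A × B × C × D × E => I q.1 q.2.1 q.2.2.1 q.2.2.2.1 q.2.2.2.2 := by
    have h : Measurable fun q : (A × B × C × D × E) × G =>
        F q.1.1 q.1.2.1 q.1.2.2.1 q.1.2.2.2.1 q.1.2.2.2.2 q.2 :=
      hF.comp (f := fun q : (A × B × C × D × E) × G =>
        (q.1.1, q.1.2.1, q.1.2.2.1, q.1.2.2.2.1, q.1.2.2.2.2, q.2)) (by fun_prop)
    exact h.lintegral_prod_right' (ν := θ)
  have hIF : ∀ a b c d e, I a b c d e = ∫⁻ g, F a b c d e g ∂θ := fun _ _ _ _ _ => rfl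
  simp_rw [← hIF]
  clear_value I
  -- integral over `e`
  set J : A → B → C → D → ℝ≥0∞ := fun a b c d => ∫⁻ e, I a b c d e ∂η with hJ
  have mJ : Measurable fun q : A × B × C × D => J q.1 q.2.1 q.2.2.1 q.2.2.2 := by
    have h : Measurable fun q : (A × B × C × D) × E =>
        I q.1.1 q.1.2.1 q.1.2.2.1 q.1.2.2.2 q.2 :=
      mI.comp (f := fun q : (A × B × C × D) × E =>
        (q.1.1, q.1.2.1, q.1.2.2.1, q.1.2.2.2, q.2)) (by fun_prop)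
    exact h.lintegral_prod_right' (ν := η)
  have s1 : ∀ a b, ∫⁻ c, ∫⁻ d, J a b c d ∂δ ∂γ = ∫⁻ d, ∫⁻ c, J a b c d ∂γ ∂δ := by
    intro a b
    apply lintegral_lintegral_swap
    have h : Measurable fun q : C × D => J a b q.1 q.2 :=
      mJ.comp (f := fun q : C × D => (a, b, q.1, q.2)) (by fun_prop)
    exact h.aemeasurable
  have mJ2 : Measurable fun q : A × B × D => ∫⁻ c, J q.1 q.2.1 c q.2.2 ∂γ := by
    have h : Measurable fun q : (A × B × D) × C => J q.1.1 q.1.2.1 q.2 q.1.2.2 :=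
      mJ.comp (f := fun q : (A × B × D) × C => (q.1.1, q.1.2.1, q.2, q.1.2.2)) (by fun_prop)
    exact h.lintegral_prod_right' (ν := γ)
  have s2 : ∀ a, ∫⁻ b, ∫⁻ d, ∫⁻ c, J a b c d ∂γ ∂δ ∂β = ∫⁻ d, ∫⁻ b, ∫⁻ c, J a b c d ∂γ ∂β ∂δ := by
    intro a
    apply lintegral_lintegral_swap
    have h : Measurable fun q : B × D => ∫⁻ c, J a q.1 c q.2 ∂γ :=
      mJ2.comp (f := fun q : B × D => (a, q.1, q.2)) (by fun_prop)
    exact h.aemeasurable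
  have s3 : ∫⁻ a, ∫⁻ d, ∫⁻ b, ∫⁻ c, J a b c d ∂γ ∂β ∂δ ∂α =
      ∫⁻ d, ∫⁻ a, ∫⁻ b, ∫⁻ c, J a b c d ∂γ ∂β ∂α ∂δ := by
    apply lintegral_lintegral_swap
    have h : Measurable fun q : (A × D) × B => ∫⁻ c, J q.1.1 q.2 c q.1.2 ∂γ :=
      mJ2.comp (f := fun q : (A × D) × B => (q.1.1, q.2, q.1.2)) (by fun_prop)
    have h2 := h.lintegral_prod_right' (ν := β)
    exact h2.aemeasurable
  have s4 : ∀ d, ∫⁻ a, ∫⁻ b, ∫⁻ c, J a b c d ∂γ ∂β ∂α = ∫⁻ b, ∫⁻ a, ∫⁻ c, J a b c d ∂γ ∂α ∂β := by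
    intro d
    apply lintegral_lintegral_swap
    have h : Measurable fun q : A × B => ∫⁻ c, J q.1 q.2 c d ∂γ :=
      mJ2.comp (f := fun q : A × B => (q.1, q.2, d)) (by fun_prop)
    exact h.aemeasurable
  have s5 : ∀ a b d, ∫⁻ c, J a b c d ∂γ = ∫⁻ e, ∫⁻ c, I a b c d e ∂γ ∂η := by
    intro a b d
    rw [hJ]
    apply lintegral_lintegral_swap
    have h : Measurable fun q : C × E => I a b q.1 d q.2 :=
      mI.comp (f := fun q : C × E => (a, b, q.1, d, q.2)) (by fun_prop)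
    exact h.aemeasurable
  have s6 : ∀ b d, ∫⁻ a, ∫⁻ e, ∫⁻ c, I a b c d e ∂γ ∂η ∂α =
      ∫⁻ e, ∫⁻ a, ∫⁻ c, I a b c d e ∂γ ∂α ∂η := by
    intro b d
    apply lintegral_lintegral_swap
    have h : Measurable fun q : (A × E) × C => I q.1.1 b q.2 d q.1.2 :=
      mI.comp (f := fun q : (A × E) × C => (q.1.1, b, q.2, d, q.1.2)) (by fun_prop)
    have h2 := h.lintegral_prod_right' (ν := γ)
    exact h2.aemeasurable
  calc ∫⁻ a, ∫⁻ b, ∫⁻ c, ∫⁻ d, J a b c d ∂δ ∂γ ∂β ∂α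
      = ∫⁻ a, ∫⁻ b, ∫⁻ d, ∫⁻ c, J a b c d ∂γ ∂δ ∂β ∂α := by simp_rw [s1]
    _ = ∫⁻ a, ∫⁻ d, ∫⁻ b, ∫⁻ c, J a b c d ∂γ ∂β ∂δ ∂α := by simp_rw [s2]
    _ = ∫⁻ d, ∫⁻ a, ∫⁻ b, ∫⁻ c, J a b c d ∂γ ∂β ∂α ∂δ := s3
    _ = ∫⁻ d, ∫⁻ b, ∫⁻ a, ∫⁻ c, J a b c d ∂γ ∂α ∂β ∂δ := by simp_rw [s4]
    _ = ∫⁻ d, ∫⁻ b, ∫⁻ a, ∫⁻ e, ∫⁻ c, I a b c d e ∂γ ∂η ∂α ∂β ∂δ := by simp_rw [s5]
    _ = ∫⁻ d, ∫⁻ b, ∫⁻ e, ∫⁻ a, ∫⁻ c, I a b c d e ∂γ ∂α ∂η ∂β ∂δ := by simp_rw [s6]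

end Crest.Agent.R68.S
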