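import Mathlib
import Crest.Agent.R68.SCore
import Crest.Agent.R68.SMapB
import Crest.Agent.R68.SSwap

/-! Row 68, Part S: the two-step block, definitions and main term (helper262) -/

set_option autoImplicit false
open MeasureTheory Set Metric
open scoped ENNReal NNReal
open Crest.AnalysisR.VecCalc3 Crest.AnalysisR.PDE.Boltzmann

noncomputable section

namespace Crest.Agent.R68.S

attribute [local irreducible] rot vec3

section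

variable {Ω : Type} [MeasurableSpace Ω]

/-- joint measurability of `Top` -/
theorem measurable_Top {π : Measure Ω} [SFinite π] (κ L : ℝ) {χ : Ω → ℝ → P2 → ℝ≥0∞}
    {u : Ω → ℝ → P2 → R3} (hχ : Measurable fun q : Ω × ℝ × P2 => χ q.1 q.2.1 q.2.2)
    (hu : Measurable fun q : Ω × ℝ × P2 => u q.1 q.2.1 q.2.2) {f : ℝ → P2 → R3 → ℝ≥0∞}
    (hf : Measurable fun q : ℝ × P2 × R3 => f q.1 q.2.1 q.2.2) :
    Measurable fun q : ℝ × P2 × R3 => Top π κ L χ u f q.1 q.2.1 q.2.2 := by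
  have h1 := measurable_Aop_flight κ hu hf
  have hbar : Measurable bar := by unfold bar; fun_prop
  have h2 : Measurable fun q : (ℝ × P2 × R3) × ℝ × Ω =>
      χ q.2.2 q.2.1 (q.1.2.1 - (q.2.1 - q.1.1) • bar q.1.2.2) :=
    hχ.comp (f := fun q : (ℝ × P2 × R3) × ℝ × Ω =>
      (q.2.2, q.2.1, q.1.2.1 - (q.2.1 - q.1.1) • bar q.1.2.2)) (by fun_prop)
  have h3 := h2.mul h1
  have h4 : Measurable fun q : (ℝ × P2 × R3) × ℝ => ∫⁻ ω, χ ω q.2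
      (q.1.2.1 - (q.2 - q.1.1) • bar q.1.2.2) *
      Aop κ (u ω q.2 (q.1.2.1 - (q.2 - q.1.1) • bar q.1.2.2)) q.1.2.2
        (f q.2 (q.1.2.1 - (q.2 - q.1.1) • bar q.1.2.2)) ∂π := by
    have h5 := h3.comp (f := fun q : ((ℝ × P2 × R3) × ℝ) × Ω => (q.1.1, q.1.2, q.2))
      (by fun_prop)
    exact h5.lintegral_prod_right' (ν := π)
  have hS : MeasurableSet {q : (ℝ × P2 × R3) × ℝ | q.2 ∈ Ioo q.1.1 L} :=
    (measurableSet_lt (f := fun q : (ℝ × P2 × R3) × ℝ => q.1.1) (g := fun q => q.2)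
      (by fun_prop) (by fun_prop)).inter
      (measurableSet_lt (f := fun q : (ℝ × P2 × R3) × ℝ => q.2) (g := fun _ => L)
      (by fun_prop) (by fun_prop))
  have h7 := (h4.indicator hS).lintegral_prod_right' (ν := (volume : Measure ℝ))
  convert h7 using 1
  funext q
  unfold Top
  rw [← lintegral_indicator measurableSet_Ioo]
  refine lintegral_congr fun c1 => ?_
  by_cases hc : c1 ∈ Ioo q.1 L
  · rw [indicator_of_mem hc, indicator_of_mem (show (q, c1) ∈ _ from hc)]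
  · rw [indicator_of_notMem hc, indicator_of_notMem (show (q, c1) ∉ _ from hc)]

/-- domain of the main term, `θ = (τ, p₁, p₂)` -/
def GG (d d' L R : ℝ) (χ : Ω → ℝ → P2 → ℝ≥0∞) (z0 : R3) (ub : P2) (s : Ω → ℝ) (c' : ℝ) (ξ' : P2)
    (ω1 ω2 : Ω) (c2 : ℝ) : Set (ℝ × P2 × P2) :=
  {θ | θ ∈ Good d d' L R z0 (vec3 ub.1 ub.2 (s ω1)) (vec3 ub.1 ub.2 (s ω2)) ∧ c' ≤ c2 - θ.1 ∧
    χ ω1 (c2 - θ.1) (ξ' - (c2 - θ.1 - c') • bar z0) ≠ 0 ∧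
    χ ω2 c2 (ξ' - (c2 - c') • bar z0 - θ.1 • (θ.2.1 - bar z0)) ≠ 0}

/-- integrand of the main term -/
def FF (d d' L R : ℝ) (χ : Ω → ℝ → P2 → ℝ≥0∞) (u : Ω → ℝ → P2 → R3)
    (f : ℝ → P2 → R3 → ℝ≥0∞) (z0 : R3) (ub : P2) (s : Ω → ℝ) (c' : ℝ) (ξ' : P2)
    (c1 : ℝ) (ω1 : Ω) (p1 : P2) (c2 : ℝ) (ω2 : Ω) (p2 : P2) : ℝ≥0∞ :=
  (GG d d' L R χ z0 ub s c' ξ' ω1 ω2 c2).indicator
    (fun θ => f c2 (ξ' - (c2 - c') • bar z0 - θ.1 • (θ.2.1 - bar z0))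
      (gpt (gpt z0 (u ω1 (c2 - θ.1) (ξ' - (c2 - θ.1 - c') • bar z0)) θ.2.1)
        (u ω2 c2 (ξ' - (c2 - c') • bar z0 - θ.1 • (θ.2.1 - bar z0))) θ.2.2)) (c2 - c1, p1, p2)

theorem measurable_FF {d d' L R : ℝ} {χ : Ω → ℝ → P2 → ℝ≥0∞} {u : Ω → ℝ → P2 → R3}
    {f : ℝ → P2 → R3 → ℝ≥0∞} {z0 : R3} {ub : P2} {s : Ω → ℝ} {c' : ℝ} {ξ' : P2}
    (hχ : Measurable fun q : Ω × ℝ × P2 => χ q.1 q.2.1 q.2.2)
    (hu : Measurable fun q : Ω × ℝ × P2 => u q.1 q.2.1 q.2.2)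
    (hf : Measurable fun q : ℝ × P2 × R3 => f q.1 q.2.1 q.2.2) (hs : Measurable s) :
    Measurable fun q : ℝ × Ω × P2 × ℝ × Ω × P2 =>
      FF d d' L R χ u f z0 ub s c' ξ' q.1 q.2.1 q.2.2.1 q.2.2.2.1 q.2.2.2.2.1 q.2.2.2.2.2 := by
  set Q := ℝ × Ω × P2 × ℝ × Ω × P2 with hQ
  -- the parameters as functions of `q`
  have mθ : Measurable fun q : Q => (q.2.2.2.1 - q.1, q.2.2.1, q.2.2.2.2.2) := by fun_prop
  have ma1 : Measurable fun q : Q => vec3 ub.1 ub.2 (s q.2.1) := by fun_prop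
  have ma2 : Measurable fun q : Q => vec3 ub.1 ub.2 (s q.2.2.2.2.1) := by fun_prop
  have mx2 : Measurable fun q : Q => ξ' - (q.2.2.2.1 - c') • bar z0 -
      (q.2.2.2.1 - q.1) • (q.2.2.1 - bar z0) := by fun_prop
  have mx1 : Measurable fun q : Q => ξ' - (q.2.2.2.1 - (q.2.2.2.1 - q.1) - c') • bar z0 := by
    fun_prop
  have mχ1 : Measurable fun q : Q => χ q.2.1 (q.2.2.2.1 - (q.2.2.2.1 - q.1))
      (ξ' - (q.2.2.2.1 - (q.2.2.2.1 - q.1) - c') • bar z0) :=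
    hχ.comp (f := fun q : Q => (q.2.1, q.2.2.2.1 - (q.2.2.2.1 - q.1),
      ξ' - (q.2.2.2.1 - (q.2.2.2.1 - q.1) - c') • bar z0)) (by fun_prop)
  have mu1 : Measurable fun q : Q => u q.2.1 (q.2.2.2.1 - (q.2.2.2.1 - q.1))
      (ξ' - (q.2.2.2.1 - (q.2.2.2.1 - q.1) - c') • bar z0) :=
    hu.comp (f := fun q : Q => (q.2.1, q.2.2.2.1 - (q.2.2.2.1 - q.1),
      ξ' - (q.2.2.2.1 - (q.2.2.2.1 - q.1) - c') • bar z0)) (by fun_prop)
  have mχ2 : Measurable fun q : Q => χ q.2.2.2.2.1 q.2.2.2.1 (ξ' - (q.2.2.2.1 - c') • bar z0 -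
      (q.2.2.2.1 - q.1) • (q.2.2.1 - bar z0)) :=
    hχ.comp (f := fun q : Q => (q.2.2.2.2.1, q.2.2.2.1, ξ' - (q.2.2.2.1 - c') • bar z0 -
      (q.2.2.2.1 - q.1) • (q.2.2.1 - bar z0))) (by fun_prop)
  have mu2 : Measurable fun q : Q => u q.2.2.2.2.1 q.2.2.2.1 (ξ' - (q.2.2.2.1 - c') • bar z0 -
      (q.2.2.2.1 - q.1) • (q.2.2.1 - bar z0)) :=
    hu.comp (f := fun q : Q => (q.2.2.2.2.1, q.2.2.2.1, ξ' - (q.2.2.2.1 - c') • bar z0 -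
      (q.2.2.2.1 - q.1) • (q.2.2.1 - bar z0))) (by fun_prop)
  have mF : Measurable fun q : Q => f q.2.2.2.1 (ξ' - (q.2.2.2.1 - c') • bar z0 -
      (q.2.2.2.1 - q.1) • (q.2.2.1 - bar z0))
      (gpt (gpt z0 (u q.2.1 (q.2.2.2.1 - (q.2.2.2.1 - q.1))
      (ξ' - (q.2.2.2.1 - (q.2.2.2.1 - q.1) - c') • bar z0)) q.2.2.1)
        (u q.2.2.2.2.1 q.2.2.2.1 (ξ' - (q.2.2.2.1 - c') • bar z0 -
      (q.2.2.2.1 - q.1) • (q.2.2.1 - bar z0))) q.2.2.2.2.2) := by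
    have hz : Measurable fun q : Q => gpt (gpt z0 (u q.2.1 (q.2.2.2.1 - (q.2.2.2.1 - q.1))
      (ξ' - (q.2.2.2.1 - (q.2.2.2.1 - q.1) - c') • bar z0)) q.2.2.1)
        (u q.2.2.2.2.1 q.2.2.2.1 (ξ' - (q.2.2.2.1 - c') • bar z0 -
      (q.2.2.2.1 - q.1) • (q.2.2.1 - bar z0))) q.2.2.2.2.2 :=
      meas_gpt (meas_gpt measurable_const mu1 (by fun_prop)) mu2 (by fun_prop)
    exact hf.comp (f := fun q : Q => (q.2.2.2.1, ξ' - (q.2.2.2.1 - c') • bar z0 -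
      (q.2.2.2.1 - q.1) • (q.2.2.1 - bar z0), gpt (gpt z0 (u q.2.1 (q.2.2.2.1 - (q.2.2.2.1 - q.1))
      (ξ' - (q.2.2.2.1 - (q.2.2.2.1 - q.1) - c') • bar z0)) q.2.2.1)
        (u q.2.2.2.2.1 q.2.2.2.1 (ξ' - (q.2.2.2.1 - c') • bar z0 -
      (q.2.2.2.1 - q.1) • (q.2.2.1 - bar z0))) q.2.2.2.2.2))
      ((by fun_prop : Measurable fun q : Q => q.2.2.2.1).prodMk (mx2.prodMk hz))
  have hS1 : MeasurableSet {q : Q | (q.2.2.2.1 - q.1, q.2.2.1, q.2.2.2.2.2) ∈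
      Good d d' L R z0 (vec3 ub.1 ub.2 (s q.2.1)) (vec3 ub.1 ub.2 (s q.2.2.2.2.1))} := by
    have h := measurableSet_Good d d' L R
    have h2 : Measurable fun q : Q => ((z0, vec3 ub.1 ub.2 (s q.2.1),
      vec3 ub.1 ub.2 (s q.2.2.2.2.1)), (q.2.2.2.1 - q.1, q.2.2.1, q.2.2.2.2.2)) :=
      (measurable_const.prodMk (ma1.prodMk ma2)).prodMk mθ
    exact h2 h
  have hS2 : MeasurableSet {q : Q | c' ≤ q.2.2.2.1 - (q.2.2.2.1 - q.1)} :=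
    measurableSet_le measurable_const (by fun_prop)
  have hS3 : MeasurableSet {q : Q | χ q.2.1 (q.2.2.2.1 - (q.2.2.2.1 - q.1))
      (ξ' - (q.2.2.2.1 - (q.2.2.2.1 - q.1) - c') • bar z0) ≠ 0} :=
    mχ1 (measurableSet_singleton (0 : ℝ≥0∞)).compl
  have hS4 : MeasurableSet {q : Q | χ q.2.2.2.2.1 q.2.2.2.1 (ξ' - (q.2.2.2.1 - c') • bar z0 -
      (q.2.2.2.1 - q.1) • (q.2.2.1 - bar z0)) ≠ 0} :=
    mχ2 (measurableSet_singleton (0 : ℝ≥0∞)).compl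
  have hS := hS1.inter (hS2.inter (hS3.inter hS4))
  have h := mF.indicator hS
  convert h using 1
  funext q
  unfold FF
  by_cases hq : (q.2.2.2.1 - q.1, q.2.2.1, q.2.2.2.2.2) ∈
      GG d d' L R χ z0 ub s c' ξ' q.2.1 q.2.2.2.2.1 q.2.2.2.1
  · rw [indicator_of_mem hq, indicator_of_mem]
    exact hq
  · rw [indicator_of_notMem hq, indicator_of_notMem]
    exact hq

theorem measurableSet_GG {d d' L R : ℝ} {χ : Ω → ℝ → P2 → ℝ≥0∞}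
    {z0 : R3} {ub : P2} {s : Ω → ℝ} {c' : ℝ} {ξ' : P2}
    (hχ : Measurable fun q : Ω × ℝ × P2 => χ q.1 q.2.1 q.2.2) (ω1 ω2 : Ω) (c2 : ℝ) :
    MeasurableSet (GG d d' L R χ z0 ub s c' ξ' ω1 ω2 c2) := by
  have mχ1 : Measurable fun θ : ℝ × P2 × P2 => χ ω1 (c2 - θ.1)
      (ξ' - (c2 - θ.1 - c') • bar z0) :=
    hχ.comp (f := fun θ : ℝ × P2 × P2 => (ω1, c2 - θ.1, ξ' - (c2 - θ.1 - c') • bar z0))
      (by fun_prop)
  have mχ2 : Measurable fun θ : ℝ × P2 × P2 => χ ω2 c2 (ξ' - (c2 - c') • bar z0 -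
      θ.1 • (θ.2.1 - bar z0)) :=
    hχ.comp (f := fun θ : ℝ × P2 × P2 => (ω2, c2, ξ' - (c2 - c') • bar z0 -
      θ.1 • (θ.2.1 - bar z0))) (by fun_prop)
  have hS2 : MeasurableSet {θ : ℝ × P2 × P2 | c' ≤ c2 - θ.1} :=
    measurableSet_le measurable_const (by fun_prop)
  exact (measurableSet_Good' d d' L R z0 _ _).inter
    (hS2.inter ((mχ1 (measurableSet_singleton (0 : ℝ≥0∞)).compl).inter
      (mχ2 (measurableSet_singleton (0 : ℝ≥0∞)).compl)))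

end

theorem norm_vec3_le (a b c : ℝ) : ‖vec3 a b c‖ ≤ |a| + |b| + |c| := by
  rw [norm_vec3]
  apply Real.sqrt_le_iff.2
  refine ⟨by positivity, ?_⟩
  nlinarith [sq_abs a, sq_abs b, sq_abs c, abs_nonneg a, abs_nonneg b, abs_nonneg c,
    mul_nonneg (abs_nonneg a) (abs_nonneg b), mul_nonneg (abs_nonneg a) (abs_nonneg c),
    mul_nonneg (abs_nonneg b) (abs_nonneg c)]

theorem norm_center_le {U : ℝ} {ub : P2} (h : ‖ub‖ ≤ U) {s : ℝ} (hs : s = 1 ∨ s = -1) :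
    ‖vec3 ub.1 ub.2 s‖ ≤ 2 * U + 1 := by
  have h1 : |ub.1| ≤ U := (norm_fst_le ub).trans h
  have h2 : |ub.2| ≤ U := (norm_snd_le ub).trans h
  have h3 : |s| = 1 := by rcases hs with rfl | rfl <;> simp
  have := norm_vec3_le ub.1 ub.2 s
  linarith

/-- the main term, for fixed labels and fixed `c₂` -/
theorem main_le {U R0 R L d d' b0 : ℝ} (hU : 0 < U) (hR0 : 0 < R0) (hR : 0 < R) (hL : 0 < L)
    (hd : 0 < d) (hd' : 0 < d') (hb0 : 0 < b0) :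
    ∃ e ρ C : ℝ, 0 < e ∧ 0 < ρ ∧ 0 < C ∧
    ∀ (Ω : Type) [MeasurableSpace Ω] (χ : Ω → ℝ → P2 → ℝ≥0∞)
    (u : Ω → ℝ → P2 → R3) (ub : P2) (s : Ω → ℝ), Near L U e ρ χ u ub s →
    Measurable (fun q : Ω × ℝ × P2 => χ q.1 q.2.1 q.2.2) →
    Measurable (fun q : Ω × ℝ × P2 => u q.1 q.2.1 q.2.2) →
    ∀ f : ℝ → P2 → R3 → ℝ≥0∞, Measurable (fun q : ℝ × P2 × R3 => f q.1 q.2.1 q.2.2) →
    ∀ (c' : ℝ) (ξ' : P2) (z0 : R3), 0 ≤ c' → c' ≤ L → ‖ξ'‖ ≤ R0 → ‖z0‖ ≤ R0 →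
      b0 ≤ |z0 2 - 1| → b0 ≤ |z0 2 + 1| →
    ∀ (ω1 ω2 : Ω) (c2 : ℝ), 0 ≤ c2 → c2 ≤ L →
    ∫⁻ c1, ∫⁻ p1, ∫⁻ p2, FF d d' L R χ u f z0 ub s c' ξ' c1 ω1 p1 c2 ω2 p2 ≤
      ENNReal.ofReal C * ∫⁻ ξ in closedBall (0 : P2) ρ, ∫⁻ z in closedBall (0 : R3) ρ, f c2 ξ z := by
  obtain ⟨e1, C1, he1, hC1, hblk⟩ := block_le (U := 2 * U + 1) (by positivity) hR0 hR hL hd hd' hb0
  obtain ⟨e2, C2, he2, hC2, hbd⟩ :=
    gz_bounds (U := 2 * U + 1) (R0 := R0) (R := R) (d := d) (b0 := b0) (by positivity) hR0 hR hd hb0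
  set e : ℝ := min (e1 / (1 + R0)) (min e1 e2) with he
  set ρ : ℝ := (R0 + L * R0 + L * R) + (2 * (R0 + 2 * R) + C2) with hρ
  have hρ0 : 0 < ρ := by positivity
  refine ⟨e, ρ, C1, by positivity, hρ0, hC1, ?_⟩
  intro Ω _ χ u ub s hN hχ hu f hf c' ξ' z0 hc' hc'L hξ' hz0 hb1 hb2 ω1 ω2 c2 hc2 hc2L
  set a1 : R3 := vec3 ub.1 ub.2 (s ω1) with ha1
  set a2 : R3 := vec3 ub.1 ub.2 (s ω2) with ha2
  have ha1n : ‖a1‖ ≤ 2 * U + 1 := norm_center_le hN.ubd (hN.s1 ω1)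
  have ha2n : ‖a2‖ ≤ 2 * U + 1 := norm_center_le hN.ubd (hN.s1 ω2)
  have hh : ∀ t : ℝ, (t = 1 ∨ t = -1) → b0 ≤ |z0 2 - t| := by
    rintro t (rfl | rfl)
    · exact hb1
    · rw [sub_neg_eq_add]; exact hb2
  have hb : b0 ≤ |z0 2 - a1 2| := by
    rw [ha1, vec3_two]; exact hh _ (hN.s1 ω1)
  have hzb : ‖bar z0‖ ≤ R0 := (nbar_le z0).trans hz0
  set x0 : P2 := ξ' - (c2 - c') • bar z0 with hx0
  set G : Set (ℝ × P2 × P2) := GG d d' L R χ z0 ub s c' ξ' ω1 ω2 c2 with hG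
  set u1 : ℝ → R3 := fun τ => u ω1 (c2 - τ) (ξ' - (c2 - τ - c') • bar z0) with hu1
  set u2 : P2 → R3 := fun y => u ω2 c2 y with hu2
  have mu1 : Measurable u1 := hu.comp
    (f := fun τ : ℝ => (ω1, c2 - τ, ξ' - (c2 - τ - c') • bar z0)) (by fun_prop)
  have mu2 : Measurable u2 := hu.comp (f := fun y : P2 => (ω2, c2, y)) (by fun_prop)
  -- positions
  have hpos1 : ∀ θ ∈ G, 0 ≤ c2 - θ.1 ∧ c2 - θ.1 ≤ L ∧
      ‖ξ' - (c2 - θ.1 - c') • bar z0‖ ≤ ρ := by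
    intro θ hθ
    obtain ⟨hg, h1, -, -⟩ := hθ
    obtain ⟨g1, g2, -⟩ := hg
    refine ⟨hc'.trans h1, by linarith, ?_⟩
    calc ‖ξ' - (c2 - θ.1 - c') • bar z0‖ ≤ ‖ξ'‖ + ‖(c2 - θ.1 - c') • bar z0‖ := norm_sub_le _ _
      _ ≤ R0 + L * R0 := by
          rw [norm_smul, Real.norm_eq_abs, abs_of_nonneg (by linarith)]
          gcongr
          linarith
      _ ≤ ρ := by
          rw [hρ]
          have : 0 < L * R := by positivity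
          linarith
  have hpos2 : ∀ θ ∈ G, ‖x0 - θ.1 • (θ.2.1 - bar z0)‖ ≤ ρ := by
    intro θ hθ
    obtain ⟨hg, h1, -, -⟩ := hθ
    obtain ⟨g1, g2, g3, g4, -⟩ := hg
    have hθ0 : 0 < θ.1 := lt_of_lt_of_le hd g1
    calc ‖x0 - θ.1 • (θ.2.1 - bar z0)‖ ≤ ‖x0‖ + ‖θ.1 • (θ.2.1 - bar z0)‖ := norm_sub_le _ _
      _ ≤ (‖ξ'‖ + ‖(c2 - c') • bar z0‖) + ‖θ.1 • (θ.2.1 - bar z0)‖ := by
          gcongr
          exact norm_sub_le _ _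
      _ ≤ (R0 + L * R0) + L * R := by
          rw [norm_smul, norm_smul, Real.norm_eq_abs, Real.norm_eq_abs,
            abs_of_nonneg (show 0 ≤ c2 - c' by linarith), abs_of_pos hθ0]
          gcongr
          linarith
      _ ≤ ρ := by rw [hρ]; linarith
  have hcl1 : ∀ θ ∈ G, ‖u1 θ.1 - a1‖ ≤ e := fun θ hθ =>
    hN.close ω1 _ _ (hpos1 θ hθ).1 (hpos1 θ hθ).2.1 (hpos1 θ hθ).2.2 hθ.2.2.1
  have hcl2 : ∀ θ ∈ G, ‖u2 (x0 - θ.1 • (θ.2.1 - bar z0)) - a2‖ ≤ e := fun θ hθ =>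
    hN.close ω2 _ _ hc2 hc2L (hpos2 θ hθ) hθ.2.2.2
  have hee1 : e ≤ e1 := (min_le_right _ _).trans (min_le_left _ _)
  have hee2 : e ≤ e2 := (min_le_right _ _).trans (min_le_right _ _)
  have hlip : ∀ θ ∈ G, ∀ θ' ∈ G, ‖u1 θ.1 - u1 θ'.1‖ ≤ e1 * |θ.1 - θ'.1| := by
    intro θ hθ θ' hθ'
    have h := hN.lip ω1 _ _ _ _ (hpos1 θ hθ).1 (hpos1 θ hθ).2.1 (hpos1 θ hθ).2.2 hθ.2.2.1
      (hpos1 θ' hθ').1 (hpos1 θ' hθ').2.1 (hpos1 θ' hθ').2.2 hθ'.2.2.1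
    refine h.trans ?_
    have h1 : |c2 - θ.1 - (c2 - θ'.1)| = |θ.1 - θ'.1| := by
      rw [show c2 - θ.1 - (c2 - θ'.1) = -(θ.1 - θ'.1) by ring, abs_neg]
    have h2 : ‖ξ' - (c2 - θ.1 - c') • bar z0 - (ξ' - (c2 - θ'.1 - c') • bar z0)‖ ≤
        |θ.1 - θ'.1| * R0 := by
      have h3 : ξ' - (c2 - θ.1 - c') • bar z0 - (ξ' - (c2 - θ'.1 - c') • bar z0) =
          (θ.1 - θ'.1) • bar z0 := by module
      rw [h3, norm_smul, Real.norm_eq_abs]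
      gcongr
    rw [h1]
    have h4 : e * (1 + R0) ≤ e1 := by
      have : e ≤ e1 / (1 + R0) := min_le_left _ _
      rwa [le_div_iff₀ (by positivity)] at this
    have h5 : 0 ≤ e := by positivity
    calc e * (|θ.1 - θ'.1| + ‖ξ' - (c2 - θ.1 - c') • bar z0 - (ξ' - (c2 - θ'.1 - c') • bar z0)‖)
        ≤ e * (|θ.1 - θ'.1| + |θ.1 - θ'.1| * R0) := by gcongr
      _ = (e * (1 + R0)) * |θ.1 - θ'.1| := by ring
      _ ≤ e1 * |θ.1 - θ'.1| := by gcongr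
  -- the truncated density
  set ft : P2 → R3 → ℝ≥0∞ := fun ξ z => (closedBall (0 : P2) ρ).indicator
    (fun ξ => (closedBall (0 : R3) ρ).indicator (f c2 ξ) z) ξ with hft
  have mft : Measurable fun q : P2 × R3 => ft q.1 q.2 := by
    have h1 : Measurable fun q : P2 × R3 => f c2 q.1 q.2 :=
      hf.comp (f := fun q : P2 × R3 => (c2, q.1, q.2)) (by fun_prop)
    have h2 : MeasurableSet ((closedBall (0 : P2) ρ) ×ˢ (closedBall (0 : R3) ρ)) :=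
      measurableSet_closedBall.prod measurableSet_closedBall
    have h3 := h1.indicator h2
    convert h3 using 1
    funext q
    simp only [hft, indicator_apply, mem_prod]
    by_cases h1 : q.1 ∈ closedBall (0 : P2) ρ <;> by_cases h2 : q.2 ∈ closedBall (0 : R3) ρ <;>
      simp [h1, h2]
  have hkey := hblk z0 a1 a2 hz0 ha1n ha2n hb G (measurableSet_GG hχ ω1 ω2 c2)
    (fun θ hθ => hθ.1) x0 u1 u2 mu1 mu2 (fun θ hθ => (hcl1 θ hθ).trans hee1)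
    (fun θ hθ => (hcl2 θ hθ).trans hee1) hlip ft mft
  have hrhs : ∫⁻ ξ, ∫⁻ z, ft ξ z =
      ∫⁻ ξ in closedBall (0 : P2) ρ, ∫⁻ z in closedBall (0 : R3) ρ, f c2 ξ z := by
    rw [← lintegral_indicator measurableSet_closedBall]
    refine lintegral_congr fun ξ => ?_
    simp only [hft]
    by_cases h1 : ξ ∈ closedBall (0 : P2) ρ
    · simp only [indicator_of_mem h1]
      rw [lintegral_indicator measurableSet_closedBall]
    · simp only [indicator_of_notMem h1, lintegral_zero]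
  rw [hrhs] at hkey
  refine le_trans ?_ hkey
  -- change of variables `τ = c₂ - c₁`
  set Ψ : ℝ → ℝ≥0∞ := fun τ => ∫⁻ p1, ∫⁻ p2, G.indicator
    (fun θ => ft (x0 - θ.1 • (θ.2.1 - bar z0))
      (gpt (gpt z0 (u1 θ.1) θ.2.1) (u2 (x0 - θ.1 • (θ.2.1 - bar z0))) θ.2.2)) (τ, p1, p2) with hΨ
  rw [← lintegral_sub_left_eq_self Ψ c2]
  refine lintegral_mono fun c1 => lintegral_mono fun p1 => lintegral_mono fun p2 => ?_
  unfold FF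
  by_cases hmem : (c2 - c1, p1, p2) ∈ G
  · rw [indicator_of_mem hmem, indicator_of_mem hmem]
    have h1 := hpos2 _ hmem
    have h2 := hcl1 _ hmem
    have h3 := hcl2 _ hmem
    simp only at h1 h2 h3
    obtain ⟨g1, g2, g3, g4, g5, g6, g7⟩ := hmem.1
    simp only at g1 g2 g3 g4 g5 g6 g7
    have hz := hbd z0 a1 a2 hz0 ha1n ha2n hb (u1 (c2 - c1))
      (u2 (x0 - (c2 - c1) • (p1 - bar z0))) p1 (h2.trans hee2) (h3.trans hee2) g4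
    have hz2 := (hz.2.2 g5).2 p2 g6
    have hp2 : ‖p2‖ ≤ R0 + 2 * R := by
      calc ‖p2‖ = ‖(p2 - p1) + (p1 - bar z0) + bar z0‖ := by congr 1; abel
        _ ≤ ‖p2 - p1‖ + ‖p1 - bar z0‖ + ‖bar z0‖ := norm_add₃_le
        _ ≤ R0 + 2 * R := by linarith
    have hn : ‖gpt (gpt z0 (u1 (c2 - c1)) p1)
        (u2 (x0 - (c2 - c1) • (p1 - bar z0))) p2‖ ≤ ρ := by
      unfold gpt at hz2 ⊢
      refine (norm_vec3_le _ _ _).trans ?_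
      have k1 : |p2.1| ≤ ‖p2‖ := norm_fst_le p2
      have k2 : |p2.2| ≤ ‖p2‖ := norm_snd_le p2
      have k3 : 0 < R0 + L * R0 + L * R := by positivity
      rw [hρ]
      linarith
    simp only [hft]
    rw [indicator_of_mem (mem_closedBall_zero_iff.2 h1),
      indicator_of_mem (mem_closedBall_zero_iff.2 hn)]
  · rw [indicator_of_notMem hmem]
    exact zero_le

end Crest.Agent.R68.S
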