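import Mathlib
import Crest.Agent.R68.SBlockA
import Crest.Agent.R68.SBad

/-! Row 68, Part S: the two-step block, second step (helper262) -/

set_option autoImplicit false
open MeasureTheory Set Metric
open scoped ENNReal NNReal
open Crest.AnalysisR.VecCalc3 Crest.AnalysisR.PDE.Boltzmann

noncomputable section

namespace Crest.Agent.R68.S

attribute [local irreducible] rot vec3

section

variable {Ω : Type} [MeasurableSpace Ω] {π : Measure Ω} {κ L U CN CD : ℝ} {M : ℕ}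
  {χ : Ω → ℝ → P2 → ℝ≥0∞} {u : Ω → ℝ → P2 → R3} {W : ℝ → P2 → R3 → ℝ≥0∞}

/-- the second collision, at fixed `(c₁, ω₁, p₁)` and `(c₂, ω₂)` -/
theorem second_le (H : Hyp π L U CN CD M χ u W) (hκ : 0 < κ) {d d' R ρ e eps5 : ℝ} (hd : 0 < d)
    {ub : P2} {s : Ω → ℝ} (hN : Near L U e ρ χ u ub s)
    {f : ℝ → P2 → R3 → ℝ≥0∞} (hf : Measurable fun q : ℝ × P2 × R3 => f q.1 q.2.1 q.2.2)
    {N : ℝ≥0∞} (hfN : ∀ (c : ℝ) (ξ : P2) (v : R3), 0 ≤ c → c ≤ L → f c ξ v ≤ N * W c ξ v)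
    {c' : ℝ} {ξ' : P2} {z0 : R3}
    {ω1 ω2 : Ω} {c1 c2 : ℝ} {p1 : P2} {z1 : R3} (hc' : 0 ≤ c')
    (hz1 : z1 = gpt z0 (u ω1 c1 (ξ' - (c1 - c') • bar z0)) p1)
    (hc1 : c' ≤ c1) (hc12 : c1 + d ≤ c2) (hc2 : c2 ≤ L)
    (hχ1 : χ ω1 c1 (ξ' - (c1 - c') • bar z0) ≠ 0)
    (hρ2 : ‖ξ' - (c1 - c') • bar z0 - (c2 - c1) • bar z1‖ ≤ ρ)
    (hA1 : d ≤ |AA z0 (vec3 ub.1 ub.2 (s ω1)) (vec3 ub.1 ub.2 (s ω2)) p1|)
    (hZ1 : d ≤ ‖p1 - bar z0‖) (hZ2 : ‖p1 - bar z0‖ ≤ R)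
    (hgap : ∀ u2 : R3, ‖u2 - vec3 ub.1 ub.2 (s ω2)‖ ≤ e → d / 2 ≤ |z1 2 - u2 2|)
    (hbad : ∀ q : Fin M → P2,
      ∫⁻ p2 in {p2 : P2 | ¬ (‖p2 - p1‖ ≤ R ∧
          d' ≤ |JJ z0 (vec3 ub.1 ub.2 (s ω1)) (vec3 ub.1 ub.2 (s ω2)) (c2 - c1, p1, p2)|)},
        ker2 κ p1 p2 * Sg2 q p2 ≤ ENNReal.ofReal eps5) :
    χ ω2 c2 (ξ' - (c1 - c') • bar z0 - (c2 - c1) • bar z1) *
      Aop κ (u ω2 c2 (ξ' - (c1 - c') • bar z0 - (c2 - c1) • bar z1)) z1
        (f c2 (ξ' - (c1 - c') • bar z0 - (c2 - c1) • bar z1)) ≤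
      ENNReal.ofReal (2 / d) * (N * ENNReal.ofReal CD * ENNReal.ofReal eps5) +
      ENNReal.ofReal (2 / d) * ∫⁻ p2, FF d d' L R χ u f z0 ub s c' ξ' c1 ω1 p1 c2 ω2 p2 := by
  set ξ2 : P2 := ξ' - (c1 - c') • bar z0 - (c2 - c1) • bar z1 with hξ2
  by_cases hχ2 : χ ω2 c2 ξ2 = 0
  · rw [hχ2, zero_mul]; exact zero_le
  have hc20 : 0 ≤ c2 := by linarith
  have hbz1 : bar z1 = p1 := by rw [hz1]; exact bar_gpt _ _ _
  have hcl := hN.close ω2 c2 ξ2 hc20 hc2 hρ2 hχ2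
  have hg := hgap _ hcl
  set u2 : R3 := u ω2 c2 ξ2 with hu2
  have hne : z1 2 ≠ u2 2 := by
    intro h
    rw [h, sub_self, abs_zero] at hg
    linarith
  have mf : Measurable (f c2 ξ2) := hf.comp (f := fun z : R3 => (c2, ξ2, z)) (by fun_prop)
  have hx0 : ξ' - (c2 - c') • bar z0 - (c2 - c1) • (p1 - bar z0) = ξ2 := by
    rw [hξ2, hbz1]; module
  have hFF : ∀ p2, FF d d' L R χ u f z0 ub s c' ξ' c1 ω1 p1 c2 ω2 p2 =
      (GG d d' L R χ z0 ub s c' ξ' ω1 ω2 c2).indicator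
        (fun _ => f c2 ξ2 (gpt z1 u2 p2)) (c2 - c1, p1, p2) := by
    intro p2
    unfold FF
    by_cases hm : (c2 - c1, p1, p2) ∈ GG d d' L R χ z0 ub s c' ξ' ω1 ω2 c2
    · rw [indicator_of_mem hm, indicator_of_mem hm]
      simp only [sub_sub_cancel]
      rw [hx0, hz1]
    · rw [indicator_of_notMem hm, indicator_of_notMem hm]
  set B : Set P2 := {p2 : P2 | ¬ (‖p2 - p1‖ ≤ R ∧
          d' ≤ |JJ z0 (vec3 ub.1 ub.2 (s ω1)) (vec3 ub.1 ub.2 (s ω2)) (c2 - c1, p1, p2)|)} with hB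
  have hBm : MeasurableSet B := by
    have h1 : Measurable fun p2 : P2 =>
        |JJ z0 (vec3 ub.1 ub.2 (s ω1)) (vec3 ub.1 ub.2 (s ω2)) (c2 - c1, p1, p2)| := by fun_prop
    exact ((measurableSet_le (f := fun p2 : P2 => ‖p2 - p1‖) (g := fun _ => R) (by fun_prop)
      measurable_const).inter (measurableSet_le measurable_const h1)).compl
  obtain ⟨q, hq⟩ := H.Wsg c2 ξ2 hc20 hc2
  have hpt : ∀ p2 : P2, ker κ z1 (gpt z1 u2 p2) * f c2 ξ2 (gpt z1 u2 p2) ≤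
      (N * ENNReal.ofReal CD) * B.indicator (fun p2 => ker2 κ p1 p2 *
        Sg2 (fun i => bar (q i)) p2) p2 + FF d d' L R χ u f z0 ub s c' ξ' c1 ω1 p1 c2 ω2 p2 := by
    intro p2
    by_cases hp : p2 ∈ B
    · rw [indicator_of_mem hp]
      refine le_add_right ?_
      calc ker κ z1 (gpt z1 u2 p2) * f c2 ξ2 (gpt z1 u2 p2)
          ≤ ker2 κ (bar z1) p2 * (N * (ENNReal.ofReal CD * Sg2 (fun i => bar (q i)) p2)) := by
            apply mul_le_mul' (ker_gpt hκ.le _ _ _)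
            refine (hfN c2 ξ2 _ hc20 hc2).trans (mul_le_mul' le_rfl ?_)
            exact (hq _).trans (mul_le_mul' le_rfl (Sg_gpt _ _ _ _))
        _ = _ := by rw [hbz1]; ring
    · rw [indicator_of_notMem hp, mul_zero, zero_add]
      have hp' : ‖p2 - p1‖ ≤ R ∧
          d' ≤ |JJ z0 (vec3 ub.1 ub.2 (s ω1)) (vec3 ub.1 ub.2 (s ω2)) (c2 - c1, p1, p2)| := by
        by_contra h
        exact hp h
      have hm : (c2 - c1, p1, p2) ∈ GG d d' L R χ z0 ub s c' ξ' ω1 ω2 c2 := by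
        refine ⟨⟨by simp only; linarith, by simp only; linarith, hZ1, hZ2, hA1, hp'.1, hp'.2⟩,
          ?_, ?_, ?_⟩
        · simp only [sub_sub_cancel]; exact hc1
        · simp only [sub_sub_cancel]; exact hχ1
        · simp only
          rw [hx0]; exact hχ2
      rw [hFF, indicator_of_mem hm]
      calc ker κ z1 (gpt z1 u2 p2) * f c2 ξ2 (gpt z1 u2 p2) ≤ 1 * f c2 ξ2 (gpt z1 u2 p2) := by
            apply mul_le_mul' _ le_rfl
            exact (ker_gpt hκ.le _ _ _).trans (ker2_le_one hκ.le _ _)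
        _ = _ := one_mul _
  calc χ ω2 c2 ξ2 * Aop κ u2 z1 (f c2 ξ2) ≤ 1 * Aop κ u2 z1 (f c2 ξ2) :=
        mul_le_mul' (H.χ1 _ _ _) le_rfl
    _ = ENNReal.ofReal |z1 2 - u2 2|⁻¹ *
          ∫⁻ p2, ker κ z1 (gpt z1 u2 p2) * f c2 ξ2 (gpt z1 u2 p2) := by
        rw [one_mul, Aop_graph hne mf]
    _ ≤ ENNReal.ofReal (2 / d) * ∫⁻ p2, ((N * ENNReal.ofReal CD) *
          B.indicator (fun p2 => ker2 κ p1 p2 * Sg2 (fun i => bar (q i)) p2) p2 +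
          FF d d' L R χ u f z0 ub s c' ξ' c1 ω1 p1 c2 ω2 p2) := by
        apply mul_le_mul' _ (lintegral_mono hpt)
        apply ENNReal.ofReal_le_ofReal
        rw [show (2 / d : ℝ) = (d / 2)⁻¹ by field_simp]
        gcongr
    _ = ENNReal.ofReal (2 / d) * ((N * ENNReal.ofReal CD) *
          ∫⁻ p2 in B, ker2 κ p1 p2 * Sg2 (fun i => bar (q i)) p2) +
          ENNReal.ofReal (2 / d) *
            ∫⁻ p2, FF d d' L R χ u f z0 ub s c' ξ' c1 ω1 p1 c2 ω2 p2 := by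
        have m1 : Measurable (B.indicator (fun p2 => ker2 κ p1 p2 *
            Sg2 (fun i => bar (q i)) p2)) :=
          ((measurable_ker2 κ p1).mul (measurable_Sg2 _)).indicator hBm
        rw [lintegral_add_left (m1.const_mul _), lintegral_const_mul _ m1,
          lintegral_indicator hBm, mul_add]
    _ ≤ _ := by
        gcongr
        exact hbad _

end

end Crest.Agent.R68.S
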