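import Mathlib
import Crest.Agent.R68.SBlockB

/-! Row 68, Part S: the two-step block, first step (helper262) -/

set_option autoImplicit false
open MeasureTheory Set Metric
open scoped ENNReal NNReal
open Crest.AnalysisR.VecCalc3 Crest.AnalysisR.PDE.Boltzmann

noncomputable section

namespace Crest.Agent.R68.S

attribute [local irreducible] rot vec3

section

variable {Ω : Type} [MeasurableSpace Ω] {π : Measure Ω} {κ L U CN CD : ℝ} {M : ℕ}
  {χ : Ω → ℝ → P2 → ℝ≥0∞} {u : Ω → ℝ → P2 → R3} {W : ℝ → P2 → R3 → ℝ≥0∞}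

set_option maxHeartbeats 1000000 in
/-- the first collision, at fixed `(c₁, ω₁)` -/
theorem first_le (H : Hyp π L U CN CD M χ u W) (hκ : 0 < κ)
    {d d' Rz R ρ e eps5 eps7 b0 : ℝ} (hd : 0 < d) (hRz : Rz ≤ R) (hb0 : 0 < b0)
    {ub : P2} {s : Ω → ℝ} (hN : Near L U e ρ χ u ub s)
    {f : ℝ → P2 → R3 → ℝ≥0∞} (hf : Measurable fun q : ℝ × P2 × R3 => f q.1 q.2.1 q.2.2)
    {N : ℝ≥0∞} (hfN : ∀ (c : ℝ) (ξ : P2) (v : R3), 0 ≤ c → c ≤ L → f c ξ v ≤ N * W c ξ v)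
    {c' : ℝ} {ξ' : P2} {z0 : R3} {ω1 : Ω} {c1 : ℝ}
    (hc' : 0 ≤ c') (hc1 : c' ≤ c1) (hc1L : c1 ≤ L)
    (hχ1 : χ ω1 c1 (ξ' - (c1 - c') • bar z0) ≠ 0)
    (hb : b0 / 2 ≤ |z0 2 - u ω1 c1 (ξ' - (c1 - c') • bar z0) 2|)
    (hgap : ∀ (ω2 : Ω) (p1 : P2), ‖p1 - bar z0‖ ≤ Rz →
      d ≤ |AA z0 (vec3 ub.1 ub.2 (s ω1)) (vec3 ub.1 ub.2 (s ω2)) p1| →
      ∀ u2 : R3, ‖u2 - vec3 ub.1 ub.2 (s ω2)‖ ≤ e →
      d / 2 ≤ |gz z0 (u ω1 c1 (ξ' - (c1 - c') • bar z0)) p1 - u2 2|)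
    (hZ : ∀ q : Fin M → P2, ∫⁻ p in {p : P2 | ¬ (d ≤ ‖p - bar z0‖ ∧ ‖p - bar z0‖ ≤ Rz ∧
        d ≤ |AA z0 (vec3 ub.1 ub.2 (s ω1)) (vec3 ub.1 ub.2 1) p| ∧
        d ≤ |AA z0 (vec3 ub.1 ub.2 (s ω1)) (vec3 ub.1 ub.2 (-1)) p|)},
      ker2 κ (bar z0) p * Sg2 q p ≤ ENNReal.ofReal eps7)
    (hbad : ∀ (ω2 : Ω) (τ : ℝ) (p1 : P2), d ≤ τ → τ ≤ L → d ≤ ‖p1 - bar z0‖ →
      ‖p1 - bar z0‖ ≤ R → d ≤ |AA z0 (vec3 ub.1 ub.2 (s ω1)) (vec3 ub.1 ub.2 (s ω2)) p1| →
      ∀ q : Fin M → P2, ∫⁻ p2 in {p2 : P2 | ¬ (‖p2 - p1‖ ≤ R ∧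
          d' ≤ |JJ z0 (vec3 ub.1 ub.2 (s ω1)) (vec3 ub.1 ub.2 (s ω2)) (τ, p1, p2)|)},
        ker2 κ p1 p2 * Sg2 q p2 ≤ ENNReal.ofReal eps5)
    (hρ2 : ∀ (c2 : ℝ) (p1 : P2), c1 ≤ c2 → c2 ≤ L → ‖p1 - bar z0‖ ≤ Rz →
      ‖ξ' - (c1 - c') • bar z0 - (c2 - c1) • p1‖ ≤ ρ) :
    Aop κ (u ω1 c1 (ξ' - (c1 - c') • bar z0)) z0
        (Top π κ L χ u f c1 (ξ' - (c1 - c') • bar z0)) ≤
      ENNReal.ofReal (2 / b0) *
        ((ENNReal.ofReal CN * ENNReal.ofReal L * ENNReal.ofReal CD * ENNReal.ofReal (gC M κ) * N *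
          ENNReal.ofReal CD) * ENNReal.ofReal eps7 +
        ((ENNReal.ofReal CN * ENNReal.ofReal d * (N * ENNReal.ofReal CD * ENNReal.ofReal (gC M κ)) *
          ENNReal.ofReal CD) * ENNReal.ofReal (gC M κ) +
        ((ENNReal.ofReal (2 / d) * (N * ENNReal.ofReal CD * ENNReal.ofReal eps5) *
          ENNReal.ofReal L) * ENNReal.ofReal (gC M κ) +
        ENNReal.ofReal (2 / d) * ∫⁻ p1, ∫⁻ c2 in Ioo c' L, ∫⁻ ω2, ∫⁻ p2,
          FF d d' L R χ u f z0 ub s c' ξ' c1 ω1 p1 c2 ω2 p2 ∂volume ∂π))) := by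
  have : IsFiniteMeasure π := ⟨lt_of_le_of_lt H.fin ENNReal.one_lt_top⟩
  set ξ1 : P2 := ξ' - (c1 - c') • bar z0 with hξ1
  set u1 : R3 := u ω1 c1 ξ1 with hu1
  have hc10 : 0 ≤ c1 := hc'.trans hc1
  have hne : z0 2 ≠ u1 2 := by
    intro h
    rw [h, sub_self, abs_zero] at hb
    linarith
  have mT : Measurable (Top π κ L χ u f c1 ξ1) :=
    (measurable_Top (π := π) κ L H.mχ H.mu hf).comp (f := fun v : R3 => (c1, ξ1, v)) (by fun_prop)
  obtain ⟨q, hq⟩ := H.Wsg c1 ξ1 hc10 hc1L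
  set q' : Fin M → P2 := fun i => bar (q i) with hq'
  set A1 : ℝ≥0∞ := ENNReal.ofReal CN * ENNReal.ofReal L * ENNReal.ofReal CD *
    ENNReal.ofReal (gC M κ) * N * ENNReal.ofReal CD with hA1
  set A2 : ℝ≥0∞ := ENNReal.ofReal CN * ENNReal.ofReal d *
    (N * ENNReal.ofReal CD * ENNReal.ofReal (gC M κ)) * ENNReal.ofReal CD with hA2
  set A3 : ℝ≥0∞ := ENNReal.ofReal (2 / d) * (N * ENNReal.ofReal CD * ENNReal.ofReal eps5) *
    ENNReal.ofReal L with hA3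
  set Z : Set P2 := {p : P2 | ¬ (d ≤ ‖p - bar z0‖ ∧ ‖p - bar z0‖ ≤ Rz ∧
        d ≤ |AA z0 (vec3 ub.1 ub.2 (s ω1)) (vec3 ub.1 ub.2 1) p| ∧
        d ≤ |AA z0 (vec3 ub.1 ub.2 (s ω1)) (vec3 ub.1 ub.2 (-1)) p|)} with hZdef
  have hZm : MeasurableSet Z := by
    have h1 : ∀ t : ℝ, Measurable fun p : P2 =>
        |AA z0 (vec3 ub.1 ub.2 (s ω1)) (vec3 ub.1 ub.2 t) p| := fun t => by fun_prop
    have h2 : Measurable fun p : P2 => ‖p - bar z0‖ := by fun_prop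
    exact ((measurableSet_le measurable_const h2).inter ((measurableSet_le h2
      measurable_const).inter ((measurableSet_le measurable_const (h1 1)).inter
      (measurableSet_le measurable_const (h1 (-1)))))).compl
  have hTle : ∀ z : R3, Top π κ L χ u f c1 ξ1 z ≤ A1 * Sg q z := by
    intro z
    have h := Top_le H (CG := gC M κ) (fun q u v => PA_Sg_le M hκ q u v) hfN c1 ξ1 z hc10
    refine h.trans ?_
    rw [hA1, mul_assoc _ (ENNReal.ofReal CD) (Sg q z)]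
    exact mul_le_mul' le_rfl (hq z)
  have hpt : ∀ p1 : P2, ker κ z0 (gpt z0 u1 p1) * Top π κ L χ u f c1 ξ1 (gpt z0 u1 p1) ≤
      A1 * Z.indicator (fun p => ker2 κ (bar z0) p * Sg2 q' p) p1 +
      (A2 * (ker2 κ (bar z0) p1 * Sg2 q' p1) + (A3 * ker2 κ (bar z0) p1 +
        ENNReal.ofReal (2 / d) * ∫⁻ c2 in Ioo c' L, ∫⁻ ω2, ∫⁻ p2,
          FF d d' L R χ u f z0 ub s c' ξ' c1 ω1 p1 c2 ω2 p2 ∂volume ∂π)) := by
    intro p1
    have hk2 : ker κ z0 (gpt z0 u1 p1) ≤ ker2 κ (bar z0) p1 := ker_gpt hκ.le _ _ _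
    by_cases hp : p1 ∈ Z
    · rw [indicator_of_mem hp]
      refine le_add_right ?_
      calc ker κ z0 (gpt z0 u1 p1) * Top π κ L χ u f c1 ξ1 (gpt z0 u1 p1)
          ≤ ker2 κ (bar z0) p1 * (A1 * Sg2 q' p1) :=
            mul_le_mul' hk2 ((hTle _).trans (mul_le_mul' le_rfl (Sg_gpt _ _ _ _)))
        _ = _ := by ring
    · rw [indicator_of_notMem hp, mul_zero, zero_add]
      have hp' : d ≤ ‖p1 - bar z0‖ ∧ ‖p1 - bar z0‖ ≤ Rz ∧
          d ≤ |AA z0 (vec3 ub.1 ub.2 (s ω1)) (vec3 ub.1 ub.2 1) p1| ∧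
          d ≤ |AA z0 (vec3 ub.1 ub.2 (s ω1)) (vec3 ub.1 ub.2 (-1)) p1| := by
        by_contra h; exact hp h
      obtain ⟨hz1, hz2, hz3, hz4⟩ := hp'
      have hAAs : ∀ ω2, d ≤ |AA z0 (vec3 ub.1 ub.2 (s ω1)) (vec3 ub.1 ub.2 (s ω2)) p1| := by
        intro ω2
        rcases hN.s1 ω2 with h | h <;> rw [h] <;> assumption
      set z1 : R3 := gpt z0 u1 p1 with hz1def
      have hbz1 : bar z1 = p1 := bar_gpt _ _ _
      -- short times
      have hshort : ∫⁻ c2 in Ioo c1 (min (c1 + d) L), ∫⁻ ω, χ ω c2 (ξ1 - (c2 - c1) • bar z1) *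
          Aop κ (u ω c2 (ξ1 - (c2 - c1) • bar z1)) z1 (f c2 (ξ1 - (c2 - c1) • bar z1)) ∂π
          ≤ A2 * Sg2 q' p1 := by
        have h := Top_le' H (CG := gC M κ) (fun q u v => PA_Sg_le M hκ q u v) (f := f) (N := N)
          (c := c1) (d := min (c1 + d) L) hc10 (min_le_right _ _)
          (fun c2 ξ v h1 h2 => hfN c2 ξ v (hc10.trans h1.le) (h2.le.trans (min_le_right _ _)))
          ξ1 z1
        refine h.trans ?_
        calc ENNReal.ofReal CN * ENNReal.ofReal (min (c1 + d) L - c1) *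
              (N * ENNReal.ofReal CD * ENNReal.ofReal (gC M κ)) * W c1 ξ1 z1
            ≤ ENNReal.ofReal CN * ENNReal.ofReal d *
              (N * ENNReal.ofReal CD * ENNReal.ofReal (gC M κ)) *
              (ENNReal.ofReal CD * Sg2 q' p1) := by
              gcongr
              · have := min_le_left (c1 + d) L
                linarith
              · exact (hq z1).trans (mul_le_mul' le_rfl (Sg_gpt _ _ _ _))
          _ = A2 * Sg2 q' p1 := by rw [hA2]; ring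
      -- long times
      have hlong : ∫⁻ c2 in Ioo c1 L ∩ Ici (c1 + d), ∫⁻ ω, χ ω c2 (ξ1 - (c2 - c1) • bar z1) *
          Aop κ (u ω c2 (ξ1 - (c2 - c1) • bar z1)) z1 (f c2 (ξ1 - (c2 - c1) • bar z1)) ∂π
          ≤ A3 + ENNReal.ofReal (2 / d) * ∫⁻ c2 in Ioo c' L, ∫⁻ ω2, ∫⁻ p2,
          FF d d' L R χ u f z0 ub s c' ξ' c1 ω1 p1 c2 ω2 p2 ∂volume ∂π := by
        have hms : MeasurableSet (Ioo c1 L ∩ Ici (c1 + d)) :=
          measurableSet_Ioo.inter measurableSet_Ici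
        calc ∫⁻ c2 in Ioo c1 L ∩ Ici (c1 + d), ∫⁻ ω, χ ω c2 (ξ1 - (c2 - c1) • bar z1) *
              Aop κ (u ω c2 (ξ1 - (c2 - c1) • bar z1)) z1 (f c2 (ξ1 - (c2 - c1) • bar z1)) ∂π
            ≤ ∫⁻ c2 in Ioo c1 L ∩ Ici (c1 + d),
                (ENNReal.ofReal (2 / d) * (N * ENNReal.ofReal CD * ENNReal.ofReal eps5) +
                ENNReal.ofReal (2 / d) * ∫⁻ ω2, ∫⁻ p2,
                  FF d d' L R χ u f z0 ub s c' ξ' c1 ω1 p1 c2 ω2 p2 ∂volume ∂π) := by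
              apply setLIntegral_mono' hms
              intro c2 hc2
              have h1 : ∀ ω2, χ ω2 c2 (ξ1 - (c2 - c1) • bar z1) *
                  Aop κ (u ω2 c2 (ξ1 - (c2 - c1) • bar z1)) z1
                    (f c2 (ξ1 - (c2 - c1) • bar z1)) ≤
                  ENNReal.ofReal (2 / d) * (N * ENNReal.ofReal CD * ENNReal.ofReal eps5) +
                  ENNReal.ofReal (2 / d) *
                    ∫⁻ p2, FF d d' L R χ u f z0 ub s c' ξ' c1 ω1 p1 c2 ω2 p2 := by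
                intro ω2
                have hc12 : c1 + d ≤ c2 := hc2.2
                have hc2L : c2 ≤ L := hc2.1.2.le
                apply second_le H hκ hd hN hf hfN hc' hz1def hc1 hc12 hc2L hχ1 ?_ (hAAs ω2) hz1
                  (hz2.trans hRz) ?_ ?_
                · rw [hbz1]
                  exact hρ2 c2 p1 (by linarith) hc2L hz2
                · intro u2 hu2
                  have hz12 : z1 2 = gz z0 u1 p1 := gpt_two _ _ _
                  rw [hz12]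
                  exact hgap ω2 p1 hz2 (hAAs ω2) u2 hu2
                · exact hbad ω2 (c2 - c1) p1 (by linarith) (by linarith) hz1 (hz2.trans hRz)
                    (hAAs ω2)
              calc ∫⁻ ω, χ ω c2 (ξ1 - (c2 - c1) • bar z1) *
                    Aop κ (u ω c2 (ξ1 - (c2 - c1) • bar z1)) z1
                      (f c2 (ξ1 - (c2 - c1) • bar z1)) ∂π
                  ≤ ∫⁻ ω2, (ENNReal.ofReal (2 / d) * (N * ENNReal.ofReal CD *
                    ENNReal.ofReal eps5) + ENNReal.ofReal (2 / d) *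
                    ∫⁻ p2, FF d d' L R χ u f z0 ub s c' ξ' c1 ω1 p1 c2 ω2 p2) ∂π :=
                    lintegral_mono h1
                _ = ENNReal.ofReal (2 / d) * (N * ENNReal.ofReal CD *
                    ENNReal.ofReal eps5) * π univ + ENNReal.ofReal (2 / d) * ∫⁻ ω2,
                    ∫⁻ p2, FF d d' L R χ u f z0 ub s c' ξ' c1 ω1 p1 c2 ω2 p2 ∂volume ∂π := by
                    rw [lintegral_add_left measurable_const, lintegral_const,
                      lintegral_const_mul' _ _ ENNReal.ofReal_ne_top]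
                _ ≤ ENNReal.ofReal (2 / d) * (N * ENNReal.ofReal CD *
                    ENNReal.ofReal eps5) * 1 + ENNReal.ofReal (2 / d) * ∫⁻ ω2,
                    ∫⁻ p2, FF d d' L R χ u f z0 ub s c' ξ' c1 ω1 p1 c2 ω2 p2 ∂volume ∂π := by
                    gcongr
                    exact H.fin
                _ = _ := by rw [mul_one]
          _ = ENNReal.ofReal (2 / d) * (N * ENNReal.ofReal CD * ENNReal.ofReal eps5) *
                volume (Ioo c1 L ∩ Ici (c1 + d)) +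
              ENNReal.ofReal (2 / d) * ∫⁻ c2 in Ioo c1 L ∩ Ici (c1 + d), ∫⁻ ω2, ∫⁻ p2,
                  FF d d' L R χ u f z0 ub s c' ξ' c1 ω1 p1 c2 ω2 p2 ∂volume ∂π := by
              rw [lintegral_add_left measurable_const, setLIntegral_const,
                lintegral_const_mul' _ _ ENNReal.ofReal_ne_top]
          _ ≤ ENNReal.ofReal (2 / d) * (N * ENNReal.ofReal CD * ENNReal.ofReal eps5) *
                ENNReal.ofReal L +
              ENNReal.ofReal (2 / d) * ∫⁻ c2 in Ioo c' L, ∫⁻ ω2, ∫⁻ p2,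
                  FF d d' L R χ u f z0 ub s c' ξ' c1 ω1 p1 c2 ω2 p2 ∂volume ∂π := by
              gcongr
              · calc volume (Ioo c1 L ∩ Ici (c1 + d)) ≤ volume (Ioo 0 L) :=
                      measure_mono fun x hx => ⟨lt_of_le_of_lt hc10 hx.1.1, hx.1.2⟩
                  _ = ENNReal.ofReal L := by rw [Real.volume_Ioo, sub_zero]
              · intro x hx
                exact ⟨lt_of_le_of_lt hc1 hx.1.1, hx.1.2⟩
      have hTop : Top π κ L χ u f c1 ξ1 z1 ≤ A2 * Sg2 q' p1 + (A3 + ENNReal.ofReal (2 / d) *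
          ∫⁻ c2 in Ioo c' L, ∫⁻ ω2, ∫⁻ p2,
          FF d d' L R χ u f z0 ub s c' ξ' c1 ω1 p1 c2 ω2 p2 ∂volume ∂π) := by
        unfold Top
        refine le_trans ?_ (add_le_add hshort hlong)
        refine (lintegral_mono_set (t := Ioo c1 (min (c1 + d) L) ∪ (Ioo c1 L ∩ Ici (c1 + d)))
          ?_).trans (lintegral_union_le _ _ _)
        intro x hx
        rcases lt_or_ge x (c1 + d) with h | h
        · exact Or.inl ⟨hx.1, lt_min h hx.2⟩
        · exact Or.inr ⟨hx, h⟩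
      calc ker κ z0 z1 * Top π κ L χ u f c1 ξ1 z1
          ≤ ker κ z0 z1 * (A2 * Sg2 q' p1 + (A3 + ENNReal.ofReal (2 / d) *
          ∫⁻ c2 in Ioo c' L, ∫⁻ ω2, ∫⁻ p2,
          FF d d' L R χ u f z0 ub s c' ξ' c1 ω1 p1 c2 ω2 p2 ∂volume ∂π)) := mul_le_mul' le_rfl hTop
        _ = A2 * (ker κ z0 z1 * Sg2 q' p1) + (A3 * ker κ z0 z1 + ker κ z0 z1 *
            (ENNReal.ofReal (2 / d) * ∫⁻ c2 in Ioo c' L, ∫⁻ ω2, ∫⁻ p2,
          FF d d' L R χ u f z0 ub s c' ξ' c1 ω1 p1 c2 ω2 p2 ∂volume ∂π)) := by ring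
        _ ≤ A2 * (ker2 κ (bar z0) p1 * Sg2 q' p1) + (A3 * ker2 κ (bar z0) p1 + 1 *
            (ENNReal.ofReal (2 / d) * ∫⁻ c2 in Ioo c' L, ∫⁻ ω2, ∫⁻ p2,
          FF d d' L R χ u f z0 ub s c' ξ' c1 ω1 p1 c2 ω2 p2 ∂volume ∂π)) := by
            gcongr
            exact hk2.trans (ker2_le_one hκ.le _ _)
        _ = _ := by rw [one_mul]
  rw [Aop_graph hne mT]
  apply mul_le_mul'
  · apply ENNReal.ofReal_le_ofReal
    rw [show (2 / b0 : ℝ) = (b0 / 2)⁻¹ by field_simp]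
    gcongr
  have mk2 : Measurable fun p1 : P2 => ker2 κ (bar z0) p1 := measurable_ker2 κ (bar z0)
  have mkS : Measurable fun p1 : P2 => ker2 κ (bar z0) p1 * Sg2 q' p1 :=
    mk2.mul (measurable_Sg2 q')
  have hgauss := gauss2_le M hκ q' (bar z0)
  have hker : ∫⁻ p1, ker2 κ (bar z0) p1 ≤ ENNReal.ofReal (gC M κ) := by
    refine le_trans (lintegral_mono fun p => ?_) hgauss
    calc ker2 κ (bar z0) p = ker2 κ (bar z0) p * 1 := (mul_one _).symm
      _ ≤ ker2 κ (bar z0) p * Sg2 q' p := mul_le_mul' le_rfl (by unfold Sg2; exact le_self_add)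
  refine (lintegral_mono hpt).trans ?_
  rw [lintegral_add_left ((mkS.indicator hZm).const_mul A1), lintegral_const_mul _
    (mkS.indicator hZm), lintegral_indicator hZm, lintegral_add_left (mkS.const_mul A2),
    lintegral_const_mul _ mkS, lintegral_add_left (mk2.const_mul A3), lintegral_const_mul _ mk2,
    lintegral_const_mul' _ _ ENNReal.ofReal_ne_top]
  gcongr
  exact hZ q'

end

end Crest.Agent.R68.S
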