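import Mathlib
import Crest.Agent.R68.SBlockC

/-! Row 68, Part S: the two-step block and the smoothing lemma `smoothing` (helper262) -/

set_option autoImplicit false
open MeasureTheory Set Metric
open scoped ENNReal NNReal
open Crest.AnalysisR.VecCalc3 Crest.AnalysisR.PDE.Boltzmann

noncomputable section

namespace Crest.Agent.R68.S

attribute [local irreducible] rot vec3

set_option maxHeartbeats 1000000 in
theorem block (κ L U CN CD : ℝ) (M : ℕ) (hκ : 0 < κ) (hL : 0 < L) (hU : 0 < U) (hCN : 0 < CN)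
    (hCD : 0 < CD) {R0 d1 ε : ℝ} (hR0 : 0 < R0) (hd1 : 0 < d1) (hε : 0 < ε) :
    ∃ ρ e C : ℝ, 0 < ρ ∧ 0 < e ∧ 0 < C ∧ BlockStmt κ L U CN CD M R0 d1 ε ρ e C := by
  set G : ℝ := gC M κ with hG
  have hG0 : 0 < G := gC_pos M hκ
  set eps7 : ℝ := ε / 3 / ((2 / d1) * L * (CN * L * CD * G * CD)) with heps7
  have heps70 : 0 < eps7 := by positivity
  obtain ⟨Rz, hRz, hZG⟩ := ZG_small M hκ heps70 hd1
  set dmax : ℝ := ε / 3 / ((2 / d1) * L * (CN * CD * G * CD * G)) with hdmax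
  have hdmax0 : 0 < dmax := by positivity
  obtain ⟨d, hd, hddmax, hZ⟩ := hZG dmax hdmax0
  set eps5 : ℝ := ε / 3 / ((2 / d1) * L * ((2 / d) * CD * L * G)) with heps5
  have heps50 : 0 < eps5 := by positivity
  obtain ⟨R, d', hRzR, hR, hd', hbad⟩ := bad2_small M hκ heps50 hU hR0 hRz hL hd hd1 hd1
  obtain ⟨e1, ρ1, C1, he1, hρ1, hC1, hmain⟩ := main_le hU hR0 hR hL hd hd' hd1
  obtain ⟨e2, C2, he2, hC2, hgz⟩ :=
    gz_bounds (U := 2 * U + 1) (R0 := R0) (R := R) (d := d) (b0 := d1) (by positivity) hR0 hR hd hd1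
  set C : ℝ := (2 / d1) * (2 / d) * C1 * L with hC
  have hC0 : 0 < C := by positivity
  refine ⟨max ρ1 (R0 + L * R0 + L * (R0 + Rz)), min e1 e2, C,
    lt_of_lt_of_le hρ1 (le_max_left _ _), by positivity, hC0, ?_⟩
  set ρ : ℝ := max ρ1 (R0 + L * R0 + L * (R0 + Rz)) with hρ
  set e : ℝ := min e1 e2 with he
  intro Ω _ π χ u W ub s H hN hs f hf N m hfN hfm c' ξ' z0 hc' hc'L hξ' hz0
  have : IsFiniteMeasure π := ⟨lt_of_le_of_lt H.fin ENNReal.one_lt_top⟩
  have hN1 : Near L U e1 ρ1 χ u ub s := hN.mono (min_le_left _ _) (le_max_left _ _)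
  simp only [bad2, mem_ofPred_eq, not_or, not_lt] at hz0
  obtain ⟨hz0R, hb1, hb2, hin⟩ := hz0
  have hzb : ‖bar z0‖ ≤ R0 := (nbar_le z0).trans hz0R
  have hh : ∀ t : ℝ, (t = 1 ∨ t = -1) → d1 ≤ |z0 2 - t| := by
    rintro t (rfl | rfl)
    · exact hb1
    · rw [sub_neg_eq_add]; exact hb2
  set I : ℝ → Ω → ℝ≥0∞ := fun c1 ω1 => ∫⁻ p1, ∫⁻ c2 in Ioo c' L, ∫⁻ ω2, ∫⁻ p2,
    FF d d' L R χ u f z0 ub s c' ξ' c1 ω1 p1 c2 ω2 p2 ∂volume ∂π with hI
  set E : ℝ≥0∞ := (ENNReal.ofReal CN * ENNReal.ofReal L * ENNReal.ofReal CD * ENNReal.ofReal G * N *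
          ENNReal.ofReal CD) * ENNReal.ofReal eps7 +
        ((ENNReal.ofReal CN * ENNReal.ofReal d * (N * ENNReal.ofReal CD * ENNReal.ofReal G) *
          ENNReal.ofReal CD) * ENNReal.ofReal G +
        (ENNReal.ofReal (2 / d) * (N * ENNReal.ofReal CD * ENNReal.ofReal eps5) *
          ENNReal.ofReal L) * ENNReal.ofReal G) with hE
  -- pointwise bound
  have hpt : ∀ c1 ∈ Ioo c' L, ∀ ω1 : Ω, χ ω1 c1 (ξ' - (c1 - c') • bar z0) *
      Aop κ (u ω1 c1 (ξ' - (c1 - c') • bar z0)) z0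
        (Top π κ L χ u f c1 (ξ' - (c1 - c') • bar z0)) ≤
      ENNReal.ofReal (2 / d1) * E + ENNReal.ofReal (2 / d1) * ENNReal.ofReal (2 / d) * I c1 ω1 := by
    intro c1 hc1 ω1
    by_cases hχ : χ ω1 c1 (ξ' - (c1 - c') • bar z0) = 0
    · rw [hχ, zero_mul]; exact zero_le
    have hc10 : 0 ≤ c1 := hc'.trans hc1.1.le
    have hξ1 : ‖ξ' - (c1 - c') • bar z0‖ ≤ R0 + L * R0 := by
      calc ‖ξ' - (c1 - c') • bar z0‖ ≤ ‖ξ'‖ + ‖(c1 - c') • bar z0‖ := norm_sub_le _ _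
        _ ≤ R0 + L * R0 := by
            rw [norm_smul, Real.norm_eq_abs, abs_of_pos (by linarith [hc1.1])]
            gcongr
            linarith [hc1.2]
    have hLz : 0 < L * (R0 + Rz) := by positivity
    have hξρ : ‖ξ' - (c1 - c') • bar z0‖ ≤ ρ :=
      hξ1.trans (le_trans (by linarith) (le_max_right _ _))
    have hcl := hN.close ω1 c1 _ hc10 hc1.2.le hξρ hχ
    set a1 : R3 := vec3 ub.1 ub.2 (s ω1) with ha1
    have ha1n : ‖a1‖ ≤ 2 * U + 1 := norm_center_le hN.ubd (hN.s1 ω1)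
    have hb : d1 ≤ |z0 2 - a1 2| := by
      rw [ha1, vec3_two]; exact hh _ (hN.s1 ω1)
    have hgz1 := fun (ω2 : Ω) (p1 : P2) (u2 : R3)
        (h2 : ‖u2 - vec3 ub.1 ub.2 (s ω2)‖ ≤ e) (hp : ‖p1 - bar z0‖ ≤ R) =>
      hgz z0 a1 (vec3 ub.1 ub.2 (s ω2)) hz0R ha1n (norm_center_le hN.ubd (hN.s1 ω2)) hb
        (u ω1 c1 (ξ' - (c1 - c') • bar z0)) u2 p1 (hcl.trans (min_le_right _ _))
        (h2.trans (min_le_right _ _)) hp
    have hf1 := first_le (d := d) (d' := d') (Rz := Rz) (R := R) (ρ := ρ) (e := e)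
      (eps5 := eps5) (eps7 := eps7) (b0 := d1) H hκ hd hRzR hd1 hN hf hfN (c' := c') (ξ' := ξ')
      (z0 := z0) (ω1 := ω1) (c1 := c1) hc' hc1.1.le hc1.2.le hχ ?_ ?_ ?_ ?_ ?_
    · calc χ ω1 c1 (ξ' - (c1 - c') • bar z0) *
            Aop κ (u ω1 c1 (ξ' - (c1 - c') • bar z0)) z0
            (Top π κ L χ u f c1 (ξ' - (c1 - c') • bar z0))
          ≤ 1 * Aop κ (u ω1 c1 (ξ' - (c1 - c') • bar z0)) z0
            (Top π κ L χ u f c1 (ξ' - (c1 - c') • bar z0)) := mul_le_mul' (H.χ1 _ _ _) le_rfl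
        _ ≤ _ := by
            rw [one_mul]
            refine hf1.trans (le_of_eq ?_)
            rw [hE, hI, hG]
            ring
    · -- `b0/2`
      have := hgz1 ω1 (bar z0) a1 (by rw [ha1, sub_self, norm_zero]; positivity)
        (by rw [sub_self, norm_zero]; exact hR.le)
      exact this.2.1
    · intro ω2 p1 hp hA u2 hu2
      exact ((hgz1 ω2 p1 u2 hu2 (hp.trans hRzR)).2.2 hA).1
    · intro q
      apply hZ z0 a1 (vec3 ub.1 ub.2 1) (vec3 ub.1 ub.2 (-1)) q hb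
      · rw [vec3_two]; exact hb1
      · rw [vec3_two, sub_neg_eq_add]; exact hb2
    · intro ω2 τ p1 h1 h2 h3 h4 h5 q
      exact hbad z0 ub (s ω1) (s ω2) (hN.s1 ω1) (hN.s1 ω2) hz0R hN.ubd hb1 hb2 hin τ p1 h1 h2 h3
        h4 h5 q
    · intro c2 p1 h1 h2 h3
      refine le_trans ?_ (le_max_right _ _)
      calc ‖ξ' - (c1 - c') • bar z0 - (c2 - c1) • p1‖
          ≤ ‖ξ' - (c1 - c') • bar z0‖ + ‖(c2 - c1) • p1‖ := norm_sub_le _ _
        _ ≤ (R0 + L * R0) + L * (R0 + Rz) := by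
            have hp1 : ‖p1‖ ≤ R0 + Rz := by
              calc ‖p1‖ = ‖bar z0 + (p1 - bar z0)‖ := by congr 1; abel
                _ ≤ ‖bar z0‖ + ‖p1 - bar z0‖ := norm_add_le _ _
                _ ≤ R0 + Rz := by linarith
            rw [norm_smul, Real.norm_eq_abs, abs_of_nonneg (by linarith)]
            gcongr
            linarith
  -- the main term
  have hFm := measurable_FF (d := d) (d' := d') (L := L) (R := R) (χ := χ) (u := u) (f := f)
    (z0 := z0) (ub := ub) (s := s) (c' := c') (ξ' := ξ') H.mχ H.mu hf hs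
  have hswap := swap6 (volume.restrict (Ioo c' L)) π (volume : Measure P2)
    (volume.restrict (Ioo c' L)) π (volume : Measure P2)
    (fun c1 ω1 p1 c2 ω2 p2 => FF d d' L R χ u f z0 ub s c' ξ' c1 ω1 p1 c2 ω2 p2) hFm
  have hvol : (volume.restrict (Ioo c' L)) univ ≤ ENNReal.ofReal L := by
    rw [Measure.restrict_apply_univ, Real.volume_Ioo]
    apply ENNReal.ofReal_le_ofReal
    linarith
  have hmainI : ∫⁻ c1 in Ioo c' L, ∫⁻ ω1, I c1 ω1 ∂π ≤
      ENNReal.ofReal C1 * m * ENNReal.ofReal L := by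
    rw [hI, hswap]
    calc ∫⁻ c2 in Ioo c' L, ∫⁻ ω1, ∫⁻ ω2, ∫⁻ c1 in Ioo c' L, ∫⁻ p1, ∫⁻ p2,
          FF d d' L R χ u f z0 ub s c' ξ' c1 ω1 p1 c2 ω2 p2 ∂volume ∂volume ∂volume ∂π ∂π
        ≤ ∫⁻ _ in Ioo c' L, ∫⁻ _, ∫⁻ _, ENNReal.ofReal C1 * m ∂π ∂π := by
          apply setLIntegral_mono' measurableSet_Ioo
          intro c2 hc2
          refine lintegral_mono fun ω1 => lintegral_mono fun ω2 => ?_
          refine (setLIntegral_le_lintegral _ _).trans ?_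
          have h := hmain Ω χ u ub s hN1 H.mχ H.mu f hf c' ξ' z0 hc' hc'L hξ' hz0R hb1 hb2 ω1 ω2 c2
            (hc'.trans hc2.1.le) hc2.2.le
          refine h.trans (mul_le_mul' le_rfl ?_)
          refine le_trans ?_ (hfm c2 (hc'.trans hc2.1.le) hc2.2.le)
          have hρ' : ρ1 ≤ ρ := le_max_left _ _
          calc ∫⁻ ξ in closedBall (0 : P2) ρ1, ∫⁻ z in closedBall (0 : R3) ρ1, f c2 ξ z
              ≤ ∫⁻ ξ in closedBall (0 : P2) ρ, ∫⁻ z in closedBall (0 : R3) ρ1, f c2 ξ z :=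
                lintegral_mono_set (closedBall_subset_closedBall hρ')
            _ ≤ _ := lintegral_mono fun ξ =>
                lintegral_mono_set (closedBall_subset_closedBall hρ')
      _ ≤ ENNReal.ofReal C1 * m * 1 * 1 * ENNReal.ofReal L := by
          rw [lintegral_const, lintegral_const, lintegral_const]
          gcongr
          · exact H.fin
          · exact H.fin
      _ = _ := by rw [mul_one, mul_one]
  -- assembly
  have hfin : ∫⁻ c1 in Ioo c' L, ∫⁻ ω1, (ENNReal.ofReal (2 / d1) * E +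
      ENNReal.ofReal (2 / d1) * ENNReal.ofReal (2 / d) * I c1 ω1) ∂π ≤
      ENNReal.ofReal (2 / d1) * E * ENNReal.ofReal L +
      ENNReal.ofReal (2 / d1) * ENNReal.ofReal (2 / d) *
        (ENNReal.ofReal C1 * m * ENNReal.ofReal L) := by
    have hne : ENNReal.ofReal (2 / d1) * ENNReal.ofReal (2 / d) ≠ ⊤ :=
      ENNReal.mul_ne_top ENNReal.ofReal_ne_top ENNReal.ofReal_ne_top
    calc ∫⁻ c1 in Ioo c' L, ∫⁻ ω1, (ENNReal.ofReal (2 / d1) * E +
          ENNReal.ofReal (2 / d1) * ENNReal.ofReal (2 / d) * I c1 ω1) ∂π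
        = ∫⁻ c1 in Ioo c' L, (ENNReal.ofReal (2 / d1) * E * π univ +
          ENNReal.ofReal (2 / d1) * ENNReal.ofReal (2 / d) * ∫⁻ ω1, I c1 ω1 ∂π) := by
          refine lintegral_congr fun c1 => ?_
          rw [lintegral_add_left measurable_const, lintegral_const, lintegral_const_mul' _ _ hne]
      _ ≤ ∫⁻ c1 in Ioo c' L, (ENNReal.ofReal (2 / d1) * E * 1 +
          ENNReal.ofReal (2 / d1) * ENNReal.ofReal (2 / d) * ∫⁻ ω1, I c1 ω1 ∂π) := by
          gcongr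
          exact H.fin
      _ = ENNReal.ofReal (2 / d1) * E * (volume.restrict (Ioo c' L)) univ +
          ENNReal.ofReal (2 / d1) * ENNReal.ofReal (2 / d) *
            ∫⁻ c1 in Ioo c' L, ∫⁻ ω1, I c1 ω1 ∂π := by
          rw [mul_one, lintegral_add_left measurable_const, lintegral_const,
            lintegral_const_mul' _ _ hne]
      _ ≤ _ := by gcongr
  unfold Top
  refine le_trans (setLIntegral_mono' measurableSet_Ioo fun c1 hc1 =>
    lintegral_mono (hpt c1 hc1)) (hfin.trans ?_)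
  have e1' : ENNReal.ofReal (2 / d1) * ENNReal.ofReal L * (ENNReal.ofReal CN * ENNReal.ofReal L *
      ENNReal.ofReal CD * ENNReal.ofReal G * ENNReal.ofReal CD) * ENNReal.ofReal eps7 =
      ENNReal.ofReal (ε / 3) := by
    have h : (2 / d1) * L * (CN * L * CD * G * CD) * eps7 = ε / 3 := by
      rw [heps7]; field_simp
    rw [← h]
    simp only [ENNReal.ofReal_mul', heps70.le, hG0.le, hL.le, hCD.le,
      (by positivity : 0 ≤ CN * L * CD * G * CD)]
  have e2' : ENNReal.ofReal (2 / d1) * ENNReal.ofReal L * (ENNReal.ofReal CN * ENNReal.ofReal CD *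
      ENNReal.ofReal G * ENNReal.ofReal CD * ENNReal.ofReal G) * ENNReal.ofReal d ≤
      ENNReal.ofReal (ε / 3) := by
    have h : (2 / d1) * L * (CN * CD * G * CD * G) * d ≤ ε / 3 := by
      have h1 : (2 / d1) * L * (CN * CD * G * CD * G) * dmax = ε / 3 := by
        rw [hdmax]; field_simp
      rw [← h1]
      gcongr
    refine le_trans (le_of_eq ?_) (ENNReal.ofReal_le_ofReal h)
    simp only [ENNReal.ofReal_mul', hd.le, hG0.le, hL.le, hCD.le,
      (by positivity : 0 ≤ CN * CD * G * CD * G)]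
  have e3' : ENNReal.ofReal (2 / d1) * ENNReal.ofReal L * (ENNReal.ofReal (2 / d) *
      ENNReal.ofReal CD * ENNReal.ofReal L * ENNReal.ofReal G) * ENNReal.ofReal eps5 =
      ENNReal.ofReal (ε / 3) := by
    have h : (2 / d1) * L * ((2 / d) * CD * L * G) * eps5 = ε / 3 := by
      rw [heps5]; field_simp
    rw [← h]
    simp only [ENNReal.ofReal_mul', heps50.le, hG0.le, hL.le, hCD.le,
      (by positivity : 0 ≤ (2 / d) * CD * L * G)]
  have e4' : ENNReal.ofReal (2 / d1) * ENNReal.ofReal (2 / d) * ENNReal.ofReal C1 *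
      ENNReal.ofReal L = ENNReal.ofReal C := by
    rw [hC]
    simp only [ENNReal.ofReal_mul', hC1.le, hL.le, (by positivity : 0 ≤ 2 / d)]
  have e5 : ENNReal.ofReal ε = ENNReal.ofReal (ε / 3) + ENNReal.ofReal (ε / 3) +
      ENNReal.ofReal (ε / 3) := by
    rw [← ENNReal.ofReal_add (by positivity) (by positivity),
      ← ENNReal.ofReal_add (by positivity) (by positivity)]
    congr 1; ring
  calc ENNReal.ofReal (2 / d1) * E * ENNReal.ofReal L +
      ENNReal.ofReal (2 / d1) * ENNReal.ofReal (2 / d) *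
        (ENNReal.ofReal C1 * m * ENNReal.ofReal L)
      = (ENNReal.ofReal (2 / d1) * ENNReal.ofReal L * (ENNReal.ofReal CN * ENNReal.ofReal L *
      ENNReal.ofReal CD * ENNReal.ofReal G * ENNReal.ofReal CD) * ENNReal.ofReal eps7 +
        ENNReal.ofReal (2 / d1) * ENNReal.ofReal L * (ENNReal.ofReal CN * ENNReal.ofReal CD *
      ENNReal.ofReal G * ENNReal.ofReal CD * ENNReal.ofReal G) * ENNReal.ofReal d +
        ENNReal.ofReal (2 / d1) * ENNReal.ofReal L * (ENNReal.ofReal (2 / d) *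
      ENNReal.ofReal CD * ENNReal.ofReal L * ENNReal.ofReal G) * ENNReal.ofReal eps5) * N +
        (ENNReal.ofReal (2 / d1) * ENNReal.ofReal (2 / d) * ENNReal.ofReal C1 *
      ENNReal.ofReal L) * m := by rw [hE]; ring
    _ ≤ (ENNReal.ofReal (ε / 3) + ENNReal.ofReal (ε / 3) + ENNReal.ofReal (ε / 3)) * N +
        ENNReal.ofReal C * m := by
        rw [e1', e3', e4']
        gcongr
    _ = _ := by rw [e5]

/-- **SMOOTHING LEMMA** -/
theorem smoothing (κ L U CN CD : ℝ) (M : ℕ) (hκ : 0 < κ) (hL : 0 < L) (hU : 0 < U) (hCN : 0 < CN)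
    (hCD : 0 < CD) {ε : ℝ} (hε : 0 < ε) :
    ∃ ρ e C : ℝ, 0 < ρ ∧ 0 < e ∧ 0 < C ∧
    ∀ (Ω : Type) [MeasurableSpace Ω] (π : Measure Ω) (χ : Ω → ℝ → P2 → ℝ≥0∞)
      (u : Ω → ℝ → P2 → R3) (W : ℝ → P2 → R3 → ℝ≥0∞) (ub : P2) (s : Ω → ℝ),
      Hyp π L U CN CD M χ u W → Near L U e ρ χ u ub s → Measurable s →
      ∀ f : ℝ → P2 → R3 → ℝ≥0∞, Measurable (fun q : ℝ × P2 × R3 => f q.1 q.2.1 q.2.2) →
      ∀ N m : ℝ≥0∞, (∀ (c : ℝ) (ξ : P2) (v : R3), 0 ≤ c → c ≤ L → f c ξ v ≤ N * W c ξ v) →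
      (∀ c : ℝ, 0 ≤ c → c ≤ L →
        ∫⁻ ξ in closedBall (0 : P2) ρ, ∫⁻ z in closedBall (0 : R3) ρ, f c ξ z ≤ m) →
      ∀ v : R3, (Top π κ L χ u)^[4] f 0 0 v ≤
        (ENNReal.ofReal ε * N + ENNReal.ofReal C * m) * W 0 0 v :=
  core κ L U CN CD M hκ hL hU hCN hCD
    (fun _ _ _ h1 h2 h3 => block κ L U CN CD M hκ hL hU hCN hCD h1 h2 h3) hε

end Crest.Agent.R68.S
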