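import Crest.Agent.R68.SDefs

/-!
R68 / S (smoothing lemma): the third component of the second collision product as an explicit
rational function of `κ = 1/τ`; exact finite differences, gradient in the last variable,
Sherman–Morrison lower bound (helper60).

`zF z3 a m r p0 X κ = z3 - κ m - ⟨r - κ X, p0 + κ X⟩ / (a - κ m)`, where
`z̄₁ = z̄₀ + κ X`, `r = p - z̄₀`, `p0 = z̄₀ - ū₂`, `a = z₀₃ - σ₂`, `m = ⟨X, z̄₀ - ū₁⟩ / (z₀₃ - σ₁)`.
-/

set_option autoImplicit false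
open MeasureTheory Set
open scoped ENNReal

namespace Crest.Agent.R68.S

theorem abs_dot2_le {a b : P2} {A B : ℝ} (ha : ‖a‖ ≤ A) (hb : ‖b‖ ≤ B) :
    |dot2 a b| ≤ 2 * A * B := by
  have hA : 0 ≤ A := (norm_nonneg a).trans ha
  have ha1 : |a.1| ≤ A := (norm_fst_le a).trans ha
  have ha2 : |a.2| ≤ A := (norm_snd_le a).trans ha
  have hb1 : |b.1| ≤ B := (norm_fst_le b).trans hb
  have hb2 : |b.2| ≤ B := (norm_snd_le b).trans hb
  unfold dot2
  calc |a.1 * b.1 + a.2 * b.2| ≤ |a.1| * |b.1| + |a.2| * |b.2| := by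
        rw [← abs_mul, ← abs_mul]; exact abs_add_le _ _
    _ ≤ A * B + A * B := by gcongr
    _ = 2 * A * B := by ring

/-- third component of the second collision product as a function of `κ = 1/τ` -/
noncomputable def zF (z3 a m : ℝ) (r p0 X : P2) (κ : ℝ) : ℝ :=
  z3 - κ * m - dot2 (r - κ • X) (p0 + κ • X) / (a - κ * m)

/-- the `κ`-derivative of `zF` for constant fields -/
noncomputable def zD (a m : ℝ) (r p0 X : P2) (κ : ℝ) : ℝ :=
  -m - ((dot2 X (r - p0) - 2 * κ * dot2 X X) * (a - κ * m) +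
    dot2 (r - κ • X) (p0 + κ • X) * m) / (a - κ * m) ^ 2

/-- exact finite difference in `κ` for constant fields -/
theorem zF_sub {z3 a m : ℝ} {r p0 X : P2} {κ κ' : ℝ} (h : a - κ * m ≠ 0)
    (h' : a - κ' * m ≠ 0) :
    zF z3 a m r p0 X κ' - zF z3 a m r p0 X κ =
      (κ' - κ) * (zD a m r p0 X κ + (κ' - κ) * (dot2 X X / (a - κ' * m) -
        m * ((dot2 X (r - p0) - 2 * κ * dot2 X X) * (a - κ * m) +
          dot2 (r - κ • X) (p0 + κ • X) * m) / ((a - κ * m) ^ 2 * (a - κ' * m)))) := by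
  have hN' : dot2 (r - κ' • X) (p0 + κ' • X) = dot2 (r - κ • X) (p0 + κ • X) +
      (κ' - κ) * ((dot2 X (r - p0) - 2 * κ * dot2 X X) - (κ' - κ) * dot2 X X) := by
    unfold dot2
    simp only [Prod.fst_sub, Prod.snd_sub, Prod.fst_add, Prod.snd_add, Prod.smul_fst,
      Prod.smul_snd, smul_eq_mul]
    ring
  have hB : a - κ' * m = (a - κ * m) - (κ' - κ) * m := by ring
  unfold zF zD
  rw [hN', hB]
  rw [hB] at h'
  generalize dot2 (r - κ • X) (p0 + κ • X) = N at *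
  generalize dot2 X (r - p0) - 2 * κ * dot2 X X = Bk at *
  generalize dot2 X X = XX at *
  generalize hA : a - κ * m = A at *
  have hκ : κ' = κ + (κ' - κ) := by ring
  generalize κ' - κ = Δ at *
  subst hκ
  field_simp
  ring

/-- dependence on the first field (through `m`) -/
theorem zF_sub_m {z3 a m m' : ℝ} {r p0 X : P2} {κ : ℝ} (h : a - κ * m ≠ 0)
    (h' : a - κ * m' ≠ 0) :
    zF z3 a m' r p0 X κ - zF z3 a m r p0 X κ =
      -(κ * (m' - m)) * (1 + dot2 (r - κ • X) (p0 + κ • X) / ((a - κ * m) * (a - κ * m'))) := by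
  unfold zF
  field_simp
  ring

/-- `zD` is affine in `r` with gradient `-(a X + m p0)/(a - κ m)²` -/
theorem zD_affine {a m : ℝ} {r r' p0 X : P2} {κ : ℝ} :
    zD a m r' p0 X κ - zD a m r p0 X κ =
      -dot2 (r' - r) (a • X + m • p0) / (a - κ * m) ^ 2 := by
  unfold zD dot2
  simp only [Prod.fst_sub, Prod.snd_sub, Prod.fst_add, Prod.snd_add, Prod.smul_fst,
    Prod.smul_snd, smul_eq_mul]
  field_simp
  ring

/-- Sherman–Morrison: lower bound of the gradient -/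
theorem norm_le_grad {a b : ℝ} {p0 q X : P2} (hb : b ≠ 0) {P Q : ℝ} (hP : ‖p0‖ ≤ P) (hQ : ‖q‖ ≤ Q) :
    ‖X‖ * (|a| * |a * b + dot2 p0 q|) ≤
      ‖a • X + (dot2 X q / b) • p0‖ * (|a * b + dot2 p0 q| + 2 * P * Q) := by
  set w : P2 := a • X + (dot2 X q / b) • p0 with hw
  have key : (a * (a * b + dot2 p0 q)) • X = (a * b + dot2 p0 q) • w - (dot2 w q) • p0 := by
    apply Prod.ext
    · simp only [hw, dot2, Prod.fst_sub, Prod.fst_add, Prod.snd_add, Prod.smul_fst,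
        Prod.smul_snd, smul_eq_mul]
      field_simp
      ring
    · simp only [hw, dot2, Prod.snd_sub, Prod.fst_add, Prod.snd_add, Prod.smul_fst,
        Prod.smul_snd, smul_eq_mul]
      field_simp
      ring
  have h1 : ‖(a * (a * b + dot2 p0 q)) • X‖ = ‖X‖ * (|a| * |a * b + dot2 p0 q|) := by
    rw [norm_smul, Real.norm_eq_abs, abs_mul]
    ring
  have hP0 : 0 ≤ P := (norm_nonneg _).trans hP
  have hQ0 : 0 ≤ Q := (norm_nonneg _).trans hQ
  rw [← h1, key]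
  calc ‖(a * b + dot2 p0 q) • w - dot2 w q • p0‖
      ≤ ‖(a * b + dot2 p0 q) • w‖ + ‖dot2 w q • p0‖ := norm_sub_le _ _
    _ = |a * b + dot2 p0 q| * ‖w‖ + |dot2 w q| * ‖p0‖ := by
        rw [norm_smul, norm_smul, Real.norm_eq_abs, Real.norm_eq_abs]
    _ ≤ |a * b + dot2 p0 q| * ‖w‖ + (2 * ‖w‖ * Q) * P := by
        gcongr
        exact abs_dot2_le le_rfl hQ
    _ = ‖w‖ * (|a * b + dot2 p0 q| + 2 * P * Q) := by ring

set_option maxHeartbeats 2000000 in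
/-- antilipschitz estimate on short cells, with slowly varying first field -/
theorem zF_anti {z3 a m m' : ℝ} {r p0 X : P2} {τ τ' R d2 J0 e1 ℓ : ℝ}
    (hR : 1 ≤ R) (hd2 : 0 < d2) (hd21 : d2 ≤ 1) (hJ0 : 0 < J0)
    (hτ : R⁻¹ ≤ τ) (hτ' : R⁻¹ ≤ τ') (hτR : τ ≤ R) (hτR' : τ' ≤ R)
    (hX : ‖X‖ ≤ R) (hr : ‖r‖ ≤ R) (hp0 : ‖p0‖ ≤ R) (ha : |a| ≤ R) (hm : |m| ≤ R)
    (hA : d2 ≤ |a - τ⁻¹ * m|) (hA' : d2 ≤ |a - τ'⁻¹ * m'|)
    (hmm : |m' - m| ≤ e1 * |τ - τ'|) (hJ : J0 * τ ^ 2 ≤ |zD a m r p0 X τ⁻¹|)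
    (hℓ : |τ - τ'| ≤ ℓ) (hℓ0 : 4 * R * ℓ ≤ 1) (hℓ1 : 2 * R * e1 * ℓ ≤ d2)
    (hℓ2 : 416 * R ^ 10 * ℓ ≤ d2 ^ 3 * J0)
    (he1 : 136 * R ^ 5 * e1 ≤ d2 ^ 2 * J0) :
    J0 / 2 * |τ - τ'| ≤
      |zF z3 a m r p0 X τ⁻¹ - zF z3 a m' r p0 X τ'⁻¹| := by
  have hR0 : 0 < R := by linarith
  have hτ0 : 0 < τ := lt_of_lt_of_le (by positivity) hτ
  have hτ0' : 0 < τ' := lt_of_lt_of_le (by positivity) hτ'
  set κ := τ⁻¹ with hκ
  set κ' := τ'⁻¹ with hκ'
  have hκR : κ ≤ R := by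
    rw [hκ, inv_le_comm₀ hτ0 hR0]; exact hτ
  have hκR' : κ' ≤ R := by
    rw [hκ', inv_le_comm₀ hτ0' hR0]; exact hτ'
  have hκ0 : 0 < κ := by positivity
  have hκ0' : 0 < κ' := by positivity
  have hκl : R⁻¹ ≤ κ := by
    rw [hκ]; gcongr
  have hκl' : R⁻¹ ≤ κ' := by
    rw [hκ']; gcongr
  set T : ℝ := |τ - τ'| with hT
  have hT0 : 0 ≤ T := abs_nonneg _
  rcases hT0.eq_or_lt with hT00 | hTpos
  · rw [← hT00, mul_zero]; exact abs_nonneg _
  have he1' : 0 ≤ e1 := by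
    have := (abs_nonneg (m' - m)).trans hmm
    by_contra hcon
    push Not at hcon
    nlinarith
  have hmmR : κ' * |m' - m| ≤ R * e1 * T := by
    calc κ' * |m' - m| ≤ R * (e1 * T) := by gcongr
      _ = R * e1 * T := by ring
  -- middle denominator
  have hAm : d2 / 2 ≤ |a - κ' * m| := by
    have h1 : |a - κ' * m'| ≤ |a - κ' * m| + κ' * |m' - m| := by
      have : a - κ' * m' = (a - κ' * m) - κ' * (m' - m) := by ring
      rw [this]
      calc |(a - κ' * m) - κ' * (m' - m)| ≤ |a - κ' * m| + |κ' * (m' - m)| := abs_sub _ _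
        _ = |a - κ' * m| + κ' * |m' - m| := by rw [abs_mul, abs_of_pos hκ0']
    have h2 : R * e1 * T ≤ d2 / 2 := by
      have : R * e1 * T ≤ R * e1 * ℓ := by gcongr
      linarith
    linarith
  have hA0 : a - κ * m ≠ 0 := by
    intro h0; rw [h0, abs_zero] at hA; linarith
  have hA0' : a - κ' * m' ≠ 0 := by
    intro h0; rw [h0, abs_zero] at hA'; linarith
  have hAm0 : a - κ' * m ≠ 0 := by
    intro h0; rw [h0, abs_zero] at hAm; linarith
  -- sizes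
  have hN : ∀ k : ℝ, 0 < k → k ≤ R → |dot2 (r - k • X) (p0 + k • X)| ≤ 8 * R ^ 4 := by
    intro k hk hkR
    have h1 : ‖k • X‖ ≤ R * R := by
      rw [norm_smul, Real.norm_eq_abs, abs_of_pos hk]
      gcongr
    have h2 : ‖r - k • X‖ ≤ R + R * R := (norm_sub_le _ _).trans (by gcongr)
    have h3 : ‖p0 + k • X‖ ≤ R + R * R := (norm_add_le _ _).trans (by gcongr)
    refine (abs_dot2_le h2 h3).trans ?_
    have h4 : R + R * R ≤ 2 * R ^ 2 := by nlinarith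
    calc 2 * (R + R * R) * (R + R * R) ≤ 2 * (2 * R ^ 2) * (2 * R ^ 2) := by gcongr
      _ = 8 * R ^ 4 := by ring
  have hXX : |dot2 X X| ≤ 2 * R ^ 2 := (abs_dot2_le hX hX).trans (by nlinarith)
  have hBk : |dot2 X (r - p0) - 2 * κ * dot2 X X| ≤ 8 * R ^ 3 := by
    have h1 : |dot2 X (r - p0)| ≤ 2 * R * (R + R) :=
      abs_dot2_le hX ((norm_sub_le _ _).trans (by gcongr))
    have h2 : |2 * κ * dot2 X X| ≤ 2 * R * (2 * R ^ 2) := by
      rw [abs_mul, abs_of_pos (by positivity : (0:ℝ) < 2 * κ)]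
      gcongr
    have h3 : R ^ 2 ≤ R ^ 3 := pow_le_pow_right₀ hR (by norm_num)
    calc |dot2 X (r - p0) - 2 * κ * dot2 X X| ≤ |dot2 X (r - p0)| + |2 * κ * dot2 X X| :=
          abs_sub _ _
      _ ≤ 2 * R * (R + R) + 2 * R * (2 * R ^ 2) := by gcongr
      _ ≤ 8 * R ^ 3 := by nlinarith
  have hAle : |a - κ * m| ≤ 2 * R ^ 2 := by
    calc |a - κ * m| ≤ |a| + |κ * m| := abs_sub _ _
      _ ≤ R + R * R := by
          rw [abs_mul, abs_of_pos hκ0]; gcongr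
      _ ≤ 2 * R ^ 2 := by nlinarith
  -- remainder
  set Rem : ℝ := dot2 X X / (a - κ' * m) -
        m * ((dot2 X (r - p0) - 2 * κ * dot2 X X) * (a - κ * m) +
          dot2 (r - κ • X) (p0 + κ • X) * m) / ((a - κ * m) ^ 2 * (a - κ' * m)) with hRem
  have hRemle : |Rem| ≤ 52 * R ^ 6 / d2 ^ 3 := by
    have h1 : |dot2 X X / (a - κ' * m)| ≤ 2 * R ^ 2 / (d2 / 2) := by
      rw [abs_div]; gcongr
    have hnum : |m * ((dot2 X (r - p0) - 2 * κ * dot2 X X) * (a - κ * m) +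
          dot2 (r - κ • X) (p0 + κ • X) * m)| ≤ 24 * R ^ 6 := by
      rw [abs_mul]
      have : |(dot2 X (r - p0) - 2 * κ * dot2 X X) * (a - κ * m) +
          dot2 (r - κ • X) (p0 + κ • X) * m| ≤ 8 * R ^ 3 * (2 * R ^ 2) + 8 * R ^ 4 * R := by
        refine (abs_add_le _ _).trans ?_
        rw [abs_mul, abs_mul]
        have := hN κ hκ0 hκR
        gcongr
      calc |m| * _ ≤ R * (8 * R ^ 3 * (2 * R ^ 2) + 8 * R ^ 4 * R) := by gcongr
        _ = 24 * R ^ 6 := by ring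
    have h2 : |m * ((dot2 X (r - p0) - 2 * κ * dot2 X X) * (a - κ * m) +
          dot2 (r - κ • X) (p0 + κ • X) * m) / ((a - κ * m) ^ 2 * (a - κ' * m))| ≤
        24 * R ^ 6 / (d2 ^ 2 * (d2 / 2)) := by
      rw [abs_div, abs_mul ((a - κ * m) ^ 2), abs_pow]
      gcongr
    have h3 : R ^ 2 ≤ R ^ 6 := pow_le_pow_right₀ hR (by norm_num)
    have h4 : d2 ^ 3 ≤ d2 := by
      calc d2 ^ 3 ≤ d2 ^ 1 := pow_le_pow_of_le_one hd2.le hd21 (by norm_num)
        _ = d2 := pow_one _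
    calc |Rem| ≤ _ := abs_sub _ _
      _ ≤ 2 * R ^ 2 / (d2 / 2) + 24 * R ^ 6 / (d2 ^ 2 * (d2 / 2)) := add_le_add h1 h2
      _ = 4 * R ^ 2 / d2 + 48 * R ^ 6 / d2 ^ 3 := by field_simp; ring
      _ ≤ 4 * R ^ 6 / d2 ^ 3 + 48 * R ^ 6 / d2 ^ 3 := by gcongr
      _ = 52 * R ^ 6 / d2 ^ 3 := by ring
  -- the two differences
  have hΔ : |κ' - κ| = κ * κ' * T := by
    have : κ' - κ = κ * κ' * (τ - τ') := by
      rw [hκ, hκ']; field_simp
    rw [this, abs_mul, abs_of_pos (by positivity)]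
  have hΔle : |κ' - κ| ≤ R ^ 2 * T := by
    rw [hΔ]
    calc κ * κ' * T ≤ R * R * T := by gcongr
      _ = R ^ 2 * T := by ring
  have hΔge : 3 / 4 * T ≤ |κ' - κ| * τ ^ 2 := by
    rw [hΔ]
    have h1 : κ * κ' * T * τ ^ 2 = (τ * κ') * T := by
      rw [hκ]; field_simp
    rw [h1]
    gcongr
    have h2 : τ' - τ ≤ ℓ := (neg_le_abs _).trans' (by linarith) |>.trans hℓ
    have h3 : κ' * τ' = 1 := by rw [hκ']; field_simp
    have h4 : κ' * (τ' - τ) ≤ R * ℓ := by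
      rcases le_total 0 (τ' - τ) with h | h
      · exact mul_le_mul hκR' h2 h hR0.le
      · have : κ' * (τ' - τ) ≤ 0 := mul_nonpos_of_nonneg_of_nonpos hκ0'.le h
        have h5 : 0 ≤ R * ℓ := mul_nonneg hR0.le (hT0.trans hℓ)
        linarith
    have h6 : τ * κ' = 1 - κ' * (τ' - τ) := by linarith [mul_comm τ κ', mul_sub κ' τ' τ]
    rw [h6]
    linarith
  have hℓ00 : 0 ≤ ℓ := hT0.trans hℓ
  have hfirst : 5 / 8 * J0 * T ≤ |zF z3 a m r p0 X κ' - zF z3 a m r p0 X κ| := by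
    rw [zF_sub hA0 hAm0, abs_mul]
    have h2 : |zD a m r p0 X κ| ≤ |zD a m r p0 X κ + (κ' - κ) * Rem| + |(κ' - κ) * Rem| := by
      have : zD a m r p0 X κ = (zD a m r p0 X κ + (κ' - κ) * Rem) - (κ' - κ) * Rem := by ring
      calc |zD a m r p0 X κ| = |(zD a m r p0 X κ + (κ' - κ) * Rem) - (κ' - κ) * Rem| := by
            rw [← this]
        _ ≤ _ := abs_sub _ _
    have h3 : |κ' - κ| * |(κ' - κ) * Rem| ≤ J0 / 8 * T := by
      rw [abs_mul]
      have h3 : |κ' - κ| ≤ R ^ 2 * ℓ := hΔle.trans (by gcongr)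
      calc |κ' - κ| * (|κ' - κ| * |Rem|) ≤ (R ^ 2 * T) * ((R ^ 2 * ℓ) * (52 * R ^ 6 / d2 ^ 3)) := by
            gcongr
        _ = (416 * R ^ 10 * ℓ) / (8 * d2 ^ 3) * T := by field_simp; ring
        _ ≤ (d2 ^ 3 * J0) / (8 * d2 ^ 3) * T := by gcongr
        _ = J0 / 8 * T := by field_simp
    have h4 : |κ' - κ| * |zD a m r p0 X κ| ≤
        |κ' - κ| * |zD a m r p0 X κ + (κ' - κ) * Rem| + |κ' - κ| * |(κ' - κ) * Rem| := by
      rw [← mul_add]
      gcongr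
    have h5 : 3 / 4 * T * J0 ≤ |κ' - κ| * |zD a m r p0 X κ| := by
      calc 3 / 4 * T * J0 ≤ |κ' - κ| * τ ^ 2 * J0 := by gcongr
        _ = |κ' - κ| * (J0 * τ ^ 2) := by ring
        _ ≤ |κ' - κ| * |zD a m r p0 X κ| := by gcongr
    nlinarith [h3, h4, h5]
  have hsecond : |zF z3 a m' r p0 X κ' - zF z3 a m r p0 X κ'| ≤ 17 * R ^ 5 * e1 / d2 ^ 2 * T := by
    rw [zF_sub_m hAm0 hA0', abs_mul, abs_neg, abs_mul, abs_of_pos hκ0']
    have h1 : |1 + dot2 (r - κ' • X) (p0 + κ' • X) / ((a - κ' * m) * (a - κ' * m'))| ≤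
        1 + 8 * R ^ 4 / (d2 / 2 * d2) := by
      refine (abs_add_le _ _).trans ?_
      rw [abs_one, abs_div, abs_mul]
      have := hN κ' hκ0' hκR'
      gcongr
    have h2 : 1 + 8 * R ^ 4 / (d2 / 2 * d2) ≤ 17 * R ^ 4 / d2 ^ 2 := by
      have h3 : (1 : ℝ) ≤ R ^ 4 / d2 ^ 2 := by
        rw [le_div_iff₀ (by positivity), one_mul]
        calc d2 ^ 2 ≤ 1 := pow_le_one₀ hd2.le hd21
          _ ≤ R ^ 4 := one_le_pow₀ hR
      calc 1 + 8 * R ^ 4 / (d2 / 2 * d2) ≤ R ^ 4 / d2 ^ 2 + 8 * R ^ 4 / (d2 / 2 * d2) := by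
            gcongr
        _ = 17 * R ^ 4 / d2 ^ 2 := by field_simp; ring
    calc κ' * |m' - m| * _ ≤ (R * e1 * T) * (17 * R ^ 4 / d2 ^ 2) := by
          have h5 := h1.trans h2
          gcongr
      _ = 17 * R ^ 5 * e1 / d2 ^ 2 * T := by ring
  have hfin : 17 * R ^ 5 * e1 / d2 ^ 2 ≤ J0 / 8 := by
    rw [div_le_div_iff₀ (by positivity) (by positivity)]
    nlinarith [he1]
  have htri : |zF z3 a m r p0 X κ' - zF z3 a m r p0 X κ| ≤
      |zF z3 a m r p0 X κ - zF z3 a m' r p0 X κ'| +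
        |zF z3 a m' r p0 X κ' - zF z3 a m r p0 X κ'| := by
    have : zF z3 a m r p0 X κ' - zF z3 a m r p0 X κ =
        -((zF z3 a m r p0 X κ - zF z3 a m' r p0 X κ') +
          (zF z3 a m' r p0 X κ' - zF z3 a m r p0 X κ')) := by ring
    rw [this, abs_neg]
    exact abs_add_le _ _
  have h8 : 17 * R ^ 5 * e1 / d2 ^ 2 * T ≤ J0 / 8 * T := by gcongr
  have h9 : J0 / 2 * T = 5 / 8 * J0 * T - J0 / 8 * T := by ring
  linarith

end Crest.Agent.R68.S
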