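import Crest.Agent.R68.SDet

/-!
R68 / S (smoothing lemma): dependence of `zD` on the fields (helper60).
-/

set_option autoImplicit false
open MeasureTheory Set
open scoped ENNReal

namespace Crest.Agent.R68.S

theorem zF_N_le {R κ : ℝ} {r p0 X : P2} (hR : 1 ≤ R) (hκ0 : 0 < κ) (hκR : κ ≤ R)
    (hX : ‖X‖ ≤ R) (hr : ‖r‖ ≤ R) (hp0 : ‖p0‖ ≤ R) :
    |dot2 (r - κ • X) (p0 + κ • X)| ≤ 8 * R ^ 4 := by
  have hR0 : 0 < R := by linarith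
  have h1 : ‖κ • X‖ ≤ R * R := by
    rw [norm_smul, Real.norm_eq_abs, abs_of_pos hκ0]
    gcongr
  have h2 : ‖r - κ • X‖ ≤ R + R * R := (norm_sub_le _ _).trans (by gcongr)
  have h3 : ‖p0 + κ • X‖ ≤ R + R * R := (norm_add_le _ _).trans (by gcongr)
  refine (abs_dot2_le h2 h3).trans ?_
  have h4 : R + R * R ≤ 2 * R ^ 2 := by nlinarith
  calc 2 * (R + R * R) * (R + R * R) ≤ 2 * (2 * R ^ 2) * (2 * R ^ 2) := by gcongr
    _ = 8 * R ^ 4 := by ring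

theorem zF_Bk_le {R κ : ℝ} {r p0 X : P2} (hR : 1 ≤ R) (hκ0 : 0 < κ) (hκR : κ ≤ R)
    (hX : ‖X‖ ≤ R) (hr : ‖r‖ ≤ R) (hp0 : ‖p0‖ ≤ R) :
    |dot2 X (r - p0) - 2 * κ * dot2 X X| ≤ 8 * R ^ 3 := by
  have hR0 : 0 < R := by linarith
  have hXX : |dot2 X X| ≤ 2 * R ^ 2 := (abs_dot2_le hX hX).trans (by nlinarith)
  have h1 : |dot2 X (r - p0)| ≤ 2 * R * (R + R) :=
    abs_dot2_le hX ((norm_sub_le _ _).trans (by gcongr))
  have h2 : |2 * κ * dot2 X X| ≤ 2 * R * (2 * R ^ 2) := by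
    rw [abs_mul, abs_of_pos (by positivity : (0:ℝ) < 2 * κ)]
    gcongr
  have h3 : R ^ 2 ≤ R ^ 3 := pow_le_pow_right₀ hR (by norm_num)
  calc |dot2 X (r - p0) - 2 * κ * dot2 X X| ≤ |dot2 X (r - p0)| + |2 * κ * dot2 X X| :=
        abs_sub _ _
    _ ≤ 2 * R * (R + R) + 2 * R * (2 * R ^ 2) := by gcongr
    _ ≤ 8 * R ^ 3 := by nlinarith

theorem abs_zD_sub_le {a a' m m' κ R δ E : ℝ} {r p0 p0' X : P2} (hR : 1 ≤ R) (hδ : 0 < δ)
    (hδ1 : δ ≤ 1) (hκ0 : 0 < κ) (hκR : κ ≤ R)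
    (hX : ‖X‖ ≤ R) (hr : ‖r‖ ≤ R) (hp0 : ‖p0‖ ≤ R) (hp0' : ‖p0'‖ ≤ R)
    (ha : |a| ≤ R) (ha' : |a'| ≤ R) (hm : |m| ≤ R) (hm' : |m'| ≤ R)
    (hA : δ ≤ |a - κ * m|) (hA' : δ ≤ |a' - κ * m'|)
    (hEa : |a - a'| ≤ E) (hEm : |m - m'| ≤ E) (hEp : ‖p0 - p0'‖ ≤ E) :
    |zD a m r p0 X κ - zD a' m' r p0' X κ| ≤ 225 * R ^ 8 / δ ^ 4 * E := by
  have hR0 : 0 < R := by linarith
  have hE0 : 0 ≤ E := (abs_nonneg _).trans hEa
  set A := a - κ * m with hAdef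
  set A' := a' - κ * m' with hAdef'
  set N := dot2 (r - κ • X) (p0 + κ • X) with hNdef
  set N' := dot2 (r - κ • X) (p0' + κ • X) with hNdef'
  set B := dot2 X (r - p0) - 2 * κ * dot2 X X with hBdef
  set B' := dot2 X (r - p0') - 2 * κ * dot2 X X with hBdef'
  have hN : |N| ≤ 8 * R ^ 4 := zF_N_le hR hκ0 hκR hX hr hp0
  have hN' : |N'| ≤ 8 * R ^ 4 := zF_N_le hR hκ0 hκR hX hr hp0'
  have hB' : |B'| ≤ 8 * R ^ 3 := zF_Bk_le hR hκ0 hκR hX hr hp0'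
  have hAle : ∀ x y : ℝ, |x| ≤ R → |y| ≤ R → |x - κ * y| ≤ 2 * R ^ 2 := by
    intro x y hx hy
    calc |x - κ * y| ≤ |x| + |κ * y| := abs_sub _ _
      _ ≤ R + R * R := by
          rw [abs_mul, abs_of_pos hκ0]; gcongr
      _ ≤ 2 * R ^ 2 := by nlinarith
  have hAle1 := hAle a m ha hm
  have hAle2 := hAle a' m' ha' hm'
  have hA0 : A ≠ 0 := by
    intro h0; rw [h0, abs_zero] at hA; linarith
  have hA0' : A' ≠ 0 := by
    intro h0; rw [h0, abs_zero] at hA'; linarith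
  have hdA : |A - A'| ≤ 2 * R * E := by
    have : A - A' = (a - a') - κ * (m - m') := by rw [hAdef, hAdef']; ring
    rw [this]
    calc |(a - a') - κ * (m - m')| ≤ |a - a'| + |κ * (m - m')| := abs_sub _ _
      _ ≤ E + R * E := by rw [abs_mul, abs_of_pos hκ0]; gcongr
      _ ≤ 2 * R * E := by nlinarith
  have hdB : |B - B'| ≤ 2 * R * E := by
    have : B - B' = -dot2 X (p0 - p0') := by
      rw [hBdef, hBdef']; unfold dot2
      simp only [Prod.fst_sub, Prod.snd_sub]; ring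
    rw [this, abs_neg]
    exact abs_dot2_le hX hEp
  have hdN : |N - N'| ≤ 4 * R ^ 2 * E := by
    have : N - N' = dot2 (r - κ • X) (p0 - p0') := by
      rw [hNdef, hNdef']; unfold dot2
      simp only [Prod.fst_sub, Prod.snd_sub, Prod.fst_add, Prod.snd_add]; ring
    rw [this]
    have h1 : ‖κ • X‖ ≤ R * R := by
      rw [norm_smul, Real.norm_eq_abs, abs_of_pos hκ0]
      gcongr
    have h2 : ‖r - κ • X‖ ≤ R + R * R := (norm_sub_le _ _).trans (by gcongr)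
    refine (abs_dot2_le h2 hEp).trans ?_
    have h4 : R + R * R ≤ 2 * R ^ 2 := by nlinarith
    calc 2 * (R + R * R) * E ≤ 2 * (2 * R ^ 2) * E := by gcongr
      _ = 4 * R ^ 2 * E := by ring
  set P := B * A + N * m with hPdef
  set P' := B' * A' + N' * m' with hPdef'
  have hP' : |P'| ≤ 24 * R ^ 5 := by
    calc |P'| ≤ |B' * A'| + |N' * m'| := abs_add_le _ _
      _ ≤ 8 * R ^ 3 * (2 * R ^ 2) + 8 * R ^ 4 * R := by
          rw [abs_mul, abs_mul]; gcongr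
      _ = 24 * R ^ 5 := by ring
  have hdP : |P - P'| ≤ 32 * R ^ 4 * E := by
    have : P - P' = (B - B') * A + B' * (A - A') + ((N - N') * m + N' * (m - m')) := by
      rw [hPdef, hPdef']; ring
    rw [this]
    have h3 : R ^ 3 ≤ R ^ 4 := pow_le_pow_right₀ hR (by norm_num)
    calc |(B - B') * A + B' * (A - A') + ((N - N') * m + N' * (m - m'))|
        ≤ |(B - B') * A| + |B' * (A - A')| + (|(N - N') * m| + |N' * (m - m')|) :=
          (abs_add_le _ _).trans (add_le_add (abs_add_le _ _) (abs_add_le _ _))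
      _ ≤ 2 * R * E * (2 * R ^ 2) + 8 * R ^ 3 * (2 * R * E) +
            (4 * R ^ 2 * E * R + 8 * R ^ 4 * E) := by
          rw [abs_mul, abs_mul, abs_mul, abs_mul]; gcongr
      _ = (8 * R ^ 3 + 24 * R ^ 4) * E := by ring
      _ ≤ (8 * R ^ 4 + 24 * R ^ 4) * E := by gcongr
      _ = 32 * R ^ 4 * E := by ring
  have hinv : |1 / A ^ 2 - 1 / A' ^ 2| ≤ 8 * R ^ 3 * E / δ ^ 4 := by
    have : 1 / A ^ 2 - 1 / A' ^ 2 = -((A - A') * (A' + A)) / (A ^ 2 * A' ^ 2) := by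
      field_simp; ring
    rw [this, abs_div, abs_neg, abs_mul, abs_mul (A ^ 2), abs_pow, abs_pow]
    have h1 : |A' + A| ≤ 4 * R ^ 2 := by
      calc |A' + A| ≤ |A'| + |A| := abs_add_le _ _
        _ ≤ 2 * R ^ 2 + 2 * R ^ 2 := by gcongr
        _ = 4 * R ^ 2 := by ring
    calc |A - A'| * |A' + A| / (|A| ^ 2 * |A'| ^ 2) ≤ 2 * R * E * (4 * R ^ 2) / (δ ^ 2 * δ ^ 2) := by
          gcongr
      _ = 8 * R ^ 3 * E / δ ^ 4 := by ring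
  have key : zD a m r p0 X κ - zD a' m' r p0' X κ =
      -(m - m') - ((P - P') / A ^ 2 + P' * (1 / A ^ 2 - 1 / A' ^ 2)) := by
    unfold zD
    rw [← hAdef, ← hAdef', ← hBdef, ← hBdef', ← hNdef, ← hNdef', ← hPdef, ← hPdef']
    ring
  rw [key]
  have hδ4 : δ ^ 4 ≤ 1 := pow_le_one₀ hδ.le hδ1
  have hδ42 : δ ^ 4 ≤ δ ^ 2 := pow_le_pow_of_le_one hδ.le hδ1 (by norm_num)
  have hR8 : (1 : ℝ) ≤ R ^ 8 := one_le_pow₀ hR
  have hR48 : R ^ 4 ≤ R ^ 8 := pow_le_pow_right₀ hR (by norm_num)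
  have t1 : |m - m'| ≤ R ^ 8 / δ ^ 4 * E := by
    have : 1 ≤ R ^ 8 / δ ^ 4 := by
      rw [le_div_iff₀ (by positivity)]; linarith
    calc |m - m'| ≤ E := hEm
      _ = 1 * E := (one_mul _).symm
      _ ≤ R ^ 8 / δ ^ 4 * E := by gcongr
  have t2 : |(P - P') / A ^ 2| ≤ 32 * R ^ 8 / δ ^ 4 * E := by
    rw [abs_div, abs_pow]
    calc |P - P'| / |A| ^ 2 ≤ 32 * R ^ 4 * E / δ ^ 2 := by gcongr
      _ ≤ 32 * R ^ 8 * E / δ ^ 4 := by gcongr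
      _ = 32 * R ^ 8 / δ ^ 4 * E := by ring
  have t3 : |P' * (1 / A ^ 2 - 1 / A' ^ 2)| ≤ 192 * R ^ 8 / δ ^ 4 * E := by
    rw [abs_mul]
    calc |P'| * |1 / A ^ 2 - 1 / A' ^ 2| ≤ 24 * R ^ 5 * (8 * R ^ 3 * E / δ ^ 4) := by gcongr
      _ = 192 * R ^ 8 / δ ^ 4 * E := by ring
  calc |-(m - m') - ((P - P') / A ^ 2 + P' * (1 / A ^ 2 - 1 / A' ^ 2))|
      ≤ |-(m - m')| + |(P - P') / A ^ 2 + P' * (1 / A ^ 2 - 1 / A' ^ 2)| := abs_sub _ _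
    _ ≤ |m - m'| + (|(P - P') / A ^ 2| + |P' * (1 / A ^ 2 - 1 / A' ^ 2)|) := by
        rw [abs_neg]
        gcongr
        exact abs_add_le _ _
    _ ≤ R ^ 8 / δ ^ 4 * E + (32 * R ^ 8 / δ ^ 4 * E + 192 * R ^ 8 / δ ^ 4 * E) := by gcongr
    _ = 225 * R ^ 8 / δ ^ 4 * E := by ring

end Crest.Agent.R68.S
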