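import Mathlib
import Crest.Agent.R68.LDefs
import Crest.Agent.R68.SWin3

/-!
R68 / SGain: the fuel gain `Gf φ` satisfies the hypotheses `GHyp`, `GAdd` of the window theorem
(helper653).
-/

set_option autoImplicit false
open MeasureTheory Set Metric
open scoped ENNReal NNReal
open Crest.AnalysisR.VecCalc3 Crest.AnalysisR.PDE.Boltzmann

namespace Crest.Agent.R68.S

open Crest.Agent.R68.A (Meas3)

/-- the Carleman integrand -/
noncomputable def carF (h : R3 → ℝ≥0∞) (v u : R3) : ℝ≥0∞ :=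
  ENNReal.ofReal ‖u - v‖⁻¹ * planeInt h v (‖u - v‖⁻¹ • (u - v))

theorem measurable_carF {h : R3 → ℝ≥0∞} (hh : Measurable h) (v : R3) :
    Measurable fun u => carF h v u := by
  unfold carF
  apply Measurable.mul (by fun_prop)
  have h1 := measurable_planeInt hh
  have h2 : Measurable fun u : R3 => (v, ‖u - v‖⁻¹ • (u - v)) := by fun_prop
  exact h1.comp h2

/-- Carleman form of the fuel gain -/
theorem Gf_carleman {φ h : Dn} (hφ : Meas3 φ) (hh : Meas3 h) (s : ℝ) (y : P2) (v : R3) :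
    L.Gf φ h s y v = 4 * ∫⁻ u, φ s y u * carF (h s y) v u := by
  have h1 := carleman (hφ.slice s y) (hh.slice s y) v
  have h2 : L.Gf φ h s y v = 2 * Qp (φ s y) (h s y) v := rfl
  have h3 : Qp (φ s y) (h s y) v
      = 2 * ∫⁻ z, ENNReal.ofReal ‖z‖⁻¹ * φ s y (v + z) * planeInt (h s y) v (‖z‖⁻¹ • z) := h1
  rw [h2, h3, ← mul_assoc]
  have h4 : (2 : ℝ≥0∞) * 2 = 4 := by norm_num
  rw [h4]
  congr 1
  rw [← lintegral_add_left_eq_self (fun u => φ s y u * carF (h s y) v u) v]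
  refine lintegral_congr fun z => ?_
  unfold carF
  rw [add_sub_cancel_left]
  ring

/-- `GHyp` for the fuel gain from a label representation of the fuel -/
theorem GHyp_Gf {Ω : Type} [MeasurableSpace Ω] {π : Measure Ω} {τ t Cr K : ℝ}
    {χ : Ω → ℝ → P2 → ℝ≥0∞} {u : Ω → ℝ → P2 → R3} {φ : Dn} (hφ : Meas3 φ)
    (hrep : ∀ s, τ < s → s < t → ∀ (y : P2) (F : R3 → ℝ≥0∞), Measurable F →
      ∫⁻ v, φ s y v * F v ≤ ENNReal.ofReal (Cr * K / s) * ∫⁻ ω, χ ω s y * F (u ω s y) ∂π) :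
    GHyp π τ t (4 * Cr) K χ u (L.Gf φ) := by
  refine ⟨?_, ?_⟩
  · intro h hh0 s hs hs' y v
    have hh : Meas3 h := hh0
    rw [Gf_carleman hφ hh]
    refine (mul_le_mul' le_rfl (hrep s hs hs' y _ (measurable_carF (hh.slice s y) v))).trans ?_
    rw [← mul_assoc]
    refine mul_le_mul' (le_of_eq ?_) le_rfl
    rw [show (4 : ℝ≥0∞) = ENNReal.ofReal 4 by norm_num, ← ENNReal.ofReal_mul (by norm_num)]
    congr 1
    ring
  · intro h hh
    have h1 : Meas3 (L.Gf φ h) := L.meas3_Gf hφ hh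
    unfold MD DuhT
    refine A.measurable_lintegral_Ioo (α := ℝ × P2 × R3) (q := fun z : (ℝ × P2 × R3) × ℝ =>
      L.Gf φ h z.2 (z.1.2.1 - (z.1.1 - z.2) • bar z.1.2.2) z.1.2.2) ?_ measurable_const
      (by fun_prop)
    exact h1.comp (by fun_prop) (by fun_prop) (by fun_prop)

/-- `GAdd` for the fuel gain -/
theorem GAdd_Gf (τ t : ℝ) {φ : Dn} (hφ : Meas3 φ) : GAdd τ t (L.Gf φ) := by
  refine ⟨?_, ?_, ?_⟩
  · intro h k _ _ s _ _ hle y v
    exact L.Gf_mono_at (fun z => hle y z) v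
  · intro h k hh _ s _ _ y v
    have h1 := L.Gf_add hφ (h := h) (k := k) hh
    have h2 := congrFun (congrFun (congrFun h1 s) y) v
    exact le_of_eq h2
  · intro h hh
    exact L.meas3_Gf hφ hh

end Crest.Agent.R68.S
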