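import Mathlib
import Crest.Agent.R68.SWin
import Crest.Agent.R68.SPl3

/-!
R68 / SGau: the Gaussian weight satisfies `MHyp` (helper180).
-/

set_option autoImplicit false
open MeasureTheory Set Metric
open scoped ENNReal NNReal
open Crest.AnalysisR.VecCalc3 Crest.AnalysisR.PDE.Boltzmann

namespace Crest.Agent.R68.S

/-- the Gaussian weight `e^{-g|v|²}` (constant in time and position) -/
noncomputable def mgau (g : ℝ) : Dn := fun _ _ v => ENNReal.ofReal (Real.exp (-g * ‖v‖ ^ 2))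

theorem measurable_mgau (g : ℝ) : MD (mgau g) := by
  unfold MD mgau
  fun_prop

theorem mgau_ne_zero (g : ℝ) (s : ℝ) (y : P2) (v : R3) : mgau g s y v ≠ 0 := by
  unfold mgau
  exact (ENNReal.ofReal_pos.2 (Real.exp_pos _)).ne'

theorem mgau_ne_top (g : ℝ) (s : ℝ) (y : P2) (v : R3) : mgau g s y v ≠ ∞ := by
  unfold mgau
  exact ENNReal.ofReal_ne_top

/-- general lower bound for Gaussian weights on collision planes -/
theorem mgau_plane {κ g g1 U : ℝ} (hg : 0 ≤ g) (hg1 : g ≤ g1) (hκ : κ ≤ g / 2)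
    {u v z : R3} (hu : ‖u‖ ≤ U) (h : (inner ℝ (z - v) (u - v) : ℝ) = 0) :
    ENNReal.ofReal (Real.exp (-g * ‖z‖ ^ 2)) ≤
      ENNReal.ofReal (Real.exp (2 * g1 * U ^ 2)) * ker κ v z *
        ENNReal.ofReal (Real.exp (-g * ‖v‖ ^ 2)) := by
  have horth : (inner ℝ (z - v) (v - u) : ℝ) = 0 := by
    rw [show v - u = -(u - v) by abel, inner_neg_right, h, neg_zero]
  have h1 := gauss_plane hg hu horth
  unfold ker
  rw [← ENNReal.ofReal_mul (Real.exp_pos _).le, ← ENNReal.ofReal_mul (by positivity)]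
  apply ENNReal.ofReal_le_ofReal
  refine h1.trans ?_
  rw [← Real.exp_add, ← Real.exp_add, ← Real.exp_add]
  apply Real.exp_le_exp.2
  have h2 : g * U ^ 2 ≤ g1 * U ^ 2 := mul_le_mul_of_nonneg_right hg1 (sq_nonneg _)
  have h3 : κ * ‖z - v‖ ^ 2 ≤ g / 2 * ‖z - v‖ ^ 2 :=
    mul_le_mul_of_nonneg_right hκ (sq_nonneg _)
  linarith

/-- **MHyp instance** for `m = e^{-g|v|²}` -/
theorem mhyp_gauss {κ g g1 U : ℝ} (hg : 0 ≤ g) (hg1 : g ≤ g1) (hκ : κ ≤ g / 2) (τ t : ℝ) :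
    MHyp κ (Real.exp (2 * g1 * U ^ 2)) U τ t (mgau g) where
  meas := measurable_mgau g
  ne0 := fun s y v _ _ => mgau_ne_zero g s y v
  netop := fun s y v _ _ => mgau_ne_top g s y v
  mono := fun _ _ _ _ _ _ _ => le_rfl
  plane := fun _ _ _ _ _ _ _ hu h => mgau_plane hg hg1 hκ hu h

/-- the exponent `g1 - √t/100`, `κ = g1/4`: uniform constants for `√t ≤ 50 g1` -/
theorem mhyp_gau {g1 U : ℝ} (_hg1 : 0 < g1) {t : ℝ} (ht : √t ≤ 50 * g1) (τ : ℝ) :
    MHyp (g1 / 4) (Real.exp (2 * g1 * U ^ 2)) U τ t (mgau (g1 - √t / 100)) := by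
  have h0 := Real.sqrt_nonneg t
  exact mhyp_gauss (by linarith) (by linarith) (by linarith) τ t

/-- the weight in terms of `gau` -/
theorem mgau_eq_gau (g : ℝ) (t : ℝ) (s : ℝ) (y : P2) (v : R3) :
    mgau (g - √t / 100) s y v = ENNReal.ofReal (gau g t v) := rfl

end Crest.Agent.R68.S
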