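import Mathlib
import Crest.Agent.R68.SWin3

/-!
R68 / SGau: the window theorem with pure Gaussian velocity weights (input (S) of Part L;
helper653).
-/

set_option autoImplicit false
open MeasureTheory Set Metric
open scoped ENNReal NNReal
open Crest.AnalysisR.VecCalc3 Crest.AnalysisR.PDE.Boltzmann

namespace Crest.Agent.R68.S

/-- the Gaussian weight -/
noncomputable def mG (g : ℝ) : Dn := fun _ _ v => ENNReal.ofReal (Real.exp (-g * ‖v‖ ^ 2))

/-- Gaussians satisfy the hypotheses of the window theorem -/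
theorem MHyp_mG {g gmin gmax U : ℝ} (τ t : ℝ) (hg0 : 0 ≤ gmin) (h1 : gmin ≤ g) (h2 : g ≤ gmax) :
    MHyp (gmin / 2) (Real.exp (2 * gmax * U ^ 2)) U τ t (mG g) := by
  have hexp : ∀ v : R3, 0 < Real.exp (-g * ‖v‖ ^ 2) := fun v => Real.exp_pos _
  refine ⟨?_, ?_, ?_, ?_, ?_⟩
  · unfold MD mG; fun_prop
  · intro s y v _ _
    exact (ENNReal.ofReal_pos.2 (hexp v)).ne'
  · intro s y v _ _
    exact ENNReal.ofReal_ne_top
  · intro s' s y v _ _ _
    exact le_rfl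
  · intro s y u v z _ _ hu hin
    have horth : (inner ℝ (z - v) (v - u) : ℝ) = 0 := by
      have : v - u = -(u - v) := by abel
      rw [this, inner_neg_right, hin, neg_zero]
    have hgp : 0 ≤ g := hg0.trans h1
    have h3 := gauss_plane hgp hu horth
    show ENNReal.ofReal (Real.exp (-g * ‖z‖ ^ 2)) ≤ ENNReal.ofReal (Real.exp (2 * gmax * U ^ 2)) *
      ENNReal.ofReal (Real.exp (-(gmin / 2) * ‖z - v‖ ^ 2)) *
      ENNReal.ofReal (Real.exp (-g * ‖v‖ ^ 2))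
    rw [← ENNReal.ofReal_mul (Real.exp_pos _).le, ← ENNReal.ofReal_mul (by positivity)]
    apply ENNReal.ofReal_le_ofReal
    refine h3.trans ?_
    rw [← Real.exp_add, ← Real.exp_add, ← Real.exp_add]
    apply Real.exp_le_exp.2
    have e1 : g * U ^ 2 ≤ gmax * U ^ 2 := mul_le_mul_of_nonneg_right h2 (sq_nonneg U)
    have e2 : gmin / 2 * ‖z - v‖ ^ 2 ≤ g / 2 * ‖z - v‖ ^ 2 :=
      mul_le_mul_of_nonneg_right (by linarith) (sq_nonneg _)
    linarith

/-- **window theorem, Gaussian form** -/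
theorem win_gau {U CN CD Cg L : ℝ} {M : ℕ} {gmin gmax : ℝ} (hg0 : 0 ≤ gmin)
    (hcore : CoreProp (gmin / 2) L U CN CD M) (hL : 0 < L) (hCg : 0 < Cg)
    {ε : ℝ} (hε : 0 < ε) :
    ∃ ρ e C : ℝ, 0 < ρ ∧ 0 < e ∧ 0 < C ∧
      ∀ (K t : ℝ), 2 * L ≤ K → 0 < t →
      ∀ (Ω : Type) [MeasurableSpace Ω] (π : Measure Ω) (χ : Ω → ℝ → P2 → ℝ≥0∞)
        (u : Ω → ℝ → P2 → R3) (W : Dn) (G : Dn → Dn),
        UHyp π (t * (1 - L / K)) t U CN CD M χ u W →
        GHyp π (t * (1 - L / K)) t Cg K χ u G →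
      ∀ (x : P2) (ub : P2) (sg : Ω → ℝ),
        Near L U e ρ (scX t (t / K) L x χ) (scU t (t / K) x u) ub sg → Measurable sg →
      ∀ g : ℝ, gmin ≤ g → g ≤ gmax →
      ∀ h : Dn, MD h → ∀ b1 b2 : ℝ≥0∞,
        (∀ s y w, t * (1 - L / K) ≤ s → s ≤ t →
          h s y w ≤ b1 * (W s y w * ENNReal.ofReal (Real.exp (-g * ‖w‖ ^ 2)))) →
        (∀ s, t * (1 - L / K) ≤ s → s ≤ t →
          ∫⁻ y in closedBall x (ρ * (t / K)), ∫⁻ w in closedBall (0 : R3) ρ, h s y w ≤ b2) →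
      ∀ v, (fun h => DuhT (t * (1 - L / K)) (G h))^[4] h t x v
        ≤ W t x v * ENNReal.ofReal (Real.exp (-g * ‖v‖ ^ 2)) *
          (ENNReal.ofReal ε * b1 + ENNReal.ofReal (C * (K / t) ^ 2) * b2) := by
  obtain ⟨ρ, e, C, hρ, he, hC, H⟩ :=
    win hcore hL hCg (Cm := Real.exp (2 * gmax * U ^ 2)) (Real.exp_pos _) hε
  refine ⟨ρ, e, C * Real.exp (gmax * ρ ^ 2), hρ, he, by positivity, ?_⟩
  intro K t hKL ht Ω _ π χ u W G hU hG x ub sg hN hsg g hg1 hg2 h hh b1 b2 hle hmass v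
  have hg : 0 ≤ g := hg0.trans hg1
  have hM := MHyp_mG (U := U) (t * (1 - L / K)) t hg0 hg1 hg2
  have hmass' : ∀ s, t * (1 - L / K) ≤ s → s ≤ t →
      ∫⁻ y in closedBall x (ρ * (t / K)), ∫⁻ z in closedBall (0 : R3) ρ,
        h s y z / mG g s y z ≤ ENNReal.ofReal (Real.exp (gmax * ρ ^ 2)) * b2 := by
    intro s hs hs'
    refine le_trans ?_ (mul_le_mul' le_rfl (hmass s hs hs'))
    rw [← lintegral_const_mul' _ _ ENNReal.ofReal_ne_top]
    refine lintegral_mono fun y => ?_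
    rw [← lintegral_const_mul' _ _ ENNReal.ofReal_ne_top]
    refine setLIntegral_mono' measurableSet_closedBall fun z hz => ?_
    rw [ENNReal.div_eq_inv_mul]
    refine mul_le_mul' ?_ le_rfl
    show (ENNReal.ofReal (Real.exp (-g * ‖z‖ ^ 2)))⁻¹ ≤ _
    rw [← ENNReal.ofReal_inv_of_pos (Real.exp_pos _), ← Real.exp_neg]
    apply ENNReal.ofReal_le_ofReal
    apply Real.exp_le_exp.2
    have hz' : ‖z‖ ≤ ρ := by simpa using hz
    have hz2 : ‖z‖ ^ 2 ≤ ρ ^ 2 := pow_le_pow_left₀ (norm_nonneg _) hz' 2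
    nlinarith [sq_nonneg ρ, sq_nonneg ‖z‖]
  have hfin := H K t hKL ht Ω π χ u W (mG g) G hU hM hG x ub sg hN hsg h hh b1
    (ENNReal.ofReal (Real.exp (gmax * ρ ^ 2)) * b2) hle hmass' v
  refine hfin.trans (le_of_eq ?_)
  have e1 : ENNReal.ofReal (C * (K / t) ^ 2) * ENNReal.ofReal (Real.exp (gmax * ρ ^ 2))
      = ENNReal.ofReal (C * Real.exp (gmax * ρ ^ 2) * (K / t) ^ 2) := by
    rw [← ENNReal.ofReal_mul (by positivity)]
    congr 1; ring
  rw [← e1]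
  unfold mG
  ring

end Crest.Agent.R68.S
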