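import Crest.Agent.R68.SLab2

/-!
# Row 68, Part S (helper312): scaled label fields, standing hypotheses, `Near` property
-/

set_option autoImplicit false
open MeasureTheory Set
open scoped ENNReal
open Crest.AnalysisR.VecCalc3 Crest.AnalysisR.PDE.Boltzmann

noncomputable section

namespace Crest.Agent.R68.SL

open Crest.Agent.R68.Fuel

/-- scaled density: backward time `c`, position `ξ`, base point `(T, x0)`, scale `σ` -/
def chS (P : Par) (T σ : ℝ) (x0 : P2) (ω : Om) (c : ℝ) (ξ : P2) : ℝ≥0∞ :=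
  chP P ω (T - σ * c) (x0 + σ • ξ)

/-- scaled velocity field -/
def uS (P : Par) (T σ : ℝ) (x0 : P2) (ω : Om) (c : ℝ) (ξ : P2) : R3 :=
  uP P ω (T - σ * c) (x0 + σ • ξ)

theorem measurable_scale (T σ : ℝ) (x0 : P2) :
    Measurable fun q : Om × ℝ × P2 => (q.1, T - σ * q.2.1, x0 + σ • q.2.2) :=
  measurable_fst.prodMk (((measurable_fst.comp measurable_snd).const_mul σ).const_sub T |>.prodMk
    (((measurable_snd.comp measurable_snd).const_smul σ).const_add x0))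

theorem measurable_chS (P : Par) (T σ : ℝ) (x0 : P2) :
    Measurable fun q : Om × ℝ × P2 => chS P T σ x0 q.1 q.2.1 q.2.2 := by
  unfold chS
  exact Measurable.comp (g := fun q : Om × ℝ × P2 => chP P q.1 q.2.1 q.2.2)
    (f := fun q : Om × ℝ × P2 => (q.1, T - σ * q.2.1, x0 + σ • q.2.2)) (measurable_chP P)
    (measurable_scale T σ x0)

theorem measurable_uS (P : Par) (T σ : ℝ) (x0 : P2) :
    Measurable fun q : Om × ℝ × P2 => uS P T σ x0 q.1 q.2.1 q.2.2 := by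
  unfold uS
  exact Measurable.comp (g := fun q : Om × ℝ × P2 => uP P q.1 q.2.1 q.2.2)
    (f := fun q : Om × ℝ × P2 => (q.1, T - σ * q.2.1, x0 + σ • q.2.2)) (measurable_uP P)
    (measurable_scale T σ x0)

theorem chS_le_one {P : Par} (h : P.Ok) (hK : 0 < P.K) (T σ : ℝ) (x0 : P2) (ω : Om) (c : ℝ)
    (ξ : P2) : chS P T σ x0 ω c ξ ≤ 1 := chP_le_one h hK _ _ _

theorem norm_uS_le {P : Par} (h : P.Ok) {T σ : ℝ} {x0 : P2} {ω : Om} {c : ℝ} {ξ : P2}
    (hne : chS P T σ x0 ω c ξ ≠ 0) : ‖uS P T σ x0 ω c ξ‖ ≤ P.Y + 3 := norm_uP_le h hne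

/-- a fuel point has a representative near the origin -/
theorem exists_image {P : Par} (h : P.Ok) {ω : Om} {t : ℝ} {x : P2} (hne : chP P ω t x ≠ 0) :
    ∃ k : ℤ × ℤ, ‖x + latt k‖ < 7 / 20 ∧
      ‖x + latt k‖ ≤ (1 + P.Y) * P.dl + (P.c + P.Y + etaj P.p P.j0) * t := by
  by_cases hx : ∃ k : ℤ × ℤ, ‖x + latt k‖ < 7 / 20
  · obtain ⟨k, hk⟩ := hx
    refine ⟨k, hk, ?_⟩
    unfold chP at hne
    rw [red_of hk] at hne
    exact norm_of_chL h hne
  · push Not at hx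
    unfold chP at hne
    rw [red_zero fun k => not_lt.2 (hx k)] at hne
    exact absurd (chL_zero h ω t) hne

set_option maxHeartbeats 2000000 in
/-- comparison of a fuel point with the centre of the window; `m` = size of the window -/
theorem center {P : Par} (h : P.Ok) {j : ℕ} (hj : P.j0 ≤ j)
    {A y t T s s' x1 x2 z1 z2 a0 y0 m η0 : ℝ} (hA : A ∈ lane j) (hy : |y| < P.Y) (ht : 0 < t)
    (htT : t ≤ T) (hT1 : T ≤ 1 / 10) (hTk : T * P.kap ≤ 1) (hs : |s| < 1) (hs' : |s'| < 1)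
    (hη : etaj P.p P.j0 ≤ η0) (hη1 : η0 ≤ 1) (hm0 : 0 ≤ m) (hm : m ≤ 1)
    (e1 : x1 = A * (1 + P.kap * t) + t * (etaj P.p j * s))
    (e2 : x2 = y * (t + rr A) + t * (etaj P.p j * s'))
    (e1' : z1 = a0 * (1 + P.kap * T)) (e2' : z2 = y0 * (T + rr a0))
    {dx dt : ℝ} (hx1 : |x1 - z1| ≤ dx) (hx2 : |x2 - z2| ≤ dx) (hdt : |t - T| ≤ dt)
    (hd : dx + dt ≤ T * m) :
    |P.kap * A + etaj P.p j * s - P.kap * a0| ≤ m + 2 * η0 ∧
      |y + etaj P.p j * s' - y0| ≤ (1 + 2 * P.Y) * m + (2 + P.Y) * η0 := by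
  have hηj := etaj_anti P.p hj
  have hηj0 := etaj_pos P.p j
  have hk := Ok.kap0 h
  have hY := h.Y0
  have hT0 : 0 < T := ht.trans_le htT
  have hdx0 := (abs_nonneg _).trans hx1
  have hdt0 := (abs_nonneg _).trans hdt
  have hη0 : 0 ≤ η0 := (etaj_pos P.p P.j0).le.trans hη
  have hAd := lane_lt_dl (Ok.j1 h) hj hA
  have hdl := Ok.dlp h
  have hd20 := Ok.dl20 h
  have hkA : |P.kap * A| ≤ 1 := by
    rw [abs_mul, abs_of_nonneg hk]
    calc P.kap * |A| ≤ P.kap * P.dl := mul_le_mul_of_nonneg_left hAd.le hk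
      _ = P.c := by unfold Par.kap; field_simp
      _ ≤ 1 := h.c1
  have hes : ∀ u : ℝ, |u| < 1 → |etaj P.p j * u| ≤ η0 := by
    intro u hu
    rw [abs_mul, abs_of_pos hηj0]
    nlinarith [abs_nonneg u]
  have htes : ∀ u : ℝ, |u| < 1 → |t * (etaj P.p j * u)| ≤ T * η0 := by
    intro u hu
    rw [abs_mul, abs_of_pos ht]
    have := hes u hu
    have := abs_nonneg (etaj P.p j * u)
    nlinarith
  have hAa : |A - a0| ≤ T * (m + η0) := by
    have f1 : (A - a0) * (1 + P.kap * T) = (x1 - z1) - (P.kap * A) * (t - T) -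
        t * (etaj P.p j * s) := by
      rw [e1, e1']; ring
    have f2 : |A - a0| ≤ |(A - a0) * (1 + P.kap * T)| := by
      rw [abs_mul, abs_of_nonneg (show 0 ≤ 1 + P.kap * T by positivity)]
      have : 0 ≤ P.kap * T := by positivity
      nlinarith [abs_nonneg (A - a0)]
    have f3 : |(A - a0) * (1 + P.kap * T)| ≤ dx + dt + T * η0 := by
      rw [f1]
      refine (abs_sub _ _).trans (add_le_add ((abs_sub _ _).trans (add_le_add hx1 ?_)) (htes s hs))
      rw [abs_mul]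
      nlinarith [abs_nonneg (t - T), abs_nonneg (P.kap * A)]
    linarith
  have hAa1 : |A - a0| ≤ 1 / 5 := by nlinarith
  constructor
  · have f1 : P.kap * A + etaj P.p j * s - P.kap * a0 = P.kap * (A - a0) + etaj P.p j * s := by ring
    rw [f1]
    refine (abs_add_le _ _).trans ?_
    rw [abs_mul, abs_of_nonneg hk]
    have f2 : P.kap * |A - a0| ≤ m + η0 := by
      calc P.kap * |A - a0| ≤ P.kap * (T * (m + η0)) := by gcongr
        _ = (T * P.kap) * (m + η0) := by ring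
        _ ≤ 1 * (m + η0) := by gcongr
        _ = m + η0 := one_mul _
    have := hes s hs
    linarith
  · have hrr : |rr A - rr a0| ≤ T * (m + η0) := by
      have f1 : rr A - rr a0 = (A - a0) * (A + a0) := by unfold rr; ring
      rw [f1, abs_mul]
      have f2 : |A + a0| ≤ 1 := by
        have f3 : |a0| ≤ |A| + 1 / 5 := by
          have := abs_sub_abs_le_abs_sub a0 A
          rw [abs_sub_comm] at this
          linarith
        calc |A + a0| ≤ |A| + |a0| := abs_add_le _ _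
          _ ≤ 1 := by linarith
      calc |A - a0| * |A + a0| ≤ (T * (m + η0)) * 1 := by gcongr
        _ = T * (m + η0) := mul_one _
    have hr0 := rr_nonneg a0
    have f1 : (y - y0) * (T + rr a0) = (x2 - z2) - y * ((t - T) + (rr A - rr a0)) -
        t * (etaj P.p j * s') := by
      rw [e2, e2']; ring
    have f2 : |(y - y0) * (T + rr a0)| ≤ dx + P.Y * (dt + T * (m + η0)) + T * η0 := by
      rw [f1]
      refine (abs_sub _ _).trans (add_le_add ((abs_sub _ _).trans (add_le_add hx2 ?_))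
        (htes s' hs'))
      rw [abs_mul]
      have f3 : |(t - T) + (rr A - rr a0)| ≤ dt + T * (m + η0) :=
        (abs_add_le _ _).trans (add_le_add hdt hrr)
      gcongr
    rw [abs_mul, abs_of_nonneg (show 0 ≤ T + rr a0 by positivity)] at f2
    have f3 : dx + P.Y * (dt + T * (m + η0)) + T * η0 ≤ T * ((1 + 2 * P.Y) * m + (1 + P.Y) * η0) := by
      have g1 : dx + P.Y * dt ≤ (1 + P.Y) * (T * m) := by nlinarith
      nlinarith
    have f4 : |y - y0| ≤ (1 + 2 * P.Y) * m + (1 + P.Y) * η0 := by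
      have g1 : |y - y0| * T ≤ ((1 + 2 * P.Y) * m + (1 + P.Y) * η0) * T := by
        have g2 : |y - y0| * T ≤ |y - y0| * (T + rr a0) :=
          mul_le_mul_of_nonneg_left (by linarith) (abs_nonneg _)
        linarith
      exact le_of_mul_le_mul_right g1 hT0
    have f5 : y + etaj P.p j * s' - y0 = (y - y0) + etaj P.p j * s' := by ring
    rw [f5]
    refine (abs_add_le _ _).trans ?_
    have := hes s' hs'
    linarith

set_option maxHeartbeats 1000000 in
/-- Lipschitz estimate for two fuel points of the same label; `T q` = distance -/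
theorem lip_aux {P : Par} (h : P.Ok) {ω : Om} {t t' T dx dt q : ℝ} {z z' : P2} (hT : 0 < T)
    (hT1 : T ≤ 1) (hTk : T * P.kap ≤ 1) (ht2 : T / 2 ≤ t) (ht1 : t ≤ 1)
    (hne : chL P ω t z ≠ 0) (hne' : chL P ω t' z' ≠ 0) (hx1 : |z.1 - z'.1| ≤ dx)
    (hx2 : |z.2 - z'.2| ≤ dx) (hdt : |t - t'| ≤ dt) (hq : dx + dt = T * q) :
    ‖uL P ω t z - uL P ω t' z'‖ ≤ 8 * (1 + P.Y) * q := by
  obtain ⟨i, A, y, hi, ht, hw, hs1, hs2, hs3, hA, hy, e1, e2, g0, g1, g2⟩ := fuel_pt h hne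
  obtain ⟨j, B, w, hj, ht', hw', -, -, -, hB, hz, e1', e2', g0', g1', g2'⟩ := fuel_pt h hne'
  have hww : wj i = wj j := by rw [hw, hw']
  obtain ⟨p1, p2, p3⟩ := pair h hi hj hww hA hB hz ht ht1 hs1 hs2 e1 e2 e1' e2' hx1 hx2 hdt
  rw [hq] at p1 p2 p3
  have hY := h.Y0
  have hk0 := Ok.kap0 h
  have hrA := rr_nonneg A
  have hq0 : 0 ≤ q := by
    have h1 := (abs_nonneg _).trans hx1
    have h2 := (abs_nonneg _).trans hdt
    by_contra h3
    push Not at h3
    have : T * q < 0 := mul_neg_of_pos_of_neg hT h3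
    linarith
  have hYq : 0 ≤ P.Y * q := by positivity
  have r3 : |y - w| ≤ 4 * (1 + P.Y) * q := by
    have h1 : |y - w| * (T / 2) ≤ (4 * (1 + P.Y) * q) * (T / 2) := by
      have h2 : |y - w| * (T / 2) ≤ |y - w| * (t + rr A) :=
        mul_le_mul_of_nonneg_left (by linarith) (abs_nonneg _)
      have h3 : (4 * (1 + P.Y) * q) * (T / 2) = 2 * (1 + P.Y) * (T * q) := by ring
      rw [h3]
      exact h2.trans p3
    exact le_of_mul_le_mul_right h1 (by positivity)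
  have r2 : |etaj P.p i - etaj P.p j| ≤ q / 100 := by
    refine p2.trans ?_
    have : T * q ≤ 1 * q := mul_le_mul_of_nonneg_right hT1 hq0
    linarith
  have r1 : P.kap * |A - B| ≤ 3 * q := by
    calc P.kap * |A - B| ≤ P.kap * (3 * (T * q)) := mul_le_mul_of_nonneg_left p1 hk0
      _ = 3 * (T * P.kap) * q := by ring
      _ ≤ 3 * 1 * q := by gcongr
      _ = 3 * q := by ring
  have hes : ∀ u : ℝ, |u| < 1 → |(etaj P.p i - etaj P.p j) * u| ≤ q / 100 := by
    intro u hu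
    rw [abs_mul]
    calc |etaj P.p i - etaj P.p j| * |u| ≤ (q / 100) * 1 :=
          mul_le_mul r2 hu.le (abs_nonneg _) (by positivity)
      _ = q / 100 := mul_one _
  have h1 : ‖uL P ω t z - uL P ω t' z'‖ ≤
      (3 * q + q / 100) + (4 * (1 + P.Y) * q + q / 100) + q / 100 := by
    refine norm_le_of_abs ?_ ?_ ?_
    · rw [PiLp.sub_apply, g0, g0']
      have f1 : P.kap * A + etaj P.p i * ω.2.1 - (P.kap * B + etaj P.p j * ω.2.1) =
        P.kap * (A - B) + (etaj P.p i - etaj P.p j) * ω.2.1 := by ring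
      rw [f1]
      refine (abs_add_le _ _).trans (add_le_add ?_ (hes _ hs1))
      rw [abs_mul, abs_of_nonneg hk0]
      exact r1
    · rw [PiLp.sub_apply, g1, g1']
      have f1 : y + etaj P.p i * ω.2.2.1 - (w + etaj P.p j * ω.2.2.1) =
        (y - w) + (etaj P.p i - etaj P.p j) * ω.2.2.1 := by ring
      rw [f1]
      exact (abs_add_le _ _).trans (add_le_add r3 (hes _ hs2))
    · rw [PiLp.sub_apply, g2, g2', hww]
      have f1 : wj j + etaj P.p i * ω.2.2.2 - (wj j + etaj P.p j * ω.2.2.2) =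
        (etaj P.p i - etaj P.p j) * ω.2.2.2 := by ring
      rw [f1]
      exact hes _ hs3
  linarith

set_option maxHeartbeats 2000000 in
/-- **the scaled label fields are nearly constant** on the window `[0,L] × {‖ξ‖ ≤ ρ}`, at every
centre `x0` -/
theorem near {P : Par} (h : P.Ok) {T σ L ρ e U : ℝ} (hT : 0 < T) (hT1 : T ≤ 1 / 10)
    (hTk : T * P.kap ≤ 1) (hσ : 0 < σ) (hL : 0 ≤ L) (hρ : 0 ≤ ρ) (he1 : e ≤ 1)
    (hσ1 : 8 * (1 + P.Y) * (1 + ρ + L) * σ ≤ e * T)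
    (hη : 12 * (1 + P.Y) * etaj P.p P.j0 ≤ e) (hU : P.Y + 4 ≤ U)
    (hR : (1 + P.Y) * P.dl + (P.c + P.Y + etaj P.p P.j0) * T ≤ 3 / 10) (x0 : P2) :
    ∃ ub : P2, S.Near L U e ρ (chS P T σ x0) (uS P T σ x0) ub sg := by
  have hY := h.Y0
  have hη0 := etaj_pos P.p P.j0
  have he0 : 0 < e := lt_of_lt_of_le (by positivity) hη
  by_cases hex : ∃ (ω : Om) (c : ℝ) (ξ : P2), 0 ≤ c ∧ c ≤ L ∧ ‖ξ‖ ≤ ρ ∧ chS P T σ x0 ω c ξ ≠ 0
  swap
  · push Not at hex
    refine ⟨0, ⟨sg_or, by rw [norm_zero]; linarith, ?_, ?_⟩⟩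
    · intro ω c ξ hc0 hcL hξ hne
      exact absurd (hex ω c ξ hc0 hcL hξ) hne
    · intro ω c c' ξ ξ' hc0 hcL hξ hne
      exact absurd (hex ω c ξ hc0 hcL hξ) hne
  -- the size of the window
  have hσY : 0 ≤ P.Y * ((1 + ρ + L) * σ) := by positivity
  have hσρ : 0 ≤ σ * ρ := by positivity
  have hσL : 0 ≤ σ * L := by positivity
  have heT : e * T ≤ T := by
    calc e * T ≤ 1 * T := mul_le_mul_of_nonneg_right he1 hT.le
      _ = T := one_mul _
  have hσ2 : 8 * (σ * ρ) + 8 * (σ * L) + 8 * σ ≤ T := by linarith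
  have htime : ∀ {c : ℝ}, 0 ≤ c → c ≤ L → T / 2 ≤ T - σ * c ∧ T - σ * c ≤ T := by
    intro c hc0 hcL
    have h1 : σ * c ≤ σ * L := by gcongr
    have h2 : 0 ≤ σ * c := by positivity
    constructor <;> linarith
  -- the image
  obtain ⟨ω₁, c₁, ξ₁, hc10, hc1L, hξ1, hne1⟩ := hex
  obtain ⟨k, hk, hk2⟩ := exists_image h hne1
  have hk3 : ‖x0 + σ • ξ₁ + latt k‖ ≤ 3 / 10 := by
    refine hk2.trans ?_
    have h1 := (htime hc10 hc1L).2
    have h2 : 0 ≤ P.c + P.Y + etaj P.p P.j0 := by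
      have := h.c0; positivity
    have h3 := mul_le_mul_of_nonneg_left h1 h2
    linarith
  set z0 : P2 := x0 + latt k with hz0
  have hred : ∀ {ξ : P2}, ‖ξ‖ ≤ ρ → red (x0 + σ • ξ) = z0 + σ • ξ := by
    intro ξ hξ
    have h1 : ‖x0 + σ • ξ + latt k‖ < 7 / 20 := by
      have h2 : x0 + σ • ξ + latt k = (x0 + σ • ξ₁ + latt k) + σ • (ξ - ξ₁) := by
        rw [smul_sub]; abel
      rw [h2]
      refine (norm_add_le _ _).trans_lt ?_
      rw [norm_smul, Real.norm_eq_abs, abs_of_pos hσ]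
      have h3 : ‖ξ - ξ₁‖ ≤ 2 * ρ := by
        refine (norm_sub_le _ _).trans ?_; linarith
      have h4 : σ * ‖ξ - ξ₁‖ ≤ σ * (2 * ρ) := by gcongr
      linarith
    rw [red_of h1, hz0]
    abel
  -- centre
  set a0 : ℝ := z0.1 / (1 + P.kap * T) with ha0
  set y0 : ℝ := z0.2 / (T + rr a0) with hy0
  have hk0 := Ok.kap0 h
  have hden : 0 < 1 + P.kap * T := by positivity
  have hz1 : z0.1 = a0 * (1 + P.kap * T) := by rw [ha0]; field_simp
  have hz2 : z0.2 = y0 * (T + rr a0) := by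
    have := rr_nonneg a0
    rw [hy0]; field_simp
  have hYη : 0 ≤ P.Y * etaj P.p P.j0 := by positivity
  have hη1 : etaj P.p P.j0 ≤ 1 / 12 := by linarith
  obtain ⟨m, hTm⟩ : ∃ m, T * m = σ * (ρ + L) := ⟨σ * (ρ + L) / T, by field_simp⟩
  have hm0 : 0 ≤ m := by
    by_contra h3
    push Not at h3
    have : T * m < 0 := mul_neg_of_pos_of_neg hT h3
    linarith
  have hYm : 0 ≤ P.Y * m := by positivity
  have hm1 : 8 * (1 + P.Y) * m ≤ e := by
    have h1 : 8 * (1 + P.Y) * m * T ≤ e * T := by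
      have h2 : 0 ≤ (1 + P.Y) * σ := by positivity
      calc 8 * (1 + P.Y) * m * T = 8 * (1 + P.Y) * (T * m) := by ring
        _ = 8 * (1 + P.Y) * (σ * (ρ + L)) := by rw [hTm]
        _ ≤ e * T := by linarith
    exact le_of_mul_le_mul_right h1 hT
  have hm2 : m ≤ 1 := by linarith
  have hkey : ∀ {ω : Om} {c : ℝ} {ξ : P2}, 0 ≤ c → c ≤ L → ‖ξ‖ ≤ ρ → chS P T σ x0 ω c ξ ≠ 0 →
      |uS P T σ x0 ω c ξ 0 - P.kap * a0| ≤ m + 2 * etaj P.p P.j0 ∧
      |uS P T σ x0 ω c ξ 1 - y0| ≤ (1 + 2 * P.Y) * m + (2 + P.Y) * etaj P.p P.j0 := by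
    intro ω c ξ hc0 hcL hξ hne
    unfold chS chP at hne
    unfold uS uP
    rw [hred hξ] at hne ⊢
    obtain ⟨j, A, y, hj, ht, hw, hs1, hs2, hs3, hA, hy, e1, e2, g0, g1, g2⟩ := fuel_pt h hne
    have hξ1 : |ξ.1| ≤ ρ := (norm_fst_le ξ).trans hξ
    have hξ2 : |ξ.2| ≤ ρ := (norm_snd_le ξ).trans hξ
    have hc := center h hj (x1 := (z0 + σ • ξ).1) (x2 := (z0 + σ • ξ).2) (z1 := z0.1) (z2 := z0.2)
      (dx := σ * ρ) (dt := σ * L) hA hy ht (htime hc0 hcL).2 hT1 hTk hs1 hs2 le_rfl (by linarith)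
      hm0 hm2 e1 e2 hz1 hz2 ?_ ?_ ?_ ?_
    · rw [g0, g1]
      exact hc
    · simp only [Prod.fst_add, Prod.smul_fst, smul_eq_mul, add_sub_cancel_left, abs_mul,
        abs_of_pos hσ]
      gcongr
    · simp only [Prod.snd_add, Prod.smul_snd, smul_eq_mul, add_sub_cancel_left, abs_mul,
        abs_of_pos hσ]
      gcongr
    · rw [sub_sub_cancel_left, abs_neg, abs_of_nonneg (by positivity)]
      gcongr
    · rw [hTm]; linarith
  have hu2 : ∀ {ω : Om} {c : ℝ} {ξ : P2}, chS P T σ x0 ω c ξ ≠ 0 →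
      |uS P T σ x0 ω c ξ 2 - sg ω| ≤ etaj P.p P.j0 := fun hne => (uL_bounds h hne).2.2
  refine ⟨(P.kap * a0, y0), ⟨sg_or, ?_, ?_, ?_⟩⟩
  · obtain ⟨b0, b1, -⟩ := uL_bounds h hne1
    obtain ⟨k0, k1⟩ := hkey hc10 hc1L hξ1 hne1
    have hc := h.c1
    rw [Prod.norm_def, Real.norm_eq_abs, Real.norm_eq_abs]
    have k0' : |P.kap * a0| ≤ |uS P T σ x0 ω₁ c₁ ξ₁ 0| + (m + 2 * etaj P.p P.j0) := by
      have h1 := abs_sub_abs_le_abs_sub (P.kap * a0) (uS P T σ x0 ω₁ c₁ ξ₁ 0)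
      rw [abs_sub_comm] at h1
      linarith
    have k1' : |y0| ≤ |uS P T σ x0 ω₁ c₁ ξ₁ 1| +
        ((1 + 2 * P.Y) * m + (2 + P.Y) * etaj P.p P.j0) := by
      have h1 := abs_sub_abs_le_abs_sub y0 (uS P T σ x0 ω₁ c₁ ξ₁ 1)
      rw [abs_sub_comm] at h1
      linarith
    have b0' : |uS P T σ x0 ω₁ c₁ ξ₁ 0| ≤ P.c + etaj P.p P.j0 := b0
    have b1' : |uS P T σ x0 ω₁ c₁ ξ₁ 1| ≤ P.Y + etaj P.p P.j0 := b1
    refine max_le ?_ ?_
    · show |P.kap * a0| ≤ U
      linarith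
    · show |y0| ≤ U
      linarith
  · intro ω c ξ hc0 hcL hξ hne
    obtain ⟨k0, k1⟩ := hkey hc0 hcL hξ hne
    have k2 := hu2 hne
    have h1 : ‖uS P T σ x0 ω c ξ - vec3 (P.kap * a0) y0 (sg ω)‖ ≤ (m + 2 * etaj P.p P.j0) +
        ((1 + 2 * P.Y) * m + (2 + P.Y) * etaj P.p P.j0) + etaj P.p P.j0 := by
      refine norm_le_of_abs ?_ ?_ ?_
      · exact k0
      · exact k1
      · exact k2
    refine h1.trans ?_
    linarith
  · intro ω c c' ξ ξ' hc0 hcL hξ hne hc0' hcL' hξ' hne'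
    unfold chS chP at hne hne'
    unfold uS uP
    rw [hred hξ] at hne ⊢
    rw [hred hξ'] at hne' ⊢
    obtain ⟨q, hTq⟩ : ∃ q, σ * ‖ξ - ξ'‖ + σ * |c - c'| = T * q :=
      ⟨(σ * ‖ξ - ξ'‖ + σ * |c - c'|) / T, by field_simp⟩
    have hp := lip_aux h (t' := T - σ * c') (z' := z0 + σ • ξ') hT (by linarith) hTk
      (htime hc0 hcL).1 ((htime hc0 hcL).2.trans (by linarith)) hne hne' ?_ ?_ ?_ hTq
    · refine hp.trans ?_
      set d : ℝ := |c - c'| + ‖ξ - ξ'‖ with hd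
      have hd0 : 0 ≤ d := by positivity
      have h3 : 8 * (1 + P.Y) * q * T ≤ e * d * T := by
        have h4 : 8 * (1 + P.Y) * σ ≤ e * T := by
          have : 0 ≤ (1 + P.Y) * σ * (ρ + L) := by positivity
          linarith
        calc 8 * (1 + P.Y) * q * T = 8 * (1 + P.Y) * (T * q) := by ring
          _ = (8 * (1 + P.Y) * σ) * d := by rw [← hTq, hd]; ring
          _ ≤ (e * T) * d := by gcongr
          _ = e * d * T := by ring
      exact le_of_mul_le_mul_right h3 hT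
    · have : (z0 + σ • ξ).1 - (z0 + σ • ξ').1 = σ * (ξ - ξ').1 := by
        simp only [Prod.fst_add, Prod.smul_fst, smul_eq_mul, Prod.fst_sub]; ring
      rw [this, abs_mul, abs_of_pos hσ]
      exact mul_le_mul_of_nonneg_left (norm_fst_le (ξ - ξ')) hσ.le
    · have : (z0 + σ • ξ).2 - (z0 + σ • ξ').2 = σ * (ξ - ξ').2 := by
        simp only [Prod.snd_add, Prod.smul_snd, smul_eq_mul, Prod.snd_sub]; ring
      rw [this, abs_mul, abs_of_pos hσ]
      exact mul_le_mul_of_nonneg_left (norm_snd_le (ξ - ξ')) hσ.le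
    · have : T - σ * c - (T - σ * c') = σ * (c' - c) := by ring
      rw [this, abs_mul, abs_of_pos hσ, abs_sub_comm]

end Crest.Agent.R68.SL
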