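import Crest.Agent.R68.SGauW
import Crest.Agent.R68.SLab3
import Crest.Agent.R68.LSol4
import Crest.Agent.R68.LK
import Crest.Agent.R68.Carl4

/-!
# Row 68, Part S → Part L (helper813): the window theorem for the actual fuel

`uhyp`, `ghyp`: the hypotheses of helper653's window theorem for `W = Dm P`, the labels of
helper312 and `G = Gf (phiE P)`.  `fieldS`: the field `S` of `L.SlaveHyp` / `L.SInput`, from
`CoreProp` and the property `Near` of the scaled fields.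
-/

set_option autoImplicit false
open MeasureTheory Set Metric
open scoped ENNReal
open Crest.AnalysisR.VecCalc3 Crest.AnalysisR.PDE.Boltzmann

noncomputable section

namespace Crest.Agent.R68.SI

open Crest.Agent.R68.A (Meas3)
open Crest.Agent.R68.Fuel (etaj_pos etaj_le_one)
open Crest.Agent.R68.L (Den phiE Gf DG Du CNw VV SWindow)
open Crest.Agent.R68.S (Aop PA ker Top Sg Near UHyp GHyp MD DuhT scX scU CoreProp)

/-! ### one collision at a fixed point -/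

theorem Gf_phi_eq {P : Par} (hP : P.Ok) (hK : 0 < P.K) {s : ℝ} (hs : 0 < s)
    (hT : (1 + P.Y) * P.dl + (P.c + P.Y + etaj P.p P.j0) * s < 7 / 20) (y : P2)
    {h : Den} (hh : Meas3 h) (v : R3) :
    Gf (phiE P) h s y v = ENNReal.ofReal (8 * P.K / s) *
      ∫⁻ ω, SL.chP P ω s y * (ENNReal.ofReal ‖SL.uP P ω s y - v‖⁻¹ *
        planeInt (h s y) v (‖SL.uP P ω s y - v‖⁻¹ • (SL.uP P ω s y - v))) ∂SL.piL := by
  have hφ : Measurable (phiE P s y) := L.measurable_phiE hP s y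
  have hhs : Measurable (h s y) := hh.slice s y
  unfold L.Gf
  rw [Qp_carleman' hφ hhs]
  have hG : Measurable fun u : R3 => ENNReal.ofReal ‖u - v‖⁻¹ *
      planeInt (h s y) v (‖u - v‖⁻¹ • (u - v)) := by
    refine Measurable.mul (by fun_prop) ?_
    exact (measurable_planeInt hhs).comp (by fun_prop :
      Measurable fun u : R3 => ((v, ‖u - v‖⁻¹ • (u - v)) : R3 × R3))
  have h2 := SL.rep hP hK hs hT y hG
  have h3 : ∫⁻ u, ENNReal.ofReal ‖u - v‖⁻¹ * phiE P s y u *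
      planeInt (h s y) v (‖u - v‖⁻¹ • (u - v)) =
      ∫⁻ u, ENNReal.ofReal (phi P s y u) * (ENNReal.ofReal ‖u - v‖⁻¹ *
        planeInt (h s y) v (‖u - v‖⁻¹ • (u - v))) :=
    lintegral_congr fun u => by unfold L.phiE; ring
  rw [h3, h2, ← mul_assoc, ← mul_assoc]
  congr 1
  rw [show (8 * P.K / s : ℝ) = 2 * (2 * (2 * P.K / s)) by ring, ENNReal.ofReal_mul (by norm_num),
    ENNReal.ofReal_mul (by norm_num)]
  norm_num
  ring

theorem meas_DuhT {φ : Den} (hφ : Meas3 φ) {h : Den} (hh : Meas3 h) (τ : ℝ) :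
    MD (DuhT τ (Gf φ h)) := by
  have hq : Meas3 (Gf φ h) := L.meas3_Gf hφ hh
  unfold S.MD S.DuhT
  refine A.measurable_lintegral_Ioo (α := ℝ × P2 × R3) (q := fun z : (ℝ × P2 × R3) × ℝ =>
      Gf φ h z.2 (z.1.2.1 - (z.1.1 - z.2) • bar z.1.2.2) z.1.2.2) ?_ measurable_const (by fun_prop)
  exact hq.comp (by fun_prop) (by fun_prop) (by fun_prop)

theorem T_small {P : Par} (hP : P.Ok) {t : ℝ} (ht : t ≤ 1 / (10 * (P.Y + 2))) :
    (1 + P.Y) * P.dl + (P.c + P.Y + etaj P.p P.j0) * t < 7 / 20 ∧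
      (P.Y + 2) * (t + P.dl) < 7 / 20 := by
  have hY := hP.Y0
  have h1 := hP.Ysm
  have h2 := Fuel.Ok.dl20 hP
  have h3 := hP.c1
  have h4 : etaj P.p P.j0 ≤ 1 := etaj_le_one _ _
  have h5 := Fuel.Ok.dlp hP
  have h0 : 0 < 10 * (P.Y + 2) := by linarith
  have h6 : (P.Y + 2) * t ≤ 1 / 10 := by
    calc (P.Y + 2) * t ≤ (P.Y + 2) * (1 / (10 * (P.Y + 2))) := by gcongr
      _ = 1 / 10 := by field_simp
  have h7 := hP.c0
  have h8 : 0 < etaj P.p P.j0 := etaj_pos _ _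
  have h9 : (1 + P.Y) * P.dl = P.dl + P.Y * P.dl := by ring
  constructor
  · rcases le_or_gt t 0 with h | h
    · have : (P.c + P.Y + etaj P.p P.j0) * t ≤ 0 :=
        mul_nonpos_of_nonneg_of_nonpos (by positivity) h
      linarith
    · have : (P.c + P.Y + etaj P.p P.j0) * t ≤ (P.Y + 2) * t :=
        mul_le_mul_of_nonneg_right (by linarith) h.le
      linarith
  · nlinarith

/-- Newton potential of the labels -/
theorem newton {P : Par} (hP : P.Ok) (hK : 0 < P.K) {s : ℝ} (hs : 0 < s) (hs1 : s ≤ 1)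
    (hT : (1 + P.Y) * P.dl + (P.c + P.Y + etaj P.p P.j0) * s < 7 / 20) (y : P2) (v : R3) :
    ∫⁻ ω, SL.chP P ω s y * ENNReal.ofReal ‖SL.uP P ω s y - v‖⁻¹ ∂SL.piL ≤
      ENNReal.ofReal (CNw P.Y / 2) * Dm P s y v := by
  have hg : Measurable fun u : R3 => ENNReal.ofReal ‖u - v‖⁻¹ := by fun_prop
  have h1 := SL.rep hP hK hs hT y hg
  have h2 : ∫⁻ u, ENNReal.ofReal (phi P s y u) * ENNReal.ofReal ‖u - v‖⁻¹ ≤
      ENNReal.ofReal (CNw P.Y * P.K / s) * Dm P s y v := by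
    have h3 := L.newt_phi_le' hP hs hs1 y v
    unfold C.newt at h3
    have h4 : ∫⁻ u, ENNReal.ofReal (phi P s y u) * ENNReal.ofReal ‖u - v‖⁻¹ =
        ∫⁻ u, ENNReal.ofReal (phi P s y u) * ENNReal.ofReal ‖v - u‖⁻¹ :=
      lintegral_congr fun u => by rw [norm_sub_rev]
    rw [h4]
    refine h3.trans ?_
    gcongr
    have hV : 0 < VV P.Y := by have := hP.Y0; unfold L.VV; positivity
    have h5 : VV P.Y / max (VV P.Y) ‖v‖ ≤ 1 := by
      rw [div_le_one (lt_max_of_lt_left hV)]; exact le_max_left _ _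
    have h6 : 0 ≤ CNw P.Y * P.K / s := by
      have := L.CNw_nonneg P.Y
      positivity
    calc CNw P.Y * P.K / s * (VV P.Y / max (VV P.Y) ‖v‖) ≤ CNw P.Y * P.K / s * 1 := by gcongr
      _ = _ := mul_one _
  rw [h1] at h2
  have h7 : ENNReal.ofReal (CNw P.Y * P.K / s) =
      ENNReal.ofReal (2 * P.K / s) * ENNReal.ofReal (CNw P.Y / 2) := by
    rw [← ENNReal.ofReal_mul (by positivity)]
    congr 1; ring
  rw [h7, mul_assoc] at h2
  have h8 : ENNReal.ofReal (2 * P.K / s) ≠ 0 := by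
    have : 0 < 2 * P.K / s := by positivity
    simpa using this
  exact (ENNReal.mul_le_mul_iff_right h8 ENNReal.ofReal_ne_top).1 h2

/-- the two poles -/
theorem exists_Sg {P : Par} (hP : P.Ok) {s : ℝ} (hs : 0 ≤ s)
    (hsm : (P.Y + 2) * (s + P.dl) < 7 / 20) (y : P2) :
    ∃ q : Fin 2 → R3, ∀ v, Dm P s y v ≤ ENNReal.ofReal ((8 + 6 * P.Y) ^ 2) * Sg q v := by
  have hD := L.parD_of_ok hP
  have hc := DPole.card_KKf_le_one hsm y
  rcases Finset.card_le_one_iff_subset_singleton.1 hc with ⟨k, hk⟩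
  refine ⟨![uvec P 1 s (y + latt k), uvec P (-1) s (y + latt k)], fun v => ?_⟩
  refine (DPole.Dm_le_Spole hD hs y v).trans ?_
  gcongr
  unfold DPole.Spole S.Sg
  rw [Fin.sum_univ_two]
  gcongr
  refine (Finset.sum_le_sum_of_subset hk).trans ?_
  rw [Finset.sum_singleton]
  rfl

theorem uhyp {P : Par} (hP : P.Ok) (hK : 0 < P.K) {U τ t : ℝ} (hτ : 0 < τ) (ht1 : t ≤ 1)
    (ht : t ≤ 1 / (10 * (P.Y + 2))) (hU : P.Y + 3 ≤ U) :
    UHyp SL.piL τ t U (CNw P.Y / 2) ((8 + 6 * P.Y) ^ 2) 2 (SL.chP P) (SL.uP P) (Dm P) where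
  fin := SL.piL_univ.le
  mχ := SL.measurable_chP P
  mu := SL.measurable_uP P
  χ1 := fun ω s y _ _ => SL.chP_le_one hP hK ω s y
  bd := fun _ _ _ _ _ h3 => (SL.norm_uP_le hP h3).trans hU
  W1 := fun s y v _ _ => DPole.one_le_Dm P s y v
  Wmono := fun _ _ y v h1 h2 _ => DPole.Dm_flight hP.Y0 (hτ.le.trans h1) h2 y v
  Wsg := fun s y h1 h2 =>
    exists_Sg hP (hτ.le.trans h1) (T_small hP (h2.trans ht)).2 y
  newton := fun s y v h1 h2 =>
    newton hP hK (hτ.trans_le h1) (h2.trans ht1) (T_small hP (h2.trans ht)).1 y v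

theorem ghyp {P : Par} (hP : P.Ok) (hK : 0 < P.K) {τ t : ℝ} (hτ : 0 < τ)
    (ht : t ≤ 1 / (10 * (P.Y + 2))) :
    GHyp SL.piL τ t 8 P.K (SL.chP P) (SL.uP P) (Gf (phiE P)) where
  bound := fun h hh s h1 h2 y v =>
    (Gf_phi_eq hP hK (hτ.trans h1) (T_small hP (h2.le.trans ht)).1 y (h := h) hh v).le
  meas := fun _ hh => meas_DuhT (L.meas3_phiE hP) hh τ

/-- `Near` for helper653's scaled fields -/
theorem near_sc {P : Par} (hP : P.Ok) {t L ρ e : ℝ} (hK : 0 < P.K) (ht : 0 < t) (ht1 : t ≤ 1 / 10)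
    (htY : t ≤ 1 / (10 * (P.Y + 2))) (hkap : t * P.kap ≤ 1) (hL : 0 ≤ L) (hρ : 0 ≤ ρ)
    (he : 0 < e) (he1 : e ≤ 1) (hKe : 8 * (1 + P.Y) * (1 + ρ + L) ≤ e * P.K)
    (hη : 12 * (1 + P.Y) * etaj P.p P.j0 ≤ e) (x : P2) :
    ∃ ub : P2, Near L (P.Y + 4) e ρ (scX t (t / P.K) L x (SL.chP P)) (scU t (t / P.K) x (SL.uP P))
      ub SL.sg := by
  have hY := hP.Y0
  have hT := T_small hP htY
  have hR : (1 + P.Y) * P.dl + (P.c + P.Y + etaj P.p P.j0) * t ≤ 3 / 10 := by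
    have h1 := hP.Ysm
    have h2 := Fuel.Ok.dl20 hP
    have h3 := hP.c1
    have h4 : etaj P.p P.j0 ≤ 1 := etaj_le_one _ _
    have h6 : (P.Y + 2) * t ≤ 1 / 10 := by
      calc (P.Y + 2) * t ≤ (P.Y + 2) * (1 / (10 * (P.Y + 2))) := by gcongr
        _ = 1 / 10 := by field_simp
    have h7 : (P.c + P.Y + etaj P.p P.j0) * t ≤ (P.Y + 2) * t :=
      mul_le_mul_of_nonneg_right (by linarith) ht.le
    have h8 : (1 + P.Y) * P.dl = P.dl + P.Y * P.dl := by ring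
    linarith
  have hσ1 : 8 * (1 + P.Y) * (1 + ρ + L) * (t / P.K) ≤ e * t := by
    rw [← mul_div_assoc, div_le_iff₀ hK]
    nlinarith [mul_le_mul_of_nonneg_right hKe ht.le]
  obtain ⟨ub, h⟩ := SL.near hP ht ht1 hkap (σ := t / P.K) (L := L) (ρ := ρ) (e := e)
    (U := P.Y + 4) (by positivity) hL hρ he1 hσ1 hη le_rfl hR x
  refine ⟨ub, ⟨h.s1, h.ubd, ?_, ?_⟩⟩
  · intro ω c ξ h0 h1 h2 h3
    have hc : c ∈ Icc 0 L := ⟨h0, h1⟩
    rw [S.scX_of_mem hc] at h3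
    exact h.close ω c ξ h0 h1 h2 h3
  · intro ω c c' ξ ξ' h0 h1 h2 h3 h4 h5 h6 h7
    have hc : c ∈ Icc 0 L := ⟨h0, h1⟩
    have hc' : c' ∈ Icc 0 L := ⟨h4, h5⟩
    rw [S.scX_of_mem hc] at h3
    rw [S.scX_of_mem hc'] at h7
    exact h.lip ω c c' ξ ξ' h0 h1 h2 h3 h4 h5 h6 h7

/-- **the smoothing input of Part L** -/
theorem fieldS {Y g1 L ε : ℝ} (hY : 0 < Y) (hg1 : 0 < g1) (hL : 0 < L) (hε : 0 < ε)
    (hcore : CoreProp (g1 / 2 / 2) L (Y + 4) (CNw Y / 2) ((8 + 6 * Y) ^ 2) 2) :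
    ∃ K0 R C e : ℝ, 1 ≤ K0 ∧ 2 * L ≤ K0 ∧ 0 < R ∧ 0 < C ∧ 0 < e ∧
      ∀ P : Par, P.Ok → P.Y = Y → K0 ≤ P.K → 12 * (1 + P.Y) * etaj P.p P.j0 ≤ e →
      ∀ V0 t0 : ℝ, t0 ≤ 1 / 10 → t0 ≤ 1 / (10 * (P.Y + 2)) → t0 * P.kap ≤ 1 →
        √t0 / 100 ≤ g1 / 2 →
        SWindow P (phiE P) g1 t0 V0 (L / P.K) R (ENNReal.ofReal ε)
          (ENNReal.ofReal (C * P.K ^ 2)) := by
  obtain ⟨ρ, e, C, hρ, he, hC, H⟩ := S.win_gau (gmin := g1 / 2) (gmax := g1) (Cg := 8)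
    (by positivity) hcore hL (by norm_num) hε
  have he' : 0 < min e 1 := lt_min he one_pos
  refine ⟨max (max 1 (2 * L)) (8 * (1 + Y) * (1 + ρ + L) / min e 1), ρ, C, min e 1,
    (le_max_left _ _).trans (le_max_left _ _), (le_max_right _ _).trans (le_max_left _ _), hρ, hC,
    he', ?_⟩
  intro P hP hPY hK hη V0 t0 h1 h2 h3 h4 h hh t x v b1 b2 ht htt0 _ _ hle hmass
  have hK1 : 1 ≤ P.K := ((le_max_left _ _).trans (le_max_left _ _)).trans hK
  have hK2 : 2 * L ≤ P.K := ((le_max_right _ _).trans (le_max_left _ _)).trans hK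
  have hK3 : 8 * (1 + P.Y) * (1 + ρ + L) ≤ min e 1 * P.K := by
    have h5 := (le_max_right (max 1 (2 * L)) (8 * (1 + Y) * (1 + ρ + L) / min e 1)).trans hK
    rw [div_le_iff₀ he'] at h5
    rw [hPY]; linarith
  have hK0 : 0 < P.K := by linarith
  have hY0 := hP.Y0
  have hkap0 := Fuel.Ok.kap0 hP
  have hτ : 0 < t * (1 - L / P.K) := by
    apply mul_pos ht
    have : L / P.K ≤ 1 / 2 := by rw [div_le_iff₀ hK0]; linarith
    linarith
  have ht1 : t ≤ 1 / 10 := htt0.trans h1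
  have htY : t ≤ 1 / (10 * (P.Y + 2)) := htt0.trans h2
  have htk : t * P.kap ≤ 1 := (mul_le_mul_of_nonneg_right htt0 hkap0).trans h3
  obtain ⟨ub, hnear⟩ := near_sc hP (ρ := ρ) hK0 ht ht1 htY htk hL.le hρ.le he' (min_le_right _ _)
    hK3 hη x
  have hnear' : Near L (Y + 4) e ρ (scX t (t / P.K) L x (SL.chP P))
      (scU t (t / P.K) x (SL.uP P)) ub SL.sg := by
    rw [← hPY]
    have he3 : min e 1 ≤ e := min_le_left _ _
    exact ⟨hnear.s1, hnear.ubd,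
      fun ω c ξ q0 q1 q2 q3 => (hnear.close ω c ξ q0 q1 q2 q3).trans he3,
      fun ω c c' ξ ξ' q0 q1 q2 q3 q4 q5 q6 q7 =>
        (hnear.lip ω c c' ξ ξ' q0 q1 q2 q3 q4 q5 q6 q7).trans (by gcongr)⟩
  have hU := uhyp (U := Y + 4) hP hK0 hτ (by linarith) htY (by linarith)
  rw [hPY] at hU
  have hG := ghyp hP hK0 hτ htY
  have hsq : √t / 100 ≤ g1 / 2 := (div_le_div_of_nonneg_right (Real.sqrt_le_sqrt htt0)
    (by norm_num)).trans h4
  have hsq0 : 0 ≤ √t / 100 := by positivity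
  have hfin := H P.K t hK2 ht SL.Om SL.piL (SL.chP P) (SL.uP P) (Dm P) (Gf (phiE P)) hU hG x ub
    SL.sg hnear' SL.measurable_sg (g1 - √t / 100) (by linarith) (by linarith) h hh b1 b2
    (fun s y w h5 h6 => hle s ⟨h5, h6⟩ y w)
    (fun s h5 h6 => by
      refine le_trans ?_ (hmass s ⟨h5, h6⟩)
      apply lintegral_mono_set
      apply closedBall_subset_closedBall
      have : t / P.K ≤ t := div_le_self ht.le hK1
      gcongr) v
  refine hfin.trans (le_of_eq ?_)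
  have e1 : ENNReal.ofReal (C * (P.K / t) ^ 2) =
      ENNReal.ofReal (C * P.K ^ 2) * ENNReal.ofReal (t ^ (-2 : ℝ)) := by
    rw [← ENNReal.ofReal_mul (by positivity)]
    congr 1
    rw [Real.rpow_neg ht.le, show (2 : ℝ) = ((2 : ℕ) : ℝ) by norm_num, Real.rpow_natCast]
    field_simp
  rw [e1]

end Crest.Agent.R68.SI
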