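import Crest.Agent.R68.FSum
import Crest.Agent.R68.SDefs

/-!
# Row 68, Part S (helper312): label representation of the fuel

`Om` = thermal labels (sign, thermal coordinates), `piL` the normalised label measure (total mass 1);
for `0 < t` small: `∫ φ(t,x,u) G(u) du = (2K/t) ∫ chP ω t x · G (uP ω t x) dω`  (theorem `rep`).
-/

set_option autoImplicit false
open MeasureTheory Set
open scoped ENNReal
open Crest.AnalysisR.VecCalc3 Crest.AnalysisR.PDE.Boltzmann

noncomputable section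

namespace Crest.Agent.R68.SL

open Crest.Agent.R68.Fuel

/-- thermal labels: sign and thermal coordinates -/
abbrev Om : Type := Bool × ℝ × ℝ × ℝ

/-- third velocity component of the lanes of label `ω` -/
def sg (ω : Om) : ℝ := if ω.1 then 1 else -1

theorem sg_or (ω : Om) : sg ω = 1 ∨ sg ω = -1 := by
  unfold sg; split_ifs <;> simp

theorem measurable_sg : Measurable sg := by
  unfold sg
  refine Measurable.ite ?_ measurable_const measurable_const
  exact measurable_fst (measurableSet_singleton true)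

/-- normalised label measure -/
def piL : Measure Om := (16 : ℝ≥0∞)⁻¹ • (Measure.count.prod ((volume.restrict (Ioo (-1 : ℝ) 1)).prod
  ((volume.restrict (Ioo (-1 : ℝ) 1)).prod (volume.restrict (Ioo (-1 : ℝ) 1)))))

theorem lint_piL {F : Om → ℝ≥0∞} (hF : Measurable F) : ∫⁻ ω, F ω ∂piL = (16 : ℝ≥0∞)⁻¹ *
    ((∫⁻ s1 in Ioo (-1 : ℝ) 1, ∫⁻ s2 in Ioo (-1 : ℝ) 1, ∫⁻ s3 in Ioo (-1 : ℝ) 1, F (true, s1, s2, s3)) +
      ∫⁻ s1 in Ioo (-1 : ℝ) 1, ∫⁻ s2 in Ioo (-1 : ℝ) 1, ∫⁻ s3 in Ioo (-1 : ℝ) 1,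
        F (false, s1, s2, s3)) := by
  unfold piL
  rw [lintegral_smul_measure, lintegral_prod _ hF.aemeasurable, lintegral_count, tsum_fintype,
    Fintype.sum_bool, smul_eq_mul]
  have key : ∀ b : Bool, ∫⁻ q : ℝ × ℝ × ℝ, F (b, q) ∂((volume.restrict (Ioo (-1 : ℝ) 1)).prod
      ((volume.restrict (Ioo (-1 : ℝ) 1)).prod (volume.restrict (Ioo (-1 : ℝ) 1)))) =
      ∫⁻ s1 in Ioo (-1 : ℝ) 1, ∫⁻ s2 in Ioo (-1 : ℝ) 1, ∫⁻ s3 in Ioo (-1 : ℝ) 1,
        F (b, s1, s2, s3) := by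
    intro b
    have h1 : Measurable fun q : ℝ × ℝ × ℝ => F (b, q) := hF.comp measurable_prodMk_left
    rw [lintegral_prod _ h1.aemeasurable]
    refine lintegral_congr fun s1 => ?_
    have h2 : Measurable fun q : ℝ × ℝ => F (b, s1, q) := h1.comp measurable_prodMk_left
    rw [lintegral_prod _ h2.aemeasurable]
  rw [key, key]

theorem piL_univ : piL univ = 1 := by
  have h := lint_piL (F := fun _ => 1) measurable_const
  rw [lintegral_const, one_mul] at h
  rw [h]
  simp only [lintegral_const, Measure.restrict_apply_univ, Real.volume_Ioo, one_mul]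
  rw [show ((1 : ℝ) - -1) = 2 by norm_num, show ENNReal.ofReal 2 = 2 by norm_num]
  rw [show (2 * 2 * 2 + 2 * 2 * 2 : ℝ≥0∞) = 16 by norm_num]
  exact ENNReal.inv_mul_cancel (by norm_num) (by norm_num)

instance : IsFiniteMeasure piL := ⟨by rw [piL_univ]; exact ENNReal.one_lt_top⟩

/-! ### lane index -/

/-- index of the lane in which `(t,x)` lies (or would lie) -/
def lix (P : Par) (t : ℝ) (x : P2) : ℕ := ⌊1 / (2 * lab P t x ^ 2)⌋₊

theorem measurable_lab (P : Par) : Measurable fun q : ℝ × P2 => lab P q.1 q.2 := by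
  unfold lab; fun_prop

theorem measurable_lix (P : Par) : Measurable fun q : ℝ × P2 => lix P q.1 q.2 := by
  unfold lix
  refine Nat.measurable_floor.comp ?_
  exact measurable_const.div (((measurable_lab P).pow_const 2).const_mul 2)

theorem lab_eq {P : Par} (h : 0 < P.dl) (t : ℝ) (x : P2) : lab P t x = x.1 / (1 + P.kap * t) := by
  unfold lab Par.kap
  rw [show P.dl + P.c * t = P.dl * (1 + P.c / P.dl * t) by field_simp]
  rw [mul_div_mul_left _ _ h.ne']

theorem lA_eq (P : Par) (j : ℕ) (t : ℝ) (x : P2) (s : ℝ) :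
    lA P j t x s = (x.1 - t * (etaj P.p j * s)) / (1 + P.kap * t) := rfl

theorem lZ_eq (P : Par) (j : ℕ) (t : ℝ) (x : P2) (s s' : ℝ) :
    lZ P j t x s s' = rr (lA P j t x s) * (x.2 - t * (etaj P.p j * s')) /
      (t + rr (lA P j t x s)) := rfl

theorem lU_0 (P : Par) (j : ℕ) (t : ℝ) (x : P2) (s1 s2 s3 : ℝ) :
    lU P j t x s1 s2 s3 0 = (P.kap * x.1 + etaj P.p j * s1) / (1 + P.kap * t) := rfl

theorem lU_1 (P : Par) (j : ℕ) (t : ℝ) (x : P2) (s1 s2 s3 : ℝ) :
    lU P j t x s1 s2 s3 1 = (x.2 + rr (lA P j t x s1) * (etaj P.p j * s2)) /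
      (t + rr (lA P j t x s1)) := rfl

theorem lU_2 (P : Par) (j : ℕ) (t : ℝ) (x : P2) (s1 s2 s3 : ℝ) :
    lU P j t x s1 s2 s3 2 = wj j + etaj P.p j * s3 := rfl

/-- label against centre -/
theorem lab_sub_lA {P : Par} (h : P.Ok) (j : ℕ) {t : ℝ} (ht : 0 ≤ t) (x : P2) {s : ℝ}
    (hs : |s| ≤ 1) : |lab P t x - lA P j t x s| ≤ etaj P.p j * (t / (1 + P.kap * t)) := by
  have h1 := Ok.kap0 h
  have h2 : 0 < 1 + P.kap * t := by positivity
  have h3 := etaj_pos P.p j
  rw [lab_eq (Ok.dlp h), lA_eq, ← sub_div, abs_div, abs_of_pos h2, sub_sub_cancel, abs_mul, abs_mul,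
    abs_of_pos h3, abs_of_nonneg ht]
  rw [← mul_div_assoc]
  refine div_le_div_of_nonneg_right ?_ h2.le
  have h4 : etaj P.p j * |s| ≤ etaj P.p j * 1 := by gcongr
  calc t * (etaj P.p j * |s|) ≤ t * (etaj P.p j * 1) := by gcongr
    _ = etaj P.p j * t := by ring

theorem lab_sub_lA' {P : Par} (h : P.Ok) (j : ℕ) {t : ℝ} (ht : 0 ≤ t) (x : P2) {s : ℝ}
    (hs : |s| ≤ 1) : |lab P t x - lA P j t x s| ≤ etaj P.p j := by
  refine (lab_sub_lA h j ht x hs).trans ?_
  have h1 := h.kap1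
  have h2 : 0 < 1 + P.kap * t := by positivity
  have h3 := etaj_pos P.p j
  have h4 : t / (1 + P.kap * t) ≤ 1 := by
    rw [div_le_one h2]; nlinarith
  nlinarith

theorem etaj_cube {P : Par} (h : P.Ok) (j : ℕ) : etaj P.p j ≤ (1 / (2 * (j : ℝ) + 1)) ^ 3 :=
  pow_le_pow_of_le_one (by positivity) (inv_le_one' j) h.p3

/-- a visible label determines the lane index of the point -/
theorem lix_eq {P : Par} (h : P.Ok) {j : ℕ} (hj : P.j0 ≤ j) {t : ℝ} (ht : 0 ≤ t) {x : P2} {s : ℝ}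
    (hs : |s| ≤ 1) (hA : lA P j t x s ∈ lane j) : lix P t x = j := by
  set A := lA P j t x s with hAdef
  set B := lab P t x with hBdef
  have hBA := lab_sub_lA' h j ht x hs
  rw [← hAdef, ← hBdef] at hBA
  have h1 := lane_upper hA
  have h2 := lane_lower hA
  have h3 := lane_lt_dl (Ok.j1 h) hj hA
  have h4 := Ok.dl20 h
  have h5 : (400 : ℝ) ≤ 2 * j := by
    have h6 : (200 : ℝ) ≤ P.j0 := by exact_mod_cast h.j0
    have h7 : (P.j0 : ℝ) ≤ j := by exact_mod_cast hj
    linarith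
  set η := etaj P.p j with hη
  have hη0 : 0 < η := etaj_pos P.p j
  set n : ℝ := 2 * (j : ℝ) + 1 with hn
  have hη1 : η * n ^ 3 ≤ 1 := by
    have h6 := etaj_cube h j
    rw [← hη, ← hn] at h6
    calc η * n ^ 3 ≤ (1 / n) ^ 3 * n ^ 3 := by gcongr
      _ = 1 := by rw [← mul_pow, one_div, inv_mul_cancel₀ (by linarith), one_pow]
  have hη2 : η ≤ 1 / 2 := by
    have : (2 : ℝ) ≤ n ^ 3 := by nlinarith [sq_nonneg n]
    nlinarith
  have hBB : |B ^ 2 - A ^ 2| ≤ η := by
    have h6 : |B + A| ≤ 1 := by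
      have : |B| ≤ |A| + η := by
        have := abs_sub_abs_le_abs_sub B A
        linarith
      calc |B + A| ≤ |B| + |A| := abs_add_le _ _
        _ ≤ 1 := by linarith
    calc |B ^ 2 - A ^ 2| = |B - A| * |B + A| := by rw [← abs_mul]; ring_nf
      _ ≤ η * 1 := by gcongr
      _ = η := mul_one _
  obtain ⟨hb1, hb2⟩ := abs_le.1 hBB
  have hA2 : 0 < A ^ 2 := by have := hA.1; positivity
  have hn3 : 100 * (n + 1) ^ 2 * η ≤ 1 := by
    have : 100 * (n + 1) ^ 2 ≤ n ^ 3 := by nlinarith [sq_nonneg n]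
    nlinarith
  have hA3 : 1 < A ^ 2 * (n + 1) := by nlinarith
  have hj2 : 2 * (j : ℝ) = n - 1 := by rw [hn]; ring
  have hB2 : 0 < B ^ 2 := by nlinarith
  have e1 : (j : ℝ) * (2 * B ^ 2) ≤ 1 := by
    have : (n - 1) * B ^ 2 ≤ 1 := by
      have e2 : (n - 1) * B ^ 2 ≤ (n - 1) * (A ^ 2 + η) :=
        mul_le_mul_of_nonneg_left (by linarith) (by linarith)
      have e3 : A ^ 2 * (n - 1 + 1 / 100) < 1 := by
        rw [← hj2]; exact h1
      have e4 : (n - 1) * η ≤ 1 / 100 * A ^ 2 := by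
        have e5 : (n - 1) * η * (n + 1) * 100 ≤ 1 := by nlinarith
        have e6 : (n - 1) * η * 100 * (n + 1) ≤ A ^ 2 * (n + 1) := by nlinarith
        have e7 := le_of_mul_le_mul_right e6 (by linarith : (0 : ℝ) < n + 1)
        linarith
      nlinarith
    nlinarith
  have e2 : 1 < ((j : ℝ) + 1) * (2 * B ^ 2) := by
    have : 1 < (n + 1) * B ^ 2 := by
      have e2 : (n + 1) * (A ^ 2 - η) ≤ (n + 1) * B ^ 2 :=
        mul_le_mul_of_nonneg_left (by linarith) (by linarith)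
      have e3 : 1 < A ^ 2 * (n - 1 + 199 / 100) := by
        rw [← hj2]; exact h2
      have e4 : (n + 1) * η ≤ 1 / 100 * A ^ 2 := by
        have e6 : (n + 1) * η * 100 * (n + 1) ≤ A ^ 2 * (n + 1) := by nlinarith
        have e7 := le_of_mul_le_mul_right e6 (by linarith : (0 : ℝ) < n + 1)
        linarith
      nlinarith
    nlinarith
  unfold lix
  rw [← hBdef, Nat.floor_eq_iff (by positivity)]
  constructor
  · rw [le_div_iff₀ (by positivity)]; exact e1
  · rw [div_lt_iff₀ (by positivity)]; exact e2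

theorem wj_or (j : ℕ) : wj j = 1 ∨ wj j = -1 := by
  unfold wj
  exact neg_one_pow_eq_or ℝ j

/-! ### one image -/

/-- conditions on the label -/
def okL (P : Par) (j : ℕ) (ω : Om) (t : ℝ) : Prop :=
  P.j0 ≤ j ∧ 0 < t ∧ wj j = sg ω ∧ ω.2.1 ∈ Ioo (-1 : ℝ) 1 ∧ ω.2.2.1 ∈ Ioo (-1 : ℝ) 1 ∧
    ω.2.2.2 ∈ Ioo (-1 : ℝ) 1

open scoped Classical in
/-- normalised density of lane `j` -/
def chj (P : Par) (j : ℕ) (ω : Om) (t : ℝ) (x : P2) : ℝ≥0∞ :=
  if okL P j ω t then ENNReal.ofReal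
    (t * qj P j (lA P j t x ω.2.1) (lZ P j t x ω.2.1 ω.2.2.1) /
      (P.K * (t + rr (lA P j t x ω.2.1)) * (1 + P.kap * t))) else 0

/-- velocity of lane `j` -/
def ujL (P : Par) (j : ℕ) (ω : Om) (t : ℝ) (x : P2) : R3 :=
  lU P j t x ω.2.1 ω.2.2.1 ω.2.2.2

theorem measurable_chj (P : Par) (j : ℕ) :
    Measurable fun q : Om × ℝ × P2 => chj P j q.1 q.2.1 q.2.2 := by
  unfold chj
  have hA : Measurable fun q : Om × ℝ × P2 => lA P j q.2.1 q.2.2 q.1.2.1 := by
    simp only [lA_eq]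
    fun_prop
  have hr : Measurable fun q : Om × ℝ × P2 => rr (lA P j q.2.1 q.2.2 q.1.2.1) :=
    measurable_rr.comp hA
  have hZ : Measurable fun q : Om × ℝ × P2 => lZ P j q.2.1 q.2.2 q.1.2.1 q.1.2.2.1 := by
    simp only [lZ_eq]
    refine (hr.mul ?_).div ((measurable_fst.comp measurable_snd).add hr)
    fun_prop
  have hq : Measurable fun q : Om × ℝ × P2 =>
      qj P j (lA P j q.2.1 q.2.2 q.1.2.1) (lZ P j q.2.1 q.2.2 q.1.2.1 q.1.2.2.1) :=
    (measurable_qj P j).comp (hA.prodMk hZ)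
  have ht : Measurable fun q : Om × ℝ × P2 => q.2.1 := by fun_prop
  refine Measurable.ite ?_ ?_ measurable_const
  · have e1 : MeasurableSet {q : Om × ℝ × P2 | P.j0 ≤ j} := MeasurableSet.const _
    have e2 : MeasurableSet {q : Om × ℝ × P2 | 0 < q.2.1} := measurableSet_lt measurable_const ht
    have e3 : MeasurableSet {q : Om × ℝ × P2 | wj j = sg q.1} :=
      measurableSet_eq_fun measurable_const (measurable_sg.comp measurable_fst)
    have e4 : MeasurableSet {q : Om × ℝ × P2 | q.1.2.1 ∈ Ioo (-1 : ℝ) 1} :=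
      measurableSet_Ioo.preimage (by fun_prop)
    have e5 : MeasurableSet {q : Om × ℝ × P2 | q.1.2.2.1 ∈ Ioo (-1 : ℝ) 1} :=
      measurableSet_Ioo.preimage (by fun_prop)
    have e6 : MeasurableSet {q : Om × ℝ × P2 | q.1.2.2.2 ∈ Ioo (-1 : ℝ) 1} :=
      measurableSet_Ioo.preimage (by fun_prop)
    exact e1.inter (e2.inter (e3.inter (e4.inter (e5.inter e6))))
  · refine ENNReal.measurable_ofReal.comp ?_
    refine (ht.mul hq).div (((ht.add hr).const_mul _).mul ?_)
    exact (ht.const_mul _).const_add _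

theorem measurable_ujL (P : Par) (j : ℕ) :
    Measurable fun q : Om × ℝ × P2 => ujL P j q.1 q.2.1 q.2.2 := by
  unfold ujL
  have hA : Measurable fun q : Om × ℝ × P2 => lA P j q.2.1 q.2.2 q.1.2.1 := by
    simp only [lA_eq]
    fun_prop
  have hr : Measurable fun q : Om × ℝ × P2 => rr (lA P j q.2.1 q.2.2 q.1.2.1) :=
    measurable_rr.comp hA
  have ht : Measurable fun q : Om × ℝ × P2 => q.2.1 := by fun_prop
  refine measurable_vec ?_ ?_ ?_
  · fun_prop
  · refine Measurable.div (Measurable.add (by fun_prop) (hr.mul (by fun_prop))) (ht.add hr)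
  · fun_prop

attribute [local irreducible] lix

/-- normalised density at `(t,x)`, one image -/
def chL (P : Par) (ω : Om) (t : ℝ) (x : P2) : ℝ≥0∞ := chj P (lix P t x) ω t x

/-- velocity of label `ω` at `(t,x)`, one image -/
def uL (P : Par) (ω : Om) (t : ℝ) (x : P2) : R3 := ujL P (lix P t x) ω t x

theorem measurable_chL (P : Par) : Measurable fun q : Om × ℝ × P2 => chL P q.1 q.2.1 q.2.2 := by
  have h1 : Measurable fun q : ℕ × Om × ℝ × P2 => chj P q.1 q.2.1 q.2.2.1 q.2.2.2 :=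
    measurable_from_prod_countable_right fun j => measurable_chj P j
  have h2 : Measurable fun q : Om × ℝ × P2 => (lix P q.2.1 q.2.2, q) :=
    ((measurable_lix P).comp measurable_snd).prodMk measurable_id
  unfold chL
  exact Measurable.comp (g := fun q : ℕ × Om × ℝ × P2 => chj P q.1 q.2.1 q.2.2.1 q.2.2.2)
    (f := fun q : Om × ℝ × P2 => (lix P q.2.1 q.2.2, q)) h1 h2

theorem measurable_uL (P : Par) : Measurable fun q : Om × ℝ × P2 => uL P q.1 q.2.1 q.2.2 := by
  have h1 : Measurable fun q : ℕ × Om × ℝ × P2 => ujL P q.1 q.2.1 q.2.2.1 q.2.2.2 :=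
    measurable_from_prod_countable_right fun j => measurable_ujL P j
  have h2 : Measurable fun q : Om × ℝ × P2 => (lix P q.2.1 q.2.2, q) :=
    ((measurable_lix P).comp measurable_snd).prodMk measurable_id
  unfold uL
  exact Measurable.comp (g := fun q : ℕ × Om × ℝ × P2 => ujL P q.1 q.2.1 q.2.2.1 q.2.2.2)
    (f := fun q : Om × ℝ × P2 => (lix P q.2.1 q.2.2, q)) h1 h2

/-- representation, one lane -/
theorem rep_lane {P : Par} (h : P.Ok) (hK : 0 < P.K) {t : ℝ} (ht : 0 < t) (z : P2) (j : ℕ)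
    (hj : P.j0 ≤ j) {g : R3 → ℝ≥0∞} (hg : Measurable g) :
    ∫⁻ v, ENNReal.ofReal (phij P j t z v) * g v =
      ENNReal.ofReal (2 * P.K / t) * ∫⁻ ω, chj P j ω t z * g (ujL P j ω t z) ∂piL := by
  have hm : Measurable fun ω : Om => chj P j ω t z * g (ujL P j ω t z) := by
    have h1 : Measurable fun ω : Om => (ω, t, z) := by fun_prop
    exact ((measurable_chj P j).comp h1).mul (hg.comp ((measurable_ujL P j).comp h1))
  rw [lint_phij h j ht.le z hg, lint_piL hm]
  -- the correct sign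
  obtain ⟨b, hb, hb'⟩ : ∃ b : Bool, (wj j = if b then 1 else -1) ∧
      ¬ (wj j = if !b then 1 else -1) := by
    rcases wj_or j with h1 | h1
    · exact ⟨true, by simp [h1], by simp [h1]; norm_num⟩
    · exact ⟨false, by simp [h1], by simp [h1]; norm_num⟩
  have hz : ∫⁻ s1 in Ioo (-1 : ℝ) 1, ∫⁻ s2 in Ioo (-1 : ℝ) 1, ∫⁻ s3 in Ioo (-1 : ℝ) 1,
      chj P j (!b, s1, s2, s3) t z * g (ujL P j (!b, s1, s2, s3) t z) = 0 := by
    have : ∀ s1 s2 s3 : ℝ, chj P j (!b, s1, s2, s3) t z = 0 := by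
      intro s1 s2 s3
      unfold chj
      rw [if_neg]
      intro h1
      exact hb' h1.2.2.1
    simp [this]
  have hsum : ((∫⁻ s1 in Ioo (-1 : ℝ) 1, ∫⁻ s2 in Ioo (-1 : ℝ) 1, ∫⁻ s3 in Ioo (-1 : ℝ) 1,
        chj P j (true, s1, s2, s3) t z * g (ujL P j (true, s1, s2, s3) t z)) +
      ∫⁻ s1 in Ioo (-1 : ℝ) 1, ∫⁻ s2 in Ioo (-1 : ℝ) 1, ∫⁻ s3 in Ioo (-1 : ℝ) 1,
        chj P j (false, s1, s2, s3) t z * g (ujL P j (false, s1, s2, s3) t z)) =
      ∫⁻ s1 in Ioo (-1 : ℝ) 1, ∫⁻ s2 in Ioo (-1 : ℝ) 1, ∫⁻ s3 in Ioo (-1 : ℝ) 1,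
        chj P j (b, s1, s2, s3) t z * g (ujL P j (b, s1, s2, s3) t z) := by
    cases b
    · rw [Bool.not_false] at hz
      rw [hz, zero_add]
    · rw [Bool.not_true] at hz
      rw [hz, add_zero]
  rw [hsum, ← mul_assoc, ← lintegral_const_mul' _ _ (by finiteness)]
  refine setLIntegral_congr_fun measurableSet_Ioo fun s1 hs1 => ?_
  rw [← lintegral_const_mul' _ _ (by finiteness)]
  refine setLIntegral_congr_fun measurableSet_Ioo fun s2 hs2 => ?_
  rw [← lintegral_const_mul' _ _ (by finiteness)]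
  refine setLIntegral_congr_fun measurableSet_Ioo fun s3 hs3 => ?_
  have hok : okL P j (b, s1, s2, s3) t := ⟨hj, ht, hb, hs1, hs2, hs3⟩
  show _ = ENNReal.ofReal (2 * P.K / t) * 16⁻¹ *
    (chj P j (b, s1, s2, s3) t z * g (ujL P j (b, s1, s2, s3) t z))
  rw [← mul_assoc]
  congr 1
  unfold chj
  rw [if_pos hok]
  have h1 : 0 < 1 + P.kap * t := by have := Ok.kap0 h; positivity
  have h2 : 0 < t + rr (lA P j t z s1) := by have := rr_nonneg (lA P j t z s1); positivity
  rw [show (16 : ℝ≥0∞)⁻¹ = ENNReal.ofReal (1 / 16) by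
    rw [one_div, ENNReal.ofReal_inv_of_pos (by norm_num)]; norm_num]
  rw [← ENNReal.ofReal_mul (by positivity), ← ENNReal.ofReal_mul (by positivity)]
  congr 1
  field_simp
  ring

/-- representation, one image -/
theorem rep_one {P : Par} (h : P.Ok) (hK : 0 < P.K) {t : ℝ} (ht : 0 < t) (z : P2)
    {g : R3 → ℝ≥0∞} (hg : Measurable g) :
    ∑' j : ℕ, ∫⁻ v, ENNReal.ofReal (phs P j t z v) * g v =
      ENNReal.ofReal (2 * P.K / t) * ∫⁻ ω, chL P ω t z * g (uL P ω t z) ∂piL := by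
  have h0 : ∀ j, j ≠ lix P t z → ∫⁻ v, ENNReal.ofReal (phs P j t z v) * g v = 0 := by
    intro j hj
    by_cases hj0 : P.j0 ≤ j
    · simp_rw [phs_of_le hj0]
      rw [lint_phij h j ht.le z hg]
      have : ∀ s1 ∈ Ioo (-1 : ℝ) 1, ∫⁻ s2 in Ioo (-1 : ℝ) 1, ∫⁻ s3 in Ioo (-1 : ℝ) 1,
        ENNReal.ofReal (qj P j (lA P j t z s1) (lZ P j t z s1 s2) /
          (8 * (t + rr (lA P j t z s1)) * (1 + P.kap * t))) * g (lU P j t z s1 s2 s3) = 0 := by
        intro s1 hs1
        have h2 : lA P j t z s1 ∉ lane j := by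
          intro h3
          exact hj (lix_eq h hj0 ht.le (abs_le.2 ⟨hs1.1.le, hs1.2.le⟩) h3).symm
        have h3 : ∀ s2, qj P j (lA P j t z s1) (lZ P j t z s1 s2) = 0 := by
          intro s2
          by_contra h4
          exact h2 (qj_ne h4).1
        simp [h3]
      rw [setLIntegral_congr_fun measurableSet_Ioo this]
      simp
    · have : ∀ v, phs P j t z v = 0 := fun v => by unfold phs; rw [if_neg hj0]
      simp [this]
  rw [tsum_eq_single _ h0]
  by_cases hj0 : P.j0 ≤ lix P t z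
  · simp_rw [phs_of_le hj0]
    exact rep_lane h hK ht z _ hj0 hg
  · have h1 : ∀ v, phs P (lix P t z) t z v = 0 := fun v => by unfold phs; rw [if_neg hj0]
    have h2 : ∀ ω, chL P ω t z = 0 := by
      intro ω
      unfold chL chj
      rw [if_neg]
      exact fun h3 => hj0 h3.1
    simp [h1, h2]

/-! ### images -/

open scoped Classical in
/-- representative near the origin (the origin if there is none) -/
def red (x : P2) : P2 := if h : ∃ k : ℤ × ℤ, ‖x + latt k‖ < 7 / 20 then x + latt h.choose else 0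

theorem red_of {x : P2} {k : ℤ × ℤ} (hk : ‖x + latt k‖ < 7 / 20) : red x = x + latt k := by
  have h : ∃ k : ℤ × ℤ, ‖x + latt k‖ < 7 / 20 := ⟨k, hk⟩
  unfold red
  rw [dif_pos h, latt_unique h.choose_spec hk]

theorem red_zero {x : P2} (h : ∀ k : ℤ × ℤ, ¬ ‖x + latt k‖ < 7 / 20) : red x = 0 := by
  unfold red
  rw [dif_neg]
  push Not
  exact fun k => not_lt.1 (h k)

theorem norm_red_lt (x : P2) : ‖red x‖ < 7 / 20 := by
  by_cases h : ∃ k : ℤ × ℤ, ‖x + latt k‖ < 7 / 20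
  · obtain ⟨k, hk⟩ := h
    rw [red_of hk]; exact hk
  · push Not at h
    rw [red_zero fun k => not_lt.2 (h k)]
    norm_num

theorem measurable_red : Measurable red := by
  intro A hA
  have h1 : ∀ k : ℤ × ℤ, MeasurableSet {x : P2 | ‖x + latt k‖ < 7 / 20} := fun k =>
    measurableSet_lt (measurable_id.add_const _).norm measurable_const
  have h2 : red ⁻¹' A = (⋃ k : ℤ × ℤ, ({x : P2 | ‖x + latt k‖ < 7 / 20} ∩
      (fun x => x + latt k) ⁻¹' A)) ∪
      ((⋃ k : ℤ × ℤ, {x : P2 | ‖x + latt k‖ < 7 / 20})ᶜ ∩ {x : P2 | (0 : P2) ∈ A}) := by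
    ext x
    simp only [mem_preimage, mem_union, mem_iUnion, mem_inter_iff, mem_ofPred_eq, mem_compl_iff,
      not_exists]
    constructor
    · intro h
      by_cases h3 : ∃ k : ℤ × ℤ, ‖x + latt k‖ < 7 / 20
      · obtain ⟨k, hk⟩ := h3
        rw [red_of hk] at h
        exact Or.inl ⟨k, hk, h⟩
      · push Not at h3
        rw [red_zero fun k => not_lt.2 (h3 k)] at h
        exact Or.inr ⟨fun k => not_lt.2 (h3 k), h⟩
    · rintro (⟨k, hk, h⟩ | ⟨h3, h⟩)
      · rw [red_of hk]; exact h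
      · rw [red_zero h3]; exact h
  rw [h2]
  refine (MeasurableSet.iUnion fun k => (h1 k).inter ?_).union
    ((MeasurableSet.iUnion h1).compl.inter (MeasurableSet.const _))
  exact (measurable_id.add_const _) hA

/-- normalised density at `(t,x)`, periodic -/
def chP (P : Par) (ω : Om) (t : ℝ) (x : P2) : ℝ≥0∞ := chL P ω t (red x)

/-- velocity of label `ω` at `(t,x)`, periodic -/
def uP (P : Par) (ω : Om) (t : ℝ) (x : P2) : R3 := uL P ω t (red x)

theorem measurable_chP (P : Par) : Measurable fun q : Om × ℝ × P2 => chP P q.1 q.2.1 q.2.2 := by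
  have h1 : Measurable fun q : Om × ℝ × P2 => (q.1, q.2.1, red q.2.2) :=
    measurable_fst.prodMk ((measurable_fst.comp measurable_snd).prodMk
      (measurable_red.comp (measurable_snd.comp measurable_snd)))
  unfold chP
  exact Measurable.comp (g := fun q : Om × ℝ × P2 => chL P q.1 q.2.1 q.2.2)
    (f := fun q : Om × ℝ × P2 => (q.1, q.2.1, red q.2.2)) (measurable_chL P) h1

theorem measurable_uP (P : Par) : Measurable fun q : Om × ℝ × P2 => uP P q.1 q.2.1 q.2.2 := by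
  have h1 : Measurable fun q : Om × ℝ × P2 => (q.1, q.2.1, red q.2.2) :=
    measurable_fst.prodMk ((measurable_fst.comp measurable_snd).prodMk
      (measurable_red.comp (measurable_snd.comp measurable_snd)))
  unfold uP
  exact Measurable.comp (g := fun q : Om × ℝ × P2 => uL P q.1 q.2.1 q.2.2)
    (f := fun q : Om × ℝ × P2 => (q.1, q.2.1, red q.2.2)) (measurable_uL P) h1

theorem chL_zero {P : Par} (h : P.Ok) (ω : Om) (t : ℝ) : chL P ω t 0 = 0 := by
  unfold chL
  have h1 : lix P t 0 = 0 := by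
    unfold lix lab
    simp
  rw [h1]
  unfold chj
  rw [if_neg]
  intro h2
  have := h2.1
  have := h.j0
  omega

/-- **Label representation of the fuel** -/
theorem rep {P : Par} (h : P.Ok) (hK : 0 < P.K) {t : ℝ} (ht : 0 < t)
    (hT : (1 + P.Y) * P.dl + (P.c + P.Y + etaj P.p P.j0) * t < 7 / 20) (x : P2)
    {g : R3 → ℝ≥0∞} (hg : Measurable g) :
    ∫⁻ v, ENNReal.ofReal (phi P t x v) * g v =
      ENNReal.ofReal (2 * P.K / t) * ∫⁻ ω, chP P ω t x * g (uP P ω t x) ∂piL := by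
  rw [lint_phi h t x hg]
  have h0 : ∀ k : ℤ × ℤ, ¬ ‖x + latt k‖ < 7 / 20 →
      ∑' j : ℕ, ∫⁻ v, ENNReal.ofReal (phs P j t (x + latt k) v) * g v = 0 := by
    intro k hk
    have h1 : k ∉ vis P t x := fun h2 => hk ((norm_of_vis h ht.le h2).trans_lt hT)
    have h2 : ∀ j v, phs P j t (x + latt k) v = 0 := by
      intro j v
      by_contra h3
      have h4 := mem_of_phs_ne h3
      exact h1 ⟨j, h4.1, v, h4.2⟩
    simp [h2]
  by_cases hx : ∃ k : ℤ × ℤ, ‖x + latt k‖ < 7 / 20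
  · obtain ⟨k, hk⟩ := hx
    rw [tsum_eq_single k]
    · rw [rep_one h hK ht _ hg]
      unfold chP uP
      rw [red_of hk]
    · intro l hl
      exact h0 l fun h1 => hl (latt_unique h1 hk)
  · push Not at hx
    have h1 : ∀ ω, chP P ω t x = 0 := by
      intro ω
      unfold chP
      rw [red_zero fun k => not_lt.2 (hx k)]
      exact chL_zero h ω t
    have h2 : ∀ k : ℤ × ℤ, ∑' j : ℕ, ∫⁻ v, ENNReal.ofReal (phs P j t (x + latt k) v) * g v = 0 :=
      fun k => h0 k (not_lt.2 (hx k))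
    simp only [h1, h2, tsum_zero, zero_mul, lintegral_zero, mul_zero]

end Crest.Agent.R68.SL
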