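import Crest.Agent.R68.SLab1

/-!
# Row 68, Part S (helper312): bounds for the label representation, scaled `Near` property
-/

set_option autoImplicit false
open MeasureTheory Set
open scoped ENNReal
open Crest.AnalysisR.VecCalc3 Crest.AnalysisR.PDE.Boltzmann

noncomputable section

namespace Crest.Agent.R68.SL

open Crest.Agent.R68.Fuel

theorem chj_ne {P : Par} {j : ℕ} {ω : Om} {t : ℝ} {x : P2} (h : chj P j ω t x ≠ 0) :
    okL P j ω t ∧ lA P j t x ω.2.1 ∈ lane j ∧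
      |lZ P j t x ω.2.1 ω.2.2.1| < P.Y * rr (lA P j t x ω.2.1) := by
  unfold chj at h
  split_ifs at h with h1
  · refine ⟨h1, qj_ne (P := P) (j := j) ?_⟩
    intro h2; rw [h2] at h; simp at h
  · exact absurd rfl h

theorem chj_le_one {P : Par} (h : P.Ok) (hK : 0 < P.K) (j : ℕ) (ω : Om) (t : ℝ) (x : P2) :
    chj P j ω t x ≤ 1 := by
  unfold chj
  split_ifs with h1
  · have ht := h1.2.1
    rw [← ENNReal.ofReal_one]
    refine ENNReal.ofReal_le_ofReal ?_
    have h2 := rr_nonneg (lA P j t x ω.2.1)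
    have h3 := Ok.kap0 h
    have h4 := qj_le h.K0 j (lA P j t x ω.2.1) (lZ P j t x ω.2.1 ω.2.2.1)
    have h5 := qj_nonneg h.K0 j (lA P j t x ω.2.1) (lZ P j t x ω.2.1 ω.2.2.1)
    rw [div_le_one (by positivity)]
    have h6 : t * qj P j (lA P j t x ω.2.1) (lZ P j t x ω.2.1 ω.2.2.1) ≤ t * P.K := by gcongr
    have h7 : P.K * t * 1 ≤ P.K * (t + rr (lA P j t x ω.2.1)) * (1 + P.kap * t) := by
      gcongr
      · linarith
      · have : 0 ≤ P.kap * t := by positivity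
        linarith
    linarith
  · exact zero_le_one

theorem chL_le_one {P : Par} (h : P.Ok) (hK : 0 < P.K) (ω : Om) (t : ℝ) (x : P2) :
    chL P ω t x ≤ 1 := chj_le_one h hK _ ω t x

theorem chP_le_one {P : Par} (h : P.Ok) (hK : 0 < P.K) (ω : Om) (t : ℝ) (x : P2) :
    chP P ω t x ≤ 1 := chj_le_one h hK _ ω t _

/-- labels of a visible fuel point -/
theorem fuel_pt {P : Par} (h : P.Ok) {ω : Om} {t : ℝ} {z : P2} (hne : chL P ω t z ≠ 0) :
    ∃ (j : ℕ) (A y : ℝ), P.j0 ≤ j ∧ 0 < t ∧ wj j = sg ω ∧ |ω.2.1| < 1 ∧ |ω.2.2.1| < 1 ∧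
      |ω.2.2.2| < 1 ∧ A ∈ lane j ∧ |y| < P.Y ∧
      z.1 = A * (1 + P.kap * t) + t * (etaj P.p j * ω.2.1) ∧
      z.2 = y * (t + rr A) + t * (etaj P.p j * ω.2.2.1) ∧
      uL P ω t z 0 = P.kap * A + etaj P.p j * ω.2.1 ∧
      uL P ω t z 1 = y + etaj P.p j * ω.2.2.1 ∧
      uL P ω t z 2 = wj j + etaj P.p j * ω.2.2.2 := by
  unfold chL at hne
  unfold uL ujL
  set j := lix P t z with hj
  obtain ⟨⟨h1, h2, h3, h4, h5, h6⟩, hA, hZ⟩ := chj_ne hne
  set A := lA P j t z ω.2.1 with hAd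
  have hr := rr_pos hA.1
  have hk := Ok.kap0 h
  have hden : 0 < 1 + P.kap * t := by positivity
  have htr : 0 < t + rr A := by positivity
  refine ⟨j, A, (z.2 - t * (etaj P.p j * ω.2.2.1)) / (t + rr A), h1, h2, h3, abs_lt.2 h4,
    abs_lt.2 h5, abs_lt.2 h6, hA, ?_, ?_, ?_, ?_, ?_, lU_2 _ _ _ _ _ _ _⟩
  · rw [lZ_eq, ← hAd, mul_div_assoc, abs_mul, abs_of_pos hr, mul_comm] at hZ
    exact lt_of_mul_lt_mul_right hZ hr.le
  · rw [hAd, lA_eq]; field_simp; ring
  · field_simp; ring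
  · rw [lU_0, hAd, lA_eq]; field_simp; ring
  · rw [lU_1, ← hAd]; field_simp; ring

/-- velocity bounds -/
theorem uL_bounds {P : Par} (h : P.Ok) {ω : Om} {t : ℝ} {z : P2} (hne : chL P ω t z ≠ 0) :
    |uL P ω t z 0| ≤ P.c + etaj P.p P.j0 ∧ |uL P ω t z 1| ≤ P.Y + etaj P.p P.j0 ∧
      |uL P ω t z 2 - sg ω| ≤ etaj P.p P.j0 := by
  obtain ⟨j, A, y, hj, ht, hw, hs1, hs2, hs3, hA, hy, hz1, hz2, h0, h1, h2⟩ := fuel_pt h hne
  have hη := etaj_pos P.p j
  have hη2 := etaj_anti P.p hj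
  have hd := Ok.dlp h
  have hAd := lane_lt_dl (Ok.j1 h) hj hA
  have hkA : |P.kap * A| ≤ P.c := by
    rw [abs_mul, abs_of_nonneg (Ok.kap0 h)]
    calc P.kap * |A| ≤ P.kap * P.dl := mul_le_mul_of_nonneg_left hAd.le (Ok.kap0 h)
      _ = P.c := by unfold Par.kap; field_simp
  have key : ∀ s : ℝ, |s| < 1 → |etaj P.p j * s| ≤ etaj P.p P.j0 := by
    intro s hs
    rw [abs_mul, abs_of_pos hη]
    nlinarith [abs_nonneg s]
  rw [h0, h1, h2, hw]
  refine ⟨?_, ?_, ?_⟩
  · exact (abs_add_le _ _).trans (add_le_add hkA (key _ hs1))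
  · exact (abs_add_le _ _).trans (add_le_add hy.le (key _ hs2))
  · rw [add_sub_cancel_left]; exact key _ hs3

theorem norm_le_of_abs {v : R3} {a b c : ℝ} (h0 : |v 0| ≤ a) (h1 : |v 1| ≤ b) (h2 : |v 2| ≤ c) :
    ‖v‖ ≤ a + b + c := by
  have ha := (abs_nonneg _).trans h0
  have hb := (abs_nonneg _).trans h1
  have hc := (abs_nonneg _).trans h2
  rw [EuclideanSpace.norm_eq, Fin.sum_univ_three]
  refine Real.sqrt_le_iff.2 ⟨by positivity, ?_⟩
  simp only [Real.norm_eq_abs]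
  have e0 : |v 0| ^ 2 ≤ a ^ 2 := by gcongr
  have e1 : |v 1| ^ 2 ≤ b ^ 2 := by gcongr
  have e2 : |v 2| ^ 2 ≤ c ^ 2 := by gcongr
  nlinarith [mul_nonneg ha hb, mul_nonneg ha hc, mul_nonneg hb hc]

theorem norm_uL_le {P : Par} (h : P.Ok) {ω : Om} {t : ℝ} {z : P2} (hne : chL P ω t z ≠ 0) :
    ‖uL P ω t z‖ ≤ P.Y + 3 := by
  obtain ⟨h0, h1, h2⟩ := uL_bounds h hne
  have hc := h.c1
  have hη : etaj P.p P.j0 ≤ 1 / 3 := by
    refine (etaj_cube h P.j0).trans ?_
    have : (200 : ℝ) ≤ P.j0 := by exact_mod_cast h.j0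
    calc (1 / (2 * (P.j0 : ℝ) + 1)) ^ 3 ≤ (1 / 3) ^ 3 := by
          apply pow_le_pow_left₀ (by positivity)
          apply one_div_le_one_div_of_le (by norm_num); linarith
      _ ≤ 1 / 3 := by norm_num
  have h3 : |uL P ω t z 2| ≤ 1 + etaj P.p P.j0 := by
    have : |sg ω| = 1 := by rcases sg_or ω with h | h <;> rw [h] <;> simp
    calc |uL P ω t z 2| = |sg ω + (uL P ω t z 2 - sg ω)| := by ring_nf
      _ ≤ |sg ω| + |uL P ω t z 2 - sg ω| := abs_add_le _ _
      _ ≤ _ := by linarith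
  have := norm_le_of_abs h0 h1 h3
  linarith

theorem norm_uP_le {P : Par} (h : P.Ok) {ω : Om} {t : ℝ} {x : P2} (hne : chP P ω t x ≠ 0) :
    ‖uP P ω t x‖ ≤ P.Y + 3 := norm_uL_le h hne

/-- positions of fuel points -/
theorem norm_of_chL {P : Par} (h : P.Ok) {ω : Om} {t : ℝ} {z : P2} (hne : chL P ω t z ≠ 0) :
    ‖z‖ ≤ (1 + P.Y) * P.dl + (P.c + P.Y + etaj P.p P.j0) * t := by
  obtain ⟨j, A, y, hj, ht, hw, hs1, hs2, hs3, hA, hy, hz1, hz2, h0, h1, h2⟩ := fuel_pt h hne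
  have hη := etaj_pos P.p j
  have hη2 := etaj_anti P.p hj
  have hd := Ok.dlp h
  have hAd := lane_lt_dl (Ok.j1 h) hj hA
  have hY := h.Y0
  have hc := h.c0
  have hkA : P.kap * |A| ≤ P.c := by
    calc P.kap * |A| ≤ P.kap * P.dl := mul_le_mul_of_nonneg_left hAd.le (Ok.kap0 h)
      _ = P.c := by unfold Par.kap; field_simp
  have key : ∀ s : ℝ, |s| < 1 → |t * (etaj P.p j * s)| ≤ t * etaj P.p P.j0 := by
    intro s hs
    rw [abs_mul, abs_mul, abs_of_pos hη, abs_of_pos ht]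
    refine mul_le_mul_of_nonneg_left ?_ ht.le
    nlinarith [abs_nonneg s]
  have hr := rr_nonneg A
  have hr2 : rr A ≤ P.dl := by
    have := Ok.dl20 h
    unfold rr
    rw [← sq_abs]
    nlinarith [abs_nonneg A]
  rw [Prod.norm_def, Real.norm_eq_abs, Real.norm_eq_abs, hz1, hz2]
  refine max_le ?_ ?_
  · refine (abs_add_le _ _).trans ?_
    have e1 : |A * (1 + P.kap * t)| ≤ P.dl + P.c * t := by
      have hk := Ok.kap0 h
      rw [abs_mul, abs_of_nonneg (show 0 ≤ 1 + P.kap * t by positivity)]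
      nlinarith
    have e2 := key _ hs1
    have e3 : 0 ≤ P.Y * P.dl := by positivity
    have e4 : 0 ≤ P.Y * t := by positivity
    nlinarith
  · refine (abs_add_le _ _).trans ?_
    have e1 : |y * (t + rr A)| ≤ P.Y * (t + P.dl) := by
      rw [abs_mul, abs_of_nonneg (show 0 ≤ t + rr A by positivity)]
      gcongr
    have e2 := key _ hs2
    have e4 : 0 ≤ P.c * t := by positivity
    nlinarith

/-! ### lanes of the same sign -/

theorem pow_sub_pow_le {a b : ℝ} (hb : 0 ≤ b) (hba : b ≤ a) (ha : a ≤ 1 / 2) {p : ℕ} (hp : 3 ≤ p) :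
    a ^ p - b ^ p ≤ a ^ 3 - b ^ 3 := by
  induction p, hp using Nat.le_induction with
  | base => exact le_rfl
  | succ n hn ih =>
    refine le_trans ?_ ih
    obtain ⟨m, rfl⟩ : ∃ m, n = m + 1 := ⟨n - 1, by omega⟩
    have h1 : b ^ m ≤ a ^ m := pow_le_pow_left₀ hb hba m
    have h2 : 0 ≤ b ^ m := by positivity
    have h3 : b * (1 - b) ≤ a * (1 - a) := by nlinarith
    have h4 : 0 ≤ b * (1 - b) := mul_nonneg hb (by linarith)
    have h5 : b ^ m * (b * (1 - b)) ≤ a ^ m * (a * (1 - a)) :=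
      mul_le_mul h1 h3 h4 (h2.trans h1)
    have e1 : a ^ (m + 1 + 1) = a ^ m * a * a := by ring
    have e2 : b ^ (m + 1 + 1) = b ^ m * b * b := by ring
    have e3 : a ^ (m + 1) = a ^ m * a := by ring
    have e4 : b ^ (m + 1) = b ^ m * b := by ring
    rw [e1, e2, e3, e4]
    nlinarith

theorem lane_sep {i j : ℕ} (hi : 1 ≤ i) (hij : i < j) (hw : wj i = wj j) {A B : ℝ}
    (hA : A ∈ lane i) (hB : B ∈ lane j) :
    1 / (2 * (i : ℝ) + 1) - 1 / (2 * (j : ℝ) + 1) ≤ 4 * (A ^ 2 - B ^ 2) := by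
  have hij2 : i + 2 ≤ j := by
    by_contra h
    have : j = i + 1 := by omega
    subst this
    unfold wj at hw
    rw [pow_succ] at hw
    rcases neg_one_pow_eq_or ℝ i with h1 | h1 <;> rw [h1] at hw <;> norm_num at hw
  have h1 := lane_lower hA
  have h2 := lane_upper hB
  have hI : (1 : ℝ) ≤ i := by exact_mod_cast hi
  have hJ : (i : ℝ) + 2 ≤ j := by exact_mod_cast hij2
  have h3 : 1 / (2 * (i : ℝ) + 199 / 100) < A ^ 2 := by
    rw [div_lt_iff₀ (by positivity)]; exact h1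
  have h4 : B ^ 2 < 1 / (2 * (j : ℝ) + 1 / 100) := by
    rw [lt_div_iff₀ (by positivity)]; exact h2
  have h5 : 1 / (2 * (i : ℝ) + 1) - 1 / (2 * (j : ℝ) + 1) ≤
      4 * (1 / (2 * (i : ℝ) + 199 / 100) - 1 / (2 * (j : ℝ) + 1 / 100)) := by
    set I := (i : ℝ)
    set J := (j : ℝ)
    have g1 : (0 : ℝ) < 2 * I + 1 := by linarith
    have g2 : (0 : ℝ) < 2 * J + 1 := by linarith
    have g3 : (0 : ℝ) < 2 * I + 199 / 100 := by linarith
    have g4 : (0 : ℝ) < 2 * J + 1 / 100 := by linarith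
    have e1 : 1 / (2 * I + 1) - 1 / (2 * J + 1) = 2 * (J - I) / ((2 * I + 1) * (2 * J + 1)) := by
      rw [div_sub_div _ _ g1.ne' g2.ne']
      congr 1
      ring
    have e2 : 1 / (2 * I + 199 / 100) - 1 / (2 * J + 1 / 100) =
        (2 * (J - I) - 198 / 100) / ((2 * I + 199 / 100) * (2 * J + 1 / 100)) := by
      rw [div_sub_div _ _ g3.ne' g4.ne']
      congr 1
      ring
    have e3 : (J - I) / ((2 * I + 199 / 100) * (2 * J + 1 / 100)) ≤
        (2 * (J - I) - 198 / 100) / ((2 * I + 199 / 100) * (2 * J + 1 / 100)) :=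
      div_le_div_of_nonneg_right (by linarith) (by positivity)
    have e4 : 2 * (J - I) / ((2 * I + 1) * (2 * J + 1)) ≤
        4 * ((J - I) / ((2 * I + 199 / 100) * (2 * J + 1 / 100))) := by
      rw [← mul_div_assoc, div_le_div_iff₀ (by positivity) (by positivity)]
      have e5 : (2 * I + 199 / 100) * (2 * J + 1 / 100) ≤ 2 * ((2 * I + 1) * (2 * J + 1)) := by
        nlinarith
      nlinarith
    rw [e1, e2]
    linarith
  linarith

theorem eta_lip {P : Par} (h : P.Ok) {i j : ℕ} (hi : P.j0 ≤ i) (hj : P.j0 ≤ j)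
    (hw : wj i = wj j) {A B : ℝ} (hA : A ∈ lane i) (hB : B ∈ lane j) :
    |etaj P.p i - etaj P.p j| ≤ |A - B| / 1000 := by
  have key : ∀ {i j : ℕ} {A B : ℝ}, P.j0 ≤ i → i < j → wj i = wj j → A ∈ lane i → B ∈ lane j →
      |etaj P.p i - etaj P.p j| ≤ |A - B| / 1000 := by
    intro i j A B hi hij hw hA hB
    have h1 := lane_sep ((Ok.j1 h).trans hi) hij hw hA hB
    have h2 := etaj_anti P.p hij.le
    have hI : (200 : ℝ) ≤ i := by exact_mod_cast h.j0.trans hi
    have hJ : (i : ℝ) + 1 ≤ j := by exact_mod_cast hij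
    have h3 := lane_lt_dl (Ok.j1 h) hi hA
    have h4 := lane_lt_dl (Ok.j1 h) (hi.trans hij.le) hB
    have h5 := Ok.dl20 h
    set a := 1 / (2 * (i : ℝ) + 1) with ha
    set b := 1 / (2 * (j : ℝ) + 1) with hb
    have hb0 : 0 ≤ b := by positivity
    have hba : b ≤ a := by
      apply one_div_le_one_div_of_le (by positivity); linarith
    have ha1 : a ≤ 1 / 400 := by
      apply one_div_le_one_div_of_le (by norm_num); linarith
    have h6 : etaj P.p i - etaj P.p j ≤ a ^ 3 - b ^ 3 := by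
      unfold etaj
      exact pow_sub_pow_le hb0 hba (by linarith) h.p3
    have h7 : a ^ 3 - b ^ 3 ≤ (a - b) * (1 / 400) := by
      have e1 : a ^ 3 - b ^ 3 = (a - b) * (a ^ 2 + a * b + b ^ 2) := by ring
      rw [e1]
      refine mul_le_mul_of_nonneg_left ?_ (by linarith)
      have : a ^ 2 ≤ (1 / 400) ^ 2 := by gcongr
      have : a * b ≤ (1 / 400) * (1 / 400) := by gcongr; linarith
      have : b ^ 2 ≤ (1 / 400) ^ 2 := by gcongr; linarith
      norm_num at *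
      linarith
    have h8 : A ^ 2 - B ^ 2 ≤ |A - B| * (1 / 10) := by
      calc A ^ 2 - B ^ 2 ≤ |A ^ 2 - B ^ 2| := le_abs_self _
        _ = |A - B| * |A + B| := by rw [← abs_mul]; ring_nf
        _ ≤ |A - B| * (1 / 10) := by
          gcongr
          calc |A + B| ≤ |A| + |B| := abs_add_le _ _
            _ ≤ 1 / 10 := by linarith
    rw [abs_of_nonneg (by linarith)]
    have h9 : (a - b) * (1 / 400) ≤ |A - B| / 1000 := by nlinarith
    linarith
  rcases lt_trichotomy i j with hij | hij | hij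
  · exact key hi hij hw hA hB
  · subst hij
    rw [sub_self, abs_zero]; positivity
  · rw [abs_sub_comm, abs_sub_comm A B]
    exact key hj hij hw.symm hB hA

set_option maxHeartbeats 2000000 in
/-- comparison of two fuel points with the same thermal coordinates -/
theorem pair {P : Par} (h : P.Ok) {i j : ℕ} (hi : P.j0 ≤ i) (hj : P.j0 ≤ j) (hw : wj i = wj j)
    {A B y z t r s s' x1 x2 x1' x2' dx dt : ℝ} (hA : A ∈ lane i) (hB : B ∈ lane j)
    (hz : |z| < P.Y) (ht : 0 < t) (ht1 : t ≤ 1)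
    (hs : |s| < 1) (hs' : |s'| < 1)
    (e1 : x1 = A * (1 + P.kap * t) + t * (etaj P.p i * s))
    (e2 : x2 = y * (t + rr A) + t * (etaj P.p i * s'))
    (e1' : x1' = B * (1 + P.kap * r) + r * (etaj P.p j * s))
    (e2' : x2' = z * (r + rr B) + r * (etaj P.p j * s'))
    (hx1 : |x1 - x1'| ≤ dx) (hx2 : |x2 - x2'| ≤ dx) (hdt : |t - r| ≤ dt) :
    |A - B| ≤ 3 * (dx + dt) ∧ |etaj P.p i - etaj P.p j| ≤ (dx + dt) / 100 ∧
      |y - z| * (t + rr A) ≤ 2 * (1 + P.Y) * (dx + dt) := by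
  have hη := eta_lip h hi hj hw hA hB
  have hη1 := etaj_le_one P.p j
  have hη0 := etaj_pos P.p j
  have hk := Ok.kap0 h
  have hY := h.Y0
  have hdx0 := (abs_nonneg _).trans hx1
  have hdt0 := (abs_nonneg _).trans hdt
  have hAd := lane_lt_dl (Ok.j1 h) hi hA
  have hBd := lane_lt_dl (Ok.j1 h) hj hB
  have hd := Ok.dlp h
  have hd20 := Ok.dl20 h
  have hkB : |P.kap * B| ≤ 1 := by
    rw [abs_mul, abs_of_nonneg hk]
    calc P.kap * |B| ≤ P.kap * P.dl := mul_le_mul_of_nonneg_left hBd.le hk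
      _ = P.c := by unfold Par.kap; field_simp
      _ ≤ 1 := h.c1
  have hte : |t * etaj P.p i - r * etaj P.p j| ≤ |A - B| / 1000 + dt := by
    have : t * etaj P.p i - r * etaj P.p j =
        t * (etaj P.p i - etaj P.p j) + (t - r) * etaj P.p j := by ring
    rw [this]
    refine (abs_add_le _ _).trans (add_le_add ?_ ?_)
    · rw [abs_mul, abs_of_pos ht]
      nlinarith [abs_nonneg (etaj P.p i - etaj P.p j)]
    · rw [abs_mul, abs_of_pos hη0]
      nlinarith [abs_nonneg (t - r)]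
  have hmul : ∀ u : ℝ, |u| < 1 → |(t * etaj P.p i - r * etaj P.p j) * u| ≤ |A - B| / 1000 + dt := by
    intro u hu
    rw [abs_mul]
    nlinarith [abs_nonneg (t * etaj P.p i - r * etaj P.p j), abs_nonneg u]
  have hAB : |A - B| ≤ 3 * (dx + dt) := by
    have f1 : (A - B) * (1 + P.kap * t) = (x1 - x1') - (P.kap * B) * (t - r) -
        (t * etaj P.p i - r * etaj P.p j) * s := by
      rw [e1, e1']; ring
    have f2 : |A - B| ≤ |(A - B) * (1 + P.kap * t)| := by
      rw [abs_mul, abs_of_nonneg (show 0 ≤ 1 + P.kap * t by positivity)]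
      have : 0 ≤ P.kap * t := by positivity
      nlinarith [abs_nonneg (A - B)]
    have f3 : |(A - B) * (1 + P.kap * t)| ≤ dx + dt + (|A - B| / 1000 + dt) := by
      rw [f1]
      refine (abs_sub _ _).trans (add_le_add ((abs_sub _ _).trans (add_le_add hx1 ?_)) (hmul s hs))
      rw [abs_mul]
      nlinarith [abs_nonneg (t - r), abs_nonneg (P.kap * B)]
    linarith
  refine ⟨hAB, by linarith, ?_⟩
  have hrr : |rr A - rr B| ≤ 3 / 10 * (dx + dt) := by
    have f1 : rr A - rr B = (A - B) * (A + B) := by unfold rr; ring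
    rw [f1, abs_mul]
    have f2 : |A + B| ≤ 1 / 10 := by
      calc |A + B| ≤ |A| + |B| := abs_add_le _ _
        _ ≤ 1 / 10 := by linarith
    calc |A - B| * |A + B| ≤ (3 * (dx + dt)) * (1 / 10) := by gcongr
      _ = 3 / 10 * (dx + dt) := by ring
  have f1 : (y - z) * (t + rr A) = (x2 - x2') - z * ((t - r) + (rr A - rr B)) -
      (t * etaj P.p i - r * etaj P.p j) * s' := by
    rw [e2, e2']; ring
  have f2 : |(y - z) * (t + rr A)| ≤ dx + P.Y * (dt + 3 / 10 * (dx + dt)) +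
      (|A - B| / 1000 + dt) := by
    rw [f1]
    refine (abs_sub _ _).trans (add_le_add ((abs_sub _ _).trans (add_le_add hx2 ?_)) (hmul s' hs'))
    rw [abs_mul]
    have f3 : |(t - r) + (rr A - rr B)| ≤ dt + 3 / 10 * (dx + dt) :=
      (abs_add_le _ _).trans (add_le_add hdt hrr)
    gcongr
  have hr0 := rr_nonneg A
  rw [abs_mul, abs_of_nonneg (show 0 ≤ t + rr A by positivity)] at f2
  nlinarith [mul_nonneg hY.le hdx0, mul_nonneg hY.le hdt0]

end Crest.Agent.R68.SL
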