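import Crest.Agent.R68.SLab3
import Crest.Agent.R68.SWin

/-!
# Row 68, Part S (helper312): `Near` for the scaled fields of `SWin`, at every centre
-/

set_option autoImplicit false
open MeasureTheory Set
open scoped ENNReal
open Crest.AnalysisR.VecCalc3 Crest.AnalysisR.PDE.Boltzmann

noncomputable section

namespace Crest.Agent.R68.SL

open Crest.Agent.R68.Fuel

/-- `Near` for the scaled fields of `SWin`, explicit constants -/
theorem near_sc {P : Par} (h : P.Ok) {t L ρ e U : ℝ} (ht : 0 < t) (ht1 : t ≤ 1 / 10)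
    (htk : t * P.kap ≤ 1) (htY : (P.Y + 2) * t ≤ 1 / 5) (hL : 0 ≤ L) (hρ : 0 ≤ ρ)
    (hK0 : 0 < P.K) (hK : 8 * (1 + P.Y) * (1 + ρ + L) ≤ min e 1 * P.K)
    (hη : 12 * (1 + P.Y) * etaj P.p P.j0 ≤ min e 1) (hU : P.Y + 4 ≤ U) (x : P2) :
    ∃ ub : P2, S.Near L U e ρ (S.scX t (t / P.K) L x (chP P)) (S.scU t (t / P.K) x (uP P)) ub
      sg := by
  have hY := h.Y0
  have hη0 := etaj_pos P.p P.j0
  have hR : (1 + P.Y) * P.dl + (P.c + P.Y + etaj P.p P.j0) * t ≤ 3 / 10 := by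
    have h1 := Ok.dl20 h
    have h2 := h.Ysm
    have h3 := h.c1
    have h4 := etaj_le_one P.p P.j0
    have h5 : (P.c + P.Y + etaj P.p P.j0) * t ≤ (P.Y + 2) * t := by
      refine mul_le_mul_of_nonneg_right ?_ ht.le
      linarith
    linarith
  have hσ1 : 8 * (1 + P.Y) * (1 + ρ + L) * (t / P.K) ≤ min e 1 * t := by
    rw [← mul_div_assoc, div_le_iff₀ hK0]
    have := mul_le_mul_of_nonneg_right hK ht.le
    linarith
  obtain ⟨ub, hub⟩ := near h ht ht1 htk (show 0 < t / P.K by positivity) hL hρ (min_le_right e 1)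
    hσ1 hη hU hR x
  refine ⟨ub, ⟨hub.s1, hub.ubd, ?_, ?_⟩⟩
  · intro ω c ξ hc0 hcL hξ hne
    rw [S.scX_of_mem ⟨hc0, hcL⟩] at hne
    exact (hub.close ω c ξ hc0 hcL hξ hne).trans (min_le_left _ _)
  · intro ω c c' ξ ξ' hc0 hcL hξ hne hc0' hcL' hξ' hne'
    rw [S.scX_of_mem ⟨hc0, hcL⟩] at hne
    rw [S.scX_of_mem ⟨hc0', hcL'⟩] at hne'
    refine (hub.lip ω c c' ξ ξ' hc0 hcL hξ hne hc0' hcL' hξ' hne').trans ?_
    exact mul_le_mul_of_nonneg_right (min_le_left _ _) (by positivity)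

theorem etaj_le_inv {P : Par} (h : P.Ok) : etaj P.p P.j0 ≤ 1 / P.j0 := by
  have h1 : (200 : ℝ) ≤ P.j0 := by exact_mod_cast h.j0
  refine (etaj_cube h P.j0).trans ?_
  have h2 : (1 / (2 * (P.j0 : ℝ) + 1)) ^ 3 ≤ 1 / (2 * (P.j0 : ℝ) + 1) := by
    refine (pow_le_of_le_one (by positivity) ?_ (by norm_num))
    rw [div_le_one (by positivity)]; linarith
  refine h2.trans (one_div_le_one_div_of_le (by linarith) (by linarith))

/-- existential form: thresholds for `K` and `j0` depending on `Y, L, ρ, e` only -/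
theorem near_ex {Y L ρ e : ℝ} (hY : 0 < Y) (hL : 0 ≤ L) (hρ : 0 ≤ ρ) (he : 0 < e) :
    ∃ K0 : ℝ, 0 < K0 ∧ ∃ J0 : ℕ, ∀ P : Par, P.Ok → P.Y = Y → K0 ≤ P.K → J0 ≤ P.j0 →
      ∀ t : ℝ, 0 < t → t ≤ 1 / 10 → t * P.kap ≤ 1 → (Y + 2) * t ≤ 1 / 5 → ∀ (U : ℝ), Y + 4 ≤ U →
        ∀ x : P2, ∃ ub : P2, S.Near L U e ρ (S.scX t (t / P.K) L x (chP P))
          (S.scU t (t / P.K) x (uP P)) ub sg := by
  have he1 : 0 < min e 1 := lt_min he one_pos
  obtain ⟨J0, hJ0⟩ := exists_nat_ge (12 * (1 + Y) / min e 1)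
  refine ⟨8 * (1 + Y) * (1 + ρ + L) / min e 1, by positivity, J0, ?_⟩
  intro P h hPY hK hj t ht ht1 htk htY U hU x
  subst hPY
  have hK0 : 0 < P.K := lt_of_lt_of_le (by positivity) hK
  refine near_sc h ht ht1 htk htY hL hρ hK0 ?_ ?_ hU x
  · rw [div_le_iff₀ he1] at hK
    linarith
  · have h1 := etaj_le_inv h
    have h2 : (J0 : ℝ) ≤ P.j0 := by exact_mod_cast hj
    have h3 : (0 : ℝ) < P.j0 := by
      have : (200 : ℝ) ≤ P.j0 := by exact_mod_cast h.j0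
      linarith
    have h4 : 12 * (1 + P.Y) ≤ min e 1 * P.j0 := by
      have := hJ0.trans h2
      rw [div_le_iff₀ he1] at this
      linarith
    calc 12 * (1 + P.Y) * etaj P.p P.j0 ≤ 12 * (1 + P.Y) * (1 / P.j0) := by gcongr
      _ ≤ min e 1 * P.j0 * (1 / P.j0) := by gcongr
      _ = min e 1 := by field_simp

end Crest.Agent.R68.SL
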