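import Crest.Agent.R68.SAnti
import Crest.Agent.R68.SDet2

/-!
R68 / S (smoothing lemma), (M1)-(M4): the two-step map `Phi` in the frozen variables of `SDefs`
(helper60).
-/

set_option autoImplicit false
open MeasureTheory Set Metric
open scoped ENNReal NNReal
open Crest.AnalysisR.VecCalc3 Crest.AnalysisR.PDE.Boltzmann

noncomputable section

namespace Crest.Agent.R68.S

theorem norm_bar_le (v : R3) : ‖bar v‖ ≤ ‖v‖ := by
  unfold bar
  rw [Prod.norm_def]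
  exact max_le (PiLp.norm_apply_le v 0) (PiLp.norm_apply_le v 1)

theorem bar_sub (u v : R3) : bar (u - v) = bar u - bar v := by
  unfold bar; simp

theorem abs_coord_le (v : R3) (i : Fin 3) : |v i| ≤ ‖v‖ := PiLp.norm_apply_le v i

/-- the coefficient `m` of `SDet` -/
def mm (z0 u1 : R3) (X : P2) : ℝ := dot2 X (bar z0 - bar u1) / (z0 2 - u1 2)

theorem gz_eq (z0 u1 : R3) (X : P2) (κ : ℝ) :
    gz z0 u1 (bar z0 + κ • X) = z0 2 - κ * mm z0 u1 X := by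
  unfold gz mm dot2 bar
  simp only [Prod.fst_sub, Prod.snd_sub, Prod.fst_add, Prod.snd_add, Prod.smul_fst,
    Prod.smul_snd, smul_eq_mul]
  ring

theorem bar_gpt_60 (v u : R3) (p : P2) : bar (gpt v u p) = p := by
  unfold gpt bar; simp

theorem gpt_two (v u : R3) (p : P2) : gpt v u p 2 = gz v u p := by
  unfold gpt; simp

theorem gpt_zero (v u : R3) (p : P2) : gpt v u p 0 = p.1 := by
  unfold gpt; simp

theorem gpt_one (v u : R3) (p : P2) : gpt v u p 1 = p.2 := by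
  unfold gpt; simp

/-- `z₂,₃` is the function `zF` of `SDet` -/
theorem gz_gpt_eq (z0 u1 u2 : R3) (X p2 : P2) (κ : ℝ) :
    gz (gpt z0 u1 (bar z0 + κ • X)) u2 p2 =
      zF (z0 2) (z0 2 - u2 2) (mm z0 u1 X) (p2 - bar z0) (bar z0 - bar u2) X κ := by
  have h := gz_eq z0 u1 X κ
  unfold zF
  rw [show gz (gpt z0 u1 (bar z0 + κ • X)) u2 p2 = gz z0 u1 (bar z0 + κ • X) -
    (((bar z0 + κ • X).1 - u2 0) * (p2.1 - (bar z0 + κ • X).1) +
      ((bar z0 + κ • X).2 - u2 1) * (p2.2 - (bar z0 + κ • X).2)) /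
      (gz z0 u1 (bar z0 + κ • X) - u2 2) by
    conv_lhs => unfold gz
    rw [gpt_two, gpt_zero, gpt_one], h]
  have h1 : z0 2 - κ * mm z0 u1 X - u2 2 = z0 2 - u2 2 - κ * mm z0 u1 X := by ring
  rw [h1]
  congr 2
  unfold dot2 bar
  simp only [Prod.fst_sub, Prod.snd_sub, Prod.fst_add, Prod.snd_add, Prod.smul_fst,
    Prod.smul_snd, smul_eq_mul]
  ring

theorem AA_eq_60 (z0 a1 a2 : R3) (X : P2) (κ : ℝ) :
    AA z0 a1 a2 (bar z0 + κ • X) = z0 2 - a2 2 - κ * mm z0 a1 X := by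
  unfold AA
  rw [gz_eq]; ring

/-- `JJ` is the `τ`-slope of `zF`, `κ = 1/τ` -/
theorem JJ_eq (z0 a1 a2 : R3) (X p2 : P2) {τ : ℝ} (hτ : τ ≠ 0) (hb : z0 2 - a1 2 ≠ 0)
    (hA : AA z0 a1 a2 (bar z0 + τ⁻¹ • X) ≠ 0) :
    τ ^ 2 * JJ z0 a1 a2 (τ, bar z0 + τ⁻¹ • X, p2) =
      -zD (z0 2 - a2 2) (mm z0 a1 X) (p2 - bar z0) (bar z0 - bar a2) X τ⁻¹ := by
  unfold JJ zD
  simp only
  rw [← AA_eq_60]
  generalize hAA : AA z0 a1 a2 (bar z0 + τ⁻¹ • X) = A at *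
  unfold mm
  have e1 : bar z0 + τ⁻¹ • X - bar z0 = τ⁻¹ • X := by abel
  rw [e1]
  generalize hb' : z0 2 - a1 2 = b at *
  unfold dot2
  simp only [Prod.fst_sub, Prod.snd_sub, Prod.fst_add, Prod.snd_add, Prod.smul_fst,
    Prod.smul_snd, smul_eq_mul]
  field_simp
  ring

theorem mm_sub_le {z0 u u' : R3} {X : P2} {β Q B : ℝ} (hβ : 0 < β) (hb : β ≤ |z0 2 - u 2|)
    (hb' : β ≤ |z0 2 - u' 2|) (hQ : ‖bar z0 - bar u'‖ ≤ Q) (hX : ‖X‖ ≤ B) :
    |mm z0 u X - mm z0 u' X| ≤ (2 * B / β + 2 * B * Q / β ^ 2) * ‖u - u'‖ := by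
  have hB0 : 0 ≤ B := (norm_nonneg _).trans hX
  have hQ0 : 0 ≤ Q := (norm_nonneg _).trans hQ
  have h1 : z0 2 - u 2 ≠ 0 := by
    intro h0; rw [h0, abs_zero] at hb; linarith
  have h2 : z0 2 - u' 2 ≠ 0 := by
    intro h0; rw [h0, abs_zero] at hb'; linarith
  have key : mm z0 u X - mm z0 u' X = -dot2 X (bar (u - u')) / (z0 2 - u 2) +
      dot2 X (bar z0 - bar u') * (u - u') 2 / ((z0 2 - u 2) * (z0 2 - u' 2)) := by
    unfold mm
    have e1 : (u - u') 2 = (z0 2 - u' 2) - (z0 2 - u 2) := by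
      simp
    rw [e1]
    generalize z0 2 - u 2 = b at *
    generalize z0 2 - u' 2 = b' at *
    unfold dot2 bar
    simp only [Prod.fst_sub, Prod.snd_sub, PiLp.sub_apply]
    field_simp
    ring
  rw [key]
  have t1 : |-dot2 X (bar (u - u')) / (z0 2 - u 2)| ≤ 2 * B * ‖u - u'‖ / β := by
    rw [abs_div, abs_neg]
    have := abs_dot2_le hX (norm_bar_le (u - u'))
    gcongr
  have t2 : |dot2 X (bar z0 - bar u') * (u - u') 2 / ((z0 2 - u 2) * (z0 2 - u' 2))| ≤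
      2 * B * Q * ‖u - u'‖ / (β * β) := by
    rw [abs_div, abs_mul, abs_mul]
    have h3 := abs_dot2_le hX hQ
    have h4 := abs_coord_le (u - u') 2
    gcongr
  calc _ ≤ _ := abs_add_le _ _
    _ ≤ 2 * B * ‖u - u'‖ / β + 2 * B * Q * ‖u - u'‖ / (β * β) := add_le_add t1 t2
    _ = (2 * B / β + 2 * B * Q / β ^ 2) * ‖u - u'‖ := by ring

theorem mm_le {z0 u : R3} {X : P2} {β Q B : ℝ} (hβ : 0 < β) (hb : β ≤ |z0 2 - u 2|)
    (hQ : ‖bar z0 - bar u‖ ≤ Q) (hX : ‖X‖ ≤ B) : |mm z0 u X| ≤ 2 * B * Q / β := by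
  have hB0 : 0 ≤ B := (norm_nonneg _).trans hX
  have hQ0 : 0 ≤ Q := (norm_nonneg _).trans hQ
  unfold mm
  rw [abs_div]
  have := abs_dot2_le hX hQ
  gcongr

theorem exists_small {c t : ℝ} (hc : 0 ≤ c) (ht : 0 < t) :
    ∃ e : ℝ, 0 < e ∧ ∀ e', 0 ≤ e' → e' ≤ e → c * e' ≤ t := by
  refine ⟨t / (1 + c), by positivity, fun e' h0 h => ?_⟩
  calc c * e' ≤ c * (t / (1 + c)) := by gcongr
    _ = t * (c / (1 + c)) := by ring
    _ ≤ t * 1 := by
        gcongr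
        rw [div_le_one (by positivity)]
        linarith
    _ = t := mul_one t

theorem norm_bar_sub_le {z0 u a : R3} {R0 U e : ℝ} (hz : ‖z0‖ ≤ R0) (ha : ‖a‖ ≤ U)
    (hu : ‖u - a‖ ≤ e) (he : e ≤ 1) : ‖bar z0 - bar u‖ ≤ R0 + U + 1 := by
  have h1 : bar z0 - bar u = bar z0 - bar a - bar (u - a) := by
    rw [bar_sub]; abel
  rw [h1]
  calc ‖bar z0 - bar a - bar (u - a)‖ ≤ ‖bar z0‖ + ‖bar a‖ + ‖bar (u - a)‖ :=
        (norm_sub_le _ _).trans (by gcongr; exact norm_sub_le _ _)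
    _ ≤ R0 + U + 1 := by
        gcongr
        · exact (norm_bar_le _).trans hz
        · exact (norm_bar_le _).trans ha
        · exact (norm_bar_le _).trans (hu.trans he)

theorem abs_height_ge {z0 u a : R3} {b0 e : ℝ} (hb : b0 ≤ |z0 2 - a 2|)
    (hu : ‖u - a‖ ≤ e) (he : e ≤ b0 / 2) : b0 / 2 ≤ |z0 2 - u 2| := by
  have h1 : |z0 2 - a 2| ≤ |z0 2 - u 2| + |(u - a) 2| := by
    have : z0 2 - a 2 = (z0 2 - u 2) + (u - a) 2 := by simp
    rw [this]; exact abs_add_le _ _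
  have h2 := abs_coord_le (u - a) 2
  linarith

theorem abs_height_le {z0 u a : R3} {R0 U e : ℝ} (hz : ‖z0‖ ≤ R0) (ha : ‖a‖ ≤ U)
    (hu : ‖u - a‖ ≤ e) (he : e ≤ 1) : |z0 2 - u 2| ≤ R0 + U + 1 := by
  have h1 : z0 2 - u 2 = z0 2 - a 2 - (u - a) 2 := by simp
  rw [h1]
  calc |z0 2 - a 2 - (u - a) 2| ≤ |z0 2| + |a 2| + |(u - a) 2| :=
        (abs_sub _ _).trans (by gcongr; exact abs_sub _ _)
    _ ≤ R0 + U + 1 := by
        gcongr
        · exact (abs_coord_le _ _).trans hz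
        · exact (abs_coord_le _ _).trans ha
        · exact (abs_coord_le _ _).trans (hu.trans he)

set_option maxHeartbeats 2000000 in
/-- (M1): along `τ ↦ (τ, X/τ, p₂)` the third component is antilipschitz on short cells of `Good`,
for slowly varying fields. -/
theorem antiLoc {U R0 R L d d' b0 : ℝ} (hU : 0 < U) (hR0 : 0 < R0) (hR : 0 < R) (hL : 0 < L)
    (hd : 0 < d) (hd' : 0 < d') (hb0 : 0 < b0) :
    ∃ l e : ℝ, 0 < l ∧ 0 < e ∧ ∀ (z0 a1 a2 : R3), ‖z0‖ ≤ R0 → ‖a1‖ ≤ U → ‖a2‖ ≤ U →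
      b0 ≤ |z0 2 - a1 2| → ∀ (X p2 : P2) (τ τ' : ℝ),
      (τ, bar z0 + τ⁻¹ • X, p2) ∈ Good d d' L R z0 a1 a2 →
      (τ', bar z0 + τ'⁻¹ • X, p2) ∈ Good d d' L R z0 a1 a2 → |τ - τ'| ≤ l →
      ∀ (u1 u1' u2 : R3), ‖u1 - a1‖ ≤ e → ‖u1' - a1‖ ≤ e → ‖u2 - a2‖ ≤ e →
      ‖u1 - u1'‖ ≤ e * |τ - τ'| →
      d' / 4 * |τ - τ'| ≤ |gz (gpt z0 u1 (bar z0 + τ⁻¹ • X)) u2 p2 -
        gz (gpt z0 u1' (bar z0 + τ'⁻¹ • X)) u2 p2| := by
  set Q : ℝ := R0 + U + 1 with hQ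
  have hQ0 : 0 < Q := by positivity
  set Cm : ℝ := 2 * (L * R) / (b0 / 2) + 2 * (L * R) * Q / (b0 / 2) ^ 2 with hCm
  have hCm0 : 0 < Cm := by positivity
  set Rb : ℝ := 1 + L + d⁻¹ + L * R + 2 * R + Q + 2 * (L * R) * Q / (b0 / 2) with hRb
  have hRb1 : 1 ≤ Rb := by
    have : 0 < L + d⁻¹ + L * R + 2 * R + Q + 2 * (L * R) * Q / (b0 / 2) := by positivity
    linarith
  have hRbL : L ≤ Rb := by
    have : 0 < 1 + d⁻¹ + L * R + 2 * R + Q + 2 * (L * R) * Q / (b0 / 2) := by positivity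
    linarith
  have hRbd : d⁻¹ ≤ Rb := by
    have : 0 < 1 + L + L * R + 2 * R + Q + 2 * (L * R) * Q / (b0 / 2) := by positivity
    linarith
  have hRbLR : L * R ≤ Rb := by
    have : 0 < 1 + L + d⁻¹ + 2 * R + Q + 2 * (L * R) * Q / (b0 / 2) := by positivity
    linarith
  have hRb2R : 2 * R ≤ Rb := by
    have : 0 < 1 + L + d⁻¹ + L * R + Q + 2 * (L * R) * Q / (b0 / 2) := by positivity
    linarith
  have hRbQ : Q ≤ Rb := by
    have : 0 < 1 + L + d⁻¹ + L * R + 2 * R + 2 * (L * R) * Q / (b0 / 2) := by positivity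
    linarith
  have hRbm : 2 * (L * R) * Q / (b0 / 2) ≤ Rb := by
    have : 0 < 1 + L + d⁻¹ + L * R + 2 * R + Q := by positivity
    linarith
  have hRb0 : 0 < Rb := by linarith
  set δ : ℝ := min (d / 2) 1 with hδdef
  have hδ : 0 < δ := by positivity
  have hδ1 : δ ≤ 1 := min_le_right _ _
  have hδd : δ ≤ d / 2 := min_le_left _ _
  clear_value δ Rb Cm
  obtain ⟨e1, he10, he1⟩ := exists_small (c := 1 + d⁻¹ * Cm) (t := d / 2) (by positivity)
    (by positivity)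
  obtain ⟨e2, he20, he2⟩ := exists_small (c := 225 * Rb ^ 8 / δ ^ 4 * (1 + Cm))
    (t := d ^ 2 * d' / 2) (by positivity) (by positivity)
  obtain ⟨e3, he30, he3⟩ := exists_small (c := 136 * Rb ^ 5 * Cm)
    (t := δ ^ 2 * (d' / 2)) (by positivity) (by positivity)
  obtain ⟨l1, hl10, hl1⟩ := exists_small (c := 4 * Rb) (t := 1) (by positivity)
    (by positivity)
  obtain ⟨l2, hl20, hl2⟩ := exists_small (c := 2 * Rb * Cm) (t := δ) (by positivity)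
    (by positivity)
  obtain ⟨l3, hl30, hl3⟩ := exists_small (c := 416 * Rb ^ 10) (t := δ ^ 3 * (d' / 2))
    (by positivity) (by positivity)
  set e : ℝ := min 1 (min (b0 / 2) (min e1 (min e2 e3))) with he
  have he0 : 0 < e := by positivity
  have hee1 : e ≤ 1 := min_le_left _ _
  have heb : e ≤ b0 / 2 := (min_le_right _ _).trans (min_le_left _ _)
  have hE1 : e ≤ e1 := (min_le_right _ _).trans ((min_le_right _ _).trans (min_le_left _ _))
  have hE2 : e ≤ e2 := (min_le_right _ _).trans ((min_le_right _ _).trans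
    ((min_le_right _ _).trans (min_le_left _ _)))
  have hE3 : e ≤ e3 := (min_le_right _ _).trans ((min_le_right _ _).trans
    ((min_le_right _ _).trans (min_le_right _ _)))
  have hl0 : 0 < min l1 (min l2 l3) := by positivity
  have hll1 := hl1 _ hl0.le (min_le_left _ _)
  have hll2 := hl2 _ hl0.le ((min_le_right _ _).trans (min_le_left _ _))
  have hll3 := hl3 _ hl0.le ((min_le_right _ _).trans (min_le_right _ _))
  generalize min l1 (min l2 l3) = ll at hl0 hll1 hll2 hll3 ⊢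
  clear_value e
  refine ⟨ll, e, hl0, he0, ?_⟩
  intro z0 a1 a2 hz0 ha1 ha2 hb X p2 τ τ' hG hG' hττ u1 u1' u2 hu1 hu1' hu2 huu
  obtain ⟨hdτ, hτL, hdX, hXR, hdA, hpR, hJ⟩ := hG
  obtain ⟨hdτ', hτL', hdX', hXR', hdA', hpR', hJ'⟩ := hG'
  simp only [add_sub_cancel_left] at hdτ hτL hdX hXR hdA hpR hJ hdτ' hτL' hdX' hXR' hdA' hpR' hJ'
  have hτ0 : 0 < τ := lt_of_lt_of_le hd hdτ
  have hτ0' : 0 < τ' := lt_of_lt_of_le hd hdτ'
  have hκ0 : 0 < τ⁻¹ := by positivity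
  have hκ0' : 0 < τ'⁻¹ := by positivity
  have hκd : τ⁻¹ ≤ d⁻¹ := by gcongr
  have hκd' : τ'⁻¹ ≤ d⁻¹ := by gcongr
  have hX : ‖X‖ ≤ L * R := by
    have : X = τ • (τ⁻¹ • X) := by rw [smul_smul, mul_inv_cancel₀ hτ0.ne', one_smul]
    rw [this, norm_smul, Real.norm_eq_abs, abs_of_pos hτ0]
    gcongr
  -- heights
  have hbu1 := abs_height_ge hb hu1 heb
  have hbu1' := abs_height_ge hb hu1' heb
  have hba : b0 / 2 ≤ |z0 2 - a1 2| := by linarith
  have hqa : ‖bar z0 - bar a1‖ ≤ Q := norm_bar_sub_le hz0 ha1 (u := a1) (by simp) zero_le_one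
  have hqu1 : ‖bar z0 - bar u1‖ ≤ Q := norm_bar_sub_le hz0 ha1 hu1 hee1
  have hqu1' : ‖bar z0 - bar u1'‖ ≤ Q := norm_bar_sub_le hz0 ha1 hu1' hee1
  have hp0a : ‖bar z0 - bar a2‖ ≤ Q := norm_bar_sub_le hz0 ha2 (u := a2) (by simp) zero_le_one
  have hp0u : ‖bar z0 - bar u2‖ ≤ Q := norm_bar_sub_le hz0 ha2 hu2 hee1
  have hb2 : 0 < b0 / 2 := by positivity
  have hm := mm_le hb2 hbu1 hqu1 hX
  have hma := mm_le hb2 hba hqa hX
  have hmd0 := mm_sub_le hb2 hbu1 hba hqa hX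
  have hmd0' := mm_sub_le hb2 hbu1' hba hqa hX
  have hmm0' := mm_sub_le hb2 hbu1' hbu1 hqu1 hX
  rw [← hCm] at hmd0 hmd0' hmm0'
  rw [gz_gpt_eq, gz_gpt_eq]
  rw [AA_eq_60] at hdA hdA'
  have hz1 : z0 2 - a1 2 ≠ 0 := by
    intro h0; rw [h0, abs_zero] at hba; linarith
  have hAA0 : AA z0 a1 a2 (bar z0 + τ⁻¹ • X) ≠ 0 := by
    rw [AA_eq_60]; intro h0
    rw [h0, abs_zero] at hdA; linarith
  have hJeq := JJ_eq z0 a1 a2 X p2 hτ0.ne' hz1 hAA0
  generalize mm z0 u1 X = m at *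
  generalize mm z0 u1' X = m' at *
  generalize mm z0 a1 X = ma at *
  have hmle : |m| ≤ Rb := hm.trans hRbm
  have hmale : |ma| ≤ Rb := hma.trans hRbm
  have hmd : |m - ma| ≤ Cm * e := hmd0.trans (by gcongr)
  have hmd' : |m' - ma| ≤ Cm * e := hmd0'.trans (by gcongr)
  have hmm' : |m' - m| ≤ Cm * e * |τ - τ'| := by
    refine hmm0'.trans ?_
    rw [norm_sub_rev]
    calc Cm * ‖u1 - u1'‖ ≤ Cm * (e * |τ - τ'|) := by gcongr
      _ = Cm * e * |τ - τ'| := by ring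
  have ha2u : |(z0 2 - u2 2) - (z0 2 - a2 2)| ≤ e := by
    have : (z0 2 - u2 2) - (z0 2 - a2 2) = -(u2 - a2) 2 := by simp
    rw [this, abs_neg]
    exact (abs_coord_le _ _).trans hu2
  have hau : |z0 2 - u2 2| ≤ Rb := (abs_height_le hz0 ha2 hu2 hee1).trans hRbQ
  have haa : |z0 2 - a2 2| ≤ Rb :=
    (abs_height_le hz0 ha2 (u := a2) (by simp) zero_le_one).trans hRbQ
  -- denominators
  have hden : ∀ (σ : ℝ) (n : ℝ), 0 < σ → σ ≤ d⁻¹ → |n - ma| ≤ Cm * e →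
      d ≤ |z0 2 - a2 2 - σ * ma| → d / 2 ≤ |z0 2 - u2 2 - σ * n| := by
    intro σ n hσ hσd hn hA
    have h1 : z0 2 - a2 2 - σ * ma = (z0 2 - u2 2 - σ * n) -
        ((z0 2 - u2 2) - (z0 2 - a2 2)) + σ * (n - ma) := by ring
    have h2 : |z0 2 - a2 2 - σ * ma| ≤ |z0 2 - u2 2 - σ * n| +
        |(z0 2 - u2 2) - (z0 2 - a2 2)| + |σ * (n - ma)| := by
      conv_lhs => rw [h1]
      exact (abs_add_le _ _).trans (by gcongr; exact abs_sub _ _)
    have h3 : |σ * (n - ma)| ≤ d⁻¹ * (Cm * e) := by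
      rw [abs_mul, abs_of_pos hσ]; gcongr
    have h4 := he1 e he0.le hE1
    have h5 : (1 + d⁻¹ * Cm) * e = e + d⁻¹ * (Cm * e) := by ring
    linarith
  have hA1 : d / 2 ≤ |z0 2 - u2 2 - τ⁻¹ * m| := hden _ _ hκ0 hκd hmd hdA
  have hA2 : d / 2 ≤ |z0 2 - u2 2 - τ'⁻¹ * m'| := hden _ _ hκ0' hκd' hmd' hdA'
  -- slope
  have hrle : ‖p2 - bar z0‖ ≤ Rb := by
    have : p2 - bar z0 = (p2 - (bar z0 + τ⁻¹ • X)) + τ⁻¹ • X := by abel
    rw [this]
    calc _ ≤ _ := norm_add_le _ _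
      _ ≤ R + R := by gcongr
      _ = 2 * R := by ring
      _ ≤ Rb := hRb2R
  have hzDa : d' * τ ^ 2 ≤ |zD (z0 2 - a2 2) ma (p2 - bar z0) (bar z0 - bar a2) X τ⁻¹| := by
    have h1 : |zD (z0 2 - a2 2) ma (p2 - bar z0) (bar z0 - bar a2) X τ⁻¹| =
        τ ^ 2 * |JJ z0 a1 a2 (τ, bar z0 + τ⁻¹ • X, p2)| := by
      rw [← abs_neg, ← hJeq, abs_mul, abs_of_pos (by positivity)]
    rw [h1, mul_comm]
    gcongr
  have hzDd : |zD (z0 2 - u2 2) m (p2 - bar z0) (bar z0 - bar u2) X τ⁻¹ -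
      zD (z0 2 - a2 2) ma (p2 - bar z0) (bar z0 - bar a2) X τ⁻¹| ≤ d ^ 2 * d' / 2 := by
    have hCe : 0 ≤ Cm * e := by positivity
    have hEE0 : (1 + Cm) * e = e + Cm * e := by ring
    have hEE : e ≤ (1 + Cm) * e := by rw [hEE0]; linarith
    have hEE2 : Cm * e ≤ (1 + Cm) * e := by rw [hEE0]; linarith
    have h1 := abs_zD_sub_le (a := z0 2 - u2 2) (a' := z0 2 - a2 2) (m := m) (m' := ma)
      (κ := τ⁻¹) (R := Rb) (δ := δ) (E := (1 + Cm) * e) (r := p2 - bar z0)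
      (p0 := bar z0 - bar u2) (p0' := bar z0 - bar a2) (X := X) hRb1 hδ hδ1 hκ0
      (hκd.trans hRbd) (hX.trans hRbLR) hrle (hp0u.trans hRbQ) (hp0a.trans hRbQ) hau haa
      hmle hmale (hδd.trans hA1) (by linarith) (ha2u.trans hEE) (hmd.trans hEE2)
      (by
        have : bar z0 - bar u2 - (bar z0 - bar a2) = -bar (u2 - a2) := by rw [bar_sub]; abel
        rw [this, norm_neg]
        exact (norm_bar_le _).trans (hu2.trans hEE))
    refine h1.trans ?_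
    have h2 := he2 e he0.le hE2
    linarith [show 225 * Rb ^ 8 / δ ^ 4 * ((1 + Cm) * e) =
      225 * Rb ^ 8 / δ ^ 4 * (1 + Cm) * e by ring]
  have hzDu : d' / 2 * τ ^ 2 ≤ |zD (z0 2 - u2 2) m (p2 - bar z0) (bar z0 - bar u2) X τ⁻¹| := by
    have h1 : |zD (z0 2 - a2 2) ma (p2 - bar z0) (bar z0 - bar a2) X τ⁻¹| ≤
        |zD (z0 2 - u2 2) m (p2 - bar z0) (bar z0 - bar u2) X τ⁻¹| +
        |zD (z0 2 - u2 2) m (p2 - bar z0) (bar z0 - bar u2) X τ⁻¹ -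
      zD (z0 2 - a2 2) ma (p2 - bar z0) (bar z0 - bar a2) X τ⁻¹| := by
      have h3 : zD (z0 2 - a2 2) ma (p2 - bar z0) (bar z0 - bar a2) X τ⁻¹ =
          zD (z0 2 - u2 2) m (p2 - bar z0) (bar z0 - bar u2) X τ⁻¹ -
          (zD (z0 2 - u2 2) m (p2 - bar z0) (bar z0 - bar u2) X τ⁻¹ -
      zD (z0 2 - a2 2) ma (p2 - bar z0) (bar z0 - bar a2) X τ⁻¹) := by ring
      conv_lhs => rw [h3]
      exact abs_sub _ _
    have h2 : d ^ 2 * d' / 2 ≤ d' / 2 * τ ^ 2 := by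
      calc d ^ 2 * d' / 2 = d' / 2 * d ^ 2 := by ring
        _ ≤ d' / 2 * τ ^ 2 := by gcongr
    have h9 : d' * τ ^ 2 = d' / 2 * τ ^ 2 + d' / 2 * τ ^ 2 := by ring
    linarith
  -- conclusion
  have hτRb : Rb⁻¹ ≤ τ := by
    rw [inv_le_comm₀ hRb0 hτ0]; exact hκd.trans hRbd
  have hτRb' : Rb⁻¹ ≤ τ' := by
    rw [inv_le_comm₀ hRb0 hτ0']; exact hκd'.trans hRbd
  have hfin := zF_anti (z3 := z0 2) (a := z0 2 - u2 2) (m := m) (m' := m')
    (r := p2 - bar z0) (p0 := bar z0 - bar u2) (X := X) (τ := τ) (τ' := τ') (R := Rb)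
    (d2 := δ) (J0 := d' / 2) (e1 := Cm * e) (ℓ := ll) hRb1 hδ hδ1
    (by positivity) hτRb hτRb' (hτL.trans hRbL) (hτL'.trans hRbL) (hX.trans hRbLR) hrle
    (hp0u.trans hRbQ) hau hmle (hδd.trans hA1) (hδd.trans hA2) hmm' hzDu hττ hll1
    (by
      have : e ≤ 1 := hee1
      calc 2 * Rb * (Cm * e) * ll ≤ 2 * Rb * (Cm * 1) * ll := by
            gcongr
        _ = 2 * Rb * Cm * ll := by ring
        _ ≤ δ := hll2)
    hll3
    (by
      have := he3 e he0.le hE3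
      linarith [show 136 * Rb ^ 5 * (Cm * e) = 136 * Rb ^ 5 * Cm * e by ring])
  linarith [show d' / 2 / 2 * |τ - τ'| = d' / 4 * |τ - τ'| by ring]

theorem gz_eq1 (z0 u1 : R3) (p1 : P2) : gz z0 u1 p1 = z0 2 - mm z0 u1 (p1 - bar z0) := by
  have h := gz_eq z0 u1 (p1 - bar z0) 1
  rw [one_smul, add_sub_cancel, one_mul] at h
  exact h

/-- (M2): bounds for the two-step map near constant fields -/
theorem gz_bounds {U R0 R d b0 : ℝ} (hU : 0 < U) (hR0 : 0 < R0) (hR : 0 < R)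
    (hd : 0 < d) (hb0 : 0 < b0) :
    ∃ e C : ℝ, 0 < e ∧ 0 < C ∧ ∀ (z0 a1 a2 : R3), ‖z0‖ ≤ R0 → ‖a1‖ ≤ U → ‖a2‖ ≤ U →
      b0 ≤ |z0 2 - a1 2| → ∀ (u1 u2 : R3) (p1 : P2), ‖u1 - a1‖ ≤ e → ‖u2 - a2‖ ≤ e →
      ‖p1 - bar z0‖ ≤ R →
      |gz z0 u1 p1| ≤ C ∧ b0 / 2 ≤ |z0 2 - u1 2| ∧
      (d ≤ |AA z0 a1 a2 p1| → d / 2 ≤ |gz z0 u1 p1 - u2 2| ∧
        ∀ p2 : P2, ‖p2 - p1‖ ≤ R → |gz (gpt z0 u1 p1) u2 p2| ≤ C) := by
  set Q : ℝ := R0 + U + 1 with hQ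
  have hQ0 : 0 < Q := by positivity
  set Cm : ℝ := 2 * R / (b0 / 2) + 2 * R * Q / (b0 / 2) ^ 2 with hCm
  have hCm0 : 0 < Cm := by positivity
  set C1 : ℝ := R0 + 2 * R * Q / (b0 / 2) with hC1
  have hC10 : 0 < C1 := by positivity
  obtain ⟨e1, he10, he1⟩ := exists_small (c := 1 + Cm) (t := d / 2) (by positivity)
    (by positivity)
  refine ⟨min 1 (min (b0 / 2) e1), C1 + 2 * (R + Q) * R / (d / 2), by positivity,
    by positivity, ?_⟩
  intro z0 a1 a2 hz0 ha1 ha2 hb u1 u2 p1 hu1 hu2 hp1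
  have he0 : 0 < min 1 (min (b0 / 2) e1) := by positivity
  have hee1 : min 1 (min (b0 / 2) e1) ≤ 1 := min_le_left _ _
  have heb : min 1 (min (b0 / 2) e1) ≤ b0 / 2 := (min_le_right _ _).trans (min_le_left _ _)
  have hE1 := he1 _ he0.le ((min_le_right _ _).trans (min_le_right _ _))
  generalize min 1 (min (b0 / 2) e1) = e at he0 hee1 heb hE1 hu1 hu2
  have hb2 : 0 < b0 / 2 := by positivity
  have hbu1 := abs_height_ge hb hu1 heb
  have hba : b0 / 2 ≤ |z0 2 - a1 2| := by linarith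
  have hqa : ‖bar z0 - bar a1‖ ≤ Q := norm_bar_sub_le hz0 ha1 (u := a1) (by simp) zero_le_one
  have hqu1 : ‖bar z0 - bar u1‖ ≤ Q := norm_bar_sub_le hz0 ha1 hu1 hee1
  have hp0u : ‖bar z0 - bar u2‖ ≤ Q := norm_bar_sub_le hz0 ha2 hu2 hee1
  have hgz : |gz z0 u1 p1| ≤ C1 := by
    rw [gz_eq1]
    calc |z0 2 - mm z0 u1 (p1 - bar z0)| ≤ |z0 2| + |mm z0 u1 (p1 - bar z0)| := abs_sub _ _
      _ ≤ R0 + 2 * R * Q / (b0 / 2) := by
          gcongr
          · exact (abs_coord_le _ _).trans hz0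
          · exact mm_le hb2 hbu1 hqu1 hp1
  have hrest : 0 < 2 * (R + Q) * R / (d / 2) := by positivity
  refine ⟨hgz.trans (by linarith), hbu1, fun hA => ?_⟩
  have hA2 : d / 2 ≤ |gz z0 u1 p1 - u2 2| := by
    unfold AA at hA
    rw [gz_eq1] at hA ⊢
    have hmd := mm_sub_le (u := u1) (u' := a1) hb2 hbu1 hba hqa hp1
    rw [← hCm] at hmd
    have h1 : z0 2 - mm z0 a1 (p1 - bar z0) - a2 2 =
        (z0 2 - mm z0 u1 (p1 - bar z0) - u2 2) +
          (mm z0 u1 (p1 - bar z0) - mm z0 a1 (p1 - bar z0)) + (u2 - a2) 2 := by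
      simp only [PiLp.sub_apply]; ring
    rw [h1] at hA
    have h2 : |(u2 - a2) 2| ≤ e := (abs_coord_le _ _).trans hu2
    have h3 : |mm z0 u1 (p1 - bar z0) - mm z0 a1 (p1 - bar z0)| ≤ Cm * e :=
      hmd.trans (by gcongr)
    have h4 := abs_add_le ((z0 2 - mm z0 u1 (p1 - bar z0) - u2 2) +
          (mm z0 u1 (p1 - bar z0) - mm z0 a1 (p1 - bar z0))) ((u2 - a2) 2)
    have h5 := abs_add_le (z0 2 - mm z0 u1 (p1 - bar z0) - u2 2)
          (mm z0 u1 (p1 - bar z0) - mm z0 a1 (p1 - bar z0))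
    have h6 : (1 + Cm) * e = e + Cm * e := by ring
    linarith
  refine ⟨hA2, fun p2 hp2 => ?_⟩
  rw [gz_eq1, gpt_two, bar_gpt_60]
  have h7 : |mm (gpt z0 u1 p1) u2 (p2 - p1)| ≤ 2 * R * (R + Q) / (d / 2) := by
    apply mm_le (by positivity) _ _ hp2
    · rw [gpt_two]; exact hA2
    · rw [bar_gpt_60]
      have : p1 - bar u2 = (p1 - bar z0) + (bar z0 - bar u2) := by abel
      rw [this]
      exact (norm_add_le _ _).trans (by gcongr)
  calc |gz z0 u1 p1 - mm (gpt z0 u1 p1) u2 (p2 - p1)| ≤ |gz z0 u1 p1| +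
        |mm (gpt z0 u1 p1) u2 (p2 - p1)| := abs_sub _ _
    _ ≤ C1 + 2 * R * (R + Q) / (d / 2) := by gcongr
    _ = C1 + 2 * (R + Q) * R / (d / 2) := by ring

/-! ### (M3) measurability -/

section meas

variable {α : Type*} [MeasurableSpace α]

@[fun_prop]
theorem meas_bar {f : α → R3} (hf : Measurable f) : Measurable fun x => bar (f x) := by
  unfold bar; fun_prop

@[fun_prop]
theorem meas_dot2 {a b : α → P2} (ha : Measurable a) (hb : Measurable b) :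
    Measurable fun x => dot2 (a x) (b x) := by
  unfold dot2; fun_prop

@[fun_prop]
theorem meas_gz {f g : α → R3} {h : α → P2} (hf : Measurable f) (hg : Measurable g)
    (hh : Measurable h) : Measurable fun x => gz (f x) (g x) (h x) := by
  unfold gz; fun_prop

@[fun_prop]
theorem meas_gpt {f g : α → R3} {h : α → P2} (hf : Measurable f) (hg : Measurable g)
    (hh : Measurable h) : Measurable fun x => gpt (f x) (g x) (h x) := by
  unfold gpt; fun_prop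

@[fun_prop]
theorem meas_AA {f g k : α → R3} {h : α → P2} (hf : Measurable f) (hg : Measurable g)
    (hk : Measurable k) (hh : Measurable h) : Measurable fun x => AA (f x) (g x) (k x) (h x) := by
  unfold AA; fun_prop

@[fun_prop]
theorem meas_JJ {f g k : α → R3} {h : α → ℝ × P2 × P2} (hf : Measurable f) (hg : Measurable g)
    (hk : Measurable k) (hh : Measurable h) : Measurable fun x => JJ (f x) (g x) (k x) (h x) := by
  unfold JJ; fun_prop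

end meas

theorem measurableSet_Good (d d' L R : ℝ) :
    MeasurableSet {q : (R3 × R3 × R3) × (ℝ × P2 × P2) |
      q.2 ∈ Good d d' L R q.1.1 q.1.2.1 q.1.2.2} := by
  have e : {q : (R3 × R3 × R3) × (ℝ × P2 × P2) | q.2 ∈ Good d d' L R q.1.1 q.1.2.1 q.1.2.2} =
    {q | d ≤ q.2.1} ∩ ({q | q.2.1 ≤ L} ∩ ({q | d ≤ ‖q.2.2.1 - bar q.1.1‖} ∩
      ({q | ‖q.2.2.1 - bar q.1.1‖ ≤ R} ∩ ({q | d ≤ |AA q.1.1 q.1.2.1 q.1.2.2 q.2.2.1|} ∩
      ({q | ‖q.2.2.2 - q.2.2.1‖ ≤ R} ∩ {q | d' ≤ |JJ q.1.1 q.1.2.1 q.1.2.2 q.2|}))))) := rfl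
  rw [e]
  refine MeasurableSet.inter (measurableSet_le (by fun_prop) (by fun_prop)) ?_
  refine MeasurableSet.inter (measurableSet_le (by fun_prop) (by fun_prop)) ?_
  refine MeasurableSet.inter (measurableSet_le (by fun_prop) (by fun_prop)) ?_
  refine MeasurableSet.inter (measurableSet_le (by fun_prop) (by fun_prop)) ?_
  refine MeasurableSet.inter (measurableSet_le (by fun_prop) (by fun_prop)) ?_
  refine MeasurableSet.inter (measurableSet_le (by fun_prop) (by fun_prop)) ?_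
  exact measurableSet_le (by fun_prop) (by fun_prop)

theorem measurableSet_Good' (d d' L R : ℝ) (z0 a1 a2 : R3) :
    MeasurableSet (Good d d' L R z0 a1 a2) := by
  have h : Measurable fun θ : ℝ × P2 × P2 => ((z0, a1, a2), θ) := by fun_prop
  exact h (measurableSet_Good d d' L R)

/-- Lebesgue integral of `R3` with the horizontal variables outside -/
theorem lintegral_R3_bar {F : R3 → ℝ≥0∞} (hF : Measurable F) :
    ∫⁻ x, F x = ∫⁻ p : P2, ∫⁻ c : ℝ, F (vec3 p.1 p.2 c) := by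
  rw [lintegral_R3' hF, lintegral_lintegral_swap]
  have : Measurable fun q : ℝ × P2 => F (vec3 q.2.1 q.2.2 q.1) := hF.comp (by fun_prop)
  exact this.aemeasurable

end Crest.Agent.R68.S
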