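import Mathlib
import Crest.Agent.R68.WB7
import Crest.Agent.R68.WE3
import Crest.Agent.R68.CNewt

/-!
R68 / WB8: the bilinear bounds `KB` for the hot weight `EW` and a cold majorant (helper475,
part W).  The only input on the cold majorant: support in velocity, mass, Newton potential.
-/

set_option autoImplicit false
open MeasureTheory Set
open scoped ENNReal NNReal Topology
open Crest.AnalysisR.VecCalc3 Crest.AnalysisR.PDE.Boltzmann

noncomputable section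

namespace Crest.Agent.R68.W

open Crest.Agent.R68.A (Meas3 meas3_Qp meas3_Lc)
open Crest.Agent.R68.WA (We w1 measurable_We measurable_w1 one_le_w1 w1_ne_top We_ne_top EW CE
  CE_ne_top C1E C2E kapW UU kapW_mul_card EW_le_Ep w1EW_le ew_one KHyp_EW Qp_w1EW Lc_w1EW
  measurable_EW EW_of_nonneg)
open Crest.Agent.R68.WK (ew Ep Qp_cold_le Cpl Cpl_lt_top kp measurable_kp inv_norm_le_kp)
open Crest.Agent.R68.DPole (ParD)
open Crest.Agent.R68.C (newt newt_eq)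

theorem newt_eq_kp (c : R3 → ℝ≥0∞) (v : R3) : ∫⁻ z, kp 1 z * c (v + z) = newt c v := by
  rw [newt_eq]
  refine lintegral_congr_ae ?_
  filter_upwards [compl_mem_ae_iff.2 (measure_singleton (0 : R3))] with z hz
  have hz0 : 0 < ‖z‖ := norm_pos_iff.2 hz
  congr 1
  unfold kp
  rw [ENNReal.rpow_neg_one, ENNReal.ofReal_inv_of_pos hz0]

theorem one_kp_eq {c : R3 → ℝ≥0∞} (hc : Measurable c) (v : R3) :
    ∫⁻ z, (1 + kp 1 z) * c (v + z) = (∫⁻ u, c u) + newt c v := by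
  rw [← newt_eq_kp]
  have h : ∀ z, (1 + kp 1 z) * c (v + z) = c (v + z) + kp 1 z * c (v + z) := fun z => by ring
  simp_rw [h]
  rw [lintegral_add_left (by fun_prop), lintegral_add_left_eq_self (fun z => c z) v]

/-- constant of the cold-hot gain -/
def CN (Y lam R' : ℝ) (m : ℕ) : ℝ≥0 :=
  (CE Y lam * (2 * Cpl m * ENNReal.ofReal (Real.exp R' * (1 + R')))).toNNReal

theorem CN_eq (Y lam R' : ℝ) (m : ℕ) : (CN Y lam R' m : ℝ≥0∞) =
    CE Y lam * (2 * Cpl m * ENNReal.ofReal (Real.exp R' * (1 + R'))) := by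
  unfold CN
  refine ENNReal.coe_toNNReal ?_
  exact ENNReal.mul_ne_top (CE_ne_top _ _) (ENNReal.mul_ne_top
    (ENNReal.mul_ne_top (by norm_num) (Cpl_lt_top m).ne) ENNReal.ofReal_ne_top)

section

variable {P : Par} {lam T1 t : ℝ}

/-- the weight dominates `(1 + Dm) e^{-|v|}` up to an exponential factor -/
theorem one_Dm_le (hlam : 0 ≤ lam) (h0 : 0 ≤ T1) (ht : T1 ≤ t) (x : P2) (v : R3) :
    (1 + Dm P t x v) * We v ≤ ENNReal.ofReal (Real.exp (lam * (t - T1))) * EW P lam T1 t x v := by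
  rw [EW_of_nonneg (h0.trans ht), ← mul_assoc]
  gcongr ?_ * _
  rw [mul_add, mul_one, ← mul_assoc, ← ENNReal.ofReal_mul (Real.exp_pos _).le, ← Real.exp_add,
    add_neg_cancel, Real.exp_zero, ENNReal.ofReal_one, one_mul]
  gcongr
  rw [← ENNReal.ofReal_one]
  apply ENNReal.ofReal_le_ofReal
  exact Real.one_le_exp (mul_nonneg hlam (by linarith))

/-- gain of a cold profile against `EW` (`m = 0`) -/
theorem Qp_cold_EW (hP : ParD P) (hlam : 0 < lam) (h0 : 0 ≤ T1) (h1 : T1 ≤ 1) (ht : T1 ≤ t)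
    (x : P2) {c : R3 → ℝ≥0∞} (hc : Measurable c) {R' : ℝ} (hR' : 0 ≤ R')
    (hsupp : ∀ y, R' < ‖y‖ → c y = 0) (v : R3) :
    Qp c (EW P lam T1 t x) v ≤ CN P.Y lam R' 0 * (We v * ((∫⁻ u, c u) + newt c v)) := by
  have hκ := kapW_mul_card hP (h0.trans ht) x
  calc Qp c (EW P lam T1 t x) v
      ≤ Qp c (fun a => CE P.Y lam * Ep 0 (kapW P.Y t) (UU P t x) a) v :=
        A.Qp_mono (fun _ => le_rfl) (fun z => EW_le_Ep hP hlam h0 h1 ht x z) v
    _ = CE P.Y lam * Qp c (Ep 0 (kapW P.Y t) (UU P t x)) v :=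
        A.Qp_const_mul_right (CE_ne_top _ _) _ _ v
    _ ≤ CE P.Y lam * ((2 * Cpl 0 * ENNReal.ofReal (Real.exp R' * (1 + R'))) * ew 0 v *
          ∫⁻ z, (1 + kp 1 z) * c (v + z)) := by
        gcongr; exact Qp_cold_le 0 hκ hc hR' hsupp v
    _ = _ := by
        rw [one_kp_eq hc, CN_eq]
        have e : ew 0 v = We v := by unfold ew We; simp
        rw [e]; ring

/-- gain of a cold profile against `w1 * EW` -/
theorem Qp_cold_w1EW (hP : ParD P) (hlam : 0 < lam) (h0 : 0 ≤ T1) (h1 : T1 ≤ 1) (ht : T1 ≤ t)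
    (x : P2) {c : R3 → ℝ≥0∞} (hc : Measurable c) {R' : ℝ} (hR' : 0 ≤ R')
    (hsupp : ∀ y, R' < ‖y‖ → c y = 0) (v : R3) :
    Qp c (fun z => w1 z * EW P lam T1 t x z) v ≤
      CN P.Y lam R' 1 * (w1 v * We v * ((∫⁻ u, c u) + newt c v)) := by
  have hκ := kapW_mul_card hP (h0.trans ht) x
  calc Qp c (fun z => w1 z * EW P lam T1 t x z) v
      ≤ Qp c (fun a => CE P.Y lam * Ep 1 (kapW P.Y t) (UU P t x) a) v :=
        A.Qp_mono (fun _ => le_rfl) (fun z => w1EW_le hP hlam h0 h1 ht x z) v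
    _ = CE P.Y lam * Qp c (Ep 1 (kapW P.Y t) (UU P t x)) v :=
        A.Qp_const_mul_right (CE_ne_top _ _) _ _ v
    _ ≤ CE P.Y lam * ((2 * Cpl 1 * ENNReal.ofReal (Real.exp R' * (1 + R'))) * ew 1 v *
          ∫⁻ z, (1 + kp 1 z) * c (v + z)) := by
        gcongr; exact Qp_cold_le 1 hκ hc hR' hsupp v
    _ = _ := by
        rw [one_kp_eq hc, CN_eq, ew_one]
        ring

/-- loss frequency of a cold profile -/
theorem Lc_cold_le {c : R3 → ℝ≥0∞} (hc : Measurable c) {R' : ℝ}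
    (hsupp : ∀ y, R' < ‖y‖ → c y = 0) (v : R3) :
    Lc c v ≤ ENNReal.ofReal (2 * Real.pi * (1 + R')) * w1 v * ∫⁻ u, c u := by
  refine (WK.Lc_le_moment hc v).trans ?_
  have h2 : ∫⁻ y, ENNReal.ofReal (1 + ‖y‖) * c y ≤ ENNReal.ofReal (1 + R') * ∫⁻ y, c y := by
    rw [← lintegral_const_mul _ hc]
    refine lintegral_mono fun y => ?_
    rcases lt_or_ge R' ‖y‖ with h | h
    · rw [hsupp y h]; simp
    · gcongr
  calc _ ≤ ENNReal.ofReal (2 * Real.pi) * (ENNReal.ofReal (1 + ‖v‖) *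
        (ENNReal.ofReal (1 + R') * ∫⁻ y, c y)) := by gcongr
    _ = _ := by
        rw [ENNReal.ofReal_mul (p := 2 * Real.pi) (by positivity)]
        unfold w1
        ring

/-- **the bounds `KB` at one time** -/
theorem KB_EW (hP : ParD P) (hlam : 0 < lam) (h0 : 0 ≤ T1) (h1 : T1 ≤ 1) (ht : T1 ≤ t)
    {N0 : ℝ → P2 → R3 → ℝ≥0∞} (hN : ∀ x, Measurable (N0 t x)) {R' : ℝ} (hR' : 0 ≤ R')
    (hsupp : ∀ x y, R' < ‖y‖ → N0 t x y = 0) {B1 : ℝ≥0∞}
    (hmass : ∀ x, ∫⁻ u, N0 t x u ≤ B1) (hnewt : ∀ x v, newt (N0 t x) v ≤ B1 * Dm P t x v)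
    {B : ℝ≥0∞} (hB1 : (C1E P.Y lam : ℝ≥0∞) ≤ B) (hB2 : (C2E P.Y lam : ℝ≥0∞) ≤ B)
    (hB3 : CN P.Y lam R' 0 * (B1 * ENNReal.ofReal (Real.exp (lam * (t - T1)))) ≤ B)
    (hB4 : CN P.Y lam R' 1 * (B1 * ENNReal.ofReal (Real.exp (lam * (t - T1)))) ≤ B)
    (hB5 : ENNReal.ofReal (2 * Real.pi * (1 + R')) * B1 ≤ B) :
    KB (EW P lam T1) N0 t B := by
  have hmE : ∀ x, Measurable (EW P lam T1 t x) := fun x =>
    (measurable_EW hP.Y lam T1).comp (f := fun v : R3 => (t, x, v)) (by fun_prop)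
  have hmwE : ∀ x, Measurable (fun z => w1 z * EW P lam T1 t x z) := fun x =>
    measurable_w1.mul (hmE x)
  have hWe : ∀ x v, We v ≤ EW P lam T1 t x v := fun x v => WA.We_le_EW P lam T1 t x v
  have hsum : ∀ x v, We v * ((∫⁻ u, N0 t x u) + newt (N0 t x) v) ≤
      B1 * ENNReal.ofReal (Real.exp (lam * (t - T1))) * EW P lam T1 t x v := by
    intro x v
    calc We v * ((∫⁻ u, N0 t x u) + newt (N0 t x) v) ≤ We v * (B1 + B1 * Dm P t x v) := by
          gcongr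
          · exact hmass x
          · exact hnewt x v
      _ = B1 * ((1 + Dm P t x v) * We v) := by ring
      _ ≤ B1 * (ENNReal.ofReal (Real.exp (lam * (t - T1))) * EW P lam T1 t x v) :=
          mul_le_mul' le_rfl (one_Dm_le hlam.le h0 ht x v)
      _ = _ := by ring
  have hNE : ∀ x v, Qp (N0 t x) (EW P lam T1 t x) v ≤ B * EW P lam T1 t x v := by
    intro x v
    refine (Qp_cold_EW hP hlam h0 h1 ht x (hN x) hR' (hsupp x) v).trans ?_
    calc _ ≤ CN P.Y lam R' 0 * (B1 * ENNReal.ofReal (Real.exp (lam * (t - T1))) *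
          EW P lam T1 t x v) := mul_le_mul' le_rfl (hsum x v)
      _ = CN P.Y lam R' 0 * (B1 * ENNReal.ofReal (Real.exp (lam * (t - T1)))) *
          EW P lam T1 t x v := by ring
      _ ≤ _ := by gcongr
  have hNwE : ∀ x v, Qp (N0 t x) (fun z => w1 z * EW P lam T1 t x z) v ≤
      B * (w1 v * EW P lam T1 t x v) := by
    intro x v
    refine (Qp_cold_w1EW hP hlam h0 h1 ht x (hN x) hR' (hsupp x) v).trans ?_
    calc _ = CN P.Y lam R' 1 * (w1 v * (We v * ((∫⁻ u, N0 t x u) + newt (N0 t x) v))) := by ring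
      _ ≤ CN P.Y lam R' 1 * (w1 v * (B1 * ENNReal.ofReal (Real.exp (lam * (t - T1))) *
          EW P lam T1 t x v)) := mul_le_mul' le_rfl (mul_le_mul' le_rfl (hsum x v))
      _ = CN P.Y lam R' 1 * (B1 * ENNReal.ofReal (Real.exp (lam * (t - T1)))) *
          (w1 v * EW P lam T1 t x v) := by ring
      _ ≤ _ := by gcongr
  refine
    { EE := fun x v => ?_
      wEE := fun x v => ?_
      EwE := fun x v => ?_
      LwE := fun x v => ?_
      NE := hNE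
      EN := fun x v => ?_
      NwE := hNwE
      wEN := fun x v => ?_
      LN := fun x v => ?_ }
  · exact ((KHyp_EW hP hlam h0 h1).gain t x v ht).trans (mul_le_mul' hB1 (hWe x v))
  · refine (Qp_w1EW hP hlam h0 h1 ht x (fun z => le_rfl)
      (fun z => le_mul_of_one_le_left' (one_le_w1 z)) v).trans ?_
    exact mul_le_mul' hB2 (mul_le_mul' le_rfl (hWe x v))
  · refine (Qp_w1EW hP hlam h0 h1 ht x (fun z => le_mul_of_one_le_left' (one_le_w1 z))
      (fun z => le_rfl) v).trans ?_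
    exact mul_le_mul' hB2 (mul_le_mul' le_rfl (hWe x v))
  · exact (Lc_w1EW hP hlam h0 h1 ht x (fun z => le_rfl) v).trans (mul_le_mul' hB2 le_rfl)
  · rw [WK.Qp_comm (hmE x) (hN x)]
    exact hNE x v
  · rw [WK.Qp_comm (hmwE x) (hN x)]
    exact hNwE x v
  · refine (Lc_cold_le (hN x) (hsupp x) v).trans ?_
    calc _ ≤ ENNReal.ofReal (2 * Real.pi * (1 + R')) * w1 v * B1 := by gcongr; exact hmass x
      _ = ENNReal.ofReal (2 * Real.pi * (1 + R')) * B1 * w1 v := by ring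
      _ ≤ _ := by gcongr

/-- **the field `kb` of `THyp` for the weight `EW`** -/
theorem kb_EW (hP : ParD P) (hlam : 0 < lam) (h0 : 0 ≤ T1) (h1 : T1 ≤ 1)
    {N0 : ℝ → P2 → R3 → ℝ≥0∞} (hN : Meas3 N0) {R' : ℝ} (hR' : 0 ≤ R')
    (hsupp : ∀ t x y, T1 ≤ t → R' < ‖y‖ → N0 t x y = 0)
    (hbd : ∀ T, ∃ B1 : ℝ≥0, ∀ t, T1 ≤ t → t ≤ T → ∀ x, ∫⁻ u, N0 t x u ≤ B1 ∧
      ∀ v, newt (N0 t x) v ≤ B1 * Dm P t x v) :
    ∀ T, ∃ B : ℝ≥0, ∀ t, T1 ≤ t → t ≤ T → KB (EW P lam T1) N0 t B := by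
  intro T
  obtain ⟨B1, hB1⟩ := hbd T
  set e : ℝ≥0 := Real.toNNReal (Real.exp (lam * (T - T1))) with he
  set p : ℝ≥0 := Real.toNNReal (2 * Real.pi * (1 + R')) with hp
  refine ⟨C1E P.Y lam + C2E P.Y lam + CN P.Y lam R' 0 * (B1 * e) + CN P.Y lam R' 1 * (B1 * e) +
    p * B1, fun t h2 h3 => ?_⟩
  have he' : ENNReal.ofReal (Real.exp (lam * (t - T1))) ≤ (e : ℝ≥0∞) :=
    ENNReal.ofReal_le_ofReal (Real.exp_le_exp.2 (by nlinarith))
  have hp' : ENNReal.ofReal (2 * Real.pi * (1 + R')) = (p : ℝ≥0∞) := rfl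
  refine KB_EW hP hlam h0 h1 h2 (fun x => hN.slice t x) hR' (fun x y => hsupp t x y h2)
    (fun x => (hB1 t h2 h3 x).1) (fun x v => (hB1 t h2 h3 x).2 v) ?_ ?_ ?_ ?_ ?_
  · push_cast
    calc (C1E P.Y lam : ℝ≥0∞) ≤ (C1E P.Y lam : ℝ≥0∞) + C2E P.Y lam := le_self_add
      _ ≤ _ := le_self_add
      _ ≤ _ := le_self_add
      _ ≤ _ := le_self_add
  · push_cast
    calc (C2E P.Y lam : ℝ≥0∞) ≤ (C1E P.Y lam : ℝ≥0∞) + C2E P.Y lam := le_add_self
      _ ≤ _ := le_self_add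
      _ ≤ _ := le_self_add
      _ ≤ _ := le_self_add
  · push_cast
    calc (CN P.Y lam R' 0 : ℝ≥0∞) * (B1 * ENNReal.ofReal (Real.exp (lam * (t - T1))))
        ≤ CN P.Y lam R' 0 * (B1 * e) := by gcongr
      _ ≤ (C1E P.Y lam : ℝ≥0∞) + C2E P.Y lam + CN P.Y lam R' 0 * (B1 * e) := le_add_self
      _ ≤ _ := le_self_add
      _ ≤ _ := le_self_add
  · push_cast
    calc (CN P.Y lam R' 1 : ℝ≥0∞) * (B1 * ENNReal.ofReal (Real.exp (lam * (t - T1))))
        ≤ CN P.Y lam R' 1 * (B1 * e) := by gcongr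
      _ ≤ (C1E P.Y lam : ℝ≥0∞) + C2E P.Y lam + CN P.Y lam R' 0 * (B1 * e) +
          CN P.Y lam R' 1 * (B1 * e) := le_add_self
      _ ≤ _ := le_self_add
  · push_cast
    rw [hp']
    exact le_add_self

end

end Crest.Agent.R68.W
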