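import Mathlib
import Crest.Agent.R68.WB8
import Crest.Agent.R68.ColdDefs

/-!
R68 / WB9: the hypotheses `THyp` of the truncated problem for the hot weight `EW` and the cold
component `coldR` (helper475, part W).  The facts on the cold component are collected in `CFacts`
(parts C and W, helper906 and helper827).
-/

set_option autoImplicit false
open MeasureTheory Set
open scoped ENNReal NNReal Topology
open Crest.AnalysisR.VecCalc3 Crest.AnalysisR.PDE.Boltzmann

noncomputable section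

namespace Crest.Agent.R68.W

open Crest.Agent.R68.A (Meas3 meas3_Qp meas3_Lc)
open Crest.Agent.R68.WA (We w1 EW measurable_EW EW_per EW_flight We_le_EW)
open Crest.Agent.R68.DPole (ParD)
open Crest.Agent.R68.C (newt)

/-- the facts on the cold component used by the truncated problem on `[T1,∞)` -/
structure CFacts (P : Par) (lam T1 : ℝ) : Prop where
  meas : ∀ lam, Meas3 lam → (∀ t v, PerG fun x => lam t x v) → Meas3 (coldR P lam)
  per : ∀ lam, Meas3 lam → (∀ t v, PerG fun x => lam t x v) →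
    ∀ t v, PerG fun x => coldR P lam t x v
  smeas : ∀ lam, Meas3 lam → (∀ t v, PerG fun x => lam t x v) → Meas3 (coldSpill P lam)
  sper : ∀ lam, Meas3 lam → (∀ t v, PerG fun x => lam t x v) →
    ∀ t v, PerG fun x => coldSpill P lam t x v
  le : ∀ lam, Meas3 lam → (∀ t v, PerG fun x => lam t x v) → ∀ t x v, T1 ≤ t →
    coldR P lam t x v ≤ coldS P t x v
  Smeas : Meas3 (coldS P)
  Ssupp : ∀ t x v, T1 ≤ t → P.Y + 5 < ‖v‖ → coldS P t x v = 0
  Sbd : ∀ T, ∃ B : ℝ≥0, ∀ t, T1 ≤ t → t ≤ T → ∀ x, ∫⁻ u, coldS P t x u ≤ B ∧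
      ∀ v, newt (coldS P t x) v ≤ B * Dm P t x v
  cb : ∀ T, ∃ B : ℝ≥0, ∀ t, T1 ≤ t → t ≤ T →
    CB T1 P.Y (EW P lam T1) (coldS P) (coldR P) (coldSpill P) t B

/-- **`THyp` for the actual weights** -/
theorem thyp_EW {P : Par} (hP : ParD P) {lam T1 A : ℝ} (hlam : 0 < lam) (h0 : 0 ≤ T1) (h1 : T1 ≤ 1)
    (hA : 0 ≤ A) (F : CFacts P lam T1) {d1 : P2 → R3 → ℝ≥0∞}
    (hd1 : Measurable fun q : P2 × R3 => d1 q.1 q.2) (hd1per : ∀ v, PerG fun x => d1 x v)
    (hd1E : ∀ x v, d1 x v ≤ ENNReal.ofReal A * EW P lam T1 T1 x v)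
    {lamA : ℝ → P2 → R3 → ℝ≥0∞} (hlamA : Meas3 lamA) (hlamAper : ∀ t v, PerG fun x => lamA t x v) :
    THyp T1 lam P.Y A (EW P lam T1) (coldS P) d1 lamA (coldR P) (coldSpill P) where
  lam0 := hlam.le
  A0 := hA
  Y0 := hP.Y.le
  Em := measurable_EW hP.Y lam T1
  Eper t v := EW_per lam T1 t v
  flight s t x v h2 h3 := EW_flight hP.Y hlam.le (h0.trans h2) h3 x v
  We_le t x v _ := We_le_EW P lam T1 t x v
  N0m := F.Smeas
  h1m := hd1
  h1per := hd1per
  h1E := hd1E
  lamAm := hlamA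
  lamAper := hlamAper
  cfm := F.meas
  spm := F.smeas
  cfper := F.per
  spper := F.sper
  cf_le := F.le
  kb := kb_EW hP hlam h0 h1 F.Smeas (R' := P.Y + 5) (by have := hP.Y; linarith) F.Ssupp F.Sbd
  cb := F.cb

end Crest.Agent.R68.W
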