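import Mathlib
import Crest.Agent.R68.WE3
import Crest.Agent.R68.WK6
import Crest.Agent.R68.NAlg
import Crest.Agent.R68.FDat2

/-!
# Row 68, PART W (helper835): the state at time `T1`.
From the closeness `dd (H T1) (bg (x - T1 v̄)) ≤ eps * e^{-g'|v|²} D^{-3/2}` to the two hypotheses
on the data of the a-priori theorem.
-/

set_option autoImplicit false
open MeasureTheory Set
open scoped ENNReal NNReal
open Crest.AnalysisR.VecCalc3 Crest.AnalysisR.PDE.Boltzmann

noncomputable section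

namespace Crest.Agent.R68.WA

open WK DPole N

/-- total mass of `e^{-|v|/2}` -/
def J2W : ℝ≥0∞ := ∫⁻ y : R3, ENNReal.ofReal (Real.exp (-(1 / 2 * ‖y‖)))

theorem J2W_ne_top : J2W ≠ ⊤ := (lintegral_exp_norm_lt_top (by norm_num)).ne

/-- the constant of `w1 M ≤ C e^{-|v|}` -/
theorem w1_mul_Mx_le (v : R3) : w1 v * Mx v ≤ ENNReal.ofReal (Real.exp 2) * We v := by
  have hpi : (2 * Real.pi) ^ (-(3 / 2 : ℝ)) ≤ 1 := by
    apply Real.rpow_le_one_of_one_le_of_nonpos
    · nlinarith [Real.pi_gt_three]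
    · norm_num
  unfold w1 Mx We maxwellian
  rw [← ENNReal.ofReal_mul (by positivity), ← ENNReal.ofReal_mul (by positivity)]
  apply ENNReal.ofReal_le_ofReal
  have h1 : 1 + ‖v‖ ≤ Real.exp ‖v‖ := by linarith [Real.add_one_le_exp ‖v‖]
  have h2 : 0 < (2 * Real.pi) ^ (-(3 / 2 : ℝ)) := by positivity
  calc (1 + ‖v‖) * ((2 * Real.pi) ^ (-(3 / 2 : ℝ)) * Real.exp (-‖v‖ ^ 2 / 2))
      ≤ Real.exp ‖v‖ * (1 * Real.exp (-‖v‖ ^ 2 / 2)) := by gcongr
    _ = Real.exp (‖v‖ + -‖v‖ ^ 2 / 2) := by rw [one_mul, ← Real.exp_add]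
    _ ≤ Real.exp (2 + -‖v‖) := by
        apply Real.exp_le_exp.2
        nlinarith [sq_nonneg (‖v‖ - 2)]
    _ = Real.exp 2 * Real.exp (-‖v‖) := Real.exp_add _ _

/-- tail of the Maxwellian -/
theorem tail_Mx (R : ℝ) :
    ∫⁻ v : R3, {v : R3 | R ≤ ‖v‖}.indicator (fun v => w1 v * Mx v) v ≤
      ENNReal.ofReal (Real.exp 2 * Real.exp (-(R / 2))) * J2W := by
  unfold J2W
  rw [← lintegral_const_mul' _ _ ENNReal.ofReal_ne_top]
  refine lintegral_mono fun v => ?_
  by_cases hv : R ≤ ‖v‖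
  · rw [indicator_of_mem (show v ∈ {v : R3 | R ≤ ‖v‖} from hv)]
    refine (w1_mul_Mx_le v).trans ?_
    unfold We
    rw [← ENNReal.ofReal_mul (by positivity), ← ENNReal.ofReal_mul (by positivity)]
    apply ENNReal.ofReal_le_ofReal
    rw [← Real.exp_add, ← Real.exp_add, ← Real.exp_add]
    apply Real.exp_le_exp.2
    linarith
  · rw [indicator_of_notMem (show v ∉ {v : R3 | R ≤ ‖v‖} from hv)]
    exact zero_le

/-- pointwise distance of the background and the Maxwellian -/
theorem dd_bg_le (rh R : ℝ) (x : P2) (v : R3) :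
    w1 v * dd (ENNReal.ofReal (Fuel.bg rh R x v)) (Mx v) ≤
      {v : R3 | R ≤ ‖v‖}.indicator (fun v => w1 v * Mx v) v +
        w1 v * Mx v * {x : P2 | distG x ≤ rh}.indicator (fun _ => (1 : ℝ≥0∞)) x := by
  classical
  by_cases hv : R ≤ ‖v‖
  · rw [indicator_of_mem (show v ∈ {v : R3 | R ≤ ‖v‖} from hv)]
    have h1 : Fuel.bg rh R x v = 0 := by
      unfold Fuel.bg; rw [if_neg]; intro h; exact absurd h.1 (not_lt.2 hv)
    rw [h1, ENNReal.ofReal_zero, zero_dd]
    exact le_self_add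
  · by_cases hx : distG x ≤ rh
    · rw [indicator_of_mem (show x ∈ {x : P2 | distG x ≤ rh} from hx), mul_one]
      have h1 : Fuel.bg rh R x v = 0 := by
        unfold Fuel.bg; rw [if_neg]; intro h; exact absurd h.2 (not_lt.2 hx)
      rw [h1, ENNReal.ofReal_zero, zero_dd]
      exact le_add_self
    · have h1 : Fuel.bg rh R x v = maxwellian v := by
        unfold Fuel.bg; rw [if_pos ⟨not_le.1 hv, not_le.1 hx⟩]
      rw [h1]
      have : dd (ENNReal.ofReal (maxwellian v)) (Mx v) = 0 := dd_self _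
      rw [this, mul_zero]
      exact zero_le

theorem dd_bg_le_Mx (rh R : ℝ) (x : P2) (v : R3) :
    dd (ENNReal.ofReal (Fuel.bg rh R x v)) (Mx v) ≤ Mx v := by
  have h1 : ENNReal.ofReal (Fuel.bg rh R x v) ≤ Mx v :=
    ENNReal.ofReal_le_ofReal (Fuel.bg_le rh R x v)
  rw [dd_of_le h1]
  exact tsub_le_self

/-- Gaussian below exponential -/
theorem gau_le_We {g t : ℝ} (hg : 1 / 100 ≤ g) (ht : t ≤ 1 / 4) (v : R3) :
    ENNReal.ofReal (gau g t v) ≤ ENNReal.ofReal (Real.exp 50) * We v := by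
  unfold gau We
  rw [← ENNReal.ofReal_mul (Real.exp_pos _).le, ← Real.exp_add]
  apply ENNReal.ofReal_le_ofReal
  apply Real.exp_le_exp.2
  have h1 : √t ≤ 1 / 2 := by
    rw [Real.sqrt_le_left (by norm_num)]; linarith
  have h2 : 1 / 200 ≤ g - √t / 100 := by linarith
  nlinarith [sq_nonneg (‖v‖ - 100), sq_nonneg ‖v‖]

section

variable {P : Par} {lam T1 rh R : ℝ} {eps : ℝ} {g' : ℝ} {H1 : P2 → R3 → ℝ≥0∞}

/-- closeness in the class `EW` -/
theorem close_EW (hT0 : 0 ≤ T1) (hT1 : T1 ≤ 1 / 4) (hg : 1 / 100 ≤ g')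
    (hclose : ∀ x v, dd (H1 x v) (ENNReal.ofReal (Fuel.bg rh R (x - T1 • bar v) v)) ≤
      ENNReal.ofReal eps * Zg P g' T1 x v) (x : P2) (v : R3) :
    dd (H1 x v) (Mx v) ≤ ENNReal.ofReal eps * ENNReal.ofReal (Real.exp 50) * EW P lam T1 T1 x v +
      dd (ENNReal.ofReal (Fuel.bg rh R (x - T1 • bar v) v)) (Mx v) := by
  refine (dd_triangle _ (ENNReal.ofReal (Fuel.bg rh R (x - T1 • bar v) v)) _).trans ?_
  gcongr
  refine (hclose x v).trans ?_
  rw [mul_assoc]
  gcongr
  unfold Zg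
  rw [EW_of_nonneg hT0, sub_self, mul_zero, neg_zero, Real.exp_zero, ENNReal.ofReal_one, one_mul]
  calc ENNReal.ofReal (gau g' T1 v) * Dm P T1 x v
      ≤ (ENNReal.ofReal (Real.exp 50) * We v) * (1 + Dm P T1 x v) := by
        gcongr
        · exact gau_le_We hg hT1 v
        · exact le_add_self
    _ = _ := by ring

/-- **the data at `T1`, pointwise** -/
theorem data_pointwise (hT0 : 0 ≤ T1) (hT1 : T1 ≤ 1 / 4) (hg : 1 / 100 ≤ g')
    (heps : eps ≤ Real.exp (-50))
    (hclose : ∀ x v, dd (H1 x v) (ENNReal.ofReal (Fuel.bg rh R (x - T1 • bar v) v)) ≤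
      ENNReal.ofReal eps * Zg P g' T1 x v) (x : P2) (v : R3) :
    dd (H1 x v) (Mx v) ≤ (2 : ℝ≥0) * EW P lam T1 T1 x v := by
  refine (close_EW hT0 hT1 hg hclose x v (lam := lam)).trans ?_
  have h1 : ENNReal.ofReal eps * ENNReal.ofReal (Real.exp 50) ≤ 1 := by
    calc ENNReal.ofReal eps * ENNReal.ofReal (Real.exp 50)
        ≤ ENNReal.ofReal (Real.exp (-50)) * ENNReal.ofReal (Real.exp 50) := by gcongr
      _ = 1 := by
        rw [← ENNReal.ofReal_mul (Real.exp_pos _).le, ← Real.exp_add]; simp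
  have h2 : dd (ENNReal.ofReal (Fuel.bg rh R (x - T1 • bar v) v)) (Mx v) ≤ EW P lam T1 T1 x v :=
    (dd_bg_le_Mx _ _ _ _).trans ((Mx_le_We v).trans (We_le_EW _ _ _ _ _ _))
  calc _ ≤ 1 * EW P lam T1 T1 x v + EW P lam T1 T1 x v := by gcongr
    _ = _ := by
      rw [one_mul, ← two_mul]; norm_num

/-- **the data at `T1`, transported density** -/
theorem data_density {nu0 ell : ℝ} (hP : ParD P) (hlam : 0 < lam) (hln : lam ≤ nu0 / 2)
    (hell : 0 < ell) (hT0 : 0 ≤ T1) (hT1 : T1 ≤ 1 / 4) (hg : 1 / 100 ≤ g') (hrh : 0 ≤ rh)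
    (hclose : ∀ x v, dd (H1 x v) (ENNReal.ofReal (Fuel.bg rh R (x - T1 • bar v) v)) ≤
      ENNReal.ofReal eps * Zg P g' T1 x v) (r : ℝ≥0) {t : ℝ} (ht : T1 + ell ≤ t) (x : P2) :
    ENNReal.ofReal (Real.exp (-(nu0 / 2 * (t - (T1 + ell))))) *
      ∫⁻ v, w1 v * dd (H1 (x - (t - T1) • bar v) v) (Mx v) ≤
      ENNReal.ofReal eps * (ENNReal.ofReal (Real.exp 50) * ENNReal.ofReal (Real.exp (lam * ell)) *
        C1E P.Y lam) +
      ENNReal.ofReal (Real.exp 2 * Real.exp (-(R / 2))) * J2W +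
      ENNReal.ofReal (Real.exp 2 * Real.exp (-((r : ℝ) / 2))) * J2W +
      ENNReal.ofReal (Real.exp 2) * (Real.toNNReal (2 * r * (4 + 36 * r ^ 2)) *
        (1 + ENNReal.ofReal (1 / ell ^ 2)) * ENNReal.ofReal (4 * rh ^ 2)) := by
  have hbar : Measurable bar := by unfold bar; fun_prop
  have hdm : Measurable distG := measurable_distG
  have hT1' : T1 ≤ 1 := by linarith
  have htT : T1 ≤ t := by linarith
  have ht0 : 0 < t := by linarith
  have hK := KHyp_EW hP hlam hT0 hT1'
  set F : ℝ≥0∞ := ENNReal.ofReal (Real.exp (-(nu0 / 2 * (t - (T1 + ell))))) with hF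
  set c0 : ℝ≥0∞ := ENNReal.ofReal eps * ENNReal.ofReal (Real.exp 50) with hc0
  set el : ℝ≥0∞ := ENNReal.ofReal (Real.exp (lam * (t - T1))) with hel
  set hole : P2 → ℝ≥0∞ := fun y => {x : P2 | distG x ≤ rh}.indicator (fun _ => (1 : ℝ≥0∞)) y
    with hhole
  have hholem : Measurable hole := by
    rw [hhole]
    exact measurable_const.indicator (measurableSet_le hdm measurable_const)
  have hholep : PerG hole := by
    intro y k
    rw [hhole]
    simp only [indicator, mem_ofPred_eq, distG_add_latt]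
  have hF1 : F ≤ 1 := by
    rw [hF, ← ENNReal.ofReal_one]
    apply ENNReal.ofReal_le_ofReal
    rw [Real.exp_le_one_iff]
    have : 0 ≤ nu0 / 2 * (t - (T1 + ell)) := mul_nonneg (by linarith) (by linarith)
    linarith
  have hFe : F * el ≤ ENNReal.ofReal (Real.exp (lam * ell)) := by
    rw [hF, hel, ← ENNReal.ofReal_mul (Real.exp_pos _).le, ← Real.exp_add]
    apply ENNReal.ofReal_le_ofReal
    apply Real.exp_le_exp.2
    nlinarith
  -- pointwise
  have hpt : ∀ v, w1 v * dd (H1 (x - (t - T1) • bar v) v) (Mx v) ≤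
      c0 * el * (w1 v * EW P lam T1 t x v) +
        ({v : R3 | R ≤ ‖v‖}.indicator (fun v => w1 v * Mx v) v +
          w1 v * Mx v * hole (x - t • bar v)) := by
    intro v
    have h1 := close_EW (P := P) (lam := lam) hT0 hT1 hg hclose (x - (t - T1) • bar v) v
    have h2 : x - (t - T1) • bar v - T1 • bar v = x - t • bar v := by
      rw [sub_sub, ← add_smul]; congr 2; ring
    rw [h2] at h1
    have h3 := EW_flight (P := P) hP.Y (T1 := T1) hlam.le hT0 htT x v
    calc w1 v * dd (H1 (x - (t - T1) • bar v) v) (Mx v)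
        ≤ w1 v * (c0 * (el * EW P lam T1 t x v) +
            dd (ENNReal.ofReal (Fuel.bg rh R (x - t • bar v) v)) (Mx v)) := by
          gcongr
          refine h1.trans ?_
          gcongr
      _ = c0 * el * (w1 v * EW P lam T1 t x v) +
            w1 v * dd (ENNReal.ofReal (Fuel.bg rh R (x - t • bar v) v)) (Mx v) := by ring
      _ ≤ _ := by gcongr; exact dd_bg_le rh R (x - t • bar v) v
  have hEm : Measurable fun v : R3 => w1 v * EW P lam T1 t x v :=
    measurable_w1.mul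
      ((measurable_EW hP.Y lam T1).comp (f := fun v : R3 => (t, x, v)) (by fun_prop))
  have hi1 : Measurable fun v : R3 => {v : R3 | R ≤ ‖v‖}.indicator (fun v => w1 v * Mx v) v :=
    (measurable_w1.mul measurable_Mx).indicator (measurableSet_le measurable_const measurable_norm)
  have hi2 : Measurable fun v : R3 => {v : R3 | (r : ℝ) ≤ ‖v‖}.indicator (fun v => w1 v * Mx v) v :=
    (measurable_w1.mul measurable_Mx).indicator (measurableSet_le measurable_const measurable_norm)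
  -- the hole
  have hh : ∫⁻ v, w1 v * Mx v * hole (x - t • bar v) ≤
      ENNReal.ofReal (Real.exp 2 * Real.exp (-((r : ℝ) / 2))) * J2W +
      ENNReal.ofReal (Real.exp 2) * (Real.toNNReal (2 * r * (4 + 36 * r ^ 2)) *
        (1 + ENNReal.ofReal (1 / ell ^ 2)) * ENNReal.ofReal (4 * rh ^ 2)) := by
    have hb : MeasurableSet {v : R3 | ‖v‖ ≤ r} := measurableSet_le measurable_norm measurable_const
    have h1 : ∀ v, w1 v * Mx v * hole (x - t • bar v) ≤
        {v : R3 | (r : ℝ) ≤ ‖v‖}.indicator (fun v => w1 v * Mx v) v +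
          {v : R3 | ‖v‖ ≤ r}.indicator (fun v => ENNReal.ofReal (Real.exp 2) *
            hole (x - t • bar v)) v := by
      intro v
      have hle1 : hole (x - t • bar v) ≤ 1 := by
        rw [hhole]
        exact indicator_le_self' (fun _ _ => zero_le) _
      rcases le_total (r : ℝ) ‖v‖ with h | h
      · rw [indicator_of_mem (show v ∈ {v : R3 | (r : ℝ) ≤ ‖v‖} from h)]
        refine le_trans ?_ le_self_add
        calc w1 v * Mx v * hole (x - t • bar v) ≤ w1 v * Mx v * 1 := by gcongr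
          _ = _ := mul_one _
      · rw [indicator_of_mem (show v ∈ {v : R3 | ‖v‖ ≤ r} from h)]
        refine le_trans ?_ le_add_self
        gcongr
        calc w1 v * Mx v ≤ ENNReal.ofReal (Real.exp 2) * We v := w1_mul_Mx_le v
          _ ≤ ENNReal.ofReal (Real.exp 2) * 1 := by gcongr; exact We_le_one v
          _ = _ := mul_one _
    refine (lintegral_mono h1).trans ?_
    rw [lintegral_add_left hi2, lintegral_indicator hb,
      lintegral_const_mul' _ _ ENNReal.ofReal_ne_top]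
    have h2 := trans r t ht0 hole hholem hholep x
    have h3 : ENNReal.ofReal (1 / t ^ 2) ≤ ENNReal.ofReal (1 / ell ^ 2) := by
      apply ENNReal.ofReal_le_ofReal
      apply one_div_le_one_div_of_le (by positivity)
      have : ell ≤ t := by linarith
      gcongr
    have h4 := Fuel.volume_hole hrh
    refine add_le_add (tail_Mx _) ?_
    gcongr
    refine h2.trans ?_
    gcongr
  calc F * ∫⁻ v, w1 v * dd (H1 (x - (t - T1) • bar v) v) (Mx v)
      ≤ F * ∫⁻ v, (c0 * el * (w1 v * EW P lam T1 t x v) +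
        ({v : R3 | R ≤ ‖v‖}.indicator (fun v => w1 v * Mx v) v +
          w1 v * Mx v * hole (x - t • bar v))) := by gcongr with v; exact hpt v
    _ = F * (c0 * el * (∫⁻ v, w1 v * EW P lam T1 t x v) +
          ((∫⁻ v, {v : R3 | R ≤ ‖v‖}.indicator (fun v => w1 v * Mx v) v) +
            ∫⁻ v, w1 v * Mx v * hole (x - t • bar v))) := by
        rw [lintegral_add_left (hEm.const_mul _), lintegral_add_left hi1,
          lintegral_const_mul _ hEm]
    _ ≤ F * (c0 * el * C1E P.Y lam +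
          (ENNReal.ofReal (Real.exp 2 * Real.exp (-(R / 2))) * J2W +
            (ENNReal.ofReal (Real.exp 2 * Real.exp (-((r : ℝ) / 2))) * J2W +
      ENNReal.ofReal (Real.exp 2) * (Real.toNNReal (2 * r * (4 + 36 * r ^ 2)) *
        (1 + ENNReal.ofReal (1 / ell ^ 2)) * ENNReal.ofReal (4 * rh ^ 2))))) := by
        gcongr
        · exact hK.mom t x htT
        · exact tail_Mx R
    _ = (F * el) * (c0 * C1E P.Y lam) +
          F * (ENNReal.ofReal (Real.exp 2 * Real.exp (-(R / 2))) * J2W +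
            (ENNReal.ofReal (Real.exp 2 * Real.exp (-((r : ℝ) / 2))) * J2W +
      ENNReal.ofReal (Real.exp 2) * (Real.toNNReal (2 * r * (4 + 36 * r ^ 2)) *
        (1 + ENNReal.ofReal (1 / ell ^ 2)) * ENNReal.ofReal (4 * rh ^ 2)))) := by ring
    _ ≤ ENNReal.ofReal (Real.exp (lam * ell)) * (c0 * C1E P.Y lam) +
          1 * (ENNReal.ofReal (Real.exp 2 * Real.exp (-(R / 2))) * J2W +
            (ENNReal.ofReal (Real.exp 2 * Real.exp (-((r : ℝ) / 2))) * J2W +
      ENNReal.ofReal (Real.exp 2) * (Real.toNNReal (2 * r * (4 + 36 * r ^ 2)) *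
        (1 + ENNReal.ofReal (1 / ell ^ 2)) * ENNReal.ofReal (4 * rh ^ 2)))) := by gcongr
    _ = _ := by rw [hc0]; ring

end

end Crest.Agent.R68.WA
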