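import Crest.Agent.R68.ColdLip3
import Crest.Agent.R68.ColdW6
import Crest.Agent.R68.WB9
import Crest.Agent.R68.ColdFin
import Crest.Agent.R68.IntH
import Crest.Agent.R68.WD
import Crest.Agent.R68.WProps

/-!
# Row 68, part W (helper475): `TruncOut`, the hypotheses `THyp` of the truncated problem
-/

set_option autoImplicit false
open MeasureTheory Set Filter
open scoped ENNReal NNReal Topology
open Crest.AnalysisR.VecCalc3 Crest.AnalysisR.PDE.Boltzmann

noncomputable section

namespace Crest.Agent.R68.ColdW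

open Crest.Agent.R68
open Crest.Agent.R68.WA (We)

variable {P : Par}

theorem coldjk_le_sh (hC : ColdPar Cold.C0 P) (lam : ℝ → P2 → R3 → ℝ≥0∞) (i : (ℤ × ℤ) × ℕ) {t : ℝ}
    (ht : 0 ≤ t) (x : P2) (v : R3) : coldjk P lam i t x v ≤ sh P t x i v := by
  refine (Cold.coldj_le hC (rateC P lam) ht (x + latt i.1) v).trans ?_
  unfold sh
  refine add_le_add le_rfl ?_
  calc ENNReal.ofReal (min t 1) * warmj P i.2 t (x + latt i.1) v
      ≤ ENNReal.ofReal 1 * warmj P i.2 t (x + latt i.1) v := by gcongr; exact min_le_right _ _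
    _ = _ := by rw [ENNReal.ofReal_one, one_mul]

theorem spillF_lipW {t : ℝ} {x : P2}
    {f f' : (ℤ × ℤ) × ℕ → R3 → ℝ≥0∞} (hm : ∀ i, Measurable (f i)) (hm' : ∀ i, Measurable (f' i))
    (hf : ∀ i v, f i v ≤ sh P t x i v) (hf' : ∀ i v, f' i v ≤ sh P t x i v) (θ : ℝ≥0∞)
    (hd : ∀ i v, f i v ≤ f' i v + θ * sh P t x i v) (v : R3) :
    spillF P t x f f v ≤ spillF P t x f' f' v + 2 * θ * spillF P t x (sh P t x) (sh P t x) v := by
  classical
  by_cases hθ : 1 ≤ θ
  · calc spillF P t x f f v ≤ 1 * spillF P t x (sh P t x) (sh P t x) v := by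
          rw [one_mul]; exact spillF_mono hf hf v
      _ ≤ 2 * θ * spillF P t x (sh P t x) (sh P t x) v := by
          gcongr
          calc (1 : ℝ≥0∞) = 1 * 1 := (one_mul _).symm
            _ ≤ 2 * θ := by gcongr; norm_num
      _ ≤ _ := le_add_self
  push Not at hθ
  have hθt : θ ≠ ⊤ := (hθ.trans ENNReal.one_lt_top).ne
  unfold spillF
  rw [← ENNReal.tsum_mul_left, ← ENNReal.tsum_add]
  refine ENNReal.tsum_le_tsum fun i => ?_
  rw [← ENNReal.tsum_mul_left, ← ENNReal.tsum_add]
  refine ENNReal.tsum_le_tsum fun i' => ?_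
  split_ifs
  · simp
  · have e1 : Qp (f i) (f i') v ≤ Qp (f' i) (f i') v + θ * Qp (sh P t x i) (f i') v := by
      refine (WA.Qp_mono (hd i) (fun _ => le_rfl) v).trans ?_
      rw [A.Qp_add_left (hm' i) (hm i'), WA.Qp_smul_left hθt]
    have e2 : Qp (f' i) (f i') v ≤ Qp (f' i) (f' i') v + θ * Qp (f' i) (sh P t x i') v := by
      refine (WA.Qp_mono (fun _ => le_rfl) (hd i') v).trans ?_
      rw [A.Qp_add_right (hm' i) (hm' i'), WA.Qp_smul_right hθt]
    have e3 : Qp (sh P t x i) (f i') v ≤ Qp (sh P t x i) (sh P t x i') v :=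
      WA.Qp_mono (fun _ => le_rfl) (hf i') v
    have e4 : Qp (f' i) (sh P t x i') v ≤ Qp (sh P t x i) (sh P t x i') v :=
      WA.Qp_mono (hf' i) (fun _ => le_rfl) v
    calc Qp (f i) (f i') v ≤ Qp (f' i) (f' i') v + θ * Qp (f' i) (sh P t x i') v +
          θ * Qp (sh P t x i) (f i') v := e1.trans (add_le_add e2 le_rfl)
      _ ≤ Qp (f' i) (f' i') v + θ * Qp (sh P t x i) (sh P t x i') v +
          θ * Qp (sh P t x i) (sh P t x i') v := by gcongr
      _ = _ := by ring

/-- the size of the spill is locally bounded on `[T1,∞)` -/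
theorem SB_bdd (h : Big P) {T1 : ℝ} (hT1 : 0 < T1) (T : ℝ) :
    ∃ M : ℝ, ∀ t, T1 ≤ t → t ≤ T → CSp P.Y * SB P t ≤ M := by
  have hκ := Fuel.Ok.kap0 h.ok
  have hd := Fuel.Ok.dlp h.ok
  have hsep : ∀ t ∈ Icc T1 T, 0 < W.sep P t := fun t ht => W.sep_pos h.pole (hT1.le.trans ht.1)
  set F : ℝ → ℝ := fun t => CSp P.Y * ((massB P t + NB P t) *
    (cardB P t ^ 2 * (2 / W.sep P t ^ 2) ^ (3 * P.p + 2)) + cardB P t * P.dl ^ 2) with hF
  have hcon : ContinuousOn F (Icc T1 T) := by
    have c1 : ContinuousOn (fun t => P.K / (t * (1 + P.kap * t))) (Icc T1 T) := by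
      apply ContinuousOn.div (by fun_prop) (by fun_prop)
      intro t ht
      have : 0 < t := hT1.trans_le ht.1
      positivity
    have c2 : ContinuousOn (massB P) (Icc T1 T) := by
      unfold massB
      exact ((by fun_prop : ContinuousOn (fun t => (4 + 3 * (P.Y + 2) * t) ^ 2) (Icc T1 T)).mul
        c1).add (by fun_prop)
    have c3 : ContinuousOn (NB P) (Icc T1 T) := by
      unfold NB
      exact ((by fun_prop : ContinuousOn (fun t => 144 * (1 + t)) (Icc T1 T)).mul
        ((by fun_prop : ContinuousOn (fun t => (4 + 3 * (P.Y + 2) * t) ^ 2) (Icc T1 T)).mul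
        c1)).add (by fun_prop)
    have c4 : ContinuousOn (cardB P) (Icc T1 T) := by
      unfold cardB; fun_prop
    have c5 : ContinuousOn (fun t => W.sep P t) (Icc T1 T) := by
      unfold W.sep
      apply ContinuousOn.div (by fun_prop) (by fun_prop)
      intro t ht h0
      have h1 := hsep t ht
      unfold W.sep at h1
      rw [h0, div_zero] at h1
      exact lt_irrefl _ h1
    have c6 : ContinuousOn (fun t => (2 / W.sep P t ^ 2) ^ (3 * P.p + 2)) (Icc T1 T) := by
      apply ContinuousOn.pow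
      apply ContinuousOn.div (by fun_prop) (c5.pow 2)
      intro t ht
      exact (pow_pos (hsep t ht) 2).ne'
    rw [hF]
    exact continuousOn_const.mul (((c2.add c3).mul ((c4.pow 2).mul c6)).add
      (c4.mul continuousOn_const))
  obtain ⟨M, hM⟩ := (isCompact_Icc.image_of_continuousOn hcon).bddAbove
  refine ⟨M, fun t ht htT => ?_⟩
  refine le_trans ?_ (hM (mem_image_of_mem F ⟨ht, htT⟩))
  have ht0 : 0 < t := hT1.trans_le ht
  have h1 : MS P t ≤ (2 / W.sep P t ^ 2) ^ (3 * P.p + 2) := by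
    have := hsep t ⟨ht, htT⟩
    unfold MS
    split_ifs
    · positivity
    · exact le_rfl
  have h2 := massB_nonneg h ht0.le
  have h3 := NB_nonneg h ht0.le
  have h4 : 0 ≤ CSp P.Y := by
    unfold CSp
    have : 0 ≤ (CS (P.Y + 2)).toReal := ENNReal.toReal_nonneg
    linarith
  show CSp P.Y * SB P t ≤ CSp P.Y * ((massB P t + NB P t) *
    (cardB P t ^ 2 * (2 / W.sep P t ^ 2) ^ (3 * P.p + 2)) + cardB P t * P.dl ^ 2)
  unfold SB
  have h5 : 0 ≤ massB P t + NB P t := add_nonneg h2 h3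
  exact mul_le_mul_of_nonneg_left (add_le_add (mul_le_mul_of_nonneg_left
    (mul_le_mul_of_nonneg_left h1 (sq_nonneg _)) h5) le_rfl) h4

/-- **the facts on the cold component for the truncated problem** -/
theorem cfacts (h : Big P) (hC : ColdPar C.C0 P) (hC' : ColdPar Cold.C0 P) {lam T1 : ℝ}
    (hlam : 0 ≤ lam) (hT1 : 0 < T1) : W.CFacts P lam T1 where
  meas lam hl _ := ColdM.meas3_coldR P hl
  per lam _ _ t v := ColdM.perG_coldR P lam t v
  smeas lam hl _ := ColdM.meas3_coldSpill P hl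
  sper lam _ _ t v := Cold.perG_coldSpill P lam t v
  le lam _ _ t x v ht := Cold.coldR_le_coldS hC' h.ok lam (hT1.le.trans ht) x v
  Smeas := I.meas3_coldS h.ok
  Ssupp t x v ht hv := by
    by_contra h0
    have := norm_lt_of_coldS_ne h (hT1.le.trans ht) h0
    linarith
  Sbd T := cold_bd h hC hT1 T
  cb T := by
    obtain ⟨B0, hB0⟩ := ColdL.coldR_lipW hC' h T
    obtain ⟨M, hM⟩ := SB_bdd h hT1 T
    set Bs : ℝ≥0∞ := ENNReal.ofReal M * ENNReal.ofReal (Real.exp (lam * (max T T1 - T1))) with hBs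
    have hBst : Bs ≠ ⊤ := ENNReal.mul_ne_top ENNReal.ofReal_ne_top ENNReal.ofReal_ne_top
    have hsp : ∀ t, T1 ≤ t → t ≤ T → ∀ x v, spillF P t x (sh P t x) (sh P t x) v ≤
        Bs * WA.EW P lam T1 t x v := by
      intro t ht htT x v
      refine (spillF_sh_le h hC (hT1.trans_le ht) x v).trans ?_
      rw [hBs, mul_assoc]
      refine mul_le_mul' (ENNReal.ofReal_le_ofReal (hM t ht htT)) ?_
      calc Dm P t x v * We v ≤ (1 + Dm P t x v) * We v := by gcongr; exact le_add_self
        _ ≤ ENNReal.ofReal (Real.exp (lam * (t - T1))) * WA.EW P lam T1 t x v :=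
            W.one_Dm_le hlam hT1.le ht x v
        _ ≤ _ := by
            gcongr
            exact htT.trans (le_max_left _ _)
    have hms : ∀ t, 0 ≤ t → ∀ x lam', A.Meas3 lam' → ∀ i, Measurable (coldjk P lam' i t x) := by
      intro t _ x lam' hl i
      exact (ColdM.meas3_coldjk P hl i).slice t x
    -- closeness
    have hcl : ∀ lam lam' : ℝ → P2 → R3 → ℝ≥0∞, (∀ t v, PerG fun x => lam t x v) →
        (∀ t v, PerG fun x => lam' t x v) → (∀ s x v, s < T1 → lam s x v = lam' s x v) →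
        ∀ g : ℝ → ℝ≥0∞, Measurable g → (∀ s x v, T1 ≤ s → ‖v‖ < P.Y + 3 →
          lam s x v ≤ lam' s x v + g s ∧ lam' s x v ≤ lam s x v + g s) → ∀ t, T1 ≤ t → t ≤ T →
        ColdL.Close P t lam lam' (fun s _ _ => (Ici T1).indicator g s)
          (fun t _ => ∫⁻ s in Ioo 0 t, (Ici T1).indicator g s) := by
      intro lam lam' h1 h2 h3 g hg h4 t _ _
      refine ⟨h1, h2, fun s y v _ _ hv => ?_, fun t x v _ _ _ => le_rfl,
        fun s t x v _ hst _ _ => lintegral_mono_set (Ioo_subset_Ioo_right hst)⟩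
      rcases lt_or_ge s T1 with hs | hs
      · rw [h3 s y v hs]
        exact ⟨le_self_add, le_self_add⟩
      · rw [indicator_of_mem (show s ∈ Ici T1 from hs)]
        exact h4 s y v hs hv
    have hint : ∀ (g : ℝ → ℝ≥0∞) (t : ℝ), ∫⁻ s in Ioo 0 t, (Ici T1).indicator g s ≤
        ∫⁻ s in Ioo T1 t, g s := by
      intro g t
      rw [setLIntegral_indicator measurableSet_Ici]
      calc ∫⁻ s in Ici T1 ∩ Ioo 0 t, g s ≤ ∫⁻ s in Ico T1 t, g s :=
            lintegral_mono_set fun s hs => ⟨hs.1, hs.2.2⟩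
        _ = _ := by rw [Measure.restrict_congr_set Ioo_ae_eq_Ico]
    refine ⟨Bs.toNNReal + B0 + 2 * B0 * Bs.toNNReal, fun t ht htT => ?_⟩
    have hBe : (((Bs.toNNReal + B0 + 2 * B0 * Bs.toNNReal : ℝ≥0)) : ℝ≥0∞) =
        Bs + B0 + 2 * B0 * Bs := by
      push_cast
      rw [ENNReal.coe_toNNReal hBst]
    have ht0 : 0 < t := hT1.trans_le ht
    constructor
    · intro lam' hl hp x v
      rw [coldSpill_eq]
      refine (spillF_mono (fun i v => coldjk_le_sh hC' lam' i ht0.le x v)
        (fun i v => coldjk_le_sh hC' lam' i ht0.le x v) v).trans ?_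
      refine (hsp t ht htT x v).trans ?_
      gcongr
      rw [hBe, add_assoc]
      exact le_self_add
    · intro l l' hl hp hl' hp' he g hg hd x v
      have h1 := (hB0 l l' _ _ t htT hl hl' (hcl l l' hp hp' he g hg hd t ht htT) t ht0.le le_rfl
        x v).1
      refine h1.trans ?_
      refine add_le_add le_rfl (mul_le_mul' (mul_le_mul' ?_ (hint g t)) le_rfl)
      rw [hBe]
      calc (B0 : ℝ≥0∞) ≤ Bs + B0 := le_add_self
        _ ≤ _ := le_self_add
    · intro l l' hl hp hl' hp' he g hg hd x v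
      have h1 := fun v => (hB0 l l' _ _ t htT hl hl' (hcl l l' hp hp' he g hg hd t ht htT) t
        ht0.le le_rfl x v).2
      rw [coldSpill_eq, coldSpill_eq]
      refine (spillF_lipW (hms t ht0.le x l hl)
        (hms t ht0.le x l' hl') (fun i v => coldjk_le_sh hC' l i ht0.le x v)
        (fun i v => coldjk_le_sh hC' l' i ht0.le x v) _ (fun i v => h1 v i) v).trans ?_
      refine add_le_add le_rfl ?_
      calc 2 * (B0 * ∫⁻ s in Ioo 0 t, (Ici T1).indicator g s) *
            spillF P t x (sh P t x) (sh P t x) v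
          ≤ 2 * (B0 * ∫⁻ s in Ioo T1 t, g s) * (Bs * WA.EW P lam T1 t x v) :=
            mul_le_mul' (mul_le_mul' le_rfl (mul_le_mul' le_rfl (hint g t))) (hsp t ht htT x v)
        _ = (2 * B0 * Bs) * (∫⁻ s in Ioo T1 t, g s) * WA.EW P lam T1 t x v := by ring
        _ ≤ _ := by
            refine mul_le_mul' (mul_le_mul' ?_ le_rfl) le_rfl
            rw [hBe]
            exact le_add_self

end Crest.Agent.R68.ColdW

namespace Crest.Agent.R68.WP

open Crest.Agent.R68.A (en Meas3)
open Crest.Agent.R68.N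
open Crest.Agent.R68.Main0 (H0f Hot)
open Crest.Agent.R68.W (Om damped THyp)
open Crest.Agent.R68.WA (We w1 Mx EW)

/-- **the hypotheses of the truncated problem** -/
theorem TruncOut_holds {Y : ℝ} (hY : 1 ≤ Y) : TruncOut Y := by
  intro K ey hK hey hey1
  filter_upwards [eventually_ge_atTop 512] with p hp
  intro R
  filter_upwards [ev_ColdPar K Y ey p Cold.C0 hK hY hp, ev_ColdPar K Y ey p C.C0 hK hY hp,
    ev_ParD K Y ey p (by linarith), ev_pos, ev_T1_le (show (0 : ℝ) < 1 / 4 by norm_num)]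
    with j0 hC hC' hD hpos hT1
  intro H a hH hA hHb
  have hB : ColdW.Big (par K Y ey p j0) := ColdL.big_of hC hey hC'
  have hT0 : 0 < T1j j0 := hpos.2.2
  refine ⟨a.toReal * Real.exp 50, ?_⟩
  have hm : Measurable fun q : P2 × R3 => H (T1j j0) q.1 q.2 :=
    hH.meas.comp measurable_const measurable_fst measurable_snd
  refine W.thyp_EW hD (by norm_num) hT0.le (by linarith)
    (mul_nonneg ENNReal.toReal_nonneg (Real.exp_pos _).le)
    (ColdW.cfacts hB hC' hC (by norm_num) hT0) hm (fun v => hH.per (T1j j0) v) ?_ ?_ ?_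
  · intro x v
    refine (hHb (T1j j0) ⟨hT0, le_rfl⟩ x v).trans ?_
    unfold Zg
    rw [ENNReal.ofReal_mul ENNReal.toReal_nonneg, ENNReal.ofReal_toReal hA, mul_assoc]
    refine mul_le_mul' le_rfl ?_
    rw [WA.EW_of_nonneg hT0.le, sub_self, mul_zero, neg_zero, Real.exp_zero, ENNReal.ofReal_one,
      one_mul]
    calc ENNReal.ofReal (gau (1 / 50) (T1j j0) v) * Dm (par K Y ey p j0) (T1j j0) x v
        ≤ (ENNReal.ofReal (Real.exp 50) * We v) * (1 + Dm (par K Y ey p j0) (T1j j0) x v) := by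
          gcongr
          · exact WA.gau_le_We (by norm_num) hT1 v
          · exact le_add_self
      _ = _ := by ring
  · exact A.meas3_Lc hH.meas
  · intro t v x k
    show Lc (H t (x + latt k)) v = Lc (H t x) v
    have : H t (x + latt k) = H t x := by funext z; exact hH.per t z x k
    rw [this]

end Crest.Agent.R68.WP
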