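import Crest.Agent.R68.WA0

/-!
# Row 68, PART W (helper153): the a-priori theorem, part 1 (source bounds)
-/

set_option autoImplicit false
open MeasureTheory Set
open scoped ENNReal NNReal
open Crest.AnalysisR.VecCalc3 Crest.AnalysisR.PDE.Boltzmann

noncomputable section

namespace Crest.Agent.R68.WA

/-- hypotheses on the hot perturbation `gh = |H - M|` on `[T1,T]` -/
structure PHyp (T1 T nu0 : ℝ) (a2 : ℝ≥0) (E gh Ph : ℝ → P2 → R3 → ℝ≥0∞)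
    (damp : ℝ → ℝ → P2 → R3 → ℝ≥0∞) (vs : ℝ → ℝ≥0∞) : Prop where
  meas : Measurable fun p : ℝ × P2 × R3 => gh p.1 p.2.1 p.2.2
  vsm : Measurable vs
  per : ∀ t v, PerG (fun x => gh t x v)
  crude : ∀ t x v, T1 ≤ t → t ≤ T → gh t x v ≤ a2 * E t x v
  src : ∀ t x v, T1 ≤ t → t ≤ T → Ph t x v ≤
    Qp Mx (gh t x) v + Qp (gh t x) Mx v + Mx v * Lc (gh t x) v + Qp (gh t x) (gh t x) v +
      vs t * E t x v
  damp1 : ∀ s t x v, damp s t x v ≤ 1
  damp2 : ∀ s r1 r2 t x v, E t x v ≠ ⊤ → T1 ≤ s → s ≤ r1 → r1 ≤ r2 → r2 ≤ t → t ≤ T →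
    (∀ r ∈ Ioo r1 r2, Lc (gh r (x - (t - r) • bar v)) v ≤ ENNReal.ofReal (nu0 / 2 * (1 + ‖v‖))) →
    damp s t x v ≤ ENNReal.ofReal (Real.exp (-(nu0 / 2 * (1 + ‖v‖) * (r2 - r1))))
  duh : ∀ s t x v, E t x v ≠ ⊤ → T1 ≤ s → s ≤ t → t ≤ T → gh t x v ≤
    damp s t x v * gh s (x - (t - s) • bar v) v +
      ∫⁻ r in Ioo s t, damp r t x v * Ph r (x - (t - r) • bar v) v

section src

variable {T1 T nu0 lam : ℝ} {C1 : ℝ≥0} {Cf : ℝ≥0 → ℝ≥0} {a2 : ℝ≥0}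
  {E gh Ph : ℝ → P2 → R3 → ℝ≥0∞} {damp : ℝ → ℝ → P2 → R3 → ℝ≥0∞} {vs : ℝ → ℝ≥0∞} {CM : ℝ≥0}

/-- `4π` -/
def fpi : ℝ≥0 := Real.toNNReal (4 * Real.pi)

/-- constant of the crude source bound -/
def Bc (CM a2 C1 : ℝ≥0) : ℝ≥0 := 2 * (CM * a2 * C1) + fpi * CM * (a2 * C1) + a2 * a2 * C1
/-- constant of the small source bound -/
def C2c (CM a2 : ℝ≥0) : ℝ≥0 := 2 * CM + fpi * CM + a2

theorem meas_gh (hP : PHyp T1 T nu0 a2 E gh Ph damp vs) (t : ℝ) (x : P2) :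
    Measurable (gh t x) := by
  have := hP.meas
  exact this.comp (measurable_const.prodMk (measurable_const.prodMk measurable_id))

theorem Ph_le1 (hE : KHyp T1 lam C1 Cf E) (hP : PHyp T1 T nu0 a2 E gh Ph damp vs)
    (hCM : ∀ v : R3, Mx v ≤ CM * We v ∧ w1 v * Mx v ≤ CM * We v)
    {t : ℝ} (h1 : T1 ≤ t) (h2 : t ≤ T) (x : P2) (v : R3) :
    Ph t x v ≤ Bc CM a2 C1 * We v + vs t * E t x v := by
  refine (hP.src t x v h1 h2).trans (add_le_add_left ?_ _)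
  have hM : ∀ z, Mx z ≤ CM * E t x z := fun z =>
    (hCM z).1.trans (mul_le_mul' le_rfl (hE.We_le t x z h1))
  have hg : ∀ z, gh t x z ≤ a2 * E t x z := fun z => hP.crude t x z h1 h2
  have hQ : ∀ (a b : ℝ≥0), Qp (fun z => a * E t x z) (fun z => b * E t x z) v ≤
      (a * b * C1 : ℝ≥0) * We v := by
    intro a b
    rw [Qp_smul_left ENNReal.coe_ne_top, Qp_smul_right ENNReal.coe_ne_top]
    calc (a : ℝ≥0∞) * (b * Qp (E t x) (E t x) v) ≤ a * (b * (C1 * We v)) := by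
          gcongr
          exact hE.gain t x v h1
      _ = _ := by push_cast; ring
  have e1 : Qp Mx (gh t x) v ≤ (CM * a2 * C1 : ℝ≥0) * We v := (Qp_mono hM hg v).trans (hQ _ _)
  have e2 : Qp (gh t x) Mx v ≤ (CM * a2 * C1 : ℝ≥0) * We v := by
    refine (Qp_mono hg hM v).trans ((hQ _ _).trans (le_of_eq ?_))
    rw [mul_comm a2 CM]
  have e4 : Qp (gh t x) (gh t x) v ≤ (a2 * a2 * C1 : ℝ≥0) * We v := (Qp_mono hg hg v).trans (hQ _ _)
  have e3 : Mx v * Lc (gh t x) v ≤ (fpi * CM * (a2 * C1) : ℝ≥0) * We v := by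
    have i1 : ∫⁻ z, w1 z * gh t x z ≤ (a2 * C1 : ℝ≥0) := by
      calc ∫⁻ z, w1 z * gh t x z ≤ ∫⁻ z, a2 * (w1 z * E t x z) := by
            refine lintegral_mono fun z => ?_
            calc w1 z * gh t x z ≤ w1 z * (a2 * E t x z) := by gcongr; exact hg z
              _ = _ := by ring
        _ = a2 * ∫⁻ z, w1 z * E t x z := lintegral_const_mul' _ _ ENNReal.coe_ne_top
        _ ≤ a2 * C1 := by gcongr; exact hE.mom t x h1
        _ = _ := by push_cast; ring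
    calc Mx v * Lc (gh t x) v ≤ Mx v * (fpi * w1 v * ∫⁻ z, w1 z * gh t x z) := by
          gcongr; exact Lc_le _ _
      _ ≤ Mx v * (fpi * w1 v * (a2 * C1 : ℝ≥0)) := by gcongr
      _ = fpi * (w1 v * Mx v) * (a2 * C1 : ℝ≥0) := by ring
      _ ≤ fpi * (CM * We v) * (a2 * C1 : ℝ≥0) :=
          mul_le_mul' (mul_le_mul' le_rfl (hCM v).2) le_rfl
      _ = _ := by push_cast; ring
  calc _ ≤ (CM * a2 * C1 : ℝ≥0) * We v + (CM * a2 * C1 : ℝ≥0) * We v +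
        (fpi * CM * (a2 * C1) : ℝ≥0) * We v + (a2 * a2 * C1 : ℝ≥0) * We v := by gcongr
    _ = _ := by unfold Bc; push_cast; ring

theorem Ph_le2 (hE : KHyp T1 lam C1 Cf E) (hP : PHyp T1 T nu0 a2 E gh Ph damp vs)
    (hCM : ∀ v : R3, Mx v ≤ CM * We v ∧ w1 v * Mx v ≤ CM * We v) (ha2 : a2 ≠ 0)
    {ε : ℝ≥0} (hε : 0 < ε)
    {t : ℝ} (h1 : T1 ≤ t) (h2 : t ≤ T) (x : P2) (v : R3) :
    Ph t x v ≤ C2c CM a2 * (a2 * ε + Cf ε * ∫⁻ z, gh t x z) + vs t * E t x v := by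
  refine (hP.src t x v h1 h2).trans (add_le_add_left ?_ _)
  have hm := meas_gh hP t x
  have hM : ∀ z, Mx z ≤ CM * E t x z := fun z =>
    (hCM z).1.trans (mul_le_mul' le_rfl (hE.We_le t x z h1))
  have hg : ∀ z, gh t x z ≤ a2 * E t x z := fun z => hP.crude t x z h1 h2
  have ha : (a2 : ℝ≥0∞) ≠ 0 := by exact_mod_cast ha2
  have hai : (a2 : ℝ≥0∞) * (a2 : ℝ≥0∞)⁻¹ = 1 := ENNReal.mul_inv_cancel ha ENNReal.coe_ne_top
  set f' : R3 → ℝ≥0∞ := fun z => (a2 : ℝ≥0∞)⁻¹ * gh t x z with hf'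
  have hf'm : Measurable f' := hm.const_mul _
  have hf'E : ∀ z, f' z ≤ E t x z := by
    intro z
    calc f' z ≤ (a2 : ℝ≥0∞)⁻¹ * (a2 * E t x z) := mul_le_mul' le_rfl (hg z)
      _ = (a2 * (a2 : ℝ≥0∞)⁻¹) * E t x z := by ring
      _ = E t x z := by rw [hai, one_mul]
  have hff : ∀ z, gh t x z = a2 * f' z := by
    intro z
    rw [hf']
    simp only
    rw [← mul_assoc, hai, one_mul]
  have hint : ∫⁻ z, gh t x z = a2 * ∫⁻ z, f' z := by
    rw [← lintegral_const_mul' _ _ ENNReal.coe_ne_top]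
    exact lintegral_congr hff
  set I : ℝ≥0∞ := a2 * ε + Cf ε * ∫⁻ z, gh t x z with hI
  have hIe : (a2 : ℝ≥0∞) * (ε + Cf ε * ∫⁻ z, f' z) = I := by rw [hI, hint]; ring
  have s1 : Qp (E t x) (gh t x) v ≤ I := by
    rw [show gh t x = fun z => a2 * f' z from funext hff, Qp_smul_right ENNReal.coe_ne_top, ← hIe]
    gcongr
    exact hE.gsm2 ε hε t x v h1 f' hf'm hf'E
  have s2 : Qp (gh t x) (E t x) v ≤ I := by
    rw [show gh t x = fun z => a2 * f' z from funext hff, Qp_smul_left ENNReal.coe_ne_top, ← hIe]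
    gcongr
    exact hE.gsm1 ε hε t x v h1 f' hf'm hf'E
  have s3 : ∫⁻ z, w1 z * gh t x z ≤ I := by
    calc ∫⁻ z, w1 z * gh t x z = ∫⁻ z, a2 * (w1 z * f' z) :=
          lintegral_congr fun z => by rw [hff z]; ring
      _ = a2 * ∫⁻ z, w1 z * f' z := lintegral_const_mul' _ _ ENNReal.coe_ne_top
      _ ≤ a2 * (ε + Cf ε * ∫⁻ z, f' z) := by gcongr; exact hE.msm ε hε t x h1 f' hf'm hf'E
      _ = I := hIe
  have e1 : Qp Mx (gh t x) v ≤ CM * I := by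
    refine (Qp_mono hM (fun z => le_rfl) v).trans ?_
    rw [Qp_smul_left ENNReal.coe_ne_top]
    gcongr
  have e2 : Qp (gh t x) Mx v ≤ CM * I := by
    refine (Qp_mono (fun z => le_rfl) hM v).trans ?_
    rw [Qp_smul_right ENNReal.coe_ne_top]
    gcongr
  have e4 : Qp (gh t x) (gh t x) v ≤ a2 * I := by
    refine (Qp_mono hg (fun z => le_rfl) v).trans ?_
    rw [Qp_smul_left ENNReal.coe_ne_top]
    gcongr
  have e3 : Mx v * Lc (gh t x) v ≤ fpi * CM * I := by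
    calc Mx v * Lc (gh t x) v ≤ Mx v * (fpi * w1 v * ∫⁻ z, w1 z * gh t x z) := by
          gcongr; exact Lc_le _ _
      _ ≤ Mx v * (fpi * w1 v * I) := by gcongr
      _ = fpi * (w1 v * Mx v) * I := by ring
      _ ≤ fpi * (CM * We v) * I := mul_le_mul' (mul_le_mul' le_rfl (hCM v).2) le_rfl
      _ ≤ fpi * (CM * 1) * I := by gcongr; exact We_le_one v
      _ = _ := by ring
  calc _ ≤ CM * I + CM * I + fpi * CM * I + a2 * I := by gcongr
    _ = _ := by unfold C2c; push_cast; ring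

end src

end Crest.Agent.R68.WA
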