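import Crest.Agent.R68.WA1

/-!
# Row 68, PART W (helper153): the a-priori theorem, part 2 (layer, damping, time integrals)
-/

set_option autoImplicit false
open MeasureTheory Set
open scoped ENNReal NNReal
open Crest.AnalysisR.VecCalc3 Crest.AnalysisR.PDE.Boltzmann

noncomputable section

namespace Crest.Agent.R68.WA

theorem lint_exp {ρ : ℝ} (hρ : 0 < ρ) (s t : ℝ) :
    ∫⁻ r in Ioo s t, ENNReal.ofReal (Real.exp (-(ρ * (t - r)))) ≤ ENNReal.ofReal (1 / ρ) := by
  rcases le_total t s with h | h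
  · rw [Ioo_eq_empty (not_lt.2 h)]; simp
  have hd : ∀ x ∈ uIcc s t, HasDerivAt (fun r => Real.exp (-(ρ * (t - r))) / ρ)
      (Real.exp (-(ρ * (t - x)))) x := by
    intro x _
    have h1 : HasDerivAt (fun r => -(ρ * (t - r))) ρ x := by
      have h0 : HasDerivAt (fun r : ℝ => ρ * r - ρ * t) ρ x := by
        simpa using ((hasDerivAt_id x).const_mul ρ).sub_const (ρ * t)
      have e : (fun r => -(ρ * (t - r))) = fun r : ℝ => ρ * r - ρ * t := by funext r; ring
      rw [e]; exact h0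
    have h2 := (h1.exp).div_const ρ
    have e2 : Real.exp (-(ρ * (t - x))) * ρ / ρ = Real.exp (-(ρ * (t - x))) :=
      mul_div_cancel_right₀ _ hρ.ne'
    rw [e2] at h2
    exact h2
  have hc : Continuous fun r => Real.exp (-(ρ * (t - r))) := by fun_prop
  have hi := intervalIntegral.integral_eq_sub_of_hasDerivAt hd (hc.intervalIntegrable _ _)
  have hint : IntegrableOn (fun r => Real.exp (-(ρ * (t - r)))) (Ioo s t) volume :=
    (hc.integrableOn_Icc (a := s) (b := t)).mono_set Ioo_subset_Icc_self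
  rw [← ofReal_integral_eq_lintegral_ofReal hint (ae_of_all _ fun r => (Real.exp_pos _).le)]
  refine ENNReal.ofReal_le_ofReal ?_
  rw [← integral_Ioc_eq_integral_Ioo, ← intervalIntegral.integral_of_le h, hi]
  have : 0 ≤ Real.exp (-(ρ * (t - s))) / ρ := by positivity
  simp only [sub_self, mul_zero, neg_zero, Real.exp_zero]
  linarith

theorem lint_exp_max {ρ : ℝ} (hρ : 0 < ρ) {T1 t1 t : ℝ} (h2 : t1 ≤ t) :
    ∫⁻ r in Ioo T1 t, ENNReal.ofReal (Real.exp (-(ρ * (t - max r t1)))) ≤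
      ENNReal.ofReal (t1 - T1) + ENNReal.ofReal (1 / ρ) := by
  have hsub : Ioo T1 t ⊆ Ioc T1 t1 ∪ Ioo t1 t := by
    intro r hr
    rcases le_or_gt r t1 with h | h
    · exact Or.inl ⟨hr.1, h⟩
    · exact Or.inr ⟨h, hr.2⟩
  refine (lintegral_mono_set hsub).trans ((lintegral_union_le _ _ _).trans (add_le_add ?_ ?_))
  · calc ∫⁻ r in Ioc T1 t1, ENNReal.ofReal (Real.exp (-(ρ * (t - max r t1))))
        ≤ ∫⁻ _r in Ioc T1 t1, (1 : ℝ≥0∞) := by
          refine setLIntegral_mono' measurableSet_Ioc fun r hr => ?_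
          rw [← ENNReal.ofReal_one]
          refine ENNReal.ofReal_le_ofReal (Real.exp_le_one_iff.2 ?_)
          have : max r t1 ≤ t := max_le (hr.2.trans h2) h2
          nlinarith
      _ = ENNReal.ofReal (t1 - T1) := by simp
  · calc ∫⁻ r in Ioo t1 t, ENNReal.ofReal (Real.exp (-(ρ * (t - max r t1))))
        = ∫⁻ r in Ioo t1 t, ENNReal.ofReal (Real.exp (-(ρ * (t - r)))) := by
          refine setLIntegral_congr_fun measurableSet_Ioo fun r hr => ?_
          simp only [max_eq_left hr.1.le]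
      _ ≤ _ := lint_exp hρ _ _

section

variable {T1 T nu0 lam : ℝ} {C1 : ℝ≥0} {Cf : ℝ≥0 → ℝ≥0} {a2 : ℝ≥0}
  {E gh Ph : ℝ → P2 → R3 → ℝ≥0∞} {damp : ℝ → ℝ → P2 → R3 → ℝ≥0∞} {vs : ℝ → ℝ≥0∞} {CM : ℝ≥0}

/-- the initial layer: no damping is used -/
theorem layer (hE : KHyp T1 lam C1 Cf E) (hP : PHyp T1 T nu0 a2 E gh Ph damp vs)
    (hCM : ∀ v : R3, Mx v ≤ CM * We v ∧ w1 v * Mx v ≤ CM * We v) (hlam : 0 ≤ lam)
    {A S0 : ℝ≥0} (hS : 0 < S0) (hinit : ∀ x v, gh T1 x v ≤ A * E T1 x v)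
    (hvs : ∫⁻ t in Ioo T1 T, vs t ≤ S0) {ell t : ℝ} (h1 : T1 ≤ t) (h2 : t ≤ T)
    (h3 : t ≤ T1 + ell) (x : P2) (v : R3) :
    gh t x v ≤ (ENNReal.ofReal (Real.exp (lam * ell)) * (A + S0) +
      Bc CM a2 C1 * ENNReal.ofReal ell) * E t x v := by
  set Z : ℝ≥0∞ := ENNReal.ofReal (Real.exp (lam * ell)) with hZ
  by_cases hEt : E t x v = ⊤
  · have hZ0 : Z ≠ 0 := by
      rw [hZ, Ne, ENNReal.ofReal_eq_zero, not_le]; exact Real.exp_pos _
    have hAS : ((A : ℝ≥0∞) + S0) ≠ 0 := by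
      intro h
      exact hS.ne' (by exact_mod_cast (add_eq_zero.1 h).2)
    have hc : Z * (A + S0) + Bc CM a2 C1 * ENNReal.ofReal ell ≠ 0 := fun h =>
      mul_ne_zero hZ0 hAS (add_eq_zero.1 h).1
    rw [hEt, ENNReal.mul_top hc]
    exact le_top
  have hfl : ∀ r, T1 ≤ r → r ≤ t → E r (x - (t - r) • bar v) v ≤ Z * E t x v := by
    intro r hr1 hr2
    refine (hE.flight r t x v hr1 hr2).trans (mul_le_mul' (ENNReal.ofReal_le_ofReal ?_) le_rfl)
    exact Real.exp_le_exp.2 (mul_le_mul_of_nonneg_left (by linarith) hlam)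
  refine (hP.duh T1 t x v hEt le_rfl h1 h2).trans ?_
  have e1 : damp T1 t x v * gh T1 (x - (t - T1) • bar v) v ≤ Z * A * E t x v := by
    calc damp T1 t x v * gh T1 (x - (t - T1) • bar v) v
        ≤ 1 * (A * E T1 (x - (t - T1) • bar v) v) :=
          mul_le_mul' (hP.damp1 _ _ _ _) (hinit _ _)
      _ ≤ 1 * (A * (Z * E t x v)) :=
          mul_le_mul' le_rfl (mul_le_mul' le_rfl (hfl T1 le_rfl h1))
      _ = _ := by ring
  have e2 : ∫⁻ r in Ioo T1 t, damp r t x v * Ph r (x - (t - r) • bar v) v ≤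
      Bc CM a2 C1 * ENNReal.ofReal ell * E t x v + Z * S0 * E t x v := by
    calc ∫⁻ r in Ioo T1 t, damp r t x v * Ph r (x - (t - r) • bar v) v
        ≤ ∫⁻ r in Ioo T1 t, (Bc CM a2 C1 * E t x v + vs r * (Z * E t x v)) := by
          refine setLIntegral_mono' measurableSet_Ioo fun r hr => ?_
          calc damp r t x v * Ph r (x - (t - r) • bar v) v
              ≤ 1 * (Bc CM a2 C1 * We v + vs r * E r (x - (t - r) • bar v) v) :=
                mul_le_mul' (hP.damp1 _ _ _ _)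
                  (Ph_le1 hE hP hCM hr.1.le (hr.2.le.trans h2) _ _)
            _ ≤ Bc CM a2 C1 * E t x v + vs r * (Z * E t x v) := by
                rw [one_mul]
                exact add_le_add (mul_le_mul' le_rfl (hE.We_le t x v h1))
                  (mul_le_mul' le_rfl (hfl r hr.1.le hr.2.le))
      _ = Bc CM a2 C1 * E t x v * ENNReal.ofReal (t - T1) +
          (∫⁻ r in Ioo T1 t, vs r) * (Z * E t x v) := by
          rw [lintegral_add_left measurable_const, lintegral_mul_const _ hP.vsm]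
          simp
      _ ≤ Bc CM a2 C1 * E t x v * ENNReal.ofReal ell + S0 * (Z * E t x v) := by
          refine add_le_add (mul_le_mul' le_rfl (ENNReal.ofReal_le_ofReal (by linarith)))
            (mul_le_mul' ((lintegral_mono_set (Ioo_subset_Ioo_right h2)).trans hvs) le_rfl)
      _ = _ := by ring
  refine (add_le_add e1 e2).trans (le_of_eq (by ring))

/-- small density gives a damping rate -/
theorem Lc_small {del : ℝ≥0} (hdel : (fpi : ℝ≥0∞) * del ≤ ENNReal.ofReal (nu0 / 2)) (hnu : 0 < nu0)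
    {g : R3 → ℝ≥0∞} (hg : ∫⁻ z, w1 z * g z ≤ del) (v : R3) :
    Lc g v ≤ ENNReal.ofReal (nu0 / 2 * (1 + ‖v‖)) := by
  calc Lc g v ≤ fpi * w1 v * ∫⁻ z, w1 z * g z := Lc_le g v
    _ ≤ fpi * w1 v * del := mul_le_mul' le_rfl hg
    _ = (fpi * del) * w1 v := by ring
    _ ≤ ENNReal.ofReal (nu0 / 2) * w1 v := mul_le_mul' hdel le_rfl
    _ = _ := by unfold w1; rw [← ENNReal.ofReal_mul (by positivity)]

/-- damping up to one unit of time after the verified range -/
theorem damp_step (hP : PHyp T1 T nu0 a2 E gh Ph damp vs) (hnu : 0 < nu0) {del : ℝ≥0}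
    (hdel : (fpi : ℝ≥0∞) * del ≤ ENNReal.ofReal (nu0 / 2)) {t1 ts t : ℝ}
    (hts : t1 ≤ ts) (htt : ts ≤ t) (htt' : t ≤ ts + 1) (htT : t ≤ T)
    (hN : ∀ s y, t1 ≤ s → s < ts → ∫⁻ z, w1 z * gh s y z ≤ del)
    {s : ℝ} (hs : T1 ≤ s) (x : P2) (v : R3) (hEt : E t x v ≠ ⊤) :
    damp s t x v ≤ ENNReal.ofReal (Real.exp (nu0 / 2)) *
      ENNReal.ofReal (Real.exp (-(nu0 / 2 * (t - max s t1)))) := by
  rw [← ENNReal.ofReal_mul (Real.exp_pos _).le, ← Real.exp_add]
  rcases le_total ts s with h | h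
  · refine (hP.damp1 _ _ _ _).trans ?_
    rw [← ENNReal.ofReal_one]
    refine ENNReal.ofReal_le_ofReal (Real.one_le_exp ?_)
    have h5 : max s t1 = s := max_eq_left (hts.trans h)
    rw [h5]
    nlinarith
  · have hm1 : s ≤ max s t1 := le_max_left _ _
    have hm2 : max s t1 ≤ ts := max_le h hts
    refine (hP.damp2 s (max s t1) ts t x v hEt hs hm1 hm2 htt htT ?_).trans ?_
    · intro r hr
      refine Lc_small hdel hnu (hN r _ ((le_max_right _ _).trans hr.1.le) hr.2) v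
    · refine ENNReal.ofReal_le_ofReal (Real.exp_le_exp.2 ?_)
      have h6 : 0 ≤ ‖v‖ := norm_nonneg v
      have h7 : 0 ≤ ts - max s t1 := by linarith
      have h8 : nu0 / 2 * (ts - max s t1) ≤ nu0 / 2 * (1 + ‖v‖) * (ts - max s t1) := by
        have : nu0 / 2 ≤ nu0 / 2 * (1 + ‖v‖) := by nlinarith
        exact mul_le_mul_of_nonneg_right this h7
      nlinarith

end

end Crest.Agent.R68.WA
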