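import Crest.Agent.R68.WA2

/-!
# Row 68, PART W (helper153): the a-priori theorem, part 3 (bound of the density)
-/

set_option autoImplicit false
open MeasureTheory Set
open scoped ENNReal NNReal
open Crest.AnalysisR.VecCalc3 Crest.AnalysisR.PDE.Boltzmann

noncomputable section

namespace Crest.Agent.R68.WA

/-- the tail of `(1+|v|)e^{-|v|}` -/
def tail (R : ℝ≥0) : ℝ≥0∞ := ∫⁻ v in {v : R3 | ‖v‖ ≤ R}ᶜ, w1 v * We v
/-- volume of the ball -/
def vol (R : ℝ≥0) : ℝ≥0∞ := volume {v : R3 | ‖v‖ ≤ R}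
/-- source constant away from the diagonal -/
def J2c (CM a2 C1 : ℝ≥0) (Cfe C8R : ℝ≥0) (ε κ R e0 : ℝ≥0) : ℝ≥0∞ :=
  Bc CM a2 C1 * tail R + (1 + R : ℝ≥0) * C2c CM a2 *
    (a2 * ε * vol R + Cfe * (C8R * (1 + ENNReal.ofReal (1 / (κ : ℝ) ^ 2)) * e0))

theorem measurable_bar : Measurable bar := by
  unfold bar
  fun_prop

section

variable {T1 T nu0 lam : ℝ} {C1 : ℝ≥0} {Cf C8 : ℝ≥0 → ℝ≥0} {a2 : ℝ≥0}
  {E gh Ph : ℝ → P2 → R3 → ℝ≥0∞} {damp : ℝ → ℝ → P2 → R3 → ℝ≥0∞} {vs : ℝ → ℝ≥0∞} {CM : ℝ≥0}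

theorem meas_nn (hP : PHyp T1 T nu0 a2 E gh Ph damp vs) :
    Measurable fun p : ℝ × P2 => ∫⁻ z, gh p.1 p.2 z := by
  have h : Measurable fun q : (ℝ × P2) × R3 => gh q.1.1 q.1.2 q.2 :=
    hP.meas.comp ((measurable_fst.comp measurable_fst).prodMk
      ((measurable_snd.comp measurable_fst).prodMk measurable_snd))
  exact h.lintegral_prod_right'

theorem per_nn (hP : PHyp T1 T nu0 a2 E gh Ph damp vs) (r : ℝ) :
    PerG fun y => ∫⁻ z, gh r y z := by
  intro y k
  exact lintegral_congr fun z => hP.per r z y k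

/-- the velocity integral of the source bound at distance `≥ κ` in time -/
theorem J_far (hP : PHyp T1 T nu0 a2 E gh Ph damp vs) (htr : Trans C8)
    {e0 : ℝ≥0} (hL1 : ∀ s, T1 ≤ s → s ≤ T → ∫⁻ y in cellG, ∫⁻ z, gh s y z ≤ e0)
    (ε κ R : ℝ≥0) (hκ : 0 < κ) {r t : ℝ} (h1 : T1 ≤ r) (h2 : r + κ ≤ t) (h3 : t ≤ T) (x : P2) :
    ∫⁻ v, w1 v * min (Bc CM a2 C1 * We v)
      (C2c CM a2 * (a2 * ε + Cf ε * ∫⁻ z, gh r (x - (t - r) • bar v) z)) ≤
      J2c CM a2 C1 (Cf ε) (C8 R) ε κ R e0 := by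
  have hκ' : (0 : ℝ) < κ := hκ
  have hset : MeasurableSet {v : R3 | ‖v‖ ≤ R} := measurableSet_le measurable_norm measurable_const
  rw [← lintegral_add_compl _ hset, add_comm]
  unfold J2c
  refine add_le_add ?_ ?_
  · unfold tail
    calc ∫⁻ v in {v : R3 | ‖v‖ ≤ R}ᶜ, w1 v * min (Bc CM a2 C1 * We v)
          (C2c CM a2 * (a2 * ε + Cf ε * ∫⁻ z, gh r (x - (t - r) • bar v) z))
        ≤ ∫⁻ v in {v : R3 | ‖v‖ ≤ R}ᶜ, Bc CM a2 C1 * (w1 v * We v) := by
          refine lintegral_mono fun v => ?_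
          calc _ ≤ w1 v * (Bc CM a2 C1 * We v) := mul_le_mul' le_rfl (min_le_left _ _)
            _ = _ := by ring
      _ = _ := lintegral_const_mul' _ _ ENNReal.coe_ne_top
  · have hn : Measurable fun y : P2 => ∫⁻ z, gh r y z :=
      (meas_nn hP).comp (measurable_const.prodMk measurable_id)
    have htau : 0 < t - r := by linarith
    have i1 := htr R (t - r) htau (fun y => ∫⁻ z, gh r y z) hn (per_nn hP r) x
    have i2 : ∫⁻ v in {v : R3 | ‖v‖ ≤ R}, (∫⁻ z, gh r (x - (t - r) • bar v) z) ≤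
        C8 R * (1 + ENNReal.ofReal (1 / (κ : ℝ) ^ 2)) * e0 := by
      refine i1.trans (mul_le_mul' (mul_le_mul' le_rfl (add_le_add le_rfl ?_))
        (hL1 r h1 (by linarith)))
      refine ENNReal.ofReal_le_ofReal ?_
      apply one_div_le_one_div_of_le (by positivity)
      have : (κ : ℝ) ≤ t - r := by linarith
      exact pow_le_pow_left₀ hκ'.le this 2
    calc ∫⁻ v in {v : R3 | ‖v‖ ≤ R}, w1 v * min (Bc CM a2 C1 * We v)
          (C2c CM a2 * (a2 * ε + Cf ε * ∫⁻ z, gh r (x - (t - r) • bar v) z))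
        ≤ ∫⁻ v in {v : R3 | ‖v‖ ≤ R}, ((1 + R : ℝ≥0) * C2c CM a2 : ℝ≥0) *
            (a2 * ε + Cf ε * ∫⁻ z, gh r (x - (t - r) • bar v) z) := by
          refine setLIntegral_mono' hset fun v hv => ?_
          have hw : w1 v ≤ ((1 + R : ℝ≥0) : ℝ≥0∞) := by
            unfold w1
            rw [← ENNReal.ofReal_coe_nnreal]
            refine ENNReal.ofReal_le_ofReal ?_
            push_cast
            have : ‖v‖ ≤ R := hv
            linarith
          calc _ ≤ ((1 + R : ℝ≥0) : ℝ≥0∞) * (C2c CM a2 * (a2 * ε + Cf ε *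
                ∫⁻ z, gh r (x - (t - r) • bar v) z)) := mul_le_mul' hw (min_le_right _ _)
            _ = _ := by push_cast; ring
      _ = ((1 + R : ℝ≥0) * C2c CM a2 : ℝ≥0) * (a2 * ε * vol R + Cf ε *
            ∫⁻ v in {v : R3 | ‖v‖ ≤ R}, ∫⁻ z, gh r (x - (t - r) • bar v) z) := by
          have e1 : ∫⁻ v in {v : R3 | ‖v‖ ≤ R}, (Cf ε : ℝ≥0∞) *
              ∫⁻ z, gh r (x - (t - r) • bar v) z = Cf ε *
              ∫⁻ v in {v : R3 | ‖v‖ ≤ R}, ∫⁻ z, gh r (x - (t - r) • bar v) z :=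
            lintegral_const_mul' _ _ ENNReal.coe_ne_top
          have e2 : ∫⁻ _v in {v : R3 | ‖v‖ ≤ R}, ((a2 : ℝ≥0∞) * ε) = a2 * ε * vol R := by
            rw [lintegral_const, Measure.restrict_apply MeasurableSet.univ, univ_inter]; rfl
          rw [lintegral_const_mul' _ _ ENNReal.coe_ne_top, lintegral_add_left measurable_const,
            e1, e2]
      _ ≤ _ := by
          push_cast
          gcongr

/-- the velocity integral of the source bound, crude -/
theorem J_near (hE : KHyp T1 lam C1 Cf E) {t : ℝ} (h1 : T1 ≤ t) (x : P2) (f : R3 → ℝ≥0∞) :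
    ∫⁻ v, w1 v * min (Bc CM a2 C1 * We v) (f v) ≤ Bc CM a2 C1 * C1 := by
  calc ∫⁻ v, w1 v * min (Bc CM a2 C1 * We v) (f v)
      ≤ ∫⁻ v, Bc CM a2 C1 * (w1 v * E t x v) := by
        refine lintegral_mono fun v => ?_
        calc _ ≤ w1 v * (Bc CM a2 C1 * E t x v) :=
              mul_le_mul' le_rfl ((min_le_left _ _).trans (mul_le_mul' le_rfl (hE.We_le t x v h1)))
          _ = _ := by ring
    _ = Bc CM a2 C1 * ∫⁻ v, w1 v * E t x v := lintegral_const_mul' _ _ ENNReal.coe_ne_top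
    _ ≤ _ := mul_le_mul' le_rfl (hE.mom t x h1)

theorem swap_aux {g : R3 → ℝ≥0∞} (hg : Measurable g) {a b : ℝ → ℝ≥0∞} (ha : Measurable a)
    (hb : Measurable b) {P : ℝ → R3 → ℝ≥0∞} (hP : Measurable fun p : ℝ × R3 => P p.1 p.2)
    {e : R3 → ℝ≥0∞} (he : Measurable e) (s : Set ℝ) {c : ℝ≥0∞} (hc : ∫⁻ v, w1 v * e v ≤ c) :
    ∫⁻ v, w1 v * (g v + ∫⁻ r in s, a r * (P r v + b r * e v)) ≤
      (∫⁻ v, w1 v * g v) + ∫⁻ r in s, a r * ((∫⁻ v, w1 v * P r v) + b r * c) := by
  have hw := measurable_w1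
  have hm : Measurable fun p : R3 × ℝ => w1 p.1 * (a p.2 * (P p.2 p.1 + b p.2 * e p.1)) := by
    have hP' : Measurable fun p : R3 × ℝ => P p.2 p.1 := hP.comp measurable_swap
    have ha' : Measurable fun p : R3 × ℝ => a p.2 := ha.comp measurable_snd
    have hb' : Measurable fun p : R3 × ℝ => b p.2 := hb.comp measurable_snd
    have he' : Measurable fun p : R3 × ℝ => e p.1 := he.comp measurable_fst
    have hw' : Measurable fun p : R3 × ℝ => w1 p.1 := hw.comp measurable_fst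
    exact hw'.mul (ha'.mul (hP'.add (hb'.mul he')))
  calc ∫⁻ v, w1 v * (g v + ∫⁻ r in s, a r * (P r v + b r * e v))
      = ∫⁻ v, (w1 v * g v + ∫⁻ r in s, w1 v * (a r * (P r v + b r * e v))) := by
        refine lintegral_congr fun v => ?_
        rw [mul_add, ← lintegral_const_mul' _ _ (w1_ne_top v)]
    _ = (∫⁻ v, w1 v * g v) + ∫⁻ v, ∫⁻ r in s, w1 v * (a r * (P r v + b r * e v)) := by
        have hwg : Measurable fun v => w1 v * g v := hw.mul hg
        rw [lintegral_add_left hwg]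
    _ = (∫⁻ v, w1 v * g v) + ∫⁻ r in s, ∫⁻ v, w1 v * (a r * (P r v + b r * e v)) := by
        rw [lintegral_lintegral_swap hm.aemeasurable]
    _ ≤ _ := by
        refine add_le_add le_rfl (lintegral_mono fun r => ?_)
        have hPr : Measurable (P r) := hP.comp (measurable_const.prodMk measurable_id)
        calc ∫⁻ v, w1 v * (a r * (P r v + b r * e v))
            = ∫⁻ v, a r * (w1 v * P r v + b r * (w1 v * e v)) :=
              lintegral_congr fun v => by ring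
          _ = a r * ((∫⁻ v, w1 v * P r v) + b r * ∫⁻ v, w1 v * e v) := by
              have h1 : Measurable fun v => w1 v * P r v := hw.mul hPr
              have h2 : Measurable fun v => w1 v * e v := hw.mul he
              have h3 : Measurable fun v => w1 v * P r v + b r * (w1 v * e v) :=
                h1.add (h2.const_mul _)
              rw [lintegral_const_mul _ h3, lintegral_add_left h1, lintegral_const_mul _ h2]
          _ ≤ a r * ((∫⁻ v, w1 v * P r v) + b r * c) := by gcongr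

theorem N_bound (hE : KHyp T1 lam C1 Cf E) (hP : PHyp T1 T nu0 a2 E gh Ph damp vs)
    (hCM : ∀ v : R3, Mx v ≤ CM * We v ∧ w1 v * Mx v ≤ CM * We v) (ha2 : a2 ≠ 0)
    (hlam : 0 ≤ lam) (hnu : 0 < nu0) (hln : lam ≤ nu0 / 2) (htr : Trans C8)
    {del e0 d0 S0 : ℝ≥0} (hdel : (fpi : ℝ≥0∞) * del ≤ ENNReal.ofReal (nu0 / 2))
    (hL1 : ∀ s, T1 ≤ s → s ≤ T → ∫⁻ y in cellG, ∫⁻ z, gh s y z ≤ e0)
    (hvs : ∫⁻ t in Ioo T1 T, vs t ≤ S0)
    {t1 ts t : ℝ} (ht1 : T1 ≤ t1) (hts : t1 ≤ ts) (htt : ts ≤ t) (htt' : t ≤ ts + 1) (htT : t ≤ T)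
    (hN : ∀ s y, t1 ≤ s → s < ts → ∫⁻ z, w1 z * gh s y z ≤ del) (x : P2)
    (hi : ENNReal.ofReal (Real.exp (-(nu0 / 2 * (t - t1)))) *
      ∫⁻ v, w1 v * gh T1 (x - (t - T1) • bar v) v ≤ d0)
    (ε κ R : ℝ≥0) (hε : 0 < ε) (hκ : 0 < κ) :
    ∫⁻ v, w1 v * gh t x v ≤ ENNReal.ofReal (Real.exp (nu0 / 2)) * d0 +
      ENNReal.ofReal (Real.exp (nu0 / 2)) *
      (Bc CM a2 C1 * C1 * κ + J2c CM a2 C1 (Cf ε) (C8 R) ε κ R e0 *
        (ENNReal.ofReal (t1 - T1) + ENNReal.ofReal (1 / (nu0 / 2))) +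
        ENNReal.ofReal (Real.exp (lam * (t1 - T1))) * C1 * S0) := by
  have h1 : T1 ≤ t := ht1.trans (hts.trans htt)
  have hκ' : (0 : ℝ) < κ := hκ
  set K0 : ℝ≥0∞ := ENNReal.ofReal (Real.exp (nu0 / 2)) with hK0
  set G : ℝ → ℝ≥0∞ := fun r => ENNReal.ofReal (Real.exp (-(nu0 / 2 * (t - max r t1)))) with hG
  set Pb : ℝ → R3 → ℝ≥0∞ := fun r v => min (Bc CM a2 C1 * We v)
      (C2c CM a2 * (a2 * ε + Cf ε * ∫⁻ z, gh r (x - (t - r) • bar v) z)) with hPb
  set Lr : ℝ → ℝ≥0∞ := fun r => ENNReal.ofReal (Real.exp (lam * (t - r))) with hLr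
  set J2 := J2c CM a2 C1 (Cf ε) (C8 R) ε κ R e0 with hJ2
  have hK0t : K0 ≠ ⊤ := ENNReal.ofReal_ne_top
  -- measurability
  have hnm := meas_nn hP
  have hGm : Measurable G := by rw [hG]; fun_prop
  have hLrm : Measurable Lr := by rw [hLr]; fun_prop
  have hbm : Measurable fun p : ℝ × R3 => ((p.1, x - (t - p.1) • bar p.2) : ℝ × P2) := by
    have := measurable_bar
    fun_prop
  have hPbm : Measurable fun p : ℝ × R3 => Pb p.1 p.2 := by
    rw [hPb]
    refine Measurable.min ((measurable_We.comp measurable_snd).const_mul _) ?_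
    exact ((((hnm.comp hbm).const_mul _).const_add _).const_mul _)
  -- step 1
  set e1t : ℝ≥0∞ := ENNReal.ofReal (Real.exp (-(nu0 / 2 * (t - t1)))) with he1t
  have he1tt : e1t ≠ ⊤ := ENNReal.ofReal_ne_top
  have s1 : ∀ v, E t x v ≠ ⊤ → gh t x v ≤ K0 * e1t * gh T1 (x - (t - T1) • bar v) v +
      ∫⁻ r in Ioo T1 t, K0 * G r * (Pb r v + vs r * (Lr r * E t x v)) := by
    intro v hEt
    refine (hP.duh T1 t x v hEt le_rfl h1 htT).trans (add_le_add ?_ ?_)
    · refine mul_le_mul' ?_ le_rfl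
      have := damp_step hP hnu hdel hts htt htt' htT hN le_rfl x v hEt
      rwa [max_eq_right ht1] at this
    · refine setLIntegral_mono' measurableSet_Ioo fun r hr => mul_le_mul' ?_ ?_
      · exact damp_step hP hnu hdel hts htt htt' htT hN hr.1.le x v hEt
      · have hrT : r ≤ T := hr.2.le.trans htT
        have e1 := Ph_le1 hE hP hCM hr.1.le hrT (x - (t - r) • bar v) v
        have e2 := Ph_le2 hE hP hCM ha2 hε hr.1.le hrT (x - (t - r) • bar v) v
        have e3 : vs r * E r (x - (t - r) • bar v) v ≤ vs r * (Lr r * E t x v) :=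
          mul_le_mul' le_rfl (hE.flight r t x v hr.1.le hr.2.le)
        have e1' := e1.trans (add_le_add le_rfl e3)
        have e2' := e2.trans (add_le_add le_rfl e3)
        rcases min_cases (Bc CM a2 C1 * We v)
          (C2c CM a2 * (a2 * ε + Cf ε * ∫⁻ z, gh r (x - (t - r) • bar v) z)) with h | h
        · rw [hPb]; simp only; rw [h.1]; exact e1'
        · rw [hPb]; simp only; rw [h.1]; exact e2'
  -- step 2
  have hEm : Measurable (E t x) :=
    hE.meas.comp (measurable_const.prodMk (measurable_const.prodMk measurable_id))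
  have hfin : ∀ᵐ v, E t x v ≠ ⊤ := by
    have hm : Measurable fun v => w1 v * E t x v := measurable_w1.mul hEm
    have := ae_lt_top hm (ne_top_of_le_ne_top ENNReal.coe_ne_top (hE.mom t x h1))
    filter_upwards [this] with v hv h
    rw [h, ENNReal.mul_top] at hv
    · exact hv.ne rfl
    · exact (lt_of_lt_of_le one_pos (one_le_w1 v)).ne'
  have s2 : ∫⁻ v, w1 v * gh t x v ≤ K0 * d0 +
      ∫⁻ r in Ioo T1 t, K0 * G r * ((∫⁻ v, w1 v * Pb r v) + vs r * (Lr r * C1)) := by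
    have hinit_meas0 : Measurable fun v : R3 => gh T1 (x - (t - T1) • bar v) v := by
      have h5 : Measurable fun v : R3 => ((T1, x - (t - T1) • bar v, v) : ℝ × P2 × R3) := by
        have := measurable_bar
        fun_prop
      exact hP.meas.comp h5
    have hinit_meas : Measurable fun v : R3 => K0 * e1t * gh T1 (x - (t - T1) • bar v) v :=
      hinit_meas0.const_mul _
    have hi' : ∫⁻ v, w1 v * (K0 * e1t * gh T1 (x - (t - T1) • bar v) v) ≤ K0 * d0 := by
      calc ∫⁻ v, w1 v * (K0 * e1t * gh T1 (x - (t - T1) • bar v) v)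
          = K0 * (e1t * ∫⁻ v, w1 v * gh T1 (x - (t - T1) • bar v) v) := by
            rw [← mul_assoc, ← lintegral_const_mul' _ _ (ENNReal.mul_ne_top hK0t he1tt)]
            exact lintegral_congr fun v => by ring
        _ ≤ _ := by gcongr
    calc ∫⁻ v, w1 v * gh t x v
        ≤ ∫⁻ v, w1 v * (K0 * e1t * gh T1 (x - (t - T1) • bar v) v +
            ∫⁻ r in Ioo T1 t, K0 * G r * (Pb r v + (vs r * Lr r) * E t x v)) := by
          refine lintegral_mono_ae ?_
          filter_upwards [hfin] with v hv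
          refine mul_le_mul' le_rfl ((s1 v hv).trans (le_of_eq ?_))
          congr 1
          exact lintegral_congr fun r => by ring
      _ ≤ _ := swap_aux hinit_meas (hGm.const_mul K0) (hP.vsm.mul hLrm) hPbm hEm (Ioo T1 t)
            (hE.mom t x h1)
      _ ≤ K0 * d0 + ∫⁻ r in Ioo T1 t, K0 * G r * ((∫⁻ v, w1 v * Pb r v) + vs r * (Lr r * C1)) := by
          refine add_le_add hi' (le_of_eq (lintegral_congr fun r => ?_))
          simp only [Pi.mul_apply]
          ring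
  -- step 3
  refine s2.trans (add_le_add le_rfl ?_)
  have s3 : ∀ r ∈ Ioo T1 t, K0 * G r * ((∫⁻ v, w1 v * Pb r v) + vs r * (Lr r * C1)) ≤
      K0 * ((Bc CM a2 C1 * C1) * (Ioo (t - κ) t).indicator (fun _ => (1 : ℝ≥0∞)) r + J2 * G r +
        ENNReal.ofReal (Real.exp (lam * (t1 - T1))) * C1 * vs r) := by
    intro r hr
    have g1 : G r ≤ 1 := by
      rw [hG, ← ENNReal.ofReal_one]
      refine ENNReal.ofReal_le_ofReal (Real.exp_le_one_iff.2 ?_)
      have : max r t1 ≤ t := max_le hr.2.le (hts.trans htt)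
      have : 0 ≤ nu0 / 2 * (t - max r t1) := mul_nonneg (by linarith) (by linarith)
      linarith
    have g2 : G r * Lr r ≤ ENNReal.ofReal (Real.exp (lam * (t1 - T1))) := by
      rw [hG, hLr]
      simp only
      rw [← ENNReal.ofReal_mul (Real.exp_pos _).le, ← Real.exp_add]
      refine ENNReal.ofReal_le_ofReal (Real.exp_le_exp.2 ?_)
      rcases le_total t1 r with h | h
      · rw [max_eq_left h]
        have a1 : lam * (t - r) ≤ nu0 / 2 * (t - r) :=
          mul_le_mul_of_nonneg_right hln (by linarith [hr.2])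
        have a2 : 0 ≤ lam * (t1 - T1) := mul_nonneg hlam (by linarith)
        linarith
      · rw [max_eq_right h]
        have a1 : lam * (t - t1) ≤ nu0 / 2 * (t - t1) :=
          mul_le_mul_of_nonneg_right hln (by linarith)
        have a3 : lam * (t1 - r) ≤ lam * (t1 - T1) :=
          mul_le_mul_of_nonneg_left (by linarith [hr.1]) hlam
        have a4 : lam * (t - r) = lam * (t - t1) + lam * (t1 - r) := by ring
        linarith
    have j : ∫⁻ v, w1 v * Pb r v ≤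
        (Bc CM a2 C1 * C1) * (Ioo (t - κ) t).indicator (fun _ => (1 : ℝ≥0∞)) r + J2 := by
      rcases lt_or_ge (t - κ) r with h | h
      · rw [indicator_of_mem (show r ∈ Ioo (t - (κ : ℝ)) t from ⟨h, hr.2⟩), mul_one]
        exact (J_near hE h1 x _).trans le_self_add
      · exact (J_far hP htr hL1 ε κ R hκ hr.1.le (by linarith) htT x).trans le_add_self
    calc K0 * G r * ((∫⁻ v, w1 v * Pb r v) + vs r * (Lr r * C1))
        ≤ K0 * G r * (((Bc CM a2 C1 * C1) * (Ioo (t - κ) t).indicator (fun _ => (1 : ℝ≥0∞)) r + J2)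
            + vs r * (Lr r * C1)) := by gcongr
      _ = K0 * ((Bc CM a2 C1 * C1) * (Ioo (t - κ) t).indicator (fun _ => (1 : ℝ≥0∞)) r * G r
            + J2 * G r + (G r * Lr r) * C1 * vs r) := by ring
      _ ≤ K0 * ((Bc CM a2 C1 * C1) * (Ioo (t - κ) t).indicator (fun _ => (1 : ℝ≥0∞)) r * 1
            + J2 * G r + (ENNReal.ofReal (Real.exp (lam * (t1 - T1)))) * C1 * vs r) := by gcongr
      _ = _ := by rw [mul_one]
  refine (setLIntegral_mono' measurableSet_Ioo s3).trans ?_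
  have hind : Measurable ((Ioo (t - (κ : ℝ)) t).indicator (fun _ => (1 : ℝ≥0∞))) :=
    measurable_const.indicator measurableSet_Ioo
  have m1 : Measurable fun r : ℝ => (Bc CM a2 C1 * C1 : ℝ≥0∞) *
      (Ioo (t - (κ : ℝ)) t).indicator (fun _ => (1 : ℝ≥0∞)) r := hind.const_mul _
  have m2 : Measurable fun r : ℝ => (Bc CM a2 C1 * C1 : ℝ≥0∞) *
      (Ioo (t - (κ : ℝ)) t).indicator (fun _ => (1 : ℝ≥0∞)) r + J2 * G r :=
    m1.add (hGm.const_mul _)
  rw [lintegral_const_mul' _ _ hK0t, lintegral_add_left m2,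
    lintegral_add_left m1, lintegral_const_mul _ hind, lintegral_const_mul _ hGm,
    lintegral_const_mul _ hP.vsm]
  have f1 : ∫⁻ r in Ioo T1 t, (Ioo (t - (κ : ℝ)) t).indicator (fun _ => (1 : ℝ≥0∞)) r ≤ κ := by
    calc ∫⁻ r in Ioo T1 t, (Ioo (t - (κ : ℝ)) t).indicator (fun _ => (1 : ℝ≥0∞)) r
        ≤ ∫⁻ r, (Ioo (t - (κ : ℝ)) t).indicator (fun _ => (1 : ℝ≥0∞)) r := setLIntegral_le_lintegral _ _
      _ = κ := by
          rw [lintegral_indicator measurableSet_Ioo]
          simp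
  have f2 : ∫⁻ r in Ioo T1 t, G r ≤ ENNReal.ofReal (t1 - T1) + ENNReal.ofReal (1 / (nu0 / 2)) :=
    lint_exp_max (by linarith) (hts.trans htt)
  have f3 : ∫⁻ r in Ioo T1 t, vs r ≤ S0 :=
    (lintegral_mono_set (Ioo_subset_Ioo_right htT)).trans hvs
  gcongr

end

end Crest.Agent.R68.WA
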