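import Crest.Agent.R68.WA3

/-!
# Row 68, PART W (helper153): the a-priori theorem
-/

set_option autoImplicit false
open MeasureTheory Set
open scoped ENNReal NNReal
open Crest.AnalysisR.VecCalc3 Crest.AnalysisR.PDE.Boltzmann

noncomputable section

namespace Crest.Agent.R68.WA

theorem exists_small {c : ℝ≥0∞} (hc : c ≠ ⊤) {d : ℝ≥0∞} (hd : d ≠ 0) :
    ∃ ε : ℝ≥0, 0 < ε ∧ ε ≤ 1 ∧ ∀ ε' : ℝ≥0, ε' ≤ ε → c * ε' ≤ d := by
  rcases eq_or_ne d ⊤ with rfl | hdt
  · exact ⟨1, one_pos, le_rfl, fun _ _ => le_top⟩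
  lift c to ℝ≥0 using hc
  lift d to ℝ≥0 using hdt
  have hd' : 0 < d := by
    rw [pos_iff_ne_zero]
    exact_mod_cast hd
  refine ⟨min 1 (d / (c + 1)), lt_min one_pos (by positivity), min_le_left _ _, fun ε' h => ?_⟩
  have h2 : ε' ≤ d / (c + 1) := h.trans (min_le_right _ _)
  have : c * ε' ≤ d := by
    calc c * ε' ≤ (c + 1) * (d / (c + 1)) := mul_le_mul' (le_add_of_nonneg_right zero_le_one) h2
      _ = d := by field_simp
  exact_mod_cast this

section

variable {T1 T nu0 lam : ℝ} {C1 : ℝ≥0} {Cf C8 : ℝ≥0 → ℝ≥0} {a2 : ℝ≥0}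
  {E gh Ph : ℝ → P2 → R3 → ℝ≥0∞} {damp : ℝ → ℝ → P2 → R3 → ℝ≥0∞} {vs : ℝ → ℝ≥0∞} {CM : ℝ≥0}

theorem tail_le (hE : KHyp T1 lam C1 Cf E) {η : ℝ≥0} (hη : 0 < η) {R : ℝ≥0}
    (hR : 2 * Cf (η / 2) * C1 ≤ η * R) (hR0 : 0 < R) : tail R ≤ η := by
  have hset : MeasurableSet {v : R3 | ‖v‖ ≤ R} := measurableSet_le measurable_norm measurable_const
  set f : R3 → ℝ≥0∞ := ({v : R3 | ‖v‖ ≤ R}ᶜ).indicator We with hf
  have hfm : Measurable f := measurable_We.indicator hset.compl
  have hfE : ∀ z, f z ≤ E T1 (0, 0) z := fun z =>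
    (indicator_le_self' (fun _ _ => zero_le) z).trans (hE.We_le T1 (0, 0) z le_rfl)
  have h1 : tail R = ∫⁻ z, w1 z * f z := by
    unfold tail
    rw [← lintegral_indicator hset.compl]
    refine lintegral_congr fun z => ?_
    rw [hf]
    by_cases hz : z ∈ ({v : R3 | ‖v‖ ≤ R}ᶜ : Set R3)
    · simp [indicator_of_mem hz]
    · simp [indicator_of_notMem hz]
  have h2 := hE.msm (η / 2) (by positivity) T1 (0, 0) le_rfl f hfm hfE
  have hRe : (R : ℝ≥0∞) ≠ 0 := by exact_mod_cast hR0.ne'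
  have h3 : (R : ℝ≥0∞) * ∫⁻ z, f z ≤ C1 := by
    rw [← lintegral_const_mul _ hfm]
    refine (lintegral_mono fun z => ?_).trans (hE.mom T1 (0, 0) le_rfl)
    by_cases hz : z ∈ ({v : R3 | ‖v‖ ≤ R}ᶜ : Set R3)
    · have hz' : (R : ℝ) < ‖z‖ := not_le.1 hz
      have : (R : ℝ≥0∞) ≤ w1 z := by
        unfold w1
        rw [← ENNReal.ofReal_coe_nnreal]
        exact ENNReal.ofReal_le_ofReal (by linarith)
      exact mul_le_mul' this (hfE z)
    · have : f z = 0 := indicator_of_notMem hz _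
      rw [this, mul_zero]; exact zero_le
  have h4 : (Cf (η / 2) : ℝ≥0∞) * ∫⁻ z, f z ≤ (η / 2 : ℝ≥0) := by
    have h5 : (R : ℝ≥0∞) * (Cf (η / 2) * ∫⁻ z, f z) ≤ R * (η / 2 : ℝ≥0) := by
      calc (R : ℝ≥0∞) * (Cf (η / 2) * ∫⁻ z, f z) = Cf (η / 2) * (R * ∫⁻ z, f z) := by ring
        _ ≤ Cf (η / 2) * C1 := by gcongr
        _ ≤ R * (η / 2 : ℝ≥0) := by
            have : Cf (η / 2) * C1 ≤ R * (η / 2) := by
              have e : R * (η / 2) = (η * R) / 2 := by ring
              rw [e, le_div_iff₀ (by norm_num)]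
              calc Cf (η / 2) * C1 * 2 = 2 * Cf (η / 2) * C1 := by ring
                _ ≤ _ := hR
            exact_mod_cast this
    exact (ENNReal.mul_le_mul_iff_right hRe ENNReal.coe_ne_top).1 h5
  rw [h1]
  refine h2.trans ?_
  calc ((η / 2 : ℝ≥0) : ℝ≥0∞) + Cf (η / 2) * ∫⁻ z, f z ≤ (η / 2 : ℝ≥0) + (η / 2 : ℝ≥0) := by gcongr
    _ = η := by rw [← ENNReal.coe_add, add_halves]

theorem vol_ne_top (R : ℝ≥0) : vol R ≠ ⊤ := by
  unfold vol
  have : {v : R3 | ‖v‖ ≤ R} = Metric.closedBall (0 : R3) R := by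
    ext v; simp
  rw [this]
  exact measure_closedBall_lt_top.ne

/-- the class bound after the initial layer -/
theorem class_bound (hE : KHyp T1 lam C1 Cf E) (hP : PHyp T1 T nu0 a2 E gh Ph damp vs)
    (hCM : ∀ v : R3, Mx v ≤ CM * We v ∧ w1 v * Mx v ≤ CM * We v) (ha2 : a2 ≠ 0)
    (hnu : 0 < nu0) (hln : lam ≤ nu0 / 2)
    {del S0 a1 : ℝ≥0} (hdel : (fpi : ℝ≥0∞) * del ≤ ENNReal.ofReal (nu0 / 2))
    (hvs : ∫⁻ t in Ioo T1 T, vs t ≤ S0)
    {t1 t : ℝ} (ht1 : T1 ≤ t1) (htt : t1 ≤ t) (htT : t ≤ T)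
    (hN : ∀ s y, t1 ≤ s → s < t → ∫⁻ z, w1 z * gh s y z ≤ del)
    (ha1 : ∀ x v, gh t1 x v ≤ a1 * E t1 x v)
    {R2 ε : ℝ≥0} (hε : 0 < ε)
    (c1 : (Bc CM a2 C1 : ℝ≥0∞) * ENNReal.ofReal (1 / (nu0 / 2 * (1 + R2))) ≤ 1 / 2)
    (c2 : C2c CM a2 * (a2 * ε + Cf ε * del) * ENNReal.ofReal (1 / (nu0 / 2)) ≤
      1 / 2 * ENNReal.ofReal (Real.exp (-R2))) (x : P2) (v : R3) :
    gh t x v ≤ (a1 + S0 + 1 / 2) * E t x v := by
  have h1 : T1 ≤ t := ht1.trans htt
  by_cases hEt : E t x v = ⊤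
  · have hc : (a1 : ℝ≥0∞) + S0 + 1 / 2 ≠ 0 := fun h => by simpa using (add_eq_zero.1 h).2
    rw [hEt, ENNReal.mul_top hc]
    exact le_top
  set ρ : ℝ := nu0 / 2 * (1 + ‖v‖) with hρ
  have hv0 := norm_nonneg v
  have hρ0 : nu0 / 2 ≤ ρ := by rw [hρ]; nlinarith
  have hρp : 0 < ρ := by linarith
  have hd : ∀ r, t1 ≤ r → r ≤ t → damp r t x v ≤ ENNReal.ofReal (Real.exp (-(ρ * (t - r)))) := by
    intro r hr1 hr2
    exact hP.damp2 r r t t x v hEt (ht1.trans hr1) le_rfl hr2 le_rfl htT fun s hs =>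
      Lc_small hdel hnu (hN s _ (hr1.trans hs.1.le) hs.2) v
  have hfl : ∀ r, t1 ≤ r → r ≤ t → damp r t x v * E r (x - (t - r) • bar v) v ≤ E t x v := by
    intro r hr1 hr2
    calc damp r t x v * E r (x - (t - r) • bar v) v
        ≤ ENNReal.ofReal (Real.exp (-(ρ * (t - r)))) *
            (ENNReal.ofReal (Real.exp (lam * (t - r))) * E t x v) :=
          mul_le_mul' (hd r hr1 hr2) (hE.flight r t x v (ht1.trans hr1) hr2)
      _ = ENNReal.ofReal (Real.exp (-(ρ * (t - r)) + lam * (t - r))) * E t x v := by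
          rw [← mul_assoc, ← ENNReal.ofReal_mul (Real.exp_pos _).le, ← Real.exp_add]
      _ ≤ 1 * E t x v := by
          refine mul_le_mul' ?_ le_rfl
          rw [← ENNReal.ofReal_one]
          refine ENNReal.ofReal_le_ofReal (Real.exp_le_one_iff.2 ?_)
          have : lam * (t - r) ≤ ρ * (t - r) :=
            mul_le_mul_of_nonneg_right (hln.trans hρ0) (by linarith)
          linarith
      _ = _ := one_mul _
  set m : ℝ≥0∞ := min (Bc CM a2 C1 * We v) (C2c CM a2 * (a2 * ε + Cf ε * del)) with hm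
  have hnn : ∀ s y, t1 ≤ s → s < t → ∫⁻ z, gh s y z ≤ del := by
    intro s y h2 h3
    refine (lintegral_mono fun z => ?_).trans (hN s y h2 h3)
    exact le_mul_of_one_le_left' (one_le_w1 z)
  have e1 : damp t1 t x v * gh t1 (x - (t - t1) • bar v) v ≤ a1 * E t x v := by
    calc damp t1 t x v * gh t1 (x - (t - t1) • bar v) v
        ≤ damp t1 t x v * (a1 * E t1 (x - (t - t1) • bar v) v) := mul_le_mul' le_rfl (ha1 _ _)
      _ = a1 * (damp t1 t x v * E t1 (x - (t - t1) • bar v) v) := by ring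
      _ ≤ _ := mul_le_mul' le_rfl (hfl t1 le_rfl htt)
  have hGm : Measurable fun r : ℝ => ENNReal.ofReal (Real.exp (-(ρ * (t - r)))) := by fun_prop
  have e2 : ∫⁻ r in Ioo t1 t, damp r t x v * Ph r (x - (t - r) • bar v) v ≤
      ENNReal.ofReal (1 / ρ) * m + S0 * E t x v := by
    calc ∫⁻ r in Ioo t1 t, damp r t x v * Ph r (x - (t - r) • bar v) v
        ≤ ∫⁻ r in Ioo t1 t, (ENNReal.ofReal (Real.exp (-(ρ * (t - r)))) * m + vs r * E t x v) := by
          refine setLIntegral_mono' measurableSet_Ioo fun r hr => ?_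
          have hr1 : T1 ≤ r := ht1.trans hr.1.le
          have hrT : r ≤ T := hr.2.le.trans htT
          have p1 := Ph_le1 hE hP hCM hr1 hrT (x - (t - r) • bar v) v
          have p2 := Ph_le2 hE hP hCM ha2 hε hr1 hrT (x - (t - r) • bar v) v
          have p2' : Ph r (x - (t - r) • bar v) v ≤ C2c CM a2 * (a2 * ε + Cf ε * del) +
              vs r * E r (x - (t - r) • bar v) v := by
            refine p2.trans (add_le_add ?_ le_rfl)
            gcongr
            exact hnn r _ hr.1.le hr.2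
          have p3 : Ph r (x - (t - r) • bar v) v ≤ m + vs r * E r (x - (t - r) • bar v) v := by
            rcases min_cases (Bc CM a2 C1 * We v)
              (C2c CM a2 * (a2 * ε + Cf ε * del)) with h | h
            · rw [hm, h.1]; exact p1
            · rw [hm, h.1]; exact p2'
          calc damp r t x v * Ph r (x - (t - r) • bar v) v
              ≤ damp r t x v * (m + vs r * E r (x - (t - r) • bar v) v) := mul_le_mul' le_rfl p3
            _ = damp r t x v * m + vs r * (damp r t x v * E r (x - (t - r) • bar v) v) := by ring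
            _ ≤ _ := add_le_add (mul_le_mul' (hd r hr.1.le hr.2.le) le_rfl)
                  (mul_le_mul' le_rfl (hfl r hr.1.le hr.2.le))
      _ = (∫⁻ r in Ioo t1 t, ENNReal.ofReal (Real.exp (-(ρ * (t - r))))) * m +
            (∫⁻ r in Ioo t1 t, vs r) * E t x v := by
          have hm1 : Measurable fun r : ℝ => ENNReal.ofReal (Real.exp (-(ρ * (t - r)))) * m :=
            hGm.mul_const _
          rw [lintegral_add_left hm1, lintegral_mul_const _ hGm, lintegral_mul_const _ hP.vsm]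
      _ ≤ _ := add_le_add (mul_le_mul' (lint_exp hρp _ _) le_rfl)
            (mul_le_mul' ((lintegral_mono_set (Ioo_subset_Ioo ht1 htT)).trans hvs) le_rfl)
  have e3 : ENNReal.ofReal (1 / ρ) * m ≤ 1 / 2 * We v := by
    rcases le_total (R2 : ℝ) ‖v‖ with h | h
    · calc ENNReal.ofReal (1 / ρ) * m ≤ ENNReal.ofReal (1 / (nu0 / 2 * (1 + R2))) *
            (Bc CM a2 C1 * We v) := by
            refine mul_le_mul' (ENNReal.ofReal_le_ofReal ?_) (min_le_left _ _)
            apply one_div_le_one_div_of_le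
            · have : (0 : ℝ) ≤ R2 := R2.2
              positivity
            · rw [hρ]
              exact mul_le_mul_of_nonneg_left (by linarith) (by linarith)
        _ = (Bc CM a2 C1 : ℝ≥0∞) * ENNReal.ofReal (1 / (nu0 / 2 * (1 + R2))) * We v := by ring
        _ ≤ _ := mul_le_mul' c1 le_rfl
    · calc ENNReal.ofReal (1 / ρ) * m ≤ ENNReal.ofReal (1 / (nu0 / 2)) *
            (C2c CM a2 * (a2 * ε + Cf ε * del)) := by
            refine mul_le_mul' (ENNReal.ofReal_le_ofReal ?_) (min_le_right _ _)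
            exact one_div_le_one_div_of_le (by linarith) hρ0
        _ = C2c CM a2 * (a2 * ε + Cf ε * del) * ENNReal.ofReal (1 / (nu0 / 2)) := by ring
        _ ≤ 1 / 2 * ENNReal.ofReal (Real.exp (-R2)) := c2
        _ ≤ _ := by
            unfold We
            exact mul_le_mul' le_rfl (ENNReal.ofReal_le_ofReal (Real.exp_le_exp.2 (by linarith)))
  refine (hP.duh t1 t x v hEt ht1 htt htT).trans ?_
  calc _ ≤ a1 * E t x v + (1 / 2 * We v + S0 * E t x v) := by
        refine add_le_add e1 (e2.trans (add_le_add e3 le_rfl))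
    _ ≤ a1 * E t x v + (1 / 2 * E t x v + S0 * E t x v) := by
        gcongr
        exact hE.We_le t x v h1
    _ = _ := by ring

end

end Crest.Agent.R68.WA
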