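import Crest.Agent.R68.WA4

/-!
# Row 68, PART W (helper153): the a-priori theorem, choice of constants
-/

set_option autoImplicit false
open MeasureTheory Set
open scoped ENNReal NNReal
open Crest.AnalysisR.VecCalc3 Crest.AnalysisR.PDE.Boltzmann

noncomputable section

namespace Crest.Agent.R68.WA

theorem six_parts (del : ℝ≥0) : (del : ℝ≥0∞) / 6 + del / 6 + del / 6 + del / 6 + del / 6 + del / 6 =
    del := by
  have h : (del : ℝ≥0∞) / 6 * 6 = del := ENNReal.div_mul_cancel (by norm_num) (by norm_num)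
  calc _ = (del : ℝ≥0∞) / 6 * 6 := by ring
    _ = del := h

/-- **A-priori theorem.** (with the smallness of `del` exported) -/
theorem apriori2 {nu0 lam : ℝ} (hnu : 0 < nu0) (hlam : 0 ≤ lam) (hln : lam ≤ nu0 / 2)
    (C1 : ℝ≥0) (Cf C8 : ℝ≥0 → ℝ≥0) (htr : Trans C8) (A a2 : ℝ≥0) (ha2 : a2 ≠ 0) :
    ∃ (ell : ℝ) (del e0 d0 S0 : ℝ≥0), 0 < ell ∧ ell ≤ 1 ∧ 0 < del ∧ 0 < e0 ∧ 0 < d0 ∧ 0 < S0 ∧
      (fpi : ℝ≥0∞) * del ≤ ENNReal.ofReal (nu0 / 2) ∧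
      ∀ (T1 T : ℝ) (E gh Ph : ℝ → P2 → R3 → ℝ≥0∞) (damp : ℝ → ℝ → P2 → R3 → ℝ≥0∞)
        (vs : ℝ → ℝ≥0∞), KHyp T1 lam C1 Cf E → PHyp T1 T nu0 a2 E gh Ph damp vs →
        (∀ x v, gh T1 x v ≤ A * E T1 x v) →
        (∀ t x, T1 + ell ≤ t → t ≤ T →
          ENNReal.ofReal (Real.exp (-(nu0 / 2 * (t - (T1 + ell))))) *
            ∫⁻ v, w1 v * gh T1 (x - (t - T1) • bar v) v ≤ d0) →
        (∀ s, T1 ≤ s → s ≤ T → ∫⁻ y in cellG, ∫⁻ z, gh s y z ≤ e0) →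
        (∫⁻ t in Ioo T1 T, vs t ≤ S0) →
        (∀ t x v, T1 ≤ t → t ≤ T → gh t x v ≤ (2 * A + 2 : ℝ≥0) * E t x v) ∧
        (∀ t x, T1 + ell ≤ t → t ≤ T → ∫⁻ z, w1 z * gh t x z ≤ del) := by
  obtain ⟨CM, -, hCM⟩ := exists_CM
  have hnu2 : 0 < nu0 / 2 := by linarith
  -- R2
  obtain ⟨R2, c1⟩ : ∃ R2 : ℝ≥0,
      (Bc CM a2 C1 : ℝ≥0∞) * ENNReal.ofReal (1 / (nu0 / 2 * (1 + R2))) ≤ 1 / 2 := by
    refine ⟨Real.toNNReal (4 * Bc CM a2 C1 / nu0), ?_⟩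
    have hB : (0 : ℝ) ≤ 4 * Bc CM a2 C1 / nu0 := by positivity
    rw [Real.coe_toNNReal _ hB, ← ENNReal.ofReal_coe_nnreal, ← ENNReal.ofReal_mul (by positivity),
      show (1 / 2 : ℝ≥0∞) = ENNReal.ofReal (1 / 2) by
        rw [ENNReal.ofReal_div_of_pos (by norm_num)]; simp]
    refine ENNReal.ofReal_le_ofReal ?_
    rw [mul_one_div, div_le_div_iff₀ (by positivity) (by norm_num)]
    have : nu0 * (4 * Bc CM a2 C1 / nu0) = 4 * Bc CM a2 C1 := by field_simp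
    nlinarith
  set q : ℝ≥0∞ := ENNReal.ofReal (Real.exp (-R2)) with hq
  have hq0 : q ≠ 0 := by
    rw [hq, Ne, ENNReal.ofReal_eq_zero, not_le]; exact Real.exp_pos _
  set I2 : ℝ≥0∞ := ENNReal.ofReal (1 / (nu0 / 2)) with hI2
  have hI2t : I2 ≠ ⊤ := ENNReal.ofReal_ne_top
  have hq4 : 1 / 4 * q ≠ 0 := mul_ne_zero (by norm_num) hq0
  obtain ⟨ε', hε', -, hε'2⟩ := exists_small (c := C2c CM a2 * a2 * I2)
    (ENNReal.mul_ne_top (ENNReal.mul_ne_top ENNReal.coe_ne_top ENNReal.coe_ne_top) hI2t) hq4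
  obtain ⟨dl1, hdl1, -, hdl1'⟩ := exists_small (c := C2c CM a2 * Cf ε' * I2)
    (ENNReal.mul_ne_top (ENNReal.mul_ne_top ENNReal.coe_ne_top ENNReal.coe_ne_top) hI2t) hq4
  obtain ⟨dl2, hdl2, -, hdl2'⟩ := exists_small (c := (fpi : ℝ≥0∞)) ENNReal.coe_ne_top
    (d := ENNReal.ofReal (nu0 / 2)) (by rw [Ne, ENNReal.ofReal_eq_zero, not_le]; exact hnu2)
  set del : ℝ≥0 := min dl1 dl2 with hdel
  have hdel0 : 0 < del := lt_min hdl1 hdl2
  have hdelf : (fpi : ℝ≥0∞) * del ≤ ENNReal.ofReal (nu0 / 2) := hdl2' del (min_le_right _ _)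
  have c2 : C2c CM a2 * (a2 * ε' + Cf ε' * del) * I2 ≤ 1 / 2 * q := by
    calc C2c CM a2 * (a2 * ε' + Cf ε' * del) * I2
        = C2c CM a2 * a2 * I2 * ε' + C2c CM a2 * Cf ε' * I2 * del := by ring
      _ ≤ 1 / 4 * q + 1 / 4 * q := add_le_add (hε'2 ε' le_rfl) (hdl1' del (min_le_left _ _))
      _ = (1 / 4 + 1 / 4) * q := by ring
      _ = 1 / 2 * q := by
          congr 1
          rw [show (1 / 4 : ℝ≥0∞) = ENNReal.ofReal (1 / 4) by
              rw [ENNReal.ofReal_div_of_pos (by norm_num)]; simp,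
            show (1 / 2 : ℝ≥0∞) = ENNReal.ofReal (1 / 2) by
              rw [ENNReal.ofReal_div_of_pos (by norm_num)]; simp,
            ← ENNReal.ofReal_add (by norm_num) (by norm_num)]
          norm_num
  set K0 : ℝ≥0∞ := ENNReal.ofReal (Real.exp (nu0 / 2)) with hK0
  have hK0t : K0 ≠ ⊤ := ENNReal.ofReal_ne_top
  set H : ℝ≥0∞ := 1 + I2 with hH
  have hHt : H ≠ ⊤ := ENNReal.add_ne_top.2 ⟨ENNReal.one_ne_top, hI2t⟩
  have hD0 : (del : ℝ≥0∞) / 6 ≠ 0 := by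
    refine (ENNReal.div_pos (by exact_mod_cast hdel0.ne') (by norm_num)).ne'
  obtain ⟨κ, hκ, -, hκ'⟩ := exists_small (c := K0 * (Bc CM a2 C1 * C1))
    (ENNReal.mul_ne_top hK0t (ENNReal.mul_ne_top ENNReal.coe_ne_top ENNReal.coe_ne_top)) hD0
  obtain ⟨η, hη, -, hη'⟩ := exists_small (c := K0 * Bc CM a2 C1 * H)
    (ENNReal.mul_ne_top (ENNReal.mul_ne_top hK0t ENNReal.coe_ne_top) hHt) hD0
  obtain ⟨R, hR0, hR⟩ : ∃ R : ℝ≥0, 0 < R ∧ 2 * Cf (η / 2) * C1 ≤ η * R := by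
    refine ⟨2 * Cf (η / 2) * C1 / η + 1, by positivity, ?_⟩
    have e : η * (2 * Cf (η / 2) * C1 / η + 1) = 2 * Cf (η / 2) * C1 + η := by
      have : η ≠ 0 := hη.ne'
      field_simp
    rw [e]; exact le_self_add
  obtain ⟨ε, hε, -, hε2⟩ := exists_small (c := K0 * (1 + R : ℝ≥0) * C2c CM a2 * a2 * vol R * H)
    (by
      have := vol_ne_top R
      finiteness) hD0
  obtain ⟨e0, he0, -, he0'⟩ := exists_small (c := K0 * (1 + R : ℝ≥0) * C2c CM a2 * Cf ε * C8 R *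
      (1 + ENNReal.ofReal (1 / (κ : ℝ) ^ 2)) * H)
    (by finiteness) hD0
  obtain ⟨S1, hS1, -, hS1'⟩ := exists_small (c := K0 * ENNReal.ofReal (Real.exp lam) * C1)
    (by finiteness) hD0
  obtain ⟨d0, hd0, -, hd0'⟩ := exists_small (c := K0) hK0t hD0
  set S0 : ℝ≥0 := min S1 (1 / 4) with hS0
  have hS00 : 0 < S0 := lt_min hS1 (by norm_num)
  -- ell
  obtain ⟨ell, hell, hell1, hell2, hell3⟩ : ∃ ell : ℝ, 0 < ell ∧ ell ≤ 1 ∧
      Real.exp (lam * ell) ≤ 2 ∧ Bc CM a2 C1 * ell ≤ 1 / 2 := by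
    have hB : (0 : ℝ) ≤ Bc CM a2 C1 := NNReal.coe_nonneg _
    refine ⟨1 / (2 * (lam + Bc CM a2 C1 + 1)), by positivity, ?_, ?_, ?_⟩
    · rw [div_le_one (by positivity)]; linarith
    · have h1 : lam * (1 / (2 * (lam + Bc CM a2 C1 + 1))) ≤ 1 / 2 := by
        rw [mul_one_div, div_le_div_iff₀ (by positivity) (by norm_num)]
        nlinarith
      calc Real.exp (lam * (1 / (2 * (lam + Bc CM a2 C1 + 1)))) ≤ Real.exp (1 / 2) :=
            Real.exp_le_exp.2 h1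
        _ ≤ 2 := by
            have h3 : Real.exp (1 / 2) ^ 2 = Real.exp 1 := by
              rw [← Real.exp_nat_mul]; norm_num
            have h4 := Real.exp_one_lt_d9
            nlinarith [Real.exp_pos (1 / 2 : ℝ)]
    · rw [mul_one_div, div_le_div_iff₀ (by positivity) (by norm_num)]
      nlinarith
  refine ⟨ell, del, e0, d0, S0, hell, hell1, hdel0, he0, hd0, hS00, hdelf, ?_⟩
  intro T1 T E gh Ph damp vs hE hP hinit hiN hL1 hvs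
  set t1 : ℝ := T1 + ell with ht1
  have ht1' : T1 ≤ t1 := by linarith
  -- layer
  have hlayer : ∀ t x v, T1 ≤ t → t ≤ T → t ≤ t1 → gh t x v ≤ (2 * A + 1 : ℝ≥0) * E t x v := by
    intro t x v h1 h2 h3
    refine (layer hE hP hCM hlam hS00 hinit hvs h1 h2 h3 x v).trans (mul_le_mul' ?_ le_rfl)
    have a1 : ENNReal.ofReal (Real.exp (lam * ell)) ≤ 2 := by
      rw [show (2 : ℝ≥0∞) = ENNReal.ofReal 2 by simp]
      exact ENNReal.ofReal_le_ofReal hell2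
    have a3 : (Bc CM a2 C1 : ℝ≥0∞) * ENNReal.ofReal ell ≤ ((1 / 2 : ℝ≥0) : ℝ≥0∞) := by
      rw [← ENNReal.ofReal_coe_nnreal, ← ENNReal.ofReal_mul (NNReal.coe_nonneg _),
        ← ENNReal.ofReal_coe_nnreal]
      exact ENNReal.ofReal_le_ofReal (by push_cast; exact hell3)
    have a4 : (S0 : ℝ≥0∞) ≤ ((1 / 4 : ℝ≥0) : ℝ≥0∞) := by exact_mod_cast min_le_right _ _
    calc ENNReal.ofReal (Real.exp (lam * ell)) * (A + S0) + Bc CM a2 C1 * ENNReal.ofReal ell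
        ≤ 2 * (A + ((1 / 4 : ℝ≥0) : ℝ≥0∞)) + ((1 / 2 : ℝ≥0) : ℝ≥0∞) := by gcongr
      _ = ((2 * (A + 1 / 4) + 1 / 2 : ℝ≥0) : ℝ≥0∞) := by push_cast; ring
      _ = ((2 * A + 1 : ℝ≥0) : ℝ≥0∞) := by
          congr 1
          apply NNReal.coe_injective
          push_cast
          ring
  -- density
  have hdens : ∀ n : ℕ, ∀ t x, t1 ≤ t → t ≤ T → t < t1 + n → ∫⁻ z, w1 z * gh t x z ≤ del := by
    intro n
    induction n with
    | zero =>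
      intro t x h1 _ h3
      simp only [Nat.cast_zero, add_zero] at h3
      exact absurd h1 (not_le.2 h3)
    | succ n ih =>
      intro t x h1 h2 h3
      rcases lt_or_ge t (t1 + n) with h4 | h4
      · exact ih t x h1 h2 h4
      have hn0 : (0 : ℝ) ≤ n := Nat.cast_nonneg n
      have h5 : t ≤ t1 + n + 1 := by push_cast at h3; linarith
      have hNN : ∀ s y, t1 ≤ s → s < t1 + n → ∫⁻ z, w1 z * gh s y z ≤ del :=
        fun s y hs1 hs2 => ih s y hs1 (by linarith) hs2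
      refine (N_bound hE hP hCM ha2 hlam hnu hln htr hdelf hL1 hvs ht1' (by linarith) h4 h5 h2 hNN x
        (hiN t x h1 h2) ε κ R hε hκ).trans ?_
      have et : t1 - T1 = ell := by rw [ht1]; ring
      rw [et]
      have b1 : ENNReal.ofReal ell + ENNReal.ofReal (1 / (nu0 / 2)) ≤ H := by
        rw [hH, ← ENNReal.ofReal_one]
        exact add_le_add (ENNReal.ofReal_le_ofReal hell1) le_rfl
      have b2 : ENNReal.ofReal (Real.exp (lam * ell)) ≤ ENNReal.ofReal (Real.exp lam) :=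
        ENNReal.ofReal_le_ofReal (Real.exp_le_exp.2 (by nlinarith))
      have b3 : tail R ≤ η := tail_le hE hη hR hR0
      have b4 : K0 * (d0 : ℝ≥0∞) ≤ (del : ℝ≥0∞) / 6 := hd0' d0 le_rfl
      unfold J2c
      calc _ ≤ (del : ℝ≥0∞) / 6 + K0 * (Bc CM a2 C1 * C1 * κ + (Bc CM a2 C1 * η +
              (1 + R : ℝ≥0) * C2c CM a2 * (a2 * ε * vol R + Cf ε *
                (C8 R * (1 + ENNReal.ofReal (1 / (κ : ℝ) ^ 2)) * e0))) * H +
              ENNReal.ofReal (Real.exp lam) * C1 * S0) := by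
            gcongr
        _ = (del : ℝ≥0∞) / 6 + K0 * (Bc CM a2 C1 * C1) * κ + K0 * Bc CM a2 C1 * H * η +
              K0 * (1 + R : ℝ≥0) * C2c CM a2 * a2 * vol R * H * ε +
              K0 * (1 + R : ℝ≥0) * C2c CM a2 * Cf ε * C8 R *
                (1 + ENNReal.ofReal (1 / (κ : ℝ) ^ 2)) * H * e0 +
              K0 * ENNReal.ofReal (Real.exp lam) * C1 * S0 := by ring
        _ ≤ (del : ℝ≥0∞) / 6 + del / 6 + del / 6 + del / 6 + del / 6 + del / 6 := by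
            exact add_le_add (add_le_add (add_le_add (add_le_add (add_le_add le_rfl (hκ' κ le_rfl))
              (hη' η le_rfl)) (hε2 ε le_rfl)) (he0' e0 le_rfl)) (hS1' S0 (min_le_left _ _))
        _ = del := six_parts del
  have hdens' : ∀ t x, t1 ≤ t → t ≤ T → ∫⁻ z, w1 z * gh t x z ≤ del := by
    intro t x h1 h2
    obtain ⟨n, hn⟩ := exists_nat_gt (t - t1)
    exact hdens n t x h1 h2 (by linarith)
  refine ⟨fun t x v h1 h2 => ?_, fun t x h1 h2 => hdens' t x h1 h2⟩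
  rcases le_total t t1 with h3 | h3
  · refine (hlayer t x v h1 h2 h3).trans (mul_le_mul' ?_ le_rfl)
    have : (2 * A + 1 : ℝ≥0) ≤ 2 * A + 2 := by gcongr; norm_num
    exact_mod_cast this
  · have h4 := class_bound hE hP hCM ha2 hnu hln hdelf hvs ht1' h3 h2
      (fun s y hs1 hs2 => hdens' s y hs1 (hs2.le.trans h2))
      (fun x v => hlayer t1 x v ht1' (h3.trans h2) le_rfl) hε' c1 c2 x v
    refine h4.trans (mul_le_mul' ?_ le_rfl)
    have a4 : (S0 : ℝ≥0∞) ≤ ((1 / 4 : ℝ≥0) : ℝ≥0∞) := by exact_mod_cast min_le_right _ _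
    calc ((2 * A + 1 : ℝ≥0) : ℝ≥0∞) + S0 + 1 / 2
        ≤ ((2 * A + 1 : ℝ≥0) : ℝ≥0∞) + ((1 / 4 : ℝ≥0) : ℝ≥0∞) + ((1 / 2 : ℝ≥0) : ℝ≥0∞) := by
          gcongr
          rw [ENNReal.coe_div (by norm_num)]
          norm_num
      _ = ((2 * A + 1 + 1 / 4 + 1 / 2 : ℝ≥0) : ℝ≥0∞) := by push_cast; ring
      _ ≤ _ := by
          have : (2 * A + 1 + 1 / 4 + 1 / 2 : ℝ≥0) ≤ 2 * A + 2 := by
            rw [← NNReal.coe_le_coe]
            push_cast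
            linarith
          exact_mod_cast this

/-- **A-priori theorem.** -/
theorem apriori {nu0 lam : ℝ} (hnu : 0 < nu0) (hlam : 0 ≤ lam) (hln : lam ≤ nu0 / 2)
    (C1 : ℝ≥0) (Cf C8 : ℝ≥0 → ℝ≥0) (htr : Trans C8) (A a2 : ℝ≥0) (ha2 : a2 ≠ 0) :
    ∃ (ell : ℝ) (del e0 d0 S0 : ℝ≥0), 0 < ell ∧ ell ≤ 1 ∧ 0 < del ∧ 0 < e0 ∧ 0 < d0 ∧ 0 < S0 ∧
      ∀ (T1 T : ℝ) (E gh Ph : ℝ → P2 → R3 → ℝ≥0∞) (damp : ℝ → ℝ → P2 → R3 → ℝ≥0∞)
        (vs : ℝ → ℝ≥0∞), KHyp T1 lam C1 Cf E → PHyp T1 T nu0 a2 E gh Ph damp vs →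
        (∀ x v, gh T1 x v ≤ A * E T1 x v) →
        (∀ t x, T1 + ell ≤ t → t ≤ T →
          ENNReal.ofReal (Real.exp (-(nu0 / 2 * (t - (T1 + ell))))) *
            ∫⁻ v, w1 v * gh T1 (x - (t - T1) • bar v) v ≤ d0) →
        (∀ s, T1 ≤ s → s ≤ T → ∫⁻ y in cellG, ∫⁻ z, gh s y z ≤ e0) →
        (∫⁻ t in Ioo T1 T, vs t ≤ S0) →
        (∀ t x v, T1 ≤ t → t ≤ T → gh t x v ≤ (2 * A + 2 : ℝ≥0) * E t x v) ∧
        (∀ t x, T1 + ell ≤ t → t ≤ T → ∫⁻ z, w1 z * gh t x z ≤ del) := by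
  obtain ⟨ell, del, e0, d0, S0, h1, h2, h3, h4, h5, h6, -, h7⟩ :=
    apriori2 hnu hlam hln C1 Cf C8 htr A a2 ha2
  exact ⟨ell, del, e0, d0, S0, h1, h2, h3, h4, h5, h6, h7⟩

end Crest.Agent.R68.WA
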