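import Mathlib
import Crest.Agent.R68.WB2

/-!
R68 / WB3: the damped Duhamel fixed point for countable systems, global in time (helper475, part W).
-/

set_option autoImplicit false
open MeasureTheory Set
open scoped ENNReal NNReal
open Crest.AnalysisR.VecCalc3 Crest.AnalysisR.PDE.Boltzmann

noncomputable section

namespace Crest.Agent.R68.W

/-- hypotheses of the damped fixed point theorem for a countable system; component `i` is measured
in the weight `(1 + ‖v‖) * E i` at the points where `E i` is finite -/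
structure FixHypI {ι : Type} (T1 lam A : ℝ) (E : ι → Om → ℝ≥0∞) (h1 : ι → P2 → R3 → ℝ≥0∞)
    (b : ℝ → ℝ) (L P : (ι → Om → ℝ) → ι → Om → ℝ≥0∞) : Prop where
  lam0 : 0 ≤ lam
  A0 : 0 ≤ A
  Em : ∀ i, Measurable (E i)
  flE : ∀ i z s, T1 ≤ s → s ≤ z.1 →
    E i (fl z s) ≤ ENNReal.ofReal (Real.exp (lam * (z.1 - s))) * E i z
  h1m : ∀ i, Measurable fun q : P2 × R3 => h1 i q.1 q.2
  h1E : ∀ i x v, h1 i x v ≤ ENNReal.ofReal A * E i (T1, x, v)
  bc : Continuous b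
  b0 : ∀ t, 0 ≤ b t
  Lm : ∀ u, (∀ i, Measurable (u i)) → ∀ i, Measurable (L u i)
  Pm : ∀ u, (∀ i, Measurable (u i)) → ∀ i, Measurable (P u i)
  Lb : ∀ u, (∀ i, Measurable (u i)) → ∀ i, ∀ z : Om, T1 ≤ z.1 → E i z < ⊤ →
    L u i z ≤ ENNReal.ofReal (b z.1) * ENNReal.ofReal (1 + ‖z.2.2‖)
  Pb : ∀ u, (∀ i, Measurable (u i)) → ∀ i, ∀ z : Om, T1 ≤ z.1 → E i z < ⊤ →
    P u i z ≤ ENNReal.ofReal (b z.1) * E i z
  Ll : ∀ u u', (∀ i, Measurable (u i)) → (∀ i, Measurable (u' i)) → ∀ kap : ℝ → ℝ,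
    Continuous kap → MonotoneOn kap (Ici T1) → (∀ t, T1 ≤ t → 1 ≤ kap t) → ∀ c : ℝ≥0∞, c < ⊤ →
    (∀ i, ∀ z : Om, T1 ≤ z.1 → E i z < ⊤ →
      ‖u i z - u' i z‖ₑ ≤ c * (ENNReal.ofReal (kap z.1) * ENNReal.ofReal (1 + ‖z.2.2‖) * E i z)) →
    ∀ i, ∀ z : Om, T1 ≤ z.1 → E i z < ⊤ →
      L u i z ≤ L u' i z + c * ENNReal.ofReal (1 + ‖z.2.2‖) * ENNReal.ofReal (b z.1 * kap z.1)
  Pl : ∀ u u', (∀ i, Measurable (u i)) → (∀ i, Measurable (u' i)) → ∀ kap : ℝ → ℝ,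
    Continuous kap → MonotoneOn kap (Ici T1) → (∀ t, T1 ≤ t → 1 ≤ kap t) → ∀ c : ℝ≥0∞, c < ⊤ →
    (∀ i, ∀ z : Om, T1 ≤ z.1 → E i z < ⊤ →
      ‖u i z - u' i z‖ₑ ≤ c * (ENNReal.ofReal (kap z.1) * ENNReal.ofReal (1 + ‖z.2.2‖) * E i z)) →
    ∀ i, ∀ z : Om, T1 ≤ z.1 → E i z < ⊤ →
      P u i z ≤ P u' i z +
        c * ENNReal.ofReal (1 + ‖z.2.2‖) * ENNReal.ofReal (b z.1 * kap z.1) * E i z

namespace FixHypI

variable {ι : Type} {T1 lam A : ℝ} {E : ι → Om → ℝ≥0∞} {h1 : ι → P2 → R3 → ℝ≥0∞} {b : ℝ → ℝ}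
  {L P : (ι → Om → ℝ) → ι → Om → ℝ≥0∞}

theorem E_fl (H : FixHypI T1 lam A E h1 b L P) {i : ι} {z : Om} {s : ℝ} (hE : E i z < ⊤)
    (h2 : T1 ≤ s) (h3 : s ≤ z.1) : E i (fl z s) < ⊤ :=
  (H.flE i z s h2 h3).trans_lt (ENNReal.mul_lt_top ENNReal.ofReal_lt_top hE)

theorem E_fl_le (H : FixHypI T1 lam A E h1 b L P) (i : ι) {z : Om} {s : ℝ} (h2 : T1 ≤ s)
    (h3 : s ≤ z.1) : E i (fl z s) ≤ ENNReal.ofReal (Real.exp (lam * (z.1 - T1))) * E i z := by
  refine (H.flE i z s h2 h3).trans ?_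
  refine mul_le_mul_left (ENNReal.ofReal_le_ofReal (Real.exp_le_exp.2 ?_)) _
  exact mul_le_mul_of_nonneg_left (by linarith) H.lam0

theorem opt_ne_top (H : FixHypI T1 lam A E h1 b L P) {u : ι → Om → ℝ} (hu : ∀ i, Measurable (u i))
    (i : ι) {z : Om} (hz : T1 ≤ z.1) (hE : E i z < ⊤) : opt (L u i) z T1 ≠ ⊤ := by
  refine ne_top_of_le_ne_top (b := (∫⁻ s in Ioo T1 z.1, ENNReal.ofReal (b s)) *
    ENNReal.ofReal (1 + ‖z.2.2‖)) ?_ ?_
  · rw [lint_Ioo_eq H.bc hz fun s _ _ => H.b0 s]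
    exact ENNReal.mul_ne_top ENNReal.ofReal_ne_top ENNReal.ofReal_ne_top
  · unfold opt
    rw [← lintegral_mul_const' _ _ ENNReal.ofReal_ne_top]
    exact setLIntegral_mono' measurableSet_Ioo fun s hs =>
      H.Lb u hu i (fl z s) hs.1.le (H.E_fl hE hs.1.le hs.2.le)

theorem damped_le (H : FixHypI T1 lam A E h1 b L P) {u : ι → Om → ℝ} (hu : ∀ i, Measurable (u i))
    (i : ι) {z : Om} (hz : T1 ≤ z.1) (hE : E i z < ⊤) : damped T1 (h1 i) (L u i) (P u i) z ≤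
      ENNReal.ofReal (Real.exp (lam * (z.1 - T1)) * (A + 1 + ∫ s in T1..z.1, b s)) * E i z := by
  have hI0 : 0 ≤ ∫ s in T1..z.1, b s := intervalIntegral.integral_nonneg hz fun s _ => H.b0 s
  set e := ENNReal.ofReal (Real.exp (lam * (z.1 - T1))) with he
  have h2 : dmp (L u i) z T1 * h1 i (fl z T1).2.1 (fl z T1).2.2 ≤
      ENNReal.ofReal A * (e * E i z) := by
    calc _ ≤ 1 * (ENNReal.ofReal A * (e * E i z)) := by
          gcongr
          · exact dmp_le_one _ _ _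
          · exact (H.h1E i _ _).trans (mul_le_mul_right (H.E_fl_le i le_rfl hz) _)
      _ = _ := one_mul _
  have h3 : ∫⁻ s in Ioo T1 z.1, dmp (L u i) z s * P u i (fl z s) ≤
      ENNReal.ofReal (∫ s in T1..z.1, b s) * (e * E i z) := by
    rw [← lint_Ioo_eq H.bc hz fun s _ _ => H.b0 s,
      ← lintegral_mul_const' _ _ (ENNReal.mul_ne_top ENNReal.ofReal_ne_top hE.ne)]
    refine setLIntegral_mono' measurableSet_Ioo fun s hs => ?_
    calc dmp (L u i) z s * P u i (fl z s) ≤ 1 * (ENNReal.ofReal (b s) * (e * E i z)) := by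
          gcongr
          · exact dmp_le_one _ _ _
          · refine (H.Pb u hu i (fl z s) hs.1.le (H.E_fl hE hs.1.le hs.2.le)).trans ?_
            exact mul_le_mul_right (H.E_fl_le i hs.1.le hs.2.le) _
      _ = _ := one_mul _
  unfold damped
  calc _ ≤ ENNReal.ofReal A * (e * E i z) + ENNReal.ofReal (∫ s in T1..z.1, b s) * (e * E i z) :=
        add_le_add h2 h3
    _ = e * (ENNReal.ofReal A + ENNReal.ofReal (∫ s in T1..z.1, b s)) * E i z := by ring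
    _ ≤ _ := by
        gcongr
        rw [← ENNReal.ofReal_add H.A0 hI0, he, ← ENNReal.ofReal_mul (Real.exp_pos _).le]
        apply ENNReal.ofReal_le_ofReal
        have := Real.exp_pos (lam * (z.1 - T1))
        nlinarith

theorem damped_ne_top (H : FixHypI T1 lam A E h1 b L P) {u : ι → Om → ℝ}
    (hu : ∀ i, Measurable (u i)) (i : ι) {z : Om} (hz : T1 ≤ z.1) (hE : E i z < ⊤) :
    damped T1 (h1 i) (L u i) (P u i) z ≠ ⊤ :=
  ne_top_of_le_ne_top (ENNReal.mul_ne_top ENNReal.ofReal_ne_top hE.ne) (H.damped_le hu i hz hE)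

/-- the Lipschitz estimate -/
theorem lip (H : FixHypI T1 lam A E h1 b L P) {kap : ℝ → ℝ} (hkc : Continuous kap)
    (hkm : MonotoneOn kap (Ici T1)) (hk1 : ∀ t, T1 ≤ t → 1 ≤ kap t)
    (hkJ : ∀ t, T1 ≤ t → (∫ s in T1..t, b s * kap s) *
        (Real.exp (lam * (t - T1)) * (A + 1 + ∫ s in T1..t, b s)) ≤ kap t / 2)
    {u u' : ι → Om → ℝ} (hu : ∀ i, Measurable (u i)) (hu' : ∀ i, Measurable (u' i)) {c : ℝ≥0∞}
    (hc : c < ⊤)
    (h : ∀ i, ∀ z : Om, T1 ≤ z.1 → E i z < ⊤ →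
      ‖u i z - u' i z‖ₑ ≤ c * (ENNReal.ofReal (kap z.1) * ENNReal.ofReal (1 + ‖z.2.2‖) * E i z))
    (i : ι) {z : Om} (hz : T1 ≤ z.1) (hE : E i z < ⊤) :
    damped T1 (h1 i) (L u i) (P u i) z ≤ damped T1 (h1 i) (L u' i) (P u' i) z +
      ((1 / 2 : ℝ≥0) : ℝ≥0∞) * c *
        (ENNReal.ofReal (kap z.1) * ENNReal.ofReal (1 + ‖z.2.2‖) * E i z) := by
  have hI0 : 0 ≤ ∫ s in T1..z.1, b s := intervalIntegral.integral_nonneg hz fun s _ => H.b0 s
  have h' : ∀ i, ∀ z : Om, T1 ≤ z.1 → E i z < ⊤ →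
      ‖u' i z - u i z‖ₑ ≤ c * (ENNReal.ofReal (kap z.1) * ENNReal.ofReal (1 + ‖z.2.2‖) * E i z) := by
    intro i z hz hE
    have := h i z hz hE
    rwa [← enorm_neg, neg_sub] at this
  have key := damped_le_add (T1 := T1) (lam := lam) H.lam0 (E := E i) (h1 := h1 i)
    (A := ENNReal.ofReal A) (H.h1E i) (L := L u i) (P := P u i) (L' := L u' i) (P' := P u' i)
    (z := z) hz
    (fun s h2 h3 => H.flE i z s h2 h3) H.bc.measurable hkc.measurable (c := c)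
    (w := ENNReal.ofReal (1 + ‖z.2.2‖)) (H.opt_ne_top hu i hz hE)
    (fun s h2 h3 => H.Ll u' u hu' hu kap hkc hkm hk1 c hc h' i (fl z s) h2.le
      (H.E_fl hE h2.le h3.le))
    (fun s h2 h3 => H.Pl u u' hu hu' kap hkc hkm hk1 c hc h i (fl z s) h2.le
      (H.E_fl hE h2.le h3.le))
    (fun s h2 h3 => H.Pb u' hu' i (fl z s) h2.le (H.E_fl hE h2.le h3.le))
  refine key.trans (add_le_add le_rfl ?_)
  have e1 : (∫⁻ s in Ioo T1 z.1, ENNReal.ofReal (b s * kap s)) =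
      ENNReal.ofReal (∫ s in T1..z.1, b s * kap s) :=
    lint_Ioo_eq (H.bc.mul hkc) hz fun s hs _ => mul_nonneg (H.b0 s) (zero_le_one.trans (hk1 s hs))
  have e2 : (∫⁻ s in Ioo T1 z.1, ENNReal.ofReal (b s)) = ENNReal.ofReal (∫ s in T1..z.1, b s) :=
    lint_Ioo_eq H.bc hz fun s _ _ => H.b0 s
  have hJ0 : 0 ≤ ∫ s in T1..z.1, b s * kap s :=
    intervalIntegral.integral_nonneg hz fun s hs =>
      mul_nonneg (H.b0 s) (zero_le_one.trans (hk1 s hs.1))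
  have e3 : (∫⁻ s in Ioo T1 z.1, ENNReal.ofReal (b s * kap s)) *
        (ENNReal.ofReal (Real.exp (lam * (z.1 - T1))) *
          (ENNReal.ofReal A + 1 + ∫⁻ s in Ioo T1 z.1, ENNReal.ofReal (b s))) ≤
      ((1 / 2 : ℝ≥0) : ℝ≥0∞) * ENNReal.ofReal (kap z.1) := by
    rw [e1, e2, ← ENNReal.ofReal_one, ← ENNReal.ofReal_add H.A0 zero_le_one,
      ← ENNReal.ofReal_add (by have := H.A0; positivity) hI0,
      ← ENNReal.ofReal_mul (Real.exp_pos _).le, ← ENNReal.ofReal_mul hJ0]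
    have e4 : ((1 / 2 : ℝ≥0) : ℝ≥0∞) = ENNReal.ofReal (1 / 2) := by
      rw [ENNReal.ofReal]
      congr 1
      ext
      simp
    rw [e4, ← ENNReal.ofReal_mul (by norm_num)]
    apply ENNReal.ofReal_le_ofReal
    have := hkJ z.1 hz
    linarith
  calc c * ENNReal.ofReal (1 + ‖z.2.2‖) * E i z * _
      ≤ c * ENNReal.ofReal (1 + ‖z.2.2‖) * E i z *
          (((1 / 2 : ℝ≥0) : ℝ≥0∞) * ENNReal.ofReal (kap z.1)) := by
        gcongr
    _ = _ := by ring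

end FixHypI

open FixHypI in
/-- **global fixed point of a countable system of damped Duhamel equations** -/
theorem dampFixI {ι : Type} [Countable ι] {T1 lam A : ℝ} {E : ι → Om → ℝ≥0∞}
    {h1 : ι → P2 → R3 → ℝ≥0∞} {b : ℝ → ℝ} {L P : (ι → Om → ℝ) → ι → Om → ℝ≥0∞}
    (H : FixHypI T1 lam A E h1 b L P) :
    ∃ u : ι → Om → ℝ, (∀ i, Measurable (u i)) ∧ (∀ i z, 0 ≤ u i z) ∧
      ∀ i, ∀ z : Om, T1 ≤ z.1 → E i z < ⊤ →
        damped T1 (h1 i) (L u i) (P u i) z ≠ ⊤ ∧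
          ENNReal.ofReal (u i z) = damped T1 (h1 i) (L u i) (P u i) z := by
  obtain ⟨kap, hkc, hk1, hkm, hkg, hkJ⟩ := exists_time_weight T1 lam H.lam0 H.bc H.b0 H.A0
  let _ : MeasurableSpace ι := ⊤
  have _ : DiscreteMeasurableSpace ι := ⟨fun _ => trivial⟩
  have hmeas : ∀ {β : Type} [MeasurableSpace β] (f : ι → Om → β), (∀ i, Measurable (f i)) →
      Measurable fun q : ι × Om => f q.1 q.2 := fun f hf => measurable_from_prod_countable_right hf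
  have hslice : ∀ {β : Type} [MeasurableSpace β] (f : ι × Om → β), Measurable f →
      ∀ i, Measurable fun z : Om => f (i, z) := fun f hf i => hf.comp measurable_prodMk_left
  set S : Set (ι × Om) := {q | T1 ≤ q.2.1 ∧ E q.1 q.2 < ⊤} with hSdef
  have hS : MeasurableSet S :=
    (measurableSet_le measurable_const measurable_snd.fst).inter
      (measurableSet_lt (hmeas E H.Em) measurable_const)
  set μ : Measure (ι × Om) := Measure.count.restrict S with hμ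
  have hae : ∀ p : ι × Om → Prop, (∀ᵐ z ∂μ, p z) ↔ ∀ z ∈ S, p z := by
    intro p
    rw [hμ, ae_restrict_iff' hS, Measure.ae_count_iff]
  classical
  -- curried form of a function on the product
  let cu : (ι × Om → ℝ) → (ι → Om → ℝ) := fun u i z => u (i, z)
  set Ψ : (ι × Om → ℝ) → (ι × Om → ℝ) := fun u => S.indicator fun q =>
    (damped T1 (h1 q.1) (L (cu u) q.1) (P (cu u) q.1) q.2).toReal with hΨ
  have hΨS : ∀ u, ∀ q ∈ S, Ψ u q =
      (damped T1 (h1 q.1) (L (cu u) q.1) (P (cu u) q.1) q.2).toReal := fun u q hq => by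
    simp only [hΨ]; exact indicator_of_mem hq _
  have hcu : ∀ u, Measurable u → ∀ i, Measurable (cu u i) := fun u hu i => hslice u hu i
  have hΨm : ∀ u, Measurable u → Measurable (Ψ u) := fun u hu =>
    (hmeas (fun i z => damped T1 (h1 i) (L (cu u) i) (P (cu u) i) z)
      fun i => measurable_damped (H.h1m i) (H.Lm _ (hcu u hu) i)
        (H.Pm _ (hcu u hu) i)).ennreal_toReal.indicator hS
  set W : ι × Om → ℝ≥0∞ := fun q =>
    ENNReal.ofReal (kap q.2.1) * ENNReal.ofReal (1 + ‖q.2.2.2‖) * E q.1 q.2 with hW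
  have hWt : ∀ᵐ z ∂μ, W z < ⊤ := by
    rw [hae]
    intro z hz
    exact ENNReal.mul_lt_top (ENNReal.mul_lt_top ENNReal.ofReal_lt_top ENNReal.ofReal_lt_top) hz.2
  have hneg : ∀ u u' : ι → Om → ℝ, ∀ c : ℝ≥0∞, (∀ i, ∀ z : Om, T1 ≤ z.1 → E i z < ⊤ →
      ‖u i z - u' i z‖ₑ ≤ c * W (i, z)) →
      (∀ i, ∀ z : Om, T1 ≤ z.1 → E i z < ⊤ → ‖u' i z - u i z‖ₑ ≤ c * W (i, z)) := by
    intro u u' c h i z hz hE
    have := h i z hz hE
    rwa [← enorm_neg, neg_sub] at this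
  obtain ⟨u, hu, hfix, -⟩ := WF.wfix (μ := μ) (W := W) hWt (S := {u : ι × Om → ℝ | Measurable u})
    (fun u hu => hu) (fun u _ v hv _ _ => hv) (Ψ := Ψ) (fun u hu => hΨm u hu)
    (θ := (1 / 2 : ℝ≥0)) (by rw [← NNReal.coe_lt_coe]; norm_num) (fun u hu v hv c hc h => by
      rw [hae] at h ⊢
      intro q hq
      have h' : ∀ i, ∀ z : Om, T1 ≤ z.1 → E i z < ⊤ →
          ‖cu u i z - cu v i z‖ₑ ≤ c * W (i, z) := fun i z h1 h2 => h (i, z) ⟨h1, h2⟩
      rw [hΨS u q hq, hΨS v q hq]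
      exact enorm_toReal_sub_le (H.damped_ne_top (hcu u hu) q.1 hq.1 hq.2)
        (H.damped_ne_top (hcu v hv) q.1 hq.1 hq.2)
        (H.lip hkc hkm hk1 hkJ (hcu u hu) (hcu v hv) hc h' q.1 hq.1 hq.2)
        (H.lip hkc hkm hk1 hkJ (hcu v hv) (hcu u hu) hc (hneg _ _ c h') q.1 hq.1 hq.2))
    (u0 := fun _ => 0) measurable_const (C := 1) (by simp) (by
      rw [hae]
      intro q hq
      have hz1 := hΨS (fun _ => 0) q hq
      rw [hz1]
      have h0 : ∀ i, Measurable (cu (fun _ => 0) i) := fun i => measurable_const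
      have h2 := H.damped_le (u := cu (fun _ => 0)) h0 q.1 hq.1 hq.2
      rw [sub_zero, one_mul, ← ofReal_norm, Real.norm_of_nonneg ENNReal.toReal_nonneg,
        ENNReal.ofReal_toReal (H.damped_ne_top h0 q.1 hq.1 hq.2)]
      refine h2.trans ?_
      simp only [hW]
      calc _ ≤ ENNReal.ofReal (kap q.2.1) * 1 * E q.1 q.2 := by
            rw [mul_one]
            gcongr
            exact hkg q.2.1 hq.1
        _ ≤ _ := by
            gcongr
            rw [← ENNReal.ofReal_one]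
            exact ENNReal.ofReal_le_ofReal (by linarith [norm_nonneg q.2.2.2]))
  have hfix' : ∀ q ∈ S, Ψ u q = u q := (hae _).1 hfix
  -- the final function
  have hΨu := hΨm u hu
  have hz0 : ∀ i, ∀ z : Om, T1 ≤ z.1 → E i z < ⊤ →
      ‖cu (Ψ u) i z - cu u i z‖ₑ ≤ 0 * W (i, z) := by
    intro i z h1 h2
    show ‖Ψ u (i, z) - u (i, z)‖ₑ ≤ _
    rw [hfix' (i, z) ⟨h1, h2⟩]; simp
  refine ⟨cu (Ψ u), hcu _ hΨu, fun i z => ?_,
    fun i z hz hE => ⟨H.damped_ne_top (hcu _ hΨu) i hz hE, ?_⟩⟩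
  · exact indicator_nonneg (fun _ _ => ENNReal.toReal_nonneg) (i, z)
  · show ENNReal.ofReal (Ψ u (i, z)) = _
    rw [hΨS u (i, z) ⟨hz, hE⟩, ENNReal.ofReal_toReal (H.damped_ne_top (hcu u hu) i hz hE)]
    apply le_antisymm
    · have := H.lip hkc hkm hk1 hkJ (hcu u hu) (hcu _ hΨu) (c := 0) (by simp) (hneg _ _ 0 hz0) i hz hE
      simpa using this
    · have := H.lip hkc hkm hk1 hkJ (hcu _ hΨu) (hcu u hu) (c := 0) (by simp) hz0 i hz hE
      simpa using this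

end Crest.Agent.R68.W
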