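import Crest.Agent.R68.WD
import Crest.Agent.R68.WProps

/-!
# Row 68, PART W (helper835): `DataOut_holds`.
-/

set_option autoImplicit false
open MeasureTheory Set Filter
open scoped ENNReal NNReal Topology
open Crest.AnalysisR.VecCalc3 Crest.AnalysisR.PDE.Boltzmann

noncomputable section

namespace Crest.Agent.R68.WP

open WA DPole N Main0

/-- a finite constant times something tending to zero -/
theorem ev_small {ι : Type*} {l : Filter ι} {f : ι → ℝ} (hf : Tendsto f l (𝓝 0)) {C : ℝ≥0∞}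
    (hC : C ≠ ⊤) {d : ℝ} (hd : 0 < d) : ∀ᶠ i in l, ENNReal.ofReal (f i) * C ≤ ENNReal.ofReal d := by
  have h1 : Tendsto (fun i => f i * C.toReal) l (𝓝 0) := by simpa using hf.mul_const C.toReal
  filter_upwards [h1.eventually (ge_mem_nhds hd)] with i hi
  rw [← ENNReal.ofReal_toReal hC, ← ENNReal.ofReal_mul' ENNReal.toReal_nonneg]
  exact ENNReal.ofReal_le_ofReal hi

theorem tendsto_tail : Tendsto (fun R : ℝ => Real.exp 2 * Real.exp (-(R / 2))) atTop (𝓝 0) := by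
  have h1 : Tendsto (fun R : ℝ => R / 2) atTop atTop := tendsto_id.atTop_div_const (by norm_num)
  have h2 := (Real.tendsto_exp_neg_atTop_nhds_zero.comp h1).const_mul (Real.exp 2)
  simpa [Function.comp_def] using h2

theorem tendsto_rhj : Tendsto rhj atTop (𝓝 0) := by
  unfold rhj
  exact tendsto_rpow (by norm_num)

theorem DataOut_holds {Y : ℝ} (hY : 0 < Y) : DataOut Y := by
  refine ⟨2, ?_⟩
  intro K ey hK hey hey'
  refine Eventually.of_forall fun p => ?_
  intro ell d0 hell hd0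
  have hd4 : 0 < d0 / 4 := by positivity
  obtain ⟨R0, hR0⟩ := eventually_atTop.1 (ev_small tendsto_tail J2W_ne_top hd4)
  refine ⟨R0, fun R hR => ?_⟩
  -- eps
  have hCe : ENNReal.ofReal (Real.exp 50) * ENNReal.ofReal (Real.exp (1 / 8 * ell)) *
      (C1E Y (1 / 8) : ℝ≥0∞) ≠ ⊤ :=
    ENNReal.mul_ne_top (ENNReal.mul_ne_top ENNReal.ofReal_ne_top ENNReal.ofReal_ne_top)
      ENNReal.coe_ne_top
  have hev : ∀ᶠ e : ℝ in 𝓝[>] 0, ENNReal.ofReal e * (ENNReal.ofReal (Real.exp 50) *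
      ENNReal.ofReal (Real.exp (1 / 8 * ell)) * (C1E Y (1 / 8) : ℝ≥0∞)) ≤ ENNReal.ofReal (d0 / 4) :=
    ev_small (tendsto_id.mono_left nhdsWithin_le_nhds) hCe hd4
  have hev2 : ∀ᶠ e : ℝ in 𝓝[>] 0, e ≤ Real.exp (-50) :=
    (tendsto_id.mono_left nhdsWithin_le_nhds).eventually (ge_mem_nhds (Real.exp_pos _))
  have hev3 : ∀ᶠ e : ℝ in 𝓝[>] (0 : ℝ), 0 < e := eventually_mem_nhdsWithin
  obtain ⟨e, he1, he2, he3⟩ := (hev.and (hev2.and hev3)).exists
  refine ⟨e, he3, ?_⟩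
  -- r
  set r : ℝ≥0 := Real.toNNReal R0 with hr
  have hrR : R0 ≤ (r : ℝ) := Real.le_coe_toNNReal R0
  -- hole
  have hhole : Tendsto (fun j0 : ℕ => 4 * rhj j0 ^ 2) atTop (𝓝 0) := by
    simpa using (tendsto_rhj.pow 2).const_mul 4
  have hCh : (ENNReal.ofReal (Real.exp 2) * (((Real.toNNReal (2 * r * (4 + 36 * r ^ 2)) : ℝ≥0) :
      ℝ≥0∞) * (1 + ENNReal.ofReal (1 / ell ^ 2)))) ≠ ⊤ := by
    refine ENNReal.mul_ne_top ENNReal.ofReal_ne_top (ENNReal.mul_ne_top ENNReal.coe_ne_top ?_)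
    exact ENNReal.add_ne_top.2 ⟨ENNReal.one_ne_top, ENNReal.ofReal_ne_top⟩
  filter_upwards [ev_small hhole hCh hd4, ev_ParD K Y ey p hY,
    ev_T1_le (show (0 : ℝ) < 1 / 4 by norm_num), ev_pos] with j0 h1 h2 h3 h4
  obtain ⟨h4, h5, h6⟩ := h4
  intro h hm hclose
  refine ⟨fun x v => ?_, fun t x ht => ?_⟩
  · exact data_pointwise h6.le h3 (by norm_num) he2 hclose x v
  · have h7 := data_density (nu0 := 1) (lam := 1 / 8) h2 (by norm_num) (by norm_num) hell h6.le h3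
      (by norm_num) h5.le hclose r ht x
    refine h7.trans ?_
    have e1 := he1
    have e2 := hR0 R hR
    have e3 := hR0 r hrR
    have e4 : ENNReal.ofReal (Real.exp 2) * (((Real.toNNReal (2 * r * (4 + 36 * r ^ 2)) : ℝ≥0) :
        ℝ≥0∞) * (1 + ENNReal.ofReal (1 / ell ^ 2)) * ENNReal.ofReal (4 * rhj j0 ^ 2)) ≤
        ENNReal.ofReal (d0 / 4) := by
      refine le_trans (le_of_eq ?_) h1
      ring
    calc _ ≤ ENNReal.ofReal (d0 / 4) + ENNReal.ofReal (d0 / 4) + ENNReal.ofReal (d0 / 4) +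
          ENNReal.ofReal (d0 / 4) := add_le_add (add_le_add (add_le_add e1 e2) e3) e4
      _ = ENNReal.ofReal d0 := by
        rw [← ENNReal.ofReal_add hd4.le hd4.le, ← ENNReal.ofReal_add (by positivity) hd4.le,
          ← ENNReal.ofReal_add (by positivity) hd4.le]
        congr 1; ring

end Crest.Agent.R68.WP
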