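import Crest.Agent.R68.WDefs
import Crest.Agent.R68.EChain

/-!
# Row 68, PART W (helper153): cocycle, restart and mass identity of the damped Duhamel formula
-/

set_option autoImplicit false
open MeasureTheory Set
open scoped ENNReal NNReal
open Crest.AnalysisR.VecCalc3 Crest.AnalysisR.PDE.Boltzmann

noncomputable section

namespace Crest.Agent.R68.WG

open Crest.Agent.R68.W

theorem lint_Ioo_split {f : ℝ → ℝ≥0∞} {s r t : ℝ} (h1 : s ≤ r) (h2 : r ≤ t) :
    ∫⁻ q in Ioo s t, f q = (∫⁻ q in Ioo s r, f q) + ∫⁻ q in Ioo r t, f q := by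
  rcases h2.eq_or_lt with rfl | h2
  · simp
  have e : ∫⁻ q in Ioo s r, f q = ∫⁻ q in Ioc s r, f q := setLIntegral_congr Ioo_ae_eq_Ioc
  rw [← Ioc_union_Ioo_eq_Ioo h1 h2, lintegral_union measurableSet_Ioo, e]
  rw [Set.disjoint_left]
  exact fun x hx hx' => not_lt.2 hx.2 hx'.1

theorem dmp_ne_top (L : Om → ℝ≥0∞) (z : Om) (s : ℝ) : dmp L z s ≠ ⊤ := ENNReal.ofReal_ne_top

theorem lint_Ioo_reflect (f : ℝ → ℝ≥0∞) (a t : ℝ) :
    ∫⁻ r in Ioo a t, f r = ∫⁻ σ in Ioo 0 (t - a), f (t - σ) := by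
  have hmp : MeasurePreserving (fun x : ℝ => t - x) volume volume :=
    Measure.measurePreserving_sub_left volume t
  have he : MeasurableEmbedding (fun x : ℝ => t - x) :=
    (MeasurableEquiv.subLeft t).measurableEmbedding
  have h := hmp.setLIntegral_comp_preimage_emb he f (Ioo a t)
  rw [← h]
  simp

theorem opt_split (L : Om → ℝ≥0∞) {z : Om} {s r : ℝ} (h1 : s ≤ r) (h2 : r ≤ z.1) :
    opt L z s = opt L (fl z r) s + opt L z r := by
  unfold opt
  rw [lint_Ioo_split h1 h2]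
  simp only [fl_fl, fl_fst]

theorem opt_anti (L : Om → ℝ≥0∞) {z : Om} {s r : ℝ} (h1 : s ≤ r) : opt L z r ≤ opt L z s := by
  unfold opt
  exact lintegral_mono_set (Ioo_subset_Ioo_left h1)

theorem dmp_split (L : Om → ℝ≥0∞) {z : Om} {s r : ℝ} (h1 : s ≤ r) (h2 : r ≤ z.1)
    (hf : opt L z s ≠ ⊤) : dmp L z s = dmp L z r * dmp L (fl z r) s := by
  have e := opt_split L h1 h2
  have h3 : opt L (fl z r) s ≠ ⊤ := fun h => hf (by rw [e, h]; simp)
  have h4 : opt L z r ≠ ⊤ := fun h => hf (by rw [e, h]; simp)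
  unfold dmp
  rw [e, ENNReal.toReal_add h3 h4, ← ENNReal.ofReal_mul (Real.exp_pos _).le, ← Real.exp_add]
  congr 2
  ring

/-- restart of the damped Duhamel formula at time `s` -/
theorem damped_restart {T1 : ℝ} {h1 : P2 → R3 → ℝ≥0∞} {L P : Om → ℝ≥0∞} {z : Om} {s : ℝ}
    (hs1 : T1 ≤ s) (hs2 : s ≤ z.1) (hf : opt L z T1 ≠ ⊤) :
    damped T1 h1 L P z = dmp L z s * damped T1 h1 L P (fl z s) +
      ∫⁻ r in Ioo s z.1, dmp L z r * P (fl z r) := by
  unfold damped
  rw [lint_Ioo_split hs1 hs2, dmp_split L hs1 hs2 hf, mul_add, fl_fl]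
  have e : ∫⁻ q in Ioo T1 s, dmp L z q * P (fl z q) =
      dmp L z s * ∫⁻ r in Ioo T1 (fl z s).1, dmp L (fl z s) r * P (fl (fl z s) r) := by
    rw [← lintegral_const_mul' (dmp L z s) _ (dmp_ne_top L z s), fl_fst]
    refine setLIntegral_congr_fun measurableSet_Ioo fun q hq => ?_
    rw [dmp_split L hq.2.le hs2 (ne_top_of_le_ne_top hf (opt_anti L hq.1.le)), fl_fl, mul_assoc]
  rw [e]
  ring

/-- the mass identity: `exp (-∫_s^t L) + ∫_s^t L exp (-∫_r^t L) dr = 1` -/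
theorem dmp_mass {L : Om → ℝ≥0∞} (hL : Measurable L) {z : Om} {s : ℝ} (hs : s ≤ z.1)
    (hf : opt L z s ≠ ⊤) :
    dmp L z s + ∫⁻ r in Ioo s z.1, dmp L z r * L (fl z r) = 1 := by
  set t := z.1 with ht
  set q : ℝ → ℝ≥0∞ := fun σ => L (fl z (t - σ)) with hq
  have hqm : Measurable q := by
    have : Measurable fun σ : ℝ => fl z (t - σ) := by
      have := continuous_fl
      exact (this.comp (continuous_const.prodMk (continuous_const.sub continuous_id))).measurable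
    exact hL.comp this
  have hopt : ∀ σ, opt L z (t - σ) = ∫⁻ r in Ioo 0 σ, q r := by
    intro σ
    unfold opt
    rw [← ht, lint_Ioo_reflect]
    simp [hq]
  have hI : ∫⁻ r in Ioo 0 (t - s), q r ≠ ⊤ := by
    rw [← hopt]
    simpa using hf
  have hlt : ∀ᵐ r ∂volume.restrict (Ioo 0 (t - s)), q r < ⊤ := ae_lt_top hqm hI
  have hqi : IntegrableOn (fun σ => (q σ).toReal) (Ioo 0 (t - s)) := by
    refine integrable_toReal_of_lintegral_ne_top hqm.aemeasurable hI
  have hint : ∀ σ ∈ Icc 0 (t - s), ∫ r in Ioo 0 σ, (q r).toReal = (opt L z (t - σ)).toReal := by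
    intro σ hσ
    rw [hopt, integral_toReal hqm.aemeasurable]
    exact ae_restrict_of_ae_restrict_of_subset (Ioo_subset_Ioo_right hσ.2) hlt
  have hts : 0 ≤ t - s := by linarith
  obtain ⟨hint1, h⟩ := Crest.Agent.R68E.chain_rule hts hqi 0
    (φ := fun y => -Real.exp (-y)) (φ' := fun y => Real.exp (-y)) (c := -1)
    (by
      intro y _
      have h1 : HasDerivAt (fun y : ℝ => -y) (-1) y := hasDerivAt_neg y
      have h2 := h1.exp.fun_neg
      have e : -(Real.exp (-y) * -1) = Real.exp (-y) := by ring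
      rw [e] at h2
      exact h2)
    (by fun_prop)
    (by
      intro σ hσ
      have : 0 ≤ ∫ r in Ioo 0 σ, (q r).toReal := integral_nonneg fun _ => ENNReal.toReal_nonneg
      linarith)
  simp only [zero_add, neg_zero, Real.exp_zero] at h hint1
  have hE : ∫⁻ r in Ioo s t, dmp L z r * L (fl z r) =
      ENNReal.ofReal (∫ σ in Ioo 0 (t - s), Real.exp (-∫ r in Ioo 0 σ, (q r).toReal) * (q σ).toReal) := by
    rw [lint_Ioo_reflect, ofReal_integral_eq_lintegral_ofReal hint1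
      (ae_of_all _ fun σ => mul_nonneg (Real.exp_pos _).le ENNReal.toReal_nonneg)]
    refine lintegral_congr_ae ?_
    filter_upwards [hlt, ae_restrict_mem measurableSet_Ioo] with σ h1 h2
    rw [ENNReal.ofReal_mul (Real.exp_pos _).le, hint σ ⟨h2.1.le, h2.2.le⟩,
      ENNReal.ofReal_toReal h1.ne]
    rfl
  rw [hE, ← h, hint (t - s) ⟨hts, le_rfl⟩]
  have e1 : t - (t - s) = s := by ring
  rw [e1]
  unfold dmp
  rw [← ENNReal.ofReal_add (Real.exp_pos _).le]
  · rw [← ENNReal.ofReal_one]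
    congr 1
    ring
  · have : Real.exp (-(opt L z s).toReal) ≤ 1 := Real.exp_le_one_iff.2 (by simp)
    linarith

/-- lower bound of the rate gives decay of the damping factor -/
theorem dmp_le_exp {L : Om → ℝ≥0∞} {z : Om} {s r1 r2 ρ : ℝ} (hρ : 0 ≤ ρ) (h1 : s ≤ r1)
    (h2 : r1 ≤ r2) (h3 : r2 ≤ z.1) (hf : opt L z s ≠ ⊤)
    (hL : ∀ r ∈ Ioo r1 r2, ENNReal.ofReal ρ ≤ L (fl z r)) :
    dmp L z s ≤ ENNReal.ofReal (Real.exp (-(ρ * (r2 - r1)))) := by
  unfold dmp
  refine ENNReal.ofReal_le_ofReal (Real.exp_le_exp.2 (neg_le_neg ?_))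
  have h4 : ENNReal.ofReal (ρ * (r2 - r1)) ≤ opt L z s := by
    calc ENNReal.ofReal (ρ * (r2 - r1)) = ∫⁻ _r in Ioo r1 r2, ENNReal.ofReal ρ := by
          rw [lintegral_const, Measure.restrict_apply MeasurableSet.univ, univ_inter,
            Real.volume_Ioo, ENNReal.ofReal_mul hρ]
      _ ≤ ∫⁻ r in Ioo r1 r2, L (fl z r) := setLIntegral_mono' measurableSet_Ioo hL
      _ ≤ _ := lintegral_mono_set (Ioo_subset_Ioo h1 h3)
  have h5 := ENNReal.toReal_mono hf h4
  rwa [ENNReal.toReal_ofReal (mul_nonneg hρ (by linarith))] at h5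

end Crest.Agent.R68.WG
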