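import Crest.Agent.R68.WG1
import Crest.Agent.R68.WA5
import Crest.Agent.R68.WB1
import Crest.Agent.R68.CGauss

/-!
# Row 68, PART W (helper153): from the truncated system to the hypotheses of the a-priori theorem
-/

set_option autoImplicit false
open MeasureTheory Set
open scoped ENNReal NNReal
open Crest.AnalysisR.VecCalc3 Crest.AnalysisR.PDE.Boltzmann

noncomputable section

namespace Crest.Agent.R68.WG

open Crest.Agent.R68.W Crest.Agent.R68.WA

/-! ### bilinear algebra -/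

theorem Lc_add {f g : R3 → ℝ≥0∞} (hf : Measurable f) (v : R3) :
    Lc (fun z => f z + g z) v = Lc f v + Lc g v := by
  rw [C.Lc_eq, C.Lc_eq, C.Lc_eq, ← lintegral_add_left]
  · exact lintegral_congr fun vs => by ring
  · exact Measurable.mul (by fun_prop) hf

/-- integrand of the gain term -/
def gI (f k : R3 → ℝ≥0∞) (v : R3) (q : R3 × R3) : ℝ≥0∞ :=
  ENNReal.ofReal |inner ℝ (v - q.1) q.2| * f (postVel v q.1 q.2) * k (postVelStar v q.1 q.2)

theorem measurable_gI {f k : R3 → ℝ≥0∞} (hf : Measurable f) (hk : Measurable k) (v : R3) :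
    Measurable (gI f k v) := by
  have hp : Measurable fun q : R3 × R3 => postVel v q.1 q.2 := by unfold postVel; fun_prop
  have hs : Measurable fun q : R3 × R3 => postVelStar v q.1 q.2 := by unfold postVelStar; fun_prop
  have ha : Measurable fun q : R3 × R3 => ENNReal.ofReal |inner ℝ (v - q.1) q.2| := by fun_prop
  exact (ha.mul (hf.comp hp)).mul (hk.comp hs)

theorem Qp_eq_gI (f k : R3 → ℝ≥0∞) (v : R3) :
    Qp f k v = ∫⁻ vs, ∫⁻ w, gI f k v (vs, w) ∂sphereMeasure := rfl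

theorem lint2_add {F G : R3 × R3 → ℝ≥0∞} (hF : Measurable F) :
    ∫⁻ vs, ∫⁻ w, (F (vs, w) + G (vs, w)) ∂sphereMeasure =
      (∫⁻ vs, ∫⁻ w, F (vs, w) ∂sphereMeasure) + ∫⁻ vs, ∫⁻ w, G (vs, w) ∂sphereMeasure := by
  have h1 : ∀ vs, Measurable fun w => F (vs, w) := fun vs => hF.comp measurable_prodMk_left
  have h2 : Measurable fun vs => ∫⁻ w, F (vs, w) ∂sphereMeasure := hF.lintegral_prod_right'
  rw [← lintegral_add_left h2]
  exact lintegral_congr fun vs => lintegral_add_left (h1 vs) _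

theorem Qp_add_left {f g k : R3 → ℝ≥0∞} (hf : Measurable f) (hk : Measurable k) (v : R3) :
    Qp (fun z => f z + g z) k v = Qp f k v + Qp g k v := by
  rw [Qp_eq_gI, Qp_eq_gI, Qp_eq_gI, ← lint2_add (measurable_gI hf hk v)]
  refine lintegral_congr fun vs => lintegral_congr fun w => ?_
  unfold gI
  ring

theorem Qp_add_right {f g k : R3 → ℝ≥0∞} (hf : Measurable f) (hk : Measurable k) (v : R3) :
    Qp k (fun z => f z + g z) v = Qp k f v + Qp k g v := by
  rw [Qp_eq_gI, Qp_eq_gI, Qp_eq_gI, ← lint2_add (measurable_gI hk hf v)]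
  refine lintegral_congr fun vs => lintegral_congr fun w => ?_
  unfold gI
  ring

/-- the Maxwellian is an equilibrium -/
theorem Qp_Mx (v : R3) : Qp Mx Mx v = Mx v * Lc Mx v := by
  have h : Mx = C.gs ((2 * Real.pi) ^ (-(3 / 2 : ℝ))) 1 0 := by
    funext z
    unfold Mx maxwellian C.gs
    simp
  rw [h]
  exact C.Qp_gs (by positivity) 1 0 v

/-- comparison of the source with the loss times the Maxwellian -/
theorem src_compare {h g c : R3 → ℝ≥0∞} (hh : Measurable h) (hg : Measurable g)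
    (h1 : ∀ z, h z ≤ Mx z + g z) (h2 : ∀ z, Mx z ≤ h z + g z) {v : R3} {Sp K : ℝ≥0∞}
    (hK1 : Qp c h v + Qp h c v + Sp ≤ K) (hK2 : Mx v * Lc c v ≤ K) :
    Qp h h v + Qp c h v + Qp h c v + Sp ≤ Lc (fun z => h z + c z) v * Mx v +
      (Qp Mx g v + Qp g Mx v + Mx v * Lc g v + Qp g g v + K) ∧
    Lc (fun z => h z + c z) v * Mx v ≤ Qp h h v + Qp c h v + Qp h c v + Sp +
      (Qp Mx g v + Qp g Mx v + Mx v * Lc g v + Qp g g v + K) := by
  have hM := measurable_Mx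
  have e1 : Lc Mx v ≤ Lc h v + Lc g v := by
    rw [← Lc_add hh]; exact WA.Lc_mono h2 v
  have e2 : Lc h v ≤ Lc Mx v + Lc g v := by
    rw [← Lc_add hM]; exact WA.Lc_mono h1 v
  rw [Lc_add hh]
  constructor
  · have e3 : Qp h h v ≤ Mx v * (Lc h v + Lc g v) + Qp Mx g v + Qp g Mx v + Qp g g v := by
      calc Qp h h v ≤ Qp (fun z => Mx z + g z) (fun z => Mx z + g z) v := WA.Qp_mono h1 h1 v
        _ = Qp Mx Mx v + Qp Mx g v + (Qp g Mx v + Qp g g v) := by
            have hMg : Measurable fun z => Mx z + g z := hM.add hg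
            rw [Qp_add_left hM hMg, Qp_add_right hM hM, Qp_add_right hM hg]
        _ ≤ Mx v * (Lc h v + Lc g v) + Qp Mx g v + (Qp g Mx v + Qp g g v) := by
            rw [Qp_Mx]; gcongr
        _ = _ := by ring
    calc Qp h h v + Qp c h v + Qp h c v + Sp
        = Qp h h v + (Qp c h v + Qp h c v + Sp) := by ring
      _ ≤ (Mx v * (Lc h v + Lc g v) + Qp Mx g v + Qp g Mx v + Qp g g v) + K := add_le_add e3 hK1
      _ = Lc h v * Mx v + (Qp Mx g v + Qp g Mx v + Mx v * Lc g v + Qp g g v + K) := by ring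
      _ ≤ _ := by gcongr; exact le_self_add
  · have e4 : Mx v * Lc h v ≤ Qp h h v + (Qp Mx g v + Qp g Mx v + Mx v * Lc g v + Qp g g v) := by
      calc Mx v * Lc h v ≤ Mx v * (Lc Mx v + Lc g v) := by gcongr
        _ = Qp Mx Mx v + Mx v * Lc g v := by rw [Qp_Mx]; ring
        _ ≤ (Qp h Mx v + Qp g Mx v) + Mx v * Lc g v := by
            rw [← Qp_add_left hh hM]
            gcongr
            exact WA.Qp_mono h2 (fun _ => le_rfl) v
        _ ≤ ((Qp h h v + Qp h g v) + Qp g Mx v) + Mx v * Lc g v := by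
            rw [← Qp_add_right hh hh]
            gcongr
            exact WA.Qp_mono (fun _ => le_rfl) h2 v
        _ ≤ ((Qp h h v + (Qp Mx g v + Qp g g v)) + Qp g Mx v) + Mx v * Lc g v := by
            rw [← Qp_add_left hM hg]
            gcongr
            exact WA.Qp_mono h1 (fun _ => le_rfl) v
        _ = _ := by ring
    calc (Lc h v + Lc c v) * Mx v = Mx v * Lc h v + Mx v * Lc c v := by ring
      _ ≤ (Qp h h v + (Qp Mx g v + Qp g Mx v + Mx v * Lc g v + Qp g g v)) + K :=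
          add_le_add e4 hK2
      _ ≤ Qp h h v + (Qp c h v + Qp h c v + Sp) +
            (Qp Mx g v + Qp g Mx v + Mx v * Lc g v + Qp g g v) + K := by
          calc _ = Qp h h v + (Qp Mx g v + Qp g Mx v + Mx v * Lc g v + Qp g g v) + K := rfl
            _ ≤ (Qp h h v + (Qp c h v + Qp h c v + Sp)) +
                (Qp Mx g v + Qp g Mx v + Mx v * Lc g v + Qp g g v) + K := by
                gcongr; exact le_self_add
      _ = _ := by ring

/-- joint measurability of `Qp` with parameters -/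
theorem measurable_Qp_param {f k : Om → ℝ≥0∞} (hf : Measurable f) (hk : Measurable k) :
    Measurable fun z : Om =>
      Qp (fun w => f (z.1, z.2.1, w)) (fun w => k (z.1, z.2.1, w)) z.2.2 := by
  have h1 : Measurable fun q : (Om × R3) × R3 =>
      ((q.1.1.1, q.1.1.2.1, postVel q.1.1.2.2 q.1.2 q.2) : Om) := by
    unfold postVel; fun_prop
  have h2 : Measurable fun q : (Om × R3) × R3 =>
      ((q.1.1.1, q.1.1.2.1, postVelStar q.1.1.2.2 q.1.2 q.2) : Om) := by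
    unfold postVelStar; fun_prop
  have ha : Measurable fun q : (Om × R3) × R3 =>
      ENNReal.ofReal |inner ℝ (q.1.1.2.2 - q.1.2) q.2| := by fun_prop
  have h3 : Measurable fun q : (Om × R3) × R3 => ENNReal.ofReal |inner ℝ (q.1.1.2.2 - q.1.2) q.2| *
      f (q.1.1.1, q.1.1.2.1, postVel q.1.1.2.2 q.1.2 q.2) *
      k (q.1.1.1, q.1.1.2.1, postVelStar q.1.1.2.2 q.1.2 q.2) :=
    (ha.mul (hf.comp h1)).mul (hk.comp h2)
  have h4 : Measurable fun p : Om × R3 => ∫⁻ w, ENNReal.ofReal |inner ℝ (p.1.2.2 - p.2) w| *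
      f (p.1.1, p.1.2.1, postVel p.1.2.2 p.2 w) *
      k (p.1.1, p.1.2.1, postVelStar p.1.2.2 p.2 w) ∂sphereMeasure := h3.lintegral_prod_right'
  exact h4.lintegral_prod_right'

/-! ### the truncated system -/

/-- data of the truncated system -/
structure TSys (T1 : ℝ) (b : ℝ≥0) (E : ℝ → P2 → R3 → ℝ≥0∞) (u : Om → ℝ) (c Sp : Om → ℝ≥0∞)
    (h1 : P2 → R3 → ℝ≥0∞) (Hc L P : Om → ℝ≥0∞) : Prop where
  um : Measurable u
  u0 : ∀ z, 0 ≤ u z
  uper : ∀ t v, PerG fun x => u (t, x, v)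
  cm : Measurable c
  Spm : Measurable Sp
  Hc_eq : ∀ z, Hc z = min (ENNReal.ofReal (u z)) (b * E z.1 z.2.1 z.2.2)
  L_eq : ∀ z, L z = Lc (fun w => Hc (z.1, z.2.1, w) + c (z.1, z.2.1, w)) z.2.2
  P_eq : ∀ z, P z = Qp (fun w => Hc (z.1, z.2.1, w)) (fun w => Hc (z.1, z.2.1, w)) z.2.2 +
    Qp (fun w => c (z.1, z.2.1, w)) (fun w => Hc (z.1, z.2.1, w)) z.2.2 +
    Qp (fun w => Hc (z.1, z.2.1, w)) (fun w => c (z.1, z.2.1, w)) z.2.2 + Sp z
  eqn : ∀ z : Om, T1 ≤ z.1 → E z.1 z.2.1 z.2.2 ≠ ⊤ → ENNReal.ofReal (u z) = damped T1 h1 L P z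
  fin : ∀ z : Om, T1 ≤ z.1 → E z.1 z.2.1 z.2.2 ≠ ⊤ → opt L z T1 ≠ ⊤

section
variable {T1 : ℝ} {b : ℝ≥0} {E : ℝ → P2 → R3 → ℝ≥0∞} {u : Om → ℝ} {c Sp : Om → ℝ≥0∞}
    {h1 : P2 → R3 → ℝ≥0∞} {Hc L P : Om → ℝ≥0∞}

theorem TSys.Hcm (h : TSys T1 b E u c Sp h1 Hc L P)
    (hE : Measurable fun p : ℝ × P2 × R3 => E p.1 p.2.1 p.2.2) : Measurable Hc := by
  have e : Hc = fun z => min (ENNReal.ofReal (u z)) (b * E z.1 z.2.1 z.2.2) := funext h.Hc_eq
  rw [e]
  exact (h.um.ennreal_ofReal).min (hE.const_mul _)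


theorem TSys.Lm (h : TSys T1 b E u c Sp h1 Hc L P)
    (hE : Measurable fun p : ℝ × P2 × R3 => E p.1 p.2.1 p.2.2) : Measurable L := by
  have hHc := h.Hcm hE
  have e : L = fun z => Lc (fun w => Hc (z.1, z.2.1, w) + c (z.1, z.2.1, w)) z.2.2 := funext h.L_eq
  rw [e]
  simp only [C.Lc_eq]
  have hm : Measurable fun p : Om × R3 => ((p.1.1, p.1.2.1, p.2) : Om) := by fun_prop
  have h3 : Measurable fun p : Om × R3 => ENNReal.ofReal (2 * Real.pi * ‖p.1.2.2 - p.2‖) *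
      (Hc (p.1.1, p.1.2.1, p.2) + c (p.1.1, p.1.2.1, p.2)) :=
    Measurable.mul (by fun_prop) ((hHc.comp hm).add (h.cm.comp hm))
  exact h3.lintegral_prod_right'

/-- distance to the Maxwellian -/
def ghf (u : Om → ℝ) (t : ℝ) (x : P2) (v : R3) : ℝ≥0∞ := ‖u (t, x, v) - maxwellian v‖ₑ

/-- the source majorant -/
def Phf (u : Om → ℝ) (E : ℝ → P2 → R3 → ℝ≥0∞) (vs : ℝ → ℝ≥0∞) (t : ℝ) (x : P2) (v : R3) : ℝ≥0∞ :=
  Qp Mx (ghf u t x) v + Qp (ghf u t x) Mx v + Mx v * Lc (ghf u t x) v +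
    Qp (ghf u t x) (ghf u t x) v + vs t * E t x v

theorem measurable_ghf (hu : Measurable u) :
    Measurable fun p : ℝ × P2 × R3 => ghf u p.1 p.2.1 p.2.2 := by
  unfold ghf
  have hM : Measurable maxwellian := by unfold maxwellian; fun_prop
  exact (hu.sub (hM.comp (measurable_snd.comp measurable_snd))).enorm

theorem ofReal_le_add_enorm (a c : ℝ) : ENNReal.ofReal a ≤ ENNReal.ofReal c + ‖a - c‖ₑ := by
  rw [← ofReal_norm, Real.norm_eq_abs]
  refine (ENNReal.ofReal_le_ofReal (show a ≤ c + |a - c| by linarith [le_abs_self (a - c)])).trans ?_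
  exact ENNReal.ofReal_add_le

theorem enorm_sub_le_of {a c : ℝ} (ha : 0 ≤ a) (hc : 0 ≤ c) {δ : ℝ≥0∞}
    (h1 : ENNReal.ofReal a ≤ ENNReal.ofReal c + δ) (h2 : ENNReal.ofReal c ≤ ENNReal.ofReal a + δ) :
    ‖a - c‖ₑ ≤ δ := by
  by_cases hδ : δ = ⊤
  · simp [hδ]
  rw [← ofReal_norm, Real.norm_eq_abs, ← ENNReal.ofReal_toReal hδ]
  apply ENNReal.ofReal_le_ofReal
  have hd : 0 ≤ δ.toReal := ENNReal.toReal_nonneg
  rw [← ENNReal.ofReal_toReal hδ, ← ENNReal.ofReal_add hc hd,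
    ENNReal.ofReal_le_ofReal_iff (by positivity)] at h1
  rw [← ENNReal.ofReal_toReal hδ, ← ENNReal.ofReal_add ha hd,
    ENNReal.ofReal_le_ofReal_iff (by positivity)] at h2
  rw [abs_sub_le_iff]
  constructor <;> linarith

theorem maxw_nonneg (v : R3) : 0 ≤ maxwellian v := by unfold maxwellian; positivity

theorem meas_dmp_r {L : Om → ℝ≥0∞} (hL : Measurable L) (z : Om) : Measurable fun r : ℝ => dmp L z r :=
  (measurable_dmp hL).comp (measurable_const.prodMk measurable_id)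

theorem meas_fl_r (z : Om) : Measurable fun r : ℝ => fl z r :=
  measurable_fl.comp (measurable_const.prodMk measurable_id)

theorem TSys.Pm (S : TSys T1 b E u c Sp h1 Hc L P)
    (hE : Measurable fun p : ℝ × P2 × R3 => E p.1 p.2.1 p.2.2) : Measurable P := by
  have hHc := S.Hcm hE
  have e2 : P = fun z => Qp (fun w => Hc (z.1, z.2.1, w)) (fun w => Hc (z.1, z.2.1, w)) z.2.2 +
      Qp (fun w => c (z.1, z.2.1, w)) (fun w => Hc (z.1, z.2.1, w)) z.2.2 +
      Qp (fun w => Hc (z.1, z.2.1, w)) (fun w => c (z.1, z.2.1, w)) z.2.2 + Sp z := funext S.P_eq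
  rw [e2]
  exact (((measurable_Qp_param hHc hHc).add (measurable_Qp_param S.cm hHc)).add
    (measurable_Qp_param hHc S.cm)).add S.Spm

theorem TSys.Hcu (S : TSys T1 b E u c Sp h1 Hc L P) {T : ℝ}
    (hT : ∀ t x v, T1 ≤ t → t ≤ T → ENNReal.ofReal (u (t, x, v)) ≤ b * E t x v)
    {t : ℝ} (x : P2) (h1 : T1 ≤ t) (h2 : t ≤ T) :
    (fun w => Hc (t, x, w)) = fun w => ENNReal.ofReal (u (t, x, w)) := by
  funext w
  rw [S.Hc_eq]
  exact min_eq_left (hT t x w h1 h2)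

theorem meas_slice (t : ℝ) (x : P2) : Measurable fun w : R3 => ((t, x, w) : Om) := by
  fun_prop

theorem ghf_le1 (u : Om → ℝ) (t : ℝ) (x : P2) (w : R3) :
    ENNReal.ofReal (u (t, x, w)) ≤ Mx w + ghf u t x w := ofReal_le_add_enorm _ _

theorem ghf_le2 (u : Om → ℝ) (t : ℝ) (x : P2) (w : R3) :
    Mx w ≤ ENNReal.ofReal (u (t, x, w)) + ghf u t x w := by
  refine (ofReal_le_add_enorm (maxwellian w) (u (t, x, w))).trans (le_of_eq ?_)
  unfold ghf
  rw [← ofReal_norm, ← ofReal_norm, norm_sub_rev]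

theorem ghf_le_add {u : Om → ℝ} (hu : ∀ z, 0 ≤ u z) (t : ℝ) (x : P2) (v : R3) :
    ghf u t x v ≤ ENNReal.ofReal (u (t, x, v)) + Mx v := by
  unfold ghf
  rw [← ofReal_norm, Real.norm_eq_abs]
  unfold Mx
  rw [← ENNReal.ofReal_add (hu _) (maxw_nonneg v)]
  refine ENNReal.ofReal_le_ofReal ?_
  have := hu (t, x, v)
  have := maxw_nonneg v
  rw [abs_le]; constructor <;> linarith

/-- comparison of the sources -/
theorem TSys.cmp (S : TSys T1 b E u c Sp h1 Hc L P) {T : ℝ}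
    (hT : ∀ t x v, T1 ≤ t → t ≤ T → ENNReal.ofReal (u (t, x, v)) ≤ b * E t x v)
    {vs : ℝ → ℝ≥0∞}
    (cold : ∀ t x v, T1 ≤ t → t ≤ T →
      Qp (fun w => c (t, x, w)) (fun w => Hc (t, x, w)) v +
        Qp (fun w => Hc (t, x, w)) (fun w => c (t, x, w)) v + Sp (t, x, v) ≤ vs t * E t x v ∧
      Mx v * Lc (fun w => c (t, x, w)) v ≤ vs t * E t x v)
    {t : ℝ} (x : P2) (v : R3) (h1 : T1 ≤ t) (h2 : t ≤ T) :
    P (t, x, v) ≤ L (t, x, v) * Mx v + Phf u E vs t x v ∧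
      L (t, x, v) * Mx v ≤ P (t, x, v) + Phf u E vs t x v := by
  have hh : Measurable fun w => ENNReal.ofReal (u (t, x, w)) :=
    (S.um.comp (meas_slice t x)).ennreal_ofReal
  have hg : Measurable (ghf u t x) := (measurable_ghf S.um).comp (meas_slice t x)
  have hk := cold t x v h1 h2
  have hu := S.Hcu hT x h1 h2
  rw [hu] at hk
  have key := src_compare hh hg (ghf_le1 u t x) (ghf_le2 u t x) hk.1 hk.2
  have e : (fun w => Hc (t, x, w) + c (t, x, w)) =
      fun w => ENNReal.ofReal (u (t, x, w)) + c (t, x, w) := by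
    funext w
    rw [congrFun hu w]
  have eP : P (t, x, v) = Qp (fun w => ENNReal.ofReal (u (t, x, w)))
      (fun w => ENNReal.ofReal (u (t, x, w))) v +
      Qp (fun w => c (t, x, w)) (fun w => ENNReal.ofReal (u (t, x, w))) v +
      Qp (fun w => ENNReal.ofReal (u (t, x, w))) (fun w => c (t, x, w)) v + Sp (t, x, v) := by
    rw [S.P_eq]
    change Qp (fun w => Hc (t, x, w)) (fun w => Hc (t, x, w)) v +
      Qp (fun w => c (t, x, w)) (fun w => Hc (t, x, w)) v +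
      Qp (fun w => Hc (t, x, w)) (fun w => c (t, x, w)) v + Sp (t, x, v) = _
    rw [hu]
  have eL : L (t, x, v) = Lc (fun w => ENNReal.ofReal (u (t, x, w)) + c (t, x, w)) v := by
    rw [S.L_eq]
    change Lc (fun w => Hc (t, x, w) + c (t, x, w)) v = _
    rw [e]
  rw [eP, eL]
  exact key

/-- damping lower bound -/
theorem TSys.damp2 (S : TSys T1 b E u c Sp h1 Hc L P) {T nu0 : ℝ} (hnu : 0 < nu0)
    (hnuM : ∀ v : R3, ENNReal.ofReal (nu0 * (1 + ‖v‖)) ≤ Lc Mx v)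
    (hT : ∀ t x v, T1 ≤ t → t ≤ T → ENNReal.ofReal (u (t, x, v)) ≤ b * E t x v)
    (s r1 r2 t : ℝ) (x : P2) (v : R3) (hEt : E t x v ≠ ⊤) (hs1 : T1 ≤ s) (hs2 : s ≤ r1)
    (hr : r1 ≤ r2) (hr2 : r2 ≤ t) (htT : t ≤ T)
    (hLc : ∀ r ∈ Ioo r1 r2, Lc (ghf u r (x - (t - r) • bar v)) v ≤
      ENNReal.ofReal (nu0 / 2 * (1 + ‖v‖))) :
    dmp L (t, x, v) s ≤ ENNReal.ofReal (Real.exp (-(nu0 / 2 * (1 + ‖v‖) * (r2 - r1)))) := by
  have hT1t : T1 ≤ t := hs1.trans (hs2.trans (hr.trans hr2))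
  have hf : opt L (t, x, v) s ≠ ⊤ :=
    ne_top_of_le_ne_top (S.fin (t, x, v) hT1t hEt) (opt_anti L hs1)
  refine dmp_le_exp (by positivity) hs2 hr hr2 hf fun r hr' => ?_
  have hr1 : T1 ≤ r := hs1.trans (hs2.trans hr'.1.le)
  have hrT : r ≤ T := hr'.2.le.trans (hr2.trans htT)
  have h5 := hLc r hr'
  set y : P2 := x - (t - r) • bar v with hy
  have e1 : Lc Mx v ≤ Lc (fun w => ENNReal.ofReal (u (r, y, w))) v + Lc (ghf u r y) v := by
    have hm' : Measurable fun w => ENNReal.ofReal (u (r, y, w)) :=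
      (S.um.comp (meas_slice r y)).ennreal_ofReal
    rw [← Lc_add hm']
    exact WA.Lc_mono (ghf_le2 u r y) v
  have e2 : Lc (fun w => ENNReal.ofReal (u (r, y, w))) v ≤ L (fl (t, x, v) r) := by
    rw [S.L_eq]
    refine WA.Lc_mono (fun w => ?_) v
    change ENNReal.ofReal (u (r, y, w)) ≤ Hc (r, y, w) + c (r, y, w)
    rw [congrFun (S.Hcu hT y hr1 hrT) w]
    exact le_self_add
  have e3 : ENNReal.ofReal (nu0 / 2 * (1 + ‖v‖)) + ENNReal.ofReal (nu0 / 2 * (1 + ‖v‖)) ≤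
      L (fl (t, x, v) r) + ENNReal.ofReal (nu0 / 2 * (1 + ‖v‖)) := by
    calc _ = ENNReal.ofReal (nu0 * (1 + ‖v‖)) := by
          rw [← ENNReal.ofReal_add (by positivity) (by positivity)]
          congr 1; ring
      _ ≤ Lc Mx v := hnuM v
      _ ≤ _ := e1.trans (add_le_add e2 h5)
  exact (ENNReal.add_le_add_iff_right ENNReal.ofReal_ne_top).1 e3

/-- the restarted equation -/
theorem TSys.restart (S : TSys T1 b E u c Sp h1 Hc L P) {lam : ℝ} {C1 : ℝ≥0} {Cf : ℝ≥0 → ℝ≥0}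
    (hE : KHyp T1 lam C1 Cf E) {s : ℝ} {z : Om} (hs1 : T1 ≤ s) (hst : s ≤ z.1)
    (hEt : E z.1 z.2.1 z.2.2 ≠ ⊤) :
    ENNReal.ofReal (u z) = dmp L z s * ENNReal.ofReal (u (fl z s)) +
        ∫⁻ r in Ioo s z.1, dmp L z r * P (fl z r) := by
  have hT1t : T1 ≤ z.1 := hs1.trans hst
  have hEs : E s (z.2.1 - (z.1 - s) • bar z.2.2) z.2.2 ≠ ⊤ := by
    refine ne_top_of_le_ne_top ?_ (hE.flight s z.1 z.2.1 z.2.2 hs1 hst)
    exact ENNReal.mul_ne_top ENNReal.ofReal_ne_top hEt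
  have hfin := S.fin z hT1t hEt
  have h := damped_restart (h1 := h1) (L := L) (P := P) (z := z) (s := s) hs1 hst hfin
  rw [← S.eqn z hT1t hEt, ← S.eqn (fl z s) hs1 hEs] at h
  exact h

/-- the mass identity times the Maxwellian -/
theorem Mx_mass {L : Om → ℝ≥0∞} (hLm : Measurable L) {z : Om} {s : ℝ} (hst : s ≤ z.1)
    (hfs : opt L z s ≠ ⊤) :
    Mx z.2.2 = dmp L z s * Mx z.2.2 +
      ∫⁻ r in Ioo s z.1, dmp L z r * (L (fl z r) * Mx z.2.2) := by
  have h := dmp_mass hLm hst hfs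
  have hM : Mx z.2.2 ≠ ⊤ := by unfold Mx; exact ENNReal.ofReal_ne_top
  calc Mx z.2.2 = (dmp L z s + ∫⁻ r in Ioo s z.1, dmp L z r * L (fl z r)) * Mx z.2.2 := by
        rw [h, one_mul]
    _ = dmp L z s * Mx z.2.2 + (∫⁻ r in Ioo s z.1, dmp L z r * L (fl z r)) * Mx z.2.2 := by
        rw [add_mul]
    _ = dmp L z s * Mx z.2.2 + ∫⁻ r in Ioo s z.1, (dmp L z r * L (fl z r)) * Mx z.2.2 := by
        rw [lintegral_mul_const' _ _ hM]
    _ = _ := by
        congr 1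
        exact lintegral_congr fun r => by ring

/-- Duhamel for the distance to the Maxwellian -/
theorem TSys.duh (S : TSys T1 b E u c Sp h1 Hc L P) {lam : ℝ} {C1 : ℝ≥0} {Cf : ℝ≥0 → ℝ≥0}
    (hE : KHyp T1 lam C1 Cf E) {T : ℝ}
    (hT : ∀ t x v, T1 ≤ t → t ≤ T → ENNReal.ofReal (u (t, x, v)) ≤ b * E t x v)
    {vs : ℝ → ℝ≥0∞}
    (cold : ∀ t x v, T1 ≤ t → t ≤ T →
      Qp (fun w => c (t, x, w)) (fun w => Hc (t, x, w)) v +
        Qp (fun w => Hc (t, x, w)) (fun w => c (t, x, w)) v + Sp (t, x, v) ≤ vs t * E t x v ∧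
      Mx v * Lc (fun w => c (t, x, w)) v ≤ vs t * E t x v)
    (s t : ℝ) (x : P2) (v : R3) (hEt : E t x v ≠ ⊤) (hs1 : T1 ≤ s) (hst : s ≤ t) (htT : t ≤ T) :
    ghf u t x v ≤ dmp L (t, x, v) s * ghf u s (x - (t - s) • bar v) v +
      ∫⁻ r in Ioo s t, dmp L (t, x, v) r * Phf u E vs r (x - (t - r) • bar v) v := by
  have hLm := S.Lm hE.meas
  have hPm := S.Pm hE.meas
  set z : Om := (t, x, v) with hz
  have hT1t : T1 ≤ t := hs1.trans hst
  have hfs : opt L z s ≠ ⊤ := ne_top_of_le_ne_top (S.fin z hT1t hEt) (opt_anti L hs1)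
  have eH := S.restart hE (z := z) hs1 hst hEt
  have eM := Mx_mass hLm (z := z) hst hfs
  have hmd : Measurable fun r : ℝ => dmp L z r := meas_dmp_r hLm z
  have hfr : Measurable fun r : ℝ => fl z r := meas_fl_r z
  have hLr : Measurable fun r : ℝ => L (fl z r) := hLm.comp hfr
  have hPr : Measurable fun r : ℝ => P (fl z r) := hPm.comp hfr
  have m1 : Measurable fun r : ℝ => dmp L z r * (L (fl z r) * Mx v) :=
    hmd.mul (hLr.mul_const _)
  have m2 : Measurable fun r : ℝ => dmp L z r * P (fl z r) := hmd.mul hPr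
  have hi1 : ∫⁻ r in Ioo s t, dmp L z r * P (fl z r) ≤
      (∫⁻ r in Ioo s t, dmp L z r * (L (fl z r) * Mx v)) +
        ∫⁻ r in Ioo s t, dmp L z r * Phf u E vs r (x - (t - r) • bar v) v := by
    rw [← lintegral_add_left m1]
    refine setLIntegral_mono' measurableSet_Ioo fun r hr => ?_
    rw [← mul_add]
    exact mul_le_mul' le_rfl (S.cmp hT cold _ v (hs1.trans hr.1.le) (hr.2.le.trans htT)).1
  have hi2 : ∫⁻ r in Ioo s t, dmp L z r * (L (fl z r) * Mx v) ≤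
      (∫⁻ r in Ioo s t, dmp L z r * P (fl z r)) +
        ∫⁻ r in Ioo s t, dmp L z r * Phf u E vs r (x - (t - r) • bar v) v := by
    rw [← lintegral_add_left m2]
    refine setLIntegral_mono' measurableSet_Ioo fun r hr => ?_
    rw [← mul_add]
    exact mul_le_mul' le_rfl (S.cmp hT cold _ v (hs1.trans hr.1.le) (hr.2.le.trans htT)).2
  refine enorm_sub_le_of (S.u0 z) (maxw_nonneg v) ?_ ?_
  · change ENNReal.ofReal (u z) ≤ Mx v + (dmp L z s * ghf u s (x - (t - s) • bar v) v +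
      ∫⁻ r in Ioo s t, dmp L z r * Phf u E vs r (x - (t - r) • bar v) v)
    rw [eH]
    calc _ ≤ dmp L z s * (Mx v + ghf u s (x - (t - s) • bar v) v) +
          ((∫⁻ r in Ioo s t, dmp L z r * (L (fl z r) * Mx v)) +
            ∫⁻ r in Ioo s t, dmp L z r * Phf u E vs r (x - (t - r) • bar v) v) :=
          add_le_add (mul_le_mul' le_rfl (ghf_le1 u s _ v)) hi1
      _ = (dmp L z s * Mx v + ∫⁻ r in Ioo s t, dmp L z r * (L (fl z r) * Mx v)) +
            (dmp L z s * ghf u s (x - (t - s) • bar v) v +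
              ∫⁻ r in Ioo s t, dmp L z r * Phf u E vs r (x - (t - r) • bar v) v) := by ring
      _ = _ := by
          congr 1
          exact eM.symm
  · change Mx v ≤ ENNReal.ofReal (u z) + (dmp L z s * ghf u s (x - (t - s) • bar v) v +
      ∫⁻ r in Ioo s t, dmp L z r * Phf u E vs r (x - (t - r) • bar v) v)
    rw [eH]
    calc Mx v = dmp L z s * Mx v + ∫⁻ r in Ioo s t, dmp L z r * (L (fl z r) * Mx v) := eM
      _ ≤ dmp L z s * (ENNReal.ofReal (u (fl z s)) + ghf u s (x - (t - s) • bar v) v) +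
          ((∫⁻ r in Ioo s t, dmp L z r * P (fl z r)) +
            ∫⁻ r in Ioo s t, dmp L z r * Phf u E vs r (x - (t - r) • bar v) v) :=
          add_le_add (mul_le_mul' le_rfl (ghf_le2 u s _ v)) hi2
      _ = _ := by ring

theorem TSys.phyp {lam : ℝ} {C1 : ℝ≥0} {Cf : ℝ≥0 → ℝ≥0} (S : TSys T1 b E u c Sp h1 Hc L P)
    (hE : KHyp T1 lam C1 Cf E) {T nu0 : ℝ} (hnu : 0 < nu0)
    (hnuM : ∀ v : R3, ENNReal.ofReal (nu0 * (1 + ‖v‖)) ≤ Lc Mx v) {CM : ℝ≥0}
    (hCM : ∀ v : R3, Mx v ≤ CM * We v ∧ w1 v * Mx v ≤ CM * We v)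
    (hT : ∀ t x v, T1 ≤ t → t ≤ T → ENNReal.ofReal (u (t, x, v)) ≤ b * E t x v)
    {vs : ℝ → ℝ≥0∞} (hvs : Measurable vs)
    (cold : ∀ t x v, T1 ≤ t → t ≤ T →
      Qp (fun w => c (t, x, w)) (fun w => Hc (t, x, w)) v +
        Qp (fun w => Hc (t, x, w)) (fun w => c (t, x, w)) v + Sp (t, x, v) ≤ vs t * E t x v ∧
      Mx v * Lc (fun w => c (t, x, w)) v ≤ vs t * E t x v) :
    PHyp T1 T nu0 (b + CM) E (ghf u) (Phf u E vs) (fun s t x v => dmp L (t, x, v) s) vs := by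
  refine ⟨measurable_ghf S.um, hvs, ?_, ?_, ?_, ?_, ?_, ?_⟩
  · intro t v x k
    have h : u (t, x + latt k, v) = u (t, x, v) := S.uper t v x k
    change ‖u (t, x + latt k, v) - maxwellian v‖ₑ = ‖u (t, x, v) - maxwellian v‖ₑ
    rw [h]
  · intro t x v h1 h2
    calc ghf u t x v ≤ ENNReal.ofReal (u (t, x, v)) + Mx v := ghf_le_add S.u0 t x v
      _ ≤ b * E t x v + CM * E t x v :=
          add_le_add (hT t x v h1 h2) ((hCM v).1.trans (mul_le_mul' le_rfl (hE.We_le t x v h1)))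
      _ = _ := by push_cast; ring
  · intro t x v _ _
    exact le_rfl
  · intro s t x v
    exact dmp_le_one _ _ _
  · intro s r1 r2 t x v hEt hs1 hs2 hr hr2 htT hLc
    exact S.damp2 hnu hnuM hT s r1 r2 t x v hEt hs1 hs2 hr hr2 htT hLc
  · intro s t x v hEt hs1 hst htT
    exact S.duh hE hT cold s t x v hEt hs1 hst htT

end

end Crest.Agent.R68.WG
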