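import Crest.Agent.R68.WG4
import Crest.Agent.R68.ZOn

/-!
# Row 68, PART W (helper153): the entropy step
-/

set_option autoImplicit false
open MeasureTheory Set
open scoped ENNReal NNReal
open Crest.AnalysisR.VecCalc3 Crest.AnalysisR.PDE.Boltzmann

noncomputable section

namespace Crest.Agent.R68.WG

open Crest.Agent.R68.W Crest.Agent.R68.WA
open Crest.Agent.R68.A (Meas3)
open Crest.Agent.R68.N (Fld dd lossH gainH PerF LcF)

theorem dd_eq_enorm {a : ℝ≥0∞} (ha : a ≠ ⊤) {c : ℝ} (hc : 0 ≤ c) :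
    dd a (ENNReal.ofReal c) ≤ ‖a.toReal - c‖ₑ := by
  have h := dd_le_enorm_sub (a := a.toReal) ENNReal.toReal_nonneg hc
  rwa [ENNReal.ofReal_toReal ha] at h

/-- the entropy gives smallness of the distance to the Maxwellian -/
theorem ent_of_mild {F : Fld} {G0 : P2 → R3 → ℝ} {R T : ℝ}
    (h : MildGOn (fun t x v => (F t x v).toReal) G0 R T) (hF : Meas3 F) {ε : ℝ} (hε : 0 < ε)
    (hH : relEntG G0 ≤ ENNReal.ofReal (ε ^ 2))
    (hm : ∫⁻ q in cellG ×ˢ (univ : Set R3), ENNReal.ofReal (G0 q.1 q.2) ≤ 2)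
    {s : ℝ} (hs0 : 0 ≤ s) (hsT : s ≤ T) (hfin : ∀ y, ∀ᵐ v : R3, F s y v ≠ ⊤) :
    ∫⁻ y in cellG, ∫⁻ v, dd (F s y v) (Mx v) ≤ ENNReal.ofReal (3 * ε) := by
  have h1 := h.l1_le hs0 hsT hε (A := 2) (by norm_num) hH (by simpa using hm)
  have hFs : Measurable fun q : P2 × R3 => F s q.1 q.2 :=
    (show Measurable (fun p : ℝ × P2 × R3 => F p.1 p.2.1 p.2.2) from hF).comp
      (measurable_const.prodMk measurable_id)
  have hmax : Measurable fun q : P2 × R3 => maxwellian q.2 :=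
    W.measurable_maxwellian.comp measurable_snd
  have hmm : Measurable fun q : P2 × R3 => ‖(F s q.1 q.2).toReal - maxwellian q.2‖ₑ :=
    (hFs.ennreal_toReal.sub hmax).enorm
  have e1 : ∫⁻ q in cellG ×ˢ (univ : Set R3), ‖(F s q.1 q.2).toReal - maxwellian q.2‖ₑ =
      ∫⁻ y in cellG, ∫⁻ v, ‖(F s y v).toReal - maxwellian v‖ₑ := by
    rw [Measure.volume_eq_prod P2 R3, ← Measure.prod_restrict, Measure.restrict_univ,
      lintegral_prod _ hmm.aemeasurable]
  rw [e1] at h1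
  refine le_trans ?_ (h1.trans (le_of_eq (by norm_num)))
  refine lintegral_mono fun y => lintegral_mono_ae ?_
  filter_upwards [hfin y] with v hv
  exact dd_eq_enorm hv (maxw_nonneg v)

end Crest.Agent.R68.WG
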