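import Crest.Agent.R68.WG1
import Crest.Agent.R68.Int2
import Crest.Agent.R68.NDefs
import Crest.Agent.R68.DPoles3
import Crest.Agent.R68.WE3

/-!
# Row 68, PART W (helper153): the glued hot component, exponential form on `[0,T]`
-/

set_option autoImplicit false
open MeasureTheory Set
open scoped ENNReal NNReal
open Crest.AnalysisR.VecCalc3 Crest.AnalysisR.PDE.Boltzmann

noncomputable section

namespace Crest.Agent.R68.WGl

open Crest.Agent.R68.A (Meas3 en en_zero en_top en_add en_coe_ofReal en_ne_top en_le_one)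
open Crest.Agent.R68.N
open Crest.Agent.R68.W (Om fl opt dmp damped fl_self)

/-- the glued hot component: datum for `t ≤ 0`, Part A/N for `0 < t < T1`, Part W for `t ≥ T1` -/
def Hgl (H0 : P2 → R3 → ℝ≥0∞) (T1 : ℝ) (H Hh : Fld) : Fld := fun t x v =>
  open scoped Classical in
  if t ≤ 0 then H0 x v else if t < T1 then H t x v else Hh t x v

variable {P : Par} {T1 T : ℝ} {H0 : P2 → R3 → ℝ≥0∞} {H Hh c sp : Fld}

theorem Hgl_le {t : ℝ} (ht : t ≤ 0) : Hgl H0 T1 H Hh t = H0 := by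
  funext x v; unfold Hgl; rw [if_pos ht]

theorem Hgl_mid {t : ℝ} (h0 : 0 < t) (h1 : t < T1) : Hgl H0 T1 H Hh t = H t := by
  funext x v; unfold Hgl; rw [if_neg (not_le.2 h0), if_pos h1]

theorem Hgl_ge {t : ℝ} (h0 : 0 < T1) (h1 : T1 ≤ t) : Hgl H0 T1 H Hh t = Hh t := by
  funext x v; unfold Hgl; rw [if_neg (not_le.2 (h0.trans_le h1)), if_neg (not_lt.2 h1)]

theorem meas3_Hgl (m0 : Measurable fun p : P2 × R3 => H0 p.1 p.2) (m1 : Meas3 H) (m2 : Meas3 Hh) :
    Meas3 (Hgl H0 T1 H Hh) := by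
  classical
  have h0 : MeasurableSet {p : ℝ × P2 × R3 | p.1 ≤ 0} :=
    measurableSet_le measurable_fst measurable_const
  have h1 : MeasurableSet {p : ℝ × P2 × R3 | p.1 < T1} :=
    measurableSet_lt measurable_fst measurable_const
  exact Measurable.ite h0 (m0.comp measurable_snd) (Measurable.ite h1 m1 m2)

theorem perF_Hgl (m0 : ∀ v, PerG fun x => H0 x v) (m1 : PerF H) (m2 : PerF Hh) :
    PerF (Hgl H0 T1 H Hh) := by
  intro t v x k
  have e0 : H0 (x + latt k) v = H0 x v := m0 v x k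
  have e1 : H t (x + latt k) v = H t x v := m1 t v x k
  have e2 : Hh t (x + latt k) v = Hh t x v := m2 t v x k
  unfold Hgl
  simp only [e0, e1, e2]

theorem loss_congr {c c' H H' : Fld} {t : ℝ} {x : P2} (h1 : ∀ z, c t x z = c' t x z)
    (h2 : ∀ z, H t x z = H' t x z) (v : R3) : lossH c H t x v = lossH c' H' t x v := by
  unfold lossH
  simp only [h1, h2]

theorem gain_congr {c c' s s' H H' : Fld} {t : ℝ} {x : P2} (h1 : ∀ z, c t x z = c' t x z)
    (h3 : ∀ z, s t x z = s' t x z)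
    (h2 : ∀ z, H t x z = H' t x z) (v : R3) : gainH c s H t x v = gainH c' s' H' t x v := by
  have e1 : c t x = c' t x := funext h1
  have e2 : H t x = H' t x := funext h2
  unfold gainH
  rw [e1, e2, h3]

/-- accumulated rate -/
def ac (n : Fld) (s t : ℝ) (x : P2) (v : R3) : ℝ≥0∞ :=
  ∫⁻ r in Ioo s t, n r (x - (t - r) • bar v) v

/-- the right side of the exponential form started at time `a` -/
def expf (n q : Fld) (a : ℝ) (g : P2 → R3 → ℝ≥0∞) (t : ℝ) (x : P2) (v : R3) : ℝ≥0∞ :=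
  g (x - (t - a) • bar v) v * en (ac n a t x v) +
    ∫⁻ s in Ioo a t, en (ac n s t x v) * q s (x - (t - s) • bar v) v

theorem ac_split (n : Fld) {s a t : ℝ} (h1 : s ≤ a) (h2 : a ≤ t) (x : P2) (v : R3) :
    ac n s t x v = ac n s a (x - (t - a) • bar v) v + ac n a t x v := by
  unfold ac
  rw [WG.lint_Ioo_split h1 h2]
  congr 1
  refine lintegral_congr fun r => ?_
  congr 1
  rw [sub_sub, ← add_smul]
  congr 2
  ring

/-- gluing of two exponential forms -/
theorem expf_glue {n q : Fld} {g : P2 → R3 → ℝ≥0∞} {b a t : ℝ} (hb : b ≤ a) (hat : a ≤ t)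
    (x : P2) (v : R3) (k : P2 → R3 → ℝ≥0∞)
    (hk : k (x - (t - a) • bar v) v = expf n q b g a (x - (t - a) • bar v) v) :
    expf n q a k t x v = expf n q b g t x v := by
  unfold expf at hk ⊢
  have hpos : ∀ r : ℝ, x - (t - a) • bar v - (a - r) • bar v = x - (t - r) • bar v := by
    intro r
    rw [sub_sub, ← add_smul]
    congr 2
    ring
  rw [hk, WG.lint_Ioo_split hb hat (f := fun s => en (ac n s t x v) * q s (x - (t - s) • bar v) v)]
  rw [hpos]
  have e1 : en (ac n b t x v) = en (ac n b a (x - (t - a) • bar v) v) * en (ac n a t x v) := by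
    rw [ac_split n hb hat, en_add]
  have e2 : ∫⁻ s in Ioo b a, en (ac n s t x v) * q s (x - (t - s) • bar v) v =
      (∫⁻ s in Ioo b a, en (ac n s a (x - (t - a) • bar v) v) *
        q s (x - (t - a) • bar v - (a - s) • bar v) v) * en (ac n a t x v) := by
    rw [← lintegral_mul_const' _ _ (en_ne_top _)]
    refine setLIntegral_congr_fun measurableSet_Ioo fun s hs => ?_
    simp only [hpos]
    rw [ac_split n hs.2.le hat, en_add]
    ring
  rw [e1, e2]
  ring

/-- the damping factors of helper475 in terms of `en` -/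
theorem dmp_eq_en {n : Fld} {t : ℝ} {x : P2} {v : R3} {s : ℝ}
    (hf : opt (fun z : Om => n z.1 z.2.1 z.2.2) (t, x, v) s ≠ ⊤) :
    dmp (fun z : Om => n z.1 z.2.1 z.2.2) (t, x, v) s = en (ac n s t x v) := by
  have e : opt (fun z : Om => n z.1 z.2.1 z.2.2) (t, x, v) s = ac n s t x v := rfl
  unfold dmp
  rw [e] at hf ⊢
  conv_rhs => rw [← ENNReal.ofReal_toReal hf]
  rw [en_coe_ofReal ENNReal.toReal_nonneg]

theorem damped_eq_expf {n q : Fld} {a : ℝ} {g : P2 → R3 → ℝ≥0∞} {t : ℝ} {x : P2} {v : R3}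
    (hf : opt (fun z : Om => n z.1 z.2.1 z.2.2) (t, x, v) a ≠ ⊤) :
    damped a g (fun z : Om => n z.1 z.2.1 z.2.2) (fun z : Om => q z.1 z.2.1 z.2.2) (t, x, v) =
      expf n q a g t x v := by
  unfold damped expf
  rw [dmp_eq_en hf, mul_comm]
  congr 1
  refine setLIntegral_congr_fun measurableSet_Ioo fun s hs => ?_
  have h2 : opt (fun z : Om => n z.1 z.2.1 z.2.2) (t, x, v) s ≠ ⊤ :=
    ne_top_of_le_ne_top hf (WG.opt_anti _ hs.1.le)
  simp only
  rw [dmp_eq_en h2]
  rfl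

theorem ac_congr {n n' : Fld} {s t : ℝ} {x : P2} {v : R3}
    (h : ∀ r ∈ Ioo s t, n r (x - (t - r) • bar v) v = n' r (x - (t - r) • bar v) v) :
    ac n s t x v = ac n' s t x v := setLIntegral_congr_fun measurableSet_Ioo h

theorem expf_congr {n n' q q' : Fld} {a t : ℝ} {g : P2 → R3 → ℝ≥0∞} {x : P2} {v : R3}
    (h : ∀ r ∈ Ioo a t, n r (x - (t - r) • bar v) v = n' r (x - (t - r) • bar v) v)
    (h2 : ∀ r ∈ Ioo a t, q r (x - (t - r) • bar v) v = q' r (x - (t - r) • bar v) v) :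
    expf n q a g t x v = expf n' q' a g t x v := by
  unfold expf
  rw [ac_congr h]
  congr 1
  refine setLIntegral_congr_fun measurableSet_Ioo fun s hs => ?_
  rw [h2 s hs, ac_congr fun r hr => h r ⟨hs.1.trans hr.1, hr.2⟩]

/-- **the exponential form of the glued hot component on `[0,T]`** -/
theorem expo (hY : 0 < P.Y) (hT1 : 0 < T1) {Cf Sf : Fld → Fld}
    (hot : HotSol P Cf Sf H0 T1 H)
    (hc : ∀ t x v, 0 ≤ t → t ≤ T1 → c t x v = Cf (LcF H) t x v)
    (hsp : ∀ t x v, 0 ≤ t → t ≤ T1 → sp t x v = Sf (LcF H) t x v)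
    (heq : ∀ t x v, T1 ≤ t → t ≤ T → Dm P t x v ≠ ⊤ →
      Hh t x v = damped T1 (H T1) (fun z => lossH c Hh z.1 z.2.1 z.2.2)
        (fun z => gainH c sp Hh z.1 z.2.1 z.2.2) (t, x, v))
    (hfin : ∀ t x v, T1 ≤ t → t ≤ T →
      opt (fun z : Om => lossH c Hh z.1 z.2.1 z.2.2) (t, x, v) T1 ≠ ⊤) :
    ∀ t ∈ Icc 0 T, ∀ x v, Dm P t x v ≠ ⊤ → Hgl H0 T1 H Hh t x v =
      expf (lossH c (Hgl H0 T1 H Hh)) (gainH c sp (Hgl H0 T1 H Hh)) 0 H0 t x v := by
  set Hg := Hgl H0 T1 H Hh with hHg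
  have hDw : ∀ {t x v}, Dm P t x v ≠ ⊤ → 0 < Dw P t x v := by
    intro t x v h
    by_contra h2
    apply h
    unfold Dm
    rw [ENNReal.ofReal_of_nonpos (not_lt.1 h2), ENNReal.zero_rpow_of_neg (by norm_num)]
  -- on `(0, T1]`
  have hA : ∀ t x v, 0 < t → t ≤ T1 → Dm P t x v ≠ ⊤ →
      H t x v = expf (lossH c Hg) (gainH c sp Hg) 0 H0 t x v := by
    intro t x v h0 h1 hD
    have h := hot.eqn t ⟨h0, h1⟩ x v (hDw hD)
    rw [h]
    have e : en (acc (lossH (Cf (LcF H)) H) 0 t x v) * H0 (x - t • bar v) v +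
        Dam (lossH (Cf (LcF H)) H) (gainH (Cf (LcF H)) (Sf (LcF H)) H) t x v =
        expf (lossH (Cf (LcF H)) H) (gainH (Cf (LcF H)) (Sf (LcF H)) H) 0 H0 t x v := by
      unfold expf Dam
      rw [mul_comm, sub_zero]
      rfl
    rw [e]
    refine expf_congr (fun r hr => ?_) (fun r hr => ?_)
    · refine loss_congr (fun z => (hc r _ z hr.1.le (hr.2.le.trans h1)).symm) (fun z => ?_) v
      rw [hHg, Hgl_mid hr.1 (hr.2.trans_le h1)]
    · refine gain_congr (fun z => (hc r _ z hr.1.le (hr.2.le.trans h1)).symm)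
        (fun z => (hsp r _ z hr.1.le (hr.2.le.trans h1)).symm) (fun z => ?_) v
      rw [hHg, Hgl_mid hr.1 (hr.2.trans_le h1)]
  intro t ht x v hD
  rcases ht.1.eq_or_lt with h0 | h0
  · rw [← h0, hHg, Hgl_le le_rfl]
    unfold expf ac
    simp
  rcases lt_or_ge t T1 with h1 | h1
  · rw [← hA t x v h0 h1.le hD, hHg, Hgl_mid h0 h1]
  · have e1 : Hg t x v = Hh t x v := by rw [hHg, Hgl_ge hT1 h1]
    rw [e1, heq t x v h1 ht.2 hD, damped_eq_expf (hfin t x v h1 ht.2)]
    have e2 : expf (lossH c Hh) (gainH c sp Hh) T1 (H T1) t x v =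
        expf (lossH c Hg) (gainH c sp Hg) T1 (H T1) t x v := by
      refine expf_congr (fun r hr => ?_) (fun r hr => ?_)
      · refine loss_congr (fun _ => rfl) (fun z => ?_) v
        rw [hHg, Hgl_ge hT1 hr.1.le]
      · refine gain_congr (fun _ => rfl) (fun _ => rfl) (fun z => ?_) v
        rw [hHg, Hgl_ge hT1 hr.1.le]
    rw [e2]
    refine expf_glue hT1.le h1 x v (H T1) ?_
    refine hA T1 _ v hT1 le_rfl ?_
    exact ne_top_of_le_ne_top hD (DPole.Dm_flight hY hT1.le h1 x v)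

end Crest.Agent.R68.WGl
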