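import Crest.Agent.R68.WOutB
import Crest.Agent.R68.WGlue3
import Crest.Agent.R68.TruncOut
import Crest.Agent.R68.ColdOut
import Crest.Agent.R68.ColdMildOut
import Crest.Agent.R68.CausOut
import Crest.Agent.R68.ASize
import Crest.Agent.R68.IntOut

/-!
# Row 68, PART W (helper835): `WOut_holds`.
-/

set_option autoImplicit false

namespace Crest.Agent.R68.W

open WP

/-- **Part W** for every `Y ≥ 1` -/
theorem WOut_all {Y : ℝ} (hY : 1 ≤ Y) : Main0.WOut Y :=
  WOut_of' (lt_of_lt_of_le one_pos hY) (TruncOut_holds hY) (ColdOut_holds hY)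
    (MildOut_of hY (CausOut_holds Y hY) (ColdMildOut_holds Y hY) (SizeOut_holds hY)
      (IntOut_holds hY)) (CausOut_holds Y hY)

/-- **Part W** -/
theorem WOut_holds : Main0.WOut 10 := WOut_all (by norm_num)

end Crest.Agent.R68.W
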