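import Crest.Agent.R68.WDataOut

/-!
# Row 68, PART W (helper835): the assembly of `WOut` from its inputs.
-/

set_option autoImplicit false
open MeasureTheory Set Filter
open scoped ENNReal NNReal Topology
open Crest.AnalysisR.VecCalc3 Crest.AnalysisR.PDE.Boltzmann

noncomputable section

namespace Crest.Agent.R68.WP

open Crest.Agent.R68.A (en Meas3)
open WA DPole N Main0
open Crest.Agent.R68.W (Om damped THyp)

/-- loss rate of the cold component: `lamA` before `T1`, the own one after -/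
def lamG (T1 : ℝ) (lamA Hh : Fld) : Fld := fun t x v =>
  open scoped Classical in if T1 ≤ t then Lc (Hh t x) v else lamA t x v

/-- the damped equation of the hot component on `[T1,T]` -/
def HEq (T1 : ℝ) (E : Fld) (h1 : P2 → R3 → ℝ≥0∞) (cf sp : Fld → Fld) (lam Hh : Fld) (T : ℝ) : Prop :=
  ∀ t x v, T1 ≤ t → t ≤ T → E t x v ≠ ⊤ →
    Hh t x v = damped T1 h1
      (fun z => lossH (cf lam) Hh z.1 z.2.1 z.2.2)
      (fun z => gainH (cf lam) (sp lam) Hh z.1 z.2.1 z.2.2) (t, x, v)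

/-- **(helper153, `WG.main`)**: global existence after `T1`. -/
def GMain (Y : ℝ) : Prop :=
  ∀ A : ℝ≥0, ∃ (b1 b2 : ℝ≥0) (ell e0 d0 S0 : ℝ), 0 < ell ∧ 0 < e0 ∧ 0 < d0 ∧ 0 < S0 ∧
    ∀ P : Par, ParD P → P.Y = Y → ∀ T1 : ℝ, 0 ≤ T1 → T1 ≤ 1 →
    ∀ (A' : ℝ) (N0 : Fld) (h1 : P2 → R3 → ℝ≥0∞) (lamA : Fld) (cf sp : Fld → Fld) (vs : ℝ → ℝ≥0∞),
      THyp T1 (1 / 8) Y A' (EW P (1 / 8) T1) N0 h1 lamA cf sp → Measurable vs →
      (∫⁻ t in Ioi T1, vs t) ≤ ENNReal.ofReal S0 →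
      (∀ x v, dd (h1 x v) (Mx v) ≤ A * EW P (1 / 8) T1 T1 x v) →
      (∀ t x, T1 + ell ≤ t → ENNReal.ofReal (Real.exp (-(1 / 2 * (t - (T1 + ell))))) *
          ∫⁻ v, w1 v * dd (h1 (x - (t - T1) • bar v) v) (Mx v) ≤ ENNReal.ofReal d0) →
      (∀ lam : Fld, Meas3 lam → PerF lam → ∀ T : ℝ, T1 ≤ T →
        (∀ t x v, T1 + ell ≤ t → t ≤ T → ENNReal.ofReal (1 / 2) * w1 v ≤ lam t x v) →
        (∀ t x v, T1 ≤ t → t ≤ T + 1 →
          Qp (cf lam t x) (EW P (1 / 8) T1 t x) v + Qp (EW P (1 / 8) T1 t x) (cf lam t x) v +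
            sp lam t x v + Mx v * Lc (cf lam t x) v ≤ vs t * EW P (1 / 8) T1 t x v) ∧
        (∀ t, T1 ≤ t → t ≤ T + 1 →
          ∫⁻ y in cellG, ∫⁻ v, cf lam t y v ≤ ENNReal.ofReal e0)) →
      (∀ (Hh : Fld) (T : ℝ), T1 ≤ T → Meas3 Hh → PerF Hh →
        (∀ t x v, T1 ≤ t → Hh t x v ≤ b1 * EW P (1 / 8) T1 t x v) →
        HEq T1 (EW P (1 / 8) T1) h1 cf sp (lamG T1 lamA Hh) Hh T →
        ∀ s, T1 ≤ s → s ≤ T → ∫⁻ y in cellG, ∫⁻ v,
          dd (cf (lamG T1 lamA Hh) s y v + Hh s y v) (Mx v) ≤ ENNReal.ofReal e0) →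
      ∃ Hh : Fld, Meas3 Hh ∧ PerF Hh ∧
        (∀ t x v, T1 ≤ t → Hh t x v ≤ b2 * EW P (1 / 8) T1 t x v) ∧
        ∀ T, HEq T1 (EW P (1 / 8) T1) h1 cf sp (lamG T1 lamA Hh) Hh T

/-! ### Small facts -/

theorem meas3_LcF {F : Fld} (hF : Meas3 F) : Meas3 (LcF F) := A.meas3_Lc hF

theorem perF_LcF {F : Fld} (hF : PerF F) : PerF (LcF F) := by
  intro t v x k
  show Lc (F t (x + latt k)) v = Lc (F t x) v
  congr 1
  funext z
  exact hF t z x k

theorem meas3_Hgl {H0 : P2 → R3 → ℝ≥0∞} {T1 : ℝ} {H Hh : Fld}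
    (h0 : Measurable fun q : P2 × R3 => H0 q.1 q.2) (hH : Meas3 H) (hHh : Meas3 Hh) :
    Meas3 (Hgl H0 T1 H Hh) := by
  classical
  unfold Hgl Meas3
  refine Measurable.ite (measurableSet_le measurable_fst measurable_const) ?_ ?_
  · exact h0.comp (g := fun q : P2 × R3 => H0 q.1 q.2) measurable_snd
  · exact Measurable.ite (measurableSet_lt measurable_fst measurable_const) hH hHh

theorem perF_Hgl {H0 : P2 → R3 → ℝ≥0∞} {T1 : ℝ} {H Hh : Fld}
    (h0 : ∀ v, PerG fun x => H0 x v) (hH : PerF H) (hHh : PerF Hh) :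
    PerF (Hgl H0 T1 H Hh) := by
  intro t v x k
  have e1 : H0 (x + latt k) v = H0 x v := h0 v x k
  have e2 : H t (x + latt k) v = H t x v := hH t v x k
  have e3 : Hh t (x + latt k) v = Hh t x v := hHh t v x k
  simp only [Hgl, e1, e2, e3]

theorem lamG_Hgl {H0 : P2 → R3 → ℝ≥0∞} {T1 : ℝ} (hT1 : 0 < T1) (H Hh : Fld) :
    lamG T1 (LcF (Hgl H0 T1 H 0)) Hh = LcF (Hgl H0 T1 H Hh) := by
  classical
  funext t x v
  unfold lamG LcF
  by_cases h : T1 ≤ t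
  · rw [if_pos h]
    congr 1
    funext z
    unfold Hgl
    rw [if_neg (not_le.2 (hT1.trans_le h)), if_neg (not_lt.2 h)]
  · rw [if_neg h]
    congr 1
    funext z
    unfold Hgl
    rw [if_pos (not_le.1 h), if_pos (not_le.1 h)]

theorem mildGOn_mono {G : ℝ → P2 → R3 → ℝ} {G0 : P2 → R3 → ℝ} {R T T' : ℝ} (hT : T' ≤ T)
    (h : MildGOn G G0 R T) : MildGOn G G0 R T' :=
  ⟨h.datum, h.meas, h.nonneg, h.per, h.init, fun t h0 h1 => h.mild t h0 (h1.trans hT), fun k =>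
    lt_of_le_of_lt (lintegral_mono_set (prod_mono_left (Ioo_subset_Ioo_right hT))) (h.int k)⟩

theorem mildG_of_ge {G : ℝ → P2 → R3 → ℝ} {G0 : P2 → R3 → ℝ} {R T1 : ℝ}
    (h : ∀ T, T1 ≤ T → MildGOn G G0 R T) : MildG G G0 R :=
  mildG_of_on fun TT => mildGOn_mono (le_max_left TT T1) (h _ (le_max_right TT T1))

/-- the L¹ distance in terms of `dd` -/
theorem dd_eq_enorm {F : ℝ≥0∞} (hF : F ≠ ⊤) (v : R3) :
    dd F (Mx v) = ‖F.toReal - maxwellian v‖ₑ := by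
  have hM : 0 ≤ maxwellian v := (WA.maxwellian_pos v).le
  unfold dd Mx
  rw [← ENNReal.ofReal_toReal hF, ENNReal.toReal_ofReal ENNReal.toReal_nonneg,
    ← ENNReal.ofReal_sub _ hM, ← ENNReal.ofReal_sub _ ENNReal.toReal_nonneg]
  rcases le_total F.toReal (maxwellian v) with h | h
  · rw [ENNReal.ofReal_of_nonpos (sub_nonpos.2 h), zero_add, ← ofReal_norm, Real.norm_eq_abs,
      abs_of_nonpos (sub_nonpos.2 h), neg_sub]
  · rw [ENNReal.ofReal_of_nonpos (sub_nonpos.2 h), add_zero, ← ofReal_norm, Real.norm_eq_abs,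
      abs_of_nonneg (sub_nonneg.2 h)]

/-- the entropy step -/
theorem ent_of_mild {F : Fld} {G0 : P2 → R3 → ℝ} {R T s e0 : ℝ} (hs0 : 0 ≤ s) (hsT : s ≤ T)
    (h : MildGOn (fun t x v => (F t x v).toReal) G0 R T)
    (hfin : ∀ x, ∀ᵐ v, F s x v ≠ ⊤) (he0 : 0 < e0)
    (hent : relEntG G0 ≤ ENNReal.ofReal ((e0 / 3) ^ 2))
    (hmass : ∫⁻ q in cellG ×ˢ (univ : Set R3), ENNReal.ofReal (G0 q.1 q.2) ≤ 2) :
    ∫⁻ y in cellG, ∫⁻ v, dd (F s y v) (Mx v) ≤ ENNReal.ofReal e0 := by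
  have h1 := h.l1_le hs0 hsT (ε := e0 / 3) (A := 2) (by positivity) (by norm_num) hent
    (hmass.trans (by norm_num))
  have h2 : (1 + 2) * (e0 / 3) = e0 := by ring
  rw [h2] at h1
  refine le_trans (le_of_eq ?_) h1
  have hm : Measurable fun q : P2 × R3 => ‖(F s q.1 q.2).toReal - maxwellian q.2‖ₑ := by
    have h3 : Measurable fun q : P2 × R3 => (F s q.1 q.2).toReal := h.measurable_slice s
    have h4 : Measurable fun q : P2 × R3 => maxwellian q.2 :=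
      W.measurable_maxwellian.comp measurable_snd
    exact (h3.sub h4).enorm
  rw [Fuel.restrict_cellG, lintegral_prod _ hm.aemeasurable]
  refine lintegral_congr fun y => ?_
  refine lintegral_congr_ae ?_
  filter_upwards [hfin y] with v hv
  exact dd_eq_enorm hv v

theorem ae_Dm_ne_top' {P : Par} (hP : ParD P) {t : ℝ} (ht : 0 ≤ t) (x : P2) :
    ∀ᵐ v : R3, Dm P t x v ≠ ⊤ := by
  filter_upwards [ae_EW_ne_top (lam := 1 / 8) hP (by norm_num) le_rfl zero_le_one ht x] with v hv h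
  apply hv
  rw [EW_of_nonneg ht, h]
  have h1 : ENNReal.ofReal (Real.exp (-(1 / 8 * (t - 0)))) ≠ 0 := by
    rw [Ne, ENNReal.ofReal_eq_zero, not_le]; exact Real.exp_pos _
  have h2 : We v ≠ 0 := by
    unfold We; rw [Ne, ENNReal.ofReal_eq_zero, not_le]; exact Real.exp_pos _
  rw [ENNReal.mul_top h1, add_top, ENNReal.top_mul h2]

/-- **assembly of Part W** -/
theorem WOut_of {Y : ℝ} (hY : 0 < Y) (hG : GMain Y) (hT : TruncOut Y) (hC : ColdOut Y)
    (hM : MildOut Y) (hCa : CausOut Y) : WOut Y := by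
  classical
  obtain ⟨A, hD⟩ := DataOut_holds hY
  obtain ⟨b1, b2, ell, e0, d0, S0, hell, he0, hd0, hS0, hmain⟩ := hG A
  refine ⟨1, fun K hK _ ey hey hey' => ?_⟩
  filter_upwards [hT K ey hK hey hey', hC K ey hK hey hey', hD K ey hK hey hey',
    hM K ey hK hey hey', hCa K ey hK hey hey', eventually_ge_atTop 3] with p h1 h2 h3 h4 h5 hp
  obtain ⟨R1, hR1⟩ := h3 ell d0 hell hd0
  obtain ⟨J, R2, ρ, hρ, hent⟩ := Fuel.exists_relEnt_small (K := K) (Y := Y) (p := p)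
    (ε := ENNReal.ofReal ((e0 / 3) ^ 2)) (ENNReal.ofReal_pos.2 (by positivity))
  set R : ℝ := max (max R1 R2) (Y + 4) with hR
  have hRR1 : R1 ≤ R := (le_max_left _ _).trans (le_max_left _ _)
  have hRR2 : R2 ≤ R := (le_max_right _ _).trans (le_max_left _ _)
  have hRY : Y + 4 ≤ R := le_max_right _ _
  obtain ⟨ε, hε, hdat⟩ := hR1 R hRR1
  refine ⟨R, ε, hε, ?_⟩
  have hS : 0 < min S0 e0 := lt_min hS0 he0
  filter_upwards [h1 R, h2 ell (min S0 e0) hell hS, hdat, h4 R hRY, h5,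
    ev_Ok K Y ey p (by linarith) hY hey hp, ev_ParD K Y ey p hY, ev_T1_le one_pos, ev_rh_le hρ,
    ev_hole K Y ey p, eventually_ge_atTop J, ev_pos] with j0 a1 a2 a3 a4 a5 hOk hPD hT1 hrho
    hhole hJ hpos
  obtain ⟨hdl, hrh, hT1p⟩ := hpos
  intro H A0 hHot hA0 hHZ hclose
  set P := par K Y ey p j0 with hP
  set T1 := T1j j0 with hT1e
  set H0 := H0f j0 R with hH0
  have hH0m : Measurable fun q : P2 × R3 => H0 q.1 q.2 := measurable_H0f j0 R
  have hH0p : ∀ v, PerG fun x => H0 x v := perG_H0f j0 R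
  have hHm : Meas3 H := hHot.meas
  have hHp : PerF H := hHot.per
  have h0m : Meas3 (0 : Fld) := by
    show Measurable fun p : ℝ × P2 × R3 => (0 : Fld) p.1 p.2.1 p.2.2
    exact measurable_const
  have h0p : PerF (0 : Fld) := fun t v x k => rfl
  set lamA : Fld := LcF (Hgl H0 T1 H 0) with hlamA
  have hlamAm : Meas3 lamA := meas3_LcF (meas3_Hgl hH0m hHm h0m)
  have hlamAp : PerF lamA := perF_LcF (perF_Hgl hH0p hHp h0p)
  have hlG : ∀ Hh : Fld, lamG T1 lamA Hh = LcF (Hgl H0 T1 H Hh) := fun Hh =>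
    lamG_Hgl hT1p H Hh
  obtain ⟨A', hTH⟩ := a1 H A0 hHot hA0 hHZ
  have hTH' : THyp T1 (1 / 8) Y A' (EW P (1 / 8) T1) (coldS P) (H T1) lamA (coldR P)
      (coldSpill P) := { hTH with lamAm := hlamAm, lamAper := hlamAp }
  obtain ⟨vs, hvs, hvsS, hcold⟩ := a2
  have hH1m : Measurable fun q : P2 × R3 => H T1 q.1 q.2 := by
    have h6 : Measurable fun q : P2 × R3 => (T1, q.1, q.2) := by fun_prop
    exact Measurable.comp hHm h6
  obtain ⟨hd1, hd2⟩ := a3 (H T1) hH1m hclose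
  obtain ⟨hcaus1, hcaus2⟩ := a5
  obtain ⟨hent1, hent2⟩ := hent P (rhj j0) R hOk rfl rfl rfl hJ hhole hrho hRR2
  -- finiteness
  have hEfin : ∀ t, T1 ≤ t → ∀ x, ∀ᵐ v, EW P (1 / 8) T1 t x v ≠ ⊤ := fun t ht x =>
    ae_EW_ne_top hPD (by norm_num) hT1p.le hT1 ht x
  have hcfin : ∀ lam : Fld, Meas3 lam → PerF lam → ∀ t x v, 0 ≤ t → coldR P lam t x v ≠ ⊤ := by
    intro lam hl1 hl2 t x v ht
    obtain ⟨-, -, -, -, c1, c2⟩ := hcaus1 lam hl1 hl2
    exact ne_top_of_le_ne_top (c2 t x v ht) (c1 t x v ht)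
  have hHglm : ∀ Hh : Fld, Meas3 Hh → Meas3 (Hgl H0 T1 H Hh) := fun Hh h =>
    meas3_Hgl hH0m hHm h
  have hHglp : ∀ Hh : Fld, PerF Hh → PerF (Hgl H0 T1 H Hh) := fun Hh h =>
    perF_Hgl hH0p hHp h
  have hHgt : ∀ (Hh : Fld) t x v, T1 ≤ t → Hgl H0 T1 H Hh t x v = Hh t x v := by
    intro Hh t x v ht
    unfold Hgl
    rw [if_neg (not_le.2 (hT1p.trans_le ht)), if_neg (not_lt.2 ht)]
  -- the mild solution
  have hmild : ∀ (b : ℝ≥0) (Hh : Fld) (T : ℝ), T1 ≤ T → Meas3 Hh → PerF Hh →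
      (∀ t x v, T1 ≤ t → Hh t x v ≤ b * EW P (1 / 8) T1 t x v) →
      HEq T1 (EW P (1 / 8) T1) (H T1) (coldR P) (coldSpill P) (lamG T1 lamA Hh) Hh T →
      MildGOn (fun t x v => (Ftot P (Hgl H0 T1 H Hh) t x v).toReal)
        (Fuel.F0 P (rhj j0) R) R T := by
    intro b Hh T hT hm hp hb heq
    rw [hlG] at heq
    exact a4 H A0 hHot hA0 hHZ b Hh T hT hm hp hb heq
  have hENT : ∀ (Hh : Fld) (T : ℝ), T1 ≤ T → Meas3 Hh → PerF Hh →
      (∀ t x v, T1 ≤ t → Hh t x v ≤ b1 * EW P (1 / 8) T1 t x v) →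
      HEq T1 (EW P (1 / 8) T1) (H T1) (coldR P) (coldSpill P) (lamG T1 lamA Hh) Hh T →
      ∀ s, T1 ≤ s → s ≤ T → ∫⁻ y in cellG, ∫⁻ v,
          dd (coldR P (lamG T1 lamA Hh) s y v + Hh s y v) (Mx v) ≤ ENNReal.ofReal e0 := by
    intro Hh T hT hm hp hb heq s hs1 hs2
    have hml := hmild b1 Hh T hT hm hp hb heq
    have hs0 : 0 ≤ s := hT1p.le.trans hs1
    rw [hlG]
    have h6 := ent_of_mild (F := Ftot P (Hgl H0 T1 H Hh)) hs0 hs2 hml ?_ he0 hent1 hent2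
    · refine le_trans (le_of_eq ?_) h6
      refine lintegral_congr fun y => lintegral_congr fun v => ?_
      unfold Ftot
      rw [hHgt Hh s y v hs1]
    · intro x
      filter_upwards [hEfin s hs1 x] with v hv
      unfold Ftot
      rw [hHgt Hh s x v hs1]
      refine ENNReal.add_ne_top.2 ⟨hcfin _ (meas3_LcF (hHglm _ hm)) (perF_LcF (hHglp _ hp))
        s x v hs0, ?_⟩
      exact ne_top_of_le_ne_top (ENNReal.mul_ne_top ENNReal.coe_ne_top hv) (hb s x v hs1)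
  obtain ⟨Hh, hHhm, hHhp, hHhb, hHheq⟩ := hmain P hPD rfl T1 hT1p.le hT1 A' (coldS P) (H T1) lamA
    (coldR P) (coldSpill P) vs hTH' hvs
    (hvsS.trans (ENNReal.ofReal_le_ofReal (min_le_left _ _))) hd1 hd2
    (fun lam hl1 hl2 T hT hr => by
      obtain ⟨c1, c2⟩ := hcold lam hl1 hl2 T hT hr
      exact ⟨c1, fun t ht1 ht2 => (c2 t ht1 ht2).trans
        (ENNReal.ofReal_le_ofReal (min_le_right _ _))⟩) hENT
  refine ⟨fun t x v => (Ftot P (Hgl H0 T1 H Hh) t x v).toReal, ?_, ?_⟩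
  · exact mildG_of_ge fun T hT => hmild b2 Hh T hT hHhm hHhp hHhb (hHheq T)
  · -- the solution on `(0,T1)`
    have hHt : ∀ t x v, 0 < t → t < T1 → Hgl H0 T1 H Hh t x v = H t x v := by
      intro t x v h6 h7
      unfold Hgl
      rw [if_neg (not_le.2 h6), if_pos h7]
    have hcR : ∀ t x v, 0 < t → t < T1 →
        coldR P (LcF (Hgl H0 T1 H Hh)) t x v = coldR P (LcF H) t x v := by
      intro t x v h6 h7
      refine (hcaus2 (LcF (Hgl H0 T1 H Hh)) (LcF H) (meas3_LcF (hHglm _ hHhm))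
        (perF_LcF (hHglp _ hHhp)) (meas3_LcF hHm) (perF_LcF hHp) T1 ?_ t x v h6.le h7.le).1
      intro s y w h8 h9
      unfold LcF
      congr 1
      funext z
      exact hHt s y z h8 h9
    have hfin : ∀ᵐ z : ℝ × P2 × R3, z.1 ∈ Ioo 0 T1 → H z.1 z.2.1 z.2.2 ≠ ⊤ := by
      have hms : MeasurableSet {z : ℝ × P2 × R3 | z.1 ∈ Ioo 0 T1 → H z.1 z.2.1 z.2.2 ≠ ⊤} := by
        have e1 : {z : ℝ × P2 × R3 | z.1 ∈ Ioo 0 T1 → H z.1 z.2.1 z.2.2 ≠ ⊤} =
            {z : ℝ × P2 × R3 | z.1 ∈ Ioo 0 T1}ᶜ ∪ {z : ℝ × P2 × R3 | H z.1 z.2.1 z.2.2 = ⊤}ᶜ := by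
          ext z
          simp only [mem_ofPred_eq, mem_union, mem_compl_iff]
          tauto
        rw [e1]
        exact (measurableSet_Ioo.preimage measurable_fst).compl.union
          ((measurableSet_singleton ⊤).preimage hHm).compl
      rw [Measure.volume_eq_prod, Measure.ae_prod_iff_ae_ae hms]
      refine Eventually.of_forall fun t => ?_
      have hms2 : MeasurableSet {z : P2 × R3 | t ∈ Ioo 0 T1 → H t z.1 z.2 ≠ ⊤} :=
        hms.preimage (measurable_const.prodMk measurable_id : Measurable fun z : P2 × R3 => (t, z))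
      rw [Measure.volume_eq_prod, Measure.ae_prod_iff_ae_ae hms2]
      refine Eventually.of_forall fun x => ?_
      by_cases ht : t ∈ Ioo 0 T1
      · filter_upwards [ae_Dm_ne_top' hPD ht.1.le x] with v hv _
        refine ne_top_of_le_ne_top ?_ (hHZ t ⟨ht.1, ht.2.le⟩ x v)
        exact ENNReal.mul_ne_top hA0 (ENNReal.mul_ne_top ENNReal.ofReal_ne_top hv)
      · exact Eventually.of_forall fun v h => absurd h ht
    filter_upwards [hfin] with z hz hz1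
    have h6 := hcR z.1 z.2.1 z.2.2 hz1.1 hz1.2
    have h7 := hHt z.1 z.2.1 z.2.2 hz1.1 hz1.2
    show ENNReal.ofReal (Ftot P (Hgl H0 T1 H Hh) z.1 z.2.1 z.2.2).toReal = _
    rw [ENNReal.ofReal_toReal]
    · unfold Ftot
      rw [h6, h7]
    · unfold Ftot
      rw [h6, h7]
      exact ENNReal.add_ne_top.2 ⟨hcfin _ (meas3_LcF hHm) (perF_LcF hHp) _ _ _ hz1.1.le, hz hz1⟩

end Crest.Agent.R68.WP
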