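import Crest.Agent.R68.XUpB
import Crest.Agent.R68.Carl4

/-!
# Row 68, PART X: collisional inequality for the weight `Z` (fixed time and position)
-/

set_option autoImplicit false
open MeasureTheory Set
open scoped ENNReal Real
open Crest.AnalysisR.VecCalc3 Crest.AnalysisR.PDE.Boltzmann
open Crest.Agent.R68.XUp

noncomputable section

namespace Crest.Agent.R68.X

/-- the weight in the frame moving with velocity `c` -/
def Ze (c v : R3) : ℝ≥0∞ := ENNReal.ofReal (Z (v - c))

theorem measurable_Ze (c : R3) : Measurable (Ze c) := by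
  unfold Ze
  have := Z_continuous
  exact (Measurable.ennreal_ofReal (by fun_prop))

theorem measurable_Ze2 : Measurable fun p : R3 × R3 => Ze p.1 p.2 := by
  unfold Ze
  have := Z_continuous
  exact (Measurable.ennreal_ofReal (by fun_prop))

theorem one_le_Ze (c v : R3) : 1 ≤ Ze c v := by
  unfold Ze; rw [ENNReal.one_le_ofReal]; exact one_le_Z _

theorem Ze_ne_top (c v : R3) : Ze c v ≠ ⊤ := ENNReal.ofReal_ne_top

theorem M2_nonneg (a b : R3) : 0 ≤ M2 a b := by
  unfold M2
  have h1 : (inner ℝ a b : ℝ) ^ 2 ≤ (‖a‖ ^ 2 + ‖b‖ ^ 2) ^ 2 := by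
    have h := abs_real_inner_le_norm a b
    have h2 : |(inner ℝ a b : ℝ)| ≤ ‖a‖ ^ 2 + ‖b‖ ^ 2 := by
      nlinarith [sq_nonneg (‖a‖ - ‖b‖), norm_nonneg a, norm_nonneg b]
    rw [← sq_abs]
    exact pow_le_pow_left₀ (abs_nonneg _) h2 2
  have h3 : 0 ≤ ‖a‖ ^ 2 + ‖b‖ ^ 2 - 2 * (inner ℝ a b : ℝ) := by
    have := norm_sub_sq_real a b
    nlinarith [sq_nonneg ‖a - b‖]
  have h4 := sq_nonneg (a 2 + b 2)
  have h5 := sq_nonneg ‖a‖
  have h6 := sq_nonneg ‖b‖
  linarith

theorem M2_comm (a b : R3) : M2 a b = M2 b a := by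
  unfold M2
  rw [real_inner_comm]; ring

theorem lintegral_Ze_diam (v u c : R3) :
    ∫⁻ s, Ze c ((1 / 2 : ℝ) • (v + u) + (‖v - u‖ / 2) • s) ∂sphereMeasure
      = ENNReal.ofReal (2 * π * M2 (v - c) (u - c)) := by
  rw [← integral_Z_diam, ofReal_integral_eq_lintegral_ofReal]
  · refine lintegral_congr fun s => ?_
    unfold Ze
    congr 2
    have : v - c - (u - c) = v - u := by abel
    rw [this]
    module
  · have hc : Continuous fun s : R3 =>
        Z ((1 / 2 : ℝ) • ((v - c) + (u - c)) + (‖(v - c) - (u - c)‖ / 2) • s) := by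
      have := Z_continuous
      fun_prop
    obtain ⟨C, hC⟩ := (isCompact_sphere (0 : R3) 1).exists_bound_of_continuousOn hc.continuousOn
    exact integrable_sphere_of_bounded hc.measurable (C := C) fun w hw => by
      have := hC w (by simpa using hw)
      simpa using this
  · exact Filter.Eventually.of_forall fun s => zero_le_one.trans (one_le_Z _)

theorem two_aux {N m : ℝ} (hN : 0 ≤ N) (hm : 0 ≤ m) : ENNReal.ofReal (2 * π * N * m)
    = 2 * (ENNReal.ofReal (N / 2) * ENNReal.ofReal (2 * π * m)) := by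
  rw [← ENNReal.ofReal_mul (by positivity), ← ENNReal.ofReal_ofNat 2,
    ← ENNReal.ofReal_mul (by norm_num)]
  congr 1; ring

/-- `φ` is concentrated near the two points `c ± e₃` -/
def NearFrame (φ : R3 → ℝ≥0∞) (c : R3) : Prop :=
  ∀ u, φ u ≠ 0 → ∃ s : ℝ, (s = 1 ∨ s = -1) ∧ |u 0 - c 0| ≤ 1 / 5000 ∧ |u 1 - c 1| ≤ 1 / 5000 ∧
    |u 2 - c 2 - s| ≤ 1 / 5000

/-- **collisional inequality**: rate of growth of the `Z`-mass -/
theorem coll {φ h : R3 → ℝ≥0∞} (hφ : Measurable φ) (hh : Measurable h) {c : R3}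
    (hn : NearFrame φ c) :
    ∫⁻ v, Ze c v * (2 * Qp φ h v) ≤ (∫⁻ v, Ze c v * (Lc φ v * h v))
      + ENNReal.ofReal (3.56 * π) * (∫⁻ u, φ u) * ∫⁻ v, Ze c v * h v := by
  have hZ := measurable_Ze c
  have e1 : ∫⁻ v, Ze c v * (2 * Qp φ h v)
      = ∫⁻ u, ∫⁻ v, φ u * h v * ENNReal.ofReal (2 * π * ‖v - u‖ * M2 (v - c) (u - c)) := by
    have : ∀ v, Ze c v * (2 * Qp φ h v) = 2 * (Ze c v * Qp φ h v) := fun v => by ring
    simp_rw [this]
    have hm0 : Measurable fun v : R3 => Ze c v * Qp φ h v := hZ.mul (measurable_Qp hφ hh)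
    rw [lintegral_const_mul _ hm0, lintegral_mul_Qp_sigma hZ hφ hh,
      ← lintegral_const_mul']
    · refine lintegral_congr fun u => ?_
      rw [← lintegral_const_mul']
      · refine lintegral_congr fun v => ?_
        rw [lintegral_Ze_diam, M2_comm, norm_sub_rev u v]
        have h3 := M2_nonneg (v - c) (u - c)
        have h4 : ENNReal.ofReal (2 * π * ‖v - u‖ * M2 (v - c) (u - c))
            = 2 * (ENNReal.ofReal (‖v - u‖ / 2) * ENNReal.ofReal (2 * π * M2 (v - c) (u - c))) := by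
          exact two_aux (norm_nonneg _) h3
        rw [h4]; ring
      · simp
    · simp
  have e2 : ∫⁻ v, Ze c v * (Lc φ v * h v)
      = ∫⁻ u, ∫⁻ v, φ u * h v * ENNReal.ofReal (2 * π * ‖v - u‖ * Z (v - c)) := by
    have h1 : ∀ v, Ze c v * (Lc φ v * h v)
        = ∫⁻ u, φ u * h v * ENNReal.ofReal (2 * π * ‖v - u‖ * Z (v - c)) := by
      intro v
      have hm : Measurable fun u : R3 => ENNReal.ofReal ‖v - u‖ * φ u :=
        Measurable.mul (by fun_prop) hφ
      rw [Lc_eq hφ, show Ze c v * (ENNReal.ofReal (2 * π) * (∫⁻ vs, ENNReal.ofReal ‖v - vs‖ * φ vs)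
        * h v) = (Ze c v * ENNReal.ofReal (2 * π) * h v) *
          ∫⁻ vs, ENNReal.ofReal ‖v - vs‖ * φ vs by ring, ← lintegral_const_mul _ hm]
      refine lintegral_congr fun u => ?_
      unfold Ze
      rw [ENNReal.ofReal_mul (p := 2 * π * ‖v - u‖) (by positivity),
        ENNReal.ofReal_mul (p := 2 * π) (by positivity)]
      ring
    simp_rw [h1]
    refine lintegral_lintegral_swap ?_
    have hZc := Z_continuous
    have m1 : Measurable fun p : R3 × R3 => ENNReal.ofReal (2 * π * ‖p.1 - p.2‖ * Z (p.1 - c)) :=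
      Measurable.ennreal_ofReal (by fun_prop)
    exact (((hφ.comp measurable_snd).mul (hh.comp measurable_fst)).mul m1).aemeasurable
  have e3 : ENNReal.ofReal (3.56 * π) * (∫⁻ u, φ u) * ∫⁻ v, Ze c v * h v
      = ∫⁻ u, ∫⁻ v, φ u * h v * ENNReal.ofReal (3.56 * π * Z (v - c)) := by
    have hm : Measurable fun v : R3 => Ze c v * h v := hZ.mul hh
    rw [mul_assoc, ← lintegral_mul_const _ hφ, ← lintegral_const_mul _ (hφ.mul_const _)]
    refine lintegral_congr fun u => ?_
    rw [← mul_assoc, ← lintegral_const_mul _ hm]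
    refine lintegral_congr fun v => ?_
    unfold Ze
    rw [ENNReal.ofReal_mul (p := 3.56 * π) (by positivity)]
    ring
  rw [e1, e2, e3, ← lintegral_add_left]
  · refine lintegral_mono fun u => ?_
    by_cases hu : φ u = 0
    · simp [hu]
    obtain ⟨s, hs, h0, h1, h2⟩ := hn u hu
    have hm : Measurable fun v : R3 => φ u * h v * ENNReal.ofReal (2 * π * ‖v - u‖ * Z (v - c)) := by
      have hZc := Z_continuous
      exact (hh.const_mul _).mul (Measurable.ennreal_ofReal (by fun_prop))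
    rw [← lintegral_add_left hm]
    refine lintegral_mono fun v => ?_
    rw [← mul_add]
    refine mul_le_mul_right ?_ _
    have hZ0 : 0 ≤ Z (v - c) := zero_le_one.trans (one_le_Z _)
    rw [← ENNReal.ofReal_add (by positivity) (by positivity)]
    refine ENNReal.ofReal_le_ofReal ?_
    have hup := upper (v - c) (u - c) s hs (by simpa using h0) (by simpa using h1)
      (by simpa using h2)
    have e : v - c - (u - c) = v - u := by abel
    rw [e] at hup
    have hM := M2_nonneg (v - c) (u - c)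
    have hn := norm_nonneg (v - u)
    have h5 : ‖v - u‖ * M2 (v - c) (u - c) ≤ ‖v - u‖ * Z (v - c) + 1.78 * Z (v - c) := by
      nlinarith [mul_nonneg hn hM]
    have hpi := Real.pi_pos
    calc 2 * π * ‖v - u‖ * M2 (v - c) (u - c) = 2 * π * (‖v - u‖ * M2 (v - c) (u - c)) := by ring
      _ ≤ 2 * π * (‖v - u‖ * Z (v - c) + 1.78 * Z (v - c)) := by gcongr
      _ = _ := by ring
  · have hZc := Z_continuous
    have m1 : Measurable fun p : R3 × R3 => φ p.1 * h p.2 *
        ENNReal.ofReal (2 * π * ‖p.2 - p.1‖ * Z (p.2 - c)) :=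
      ((hφ.comp measurable_fst).mul (hh.comp measurable_snd)).mul
        (Measurable.ennreal_ofReal (by fun_prop))
    exact m1.lintegral_prod_right'

end Crest.Agent.R68.X
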