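import Mathlib

/-!
# Row 68, PART X: the one dimensional lemmas (damped flight with a decreasing weight, Gronwall)
-/

set_option autoImplicit false
open MeasureTheory Set
open scoped ENNReal Real

noncomputable section

namespace Crest.Agent.R68.X

/-- Fubini on the triangle `0 < s < r < t` -/
theorem lintegral_triangle (t : ℝ) {f : ℝ → ℝ → ℝ≥0∞} (hf : Measurable (Function.uncurry f)) :
    ∫⁻ r in Ioo 0 t, ∫⁻ s in Ioo 0 r, f s r = ∫⁻ s in Ioo 0 t, ∫⁻ r in Ioo s t, f s r := by
  have e1 : ∀ r ∈ Ioo 0 t, ∫⁻ s in Ioo 0 r, f s r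
      = ∫⁻ s in Ioo 0 t, {p : ℝ × ℝ | p.1 < p.2}.indicator (Function.uncurry f) (s, r) := by
    intro r hr
    rw [← lintegral_indicator measurableSet_Ioo, ← lintegral_indicator measurableSet_Ioo]
    refine lintegral_congr fun s => ?_
    by_cases h1 : s ∈ Ioo 0 r
    · rw [indicator_of_mem h1, indicator_of_mem (show s ∈ Ioo 0 t from ⟨h1.1, h1.2.trans hr.2⟩),
        indicator_of_mem (by exact h1.2)]
      rfl
    · rw [indicator_of_notMem h1]
      by_cases h2 : s ∈ Ioo 0 t
      · rw [indicator_of_mem h2, indicator_of_notMem]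
        exact fun h3 => h1 ⟨h2.1, h3⟩
      · rw [indicator_of_notMem h2]
  have e2 : ∀ s ∈ Ioo 0 t, ∫⁻ r in Ioo s t, f s r
      = ∫⁻ r in Ioo 0 t, {p : ℝ × ℝ | p.1 < p.2}.indicator (Function.uncurry f) (s, r) := by
    intro s hs
    rw [← lintegral_indicator measurableSet_Ioo, ← lintegral_indicator measurableSet_Ioo]
    refine lintegral_congr fun r => ?_
    by_cases h1 : r ∈ Ioo s t
    · rw [indicator_of_mem h1, indicator_of_mem (show r ∈ Ioo 0 t from ⟨hs.1.trans h1.1, h1.2⟩),
        indicator_of_mem (by exact h1.1)]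
      rfl
    · rw [indicator_of_notMem h1]
      by_cases h2 : r ∈ Ioo 0 t
      · rw [indicator_of_mem h2, indicator_of_notMem]
        exact fun h3 => h1 ⟨h3, h2.2⟩
      · rw [indicator_of_notMem h2]
  rw [setLIntegral_congr_fun measurableSet_Ioo e1, setLIntegral_congr_fun measurableSet_Ioo e2]
  have hm : Measurable ({p : ℝ × ℝ | p.1 < p.2}.indicator (Function.uncurry f)) :=
    hf.indicator (measurableSet_lt measurable_fst measurable_snd)
  exact lintegral_lintegral_swap
    ((hm.comp measurable_swap).aemeasurable)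

/-- damped flight with a decreasing weight: the undamped weighted inequality -/
theorem flight {t : ℝ} (ht : 0 < t) {ν q z : ℝ → ℝ≥0∞} {E : ℝ → ℝ → ℝ≥0∞} {h : ℝ → ℝ≥0∞}
    (hν : Measurable ν) (hq : Measurable q)
    (hE : Measurable (Function.uncurry E))
    (hE1 : ∀ s, 0 < s → s < t → E s t + ∫⁻ r in Ioo s t, ν r * E s r ≤ 1)
    (hz : ∀ s r, 0 < s → s ≤ r → r ≤ t → z r ≤ z s)
    (hh : ∀ r, 0 < r → r ≤ t → h r ≤ ∫⁻ s in Ioo 0 r, q s * E s r) (hzm : Measurable z) :
    z t * h t + ∫⁻ r in Ioo 0 t, ν r * (z r * h r) ≤ ∫⁻ s in Ioo 0 t, z s * q s := by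
  have hEt : ∀ t, Measurable fun s => E s t := fun t =>
    hE.comp (measurable_id.prodMk measurable_const)
  have hqE : ∀ r, Measurable fun s => q s * E s r := fun r => hq.mul (hEt r)
  have h1 : z t * h t ≤ ∫⁻ s in Ioo 0 t, z s * (q s * E s t) := by
    calc z t * h t ≤ z t * ∫⁻ s in Ioo 0 t, q s * E s t := mul_le_mul_right (hh t ht le_rfl) _
      _ = ∫⁻ s in Ioo 0 t, z t * (q s * E s t) :=
        (lintegral_const_mul _ (hqE t)).symm
      _ ≤ _ := setLIntegral_mono' measurableSet_Ioo fun s hs =>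
        mul_le_mul_left (hz s t hs.1 hs.2.le le_rfl) _
  have h2 : ∫⁻ r in Ioo 0 t, ν r * (z r * h r)
      ≤ ∫⁻ s in Ioo 0 t, ∫⁻ r in Ioo s t, z s * (q s * (ν r * E s r)) := by
    rw [← lintegral_triangle t (f := fun s r => z s * (q s * (ν r * E s r)))]
    · refine setLIntegral_mono' measurableSet_Ioo fun r hr => ?_
      calc ν r * (z r * h r) ≤ ν r * (z r * ∫⁻ s in Ioo 0 r, q s * E s r) := by
            gcongr; exact hh r hr.1 hr.2.le
        _ = ∫⁻ s in Ioo 0 r, ν r * (z r * (q s * E s r)) := by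
            rw [← lintegral_const_mul _ (hqE r), ← lintegral_const_mul _ ((hqE r).const_mul _)]
        _ ≤ _ := setLIntegral_mono' measurableSet_Ioo fun s hs => by
            calc ν r * (z r * (q s * E s r)) ≤ ν r * (z s * (q s * E s r)) := by
                  gcongr; exact hz s r hs.1 hs.2.le hr.2.le
              _ = _ := by ring
    · have : Measurable fun p : ℝ × ℝ => E p.1 p.2 := hE
      exact (hzm.comp measurable_fst).mul ((hq.comp measurable_fst).mul
        ((hν.comp measurable_snd).mul this))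
  calc z t * h t + ∫⁻ r in Ioo 0 t, ν r * (z r * h r)
      ≤ (∫⁻ s in Ioo 0 t, z s * (q s * E s t))
        + ∫⁻ s in Ioo 0 t, ∫⁻ r in Ioo s t, z s * (q s * (ν r * E s r)) := add_le_add h1 h2
    _ = ∫⁻ s in Ioo 0 t, (z s * (q s * E s t)
        + ∫⁻ r in Ioo s t, z s * (q s * (ν r * E s r))) := by
        rw [lintegral_add_left]
        exact hzm.mul (hqE t)
    _ ≤ ∫⁻ s in Ioo 0 t, z s * q s := by
        refine setLIntegral_mono' measurableSet_Ioo fun s hs => ?_
        have hEs : Measurable fun r => ν r * E s r :=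
          hν.mul (hE.comp (measurable_const.prodMk measurable_id))
        rw [lintegral_const_mul _ (hEs.const_mul _), lintegral_const_mul _ hEs, ← mul_add,
          ← mul_add]
        calc z s * (q s * (E s t + ∫⁻ r in Ioo s t, ν r * E s r)) ≤ z s * (q s * 1) := by
              gcongr; exact hE1 s hs.1 hs.2
          _ = _ := by rw [mul_one]

theorem lintegral_rpow_Ioo {a b l c : ℝ} (ha : 0 ≤ a) (hab : a ≤ b) (hl : 0 < l) (hc : 0 ≤ c) :
    ∫⁻ r in Ioo a b, ENNReal.ofReal (c * r ^ (l - 1))
      = ENNReal.ofReal (c * ((b ^ l - a ^ l) / l)) := by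
  have hint : IntervalIntegrable (fun r : ℝ => c * r ^ (l - 1)) volume a b :=
    (intervalIntegral.intervalIntegrable_rpow' (by linarith)).const_mul c
  have hval : ∫ r in a..b, c * r ^ (l - 1) = c * ((b ^ l - a ^ l) / l) := by
    rw [intervalIntegral.integral_const_mul, integral_rpow (Or.inl (by linarith))]
    congr 3 <;> ring_nf
  rw [← hval, intervalIntegral.integral_of_le hab, integral_Ioc_eq_integral_Ioo,
    ofReal_integral_eq_lintegral_ofReal]
  · rw [intervalIntegrable_iff_integrableOn_Ioo_of_le hab] at hint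
    exact hint
  · refine (ae_restrict_iff' measurableSet_Ioo).2 (Filter.Eventually.of_forall fun r hr => ?_)
    exact mul_nonneg hc (Real.rpow_nonneg (ha.trans hr.1.le) _)

theorem kernel_eq {k s r l : ℝ} (hs : 0 < s) (hr : 0 < r) :
    k / r * (r / s) ^ l = k * s ^ (-l) * r ^ (l - 1) := by
  rw [Real.div_rpow hr.le hs.le, Real.rpow_sub hr, Real.rpow_neg hs.le, Real.rpow_one]
  field_simp

/-- **Gronwall** in log-time, `ENNReal` version -/
theorem gronwall {k τ0 t0 : ℝ} (hk : 0 < k) (hτ : 0 < τ0) {m g : ℝ → ℝ≥0∞}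
    (hg : Measurable g) (hm : Measurable m) (hm0 : ∀ t, t < τ0 → m t = 0) {B : ℝ≥0∞}
    (hB : B ≠ ⊤) (hmB : ∀ t, 0 < t → t ≤ t0 → m t ≤ B)
    (hin : ∀ t, 0 < t → t ≤ t0 →
      m t ≤ (∫⁻ s in Ioo 0 t, g s) + ∫⁻ s in Ioo 0 t, ENNReal.ofReal (k / s) * m s) :
    ∀ t, 0 < t → t ≤ t0 → m t ≤ ∫⁻ s in Ioo 0 t, ENNReal.ofReal ((t / s) ^ k) * g s := by
  set G : ℝ → ℝ≥0∞ := fun t => ∫⁻ s in Ioo 0 t, ENNReal.ofReal ((t / s) ^ k) * g s with hGdef
  have hGm : ∀ t, Measurable fun s => ENNReal.ofReal ((t / s) ^ k) * g s := fun t =>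
    (Measurable.ennreal_ofReal (by fun_prop)).mul hg
  -- the fixed point property of `G`
  have hG : ∀ t, 0 < t →
      (∫⁻ s in Ioo 0 t, g s) + ∫⁻ r in Ioo 0 t, ENNReal.ofReal (k / r) * G r ≤ G t := by
    intro t ht
    have h1 : ∫⁻ r in Ioo 0 t, ENNReal.ofReal (k / r) * G r
        = ∫⁻ s in Ioo 0 t, ∫⁻ r in Ioo s t,
          ENNReal.ofReal (k / r) * (ENNReal.ofReal ((r / s) ^ k) * g s) := by
      rw [← lintegral_triangle t
        (f := fun s r => ENNReal.ofReal (k / r) * (ENNReal.ofReal ((r / s) ^ k) * g s))]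
      · refine lintegral_congr fun r => ?_
        rw [hGdef]
        exact (lintegral_const_mul _ (hGm r)).symm
      · have m1 : Measurable fun p : ℝ × ℝ => ENNReal.ofReal (k / p.2) :=
          Measurable.ennreal_ofReal (by fun_prop)
        have m2 : Measurable fun p : ℝ × ℝ => ENNReal.ofReal ((p.2 / p.1) ^ k) :=
          Measurable.ennreal_ofReal (by fun_prop)
        exact m1.mul (m2.mul (hg.comp measurable_fst))
    have h2 : ∀ s ∈ Ioo 0 t, g s + ∫⁻ r in Ioo s t,
          ENNReal.ofReal (k / r) * (ENNReal.ofReal ((r / s) ^ k) * g s)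
        = ENNReal.ofReal ((t / s) ^ k) * g s := by
      intro s hs
      have h3 : ∫⁻ r in Ioo s t, ENNReal.ofReal (k / r) * (ENNReal.ofReal ((r / s) ^ k) * g s)
          = (∫⁻ r in Ioo s t, ENNReal.ofReal (k * s ^ (-k) * r ^ (k - 1))) * g s := by
        rw [← lintegral_mul_const _ (Measurable.ennreal_ofReal (by fun_prop))]
        refine setLIntegral_congr_fun measurableSet_Ioo fun r hr => ?_
        have hr0 : 0 < r := hs.1.trans hr.1
        rw [← kernel_eq hs.1 hr0, ENNReal.ofReal_mul (by positivity), mul_assoc]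
      rw [h3, lintegral_rpow_Ioo hs.1.le hs.2.le hk (by have := hs.1; positivity)]
      have h4 : k * s ^ (-k) * ((t ^ k - s ^ k) / k) = (t / s) ^ k - 1 := by
        rw [Real.div_rpow ht.le hs.1.le, Real.rpow_neg hs.1.le]
        have : s ^ k ≠ 0 := (Real.rpow_pos_of_pos hs.1 k).ne'
        field_simp
      have h5 : (1 : ℝ) ≤ (t / s) ^ k :=
        Real.one_le_rpow ((one_le_div hs.1).2 hs.2.le) hk.le
      rw [h4]
      nth_rewrite 1 [← one_mul (g s)]
      rw [← add_mul, ← ENNReal.ofReal_one, ← ENNReal.ofReal_add (by norm_num) (by linarith)]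
      congr 2; ring
    rw [h1, ← lintegral_add_left hg]
    exact (setLIntegral_congr_fun measurableSet_Ioo h2).le
  -- induction
  have hind : ∀ n : ℕ, ∀ t, 0 < t → t ≤ t0 →
      m t ≤ G t + B * ENNReal.ofReal ((1 / 2) ^ n * (t / τ0) ^ (2 * k)) := by
    intro n
    induction n with
    | zero =>
      intro t ht ht0
      by_cases h : t < τ0
      · rw [hm0 t h]; exact bot_le
      · have h1 : (1 : ℝ) ≤ (t / τ0) ^ (2 * k) :=
          Real.one_le_rpow ((one_le_div hτ).2 (not_lt.1 h)) (by linarith)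
        calc m t ≤ B * 1 := by rw [mul_one]; exact hmB t ht ht0
          _ ≤ B * ENNReal.ofReal ((1 / 2) ^ 0 * (t / τ0) ^ (2 * k)) := by
            gcongr
            rw [ENNReal.one_le_ofReal]
            simpa using h1
          _ ≤ _ := le_add_self
    | succ n ih =>
      intro t ht ht0
      have hGm2 : Measurable fun s => ENNReal.ofReal (k / s) * G s := by
        have m1 : Measurable fun s : ℝ => ENNReal.ofReal (k / s) :=
          Measurable.ennreal_ofReal (by fun_prop)
        refine m1.mul ?_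
        have m2 : Measurable fun p : ℝ × ℝ => {p : ℝ × ℝ | 0 < p.2 ∧ p.2 < p.1}.indicator
            (fun p => ENNReal.ofReal ((p.1 / p.2) ^ k) * g p.2) p := by
          refine Measurable.indicator ?_ ?_
          · exact (Measurable.ennreal_ofReal (by fun_prop)).mul (hg.comp measurable_snd)
          · exact (measurableSet_lt measurable_const measurable_snd).inter
              (measurableSet_lt measurable_snd measurable_fst)
        have m3 : Measurable fun t : ℝ => ∫⁻ s : ℝ, {p : ℝ × ℝ | 0 < p.2 ∧ p.2 < p.1}.indicator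
            (fun p => ENNReal.ofReal ((p.1 / p.2) ^ k) * g p.2) (t, s) :=
          m2.lintegral_prod_right'
        have e : G = fun t : ℝ => ∫⁻ s : ℝ, {p : ℝ × ℝ | 0 < p.2 ∧ p.2 < p.1}.indicator
            (fun p => ENNReal.ofReal ((p.1 / p.2) ^ k) * g p.2) (t, s) := by
          funext t
          rw [hGdef]
          simp only
          rw [← lintegral_indicator measurableSet_Ioo]
          rfl
        rw [e]; exact m3
      calc m t ≤ (∫⁻ s in Ioo 0 t, g s) + ∫⁻ s in Ioo 0 t, ENNReal.ofReal (k / s) * m s :=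
            hin t ht ht0
        _ ≤ (∫⁻ s in Ioo 0 t, g s) + ∫⁻ s in Ioo 0 t, (ENNReal.ofReal (k / s) * G s
            + B * ENNReal.ofReal ((1 / 2) ^ n * (k * τ0 ^ (-(2 * k))) * s ^ (2 * k - 1))) := by
            refine add_le_add le_rfl (setLIntegral_mono' measurableSet_Ioo fun s hs => ?_)
            calc ENNReal.ofReal (k / s) * m s
                ≤ ENNReal.ofReal (k / s) *
                  (G s + B * ENNReal.ofReal ((1 / 2) ^ n * (s / τ0) ^ (2 * k))) := by
                  gcongr; exact ih s hs.1 (hs.2.le.trans ht0)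
              _ = ENNReal.ofReal (k / s) * G s + B * (ENNReal.ofReal (k / s) *
                  ENNReal.ofReal ((1 / 2) ^ n * (s / τ0) ^ (2 * k))) := by ring
              _ = _ := by
                  have hs0 := hs.1
                  have e := kernel_eq (k := k) (l := 2 * k) hτ hs0
                  rw [← ENNReal.ofReal_mul (by positivity), mul_assoc ((1 / 2 : ℝ) ^ n), ← e]
                  congr 3
                  ring
        _ = ((∫⁻ s in Ioo 0 t, g s) + ∫⁻ s in Ioo 0 t, ENNReal.ofReal (k / s) * G s)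
            + B * ∫⁻ s in Ioo 0 t, ENNReal.ofReal
              ((1 / 2) ^ n * (k * τ0 ^ (-(2 * k))) * s ^ (2 * k - 1)) := by
            rw [lintegral_add_left hGm2, add_assoc, lintegral_const_mul _
              (Measurable.ennreal_ofReal (by fun_prop))]
        _ ≤ G t + B * ENNReal.ofReal ((1 / 2) ^ (n + 1) * (t / τ0) ^ (2 * k)) := by
            refine add_le_add (hG t ht) ?_
            rw [lintegral_rpow_Ioo le_rfl ht.le (by linarith) (by positivity)]
            refine mul_le_mul_right (ENNReal.ofReal_le_ofReal (le_of_eq ?_)) _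
            rw [Real.zero_rpow (by linarith), Real.div_rpow ht.le hτ.le, Real.rpow_neg hτ.le]
            have : τ0 ^ (2 * k) ≠ 0 := (Real.rpow_pos_of_pos hτ _).ne'
            field_simp
            ring
  intro t ht ht0
  have hlim : Filter.Tendsto (fun n : ℕ => G t + B * ENNReal.ofReal ((1 / 2) ^ n *
      (t / τ0) ^ (2 * k))) Filter.atTop (nhds (G t + B * 0)) := by
    refine Filter.Tendsto.const_add _ (ENNReal.Tendsto.const_mul ?_ (Or.inr hB))
    rw [← ENNReal.ofReal_zero]
    refine ENNReal.tendsto_ofReal ?_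
    have := (tendsto_pow_atTop_nhds_zero_of_lt_one (r := (1 / 2 : ℝ)) (by norm_num)
      (by norm_num)).mul_const ((t / τ0) ^ (2 * k))
    rwa [zero_mul] at this
  have := ge_of_tendsto hlim (Filter.Eventually.of_forall fun n => hind n t ht ht0)
  rwa [mul_zero, add_zero] at this

end Crest.Agent.R68.X
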