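import Crest.Agent.R68.LDefs
import Crest.Agent.R68.DOp
import Crest.Agent.R68.XColl
import Crest.Agent.R68.XGron
import Crest.Agent.R68.FCell

/-!
# Row 68, PART X: upper growth estimate (X1), abstract form
-/

set_option autoImplicit false
open MeasureTheory Set Filter
open scoped ENNReal Real
open Crest.AnalysisR.VecCalc3 Crest.AnalysisR.PDE.Boltzmann

noncomputable section

namespace Crest.Agent.R68.X1

open Crest.Agent.R68.A Crest.Agent.R68.L Crest.Agent.R68.X

theorem en_eq_dec (a : ℝ≥0∞) : en a = D.dec a := by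
  by_cases ha : a = ⊤
  · simp [ha]
  · rw [D.dec_of_ne_top ha, ← en_coe_ofReal ENNReal.toReal_nonneg, ENNReal.ofReal_toReal ha]

/-- damping identity along a flight -/
theorem en_ftc {α : ℝ → ℝ≥0∞} (hα : Measurable α) {s t : ℝ} (hst : s ≤ t)
    (hfin : ∫⁻ τ in Ioo s t, α τ ≠ ⊤) :
    en (∫⁻ τ in Ioo s t, α τ) + ∫⁻ τ in Ioo s t, α τ * en (∫⁻ r in Ioo s τ, α r) = 1 := by
  simp_rw [en_eq_dec]
  exact D.dec_ftc hα hst (lt_top_iff_ne_top.2 hfin)

/-- phase space integrals along the flow: shift invariance and Tonelli -/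
theorem shift {g : Den} (hg : Meas3 g) (hp : ∀ t v, PerG fun x => g t x v) (t : ℝ) (S : Set ℝ) :
    ∫⁻ x in cellG, ∫⁻ v, ∫⁻ s in S, g s (x - (t - s) • bar v) v
      = ∫⁻ s in S, ∫⁻ x in cellG, ∫⁻ v, g s x v := by
  have m1 : Measurable fun p : (P2 × R3) × ℝ => g p.2 (p.1.1 - (t - p.2) • bar p.1.2) p.1.2 :=
    hg.comp (by fun_prop) (by fun_prop) (by fun_prop)
  calc ∫⁻ x in cellG, ∫⁻ v, ∫⁻ s in S, g s (x - (t - s) • bar v) v
      = ∫⁻ x in cellG, ∫⁻ s in S, ∫⁻ v, g s (x - (t - s) • bar v) v := by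
        refine lintegral_congr fun x => ?_
        refine lintegral_lintegral_swap ?_
        exact (hg.comp (by fun_prop) (by fun_prop) (by fun_prop) :
          Measurable fun p : R3 × ℝ => g p.2 (x - (t - p.2) • bar p.1) p.1).aemeasurable
    _ = ∫⁻ s in S, ∫⁻ x in cellG, ∫⁻ v, g s (x - (t - s) • bar v) v := by
        refine lintegral_lintegral_swap ?_
        have m2 : Measurable fun p : (P2 × ℝ) × R3 => g p.1.2 (p.1.1 - (t - p.1.2) • bar p.2) p.2 :=
          hg.comp (by fun_prop) (by fun_prop) (by fun_prop)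
        exact m2.lintegral_prod_right'.aemeasurable
    _ = _ := by
        refine lintegral_congr fun s => ?_
        have a1 : AEMeasurable (Function.uncurry fun (x : P2) (v : R3) =>
            g s (x - (t - s) • bar v) v) ((volume.restrict cellG).prod volume) :=
          (hg.comp (by fun_prop) (by fun_prop) (by fun_prop) :
            Measurable fun p : P2 × R3 => g s (p.1 - (t - s) • bar p.2) p.2).aemeasurable
        have a2 : AEMeasurable (Function.uncurry fun (x : P2) (v : R3) =>
            g s x v) ((volume.restrict cellG).prod volume) :=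
          (hg.comp (by fun_prop) (by fun_prop) (by fun_prop) :
            Measurable fun p : P2 × R3 => g s p.1 p.2).aemeasurable
        rw [lintegral_lintegral_swap a1, lintegral_lintegral_swap a2]
        refine lintegral_congr fun v => ?_
        have hm : Measurable fun x => g s x v := hg.comp (by fun_prop) (by fun_prop) (by fun_prop)
        have := lintegral_cellG_add hm (hp s v) (-((t - s) • bar v))
        rw [← this]
        rfl

/-- weighted mass in the frame `c` -/
def Ms (c : ℝ → P2 → R3) (h : Den) (t : ℝ) : ℝ≥0∞ := ∫⁻ x in cellG, ∫⁻ v, Ze (c t x) v * h t x v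

/-- the frame of the fuel `φ` -/
structure Frame (φ : Den) (c : ℝ → P2 → R3) (t0 Cc K : ℝ) : Prop where
  mc : Measurable fun p : ℝ × P2 => c p.1 p.2
  per : ∀ t x k, c t (x + latt k) = c t x
  near : ∀ t, 0 < t → t ≤ t0 → ∀ x, NearFrame (φ t x) (c t x)
  dens : ∀ t, 0 < t → t ≤ t0 → ∀ x, ∫⁻ u, φ t x u ≤ ENNReal.ofReal (K / t)
  anti : ∀ s t x v, 0 < s → s ≤ t → t ≤ t0 →
    ENNReal.ofReal (Real.exp (-(Cc * √t))) * Ze (c t x) v
      ≤ ENNReal.ofReal (Real.exp (-(Cc * √s))) * Ze (c s (x - (t - s) • bar v)) v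

variable {φ H σ : Den} {c : ℝ → P2 → R3} {t0 Cc K : ℝ}

/-- damped time weight -/
def zw (c : ℝ → P2 → R3) (Cc : ℝ) : Den := fun t x v =>
  ENNReal.ofReal (Real.exp (-(Cc * √t))) * Ze (c t x) v

theorem measurable_frame (hc : Measurable fun p : ℝ × P2 => c p.1 p.2) :
    Measurable fun p : ℝ × P2 × R3 => c p.1 p.2.1 :=
  hc.comp (measurable_fst.prodMk (measurable_fst.comp measurable_snd))

theorem measurable_frame2 (hc : Measurable fun p : ℝ × P2 => c p.1 p.2) :
    Measurable fun p : ℝ × P2 × R3 => ((c p.1 p.2.1, p.2.2) : R3 × R3) :=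
  (measurable_frame hc).prodMk (measurable_snd.comp measurable_snd)

theorem measurable_ZeF (hc : Measurable fun p : ℝ × P2 => c p.1 p.2) :
    Measurable fun p : ℝ × P2 × R3 => Ze (c p.1 p.2.1) p.2.2 :=
  Measurable.comp (g := fun p : R3 × R3 => Ze p.1 p.2)
    (f := fun p : ℝ × P2 × R3 => (c p.1 p.2.1, p.2.2)) measurable_Ze2 (measurable_frame2 hc)

theorem measurable_damp : Measurable fun p : ℝ × P2 × R3 =>
    ENNReal.ofReal (Real.exp (-(Cc * √p.1))) := by
  have h3 : Measurable fun t : ℝ => ENNReal.ofReal (Real.exp (-(Cc * √t))) :=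
    Measurable.ennreal_ofReal (by fun_prop)
  exact h3.comp measurable_fst

theorem meas3_zw (hc : Measurable fun p : ℝ × P2 => c p.1 p.2) : Meas3 (zw c Cc) :=
  measurable_damp.mul (measurable_ZeF hc)

theorem zw_per (hp : ∀ t x k, c t (x + latt k) = c t x) (t : ℝ) (v : R3) :
    PerG fun x => zw c Cc t x v := by
  intro x k
  simp only [zw, hp]

/-- collisional inequality at one time, integrated over the cell -/
theorem coll_int (hφ : Meas3 φ) (hH : Meas3 H) (hf : Frame φ c t0 Cc K) {t : ℝ} (ht : 0 < t)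
    (ht0 : t ≤ t0) :
    ∫⁻ x in cellG, ∫⁻ v, zw c Cc t x v * Gf φ H t x v
      ≤ (∫⁻ x in cellG, ∫⁻ v, zw c Cc t x v * (Lc (φ t x) v * H t x v))
        + ENNReal.ofReal (3.56 * π * K / t) * ∫⁻ x in cellG, ∫⁻ v, zw c Cc t x v * H t x v := by
  have hm1 : Meas3 (fun t x v => zw c Cc t x v * (Lc (φ t x) v * H t x v)) := by
    have h1 := meas3_zw (Cc := Cc) hf.mc
    have h2 := meas3_Lc hφ
    unfold Meas3 at *
    exact h1.mul (h2.mul hH)
  have hm2 : Meas3 (fun t x v => zw c Cc t x v * H t x v) := by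
    have h1 := meas3_zw (Cc := Cc) hf.mc
    unfold Meas3 at *
    exact h1.mul hH
  have s1 : Measurable fun x : P2 => ∫⁻ v, zw c Cc t x v * H t x v := by
    have : Measurable fun p : P2 × R3 => zw c Cc t p.1 p.2 * H t p.1 p.2 :=
      hm2.comp (f := fun _ => t) (g := Prod.fst) (h := Prod.snd) measurable_const measurable_fst
        measurable_snd
    exact this.lintegral_prod_right'
  have s2 : Measurable fun x : P2 => ∫⁻ v, zw c Cc t x v * (Lc (φ t x) v * H t x v) := by
    have : Measurable fun p : P2 × R3 =>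
        zw c Cc t p.1 p.2 * (Lc (φ t p.1) p.2 * H t p.1 p.2) :=
      hm1.comp (f := fun _ => t) (g := Prod.fst) (h := Prod.snd) measurable_const measurable_fst
        measurable_snd
    exact this.lintegral_prod_right'
  rw [← lintegral_const_mul _ s1, ← lintegral_add_left s2]
  refine lintegral_mono fun x => ?_
  have h := coll (hφ.slice t x) (hH.slice t x) (hf.near t ht ht0 x)
  have hd := hf.dens t ht ht0 x
  have e : ∀ (f : R3 → ℝ≥0∞), ∫⁻ v, zw c Cc t x v * f v
      = ENNReal.ofReal (Real.exp (-(Cc * √t))) * ∫⁻ v, Ze (c t x) v * f v := by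
    intro f
    rw [← lintegral_const_mul' _ _ ENNReal.ofReal_ne_top]
    refine lintegral_congr fun v => ?_
    unfold zw; rw [mul_assoc]
  rw [e, e, e]
  calc ENNReal.ofReal (Real.exp (-(Cc * √t))) * ∫⁻ v, Ze (c t x) v * Gf φ H t x v
      ≤ ENNReal.ofReal (Real.exp (-(Cc * √t))) * ((∫⁻ v, Ze (c t x) v * (Lc (φ t x) v * H t x v))
        + ENNReal.ofReal (3.56 * π) * ENNReal.ofReal (K / t) * ∫⁻ v, Ze (c t x) v * H t x v) := by
        gcongr
        refine h.trans ?_
        gcongr
    _ = _ := by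
        rw [← ENNReal.ofReal_mul (by positivity), mul_add]
        congr 1
        rw [show 3.56 * π * (K / t) = 3.56 * π * K / t by ring]
        ring

end Crest.Agent.R68.X1
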