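import Crest.Agent.R68.X1a

/-!
# Row 68, PART X: upper growth estimate (X1), abstract form, main theorem
-/

set_option autoImplicit false
open MeasureTheory Set Filter
open scoped ENNReal Real
open Crest.AnalysisR.VecCalc3 Crest.AnalysisR.PDE.Boltzmann

noncomputable section

namespace Crest.Agent.R68.X1

open Crest.Agent.R68.A Crest.Agent.R68.L Crest.Agent.R68.X

variable {φ H σ : Den} {c : ℝ → P2 → R3} {t0 Cc K : ℝ}

/-- weighted mass with the damped weight -/
def mz (c : ℝ → P2 → R3) (Cc : ℝ) (h : Den) (t : ℝ) : ℝ≥0∞ :=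
  ∫⁻ x in cellG, ∫⁻ v, zw c Cc t x v * h t x v

/-- weighted loss -/
def nz (φ : Den) (c : ℝ → P2 → R3) (Cc : ℝ) (h : Den) (t : ℝ) : ℝ≥0∞ :=
  ∫⁻ x in cellG, ∫⁻ v, Lc (φ t x) v * (zw c Cc t x v * h t x v)

theorem meas_int {g : Den} (hg : Meas3 g) : Measurable fun t => ∫⁻ x in cellG, ∫⁻ v, g t x v := by
  have h1 : Measurable fun p : (ℝ × P2) × R3 => g p.1.1 p.1.2 p.2 :=
    hg.comp (f := fun p : (ℝ × P2) × R3 => p.1.1) (g := fun p => p.1.2) (h := fun p => p.2)
      (measurable_fst.comp measurable_fst) (measurable_snd.comp measurable_fst) measurable_snd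
  have h2 : Measurable fun p : ℝ × P2 => ∫⁻ v, g p.1 p.2 v := h1.lintegral_prod_right'
  exact h2.lintegral_prod_right'

theorem meas_slice {g : Den} (hg : Meas3 g) (t : ℝ) : Measurable fun x => ∫⁻ v, g t x v := by
  have h1 : Measurable fun p : P2 × R3 => g t p.1 p.2 :=
    hg.comp (f := fun _ => t) (g := Prod.fst) (h := Prod.snd) measurable_const measurable_fst
        measurable_snd
  exact h1.lintegral_prod_right'

theorem meas_slice1 {g : Den} (hg : Meas3 g) (t : ℝ) (x : P2) : Measurable fun v => g t x v :=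
  hg.comp (f := fun _ => t) (g := fun _ => x) (h := fun v => v) measurable_const measurable_const
        measurable_id

theorem int_add {g h : Den} (hg : Meas3 g) (t : ℝ) :
    ∫⁻ x in cellG, ∫⁻ v, (g t x v + h t x v)
      = (∫⁻ x in cellG, ∫⁻ v, g t x v) + ∫⁻ x in cellG, ∫⁻ v, h t x v := by
  rw [← lintegral_add_left (meas_slice hg t)]
  exact lintegral_congr fun x => lintegral_add_left (meas_slice1 hg t x) _

/-- the pointwise flight inequality -/
theorem flight_ineq (hφ : Meas3 φ) (hH : Meas3 H) (hσ : Meas3 σ) (hf : Frame φ c t0 Cc K)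
    (hacc : ∀ s t x v, 0 < s → s ≤ t → t ≤ t0 → Acc φ s t x v ≠ ⊤)
    (heq : ∀ t, 0 < t → t ≤ t0 → ∀ x v,
      H t x v ≤ Dam φ (fun t x v => Gf φ H t x v + σ t x v) t x v)
    {t : ℝ} (ht : 0 < t) (ht0 : t ≤ t0) (x : P2) (v : R3) :
    zw c Cc t x v * H t x v + ∫⁻ r in Ioo 0 t, Lc (φ r (x - (t - r) • bar v)) v *
        (zw c Cc r (x - (t - r) • bar v) v * H r (x - (t - r) • bar v) v)
      ≤ ∫⁻ s in Ioo 0 t, zw c Cc s (x - (t - s) • bar v) v *
        (Gf φ H s (x - (t - s) • bar v) v + σ s (x - (t - s) • bar v) v) := by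
  have hz := meas3_zw (Cc := Cc) hf.mc
  have hq : Meas3 (fun t x v => Gf φ H t x v + σ t x v) := Meas3.add (meas3_Gf hφ hH) hσ
  have hν : Measurable fun r => Lc (φ r (x - (t - r) • bar v)) v := measurable_Lc_flight hφ t x v
  have hE : Measurable (Function.uncurry fun s r : ℝ =>
      en (∫⁻ τ in Ioo s r, Lc (φ τ (x - (t - τ) • bar v)) v)) := by
    refine measurable_en.comp ?_
    exact A.measurable_lintegral_Ioo (α := ℝ × ℝ)
      (q := fun z : (ℝ × ℝ) × ℝ => Lc (φ z.2 (x - (t - z.2) • bar v)) v)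
      (hν.comp measurable_snd) measurable_fst measurable_snd
  have hfl := flight ht (ν := fun r => Lc (φ r (x - (t - r) • bar v)) v)
    (q := fun s => Gf φ H s (x - (t - s) • bar v) v + σ s (x - (t - s) • bar v) v)
    (z := fun s => zw c Cc s (x - (t - s) • bar v) v)
    (E := fun s r => en (∫⁻ τ in Ioo s r, Lc (φ τ (x - (t - τ) • bar v)) v))
    (h := fun r => H r (x - (t - r) • bar v) v) hν (measurable_flight hq t x v) hE
    (by
      intro s hs hst
      have hfin : ∫⁻ τ in Ioo s t, Lc (φ τ (x - (t - τ) • bar v)) v ≠ ⊤ :=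
        hacc s t x v hs hst.le ht0
      exact (en_ftc hν hst.le hfin).le)
    (by
      intro s r hs hsr hrt
      have h := hf.anti s r (x - (t - r) • bar v) v hs hsr (hrt.trans ht0)
      rw [flight_pos] at h
      exact h)
    (by
      intro r hr hrt
      have h := heq r hr (hrt.trans ht0) (x - (t - r) • bar v) v
      unfold Dam at h
      simp only [flight_pos] at h
      refine h.trans (le_of_eq (setLIntegral_congr_fun measurableSet_Ioo fun s _ => ?_))
      have e : Acc φ s r (x - (t - r) • bar v) v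
          = ∫⁻ τ in Ioo s r, Lc (φ τ (x - (t - τ) • bar v)) v := by
        unfold A.Acc
        refine lintegral_congr fun τ => ?_
        rw [flight_pos]
      simp only [e]
      rw [mul_comm])
    (measurable_flight hz t x v)
  simpa using hfl

/-- **(X1), abstract form** -/
theorem x1_abs (hφ : Meas3 φ) (hφp : ∀ t v, PerG fun x => φ t x v) (hH : Meas3 H)
    (hHp : ∀ t v, PerG fun x => H t x v) (hσ : Meas3 σ) (hσp : ∀ t v, PerG fun x => σ t x v)
    (hf : Frame φ c t0 Cc K) (hK : 0 < K)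
    (hacc : ∀ s t x v, 0 < s → s ≤ t → t ≤ t0 → Acc φ s t x v ≠ ⊤)
    (heq : ∀ t, 0 < t → t ≤ t0 → ∀ x v,
      H t x v ≤ Dam φ (fun t x v => Gf φ H t x v + σ t x v) t x v)
    {τ0 : ℝ} (hτ : 0 < τ0) (h0 : ∀ t, t < τ0 → ∀ x v, H t x v = 0)
    {B : ℝ≥0∞} (hB : B ≠ ⊤) (hMB : ∀ t, 0 < t → t ≤ t0 → mz c Cc H t ≤ B)
    (hN : ∀ t, 0 < t → t ≤ t0 → ∫⁻ s in Ioo 0 t, nz φ c Cc H s ≠ ⊤) :
    ∀ t, 0 < t → t ≤ t0 →
      mz c Cc H t ≤ ∫⁻ s in Ioo 0 t, ENNReal.ofReal ((t / s) ^ (3.56 * π * K)) * mz c Cc σ s := by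
  have hz := meas3_zw (Cc := Cc) hf.mc
  have hzH : Meas3 fun t x v => zw c Cc t x v * H t x v := Measurable.mul hz hH
  have hzσ : Meas3 fun t x v => zw c Cc t x v * σ t x v := Measurable.mul hz hσ
  have hzG : Meas3 fun t x v => zw c Cc t x v * Gf φ H t x v := Measurable.mul hz (meas3_Gf hφ hH)
  have hnz : Meas3 fun t x v => Lc (φ t x) v * (zw c Cc t x v * H t x v) :=
    Measurable.mul (meas3_Lc hφ) hzH
  have hφx : ∀ t x k, φ t (x + latt k) = φ t x := fun t x k => funext fun v => hφp t v x k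
  have hHx : ∀ t x k, H t (x + latt k) = H t x := fun t x k => funext fun v => hHp t v x k
  have hzx := zw_per (Cc := Cc) hf.per
  refine gronwall (by positivity) hτ (meas_int hzσ) (meas_int hzH) ?_ hB hMB ?_
  · intro t ht
    simp [mz, h0 t ht]
  intro t ht ht0
  -- integrate the flight inequality
  have h1 : mz c Cc H t + ∫⁻ s in Ioo 0 t, nz φ c Cc H s
      ≤ ∫⁻ s in Ioo 0 t, ∫⁻ x in cellG, ∫⁻ v,
        (zw c Cc s x v * Gf φ H s x v + zw c Cc s x v * σ s x v) := by
    have e1 : ∫⁻ s in Ioo 0 t, nz φ c Cc H s = ∫⁻ x in cellG, ∫⁻ v, ∫⁻ r in Ioo 0 t,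
        Lc (φ r (x - (t - r) • bar v)) v *
        (zw c Cc r (x - (t - r) • bar v) v * H r (x - (t - r) • bar v) v) := by
      refine (shift hnz (fun s v x k => ?_) t _).symm
      simp only [hφx, hzx s v x k, hHx]
    have e2 : ∫⁻ s in Ioo 0 t, ∫⁻ x in cellG, ∫⁻ v,
        (zw c Cc s x v * Gf φ H s x v + zw c Cc s x v * σ s x v)
        = ∫⁻ x in cellG, ∫⁻ v, ∫⁻ s in Ioo 0 t, (zw c Cc s (x - (t - s) • bar v) v *
          Gf φ H s (x - (t - s) • bar v) v + zw c Cc s (x - (t - s) • bar v) v *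
          σ s (x - (t - s) • bar v) v) := by
      refine (shift (g := fun s x v => zw c Cc s x v * Gf φ H s x v + zw c Cc s x v * σ s x v)
        (Meas3.add hzG hzσ) (fun s v x k => ?_) t _).symm
      simp only [hφx, hzx s v x k, hHx, Gf, hσp s v x k]
    rw [e1, e2]
    unfold mz
    rw [← lintegral_add_left (meas_slice hzH t)]
    refine lintegral_mono fun x => ?_
    rw [← lintegral_add_left (meas_slice1 hzH t x)]
    refine lintegral_mono fun v => ?_
    have h := flight_ineq hφ hH hσ hf hacc heq ht ht0 x v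
    simpa only [mul_add] using h
  have h2 : ∫⁻ s in Ioo 0 t, ∫⁻ x in cellG, ∫⁻ v,
        (zw c Cc s x v * Gf φ H s x v + zw c Cc s x v * σ s x v)
      ≤ ∫⁻ s in Ioo 0 t, (nz φ c Cc H s + (mz c Cc σ s +
        ENNReal.ofReal (3.56 * π * K / s) * mz c Cc H s)) := by
    refine setLIntegral_mono' measurableSet_Ioo fun s hs => ?_
    have hia := int_add (g := fun t x v => zw c Cc t x v * Gf φ H t x v)
      (h := fun t x v => zw c Cc t x v * σ t x v) hzG s
    refine hia.le.trans ?_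
    have h3 := coll_int (Cc := Cc) hφ hH hf hs.1 (hs.2.le.trans ht0)
    have e3 : ∫⁻ x in cellG, ∫⁻ v, zw c Cc s x v * (Lc (φ s x) v * H s x v)
        = nz φ c Cc H s := by
      unfold nz
      refine lintegral_congr fun x => lintegral_congr fun v => ?_
      ring
    rw [e3] at h3
    calc _ ≤ (nz φ c Cc H s + ENNReal.ofReal (3.56 * π * K / s) * mz c Cc H s)
          + mz c Cc σ s := add_le_add h3 le_rfl
      _ = _ := by ring
  have h4 : ∫⁻ s in Ioo 0 t, (nz φ c Cc H s + (mz c Cc σ s +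
        ENNReal.ofReal (3.56 * π * K / s) * mz c Cc H s))
      = (∫⁻ s in Ioo 0 t, nz φ c Cc H s) + ((∫⁻ s in Ioo 0 t, mz c Cc σ s)
        + ∫⁻ s in Ioo 0 t, ENNReal.ofReal (3.56 * π * K / s) * mz c Cc H s) := by
    have m1 : Measurable (nz φ c Cc H) := meas_int hnz
    have m2 : Measurable (mz c Cc σ) := meas_int hzσ
    rw [lintegral_add_left m1, lintegral_add_left m2]
  have h5 := h1.trans (h2.trans h4.le)
  rw [add_comm (mz c Cc H t)] at h5
  exact (ENNReal.add_le_add_iff_left (hN t ht ht0)).1 h5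

end Crest.Agent.R68.X1
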