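import Crest.Agent.R68.X1a
import Crest.Agent.R68.FLattice
import Crest.Agent.R68.FSum

/-!
# Row 68, PART X: the frame (periodised clamp of `x₂ / (t + r)`), monotonicity along flights
-/

set_option autoImplicit false
open MeasureTheory Set Filter
open scoped ENNReal Real
open Crest.AnalysisR.VecCalc3 Crest.AnalysisR.PDE.Boltzmann

noncomputable section

namespace Crest.Agent.R68.X1

/-! ### clamp -/

/-- clamp to `[-M, M]` -/
def cl (M w : ℝ) : ℝ := max (-M) (min M w)

theorem cl_of_abs_le {M w : ℝ} (h : |w| ≤ M) : cl M w = w := by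
  unfold cl
  rw [abs_le] at h
  rw [min_eq_right h.2, max_eq_right h.1]

theorem abs_cl_le {M : ℝ} (hM : 0 ≤ M) (w : ℝ) : |cl M w| ≤ M := by
  unfold cl
  rw [abs_le]
  exact ⟨le_max_left _ _, max_le (by linarith) (min_le_left _ _)⟩

theorem cl_mono {M w w' : ℝ} (h : w ≤ w') : cl M w ≤ cl M w' := by
  unfold cl; gcongr

theorem abs_cl_sub {M w w' : ℝ} : |cl M w - cl M w'| ≤ |w - w'| := by
  unfold cl
  calc |max (-M) (min M w) - max (-M) (min M w')| ≤ |min M w - min M w'| := by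
        have := abs_max_sub_max_le_abs (-M) (min M w) (min M w')
        simpa [max_comm] using abs_max_sub_max_le_abs (min M w) (min M w') (-M)
    _ ≤ |w - w'| := by
        have := abs_min_sub_min_le_max M w M w'
        simpa using this

theorem abs_cl_sub_M {M M' w : ℝ} : |cl M w - cl M' w| ≤ |M - M'| := by
  unfold cl
  refine (abs_max_sub_max_le_max _ _ _ _).trans (max_le ?_ ?_)
  · rw [show -M - -M' = -(M - M') by ring, abs_neg]
  · refine (abs_min_sub_min_le_max _ _ _ _).trans ?_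
    simp

theorem cl_of_ge {M w : ℝ} (h0 : 0 ≤ M) (h : M ≤ w) : cl M w = M := by
  unfold cl; rw [min_eq_left h, max_eq_right (by linarith)]

theorem cl_of_le {M w : ℝ} (h0 : 0 ≤ M) (h : w ≤ -M) : cl M w = -M := by
  unfold cl; rw [min_eq_right (by linarith), max_eq_left h]

/-- moving `w` towards `v` moves the clamp towards `v` -/
theorem cl_proj {M v w θ : ℝ} (hM : 0 ≤ M) (h0 : 0 ≤ θ) (h1 : θ ≤ 1) :
    |v - cl M (v + θ * (w - v))| ≤ |v - cl M w| := by
  rcases le_total v w with h | h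
  · -- v ≤ w' ≤ w
    have a1 : v ≤ v + θ * (w - v) := by nlinarith
    have a2 : v + θ * (w - v) ≤ w := by nlinarith
    have b1 := cl_mono (M := M) a1
    have b2 := cl_mono (M := M) a2
    rcases le_total (-M) v with h2 | h2
    · rcases le_total v M with h3 | h3
      · rw [cl_of_abs_le (abs_le.2 ⟨h2, h3⟩)] at b1
        rw [abs_of_nonpos (by linarith), abs_of_nonpos (by linarith)]; linarith
      · rw [cl_of_ge hM (h3.trans a1), cl_of_ge hM ((h3.trans a1).trans a2)]
    · have c1 := abs_le.1 (abs_cl_le hM (v + θ * (w - v)))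
      have c2 := abs_le.1 (abs_cl_le hM w)
      rw [abs_of_nonpos (by linarith), abs_of_nonpos (by linarith)]; linarith
  · have a1 : v + θ * (w - v) ≤ v := by nlinarith
    have a2 : w ≤ v + θ * (w - v) := by nlinarith
    have b1 := cl_mono (M := M) a1
    have b2 := cl_mono (M := M) a2
    rcases le_total v M with h2 | h2
    · rcases le_total (-M) v with h3 | h3
      · rw [cl_of_abs_le (abs_le.2 ⟨h3, h2⟩)] at b1
        rw [abs_of_nonneg (by linarith), abs_of_nonneg (by linarith)]; linarith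
      · rw [cl_of_le hM (a1.trans h3), cl_of_le hM ((a2.trans a1).trans h3)]
    · have c1 := abs_le.1 (abs_cl_le hM (v + θ * (w - v)))
      have c2 := abs_le.1 (abs_cl_le hM w)
      rw [abs_of_nonneg (by linarith), abs_of_nonneg (by linarith)]; linarith

/-- change of the denominator, clamp of level `M` -/
theorem cl_ratio {M X A B m : ℝ} (hM : 0 ≤ M) (hm : 0 < m) (hA : m ≤ A) (hB : m ≤ B) :
    |cl M (X / A) - cl M (X / B)| ≤ M * (|A - B| / m) := by
  have hA0 : 0 < A := hm.trans_le hA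
  have hB0 : 0 < B := hm.trans_le hB
  have key : ∀ {X A B : ℝ}, 0 < A → 0 < B → m ≤ B → |X / A| ≤ M →
      |cl M (X / A) - cl M (X / B)| ≤ M * (|A - B| / m) := by
    intro X A B hA0 hB0 hB h
    refine abs_cl_sub.trans ?_
    have e : X / A - X / B = (X / A) * ((B - A) / B) := by field_simp
    rw [e, abs_mul, abs_div (B - A), abs_of_pos hB0, abs_sub_comm B A]
    gcongr
  rcases le_total |X / A| M with h | h
  · exact key hA0 hB0 hB h
  rcases le_total |X / B| M with h' | h'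
  · rw [abs_sub_comm, abs_sub_comm A B]
    exact key hB0 hA0 hA h'
  -- both clamped with the same sign
  have hz : cl M (X / A) = cl M (X / B) := by
    rcases le_total 0 X with hX | hX
    · rw [abs_of_nonneg (by positivity)] at h h'
      rw [cl_of_ge hM h, cl_of_ge hM h']
    · rw [abs_of_nonpos (div_nonpos_of_nonpos_of_nonneg hX hA0.le)] at h
      rw [abs_of_nonpos (div_nonpos_of_nonpos_of_nonneg hX hB0.le)] at h'
      rw [cl_of_le hM (by linarith), cl_of_le hM (by linarith)]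
  rw [hz, sub_self, abs_zero]
  positivity

/-- labels: `r(ℓ) = ℓ²` -/
theorem cl_label {M X t l l' h : ℝ} (hM : 0 ≤ M) (ht : 0 < t) (hh : |l - l'| ≤ h) :
    |cl M (X / (t + l ^ 2)) - cl M (X / (t + l' ^ 2))| ≤ 4 * M * (h / √t) := by
  have hh0 : 0 ≤ h := (abs_nonneg _).trans hh
  have hst : 0 < √t := Real.sqrt_pos.2 ht
  have hts : √t ^ 2 = t := Real.sq_sqrt ht.le
  by_cases hc : 1 ≤ h / √t
  · have h1 := abs_cl_le hM (X / (t + l ^ 2))
    have h2 := abs_cl_le hM (X / (t + l' ^ 2))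
    have h3 := abs_sub (cl M (X / (t + l ^ 2))) (cl M (X / (t + l' ^ 2)))
    nlinarith
  · push Not at hc
    set m := min |l| |l'| with hm
    have hm0 : 0 ≤ m := le_min (abs_nonneg _) (abs_nonneg _)
    have e1 : t + m ^ 2 ≤ t + l ^ 2 := by
      rw [← sq_abs l]; gcongr; exact min_le_left _ _
    have e2 : t + m ^ 2 ≤ t + l' ^ 2 := by
      rw [← sq_abs l']; gcongr; exact min_le_right _ _
    refine (cl_ratio hM (m := t + m ^ 2) (by positivity) e1 e2).trans ?_
    have e3 : |t + l ^ 2 - (t + l' ^ 2)| ≤ h * (2 * m + h) := by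
      have : t + l ^ 2 - (t + l' ^ 2) = (l - l') * (l + l') := by ring
      rw [this, abs_mul]
      have h4 : |l + l'| ≤ 2 * m + h := by
        rcases le_total |l| |l'| with h5 | h5
        · rw [hm, min_eq_left h5]
          have : l + l' = 2 * l - (l - l') := by ring
          rw [this]
          refine (abs_sub _ _).trans ?_
          rw [abs_mul]; norm_num; linarith
        · rw [hm, min_eq_right h5]
          have : l + l' = 2 * l' + (l - l') := by ring
          rw [this]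
          refine (abs_add_le _ _).trans ?_
          rw [abs_mul]; norm_num; linarith
      gcongr
    have e4 : |t + l ^ 2 - (t + l' ^ 2)| / (t + m ^ 2) ≤ 2 * (h / √t) := by
      rw [div_le_iff₀ (by positivity)]
      refine e3.trans ?_
      have h6 : h ^ 2 ≤ (h / √t) * t := by
        have : h = (h / √t) * √t := by field_simp
        calc h ^ 2 = (h / √t) * ((h / √t) * √t ^ 2) := by rw [this]; field_simp
          _ ≤ (h / √t) * (1 * √t ^ 2) := by gcongr
          _ = _ := by rw [hts, one_mul]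
      have h7 : 2 * m * √t ≤ t + m ^ 2 := by nlinarith [sq_nonneg (m - √t)]
      have h8 : h * (2 * m) ≤ (h / √t) * (t + m ^ 2) := by
        have : h * (2 * m) = (h / √t) * (2 * m * √t) := by field_simp
        rw [this]; gcongr
      have h9 : (h / √t) * t ≤ (h / √t) * (t + m ^ 2) := by
        gcongr; nlinarith [sq_nonneg m]
      nlinarith
    calc M * (|t + l ^ 2 - (t + l' ^ 2)| / (t + m ^ 2)) ≤ M * (2 * (h / √t)) := by gcongr
      _ ≤ 4 * M * (h / √t) := by
        have : 0 ≤ M * (h / √t) := by positivity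
        linarith

/-! ### the frame, one period -/

/-- cutoff: `1` for `‖x‖ ≤ 1/5`, `0` for `‖x‖ ≥ 3/10` -/
def chi (x : P2) : ℝ := max 0 (min 1 (3 - 10 * ‖x‖))

theorem chi_nonneg (x : P2) : 0 ≤ chi x := le_max_left _ _
theorem chi_le_one (x : P2) : chi x ≤ 1 := max_le zero_le_one (min_le_left _ _)
theorem chi_eq_one {x : P2} (h : ‖x‖ ≤ 1 / 5) : chi x = 1 := by
  unfold chi; rw [min_eq_left (by linarith), max_eq_right zero_le_one]
theorem chi_eq_zero {x : P2} (h : 3 / 10 ≤ ‖x‖) : chi x = 0 := by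
  unfold chi; exact max_eq_left ((min_le_right _ _).trans (by linarith))
theorem abs_chi_sub (x y : P2) : |chi x - chi y| ≤ 10 * ‖x - y‖ := by
  unfold chi
  have h1 := abs_max_sub_max_le_max (0 : ℝ) (min 1 (3 - 10 * ‖x‖)) 0 (min 1 (3 - 10 * ‖y‖))
  have h2 := abs_min_sub_min_le_max (1 : ℝ) (3 - 10 * ‖x‖) 1 (3 - 10 * ‖y‖)
  have h3 : |3 - 10 * ‖x‖ - (3 - 10 * ‖y‖)| ≤ 10 * ‖x - y‖ := by
    rw [show 3 - 10 * ‖x‖ - (3 - 10 * ‖y‖) = -(10 * (‖x‖ - ‖y‖)) by ring, abs_neg, abs_mul]
    norm_num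
    exact abs_norm_sub_norm_le x y
  have h0 : 0 ≤ 10 * ‖x - y‖ := by positivity
  refine h1.trans (max_le (by simp) (h2.trans (max_le (by simp) h3)))

/-- the frame near the origin -/
def fr (P : Par) (t : ℝ) (x : P2) : ℝ := cl (2 * P.Y * chi x) (x.2 / (t + rr (lab P t x)))

theorem fr_eq_zero {P : Par} {t : ℝ} {x : P2} (h : 3 / 10 ≤ ‖x‖) : fr P t x = 0 := by
  unfold fr
  rw [chi_eq_zero h, mul_zero]
  unfold cl
  simp

theorem abs_fr_le {P : Par} (hY : 0 ≤ P.Y) (t : ℝ) (x : P2) : |fr P t x| ≤ 2 * P.Y := by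
  have h1 := chi_nonneg x
  have h2 := chi_le_one x
  refine (abs_cl_le (by positivity) _).trans ?_
  nlinarith

/-- frame along a short flight, one period -/
theorem fr_flight {P : Par} (hY : 0 ≤ P.Y) (hκ : 0 ≤ P.kap) (hdl : 0 < P.dl) {s t : ℝ} (hs : 0 < s) (hst : s ≤ t)
    (ht1 : t ≤ 1) (x : P2) (hx : ‖x‖ ≤ 1) (v : R3) :
    |v 1 - fr P t (x + (t - s) • bar v)| ≤ |v 1 - fr P s x|
      + 56 * P.Y * (1 + P.kap) * (1 + ‖v‖) * (√t - √s) := by
  have ht : 0 < t := hs.trans_le hst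
  set x' : P2 := x + (t - s) • bar v with hx'
  set l := lab P s x with hl
  set l' := lab P t x' with hl'
  have hMn : 0 ≤ 2 * P.Y * chi x := by have := chi_nonneg x; positivity
  have hMle : 2 * P.Y * chi x ≤ 2 * P.Y := by
    have := chi_le_one x; nlinarith
  have hv0 : |v 0| ≤ ‖v‖ := by simpa using EuclideanSpace.norm_eq v ▸ PiLp.norm_apply_le v 0
  have hv1 : |v 1| ≤ ‖v‖ := by simpa using PiLp.norm_apply_le v 1
  have hroot : t - s ≤ 2 * (√t - √s) := by
    have h1 := Real.sq_sqrt ht.le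
    have h2 := Real.sq_sqrt hs.le
    have h3 : √t ≤ 1 := Real.sqrt_le_one.2 ht1
    have h4 : √s ≤ √t := Real.sqrt_le_sqrt hst
    have h5 := Real.sqrt_nonneg s
    nlinarith
  have hroot2 : (t - s) / √t ≤ 2 * (√t - √s) := by
    have h1 := Real.sq_sqrt ht.le
    have h2 := Real.sq_sqrt hs.le
    have h4 : √s ≤ √t := Real.sqrt_le_sqrt hst
    have h5 := Real.sqrt_nonneg s
    have h6 : 0 < √t := Real.sqrt_pos.2 ht
    rw [div_le_iff₀ h6]
    nlinarith
  have hroot0 : 0 ≤ √t - √s := by have : √s ≤ √t := Real.sqrt_le_sqrt hst; linarith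
  have hbar : ‖bar v‖ ≤ ‖v‖ := by
    unfold bar
    rw [Prod.norm_def]
    exact max_le hv0 hv1
  -- labels
  have hlab : |l' - l| ≤ (‖v‖ + P.kap) * (t - s) := by
    have e1 : l = x.1 / (1 + P.kap * s) := by
      rw [hl]; unfold lab Par.kap; field_simp
    have e2 : l' = (x.1 + (t - s) * v 0) / (1 + P.kap * t) := by
      rw [hl']; unfold lab Par.kap
      rw [hx']
      simp only [bar, Prod.fst_add, Prod.smul_fst, smul_eq_mul]
      field_simp
    have hs1 : 0 < 1 + P.kap * s := by positivity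
    have ht1 : 0 < 1 + P.kap * t := by positivity
    have e3 : l' - l = ((t - s) * v 0) / (1 + P.kap * t)
        - (x.1 * P.kap * (t - s)) / ((1 + P.kap * t) * (1 + P.kap * s)) := by
      rw [e1, e2]; field_simp; ring
    have hx1 : |x.1| ≤ 1 := (norm_fst_le x).trans hx
    have hts : 0 ≤ t - s := by linarith
    have b1 : |((t - s) * v 0) / (1 + P.kap * t)| ≤ ‖v‖ * (t - s) := by
      rw [abs_div, abs_of_pos ht1, abs_mul, abs_of_nonneg hts, div_le_iff₀ ht1]
      have : 0 ≤ ‖v‖ * (t - s) * (P.kap * t) := by positivity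
      nlinarith
    have b2 : |(x.1 * P.kap * (t - s)) / ((1 + P.kap * t) * (1 + P.kap * s))|
        ≤ P.kap * (t - s) := by
      rw [abs_div, abs_of_pos (mul_pos ht1 hs1), abs_mul, abs_mul, abs_of_nonneg hts,
        abs_of_nonneg hκ, div_le_iff₀ (mul_pos ht1 hs1)]
      have h1 : 1 ≤ (1 + P.kap * t) * (1 + P.kap * s) := by
        have := mul_nonneg hκ ht.le
        have := mul_nonneg hκ hs.le
        nlinarith
      have h2 : 0 ≤ P.kap * (t - s) := by positivity
      calc |x.1| * P.kap * (t - s) ≤ 1 * P.kap * (t - s) := by gcongr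
        _ = P.kap * (t - s) * 1 := by ring
        _ ≤ _ := by gcongr
    rw [e3]
    refine (abs_sub _ _).trans ?_
    linarith
  -- steps
  have k1 : |fr P t x' - cl (2 * P.Y * chi x) (x'.2 / (t + l' ^ 2))| ≤ 20 * P.Y * (‖v‖ * (t - s)) := by
    unfold fr
    refine abs_cl_sub_M.trans ?_
    rw [← mul_sub, abs_mul, abs_of_nonneg (by positivity : (0:ℝ) ≤ 2 * P.Y)]
    have h1 := abs_chi_sub x' x
    have h2 : ‖x' - x‖ ≤ ‖v‖ * (t - s) := by
      rw [hx', add_sub_cancel_left, norm_smul, Real.norm_of_nonneg (by linarith), mul_comm]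
      gcongr
    calc 2 * P.Y * |chi x' - chi x| ≤ 2 * P.Y * (10 * (‖v‖ * (t - s))) := by gcongr; linarith
      _ = _ := by ring
  have k2 : |cl (2 * P.Y * chi x) (x'.2 / (t + l' ^ 2))
      - cl (2 * P.Y * chi x) (x'.2 / (t + l ^ 2))|
      ≤ 8 * P.Y * ((‖v‖ + P.kap) * (2 * (√t - √s))) := by
    refine (cl_label hMn ht hlab).trans ?_
    have h1 : (‖v‖ + P.kap) * (t - s) / √t ≤ (‖v‖ + P.kap) * (2 * (√t - √s)) := by
      rw [mul_div_assoc]; gcongr
    have h0 : 0 ≤ (‖v‖ + P.kap) * (t - s) / √t := by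
      have : 0 ≤ t - s := by linarith
      positivity
    calc 4 * (2 * P.Y * chi x) * ((‖v‖ + P.kap) * (t - s) / √t)
        ≤ 4 * (2 * P.Y) * ((‖v‖ + P.kap) * (t - s) / √t) := by gcongr
      _ ≤ 4 * (2 * P.Y) * ((‖v‖ + P.kap) * (2 * (√t - √s))) := by gcongr
      _ = _ := by ring
  have k3 : |v 1 - cl (2 * P.Y * chi x) (x'.2 / (t + l ^ 2))| ≤ |v 1 - fr P s x| := by
    have hsl : 0 < s + l ^ 2 := by positivity
    have htl : 0 < t + l ^ 2 := by positivity
    have e : x'.2 / (t + l ^ 2) = v 1 + ((s + l ^ 2) / (t + l ^ 2)) * (x.2 / (s + l ^ 2) - v 1) := by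
      rw [hx']
      simp only [bar, Prod.snd_add, Prod.smul_snd, smul_eq_mul]
      field_simp; ring
    rw [e]
    exact cl_proj hMn (by positivity) (by rw [div_le_one htl]; linarith)
  have k4 : |v 1 - fr P t x'| ≤ |v 1 - cl (2 * P.Y * chi x) (x'.2 / (t + l ^ 2))|
      + |cl (2 * P.Y * chi x) (x'.2 / (t + l' ^ 2)) - cl (2 * P.Y * chi x) (x'.2 / (t + l ^ 2))|
      + |fr P t x' - cl (2 * P.Y * chi x) (x'.2 / (t + l' ^ 2))| := by
    have e : v 1 - fr P t x' = (v 1 - cl (2 * P.Y * chi x) (x'.2 / (t + l ^ 2)))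
      - (cl (2 * P.Y * chi x) (x'.2 / (t + l' ^ 2)) - cl (2 * P.Y * chi x) (x'.2 / (t + l ^ 2)))
      - (fr P t x' - cl (2 * P.Y * chi x) (x'.2 / (t + l' ^ 2))) := by ring
    rw [e]
    refine (abs_sub _ _).trans ?_
    gcongr
    exact abs_sub _ _
  have f1 : 20 * P.Y * (‖v‖ * (t - s)) ≤ 40 * P.Y * (1 + P.kap) * (1 + ‖v‖) * (√t - √s) := by
    have h1 : ‖v‖ * (t - s) ≤ ‖v‖ * (2 * (√t - √s)) := by gcongr
    have h2 : ‖v‖ ≤ (1 + P.kap) * (1 + ‖v‖) := by
      have := norm_nonneg v; nlinarith [mul_nonneg hκ this]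
    calc 20 * P.Y * (‖v‖ * (t - s)) ≤ 20 * P.Y * (‖v‖ * (2 * (√t - √s))) := by gcongr
      _ = 40 * P.Y * ‖v‖ * (√t - √s) := by ring
      _ ≤ 40 * P.Y * ((1 + P.kap) * (1 + ‖v‖)) * (√t - √s) := by gcongr
      _ = _ := by ring
  have f2 : 8 * P.Y * ((‖v‖ + P.kap) * (2 * (√t - √s)))
      ≤ 16 * P.Y * (1 + P.kap) * (1 + ‖v‖) * (√t - √s) := by
    have h2 : ‖v‖ + P.kap ≤ (1 + P.kap) * (1 + ‖v‖) := by
      have := norm_nonneg v; nlinarith [mul_nonneg hκ this]
    calc 8 * P.Y * ((‖v‖ + P.kap) * (2 * (√t - √s))) = 16 * P.Y * (‖v‖ + P.kap) * (√t - √s) := by ring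
      _ ≤ 16 * P.Y * ((1 + P.kap) * (1 + ‖v‖)) * (√t - √s) := by gcongr
      _ = _ := by ring
  nlinarith

/-! ### the periodised frame -/

/-- the periodised frame, second velocity component -/
def yfr (P : Par) (t : ℝ) (x : P2) : ℝ := ∑' k : ℤ × ℤ, fr P t (x + latt k)

/-- the frame -/
def cfr (P : Par) (t : ℝ) (x : P2) : R3 := !₂[0, yfr P t x, 0]

theorem fr_ne_zero {P : Par} {t : ℝ} {x : P2} {k l : ℤ × ℤ} (hk : ‖x + latt k‖ < 7 / 20)
    (hl : fr P t (x + latt l) ≠ 0) : l = k := by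
  by_contra h
  by_cases h2 : ‖x + latt l‖ < 7 / 20
  · exact h (latt_unique h2 hk)
  · exact hl (fr_eq_zero (by push Not at h2; linarith))

theorem yfr_eq {P : Par} {t : ℝ} {x : P2} {k : ℤ × ℤ} (hk : ‖x + latt k‖ < 7 / 20) :
    yfr P t x = fr P t (x + latt k) := by
  unfold yfr
  refine tsum_eq_single k fun l hl => ?_
  by_contra h
  exact hl (fr_ne_zero hk h)

theorem yfr_eq_zero {P : Par} {t : ℝ} {x : P2} (hk : ∀ k, 3 / 10 ≤ ‖x + latt k‖) :
    yfr P t x = 0 := by
  unfold yfr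
  rw [tsum_congr fun k => fr_eq_zero (hk k), tsum_zero]

theorem abs_yfr_le {P : Par} (hY : 0 ≤ P.Y) (t : ℝ) (x : P2) : |yfr P t x| ≤ 2 * P.Y := by
  by_cases h : ∃ k, ‖x + latt k‖ < 7 / 20
  · obtain ⟨k, hk⟩ := h
    rw [yfr_eq hk]; exact abs_fr_le hY _ _
  · push Not at h
    rw [yfr_eq_zero fun k => by have := h k; linarith]
    simpa using hY

theorem yfr_per (P : Par) (t : ℝ) (x : P2) (l : ℤ × ℤ) : yfr P t (x + latt l) = yfr P t x := by
  unfold yfr
  rw [← (Equiv.addLeft l).tsum_eq (fun k => fr P t (x + latt k))]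
  refine tsum_congr fun k => ?_
  rw [Equiv.coe_addLeft, latt_add, add_assoc]

theorem measurable_fr (P : Par) : Measurable fun p : ℝ × P2 => fr P p.1 p.2 := by
  unfold fr cl chi lab rr
  fun_prop

theorem yfr_pos_neg (P : Par) (t : ℝ) (x : P2) : yfr P t x
    = (∑' k : ℤ × ℤ, ENNReal.ofReal (fr P t (x + latt k))).toReal
      - (∑' k : ℤ × ℤ, ENNReal.ofReal (-fr P t (x + latt k))).toReal := by
  by_cases h : ∃ k, ‖x + latt k‖ < 7 / 20
  · obtain ⟨k, hk⟩ := h
    have hz : ∀ l, l ≠ k → fr P t (x + latt l) = 0 := fun l hl => by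
      by_contra h; exact hl (fr_ne_zero hk h)
    rw [yfr_eq hk, tsum_eq_single k fun l hl => by rw [hz l hl]; simp,
      tsum_eq_single k fun l hl => by rw [hz l hl]; simp]
    rw [ENNReal.toReal_ofReal', ENNReal.toReal_ofReal']
    rcases le_total 0 (fr P t (x + latt k)) with h | h
    · rw [max_eq_left h, max_eq_right (by linarith)]; ring
    · rw [max_eq_right h, max_eq_left (by linarith)]; ring
  · push Not at h
    have hz : ∀ k, fr P t (x + latt k) = 0 := fun k => fr_eq_zero (by have := h k; linarith)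
    unfold yfr
    simp [hz]

theorem measurable_yfr (P : Par) : Measurable fun p : ℝ × P2 => yfr P p.1 p.2 := by
  simp_rw [yfr_pos_neg]
  have h1 : ∀ k : ℤ × ℤ, Measurable fun p : ℝ × P2 => fr P p.1 (p.2 + latt k) := fun k =>
    (measurable_fr P).comp (g := fun p : ℝ × P2 => fr P p.1 p.2)
      (f := fun p : ℝ × P2 => ((p.1, p.2 + latt k) : ℝ × P2))
      (measurable_fst.prodMk (measurable_snd.add_const _))
  refine Measurable.sub (Measurable.ennreal_toReal ?_) (Measurable.ennreal_toReal ?_)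
  · exact Measurable.tsum fun k => (h1 k).ennreal_ofReal
  · exact Measurable.tsum fun k => (h1 k).neg.ennreal_ofReal

theorem cfr_zero (P : Par) (t : ℝ) (x : P2) : cfr P t x 0 = 0 := rfl
theorem cfr_one (P : Par) (t : ℝ) (x : P2) : cfr P t x 1 = yfr P t x := rfl
theorem cfr_two (P : Par) (t : ℝ) (x : P2) : cfr P t x 2 = 0 := rfl

theorem measurable_cfr (P : Par) : Measurable fun p : ℝ × P2 => cfr P p.1 p.2 := by
  unfold cfr
  exact Fuel.measurable_vec measurable_const (measurable_yfr P) measurable_const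

/-- the distance of `v₁` to the frame, along a flight -/
theorem yfr_flight {P : Par} (hY : 0 ≤ P.Y) (hκ : 0 ≤ P.kap) (hdl : 0 < P.dl) {s t : ℝ}
    (hs : 0 < s) (hst : s ≤ t) (ht1 : t ≤ 1) (x : P2) (v : R3) :
    |v 1 - yfr P t (x + (t - s) • bar v)| ≤ |v 1 - yfr P s x|
      + 800 * P.Y * (1 + P.kap) * (1 + ‖v‖) * (√t - √s) := by
  have ht : 0 < t := hs.trans_le hst
  have hroot0 : 0 ≤ √t - √s := by have : √s ≤ √t := Real.sqrt_le_sqrt hst; linarith
  have hroot : t - s ≤ 2 * (√t - √s) := by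
    have h1 := Real.sq_sqrt ht.le
    have h2 := Real.sq_sqrt hs.le
    have h3 : √t ≤ 1 := Real.sqrt_le_one.2 ht1
    have h4 : √s ≤ √t := Real.sqrt_le_sqrt hst
    have h5 := Real.sqrt_nonneg s
    nlinarith
  have hbar : ‖bar v‖ ≤ ‖v‖ := by
    unfold bar
    rw [Prod.norm_def]
    exact max_le (by simpa using PiLp.norm_apply_le v 0) (by simpa using PiLp.norm_apply_le v 1)
  have hv := norm_nonneg v
  have hmono : 56 * P.Y * (1 + P.kap) * (1 + ‖v‖) * (√t - √s)
      ≤ 800 * P.Y * (1 + P.kap) * (1 + ‖v‖) * (√t - √s) := by gcongr; norm_num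
  have hpos : 0 ≤ 800 * P.Y * (1 + P.kap) * (1 + ‖v‖) * (√t - √s) := by positivity
  have hd : ‖(t - s) • bar v‖ ≤ (t - s) * ‖v‖ := by
    rw [norm_smul, Real.norm_of_nonneg (by linarith)]
    gcongr
  by_cases hlong : 1 / 100 ≤ (t - s) * ‖v‖
  · have h1 := abs_yfr_le hY t (x + (t - s) • bar v)
    have h2 := abs_yfr_le hY s x
    have h3 : |v 1 - yfr P t (x + (t - s) • bar v)| ≤ |v 1 - yfr P s x| + 4 * P.Y := by
      have e : v 1 - yfr P t (x + (t - s) • bar v) = (v 1 - yfr P s x) + yfr P s x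
        - yfr P t (x + (t - s) • bar v) := by ring
      rw [e]
      refine (abs_sub _ _).trans ?_
      have := abs_add_le (v 1 - yfr P s x) (yfr P s x)
      linarith
    have h4 : 4 * P.Y ≤ 800 * P.Y * (1 + P.kap) * (1 + ‖v‖) * (√t - √s) := by
      have h5 : (t - s) * ‖v‖ ≤ 2 * (√t - √s) * ‖v‖ := by gcongr
      have h6 : 1 ≤ 200 * (√t - √s) * ‖v‖ := by linarith
      calc 4 * P.Y = 4 * P.Y * 1 := by ring
        _ ≤ 4 * P.Y * (200 * (√t - √s) * ‖v‖) := by gcongr
        _ = 800 * P.Y * ‖v‖ * (√t - √s) := by ring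
        _ ≤ 800 * P.Y * ((1 + P.kap) * (1 + ‖v‖)) * (√t - √s) := by
            gcongr
            nlinarith [mul_nonneg hκ hv]
        _ = _ := by ring
    linarith
  · push Not at hlong
    by_cases hk : ∃ k, ‖x + latt k‖ < 31 / 100
    · obtain ⟨k, hk⟩ := hk
      have hk1 : ‖x + latt k‖ < 7 / 20 := by linarith
      have e : x + (t - s) • bar v + latt k = (x + latt k) + (t - s) • bar v := by abel
      have hk2 : ‖x + (t - s) • bar v + latt k‖ < 7 / 20 := by
        rw [e]
        have := norm_add_le (x + latt k) ((t - s) • bar v)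
        linarith
      rw [yfr_eq hk1, yfr_eq hk2, e]
      exact (fr_flight hY hκ hdl hs hst ht1 (x + latt k) (by linarith) v).trans (by linarith)
    · push Not at hk
      rw [yfr_eq_zero (t := s) fun k => by have := hk k; linarith, yfr_eq_zero (t := t) fun k => ?_]
      · linarith
      · have e : x + latt k = (x + (t - s) • bar v + latt k) - (t - s) • bar v := by abel
        have h1 := norm_sub_le (x + (t - s) • bar v + latt k) ((t - s) • bar v)
        rw [← e] at h1
        have := hk k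
        linarith

end Crest.Agent.R68.X1
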