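import Crest.Agent.R68.X2Gs

/-!
# Row 68, PART X2: `dual_GA` is in `X2Gs` (helper60); this file only re-exports it (helper211)
-/
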