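import Crest.Agent.R68.XFun
import Crest.Agent.R68.XDefs2
import Crest.Agent.R68.FSum
import Crest.Agent.R68.CNewt2
import Crest.Agent.R68.Carl4

/-!
# Row 68, PART X2 (helper485): integrated inequalities (`int_up`, `int_low`, `PW_eq_MW` of XIface)
-/

set_option autoImplicit false
open MeasureTheory Set Filter
open scoped ENNReal Real Topology
open Crest.AnalysisR.VecCalc3 Crest.AnalysisR.PDE.Boltzmann

noncomputable section

namespace Crest.Agent.R68.X2

open Crest.Agent.R68.L (Den Gf Dam TL sol)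
open Crest.Agent.R68.A (Meas3)
open Crest.Agent.R68.Fuel (measurable_ofReal_phi density_phi_le perG_phi)
open Crest.Agent.R68.C (phi_eq_zero_of_norm)
open Crest.Agent.R68.XWeak (Ok PerSF PerS TInv tinv_volume tinv_cell perS_latt_iff fw MM GaF srcF
  SolOn UpAt LowAt slice2 iter_plane iter_cell)

/-! ### the collision frequency of the fuel -/

theorem int_nu_le {P : Par} (h : P.Ok) {t : ℝ} (ht : 0 < t) (x : P2) (v : R3) :
    Lc (L.phiE P t x) v ≤ ENNReal.ofReal (2 * π * (P.Y + 5) *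
      ((4 + 3 * (P.Y + 2) * t) ^ 2 * (P.K / t))) * ENNReal.ofReal (1 + ‖v‖) := by
  have hY := h.Y0
  have hK := h.K0
  have hm : Measurable (L.phiE P t x) := by
    have := measurable_ofReal_phi h
    exact this.comp (f := fun u : R3 => ((t, x, u) : ℝ × P2 × R3)) (by fun_prop)
  rw [Lc_eq hm]
  have h1 : ∫⁻ vs, ENNReal.ofReal ‖v - vs‖ * L.phiE P t x vs ≤
      ∫⁻ vs, ENNReal.ofReal ((P.Y + 5) * (1 + ‖v‖)) * L.phiE P t x vs := by
    refine lintegral_mono fun vs => ?_
    by_cases hv : P.Y + 5 < ‖vs‖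
    · have : L.phiE P t x vs = 0 := by
        show ENNReal.ofReal (phi P t x vs) = 0
        rw [phi_eq_zero_of_norm h hv]
        simp
      simp [this]
    · refine mul_le_mul' (ENNReal.ofReal_le_ofReal ?_) le_rfl
      push Not at hv
      have h2 := norm_sub_le v vs
      nlinarith [norm_nonneg v, norm_nonneg vs]
  have h3 : ∫⁻ vs, L.phiE P t x vs ≤
      ENNReal.ofReal ((4 + 3 * (P.Y + 2) * t) ^ 2 * (P.K / t)) := by
    refine (density_phi_le h ht x).trans (ENNReal.ofReal_le_ofReal ?_)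
    have hκ := Fuel.Ok.kap0 h
    have h4 : P.K / (t * (1 + P.kap * t)) ≤ P.K / t := by
      refine div_le_div_of_nonneg_left hK ht ?_
      nlinarith [mul_nonneg hκ ht.le]
    gcongr
  calc ENNReal.ofReal (2 * π) * ∫⁻ vs, ENNReal.ofReal ‖v - vs‖ * L.phiE P t x vs
      ≤ ENNReal.ofReal (2 * π) * ∫⁻ vs, ENNReal.ofReal ((P.Y + 5) * (1 + ‖v‖)) * L.phiE P t x vs := by
        gcongr
    _ = ENNReal.ofReal (2 * π) * (ENNReal.ofReal ((P.Y + 5) * (1 + ‖v‖)) *
        ∫⁻ vs, L.phiE P t x vs) := by rw [lintegral_const_mul _ hm]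
    _ ≤ ENNReal.ofReal (2 * π) * (ENNReal.ofReal ((P.Y + 5) * (1 + ‖v‖)) *
        ENNReal.ofReal ((4 + 3 * (P.Y + 2) * t) ^ 2 * (P.K / t))) := by gcongr
    _ = _ := by
        rw [← ENNReal.ofReal_mul (by positivity), ← ENNReal.ofReal_mul (by positivity),
          ← ENNReal.ofReal_mul (by positivity)]
        congr 1
        ring

/-- uniform bound of the collision frequency on `[τ, t0]` -/
theorem int_nu_bound {P : Par} (h : P.Ok) {τ : ℝ} (hτ : 0 < τ) (t0 : ℝ) : ∃ Cn : ℝ≥0∞, Cn ≠ ⊤ ∧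
    ∀ t, τ ≤ t → t ≤ t0 → ∀ x v, Lc (L.phiE P t x) v ≤ Cn * ENNReal.ofReal (1 + ‖v‖) := by
  refine ⟨ENNReal.ofReal (2 * π * (P.Y + 5) * ((4 + 3 * (P.Y + 2) * t0) ^ 2 * (P.K / τ))),
    ENNReal.ofReal_ne_top, fun t h1 h2 x v => ?_⟩
  have ht : 0 < t := hτ.trans_le h1
  have hY := h.Y0
  have hK := h.K0
  refine (int_nu_le h ht x v).trans ?_
  refine mul_le_mul' (ENNReal.ofReal_le_ofReal ?_) le_rfl
  gcongr

theorem int_meas3_phiE {P : Par} (h : P.Ok) : Meas3 (L.phiE P) := measurable_ofReal_phi h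

theorem int_per_phiE (P : Par) (t : ℝ) (v : R3) : PerG fun x => L.phiE P t x v := by
  intro x k
  have := perG_phi P t v x k
  dsimp only at this ⊢
  unfold L.phiE
  rw [this]

/-- periodic fields are `Ok` for the lattice -/
theorem int_okP {F : Den} (hF : Meas3 F) (pF : ∀ t v, PerG fun x => F t x v) : Ok (range latt) F :=
  ⟨hF, fun t v => perS_latt_iff.2 (pF t v)⟩

/-- all measurable fields are `Ok` for the plane -/
theorem int_okE {F : Den} (hF : Meas3 F) : Ok ∅ F := ⟨hF, fun _ _ _ ha => ha.elim⟩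

/-- finiteness of the accumulated frequency along flights -/
theorem int_nu_flight {P : Par} (h : P.Ok) {τ s t t0 : ℝ} (hτ : 0 < τ) (hs : τ ≤ s) (ht : t ≤ t0)
    (x : P2) (v : R3) : ND.O1 (fw (N.LcF (L.phiE P)) s x v) s t ≠ ⊤ := by
  obtain ⟨Cn, hCn, hb⟩ := int_nu_bound h hτ t0
  have h1 : ND.O1 (fw (N.LcF (L.phiE P)) s x v) s t ≤
      ∫⁻ _ in Ioo s t, Cn * ENNReal.ofReal (1 + ‖v‖) := by
    unfold ND.O1
    refine setLIntegral_mono_ae' measurableSet_Ioo (Eventually.of_forall fun r hr => ?_)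
    exact hb r (hs.trans hr.1.le) (hr.2.le.trans ht) _ _
  refine ne_top_of_le_ne_top ?_ h1
  rw [setLIntegral_const]
  refine ENNReal.mul_ne_top (ENNReal.mul_ne_top hCn ENNReal.ofReal_ne_top) ?_
  simp

/-! ### comparison of notations -/

theorem int_GA_eq {φ g : Den} (hg : Meas3 g) : GA φ g = GaF φ g := by
  funext t x v
  show ∫⁻ u, φ t x u * gsE (g t x) v u = ∫⁻ vs, ∫⁻ w, D.kB v vs w * φ t x vs *
    (g t x (postVel v vs w) + g t x (postVelStar v vs w)) ∂sphereMeasure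
  refine lintegral_congr fun u => ?_
  have hgm : Measurable (g t x) := hg.slice t x
  have hm : Measurable fun w : R3 => ENNReal.ofReal |(inner ℝ (v - u) w : ℝ)| *
      (g t x (postVel v u w) + g t x (postVelStar v u w)) := by
    refine Measurable.mul (by fun_prop) (Measurable.add ?_ ?_)
    · exact hgm.comp (A.measurable_postVel (by fun_prop) (by fun_prop) (by fun_prop))
    · exact hgm.comp (A.measurable_postVelStar (by fun_prop) (by fun_prop) (by fun_prop))
  unfold gsE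
  rw [← lintegral_const_mul _ hm]
  refine lintegral_congr fun w => ?_
  unfold D.kB
  ring

theorem int_MW_eq_mm {W h : Den} (hW : Meas3 W) (hh : Meas3 h) (t : ℝ) :
    MW W h t = XWeak.mm ((volume : Measure P2).restrict cellG) W h t := by
  unfold MW XWeak.mm
  rw [iter_cell (F := fun x v => W t x v * h t x v) ((slice2 hW t).mul (slice2 hh t))]

theorem int_PW_eq_mm {W h : Den} (hW : Meas3 W) (hh : Meas3 h) (t : ℝ) :
    PW W h t = XWeak.mm (volume : Measure P2) W h t := by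
  unfold PW XWeak.mm
  rw [iter_plane (F := fun x v => W t x v * h t x v) ((slice2 hW t).mul (slice2 hh t))]

/-! ### hypotheses on a seed -/

theorem SeedH.solOn {P : Par} {g1 g2 τ t0 : ℝ} {σ H : Den} (h : SeedH P g1 g2 τ t0 σ H)
    (m : Measure P2) {a t : ℝ} (ha : 0 < a) (ht : t ≤ t0) : SolOn m (L.phiE P) σ H a t := by
  intro r hr
  exact Eventually.of_forall fun p => h.eqn r (ha.trans_le hr.1) (hr.2.trans ht) _ _

/-- UPPER, integrated; `W = OmE`, `Ψ = psiP`, `k = kap1 + kap2` -/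
theorem int_up {P : Par} (hP : P.Ok) {g1 g2 τ t0 : ℝ} (hτ : 0 < τ) {σ H : Den}
    (h : SeedH P g1 g2 τ t0 σ H) {W Ψ k : Den} (mW : Meas3 W) (mΨ : Meas3 Ψ) (mk : Meas3 k)
    (pW : ∀ t v, PerG (fun x => W t x v)) (pΨ : ∀ t v, PerG (fun x => Ψ t x v))
    (pk : ∀ t v, PerG (fun x => k t x v)) {a C : ℝ} (ha : 0 ≤ a) (hC : 0 ≤ C)
    (hfin : ∃ B : ℝ≥0∞, B ≠ ⊤ ∧ ∀ t, 0 < t → t ≤ t0 →
      MW (fun t x v => ENNReal.ofReal (1 + ‖v‖) * W t x v) (B2 P g1 g2 0) t ≤ B)
    (hkb : ∀ t, τ / 2 ≤ t → t ≤ t0 → ∀ x v, k t x v ≤ ENNReal.ofReal (C / τ ^ 3) * W t x v)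
    (hpw : ∀ t, 0 < t → t ≤ t0 → ∀ x v, GA (L.phiE P) W t x v ≤ Lc (L.phiE P t x) v * W t x v + k t x v
      + ENNReal.ofReal (a / t + C) * W t x v + ENNReal.ofReal C * GA (L.phiE P) Ψ t x v)
    (hfl : ∀ s r : ℝ, 0 < s → s ≤ r → r ≤ t0 → ∀ (x : P2) (v : R3),
      W r (x + (r - s) • bar v) v + ∫⁻ ρ in Ioo s r, k ρ (x + (ρ - s) • bar v) v
      ≤ W s x v + ∫⁻ ρ in Ioo s r, ENNReal.ofReal C * W ρ (x + (ρ - s) • bar v) v) :
    ∀ s t, τ ≤ s → s ≤ t → t ≤ t0 → MW W H t ≤ MW W H s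
      + ∫⁻ r in Ioo s t, (ENNReal.ofReal (a / r + 2 * C) * MW W H r
        + ENNReal.ofReal C * MW (GA (L.phiE P) Ψ) H r + MW W σ r) := by
  intro s t hs hst ht
  rcases hst.eq_or_lt with rfl | hlt
  · exact le_self_add
  have hs0 : 0 < s := hτ.trans_le hs
  set m : Measure P2 := (volume : Measure P2).restrict cellG with hmdef
  have mφ := int_meas3_phiE hP
  have Yφ : Ok (range latt) (L.phiE P) := int_okP mφ (int_per_phiE P)
  have YH : Ok (range latt) H := int_okP h.mH h.pH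
  have Yσ : Ok (range latt) σ := int_okP h.ms h.ps
  have YW : Ok (range latt) W := int_okP mW pW
  have YΨ : Ok (range latt) Ψ := int_okP mΨ pΨ
  have Yk : Ok (range latt) k := int_okP mk pk
  have Yc : ∀ f : ℝ → ℝ≥0∞, Measurable f → Ok (range latt) (fun t _ _ => f t : Den) := by
    intro f hf
    refine ⟨?_, fun _ _ _ _ _ => rfl⟩
    exact hf.comp (g := f) (f := fun p : ℝ × P2 × R3 => p.1) measurable_fst
  have Ye : Ok (range latt) (fun t x v => ENNReal.ofReal C * W t x v) :=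
    (Yc (fun _ => ENNReal.ofReal C) measurable_const).mul YW
  have YGA := Yφ.GaF YΨ
  have YGW := Yφ.GaF YW
  have YB1 : Ok (range latt) (fun r x v => ENNReal.ofReal (a / r + 2 * C) * W r x v) :=
    (Yc (fun r => ENNReal.ofReal (a / r + 2 * C)) (by fun_prop)).mul YW
  have YB2' : Ok (range latt) (fun r x v => ENNReal.ofReal C * GaF (L.phiE P) Ψ r x v) :=
    (Yc (fun _ => ENNReal.ofReal C) measurable_const).mul YGA
  have YB2 := YB1.add YB2'
  have Yν := Yφ.LcF
  -- finiteness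
  obtain ⟨Cn, hCn, hnu⟩ := int_nu_bound hP hτ t0
  obtain ⟨A, hA, hHA⟩ := h.bdd
  obtain ⟨B, hB, hMB⟩ := hfin
  have hfinite : ∀ {w : Den} (c : ℝ≥0∞), c ≠ ⊤ → (∀ r, s ≤ r → r ≤ t → ∀ x v, w r x v ≤ c *
      (ENNReal.ofReal (1 + ‖v‖) * W r x v)) → MM m w H s t ≠ ⊤ := by
    intro w c hc hw
    have h1 : MM m w H s t ≤ ∫⁻ _ in Ioo s t, c * A * B := by
      unfold MM
      refine setLIntegral_mono_ae' measurableSet_Ioo (Eventually.of_forall fun r hr => ?_)
      have h2 := hMB r (hs0.trans hr.1) (hr.2.le.trans ht)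
      calc XWeak.mm m w H r ≤ ∫⁻ p, (c * (ENNReal.ofReal (1 + ‖p.2‖) * W r p.1 p.2)) *
            (A * B2 P g1 g2 0 r p.1 p.2) ∂(m.prod (volume : Measure R3)) := by
            unfold XWeak.mm
            refine lintegral_mono fun p => ?_
            exact mul_le_mul' (hw r hr.1.le hr.2.le _ _) (hHA r (hs0.trans hr.1) (hr.2.le.trans ht) _ _)
        _ = c * A * ∫⁻ p, (ENNReal.ofReal (1 + ‖p.2‖) * W r p.1 p.2) *
            B2 P g1 g2 0 r p.1 p.2 ∂(m.prod (volume : Measure R3)) := by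
            rw [← lintegral_const_mul' _ _ (ENNReal.mul_ne_top hc hA)]
            refine lintegral_congr fun p => ?_
            ring
        _ ≤ c * A * MW (fun t x v => ENNReal.ofReal (1 + ‖v‖) * W t x v) (B2 P g1 g2 0) r := by
            gcongr
            unfold MW
            exact lintegral_prod_le _
        _ ≤ c * A * B := by gcongr
    refine ne_top_of_le_ne_top ?_ h1
    rw [setLIntegral_const]
    refine ENNReal.mul_ne_top (ENNReal.mul_ne_top (ENNReal.mul_ne_top hc hA) hB) ?_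
    simp
  have hone : ∀ v : R3, (1 : ℝ≥0∞) ≤ ENNReal.ofReal (1 + ‖v‖) := fun v => by
    rw [ENNReal.one_le_ofReal]
    linarith [norm_nonneg v]
  have hf1 : MM m (fun t x v => N.LcF (L.phiE P) t x v * W t x v) H s t ≠ ⊤ := by
    refine hfinite Cn hCn fun r h1 h2 x v => ?_
    calc N.LcF (L.phiE P) r x v * W r x v ≤ (Cn * ENNReal.ofReal (1 + ‖v‖)) * W r x v :=
          mul_le_mul' (hnu r (hs.trans h1) (h2.trans ht) x v) le_rfl
      _ = _ := by ring
  have hf2 : MM m k H s t ≠ ⊤ := by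
    refine hfinite (ENNReal.ofReal (C / τ ^ 3)) ENNReal.ofReal_ne_top fun r h1 h2 x v => ?_
    calc k r x v ≤ ENNReal.ofReal (C / τ ^ 3) * W r x v :=
          hkb r (by linarith) (h2.trans ht) x v
      _ = ENNReal.ofReal (C / τ ^ 3) * (1 * W r x v) := by rw [one_mul]
      _ ≤ _ := by gcongr; exact hone v
  have hup : ∀ s' ∈ Ico s t, ∀ x v, UpAt (N.LcF (L.phiE P)) W
      (fun t x v => ENNReal.ofReal C * W t x v) k t s' x v := by
    intro s' hs' x v
    refine ⟨int_nu_flight hP hτ (hs.trans hs'.1) ht x v, fun r hr => ?_⟩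
    have := hfl s' r (hs0.trans_le hs'.1) hr.1 (hr.2.trans ht) x v
    unfold ND.O1 fw
    exact this
  have key := XWeak.up_fun (m := m) (S := range latt) (g := W)
    (e := fun t x v => ENNReal.ofReal C * W t x v) (k := k) (B1 := fun _ _ _ => 0)
    (B2 := fun r x v => ENNReal.ofReal (a / r + 2 * C) * W r x v +
      ENNReal.ofReal C * GaF (L.phiE P) Ψ r x v) tinv_cell Yφ YH Yσ YW Ye Yk XWeak.ok_zero YB2
    hs0.le hlt (h.solOn m hs0 ht)
    (Eventually.of_forall fun p _ => hup s ⟨le_rfl, hlt⟩ _ _)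
    (by
      filter_upwards [ae_restrict_mem measurableSet_Ioo] with s' hs'
      exact Eventually.of_forall fun p _ => hup s' ⟨hs'.1.le, hs'.2⟩ _ _)
    (by
      intro r hr
      refine Eventually.of_forall fun p _ => ?_
      have h1 := hpw r (hs0.trans hr.1) (hr.2.le.trans ht) p.1 p.2
      rw [int_GA_eq mW, int_GA_eq mΨ] at h1
      rw [zero_add]
      have hr0 : 0 < r := hs0.trans hr.1
      have h2 : ENNReal.ofReal (a / r + 2 * C) =
          ENNReal.ofReal (a / r + C) + ENNReal.ofReal C := by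
        rw [← ENNReal.ofReal_add (by positivity) hC]
        congr 1
        ring
      calc ENNReal.ofReal C * W r p.1 p.2 + GaF (L.phiE P) W r p.1 p.2
          ≤ ENNReal.ofReal C * W r p.1 p.2 + (Lc (L.phiE P r p.1) p.2 * W r p.1 p.2 + k r p.1 p.2
            + ENNReal.ofReal (a / r + C) * W r p.1 p.2 +
              ENNReal.ofReal C * GaF (L.phiE P) Ψ r p.1 p.2) := by gcongr
        _ = _ := by
            rw [h2]
            simp only [N.LcF]
            ring)
    (Or.inl (ENNReal.add_ne_top.2 ⟨hf1, hf2⟩))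
  rw [XWeak.MM_zero, add_zero] at key
  rw [int_MW_eq_mm mW h.mH, int_MW_eq_mm mW h.mH]
  refine key.trans (le_of_eq ?_)
  rw [add_assoc]
  congr 1
  rw [XWeak.MM_add_left YB1.m h.mH]
  have m1 := XWeak.measurable_mm (m := m) YB1.m h.mH
  have m2 := XWeak.measurable_mm (m := m) YB2'.m h.mH
  have m3 := XWeak.measurable_mm (m := m) mW h.ms
  unfold MM
  rw [← lintegral_add_left m1, ← lintegral_add_left m3]
  refine lintegral_congr fun r => ?_
  rw [int_MW_eq_mm mW h.mH, int_MW_eq_mm mW h.ms, int_GA_eq mΨ, int_MW_eq_mm YGA.m h.mH]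
  have e1 : XWeak.mm m (fun r x v => ENNReal.ofReal (a / r + 2 * C) * W r x v) H r =
      ENNReal.ofReal (a / r + 2 * C) * XWeak.mm m W H r := by
    unfold XWeak.mm
    rw [← lintegral_const_mul' _ _ ENNReal.ofReal_ne_top]
    refine lintegral_congr fun p => ?_
    ring
  have e2 : XWeak.mm m (fun r x v => ENNReal.ofReal C * GaF (L.phiE P) Ψ r x v) H r =
      ENNReal.ofReal C * XWeak.mm m (GaF (L.phiE P) Ψ) H r := by
    unfold XWeak.mm
    rw [← lintegral_const_mul' _ _ ENNReal.ofReal_ne_top]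
    refine lintegral_congr fun p => ?_
    ring
  rw [e1, e2]
  ring

/-- LOWER, integrated; `g = ofReal gL`, `Ψ = psiE` (not periodised), `kp`, `em` = negative and
positive part of `Lg`, `R` = error term -/
theorem int_low {P : Par} (hP : P.Ok) {g1 g2 τ t0 : ℝ} (hτ : 0 < τ) {σ H : Den}
    (h : SeedH P g1 g2 τ t0 σ H) {g Ψ kp em R : Den} (mg : Meas3 g) (mΨ : Meas3 Ψ) (mk : Meas3 kp)
    (me : Meas3 em) (mR : Meas3 R) {a d1 : ℝ} (_ha : 0 ≤ a) (_hd1 : 0 < d1) {Z : ℝ}
    (hsupp : ∀ t, 0 < t → t ≤ t0 → ∀ x v, ‖x‖ > Z * t → g t x v = 0 ∧ kp t x v = 0 ∧ em t x v = 0)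
    (hb : ∃ B : ℝ≥0∞, B ≠ ⊤ ∧ ∀ t, τ / 2 ≤ t → t ≤ t0 → ∀ x v, g t x v ≤ B ∧ kp t x v ≤ B ∧ em t x v ≤ B)
    (hfin : ∃ B : ℝ≥0∞, B ≠ ⊤ ∧ ∀ t, 0 < t → t ≤ t0 →
      ∫⁻ x in {x : P2 | ‖x‖ ≤ Z * t}, ∫⁻ v, ENNReal.ofReal (1 + ‖v‖) * B2 P g1 g2 0 t x v ≤ B)
    (hpw : ∀ t, 0 < t → t ≤ t0 → ∀ x v, kp t x v + Lc (L.phiE P t x) v * g t x v
      + ENNReal.ofReal (a / t) * Ψ t x v + ENNReal.ofReal d1 * GA (L.phiE P) Ψ t x v
      ≤ em t x v + GA (L.phiE P) g t x v + R t x v)
    (hfl : ∀ s r : ℝ, 0 < s → s ≤ r → r ≤ t0 → ∀ (x : P2) (v : R3),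
      g s x v + ∫⁻ ρ in Ioo s r, em ρ (x + (ρ - s) • bar v) v
      ≤ g r (x + (r - s) • bar v) v + ∫⁻ ρ in Ioo s r, kp ρ (x + (ρ - s) • bar v) v) :
    ∀ s t, τ ≤ s → s ≤ t → t ≤ t0 → PW g H s
      + ∫⁻ r in Ioo s t, (ENNReal.ofReal (a / r) * PW Ψ H r
        + ENNReal.ofReal d1 * PW (GA (L.phiE P) Ψ) H r + PW g σ r)
      ≤ PW g H t + ∫⁻ r in Ioo s t, PW R H r := by
  intro s t hs hst ht
  rcases hst.eq_or_lt with rfl | hlt
  · simp
  have hs0 : 0 < s := hτ.trans_le hs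
  set m : Measure P2 := (volume : Measure P2) with hmdef
  have mφ := int_meas3_phiE hP
  have Yφ : Ok ∅ (L.phiE P) := int_okE mφ
  have YH : Ok ∅ H := int_okE h.mH
  have Yσ : Ok ∅ σ := int_okE h.ms
  have Yg : Ok ∅ g := int_okE mg
  have YΨ : Ok ∅ Ψ := int_okE mΨ
  have Yk : Ok ∅ kp := int_okE mk
  have Ye : Ok ∅ em := int_okE me
  have YR : Ok ∅ R := int_okE mR
  have Yc : ∀ f : ℝ → ℝ≥0∞, Measurable f → Ok ∅ (fun t _ _ => f t : Den) := by
    intro f hf
    refine ⟨?_, fun _ _ _ _ _ => rfl⟩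
    exact hf.comp (g := f) (f := fun p : ℝ × P2 × R3 => p.1) measurable_fst
  have YGA := Yφ.GaF YΨ
  have YGg := Yφ.GaF Yg
  have YB1a : Ok ∅ (fun r x v => ENNReal.ofReal (a / r) * Ψ r x v) :=
    (Yc (fun r => ENNReal.ofReal (a / r)) (by fun_prop)).mul YΨ
  have YB1b : Ok ∅ (fun r x v => ENNReal.ofReal d1 * GaF (L.phiE P) Ψ r x v) :=
    (Yc (fun _ => ENNReal.ofReal d1) measurable_const).mul YGA
  have YB1 := YB1a.add YB1b
  -- finiteness
  obtain ⟨Cn, hCn, hnu⟩ := int_nu_bound hP hτ t0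
  obtain ⟨A, hA, hHA⟩ := h.bdd
  obtain ⟨Bg, hBg, hbg⟩ := hb
  obtain ⟨B, hB, hMB⟩ := hfin
  have hfinite : ∀ {w : Den} (c : ℝ≥0∞), c ≠ ⊤ → (∀ r, s ≤ r → r ≤ t → ∀ x v, w r x v ≤
      {x : P2 | ‖x‖ ≤ Z * r}.indicator (fun _ => c * ENNReal.ofReal (1 + ‖v‖)) x) →
      MM m w H s t ≠ ⊤ := by
    intro w c hc hw
    have h1 : MM m w H s t ≤ ∫⁻ _ in Ioo s t, c * A * B := by
      unfold MM
      refine setLIntegral_mono_ae' measurableSet_Ioo (Eventually.of_forall fun r hr => ?_)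
      have h2 := hMB r (hs0.trans hr.1) (hr.2.le.trans ht)
      have hS : MeasurableSet {x : P2 | ‖x‖ ≤ Z * r} :=
        measurableSet_le (by fun_prop) measurable_const
      calc XWeak.mm m w H r ≤ ∫⁻ p, ({x : P2 | ‖x‖ ≤ Z * r}.indicator
              (fun _ => c * ENNReal.ofReal (1 + ‖p.2‖)) p.1) *
            (A * B2 P g1 g2 0 r p.1 p.2) ∂(m.prod (volume : Measure R3)) := by
            unfold XWeak.mm
            refine lintegral_mono fun p => ?_
            exact mul_le_mul' (hw r hr.1.le hr.2.le _ _) (hHA r (hs0.trans hr.1) (hr.2.le.trans ht) _ _)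
        _ ≤ ∫⁻ x, ∫⁻ v, ({x : P2 | ‖x‖ ≤ Z * r}.indicator
              (fun _ => c * ENNReal.ofReal (1 + ‖v‖)) x) * (A * B2 P g1 g2 0 r x v) :=
            lintegral_prod_le _
        _ = ∫⁻ x, {x : P2 | ‖x‖ ≤ Z * r}.indicator (fun x => c * A *
              ∫⁻ v, ENNReal.ofReal (1 + ‖v‖) * B2 P g1 g2 0 r x v) x := by
            refine lintegral_congr fun x => ?_
            by_cases hx : x ∈ {x : P2 | ‖x‖ ≤ Z * r}
            · simp only [indicator_of_mem hx]
              rw [← lintegral_const_mul' _ _ (ENNReal.mul_ne_top hc hA)]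
              refine lintegral_congr fun v => ?_
              ring
            · simp only [indicator_of_notMem hx, zero_mul, lintegral_zero]
        _ = c * A * ∫⁻ x in {x : P2 | ‖x‖ ≤ Z * r},
              ∫⁻ v, ENNReal.ofReal (1 + ‖v‖) * B2 P g1 g2 0 r x v := by
            rw [lintegral_indicator hS, lintegral_const_mul' _ _ (ENNReal.mul_ne_top hc hA)]
        _ ≤ c * A * B := by gcongr
    refine ne_top_of_le_ne_top ?_ h1
    rw [setLIntegral_const]
    refine ENNReal.mul_ne_top (ENNReal.mul_ne_top (ENNReal.mul_ne_top hc hA) hB) ?_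
    simp
  have hone : ∀ v : R3, (1 : ℝ≥0∞) ≤ ENNReal.ofReal (1 + ‖v‖) := fun v => by
    rw [ENNReal.one_le_ofReal]
    linarith [norm_nonneg v]
  have hf1 : MM m (fun t x v => N.LcF (L.phiE P) t x v * g t x v) H s t ≠ ⊤ := by
    refine hfinite (Cn * Bg) (ENNReal.mul_ne_top hCn hBg) fun r h1 h2 x v => ?_
    by_cases hx : ‖x‖ ≤ Z * r
    · rw [indicator_of_mem (show x ∈ {x : P2 | ‖x‖ ≤ Z * r} from hx)]
      calc N.LcF (L.phiE P) r x v * g r x v ≤ (Cn * ENNReal.ofReal (1 + ‖v‖)) * Bg :=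
            mul_le_mul' (hnu r (hs.trans h1) (h2.trans ht) x v)
              (hbg r (by linarith) (h2.trans ht) x v).1
        _ = _ := by ring
    · rw [(hsupp r (hs0.trans_le h1) (h2.trans ht) x v (not_le.1 hx)).1, mul_zero]
      exact zero_le
  have hf2 : MM m kp H s t ≠ ⊤ := by
    refine hfinite Bg hBg fun r h1 h2 x v => ?_
    by_cases hx : ‖x‖ ≤ Z * r
    · rw [indicator_of_mem (show x ∈ {x : P2 | ‖x‖ ≤ Z * r} from hx)]
      calc kp r x v ≤ Bg := (hbg r (by linarith) (h2.trans ht) x v).2.1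
        _ = Bg * 1 := by rw [mul_one]
        _ ≤ _ := by gcongr; exact hone v
    · rw [(hsupp r (hs0.trans_le h1) (h2.trans ht) x v (not_le.1 hx)).2.1]
      exact zero_le
  have hlow : ∀ s' ∈ Ico s t, ∀ x v, LowAt (N.LcF (L.phiE P)) g em kp t s' x v := by
    intro s' hs' x v
    refine ⟨int_nu_flight hP hτ (hs.trans hs'.1) ht x v, fun r hr => ?_⟩
    have := hfl s' r (hs0.trans_le hs'.1) hr.1 (hr.2.trans ht) x v
    unfold ND.O1 fw
    exact this
  have key := XWeak.low_fun (m := m) (S := ∅) (g := g)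
    (e := em) (k := kp) (B1 := fun r x v => ENNReal.ofReal (a / r) * Ψ r x v +
      ENNReal.ofReal d1 * GaF (L.phiE P) Ψ r x v)
    (B2 := R) (tinv_volume ∅) Yφ YH Yσ Yg Ye Yk YB1 YR
    hs0.le hlt (h.solOn m hs0 ht)
    (Eventually.of_forall fun p _ => hlow s ⟨le_rfl, hlt⟩ _ _)
    (by
      filter_upwards [ae_restrict_mem measurableSet_Ioo] with s' hs'
      exact Eventually.of_forall fun p _ => hlow s' ⟨hs'.1.le, hs'.2⟩ _ _)
    (by
      intro r hr
      refine Eventually.of_forall fun p _ => ?_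
      have h1 := hpw r (hs0.trans hr.1) (hr.2.le.trans ht) p.1 p.2
      rw [int_GA_eq mg, int_GA_eq mΨ] at h1
      simp only [N.LcF]
      refine le_trans (le_of_eq ?_) (h1.trans (le_of_eq ?_))
      · ring
      · ring)
    (Or.inl (ENNReal.add_ne_top.2 ⟨hf1, hf2⟩))
  rw [int_PW_eq_mm mg h.mH, int_PW_eq_mm mg h.mH]
  refine le_trans (le_of_eq ?_) (key.trans (le_of_eq ?_))
  · rw [add_assoc]
    congr 1
    rw [XWeak.MM_add_left YB1a.m h.mH]
    have m1 := XWeak.measurable_mm (m := m) YB1a.m h.mH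
    have m3 := XWeak.measurable_mm (m := m) mg h.ms
    unfold MM
    rw [← lintegral_add_left m1, ← lintegral_add_left m3]
    refine lintegral_congr fun r => ?_
    rw [int_PW_eq_mm mΨ h.mH, int_PW_eq_mm mg h.ms, int_GA_eq mΨ, int_PW_eq_mm YGA.m h.mH]
    have e1 : XWeak.mm m (fun r x v => ENNReal.ofReal (a / r) * Ψ r x v) H r =
        ENNReal.ofReal (a / r) * XWeak.mm m Ψ H r := by
      unfold XWeak.mm
      rw [← lintegral_const_mul' _ _ ENNReal.ofReal_ne_top]
      refine lintegral_congr fun p => ?_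
      ring
    have e2 : XWeak.mm m (fun r x v => ENNReal.ofReal d1 * GaF (L.phiE P) Ψ r x v) H r =
        ENNReal.ofReal d1 * XWeak.mm m (GaF (L.phiE P) Ψ) H r := by
      unfold XWeak.mm
      rw [← lintegral_const_mul' _ _ ENNReal.ofReal_ne_top]
      refine lintegral_congr fun p => ?_
      ring
    rw [e1, e2]
    ring
  · congr 1
    unfold MM
    refine lintegral_congr fun r => ?_
    rw [int_PW_eq_mm mR h.mH]

/-! ### periodisation -/

theorem int_measurable_f0 (X : XP) : Measurable fun p : P2 × R3 => f0 X p.1 p.2 := by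
  unfold f0 tentp tent fr cutB lamd
  fun_prop

theorem int_meas3_psiE (X : XP) : Meas3 (psiE X) := by
  unfold A.Meas3 psiE psi0
  refine ENNReal.measurable_ofReal.comp ?_
  exact (int_measurable_f0 X).comp (f := fun p : ℝ × P2 × R3 => (p.1⁻¹ • p.2.1, p.2.2)) (by fun_prop)

theorem int_meas3_psiP (X : XP) : Meas3 (psiP X) := by
  unfold A.Meas3 psiP
  refine Measurable.tsum fun k => ?_
  exact (int_meas3_psiE X).comp (f := fun p : ℝ × P2 × R3 => p.1)
    (g := fun p : ℝ × P2 × R3 => p.2.1 + latt k) (h := fun p : ℝ × P2 × R3 => p.2.2)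
    (by fun_prop) (by fun_prop) (by fun_prop)

theorem int_gsE_tsum (ψ : ℤ × ℤ → R3 → ℝ≥0∞) (hψ : ∀ k, Measurable (ψ k)) (v u : R3) :
    gsE (fun w => ∑' k, ψ k w) v u = ∑' k, gsE (ψ k) v u := by
  have hm : ∀ k, Measurable fun w : R3 => ENNReal.ofReal |(inner ℝ (v - u) w : ℝ)| *
      (ψ k (postVel v u w) + ψ k (postVelStar v u w)) := by
    intro k
    refine Measurable.mul (by fun_prop) (Measurable.add ?_ ?_)
    · exact (hψ k).comp (A.measurable_postVel (by fun_prop) (by fun_prop) (by fun_prop))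
    · exact (hψ k).comp (A.measurable_postVelStar (by fun_prop) (by fun_prop) (by fun_prop))
  unfold gsE
  rw [← lintegral_tsum fun k => (hm k).aemeasurable]
  refine lintegral_congr fun w => ?_
  rw [← ENNReal.tsum_add, ENNReal.tsum_mul_left]

theorem int_GA_psiP {P : Par} (hP : P.Ok) (X : XP) (t : ℝ) (x : P2) (v : R3) :
    GA (L.phiE P) (psiP X) t x v = ∑' k : ℤ × ℤ, GA (L.phiE P) (psiE X) t (x + latt k) v := by
  have hψ : ∀ k : ℤ × ℤ, Measurable (psiE X t (x + latt k)) := fun k => (int_meas3_psiE X).slice t _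
  have hg : ∀ k : ℤ × ℤ, Measurable fun u : R3 => gsE (psiE X t (x + latt k)) v u := by
    intro k
    unfold gsE
    have h0 : Measurable fun z : R3 × R3 => ENNReal.ofReal |(inner ℝ (v - z.1) z.2 : ℝ)| := by
      fun_prop
    have h1 : Measurable fun z : R3 × R3 => psiE X t (x + latt k) (postVel v z.1 z.2) :=
      (hψ k).comp (A.measurable_postVel measurable_const measurable_fst measurable_snd)
    have h2 : Measurable fun z : R3 × R3 => psiE X t (x + latt k) (postVelStar v z.1 z.2) :=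
      (hψ k).comp (A.measurable_postVelStar measurable_const measurable_fst measurable_snd)
    exact Measurable.lintegral_prod_right' (f := fun z : R3 × R3 =>
      ENNReal.ofReal |(inner ℝ (v - z.1) z.2 : ℝ)| *
        (psiE X t (x + latt k) (postVel v z.1 z.2) +
          psiE X t (x + latt k) (postVelStar v z.1 z.2))) (h0.mul (h1.add h2))
  have hφ : Measurable (L.phiE P t x) := (int_meas3_phiE hP).slice t x
  have hm : ∀ k : ℤ × ℤ, Measurable fun u : R3 =>
      L.phiE P t x u * gsE (psiE X t (x + latt k)) v u := fun k => hφ.mul (hg k)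
  calc GA (L.phiE P) (psiP X) t x v
      = ∫⁻ u, ∑' k : ℤ × ℤ, L.phiE P t x u * gsE (psiE X t (x + latt k)) v u := by
        unfold GA
        refine lintegral_congr fun u => ?_
        rw [ENNReal.tsum_mul_left, ← int_gsE_tsum _ hψ]
        rfl
    _ = ∑' k : ℤ × ℤ, ∫⁻ u, L.phiE P t x u * gsE (psiE X t (x + latt k)) v u :=
        lintegral_tsum fun k => (hm k).aemeasurable
    _ = _ := by
        refine tsum_congr fun k => ?_
        unfold GA
        refine lintegral_congr fun u => ?_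
        have := int_per_phiE P t u x k
        dsimp only at this
        rw [this]

/-- periodisation -/
theorem PW_eq_MW {P : Par} (hP : P.Ok) {X : XP} {H : Den} (mH : Meas3 H)
    (pH : ∀ t v, PerG (fun x => H t x v)) (t : ℝ) :
    PW (GA (L.phiE P) (psiE X)) H t = MW (GA (L.phiE P) (psiP X)) H t := by
  have YGA : Ok ∅ (GaF (L.phiE P) (psiE X)) := (int_okE (int_meas3_phiE hP)).GaF (int_okE (int_meas3_psiE X))
  have mG : Meas3 (GA (L.phiE P) (psiE X)) := by
    rw [int_GA_eq (int_meas3_psiE X)]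
    exact YGA.m
  have hgm : Measurable fun q : P2 × R3 => GA (L.phiE P) (psiE X) t q.1 q.2 * H t q.1 q.2 :=
    (slice2 mG t).mul (slice2 mH t)
  have hg : Measurable fun x : P2 => ∫⁻ v, GA (L.phiE P) (psiE X) t x v * H t x v :=
    Measurable.lintegral_prod_right' (f := fun q : P2 × R3 =>
      GA (L.phiE P) (psiE X) t q.1 q.2 * H t q.1 q.2) hgm
  have h1 := lintegral_cellG_tsum hg
  unfold PW MW
  rw [← h1]
  refine lintegral_congr fun x => ?_
  have hs : ∀ k : ℤ × ℤ, Measurable fun v : R3 =>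
      GA (L.phiE P) (psiE X) t (x + latt k) v * H t (x + latt k) v := fun k =>
    (mG.slice t (x + latt k)).mul (mH.slice t (x + latt k))
  rw [← lintegral_tsum fun k => (hs k).aemeasurable]
  refine lintegral_congr fun v => ?_
  rw [int_GA_psiP hP, ← ENNReal.tsum_mul_right]
  refine tsum_congr fun k => ?_
  have := pH t v x k
  dsimp only at this
  rw [this]

end Crest.Agent.R68.X2
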