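import Mathlib

/-!
# Row 68, PART X (helper810): the ratio (Harnack) lemma for two coupled differential inequalities
-/

set_option autoImplicit false
open MeasureTheory Set Filter
open scoped Topology

noncomputable section

namespace Crest.Agent.R68.X

/-- a primitive of an integrable function times `e^{-K}` is non-decreasing if `J' ≥ k J` -/
theorem ac_gronwall {a b : ℝ} {J j K k : ℝ → ℝ}
    (hj : IntervalIntegrable j volume a b) (hJ : ∀ t ∈ Icc a b, J t = J a + ∫ s in a..t, j s)
    (hK : ∀ s ∈ Icc a b, HasDerivAt K (k s) s) (hk : ContinuousOn k (Icc a b))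
    (hge : ∀ᵐ s, s ∈ Icc a b → k s * J s ≤ j s) {s t : ℝ} (hs : a ≤ s) (hst : s ≤ t)
    (ht : t ≤ b) : J s * Real.exp (-K s) ≤ J t * Real.exp (-K t) := by
  have hab : a ≤ b := hs.trans (hst.trans ht)
  set Y : ℝ → ℝ := fun s => J a + ∫ r in a..s, j r with hY
  set g : ℝ → ℝ := fun s => Real.exp (-K s) with hg
  have hac1 : AbsolutelyContinuousOnInterval Y a b := by
    have h1 := hj.absolutelyContinuousOnInterval_intervalIntegral (c := a) (by simp)
    have h2 : AbsolutelyContinuousOnInterval (fun _ : ℝ => J a) a b :=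
      (LipschitzOnWith.absolutelyContinuousOnInterval (K := 0)
        (LipschitzWith.const (J a)).lipschitzOnWith)
    exact h2.add h1
  have hgd : ∀ s ∈ Icc a b, HasDerivAt g (g s * (-k s)) s := by
    intro s hs
    exact (hK s hs).neg.exp
  have hgc : ContinuousOn g (Icc a b) := fun s hs => (hgd s hs).continuousAt.continuousWithinAt
  have hac2 : AbsolutelyContinuousOnInterval g a b := by
    obtain ⟨C, hC⟩ := isCompact_Icc.exists_bound_of_continuousOn (hgc.mul hk.neg)
    have h1 : LipschitzOnWith (Real.toNNReal C) g (Icc a b) := by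
      refine Convex.lipschitzOnWith_of_nnnorm_hasDerivWithin_le (convex_Icc a b)
        (fun s hs => (hgd s hs).hasDerivWithinAt) (fun s hs => ?_)
      rw [← NNReal.coe_le_coe, coe_nnnorm]
      exact (hC s hs).trans (Real.le_coe_toNNReal C)
    refine LipschitzOnWith.absolutelyContinuousOnInterval (K := Real.toNNReal C) ?_
    rwa [uIcc_of_le hab]
  have hac : AbsolutelyContinuousOnInterval (Y * g) s t :=
    (hac1.mul hac2).mono (by rw [uIcc_of_le hst, uIcc_of_le hab]; exact Icc_subset_Icc hs ht)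
  have h1 := hac.integral_deriv_eq_sub
  have h2 : 0 ≤ ∫ x in s..t, deriv (Y * g) x := by
    refine intervalIntegral.integral_nonneg_of_ae_restrict hst ?_
    have h3 : ∀ᵐ x, x ∈ Icc s t → 0 ≤ deriv (Y * g) x := by
      filter_upwards [hge, hj.ae_hasDerivAt_integral] with x hx1 hx2 hx3
      have hxI : x ∈ Icc a b := ⟨hs.trans hx3.1, hx3.2.trans ht⟩
      have h4 := hx2 (by rw [uIcc_of_le hab]; exact hxI) a (by rw [uIcc_of_le hab]; exact ⟨le_rfl, hab⟩)
      have h5 : HasDerivAt Y (j x) x := by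
        have := h4.const_add (J a)
        exact this
      have h6 := (h5.mul (hgd x hxI)).deriv
      rw [h6]
      have h7 : Y x = J x := (hJ x hxI).symm
      rw [h7]
      have h8 : 0 < g x := Real.exp_pos _
      have h9 := hx1 hxI
      nlinarith
    have h10 := ae_restrict_of_ae (s := Icc s t) h3
    filter_upwards [h10, ae_restrict_mem measurableSet_Icc] with x hx1 hx2
    exact hx1 hx2
  have h3 : Y s = J s := (hJ s ⟨hs, hst.trans ht⟩).symm
  have h4 : Y t = J t := (hJ t ⟨hs.trans hst, ht⟩).symm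
  rw [h1, Pi.mul_apply, Pi.mul_apply, h3, h4] at h2
  linarith

theorem rpow_deriv_aux {A B kap : ℝ} (hkap : 0 < kap) {s : ℝ} (hs : 0 < s) :
    HasDerivAt (fun s => A * Real.log s - B * (s ^ kap / kap)) (A / s - B * s ^ (kap - 1)) s := by
  have h1 := (Real.hasDerivAt_log hs.ne').const_mul A
  have h2 := (Real.hasDerivAt_rpow_const (p := kap) (Or.inl hs.ne')).div_const kap
  have h3 := h1.sub (h2.const_mul B)
  refine h3.congr_deriv ?_
  field_simp

/-- **Ratio lemma.** Two quantities `M` (bad) and `Ph` (good) with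
`Ph' ≥ (A1/s) Ph + eps G - C s^{kap-1} M`, `M' ≤ (A2/s + C s^{kap-1}) M + C (G + Ph/s)`, `A2 < A1`:
then `M ≤ rho Ph` propagates and `Ph` grows like `s^{A1}`. -/
theorem ratio (A1 A2 C eps kap rho0 : ℝ) (hA : A2 < A1) (hC : 0 ≤ C) (heps : 0 < eps)
    (hkap : 0 < kap) : ∃ rho t0 : ℝ, 0 < rho ∧ rho0 ≤ rho ∧ 0 < t0 ∧ t0 ≤ 1 ∧
      ∀ tau t1 : ℝ, 0 < tau → tau < t1 → t1 ≤ t0 → ∀ M Ph G m f : ℝ → ℝ,
      (∀ s ∈ Icc tau t1, 0 ≤ M s) → (∀ s ∈ Icc tau t1, 0 ≤ G s) →
      IntervalIntegrable m volume tau t1 → IntervalIntegrable f volume tau t1 →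
      (∀ t ∈ Icc tau t1, M t = M tau + ∫ s in tau..t, m s) →
      (∀ t ∈ Icc tau t1, Ph t = Ph tau + ∫ s in tau..t, f s) →
      (∀ᵐ s, s ∈ Icc tau t1 → (A1 / s) * Ph s + eps * G s - C * s ^ (kap - 1) * M s ≤ f s) →
      (∀ᵐ s, s ∈ Icc tau t1 →
        m s ≤ (A2 / s + C * s ^ (kap - 1)) * M s + C * (G s + Ph s / s)) →
      M tau ≤ rho * Ph tau →
      (∀ t ∈ Icc tau t1, M t ≤ rho * Ph t) ∧ (∀ t ∈ Icc tau t1, 0 ≤ Ph t) ∧
      (∀ s t, tau ≤ s → s ≤ t → t ≤ t1 → 1 / 2 * (t / s) ^ A1 * Ph s ≤ Ph t) := by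
  have hd : 0 < A1 - A2 := sub_pos.2 hA
  set rho : ℝ := C / eps + 2 * C / (A1 - A2) + |rho0| + 1 with hrho
  have h1 : 0 ≤ C / eps := by positivity
  have h2 : 0 ≤ 2 * C / (A1 - A2) := by positivity
  have h3 : 0 ≤ |rho0| := abs_nonneg _
  have hrpos : 0 < rho := by rw [hrho]; positivity
  have hr1 : C ≤ rho * eps := by
    have : C / eps ≤ rho := by rw [hrho]; linarith
    rwa [div_le_iff₀ heps] at this
  have hr2 : C / rho ≤ (A1 - A2) / 2 := by
    rw [div_le_div_iff₀ hrpos (by norm_num)]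
    have : 2 * C / (A1 - A2) ≤ rho := by rw [hrho]; linarith
    rw [div_le_iff₀ hd] at this
    linarith
  set del : ℝ := min ((A1 - A2) / (2 * ((1 + rho) * C + 1))) (kap * Real.log 2 / (C * rho + 1))
    with hdel
  have hlog2 : 0 < Real.log 2 := Real.log_pos (by norm_num)
  have hdpos : 0 < del := by
    rw [hdel]
    exact lt_min (by positivity) (by positivity)
  set t0 : ℝ := min 1 (del ^ (1 / kap)) with ht0
  have ht0pos : 0 < t0 := lt_min one_pos (Real.rpow_pos_of_pos hdpos _)
  have hsk : ∀ s, 0 < s → s ≤ t0 → s ^ kap ≤ del := by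
    intro s hs hst
    calc s ^ kap ≤ (del ^ (1 / kap)) ^ kap :=
          Real.rpow_le_rpow hs.le (hst.trans (min_le_right _ _)) hkap.le
      _ = del := by
          rw [← Real.rpow_mul hdpos.le, one_div, inv_mul_cancel₀ hkap.ne', Real.rpow_one]
  have hdel1 : (1 + rho) * C * del ≤ (A1 - A2) / 2 := by
    have h4 : del ≤ (A1 - A2) / (2 * ((1 + rho) * C + 1)) := min_le_left _ _
    have h5 : 0 < (1 + rho) * C + 1 := by positivity
    calc (1 + rho) * C * del ≤ ((1 + rho) * C + 1) * del := by nlinarith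
      _ ≤ ((1 + rho) * C + 1) * ((A1 - A2) / (2 * ((1 + rho) * C + 1))) := by gcongr
      _ = (A1 - A2) / 2 := by field_simp
  have hdel2 : C * rho * (del / kap) ≤ Real.log 2 := by
    have h4 : del ≤ kap * Real.log 2 / (C * rho + 1) := min_le_right _ _
    have h5 : 0 < C * rho + 1 := by positivity
    calc C * rho * (del / kap) ≤ (C * rho + 1) * (del / kap) := by
          have : 0 ≤ del / kap := by positivity
          nlinarith
      _ ≤ (C * rho + 1) * ((kap * Real.log 2 / (C * rho + 1)) / kap) := by gcongr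
      _ = Real.log 2 := by field_simp
  refine ⟨rho, t0, hrpos, ?_, ht0pos, min_le_left _ _, ?_⟩
  · have := le_abs_self rho0
    rw [hrho]; linarith
  intro tau t1 htau htt ht1 M Ph G m f hM hG hm hf hMe hPe hfe hme hini
  have hpow : ∀ s ∈ Icc tau t1, s * s ^ (kap - 1) = s ^ kap := by
    intro s hs
    have hs0 : 0 < s := htau.trans_le hs.1
    rw [mul_comm, ← Real.rpow_add_one hs0.ne', sub_add_cancel]
  -- the difference `J = rho Ph - M`
  set J : ℝ → ℝ := fun s => rho * Ph s - M s with hJdef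
  set jj : ℝ → ℝ := fun s => rho * f s - m s with hjdef
  have hjint : IntervalIntegrable jj volume tau t1 := (hf.const_mul rho).sub hm
  have hJe : ∀ t ∈ Icc tau t1, J t = J tau + ∫ s in tau..t, jj s := by
    intro t ht
    have hsub : uIcc tau t ⊆ uIcc tau t1 := by
      rw [uIcc_of_le ht.1, uIcc_of_le htt.le]
      exact Icc_subset_Icc_right ht.2
    have e1 : IntervalIntegrable (fun s => rho * f s) volume tau t :=
      (hf.mono_set hsub).const_mul rho
    have e2 : IntervalIntegrable m volume tau t := hm.mono_set hsub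
    simp only [hJdef, hjdef]
    rw [intervalIntegral.integral_sub e1 e2, intervalIntegral.integral_const_mul, hMe t ht,
      hPe t ht]
    ring
  have hJge : ∀ᵐ s, s ∈ Icc tau t1 → ((A1 - C / rho) / s) * J s ≤ jj s := by
    filter_upwards [hfe, hme] with s hs1 hs2 hs
    have hs0 : 0 < s := htau.trans_le hs.1
    have e1 := hs1 hs
    have e2 := hs2 hs
    have e3 := hM s hs
    have e4 := hG s hs
    have e5 : s ^ kap ≤ del := hsk s hs0 (hs.2.trans ht1)
    have e6 := hpow s hs
    have e7 : s ^ (kap - 1) = s ^ kap / s := by rw [← e6]; field_simp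
    rw [e7] at e1 e2
    set w : ℝ := s ^ kap with hw
    have hw0 : 0 ≤ w := Real.rpow_nonneg hs0.le _
    have e8 : Ph s = (J s + M s) / rho := by
      simp only [hJdef]; field_simp; ring
    -- lower bound of `jj`
    have e9 : rho * ((A1 / s) * Ph s + eps * G s - C * (w / s) * M s) -
        ((A2 / s + C * (w / s)) * M s + C * (G s + Ph s / s)) ≤ jj s := by
      simp only [hjdef]
      have := mul_le_mul_of_nonneg_left e1 hrpos.le
      linarith
    refine le_trans ?_ e9
    have e10 : rho * ((A1 / s) * Ph s + eps * G s - C * (w / s) * M s) -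
        ((A2 / s + C * (w / s)) * M s + C * (G s + Ph s / s)) -
        ((A1 - C / rho) / s) * J s =
        (rho * eps - C) * G s + ((A1 - C / rho - A2 - (1 + rho) * C * w) / s) * M s := by
      rw [e8]
      field_simp
      ring
    have e11 : 0 ≤ (rho * eps - C) * G s := mul_nonneg (by linarith) e4
    have e12 : (1 + rho) * C * w ≤ (A1 - A2) / 2 := by
      refine le_trans ?_ hdel1
      gcongr
    have e13 : 0 ≤ ((A1 - C / rho - A2 - (1 + rho) * C * w) / s) * M s := by
      refine mul_nonneg (div_nonneg ?_ hs0.le) e3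
      linarith
    linarith
  have hJpos : ∀ t ∈ Icc tau t1, 0 ≤ J t := by
    intro t ht
    have hk : ContinuousOn (fun s => (A1 - C / rho) / s) (Icc tau t1) := by
      refine continuousOn_const.div continuousOn_id fun s hs => ?_
      exact (htau.trans_le hs.1).ne'
    have e1 := ac_gronwall (K := fun s => (A1 - C / rho) * Real.log s) hjint hJe
      (fun s hs => by
        have := (Real.hasDerivAt_log (htau.trans_le hs.1).ne').const_mul (A1 - C / rho)
        rwa [← div_eq_mul_inv] at this) hk hJge le_rfl ht.1 ht.2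
    have e2 : 0 ≤ J tau := by simp only [hJdef]; linarith
    have e3 : 0 ≤ J tau * Real.exp (-((A1 - C / rho) * Real.log tau)) := by positivity
    have e4 := e3.trans e1
    exact nonneg_of_mul_nonneg_left e4 (Real.exp_pos _)
  have hMle : ∀ t ∈ Icc tau t1, M t ≤ rho * Ph t := by
    intro t ht
    have := hJpos t ht
    simp only [hJdef] at this
    linarith
  have hPpos : ∀ t ∈ Icc tau t1, 0 ≤ Ph t := by
    intro t ht
    have e1 := (hM t ht).trans (hMle t ht)
    exact nonneg_of_mul_nonneg_right e1 hrpos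
  refine ⟨hMle, hPpos, fun s t hs hst ht => ?_⟩
  have hfge : ∀ᵐ s, s ∈ Icc tau t1 → (A1 / s - C * rho * s ^ (kap - 1)) * Ph s ≤ f s := by
    filter_upwards [hfe] with r hr1 hr
    have hr0 : 0 < r := htau.trans_le hr.1
    have e1 := hr1 hr
    have e2 := hMle r hr
    have e3 : 0 ≤ eps * G r := mul_nonneg heps.le (hG r hr)
    have e4 : 0 ≤ C * r ^ (kap - 1) := mul_nonneg hC (Real.rpow_nonneg hr0.le _)
    have e5 := mul_le_mul_of_nonneg_left e2 e4
    have e6 : (A1 / r - C * rho * r ^ (kap - 1)) * Ph r =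
        (A1 / r) * Ph r - C * r ^ (kap - 1) * (rho * Ph r) := by ring
    rw [e6]
    linarith
  have hk : ContinuousOn (fun s => A1 / s - C * rho * s ^ (kap - 1)) (Icc tau t1) := by
    have hne : ∀ s ∈ Icc tau t1, s ≠ 0 := fun s hs => (htau.trans_le hs.1).ne'
    refine (continuousOn_const.div continuousOn_id hne).sub (continuousOn_const.mul ?_)
    exact continuousOn_id.rpow_const fun s hs => Or.inl (hne s hs)
  have e1 := ac_gronwall (K := fun s => A1 * Real.log s - C * rho * (s ^ kap / kap)) hf hPe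
    (fun s hs => rpow_deriv_aux hkap (htau.trans_le hs.1)) hk hfge hs hst ht
  have hs0 : 0 < s := htau.trans_le hs
  have ht0' : 0 < t := hs0.trans_le hst
  have e2 : Ph s * Real.exp (-(A1 * Real.log s - C * rho * (s ^ kap / kap)) +
      (A1 * Real.log t - C * rho * (t ^ kap / kap))) ≤ Ph t := by
    rw [Real.exp_add, ← mul_assoc]
    have := mul_le_mul_of_nonneg_right e1
      (Real.exp_pos (A1 * Real.log t - C * rho * (t ^ kap / kap))).le
    refine this.trans (le_of_eq ?_)
    rw [mul_assoc, ← Real.exp_add]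
    simp
  refine le_trans ?_ e2
  have hPs : 0 ≤ Ph s := hPpos s ⟨hs, hst.trans ht⟩
  rw [mul_comm (Ph s)]
  refine mul_le_mul_of_nonneg_right ?_ hPs
  have e3 : (t / s) ^ A1 = Real.exp (A1 * Real.log t - A1 * Real.log s) := by
    rw [Real.rpow_def_of_pos (div_pos ht0' hs0), Real.log_div ht0'.ne' hs0.ne']
    congr 1; ring
  have e4 : (1 : ℝ) / 2 = Real.exp (-Real.log 2) := by
    rw [Real.exp_neg, Real.exp_log (by norm_num)]; norm_num
  rw [e3, e4, ← Real.exp_add]
  refine Real.exp_le_exp.2 ?_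
  have e5 : t ^ kap ≤ del := hsk t ht0' (ht.trans ht1)
  have e6 : C * rho * (t ^ kap / kap) ≤ Real.log 2 := by
    refine le_trans ?_ hdel2
    gcongr
  have e7 : 0 ≤ C * rho * (s ^ kap / kap) := by
    have := Real.rpow_nonneg hs0.le kap
    positivity
  linarith

/-- the ratio lemma with an arbitrary initial ratio `C0` -/
theorem ratio' (A1 A2 C eps kap C0 : ℝ) (hA : A2 < A1) (hC : 0 ≤ C) (heps : 0 < eps)
    (hkap : 0 < kap) (hC0 : 0 < C0) : ∃ rho t0 : ℝ, 0 < rho ∧ 0 < t0 ∧ t0 ≤ 1 ∧
      ∀ tau t1 : ℝ, 0 < tau → tau < t1 → t1 ≤ t0 → ∀ M Ph G m f : ℝ → ℝ,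
      (∀ s ∈ Icc tau t1, 0 ≤ M s) → (∀ s ∈ Icc tau t1, 0 ≤ G s) →
      IntervalIntegrable m volume tau t1 → IntervalIntegrable f volume tau t1 →
      (∀ t ∈ Icc tau t1, M t = M tau + ∫ s in tau..t, m s) →
      (∀ t ∈ Icc tau t1, Ph t = Ph tau + ∫ s in tau..t, f s) →
      (∀ᵐ s, s ∈ Icc tau t1 → (A1 / s) * Ph s + eps * G s - C * s ^ (kap - 1) * M s ≤ f s) →
      (∀ᵐ s, s ∈ Icc tau t1 →
        m s ≤ (A2 / s + C * s ^ (kap - 1)) * M s + C * (G s + Ph s / s)) →
      M tau ≤ C0 * Ph tau →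
      (∀ t ∈ Icc tau t1, M t ≤ rho * Ph t) ∧ (∀ t ∈ Icc tau t1, 0 ≤ Ph t) ∧
      (∀ s t, tau ≤ s → s ≤ t → t ≤ t1 → 1 / 2 * (t / s) ^ A1 * Ph s ≤ Ph t) := by
  obtain ⟨rho, t0, h1, h2, h3, h4, h5⟩ := ratio A1 A2 C eps kap C0 hA hC heps hkap
  refine ⟨rho, t0, h1, h3, h4, ?_⟩
  intro tau t1 htau htt ht1 M Ph G m f hM hG hm hf hMe hPe hfe hme hini
  refine h5 tau t1 htau htt ht1 M Ph G m f hM hG hm hf hMe hPe hfe hme (hini.trans ?_)
  have h6 : 0 ≤ C0 * Ph tau := (hM tau ⟨le_rfl, htt.le⟩).trans hini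
  have h7 : 0 ≤ Ph tau := nonneg_of_mul_nonneg_right h6 hC0
  exact mul_le_mul_of_nonneg_right h2 h7

/-! ### one-sided increment form -/

/-- increment form of the Gronwall inequality, `k ≥ 0` -/
theorem incr_gronwall {a b : ℝ} {J j K k : ℝ → ℝ}
    (hj : IntervalIntegrable j volume a b)
    (hJ : ∀ s t, a ≤ s → s ≤ t → t ≤ b → ∫ r in s..t, j r ≤ J t - J s)
    (hK : ∀ s ∈ Icc a b, HasDerivAt K (k s) s) (hk : ContinuousOn k (Icc a b))
    (hk0 : ∀ s ∈ Icc a b, 0 ≤ k s)
    (hge : ∀ᵐ s, s ∈ Icc a b → k s * J s ≤ j s) {s t : ℝ} (hs : a ≤ s) (hst : s ≤ t)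
    (ht : t ≤ b) : J s * Real.exp (-K s) ≤ J t * Real.exp (-K t) := by
  have hab : a ≤ b := hs.trans (hst.trans ht)
  have hsubI : Icc s t ⊆ Icc a b := Icc_subset_Icc hs ht
  set Y : ℝ → ℝ := fun r => J s + ∫ u in s..r, j u with hY
  have hYs : Y s = J s := by simp [hY]
  have hYle : ∀ r ∈ Icc s t, Y r ≤ J r := by
    intro r hr
    have := hJ s r hs hr.1 (hr.2.trans ht)
    simp only [hY]; linarith
  have hjst : IntervalIntegrable j volume s t :=
    hj.mono_set (by rw [uIcc_of_le hst, uIcc_of_le hab]; exact hsubI)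
  have h1 := ac_gronwall (J := Y) (K := K) (k := k) hjst
    (fun r _ => by rw [hYs]) (fun r hr => hK r (hsubI hr)) (hk.mono hsubI)
    (by
      filter_upwards [hge] with r hr1 hr2
      have h2 := hr1 (hsubI hr2)
      have h3 := mul_le_mul_of_nonneg_left (hYle r hr2) (hk0 r (hsubI hr2))
      linarith) le_rfl hst le_rfl
  rw [hYs] at h1
  refine h1.trans ?_
  exact mul_le_mul_of_nonneg_right (hYle t ⟨hst, le_rfl⟩) (Real.exp_pos _).le

/-- a function with non-negative start and `increments ≥ ∫ j`, `j ≥ - k J⁻`, stays non-negative -/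
theorem incr_nonneg {a b : ℝ} {J j K k : ℝ → ℝ}
    (hj : IntervalIntegrable j volume a b)
    (hJ : ∀ s t, a ≤ s → s ≤ t → t ≤ b → ∫ r in s..t, j r ≤ J t - J s)
    (hK : ∀ s ∈ Icc a b, HasDerivAt K (k s) s) (hk : ContinuousOn k (Icc a b))
    (hk0 : ∀ s ∈ Icc a b, 0 ≤ k s)
    (hge : ∀ᵐ s, s ∈ Icc a b → -(k s * max (-J s) 0) ≤ j s) (hJa : 0 ≤ J a) :
    ∀ t ∈ Icc a b, 0 ≤ J t := by
  intro t ht
  have hab : a ≤ b := ht.1.trans ht.2
  set g : ℝ → ℝ := fun s => min (j s) 0 with hg
  have hgint : IntervalIntegrable g volume a b := by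
    have h1 : IntervalIntegrable (fun _ : ℝ => (0 : ℝ)) volume a b := by simp
    rw [intervalIntegrable_iff_integrableOn_Ioc_of_le hab] at hj h1 ⊢
    exact hj.inf h1
  set U : ℝ → ℝ := fun r => ∫ u in a..r, g u with hU
  have hUa : U a = 0 := by simp [hU]
  have hUle : ∀ r ∈ Icc a b, U r ≤ J r := by
    intro r hr
    have h1 := hJ a r le_rfl hr.1 hr.2
    have hsub : uIcc a r ⊆ uIcc a b := by
      rw [uIcc_of_le hr.1, uIcc_of_le hab]; exact Icc_subset_Icc_right hr.2
    have h2 : U r ≤ ∫ u in a..r, j u := by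
      refine intervalIntegral.integral_mono_on hr.1 (hgint.mono_set hsub) (hj.mono_set hsub) ?_
      intro u _
      exact min_le_left _ _
    linarith
  have hUnp : ∀ r ∈ Icc a b, U r ≤ 0 := by
    intro r hr
    have hsub : uIcc a r ⊆ uIcc a b := by
      rw [uIcc_of_le hr.1, uIcc_of_le hab]; exact Icc_subset_Icc_right hr.2
    have h2 : U r ≤ ∫ u in a..r, (0 : ℝ) := by
      refine intervalIntegral.integral_mono_on hr.1 (hgint.mono_set hsub) (by simp) ?_
      intro u _
      exact min_le_right _ _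
    simpa using h2
  have h1 := ac_gronwall (J := U) (K := K) (k := k) hgint (fun r _ => by rw [hUa, zero_add]) hK hk
    (by
      filter_upwards [hge] with r hr1 hr2
      have h2 := hr1 hr2
      have h3 := hUle r hr2
      have h4 := hUnp r hr2
      have h5 : U r ≤ -max (-J r) 0 := by
        have : max (-J r) 0 ≤ -U r := max_le (by linarith) (by linarith)
        linarith
      have h6 := mul_le_mul_of_nonneg_left h5 (hk0 r hr2)
      refine le_min (by linarith) ?_
      have h7 : 0 ≤ k r * max (-J r) 0 := mul_nonneg (hk0 r hr2) (le_max_right _ _)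
      linarith) le_rfl ht.1 ht.2
  rw [hUa, zero_mul] at h1
  have h2 : 0 ≤ U t := nonneg_of_mul_nonneg_left h1 (Real.exp_pos _)
  exact h2.trans (hUle t ht)

/-- **Ratio lemma, increment form.** `M` (bad), `Ph` (good) only satisfy one-sided increment
inequalities; `max (Ph s) 0` in the inequality of the bad quantity. -/
theorem ratio_incr (A1 A2 C eps kap rho0 : ℝ) (hA2 : 0 < A2) (hA : A2 < A1) (hC : 0 ≤ C)
    (heps : 0 < eps) (hkap : 0 < kap) : ∃ rho t0 : ℝ, 0 < rho ∧ rho0 ≤ rho ∧ 0 < t0 ∧ t0 ≤ 1 ∧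
      ∀ tau t1 : ℝ, 0 < tau → tau < t1 → t1 ≤ t0 → ∀ M Ph G m f : ℝ → ℝ,
      (∀ s ∈ Icc tau t1, 0 ≤ M s) → (∀ s ∈ Icc tau t1, 0 ≤ G s) →
      IntervalIntegrable m volume tau t1 → IntervalIntegrable f volume tau t1 →
      (∀ s t, tau ≤ s → s ≤ t → t ≤ t1 → M t - M s ≤ ∫ r in s..t, m r) →
      (∀ s t, tau ≤ s → s ≤ t → t ≤ t1 → ∫ r in s..t, f r ≤ Ph t - Ph s) →
      (∀ᵐ s, s ∈ Icc tau t1 → (A1 / s) * Ph s + eps * G s - C * s ^ (kap - 1) * M s ≤ f s) →
      (∀ᵐ s, s ∈ Icc tau t1 →
        m s ≤ (A2 / s + C * s ^ (kap - 1)) * M s + C * (G s + max (Ph s) 0 / s)) →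
      M tau ≤ rho * Ph tau →
      (∀ t ∈ Icc tau t1, M t ≤ rho * Ph t) ∧ (∀ t ∈ Icc tau t1, 0 ≤ Ph t) ∧
      (∀ s t, tau ≤ s → s ≤ t → t ≤ t1 → 1 / 2 * (t / s) ^ A1 * Ph s ≤ Ph t) := by
  have hd : 0 < A1 - A2 := sub_pos.2 hA
  have hA1 : 0 < A1 := hA2.trans hA
  set rho : ℝ := C / eps + 2 * C / (A1 - A2) + |rho0| + 1 with hrho
  have h1 : 0 ≤ C / eps := by positivity
  have h2 : 0 ≤ 2 * C / (A1 - A2) := by positivity
  have h3 : 0 ≤ |rho0| := abs_nonneg _
  have hrpos : 0 < rho := by rw [hrho]; positivity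
  have hr1 : C ≤ rho * eps := by
    have : C / eps ≤ rho := by rw [hrho]; linarith
    rwa [div_le_iff₀ heps] at this
  have hr2 : C / rho ≤ (A1 - A2) / 2 := by
    rw [div_le_div_iff₀ hrpos (by norm_num)]
    have : 2 * C / (A1 - A2) ≤ rho := by rw [hrho]; linarith
    rw [div_le_iff₀ hd] at this
    linarith
  set del : ℝ := min (min ((A1 - A2) / (2 * ((1 + rho) * C + 1)))
    (kap * Real.log 2 / (C * rho + 1))) (A1 / (C * rho + 1)) with hdel
  have hlog2 : 0 < Real.log 2 := Real.log_pos (by norm_num)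
  have hdpos : 0 < del := by
    rw [hdel]
    exact lt_min (lt_min (by positivity) (by positivity)) (by positivity)
  set t0 : ℝ := min 1 (del ^ (1 / kap)) with ht0
  have ht0pos : 0 < t0 := lt_min one_pos (Real.rpow_pos_of_pos hdpos _)
  have hsk : ∀ s, 0 < s → s ≤ t0 → s ^ kap ≤ del := by
    intro s hs hst
    calc s ^ kap ≤ (del ^ (1 / kap)) ^ kap :=
          Real.rpow_le_rpow hs.le (hst.trans (min_le_right _ _)) hkap.le
      _ = del := by
          rw [← Real.rpow_mul hdpos.le, one_div, inv_mul_cancel₀ hkap.ne', Real.rpow_one]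
  have hdel1 : (1 + rho) * C * del ≤ (A1 - A2) / 2 := by
    have h4 : del ≤ (A1 - A2) / (2 * ((1 + rho) * C + 1)) :=
      (min_le_left _ _).trans (min_le_left _ _)
    have h5 : 0 < (1 + rho) * C + 1 := by positivity
    calc (1 + rho) * C * del ≤ ((1 + rho) * C + 1) * del := by nlinarith
      _ ≤ ((1 + rho) * C + 1) * ((A1 - A2) / (2 * ((1 + rho) * C + 1))) := by gcongr
      _ = (A1 - A2) / 2 := by field_simp
  have hdel2 : C * rho * (del / kap) ≤ Real.log 2 := by
    have h4 : del ≤ kap * Real.log 2 / (C * rho + 1) :=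
      (min_le_left _ _).trans (min_le_right _ _)
    have h5 : 0 < C * rho + 1 := by positivity
    calc C * rho * (del / kap) ≤ (C * rho + 1) * (del / kap) := by
          have : 0 ≤ del / kap := by positivity
          nlinarith
      _ ≤ (C * rho + 1) * ((kap * Real.log 2 / (C * rho + 1)) / kap) := by gcongr
      _ = Real.log 2 := by field_simp
  have hdel3 : C * rho * del ≤ A1 := by
    have h4 : del ≤ A1 / (C * rho + 1) := min_le_right _ _
    have h5 : 0 < C * rho + 1 := by positivity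
    calc C * rho * del ≤ (C * rho + 1) * del := by nlinarith
      _ ≤ (C * rho + 1) * (A1 / (C * rho + 1)) := by gcongr
      _ = A1 := by field_simp
  refine ⟨rho, t0, hrpos, ?_, ht0pos, min_le_left _ _, ?_⟩
  · have := le_abs_self rho0
    rw [hrho]; linarith
  intro tau t1 htau htt ht1 M Ph G m f hM hG hm hf hMi hPi hfe hme hini
  have hpow : ∀ s ∈ Icc tau t1, s * s ^ (kap - 1) = s ^ kap := by
    intro s hs
    have hs0 : 0 < s := htau.trans_le hs.1
    rw [mul_comm, ← Real.rpow_add_one hs0.ne', sub_add_cancel]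
  -- the difference `J = rho Ph - M`
  set J : ℝ → ℝ := fun s => rho * Ph s - M s with hJdef
  set jj : ℝ → ℝ := fun s => rho * f s - m s with hjdef
  have hjint : IntervalIntegrable jj volume tau t1 := (hf.const_mul rho).sub hm
  have hJe : ∀ s t, tau ≤ s → s ≤ t → t ≤ t1 → ∫ r in s..t, jj r ≤ J t - J s := by
    intro s t hs hst ht
    have hsub : uIcc s t ⊆ uIcc tau t1 := by
      rw [uIcc_of_le hst, uIcc_of_le htt.le]
      exact Icc_subset_Icc hs ht
    have e1 : IntervalIntegrable (fun s => rho * f s) volume s t :=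
      (hf.mono_set hsub).const_mul rho
    have e2 : IntervalIntegrable m volume s t := hm.mono_set hsub
    simp only [hJdef, hjdef]
    rw [intervalIntegral.integral_sub e1 e2, intervalIntegral.integral_const_mul]
    have e3 := hMi s t hs hst ht
    have e4 := mul_le_mul_of_nonneg_left (hPi s t hs hst ht) hrpos.le
    linarith
  have hJge : ∀ᵐ s, s ∈ Icc tau t1 → -((A1 / s) * max (-J s) 0) ≤ jj s := by
    filter_upwards [hfe, hme] with s hs1 hs2 hs
    have hs0 : 0 < s := htau.trans_le hs.1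
    have e1 := hs1 hs
    have e2 := hs2 hs
    have e3 := hM s hs
    have e4 := hG s hs
    have e5 : s ^ kap ≤ del := hsk s hs0 (hs.2.trans ht1)
    have e6 := hpow s hs
    have e7 : s ^ (kap - 1) = s ^ kap / s := by rw [← e6]; field_simp
    rw [e7] at e1 e2
    set w : ℝ := s ^ kap with hw
    have hw0 : 0 ≤ w := Real.rpow_nonneg hs0.le _
    have e8 : Ph s = (J s + M s) / rho := by
      simp only [hJdef]; field_simp; ring
    have e12 : (1 + rho) * C * w ≤ (A1 - A2) / 2 := by
      refine le_trans ?_ hdel1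
      gcongr
    have e11 : 0 ≤ (rho * eps - C) * G s := mul_nonneg (by linarith) e4
    -- lower bound of `jj`
    have e9 : rho * ((A1 / s) * Ph s + eps * G s - C * (w / s) * M s) -
        ((A2 / s + C * (w / s)) * M s + C * (G s + max (Ph s) 0 / s)) ≤ jj s := by
      simp only [hjdef]
      have := mul_le_mul_of_nonneg_left e1 hrpos.le
      linarith
    refine le_trans ?_ e9
    rcases le_or_gt 0 (Ph s) with hp | hp
    · rw [max_eq_left hp]
      have e10 : rho * ((A1 / s) * Ph s + eps * G s - C * (w / s) * M s) -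
          ((A2 / s + C * (w / s)) * M s + C * (G s + Ph s / s)) =
          (rho * eps - C) * G s + ((A1 - C / rho - A2 - (1 + rho) * C * w) / s) * M s +
          ((A1 - C / rho) / s) * J s := by
        rw [e8]
        field_simp
        ring
      have e13 : 0 ≤ ((A1 - C / rho - A2 - (1 + rho) * C * w) / s) * M s := by
        refine mul_nonneg (div_nonneg ?_ hs0.le) e3
        linarith
      have e14 : -((A1 / s) * max (-J s) 0) ≤ ((A1 - C / rho) / s) * J s := by
        have hq0 : 0 ≤ C / rho := by positivity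
        have hq1 : 0 ≤ (A1 - C / rho) / s := div_nonneg (by linarith) hs0.le
        have hq2 : (A1 - C / rho) / s ≤ A1 / s := by gcongr; linarith
        rcases le_or_gt 0 (J s) with hj | hj
        · rw [max_eq_right (by linarith), mul_zero, neg_zero]
          exact mul_nonneg hq1 hj
        · rw [max_eq_left (by linarith)]
          have := mul_le_mul_of_nonneg_right hq2 (by linarith : 0 ≤ -J s)
          linarith
      linarith
    · rw [max_eq_right hp.le, zero_div, add_zero]
      have hJneg : J s ≤ 0 := by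
        simp only [hJdef]
        have := mul_neg_of_pos_of_neg hrpos hp
        linarith
      rw [max_eq_left (by linarith : (0 : ℝ) ≤ -J s)]
      have e10 : rho * ((A1 / s) * Ph s + eps * G s - C * (w / s) * M s) -
          ((A2 / s + C * (w / s)) * M s + C * G s) =
          (rho * eps - C) * G s + ((A1 - A2 - (1 + rho) * C * w) / s) * M s +
          (A1 / s) * J s := by
        rw [e8]
        field_simp
        ring
      have e13 : 0 ≤ ((A1 - A2 - (1 + rho) * C * w) / s) * M s := by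
        refine mul_nonneg (div_nonneg ?_ hs0.le) e3
        linarith
      linarith
  have hne : ∀ s ∈ Icc tau t1, s ≠ 0 := fun s hs => (htau.trans_le hs.1).ne'
  have hJpos : ∀ t ∈ Icc tau t1, 0 ≤ J t := by
    refine incr_nonneg (K := fun s => A1 * Real.log s) hjint hJe (fun s hs => ?_)
      (continuousOn_const.div continuousOn_id hne)
      (fun s hs => div_nonneg hA1.le (htau.trans_le hs.1).le) hJge ?_
    · have := (Real.hasDerivAt_log (htau.trans_le hs.1).ne').const_mul A1
      rwa [← div_eq_mul_inv] at this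
    · simp only [hJdef]; linarith
  have hMle : ∀ t ∈ Icc tau t1, M t ≤ rho * Ph t := by
    intro t ht
    have := hJpos t ht
    simp only [hJdef] at this
    linarith
  have hPpos : ∀ t ∈ Icc tau t1, 0 ≤ Ph t := by
    intro t ht
    have e1 := (hM t ht).trans (hMle t ht)
    exact nonneg_of_mul_nonneg_right e1 hrpos
  refine ⟨hMle, hPpos, fun s t hs hst ht => ?_⟩
  have hfge : ∀ᵐ s, s ∈ Icc tau t1 → (A1 / s - C * rho * s ^ (kap - 1)) * Ph s ≤ f s := by
    filter_upwards [hfe] with r hr1 hr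
    have hr0 : 0 < r := htau.trans_le hr.1
    have e1 := hr1 hr
    have e2 := hMle r hr
    have e3 : 0 ≤ eps * G r := mul_nonneg heps.le (hG r hr)
    have e4 : 0 ≤ C * r ^ (kap - 1) := mul_nonneg hC (Real.rpow_nonneg hr0.le _)
    have e5 := mul_le_mul_of_nonneg_left e2 e4
    have e6 : (A1 / r - C * rho * r ^ (kap - 1)) * Ph r =
        (A1 / r) * Ph r - C * r ^ (kap - 1) * (rho * Ph r) := by ring
    rw [e6]
    linarith
  have hk : ContinuousOn (fun s => A1 / s - C * rho * s ^ (kap - 1)) (Icc tau t1) := by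
    refine (continuousOn_const.div continuousOn_id hne).sub (continuousOn_const.mul ?_)
    exact continuousOn_id.rpow_const fun s hs => Or.inl (hne s hs)
  have hk0 : ∀ s ∈ Icc tau t1, 0 ≤ A1 / s - C * rho * s ^ (kap - 1) := by
    intro s hs
    have hs0 : 0 < s := htau.trans_le hs.1
    have e6 := hpow s hs
    have e7 : s ^ (kap - 1) = s ^ kap / s := by rw [← e6]; field_simp
    have e8 : A1 / s - C * rho * s ^ (kap - 1) = (A1 - C * rho * s ^ kap) / s := by
      rw [e7]; ring
    rw [e8]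
    refine div_nonneg ?_ hs0.le
    have e9 : C * rho * s ^ kap ≤ C * rho * del :=
      mul_le_mul_of_nonneg_left (hsk s hs0 (hs.2.trans ht1)) (mul_nonneg hC hrpos.le)
    linarith
  have e1 := incr_gronwall (K := fun s => A1 * Real.log s - C * rho * (s ^ kap / kap)) hf hPi
    (fun s hs => rpow_deriv_aux hkap (htau.trans_le hs.1)) hk hk0 hfge hs hst ht
  have hs0 : 0 < s := htau.trans_le hs
  have ht0' : 0 < t := hs0.trans_le hst
  have e2 : Ph s * Real.exp (-(A1 * Real.log s - C * rho * (s ^ kap / kap)) +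
      (A1 * Real.log t - C * rho * (t ^ kap / kap))) ≤ Ph t := by
    rw [Real.exp_add, ← mul_assoc]
    have := mul_le_mul_of_nonneg_right e1
      (Real.exp_pos (A1 * Real.log t - C * rho * (t ^ kap / kap))).le
    refine this.trans (le_of_eq ?_)
    rw [mul_assoc, ← Real.exp_add]
    simp
  refine le_trans ?_ e2
  have hPs : 0 ≤ Ph s := hPpos s ⟨hs, hst.trans ht⟩
  rw [mul_comm (Ph s)]
  refine mul_le_mul_of_nonneg_right ?_ hPs
  have e3 : (t / s) ^ A1 = Real.exp (A1 * Real.log t - A1 * Real.log s) := by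
    rw [Real.rpow_def_of_pos (div_pos ht0' hs0), Real.log_div ht0'.ne' hs0.ne']
    congr 1; ring
  have e4 : (1 : ℝ) / 2 = Real.exp (-Real.log 2) := by
    rw [Real.exp_neg, Real.exp_log (by norm_num)]; norm_num
  rw [e3, e4, ← Real.exp_add]
  refine Real.exp_le_exp.2 ?_
  have e5 : t ^ kap ≤ del := hsk t ht0' (ht.trans ht1)
  have e6 : C * rho * (t ^ kap / kap) ≤ Real.log 2 := by
    refine le_trans ?_ hdel2
    gcongr
  have e7 : 0 ≤ C * rho * (s ^ kap / kap) := by
    have := Real.rpow_nonneg hs0.le kap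
    positivity
  linarith

end Crest.Agent.R68.X
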