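import Crest.Agent.R68.XSeed1
import Crest.Agent.R68.XRatio
import Crest.Agent.R68.XDefs

/-!
# Row 68, PART X2 (helper330): the ratio lemma in `ENNReal` form, growth of the seeds
-/

set_option autoImplicit false
open MeasureTheory Set Filter
open scoped Topology ENNReal

noncomputable section

namespace Crest.Agent.R68.X2

/-- passage from `ENNReal` time integrals to real ones -/
theorem toReal_lint {u : ℝ → ℝ≥0∞} (hu : Measurable u) {s t B : ℝ} (hst : s ≤ t)
    (hB : ∀ r ∈ Icc s t, u r ≤ ENNReal.ofReal B) :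
    (∫⁻ r in Ioo s t, u r) ≠ ⊤ ∧ ∫ r in s..t, (u r).toReal = (∫⁻ r in Ioo s t, u r).toReal := by
  have h1 : (∫⁻ r in Ioo s t, u r) ≠ ⊤ := by
    refine ne_top_of_le_ne_top ?_ (setLIntegral_mono' measurableSet_Ioo
      (g := fun _ => ENNReal.ofReal B) fun r hr => hB r ⟨hr.1.le, hr.2.le⟩)
    rw [lintegral_const, Measure.restrict_apply MeasurableSet.univ, univ_inter, Real.volume_Ioo]
    exact ENNReal.mul_ne_top ENNReal.ofReal_ne_top ENNReal.ofReal_ne_top
  refine ⟨h1, ?_⟩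
  rw [intervalIntegral.integral_of_le hst, integral_Ioc_eq_integral_Ioo, integral_toReal]
  · exact hu.aemeasurable
  · rw [ae_restrict_iff' measurableSet_Ioo]
    exact Eventually.of_forall fun r hr =>
      (hB r ⟨hr.1.le, hr.2.le⟩).trans_lt ENNReal.ofReal_lt_top

theorem intInt_toReal {u : ℝ → ℝ≥0∞} (hu : Measurable u) {s t B : ℝ} (hst : s ≤ t) (hB0 : 0 ≤ B)
    (hB : ∀ r ∈ Icc s t, u r ≤ ENNReal.ofReal B) :
    IntervalIntegrable (fun r => (u r).toReal) volume s t := by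
  refine XSeed.intInt (B := B) hu.ennreal_toReal hst fun r hr => ?_
  rw [abs_of_nonneg ENNReal.toReal_nonneg]
  exact ENNReal.toReal_le_of_le_ofReal hB0 (hB r hr)

/-- **Ratio lemma for extended nonnegative functionals**: `m` (bad), `p` (good), `g` (gain term),
`sm`, `sp` (sources). -/
theorem ratio_enn (A1 A2 C d1 Cs : ℝ) (hA2 : 0 < A2) (hA : A2 < A1) (hC : 0 ≤ C) (hd1 : 0 < d1)
    (hCs : 0 ≤ Cs) : ∃ rho t0 : ℝ, 0 < rho ∧ 0 < t0 ∧ t0 ≤ 1 ∧
      ∀ tau t1 : ℝ, 0 < tau → tau < t1 → t1 ≤ t0 → ∀ m p g sm sp : ℝ → ℝ≥0∞,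
      Measurable m → Measurable p → Measurable g → Measurable sm → Measurable sp →
      (∃ B : ℝ, 0 ≤ B ∧ ∀ r ∈ Icc tau t1, m r ≤ ENNReal.ofReal B ∧ p r ≤ ENNReal.ofReal B ∧
        g r ≤ ENNReal.ofReal B ∧ sp r ≤ ENNReal.ofReal B) →
      (∀ r ∈ Icc tau t1, sm r ≤ ENNReal.ofReal Cs * sp r) →
      (∀ s t, tau ≤ s → s ≤ t → t ≤ t1 → m t ≤ m s + ∫⁻ r in Ioo s t,
        (ENNReal.ofReal (A2 / r + C) * m r + ENNReal.ofReal C * g r + sm r)) →
      (∀ s t, tau ≤ s → s ≤ t → t ≤ t1 → p s + ∫⁻ r in Ioo s t,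
        (ENNReal.ofReal (A1 / r) * p r + ENNReal.ofReal d1 * g r + sp r) ≤
          p t + ∫⁻ r in Ioo s t, ENNReal.ofReal C * m r) →
      m tau = 0 →
      (∀ t ∈ Icc tau t1, m t ≤ ENNReal.ofReal rho * p t) ∧
      (∀ s t, tau ≤ s → s ≤ t → t ≤ t1 → ENNReal.ofReal (1 / 2 * (t / s) ^ A1) * p s ≤ p t) := by
  set C' : ℝ := C + Cs + 1 with hC'
  obtain ⟨rho, t0, h1, -, h2, h3, h4⟩ := Crest.Agent.R68.X.ratio_incr A1 A2 C' (min d1 1) 1 0 hA2 hA
    (by positivity) (lt_min hd1 one_pos) one_pos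
  refine ⟨rho, t0, h1, h2, h3, ?_⟩
  intro tau t1 htau htt ht1 m p g sm sp hm hp hg hsm hsp hbd hs hup hlow hm0
  obtain ⟨B, hB0, hB⟩ := hbd
  have hBm : ∀ r ∈ Icc tau t1, m r ≤ ENNReal.ofReal B := fun r hr => (hB r hr).1
  have hBp : ∀ r ∈ Icc tau t1, p r ≤ ENNReal.ofReal B := fun r hr => (hB r hr).2.1
  have hBg : ∀ r ∈ Icc tau t1, g r ≤ ENNReal.ofReal B := fun r hr => (hB r hr).2.2.1
  have hBs : ∀ r ∈ Icc tau t1, sp r ≤ ENNReal.ofReal B := fun r hr => (hB r hr).2.2.2
  have hBsm : ∀ r ∈ Icc tau t1, sm r ≤ ENNReal.ofReal (Cs * B) := fun r hr => by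
    rw [ENNReal.ofReal_mul hCs]
    exact (hs r hr).trans (mul_le_mul' le_rfl (hBs r hr))
  have hA1 : 0 < A1 := hA2.trans hA
  have fin : ∀ {u : ℝ → ℝ≥0∞} {b : ℝ}, (∀ r ∈ Icc tau t1, u r ≤ ENNReal.ofReal b) →
      ∀ r ∈ Icc tau t1, u r ≠ ⊤ := fun h r hr => ne_top_of_le_ne_top ENNReal.ofReal_ne_top (h r hr)
  -- the integrands
  set um : ℝ → ℝ≥0∞ := fun r => ENNReal.ofReal (A2 / r + C) * m r + ENNReal.ofReal C * g r + sm r
    with hum
  set ul : ℝ → ℝ≥0∞ := fun r => ENNReal.ofReal (A1 / r) * p r + ENNReal.ofReal d1 * g r + sp r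
    with hul
  set ur : ℝ → ℝ≥0∞ := fun r => ENNReal.ofReal C * m r with hur
  have mum : Measurable um := by
    refine ((Measurable.mul ?_ hm).add (hg.const_mul _)).add hsm
    exact Measurable.ennreal_ofReal (by fun_prop)
  have mul' : Measurable ul := by
    refine ((Measurable.mul ?_ hp).add (hg.const_mul _)).add hsp
    exact Measurable.ennreal_ofReal (by fun_prop)
  have mur : Measurable ur := hm.const_mul _
  have hinv : ∀ {c r : ℝ}, 0 ≤ c → r ∈ Icc tau t1 → c / r ≤ c / tau := fun hc hr =>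
    div_le_div_of_nonneg_left hc htau hr.1
  set Bm : ℝ := (A2 / tau + C) * B + C * B + Cs * B with hBmdef
  set Bl : ℝ := (A1 / tau) * B + d1 * B + B with hBldef
  have bum : ∀ r ∈ Icc tau t1, um r ≤ ENNReal.ofReal Bm := by
    intro r hr
    rw [hBmdef, ENNReal.ofReal_add (by positivity) (by positivity),
      ENNReal.ofReal_add (by positivity) (by positivity), ENNReal.ofReal_mul (by positivity),
      ENNReal.ofReal_mul hC]
    refine add_le_add (add_le_add (mul_le_mul' ?_ (hBm r hr)) (mul_le_mul' le_rfl (hBg r hr)))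
      (hBsm r hr)
    exact ENNReal.ofReal_le_ofReal (add_le_add (hinv hA2.le hr) le_rfl)
  have bul : ∀ r ∈ Icc tau t1, ul r ≤ ENNReal.ofReal Bl := by
    intro r hr
    rw [hBldef, ENNReal.ofReal_add (by positivity) (by positivity),
      ENNReal.ofReal_add (by positivity) (by positivity), ENNReal.ofReal_mul (by positivity),
      ENNReal.ofReal_mul hd1.le]
    refine add_le_add (add_le_add (mul_le_mul' ?_ (hBp r hr)) (mul_le_mul' le_rfl (hBg r hr)))
      (hBs r hr)
    exact ENNReal.ofReal_le_ofReal (hinv hA1.le hr)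
  have bur : ∀ r ∈ Icc tau t1, ur r ≤ ENNReal.ofReal (C * B) := by
    intro r hr
    rw [ENNReal.ofReal_mul hC]
    exact mul_le_mul' le_rfl (hBm r hr)
  -- real versions
  have hres := h4 tau t1 htau htt ht1 (fun r => (m r).toReal) (fun r => (p r).toReal)
    (fun r => (g r).toReal + (sp r).toReal) (fun r => (um r).toReal)
    (fun r => (ul r).toReal - (ur r).toReal)
    (fun _ _ => ENNReal.toReal_nonneg)
    (fun _ _ => add_nonneg ENNReal.toReal_nonneg ENNReal.toReal_nonneg)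
    (intInt_toReal mum htt.le (by positivity) bum)
    ((intInt_toReal mul' htt.le (by positivity) bul).sub
      (intInt_toReal mur htt.le (by positivity) bur)) ?_ ?_ ?_ ?_ ?_
  · obtain ⟨r1, -, r3⟩ := hres
    refine ⟨fun t ht => ?_, fun s t hs1 hst ht => ?_⟩
    · have h5 := r1 t ht
      have h6 : m t = ENNReal.ofReal (m t).toReal := (ENNReal.ofReal_toReal (fin hBm t ht)).symm
      have h7 : p t = ENNReal.ofReal (p t).toReal := (ENNReal.ofReal_toReal (fin hBp t ht)).symm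
      rw [h6, h7, ← ENNReal.ofReal_mul h1.le]
      exact ENNReal.ofReal_le_ofReal h5
    · have h5 := r3 s t hs1 hst ht
      have hs' : s ∈ Icc tau t1 := ⟨hs1, hst.trans ht⟩
      have ht' : t ∈ Icc tau t1 := ⟨hs1.trans hst, ht⟩
      have h6 : p s = ENNReal.ofReal (p s).toReal := (ENNReal.ofReal_toReal (fin hBp s hs')).symm
      have h7 : p t = ENNReal.ofReal (p t).toReal := (ENNReal.ofReal_toReal (fin hBp t ht')).symm
      have hs0 : 0 < s := htau.trans_le hs1
      have ht0' : 0 < t := hs0.trans_le hst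
      rw [h6, h7, ← ENNReal.ofReal_mul (by positivity)]
      exact ENNReal.ofReal_le_ofReal h5
  · -- upper increments
    intro s t hs1 hst ht
    have hsub : ∀ r ∈ Icc s t, r ∈ Icc tau t1 := fun r hr => ⟨hs1.trans hr.1, hr.2.trans ht⟩
    obtain ⟨f1, f2⟩ := toReal_lint mum hst (fun r hr => bum r (hsub r hr))
    have h5 := hup s t hs1 hst ht
    have hms : m s ≠ ⊤ := fin hBm s (hsub s ⟨le_rfl, hst⟩)
    have h6 := ENNReal.toReal_mono (ENNReal.add_ne_top.2 ⟨hms, f1⟩) h5
    rw [ENNReal.toReal_add hms f1] at h6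
    rw [f2]
    linarith
  · intro s t hs1 hst ht
    have hsub : ∀ r ∈ Icc s t, r ∈ Icc tau t1 := fun r hr => ⟨hs1.trans hr.1, hr.2.trans ht⟩
    obtain ⟨f1, f2⟩ := toReal_lint mul' hst (fun r hr => bul r (hsub r hr))
    obtain ⟨f3, f4⟩ := toReal_lint mur hst (fun r hr => bur r (hsub r hr))
    have h5 := hlow s t hs1 hst ht
    have hps : p s ≠ ⊤ := fin hBp s (hsub s ⟨le_rfl, hst⟩)
    have hpt : p t ≠ ⊤ := fin hBp t (hsub t ⟨hst, le_rfl⟩)
    have h6 := ENNReal.toReal_mono (ENNReal.add_ne_top.2 ⟨hpt, f3⟩) h5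
    rw [ENNReal.toReal_add hpt f3, ENNReal.toReal_add hps f1] at h6
    have e : ∫ r in s..t, ((ul r).toReal - (ur r).toReal) =
        (∫ r in s..t, (ul r).toReal) - ∫ r in s..t, (ur r).toReal :=
      intervalIntegral.integral_sub
        (intInt_toReal mul' hst (by positivity) (fun r hr => bul r (hsub r hr)))
        (intInt_toReal mur hst (by positivity) (fun r hr => bur r (hsub r hr)))
    rw [e, f2, f4]
    linarith
  · refine Eventually.of_forall fun r hr => ?_
    have hr0 : 0 < r := htau.trans_le hr.1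
    have e1 : (ul r).toReal = A1 / r * (p r).toReal + d1 * (g r).toReal + (sp r).toReal := by
      simp only [hul]
      rw [ENNReal.toReal_add, ENNReal.toReal_add, ENNReal.toReal_mul, ENNReal.toReal_mul,
        ENNReal.toReal_ofReal (by positivity), ENNReal.toReal_ofReal hd1.le]
      · exact ENNReal.mul_ne_top ENNReal.ofReal_ne_top (fin hBp r hr)
      · exact ENNReal.mul_ne_top ENNReal.ofReal_ne_top (fin hBg r hr)
      · exact ENNReal.add_ne_top.2 ⟨ENNReal.mul_ne_top ENNReal.ofReal_ne_top (fin hBp r hr),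
          ENNReal.mul_ne_top ENNReal.ofReal_ne_top (fin hBg r hr)⟩
      · exact fin hBs r hr
    have e2 : (ur r).toReal = C * (m r).toReal := by
      simp only [hur]
      rw [ENNReal.toReal_mul, ENNReal.toReal_ofReal hC]
    rw [e1, e2]
    have g1 : 0 ≤ (g r).toReal := ENNReal.toReal_nonneg
    have g2 : 0 ≤ (sp r).toReal := ENNReal.toReal_nonneg
    have g3 : 0 ≤ (m r).toReal := ENNReal.toReal_nonneg
    have g4 : r ^ ((1 : ℝ) - 1) = 1 := by norm_num
    rw [g4]
    have g5 : min d1 1 * (g r).toReal ≤ d1 * (g r).toReal :=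
      mul_le_mul_of_nonneg_right (min_le_left _ _) g1
    have g6 : min d1 1 * (sp r).toReal ≤ 1 * (sp r).toReal :=
      mul_le_mul_of_nonneg_right (min_le_right _ _) g2
    have g7 : C * (m r).toReal ≤ C' * (m r).toReal :=
      mul_le_mul_of_nonneg_right (by rw [hC']; linarith) g3
    linarith
  · refine Eventually.of_forall fun r hr => ?_
    have hr0 : 0 < r := htau.trans_le hr.1
    have fsm : sm r ≠ ⊤ := fin hBsm r hr
    have e1 : (um r).toReal = (A2 / r + C) * (m r).toReal + C * (g r).toReal + (sm r).toReal := by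
      simp only [hum]
      rw [ENNReal.toReal_add, ENNReal.toReal_add, ENNReal.toReal_mul, ENNReal.toReal_mul,
        ENNReal.toReal_ofReal (by positivity), ENNReal.toReal_ofReal hC]
      · exact ENNReal.mul_ne_top ENNReal.ofReal_ne_top (fin hBm r hr)
      · exact ENNReal.mul_ne_top ENNReal.ofReal_ne_top (fin hBg r hr)
      · exact ENNReal.add_ne_top.2 ⟨ENNReal.mul_ne_top ENNReal.ofReal_ne_top (fin hBm r hr),
          ENNReal.mul_ne_top ENNReal.ofReal_ne_top (fin hBg r hr)⟩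
      · exact fsm
    have e2 : (sm r).toReal ≤ Cs * (sp r).toReal := by
      have h5 := ENNReal.toReal_mono (ENNReal.mul_ne_top ENNReal.ofReal_ne_top (fin hBs r hr))
        (hs r hr)
      rwa [ENNReal.toReal_mul, ENNReal.toReal_ofReal hCs] at h5
    rw [e1]
    have g1 : 0 ≤ (g r).toReal := ENNReal.toReal_nonneg
    have g2 : 0 ≤ (sp r).toReal := ENNReal.toReal_nonneg
    have g3 : 0 ≤ (m r).toReal := ENNReal.toReal_nonneg
    have g4 : r ^ ((1 : ℝ) - 1) = 1 := by norm_num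
    rw [g4]
    have g5 : 0 ≤ max (p r).toReal 0 / r := div_nonneg (le_max_right _ _) hr0.le
    have g6 : C * (g r).toReal ≤ C' * (g r).toReal :=
      mul_le_mul_of_nonneg_right (by rw [hC']; linarith) g1
    have g7 : C * (m r).toReal ≤ C' * (m r).toReal :=
      mul_le_mul_of_nonneg_right (by rw [hC']; linarith) g3
    have g8 : Cs * (sp r).toReal ≤ C' * (sp r).toReal :=
      mul_le_mul_of_nonneg_right (by rw [hC']; linarith) g2
    have g9 : 0 ≤ C' * (max (p r).toReal 0 / r) := mul_nonneg (by positivity) g5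
    linarith
  · rw [hm0]
    simp only [ENNReal.toReal_zero]
    exact mul_nonneg h1.le ENNReal.toReal_nonneg

/-- crude upper growth -/
theorem upper_enn {a b c : ℝ} (ha : 0 < a) (hab : a ≤ b) (hc : 0 ≤ c) {m : ℝ → ℝ≥0∞}
    (hm : Measurable m) {B : ℝ} (hB0 : 0 ≤ B) (hB : ∀ r ∈ Icc a b, m r ≤ ENNReal.ofReal B)
    (h : ∀ t ∈ Icc a b, m t ≤ m a + ∫⁻ r in Ioo a t, ENNReal.ofReal (c / r) * m r) :
    ∀ t ∈ Icc a b, m t ≤ ENNReal.ofReal ((t / a) ^ c) * m a := by
  intro t ht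
  have fin : ∀ r ∈ Icc a b, m r ≠ ⊤ := fun r hr => ne_top_of_le_ne_top ENNReal.ofReal_ne_top (hB r hr)
  have mu : Measurable fun r => ENNReal.ofReal (c / r) * m r :=
    Measurable.mul (Measurable.ennreal_ofReal (by fun_prop)) hm
  have bu : ∀ r ∈ Icc a b, ENNReal.ofReal (c / r) * m r ≤ ENNReal.ofReal (c / a * B) := by
    intro r hr
    rw [ENNReal.ofReal_mul (div_nonneg hc ha.le)]
    exact mul_le_mul' (ENNReal.ofReal_le_ofReal (div_le_div_of_nonneg_left hc ha hr.1)) (hB r hr)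
  have key := XSeed.upper (a := a) (b := b) (c := c) ha hc (M := fun r => (m r).toReal)
    hm.ennreal_toReal (B := B) (M0 := (m a).toReal) (fun s hs => ?_) (fun t ht => ?_) t ht
  · have e1 : m t = ENNReal.ofReal (m t).toReal := (ENNReal.ofReal_toReal (fin t ht)).symm
    have e2 : m a = ENNReal.ofReal (m a).toReal :=
      (ENNReal.ofReal_toReal (fin a ⟨le_rfl, hab⟩)).symm
    have h0 : 0 ≤ (t / a) ^ c := Real.rpow_nonneg (div_nonneg (ha.le.trans ht.1) ha.le) _
    rw [e1, e2, ← ENNReal.ofReal_mul h0, mul_comm]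
    exact ENNReal.ofReal_le_ofReal key
  · rw [abs_of_nonneg ENNReal.toReal_nonneg]
    exact ENNReal.toReal_le_of_le_ofReal hB0 (hB s hs)
  · have hsub : ∀ r ∈ Icc a t, r ∈ Icc a b := fun r hr => ⟨hr.1, hr.2.trans ht.2⟩
    obtain ⟨f1, f2⟩ := toReal_lint mu ht.1 (fun r hr => bu r (hsub r hr))
    have h1 := h t ht
    have hma : m a ≠ ⊤ := fin a ⟨le_rfl, hab⟩
    have h2 := ENNReal.toReal_mono (ENNReal.add_ne_top.2 ⟨hma, f1⟩) h1
    rw [ENNReal.toReal_add hma f1, ← f2] at h2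
    refine h2.trans (le_of_eq ?_)
    congr 1
    refine intervalIntegral.integral_congr fun r hr => ?_
    rw [uIcc_of_le ht.1] at hr
    rw [ENNReal.toReal_mul, ENNReal.toReal_ofReal (div_nonneg hc (ha.le.trans hr.1))]

/-- amount created by the seed on `(τ, 2τ)` -/
theorem seed_amount {A1 C d1 rho tau t1 : ℝ} (hA1 : 0 ≤ A1) (hC : 0 ≤ C) (hrho : 0 ≤ rho)
    (htau : 0 < tau) (ht1 : 2 * tau ≤ t1) (hsm : 2 * C * rho * tau ≤ 1)
    {m p g sp : ℝ → ℝ≥0∞} {L : ℝ≥0∞}
    (hlow : ∀ s t, tau ≤ s → s ≤ t → t ≤ t1 → p s + ∫⁻ r in Ioo s t,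
        (ENNReal.ofReal (A1 / r) * p r + ENNReal.ofReal d1 * g r + sp r) ≤
          p t + ∫⁻ r in Ioo s t, ENNReal.ofReal C * m r)
    (hr1 : ∀ t ∈ Icc tau t1, m t ≤ ENNReal.ofReal rho * p t)
    (hr2 : ∀ s t, tau ≤ s → s ≤ t → t ≤ t1 → ENNReal.ofReal (1 / 2 * (t / s) ^ A1) * p s ≤ p t)
    (hL : ∀ r ∈ Ioo tau (2 * tau), L ≤ sp r) :
    ENNReal.ofReal tau * L ≤ 2 * p (2 * tau) := by
  have h1 : ∀ r ∈ Ioo tau (2 * tau), p r ≤ 2 * p (2 * tau) := by
    intro r hr
    have hr0 : 0 < r := htau.trans hr.1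
    have h2 := hr2 r (2 * tau) hr.1.le hr.2.le ht1
    have h3 : (1 : ℝ) ≤ (2 * tau / r) ^ A1 :=
      Real.one_le_rpow ((one_le_div hr0).2 hr.2.le) hA1
    calc p r = 2 * (ENNReal.ofReal (1 / 2) * p r) := by
          rw [← mul_assoc, ← ENNReal.ofReal_ofNat, ← ENNReal.ofReal_mul (by norm_num)]
          norm_num
      _ ≤ 2 * (ENNReal.ofReal (1 / 2 * (2 * tau / r) ^ A1) * p r) := by
          gcongr
          linarith
      _ ≤ 2 * p (2 * tau) := by gcongr
  have h2 := hlow tau (2 * tau) le_rfl (by linarith) ht1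
  have h3 : ENNReal.ofReal tau * L ≤ ∫⁻ r in Ioo tau (2 * tau),
      (ENNReal.ofReal (A1 / r) * p r + ENNReal.ofReal d1 * g r + sp r) := by
    have e : ∫⁻ _ in Ioo tau (2 * tau), L = ENNReal.ofReal tau * L := by
      rw [lintegral_const, Measure.restrict_apply MeasurableSet.univ, univ_inter, Real.volume_Ioo]
      rw [show 2 * tau - tau = tau by ring, mul_comm]
    rw [← e]
    exact setLIntegral_mono' measurableSet_Ioo fun r hr => (hL r hr).trans le_add_self
  have h4 : ∫⁻ r in Ioo tau (2 * tau), ENNReal.ofReal C * m r ≤ p (2 * tau) := by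
    calc ∫⁻ r in Ioo tau (2 * tau), ENNReal.ofReal C * m r
        ≤ ∫⁻ _ in Ioo tau (2 * tau), ENNReal.ofReal (C * rho * 2) * p (2 * tau) := by
          refine setLIntegral_mono' measurableSet_Ioo fun r hr => ?_
          calc ENNReal.ofReal C * m r ≤ ENNReal.ofReal C * (ENNReal.ofReal rho * (2 * p (2 * tau))) := by
                gcongr
                exact (hr1 r ⟨hr.1.le, hr.2.le.trans ht1⟩).trans (mul_le_mul' le_rfl (h1 r hr))
            _ = _ := by
                rw [ENNReal.ofReal_mul (by positivity), ENNReal.ofReal_mul hC, ENNReal.ofReal_ofNat]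
                ring
      _ = ENNReal.ofReal (C * rho * 2) * p (2 * tau) * ENNReal.ofReal tau := by
          rw [lintegral_const, Measure.restrict_apply MeasurableSet.univ, univ_inter,
            Real.volume_Ioo]
          rw [show 2 * tau - tau = tau by ring]
      _ = ENNReal.ofReal (C * rho * 2 * tau) * p (2 * tau) := by
          rw [ENNReal.ofReal_mul (p := C * rho * 2) (by positivity)]
          ring
      _ ≤ 1 * p (2 * tau) := by
          gcongr
          rw [ENNReal.ofReal_le_one]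
          linarith
      _ = p (2 * tau) := one_mul _
  calc ENNReal.ofReal tau * L ≤ p tau + ∫⁻ r in Ioo tau (2 * tau),
      (ENNReal.ofReal (A1 / r) * p r + ENNReal.ofReal d1 * g r + sp r) := h3.trans le_add_self
    _ ≤ p (2 * tau) + ∫⁻ r in Ioo tau (2 * tau), ENNReal.ofReal C * m r := h2
    _ ≤ p (2 * tau) + p (2 * tau) := by gcongr
    _ = 2 * p (2 * tau) := by ring

end Crest.Agent.R68.X2
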