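import Crest.Agent.R68.X2Seed0
import Crest.Agent.R68.X2Seed1
import Crest.Agent.R68.LK
import Crest.Agent.R68.LAncF
import Crest.Agent.R68.LMass2

/-!
# Row 68, PART X2 (helper330): seeds

From the integrated inequalities for the weight `W` and the test function `g` to the statement
(X2) in the form consumed by Part L (`L.X2Out`).
-/

set_option autoImplicit false
open MeasureTheory Set Filter
open scoped Topology ENNReal
open Crest.AnalysisR.VecCalc3 Crest.AnalysisR.PDE.Boltzmann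

noncomputable section

namespace Crest.Agent.R68.X2

open Crest.Agent.R68.L (Den phiE Gf Dam TL sol PerF WW WW_pos meas3_WW PerF_WW)
open Crest.Agent.R68.A (Meas3)

/-! ### functionals -/

theorem measurable_MW {W h : Den} (hW : Meas3 W) (hh : Meas3 h) : Measurable (MW W h) := by
  have h1 : Measurable fun p : (ℝ × P2) × R3 => W p.1.1 p.1.2 p.2 * h p.1.1 p.1.2 p.2 :=
    (Meas3.comp hW (by fun_prop) (by fun_prop) (by fun_prop)).mul
      (Meas3.comp hh (by fun_prop) (by fun_prop) (by fun_prop))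
  have h2 : Measurable fun p : ℝ × P2 => ∫⁻ v, W p.1 p.2 v * h p.1 p.2 v :=
    Measurable.lintegral_prod_right' h1
  exact Measurable.lintegral_prod_right' (ν := (volume : Measure P2).restrict cellG) h2

theorem measurable_PW {W h : Den} (hW : Meas3 W) (hh : Meas3 h) : Measurable (PW W h) := by
  have h1 : Measurable fun p : (ℝ × P2) × R3 => W p.1.1 p.1.2 p.2 * h p.1.1 p.1.2 p.2 :=
    (Meas3.comp hW (by fun_prop) (by fun_prop) (by fun_prop)).mul
      (Meas3.comp hh (by fun_prop) (by fun_prop) (by fun_prop))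
  have h2 : Measurable fun p : ℝ × P2 => ∫⁻ v, W p.1 p.2 v * h p.1 p.2 v :=
    Measurable.lintegral_prod_right' h1
  exact Measurable.lintegral_prod_right' h2

theorem MW_mono_left {W W' h : Den} {t : ℝ} {c : ℝ≥0∞} (hc : c ≠ ⊤)
    (hle : ∀ x v, W t x v ≤ c * W' t x v) : MW W h t ≤ c * MW W' h t := by
  unfold MW
  rw [← lintegral_const_mul' _ _ hc]
  refine lintegral_mono fun x => ?_
  rw [← lintegral_const_mul' _ _ hc]
  refine lintegral_mono fun v => ?_
  dsimp only
  rw [← mul_assoc]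
  exact mul_le_mul' (hle x v) le_rfl

theorem MW_mono_right {W h h' : Den} {t : ℝ} {c : ℝ≥0∞} (hc : c ≠ ⊤)
    (hle : ∀ x v, h t x v ≤ c * h' t x v) : MW W h t ≤ c * MW W h' t := by
  unfold MW
  rw [← lintegral_const_mul' _ _ hc]
  refine lintegral_mono fun x => ?_
  rw [← lintegral_const_mul' _ _ hc]
  refine lintegral_mono fun v => ?_
  dsimp only
  calc W t x v * h t x v ≤ W t x v * (c * h' t x v) := mul_le_mul' le_rfl (hle x v)
    _ = _ := by ring

theorem MW_smul_right {W h : Den} {c : ℝ≥0∞} (hc : c ≠ ⊤) (t : ℝ) :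
    MW W (fun t x v => c * h t x v) t = c * MW W h t := by
  unfold MW
  rw [← lintegral_const_mul' _ _ hc]
  refine lintegral_congr fun x => ?_
  rw [← lintegral_const_mul' _ _ hc]
  refine lintegral_congr fun v => ?_
  ring

/-- a function supported near the origin is controlled by the periodic functional -/
theorem PW_le_MW {F W h : Den} (hW : Meas3 W) (hh : Meas3 h) (pW : ∀ t v, PerG fun x => W t x v)
    (ph : ∀ t v, PerG fun x => h t x v) {t : ℝ} {c : ℝ≥0∞} (hc : c ≠ ⊤)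
    (hz : ∀ x v, 1 / 4 < ‖x‖ → F t x v = 0) (hle : ∀ x v, F t x v ≤ c * W t x v) :
    PW F h t ≤ c * MW W h t := by
  unfold PW MW
  set f : P2 → ℝ≥0∞ := fun x => ∫⁻ v, W t x v * h t x v with hf
  have hfm : Measurable f := by
    have h1 : Measurable fun p : P2 × R3 => W t p.1 p.2 * h t p.1 p.2 :=
      (Meas3.comp hW (by fun_prop) (by fun_prop) (by fun_prop)).mul
        (Meas3.comp hh (by fun_prop) (by fun_prop) (by fun_prop))
    exact Measurable.lintegral_prod_right' h1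
  have hfp : PerG f := by
    intro x k
    simp only [hf]
    refine lintegral_congr fun v => ?_
    have h1 := pW t v x k
    have h2 := ph t v x k
    simp only at h1 h2
    rw [h1, h2]
  have hb := LMass.lintegral_ball_le hfm hfp 0 (ρ := 1 / 4) (by norm_num)
  have hS : MeasurableSet {y : P2 | ‖y - 0‖ ≤ 1 / 4} :=
    measurableSet_le (by fun_prop) measurable_const
  calc ∫⁻ x, ∫⁻ v, F t x v * h t x v
      ≤ ∫⁻ x, {y : P2 | ‖y - 0‖ ≤ 1 / 4}.indicator (fun x => c * f x) x := by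
        refine lintegral_mono fun x => ?_
        by_cases hx : x ∈ {y : P2 | ‖y - 0‖ ≤ 1 / 4}
        · rw [indicator_of_mem hx]
          simp only [hf]
          rw [← lintegral_const_mul' _ _ hc]
          refine lintegral_mono fun v => ?_
          dsimp only
          rw [← mul_assoc]
          exact mul_le_mul' (hle x v) le_rfl
        · rw [indicator_of_notMem hx]
          have hx' : 1 / 4 < ‖x‖ := by
            simp only [sub_zero, mem_ofPred_eq, not_le] at hx
            exact hx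
          simp [hz x _ hx']
    _ = c * ∫⁻ x in {y : P2 | ‖y - 0‖ ≤ 1 / 4}, f x := by
        rw [lintegral_indicator hS, lintegral_const_mul' _ _ hc]
    _ ≤ c * ∫⁻ x in cellG, f x := mul_le_mul' le_rfl hb

/-! ### the unit seed -/

/-- unit seed at the scale `τ` -/
def seed1 (v0 : R3) (τ : ℝ) : Den := fun t x v =>
  open scoped Classical in
    if τ < t ∧ t < 2 * τ ∧ distG x ≤ τ / 2 ∧ ‖v - v0‖ ≤ 1 / 4 then 1 else 0

theorem meas3_seed1 (v0 : R3) (τ : ℝ) : Meas3 (seed1 v0 τ) := by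
  classical
  unfold Meas3 seed1
  refine Measurable.ite ?_ measurable_const measurable_const
  have h2 : Measurable fun p : ℝ × P2 × R3 => distG p.2.1 :=
    measurable_distG.comp (measurable_fst.comp measurable_snd)
  have h3 : Measurable fun p : ℝ × P2 × R3 => ‖p.2.2 - v0‖ := by fun_prop
  exact (measurableSet_lt measurable_const measurable_fst).inter
    ((measurableSet_lt measurable_fst measurable_const).inter
      ((measurableSet_le h2 measurable_const).inter
        (measurableSet_le h3 measurable_const)))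

theorem perF_seed1 (v0 : R3) (τ : ℝ) : PerF (seed1 v0 τ) := by
  intro t v x k
  show seed1 v0 τ t (x + latt k) v = seed1 v0 τ t x v
  unfold seed1
  rw [distG_add_latt]

theorem seed1_zero {v0 : R3} {τ t : ℝ} (h : t ≤ τ ∨ 2 * τ ≤ t) (x : P2) (v : R3) :
    seed1 v0 τ t x v = 0 := by
  unfold seed1
  rw [if_neg]
  rintro ⟨h1, h2, -, -⟩
  rcases h with h | h <;> linarith

theorem seed1_le_one (v0 : R3) (τ t : ℝ) (x : P2) (v : R3) : seed1 v0 τ t x v ≤ 1 := by
  unfold seed1
  split_ifs <;> simp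

/-- lower bound of `B2` on the seed set -/
theorem B2_ge {P : Par} {g1 g2 b t V : ℝ} (hg1 : 0 ≤ g1) (hg2 : 0 ≤ g2) (ht : 0 < t)
    {x : P2} {v : R3} (hv : ‖v‖ ≤ V) (hx : distG x ≤ V * t) :
    ENNReal.ofReal (t ^ b * Real.exp (-(g1 + g2) * V ^ 2)) ≤ B2 P g1 g2 b t x v := by
  unfold B2
  refine le_trans ?_ (le_mul_of_one_le_right zero_le (K.one_le_Dm P t x v))
  refine ENNReal.ofReal_le_ofReal ?_
  rw [mul_assoc]
  refine mul_le_mul_of_nonneg_left ?_ (Real.rpow_nonneg ht.le _)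
  unfold gau
  rw [← Real.exp_add]
  refine Real.exp_le_exp.2 ?_
  have h1 : max ‖v‖ (distG x / t) ≤ V := max_le hv ((div_le_iff₀ ht).2 hx)
  have h2 : 0 ≤ max ‖v‖ (distG x / t) := (norm_nonneg v).trans (le_max_left _ _)
  have h3 : (max ‖v‖ (distG x / t)) ^ 2 ≤ V ^ 2 := pow_le_pow_left₀ h2 h1 2
  have h4 : ‖v‖ ^ 2 ≤ V ^ 2 := pow_le_pow_left₀ (norm_nonneg _) hv 2
  have h5 : 0 ≤ √t / 100 * ‖v‖ ^ 2 := by positivity
  nlinarith [mul_le_mul_of_nonneg_left h3 hg2, mul_le_mul_of_nonneg_left h4 hg1]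

/-- the seed is bounded by the envelope -/
theorem seed1_le_B2 {P : Par} {g1 g2 : ℝ} (hg1 : 0 ≤ g1) (hg2 : 0 ≤ g2) (b : ℝ) (v0 : R3) (τ : ℝ)
    {t : ℝ} (ht : 0 < t) (x : P2) (v : R3) :
    seed1 v0 τ t x v ≤ ENNReal.ofReal (t ^ (-b) * Real.exp ((g1 + g2) * (‖v0‖ + 1) ^ 2)) *
      B2 P g1 g2 b t x v := by
  unfold seed1
  split_ifs with h
  · obtain ⟨h1, h2, h3, h4⟩ := h
    have hv : ‖v‖ ≤ ‖v0‖ + 1 := by
      have := norm_add_le (v - v0) v0
      rw [sub_add_cancel] at this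
      linarith
    have hx : distG x ≤ (‖v0‖ + 1) * t := by
      have := norm_nonneg v0
      nlinarith
    have h5 := B2_ge (P := P) (b := b) hg1 hg2 ht hv hx
    refine le_trans (le_of_eq ?_) (mul_le_mul' le_rfl h5)
    rw [← ENNReal.ofReal_mul (by positivity), ← ENNReal.ofReal_one]
    congr 1
    have e1 : t ^ (-b) * t ^ b = 1 := by
      rw [← Real.rpow_add ht]; simp
    have e2 : Real.exp ((g1 + g2) * (‖v0‖ + 1) ^ 2) * Real.exp (-(g1 + g2) * (‖v0‖ + 1) ^ 2) = 1 := by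
      rw [← Real.exp_add]; ring_nf; exact Real.exp_zero
    calc (1 : ℝ) = (t ^ (-b) * t ^ b) * (Real.exp ((g1 + g2) * (‖v0‖ + 1) ^ 2) *
          Real.exp (-(g1 + g2) * (‖v0‖ + 1) ^ 2)) := by rw [e1, e2]; ring
      _ = _ := by ring
  · exact zero_le

/-! ### the size of the seed set -/

/-- volume of the velocity ball -/
def V3 (v0 : R3) : ℝ≥0∞ := volume {v : R3 | ‖v - v0‖ ≤ 1 / 4}

theorem setOf_ball (v0 : R3) : {v : R3 | ‖v - v0‖ ≤ 1 / 4} = Metric.closedBall v0 (1 / 4) := by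
  ext v
  simp [dist_eq_norm]

theorem V3_pos (v0 : R3) : V3 v0 ≠ 0 := by
  unfold V3
  rw [setOf_ball]
  exact (Metric.measure_closedBall_pos volume v0 (by norm_num)).ne'

theorem V3_ne_top (v0 : R3) : V3 v0 ≠ ⊤ := by
  unfold V3
  rw [setOf_ball]
  exact measure_closedBall_lt_top.ne

theorem measurableSet_ball (v0 : R3) : MeasurableSet {v : R3 | ‖v - v0‖ ≤ 1 / 4} :=
  measurableSet_le (by fun_prop) measurable_const

theorem vol_square {ρ : ℝ} (hρ : 0 ≤ ρ) :
    volume {x : P2 | ‖x‖ ≤ ρ} = ENNReal.ofReal (4 * ρ ^ 2) := by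
  have e : {x : P2 | ‖x‖ ≤ ρ} = Metric.closedBall 0 ρ := by
    ext x; simp
  rw [e]
  have e2 : (Metric.closedBall (0 : P2) ρ) = Metric.closedBall (0 : ℝ) ρ ×ˢ
      Metric.closedBall (0 : ℝ) ρ := (closedBall_prod_same 0 0 ρ).symm
  rw [e2]
  have e3 : (volume : Measure P2) = (volume : Measure ℝ).prod volume := rfl
  rw [e3, Measure.prod_prod, Real.volume_closedBall, ← ENNReal.ofReal_mul (by positivity)]
  congr 1; ring

/-- lower bound of the seed functional -/
theorem PW_seed_ge {g : Den} {v0 : R3} {τ t c1 : ℝ} (hτ : 0 < τ) (ht : t ∈ Ioo τ (2 * τ))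
    (hsg : ∀ x v, ‖x‖ ≤ t / 2 → ‖v - v0‖ ≤ 1 / 4 → ENNReal.ofReal c1 ≤ g t x v) :
    ENNReal.ofReal c1 * ENNReal.ofReal (τ ^ 2) * V3 v0 ≤ PW g (seed1 v0 τ) t := by
  have h1 : ∀ x ∈ {x : P2 | ‖x‖ ≤ τ / 2}, ENNReal.ofReal c1 * V3 v0 ≤
      ∫⁻ v, g t x v * seed1 v0 τ t x v := by
    intro x hx
    have hx' : ‖x‖ ≤ τ / 2 := hx
    calc ENNReal.ofReal c1 * V3 v0
        = ∫⁻ _ in {v : R3 | ‖v - v0‖ ≤ 1 / 4}, ENNReal.ofReal c1 := by
          rw [setLIntegral_const]; rfl
      _ ≤ ∫⁻ v in {v : R3 | ‖v - v0‖ ≤ 1 / 4}, g t x v * seed1 v0 τ t x v := by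
          refine setLIntegral_mono' (measurableSet_ball v0) fun v hv => ?_
          have hv' : ‖v - v0‖ ≤ 1 / 4 := hv
          have e : seed1 v0 τ t x v = 1 := by
            unfold seed1
            rw [if_pos ⟨ht.1, ht.2, (distG_le_norm x).trans hx', hv'⟩]
          rw [e, mul_one]
          exact hsg x v (by linarith [ht.1]) hv'
      _ ≤ ∫⁻ v, g t x v * seed1 v0 τ t x v := setLIntegral_le_lintegral _ _
  have hS : MeasurableSet {x : P2 | ‖x‖ ≤ τ / 2} := measurableSet_le (by fun_prop) measurable_const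
  calc ENNReal.ofReal c1 * ENNReal.ofReal (τ ^ 2) * V3 v0
      = ∫⁻ _ in {x : P2 | ‖x‖ ≤ τ / 2}, ENNReal.ofReal c1 * V3 v0 := by
        rw [setLIntegral_const, vol_square (by linarith)]
        have : 4 * (τ / 2) ^ 2 = τ ^ 2 := by ring
        rw [this]; ring
    _ ≤ ∫⁻ x in {x : P2 | ‖x‖ ≤ τ / 2}, ∫⁻ v, g t x v * seed1 v0 τ t x v :=
        setLIntegral_mono' hS h1
    _ ≤ PW g (seed1 v0 τ) t := setLIntegral_le_lintegral _ _

/-- area of the periodic seed set -/
theorem area_seed {ρ : ℝ} (hρ : 0 ≤ ρ) :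
    ∫⁻ x in cellG, {x : P2 | distG x ≤ ρ}.indicator 1 x ≤ ENNReal.ofReal (4 * ρ ^ 2) := by
  have hS : MeasurableSet {x : P2 | ‖x‖ ≤ ρ} := measurableSet_le (by fun_prop) measurable_const
  have hG : Measurable ({x : P2 | ‖x‖ ≤ ρ}.indicator (1 : P2 → ℝ≥0∞)) := measurable_one.indicator hS
  calc ∫⁻ x in cellG, {x : P2 | distG x ≤ ρ}.indicator 1 x
      ≤ ∫⁻ x in cellG, ∑' k : ℤ × ℤ, {x : P2 | ‖x‖ ≤ ρ}.indicator 1 (x + latt k) := by
        refine lintegral_mono fun x => ?_
        by_cases hx : x ∈ {x : P2 | distG x ≤ ρ}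
        · obtain ⟨k, hk⟩ := exists_distG_eq x
          rw [indicator_of_mem hx]
          refine le_trans ?_ (ENNReal.le_tsum k)
          rw [indicator_of_mem (show x + latt k ∈ {x : P2 | ‖x‖ ≤ ρ} by
            show ‖x + latt k‖ ≤ ρ
            rw [← hk]; exact hx)]
          simp
        · rw [indicator_of_notMem hx]; exact zero_le
    _ = ∫⁻ x, {x : P2 | ‖x‖ ≤ ρ}.indicator 1 x := lintegral_cellG_tsum hG
    _ = ENNReal.ofReal (4 * ρ ^ 2) := by
        rw [lintegral_indicator_one hS, vol_square hρ]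

/-- upper bound of the mass of the seed -/
theorem MW_seed_le {W : Den} {v0 : R3} {τ t C : ℝ} (hτ : 0 < τ) (ht : t ∈ Ioo τ (2 * τ))
    (hsW : ∀ x v, distG x ≤ t / 2 → ‖v - v0‖ ≤ 1 / 4 → W t x v ≤ ENNReal.ofReal C) :
    MW W (seed1 v0 τ) t ≤ ENNReal.ofReal C * ENNReal.ofReal (τ ^ 2) * V3 v0 := by
  have h1 : ∀ x, ∫⁻ v, W t x v * seed1 v0 τ t x v ≤
      ENNReal.ofReal C * V3 v0 * {x : P2 | distG x ≤ τ / 2}.indicator 1 x := by
    intro x
    by_cases hx : x ∈ {x : P2 | distG x ≤ τ / 2}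
    · rw [indicator_of_mem hx]
      have hx' : distG x ≤ τ / 2 := hx
      calc ∫⁻ v, W t x v * seed1 v0 τ t x v
          ≤ ∫⁻ v, {v : R3 | ‖v - v0‖ ≤ 1 / 4}.indicator (fun _ => ENNReal.ofReal C) v := by
            refine lintegral_mono fun v => ?_
            by_cases hv : v ∈ {v : R3 | ‖v - v0‖ ≤ 1 / 4}
            · rw [indicator_of_mem hv]
              exact (mul_le_of_le_one_right' (seed1_le_one _ _ _ _ _)).trans
                (hsW x v (by linarith [ht.1]) hv)
            · rw [indicator_of_notMem hv]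
              have : seed1 v0 τ t x v = 0 := by
                unfold seed1
                rw [if_neg]
                rintro ⟨-, -, -, h⟩
                exact hv h
              rw [this, mul_zero]
        _ = ENNReal.ofReal C * V3 v0 := by
            rw [lintegral_indicator (measurableSet_ball v0), setLIntegral_const]; rfl
        _ = _ := by simp
    · rw [indicator_of_notMem hx]
      have : ∀ v, seed1 v0 τ t x v = 0 := by
        intro v
        unfold seed1
        rw [if_neg]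
        rintro ⟨-, -, h, -⟩
        exact hx h
      simp [this]
  unfold MW
  calc ∫⁻ x in cellG, ∫⁻ v, W t x v * seed1 v0 τ t x v
      ≤ ∫⁻ x in cellG, ENNReal.ofReal C * V3 v0 * {x : P2 | distG x ≤ τ / 2}.indicator 1 x :=
        lintegral_mono h1
    _ = ENNReal.ofReal C * V3 v0 * ∫⁻ x in cellG, {x : P2 | distG x ≤ τ / 2}.indicator 1 x :=
        lintegral_const_mul' _ _ (ENNReal.mul_ne_top ENNReal.ofReal_ne_top (V3_ne_top v0))
    _ ≤ ENNReal.ofReal C * V3 v0 * ENNReal.ofReal (4 * (τ / 2) ^ 2) :=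
        mul_le_mul' le_rfl (area_seed (by linarith))
    _ = _ := by
        have : 4 * (τ / 2) ^ 2 = τ ^ 2 := by ring
        rw [this]; ring

theorem MW_seed_zero {W : Den} {v0 : R3} {τ t : ℝ} (h : t ≤ τ ∨ 2 * τ ≤ t) :
    MW W (seed1 v0 τ) t = 0 := by
  unfold MW
  simp [seed1_zero h]

/-! ### the solution of the unit seed -/

theorem Dam_zero_of {φ q : Den} {τ : ℝ} (hq : ∀ s x v, s ≤ τ → q s x v = 0) {t : ℝ} (ht : t ≤ τ)
    (x : P2) (v : R3) : Dam φ q t x v = 0 := by
  unfold L.Dam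
  rw [setLIntegral_congr_fun (g := fun _ => 0) measurableSet_Ioo]
  · simp
  · intro s hs
    simp only
    rw [hq _ _ _ (hs.2.le.trans ht), mul_zero]

theorem seedH_unit {P : Par} (hP : P.Ok) {g1 g2 T : ℝ} (hg1 : 0 < g1) (hg2 : 0 ≤ g2)
    (hT1 : T ≤ 1) (hTg : √T / 100 ≤ g1 / 2) (v0 : R3) {τ : ℝ} (hτ : 0 < τ) :
    SeedH P g1 g2 τ T (seed1 v0 τ) (sol (phiE P) (seed1 v0 τ)) := by
  have hφ := L.meas3_phiE hP
  have pφ : PerF (phiE P) := fun t v => L.perG_phiE P t v
  have hms := meas3_seed1 v0 τ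
  have hsB : ∀ t, 0 < t → t ≤ T → ∀ x v, seed1 v0 τ t x v ≤
      ENNReal.ofReal (Real.exp ((g1 + g2) * (‖v0‖ + 1) ^ 2)) * B2 P g1 g2 0 t x v := by
    intro t ht _ x v
    have := seed1_le_B2 (P := P) hg1.le hg2 0 v0 τ ht x v
    rwa [neg_zero, Real.rpow_zero, one_mul] at this
  have hYK : 0 ≤ L.CT P.Y g1 g2 * P.K := mul_nonneg (L.CT_nonneg _ _ _) hP.K0
  have hzero : ∀ t, t ≤ τ → ∀ x v, sol (phiE P) (seed1 v0 τ) t x v = 0 := by
    intro t ht x v
    have hD0 : ∀ t x v, t ≤ τ → Dam (phiE P) (seed1 v0 τ) t x v = 0 := fun t x v ht =>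
      Dam_zero_of (fun s x v hs => seed1_zero (Or.inl hs) x v) ht x v
    have hit : ∀ n : ℕ, ∀ t x v, t ≤ τ → (TL (phiE P))^[n] (Dam (phiE P) (seed1 v0 τ)) t x v = 0 := by
      intro n
      induction n with
      | zero => exact hD0
      | succ n ih =>
        intro t x v ht
        rw [Function.iterate_succ_apply']
        exact Dam_zero_of (fun s x v hs => L.Gf_eq_zero (fun v => ih s x v hs) v) ht x v
    unfold L.sol
    simp [hit _ t x v ht]
  refine ⟨hms, L.meas3_sol hφ hms, fun t v => perF_seed1 v0 τ t v,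
    fun t v => L.PerF_sol pφ (perF_seed1 v0 τ) t v, ?_, hzero, ?_, ⟨_, ENNReal.ofReal_ne_top, hsB⟩⟩
  · intro t _ _ x v
    rw [L.sol_eq hφ hms]
    rw [L.Dam_add hφ (L.meas3_Gf hφ (L.meas3_sol hφ hms))]
    rfl
  · refine ⟨ENNReal.ofReal (Real.exp ((g1 + g2) * (‖v0‖ + 1) ^ 2) * T *
      (T / τ) ^ (L.CT P.Y g1 g2 * P.K)), ENNReal.ofReal_ne_top, fun t ht htT x v => ?_⟩
    rcases le_or_gt t τ with h | h
    · rw [hzero t h]; exact zero_le
    have hT0 : 0 < T := ht.trans_le htT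
    have hcr := L.sol_crude (φ := phiE P) (E := WW P g1 g2 0) (T := T) (τ0 := τ)
      (C := L.CT P.Y g1 g2 * P.K) (A := Real.exp ((g1 + g2) * (‖v0‖ + 1) ^ 2))
      hφ (meas3_WW hP.Y0 g1 g2 0) ?_ hYK (Real.exp_pos _).le ?_ hτ
      (σ := seed1 v0 τ) (fun t x v ht => seed1_zero (Or.inl ht) x v) ?_ h.le htT x v
    · rw [WW_pos ht] at hcr
      refine hcr.trans (mul_le_mul' (ENNReal.ofReal_le_ofReal ?_) le_rfl)
      refine mul_le_mul_of_nonneg_left ?_ (by positivity)
      exact Real.rpow_le_rpow (by positivity) (by gcongr) hYK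
    · intro s t x v hs hst htT
      rw [WW_pos hs, WW_pos (hs.trans_le hst)]
      refine (K.B2_flight P hg2 hs hst x v).trans ?_
      rw [Real.rpow_zero, ENNReal.ofReal_one, one_mul]
    · intro s x v hs hsT
      have e : Gf (phiE P) (WW P g1 g2 0) s x v = Gf (phiE P) (B2 P g1 g2 0) s x v := by
        refine le_antisymm (L.Gf_mono_at (fun z => ?_) v) (L.Gf_mono_at (fun z => ?_) v)
        · rw [WW_pos hs]
        · rw [WW_pos hs]
      rw [e, WW_pos hs]
      have hsg : √s / 100 ≤ g1 / 2 := by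
        have := Real.sqrt_le_sqrt hsT
        linarith
      refine (L.K2_Gf hP hg1 hg2 hs (hsT.trans hT1) hsg x v).trans ?_
      refine mul_le_mul' (ENNReal.ofReal_le_ofReal ?_) le_rfl
      have hV : 0 < L.VV P.Y := by
        unfold L.VV
        have := hP.Y0
        positivity
      have h1 : L.VV P.Y / max (L.VV P.Y) ‖v‖ ≤ 1 := by
        rw [div_le_one (lt_max_of_lt_left hV)]
        exact le_max_left _ _
      refine mul_le_of_le_one_right ?_ h1
      positivity
    · intro t x v ht htT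
      rw [WW_pos ht]
      exact hsB t ht htT x v

end Crest.Agent.R68.X2
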