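import Crest.Agent.R68.X2Int
import Crest.Agent.R68.X2Seed2

/-!
# Row 68, PART X2 (helper330): the field `low` of `SeedData` from `int_low`
-/

set_option autoImplicit false
open MeasureTheory Set Filter
open scoped Topology ENNReal
open Crest.AnalysisR.VecCalc3 Crest.AnalysisR.PDE.Boltzmann

noncomputable section

namespace Crest.Agent.R68.X2

open Crest.Agent.R68.L (Den Gf Dam TL sol PerF)
open Crest.Agent.R68.A (Meas3)

/-- the field `low` -/
theorem low_field {P : Par} (hP : P.Ok) {g1 g2 T : ℝ} {X : XP} {W g kp em R D : Den}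
    (mW : Meas3 W) (pW : ∀ t v, PerG (fun x => W t x v))
    (mg : Meas3 g) (mΨ : Meas3 (psiE X)) (mk : Meas3 kp) (me : Meas3 em) (mR : Meas3 R)
    {a d1 C Z : ℝ} (ha : 0 ≤ a) (hd1 : 0 < d1) (hC : 0 ≤ C)
    (hsupp : ∀ t, 0 < t → t ≤ T → ∀ x v, ‖x‖ > Z * t → g t x v = 0 ∧ kp t x v = 0 ∧ em t x v = 0)
    (hb : ∀ τ, 0 < τ → ∃ B : ℝ≥0∞, B ≠ ⊤ ∧ ∀ t, τ / 2 ≤ t → t ≤ T → ∀ x v,
      g t x v ≤ B ∧ kp t x v ≤ B ∧ em t x v ≤ B)
    (hfin : ∃ B : ℝ≥0∞, B ≠ ⊤ ∧ ∀ t, 0 < t → t ≤ T →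
      ∫⁻ x in {x : P2 | ‖x‖ ≤ Z * t}, ∫⁻ v, ENNReal.ofReal (1 + ‖v‖) * B2 P g1 g2 0 t x v ≤ B)
    (hpw : ∀ t, 0 < t → t ≤ T → ∀ x v, kp t x v + Lc (L.phiE P t x) v * g t x v
      + ENNReal.ofReal (a / t) * psiE X t x v + ENNReal.ofReal d1 * GA (L.phiE P) (psiE X) t x v
      ≤ em t x v + GA (L.phiE P) g t x v + R t x v)
    (hfl : ∀ s r : ℝ, 0 < s → s ≤ r → r ≤ T → ∀ (x : P2) (v : R3),
      g s x v + ∫⁻ ρ in Ioo s r, em ρ (x + (ρ - s) • bar v) v
      ≤ g r (x + (r - s) • bar v) v + ∫⁻ ρ in Ioo s r, kp ρ (x + (ρ - s) • bar v) v)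
    (hR : ∀ t, 0 < t → t ≤ T → ∀ x v, (1 / 4 < ‖x‖ → R t x v = 0) ∧
      R t x v ≤ ENNReal.ofReal C * W t x v)
    (hD : ∀ t, 0 < t → t ≤ T → ∀ x v, (1 / 4 < ‖x‖ → D t x v = 0) ∧
      D t x v ≤ ENNReal.ofReal (C * t) * W t x v)
    (hgΨ : ∀ t, 0 < t → t ≤ T → ∀ x v, g t x v ≤ psiE X t x v + D t x v) :
    ∀ (τ : ℝ) (σ H : Den), 0 < τ → SeedH P g1 g2 τ T σ H → ∀ s t, τ ≤ s → s ≤ t → t ≤ T →
    PW g H s + ∫⁻ r in Ioo s t, (ENNReal.ofReal (a / r) * PW g H r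
      + ENNReal.ofReal d1 * MW (GA (L.phiE P) (psiP X)) H r + PW g σ r)
      ≤ PW g H t + ∫⁻ r in Ioo s t, ENNReal.ofReal (C + a * C) * MW W H r := by
  intro τ σ H hτ hH s t hs hst ht
  have h1 := int_low hP hτ hH mg mΨ mk me mR ha hd1 hsupp (hb τ hτ) hfin hpw hfl s t hs hst ht
  have hmm := measurable_MW mW hH.mH
  have hPW : ∀ r ∈ Ioo s t, PW g H r ≤ PW (psiE X) H r + ENNReal.ofReal (C * r) * MW W H r := by
    intro r hr
    have hr0 : 0 < r := hτ.trans_le (hs.trans hr.1.le)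
    have hrT : r ≤ T := hr.2.le.trans ht
    have e1 : PW D H r ≤ ENNReal.ofReal (C * r) * MW W H r :=
      PW_le_MW mW hH.mH pW hH.pH ENNReal.ofReal_ne_top (fun x v => (hD r hr0 hrT x v).1)
        (fun x v => (hD r hr0 hrT x v).2)
    refine le_trans ?_ (add_le_add le_rfl e1)
    unfold PW
    have m1 : Measurable fun p : P2 × R3 => psiE X r p.1 p.2 * H r p.1 p.2 :=
      (Meas3.comp mΨ (by fun_prop) (by fun_prop) (by fun_prop)).mul
        (Meas3.comp hH.mH (by fun_prop) (by fun_prop) (by fun_prop))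
    have m2 : Measurable fun x : P2 => ∫⁻ v, psiE X r x v * H r x v :=
      Measurable.lintegral_prod_right' m1
    rw [← lintegral_add_left m2]
    refine lintegral_mono fun x => ?_
    have m3 : Measurable fun v : R3 => psiE X r x v * H r x v :=
      m1.comp (g := fun p : P2 × R3 => psiE X r p.1 p.2 * H r p.1 p.2) (f := fun v : R3 => (x, v))
        (by fun_prop)
    rw [← lintegral_add_left m3]
    refine lintegral_mono fun v => ?_
    dsimp only
    rw [← add_mul]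
    exact mul_le_mul' (hgΨ r hr0 hrT x v) le_rfl
  have hRr : ∀ r ∈ Ioo s t, PW R H r ≤ ENNReal.ofReal C * MW W H r := by
    intro r hr
    have hr0 : 0 < r := hτ.trans_le (hs.trans hr.1.le)
    have hrT : r ≤ T := hr.2.le.trans ht
    exact PW_le_MW mW hH.mH pW hH.pH ENNReal.ofReal_ne_top (fun x v => (hR r hr0 hrT x v).1)
      (fun x v => (hR r hr0 hrT x v).2)
  have h2 : ∫⁻ r in Ioo s t, (ENNReal.ofReal (a / r) * PW g H r
      + ENNReal.ofReal d1 * MW (GA (L.phiE P) (psiP X)) H r + PW g σ r) ≤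
      (∫⁻ r in Ioo s t, (ENNReal.ofReal (a / r) * PW (psiE X) H r
        + ENNReal.ofReal d1 * PW (GA (L.phiE P) (psiE X)) H r + PW g σ r)) +
        ∫⁻ r in Ioo s t, ENNReal.ofReal (a * C) * MW W H r := by
    rw [← lintegral_add_right _ (hmm.const_mul _)]
    refine setLIntegral_mono' measurableSet_Ioo fun r hr => ?_
    have hr0 : 0 < r := hτ.trans_le (hs.trans hr.1.le)
    have e1 : ENNReal.ofReal (a / r) * PW g H r ≤ ENNReal.ofReal (a / r) * PW (psiE X) H r +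
        ENNReal.ofReal (a * C) * MW W H r := by
      refine (mul_le_mul' le_rfl (hPW r hr)).trans (le_of_eq ?_)
      rw [mul_add, ← mul_assoc (ENNReal.ofReal (a / r)) (ENNReal.ofReal (C * r)),
        ← ENNReal.ofReal_mul (div_nonneg ha hr0.le)]
      congr 3
      field_simp
    have e2 : MW (GA (L.phiE P) (psiP X)) H r = PW (GA (L.phiE P) (psiE X)) H r :=
      (PW_eq_MW hP hH.mH hH.pH r).symm
    rw [e2]
    calc ENNReal.ofReal (a / r) * PW g H r + ENNReal.ofReal d1 * PW (GA (L.phiE P) (psiE X)) H r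
          + PW g σ r
        ≤ (ENNReal.ofReal (a / r) * PW (psiE X) H r + ENNReal.ofReal (a * C) * MW W H r)
          + ENNReal.ofReal d1 * PW (GA (L.phiE P) (psiE X)) H r + PW g σ r :=
          add_le_add (add_le_add e1 le_rfl) le_rfl
      _ = _ := by ring
  calc PW g H s + ∫⁻ r in Ioo s t, (ENNReal.ofReal (a / r) * PW g H r
      + ENNReal.ofReal d1 * MW (GA (L.phiE P) (psiP X)) H r + PW g σ r)
      ≤ (PW g H s + ∫⁻ r in Ioo s t, (ENNReal.ofReal (a / r) * PW (psiE X) H r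
        + ENNReal.ofReal d1 * PW (GA (L.phiE P) (psiE X)) H r + PW g σ r)) +
        ∫⁻ r in Ioo s t, ENNReal.ofReal (a * C) * MW W H r := by
        rw [add_assoc]
        exact add_le_add le_rfl h2
    _ ≤ (PW g H t + ∫⁻ r in Ioo s t, PW R H r) +
        ∫⁻ r in Ioo s t, ENNReal.ofReal (a * C) * MW W H r := add_le_add h1 le_rfl
    _ ≤ (PW g H t + ∫⁻ r in Ioo s t, ENNReal.ofReal C * MW W H r) +
        ∫⁻ r in Ioo s t, ENNReal.ofReal (a * C) * MW W H r :=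
        add_le_add (add_le_add le_rfl (setLIntegral_mono' measurableSet_Ioo hRr)) le_rfl
    _ = PW g H t + ∫⁻ r in Ioo s t, ENNReal.ofReal (C + a * C) * MW W H r := by
        rw [add_assoc, ← lintegral_add_left (hmm.const_mul _)]
        congr 1
        refine lintegral_congr fun r => ?_
        rw [← add_mul, ← ENNReal.ofReal_add hC (mul_nonneg ha hC)]

end Crest.Agent.R68.X2
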