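import Crest.Agent.R68.X2PwLow
import Crest.Agent.R68.X2F0
import Crest.Agent.R68.X2Corr

/-!
# Row 68, PART X2 (helper546): the pointwise inequality for the corrected test function, final form
-/

set_option autoImplicit false
open MeasureTheory Set Filter
open scoped ENNReal Real
open Crest.AnalysisR.VecCalc3 Crest.AnalysisR.PDE.Boltzmann

noncomputable section

namespace Crest.Agent.R68.X2

open Crest.Agent.R68.L (Den Gf Dam TL sol)

/-- the facts on `f0` used by `pw_low_of` -/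
theorem PL.F0Ok_of {X : XP} {P : Par} {Y ey N d1 Zs Vs : ℝ} (h : LowOK X P Y ey N d1 Zs Vs) :
    ∃ C : ℝ, PL.F0Ok X C := by
  obtain ⟨C, hC1, h1, h2, h3⟩ := f0_facts h.tent X.B X.d h.B1 h.d0
  exact ⟨C, hC1, fun z v => (h1 z v).1, fun z v => (h1 z v).2, h3, fun z v hz => (h2 z v hz).2.2⟩

/-- LOWER, pointwise, exactly as in XIface -/
theorem pw_low {X : XP} {P : Par} {Y ey N d1 Zs Vs Cg C' : ℝ} (h : LowOK X P Y ey N d1 Zs Vs)
    (hCg : 0 ≤ Cg) (_hN : N = 197 / 100 * π * P.K)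
    (hf : ∀ (z : P2) (v : R3) (k : ℝ), 0 ≤ k → k ≤ 1 → (|z.2| ≤ X.Yp → k = 1) →
      (Y ≤ |z.2| → k = 0) →
      193 / 200 * N * f0 X z v ≤ L0 X z v
        + 197 / 400 * (ws X d1 (P.K * k) 1 z v + ws X d1 (P.K * k) (-1) z v)) :
    ∃ t0 C : ℝ, 0 < t0 ∧ 0 ≤ C ∧ ∀ t, 0 < t → t ≤ t0 → ∀ (x : P2) (v : R3),
      ENNReal.ofReal (-(Lg X P d1 Zs Vs C' t x v))
        + Lc (L.phiE P t x) v * ENNReal.ofReal (gL X P d1 Zs Vs Cg t x v)
        + ENNReal.ofReal (193 / 200 * N / t) * psiE X t x v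
        + ENNReal.ofReal d1 * GA (L.phiE P) (psiE X) t x v
      ≤ ENNReal.ofReal (Lg X P d1 Zs Vs C' t x v)
        + GA (L.phiE P) (fun t x v => ENNReal.ofReal (gL X P d1 Zs Vs Cg t x v)) t x v
        + ENNReal.ofReal (C * (if ‖x‖ ≤ C * t then (1 + ‖v‖) else 0)) := by
  obtain ⟨C0, hF⟩ := PL.F0Ok_of h
  exact pw_low_of h hF hCg (corr_small h) hf

end Crest.Agent.R68.X2
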