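import Crest.Agent.R68.XDefs2
import Crest.Agent.R68.X2Gs
import Crest.Agent.R68.EGeom

/-!
# Row 68, PART X2: pointwise upper inequality of the Harnack weight (helper211)
-/

set_option autoImplicit false
open MeasureTheory Set Filter
open scoped ENNReal Real
open Crest.AnalysisR.VecCalc3 Crest.AnalysisR.PDE.Boltzmann

noncomputable section

namespace Crest.Agent.R68.X2

open Crest.Agent.R68.L (Den phiE Gf Dam TL sol)
open Crest.Agent.R68.X (chs)
open Crest.Agent.R68.A (Meas3)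

namespace PwOm

theorem meas3_slice {F : Den} (hF : Meas3 F) (t : ℝ) (x : P2) : Measurable (F t x) := by
  have h : Measurable fun v : R3 => (t, x, v) := by fun_prop
  exact (show Measurable fun p : ℝ × P2 × R3 => F p.1 p.2.1 p.2.2 from hF).comp h

/-! ### tools on `gsE`, `gsR` -/

theorem gsE_mono_on {g h : R3 → ℝ≥0∞} {v u : R3}
    (hgh : ∀ w, ‖w‖ ^ 2 ≤ ‖v‖ ^ 2 + ‖u‖ ^ 2 → g w ≤ h w) : gsE g v u ≤ gsE h v u := by
  unfold gsE
  refine lintegral_mono_ae ?_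
  filter_upwards [ae_sphereMeasure] with w hw
  have e := post_norm_sq hw v u
  refine mul_le_mul_right (add_le_add (hgh _ ?_) (hgh _ ?_)) _
  · nlinarith [sq_nonneg ‖postVelStar v u w‖]
  · nlinarith [sq_nonneg ‖postVel v u w‖]

theorem gsE_smul {g : R3 → ℝ≥0∞} (hg : Measurable g) (c : ℝ≥0∞) (v u : R3) :
    gsE (fun w => c * g w) v u = c * gsE g v u := XSph.gs_const_mul hg c v u

theorem continuous_post (v u : R3) : Continuous fun w : R3 => postVel v u w := by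
  unfold postVel; fun_prop

theorem continuous_postStar (v u : R3) : Continuous fun w : R3 => postVelStar v u w := by
  unfold postVelStar; fun_prop

theorem gsE_ofReal_cont {g : R3 → ℝ} (hg : Continuous g) (h0 : ∀ w, 0 ≤ g w) (v u : R3) :
    gsE (fun w => ENNReal.ofReal (g w)) v u = ENNReal.ofReal (gsR g v u) := by
  unfold gsE gsR
  have hc : Continuous fun w : R3 => |(inner ℝ (v - u) w : ℝ)| *
      (g (postVel v u w) + g (postVelStar v u w)) := by
    have h1 := continuous_post v u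
    have h2 := continuous_postStar v u
    exact (by fun_prop : Continuous fun w : R3 => |(inner ℝ (v - u) w : ℝ)|).mul
      ((hg.comp h1).add (hg.comp h2))
  obtain ⟨C, hC⟩ := (isCompact_sphere (0 : R3) 1).exists_bound_of_continuousOn hc.continuousOn
  have hi : Integrable (fun w : R3 => |(inner ℝ (v - u) w : ℝ)| *
      (g (postVel v u w) + g (postVelStar v u w))) sphereMeasure :=
    integrable_sphere_of_bounded hc.measurable (C := C) fun w hw => by
      have := hC w (by simpa using hw)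
      simpa using this
  rw [ofReal_integral_eq_lintegral_ofReal hi (Eventually.of_forall fun w =>
    mul_nonneg (abs_nonneg _) (add_nonneg (h0 _) (h0 _)))]
  refine lintegral_congr fun w => ?_
  rw [ENNReal.ofReal_mul (abs_nonneg _), ENNReal.ofReal_add (h0 _) (h0 _)]

theorem fr_post (y : ℝ) (v u w : R3) : fr y (postVel v u w) = postVel (fr y v) (fr y u) w := by
  unfold fr postVel
  have : v - !₂[0, y, 0] - (u - !₂[0, y, 0]) = v - u := by abel
  rw [this]; abel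

theorem fr_postStar (y : ℝ) (v u w : R3) :
    fr y (postVelStar v u w) = postVelStar (fr y v) (fr y u) w := by
  unfold fr postVelStar
  have : v - !₂[0, y, 0] - (u - !₂[0, y, 0]) = v - u := by abel
  rw [this]; abel

theorem fr_sub (y : ℝ) (v u : R3) : fr y v - fr y u = v - u := by unfold fr; abel

theorem gsR_frame (g : R3 → ℝ) (y : ℝ) (v u : R3) :
    gsR (fun w => g (fr y w)) v u = gsR g (fr y v) (fr y u) := by
  unfold gsR
  rw [fr_sub]
  simp_rw [fr_post, fr_postStar]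

theorem gsR_smul (c : ℝ) (g : R3 → ℝ) (v u : R3) :
    gsR (fun w => c * g w) v u = c * gsR g v u := by
  unfold gsR
  rw [← integral_const_mul]
  refine integral_congr_ae (Eventually.of_forall fun w => ?_)
  simp only
  ring

theorem gsR_nonneg {g : R3 → ℝ} (h0 : ∀ w, 0 ≤ g w) (v u : R3) : 0 ≤ gsR g v u :=
  integral_nonneg fun _ => mul_nonneg (abs_nonneg _) (add_nonneg (h0 _) (h0 _))

/-! ### the frame -/

theorem fr_apply_zero (y : ℝ) (v : R3) : fr y v 0 = v 0 := by simp [fr]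
theorem fr_apply_one (y : ℝ) (v : R3) : fr y v 1 = v 1 - y := by simp [fr]
theorem fr_apply_two (y : ℝ) (v : R3) : fr y v 2 = v 2 := by simp [fr]

theorem norm_ey (y : ℝ) : ‖(!₂[0, y, 0] : R3)‖ = |y| := by
  rw [EuclideanSpace.norm_eq]
  simp [Fin.sum_univ_three, Real.sqrt_sq_eq_abs]

theorem norm_fr_le (y : ℝ) (v : R3) : ‖fr y v‖ ≤ ‖v‖ + |y| := by
  unfold fr
  refine (norm_sub_le _ _).trans ?_
  rw [norm_ey]

theorem norm_le_fr (y : ℝ) (v : R3) : ‖v‖ ≤ ‖fr y v‖ + |y| := by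
  have h : v = fr y v + !₂[0, y, 0] := by unfold fr; abel
  calc ‖v‖ = ‖fr y v + !₂[0, y, 0]‖ := by rw [← h]
    _ ≤ _ := (norm_add_le _ _).trans (by rw [norm_ey])

theorem fr_sub_us (y s : ℝ) (u : R3) : fr y u - us 0 s = u - us y s := by
  unfold fr us
  have : (!₂[0, y, s] : R3) = !₂[0, y, 0] + !₂[0, 0, s] := by
    ext i; fin_cases i <;> simp
  rw [this]; abel

theorem continuous_fr (y : ℝ) : Continuous fun v : R3 => fr y v := by unfold fr; fun_prop

theorem continuous_hh (C2 : ℝ) : Continuous (hh C2) := by unfold hh; fun_prop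

theorem one_le_hh {C2 : ℝ} (h : 0 ≤ C2) (q : R3) : 1 ≤ hh C2 q := by
  unfold hh
  have h1 : 0 ≤ C2 * |q 1| := by positivity
  have h2 : 0 ≤ ‖q‖ ^ 12 := by positivity
  linarith

/-! ### `mm` along collisions -/

theorem mm_sq_le {t : ℝ} {x : P2} {v u w : R3} (ht : 0 ≤ distG x / t)
    (hw : ‖w‖ ^ 2 ≤ ‖v‖ ^ 2 + ‖u‖ ^ 2) : mm t x w ^ 2 ≤ mm t x v ^ 2 + ‖u‖ ^ 2 := by
  unfold mm
  have hv0 := norm_nonneg v
  have h1 : ‖v‖ ^ 2 ≤ max ‖v‖ (distG x / t) ^ 2 :=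
    pow_le_pow_left₀ hv0 (le_max_left _ _) 2
  have h2 : (distG x / t) ^ 2 ≤ max ‖v‖ (distG x / t) ^ 2 :=
    pow_le_pow_left₀ ht (le_max_right _ _) 2
  rcases le_total ‖w‖ (distG x / t) with h | h
  · rw [max_eq_right h]; nlinarith [sq_nonneg ‖u‖]
  · rw [max_eq_left h]; linarith

/-! ### bounding the gain of `Om` -/

theorem gsE_Om_le {Y C2 gp ε U : ℝ} (hC2 : 0 ≤ C2) (hgp : 0 ≤ gp) (hU : Real.exp (gp * U ^ 2) ≤ 1 + ε)
    {t : ℝ} (ht : 0 < t) (x : P2) (v : R3) {u : R3} (hu : ‖u‖ ≤ U) :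
    gsE (OmE Y C2 gp t x) v u ≤ ENNReal.ofReal ((1 + ε) * Real.exp (gp * mm t x v ^ 2) *
      gsR (hh C2) (fr (Yc Y t x) v) (fr (Yc Y t x) u)) := by
  set y := Yc Y t x with hy
  have hd : 0 ≤ distG x / t := div_nonneg (distG_nonneg x) ht.le
  have hE : 0 < Real.exp (gp * mm t x v ^ 2) := Real.exp_pos _
  have hε : 0 ≤ 1 + ε := (Real.exp_pos _).le.trans hU
  have h1 : gsE (OmE Y C2 gp t x) v u ≤ gsE (fun w => ENNReal.ofReal
      ((1 + ε) * Real.exp (gp * mm t x v ^ 2)) * ENNReal.ofReal (hh C2 (fr y w))) v u := by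
    refine gsE_mono_on fun w hw => ?_
    rw [← ENNReal.ofReal_mul (by positivity)]
    refine ENNReal.ofReal_le_ofReal ?_
    unfold Om
    rw [mul_comm]
    have hh0 : 0 ≤ hh C2 (fr y w) := zero_le_one.trans (one_le_hh hC2 _)
    refine mul_le_mul_of_nonneg_right ?_ hh0
    have h2 := mm_sq_le (t := t) (x := x) (v := v) (u := u) (w := w) hd hw
    have h3 : ‖u‖ ^ 2 ≤ U ^ 2 := pow_le_pow_left₀ (norm_nonneg u) hu 2
    calc Real.exp (gp * mm t x w ^ 2)
        ≤ Real.exp (gp * U ^ 2 + gp * mm t x v ^ 2) := by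
          apply Real.exp_le_exp.2
          nlinarith
      _ = Real.exp (gp * U ^ 2) * Real.exp (gp * mm t x v ^ 2) := Real.exp_add _ _
      _ ≤ _ := mul_le_mul_of_nonneg_right hU hE.le
  refine h1.trans (le_of_eq ?_)
  have hc : Continuous fun w => hh C2 (fr y w) := (continuous_hh C2).comp (continuous_fr y)
  rw [gsE_smul hc.measurable.ennreal_ofReal, gsE_ofReal_cont hc
    (fun w => zero_le_one.trans (one_le_hh hC2 _)), gsR_frame, ← ENNReal.ofReal_mul (by positivity)]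

/-! ### the test function -/

theorem continuous_lamd {d : ℝ} : Continuous (lamd d) := by unfold lamd; fun_prop

theorem lamd_nonneg (d a : ℝ) : 0 ≤ lamd d a := le_max_left _ _

theorem continuous_tentp (A Yp e y : ℝ) : Continuous (tentp A Yp e y) := by
  unfold tentp tent; fun_prop

theorem tentp_nonneg (A Yp e y : ℝ) (q : R3) : 0 ≤ tentp A Yp e y q := le_max_left _ _

theorem cutB_ge {B w : ℝ} (hB : 0 < B) (hw : 2 * |w| ≤ B) : 9 / 16 ≤ cutB B w := by
  unfold cutB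
  have h1 : w ^ 2 / B ^ 2 ≤ 1 / 4 := by
    rw [div_le_iff₀ (by positivity)]
    have := sq_abs w
    nlinarith [abs_nonneg w]
  have h2 : (3 / 4 : ℝ) ≤ max 0 (1 - w ^ 2 / B ^ 2) := le_max_of_le_right (by linarith)
  nlinarith

theorem gsR_psi0 (X : XP) (t : ℝ) (x : P2) (v u : R3) :
    gsR (psi0 X t x) v u = cutB X.B (x.1 / t) *
      gsR (fun w => tentp X.A X.Yp X.e (x.2 / t) w * lamd X.d (w 0))
        (fr (x.2 / t) v) (fr (x.2 / t) u) := by
  have e1 : (t⁻¹ • x).1 = x.1 / t := by simp [div_eq_inv_mul]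
  have e2 : (t⁻¹ • x).2 = x.2 / t := by simp [div_eq_inv_mul]
  have e : psi0 X t x = fun w => cutB X.B (x.1 / t) *
      (fun q : R3 => tentp X.A X.Yp X.e (x.2 / t) q * lamd X.d (q 0)) (fr (x.2 / t) w) := by
    funext w
    unfold psi0 f0
    rw [e1, e2]
    simp only [fr_apply_zero]
    ring
  rw [e, gsR_smul, gsR_frame (fun q : R3 => tentp X.A X.Yp X.e (x.2 / t) q * lamd X.d (q 0))]

theorem psi0_nonneg (X : XP) (t : ℝ) (x : P2) (v : R3) : 0 ≤ psi0 X t x v := by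
  unfold psi0 f0
  exact mul_nonneg (mul_nonneg (tentp_nonneg _ _ _ _ _) (sq_nonneg _)) (lamd_nonneg _ _)

theorem continuous_psi0 (X : XP) (t : ℝ) (x : P2) : Continuous (psi0 X t x) := by
  unfold psi0 f0
  refine Continuous.mul (Continuous.mul ?_ continuous_const) ?_
  · exact (continuous_tentp _ _ _ _).comp (continuous_fr _)
  · exact continuous_lamd.comp (by fun_prop)

/-- seen particles: the gain of `psiP` -/
theorem le_gsE_psiP (X : XP) {t : ℝ} (x : P2) (v u : R3) (k : ℤ × ℤ) (hB : 0 < X.B)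
    (hk : 2 * |(x + latt k).1 / t| ≤ X.B) :
    ENNReal.ofReal (9 / 16 * gsR (fun w => tentp X.A X.Yp X.e ((x + latt k).2 / t) w * lamd X.d (w 0))
        (fr ((x + latt k).2 / t) v) (fr ((x + latt k).2 / t) u)) ≤ gsE (psiP X t x) v u := by
  set y := (x + latt k).2 / t
  have h0 : 0 ≤ gsR (fun w => tentp X.A X.Yp X.e y w * lamd X.d (w 0)) (fr y v) (fr y u) :=
    gsR_nonneg (fun w => mul_nonneg (tentp_nonneg _ _ _ _ _) (lamd_nonneg _ _)) _ _
  calc ENNReal.ofReal (9 / 16 * gsR (fun w => tentp X.A X.Yp X.e y w * lamd X.d (w 0))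
        (fr y v) (fr y u))
      ≤ ENNReal.ofReal (cutB X.B ((x + latt k).1 / t) * gsR (fun w => tentp X.A X.Yp X.e y w *
        lamd X.d (w 0)) (fr y v) (fr y u)) :=
        ENNReal.ofReal_le_ofReal (mul_le_mul_of_nonneg_right (cutB_ge hB hk) h0)
    _ = ENNReal.ofReal (gsR (psi0 X t (x + latt k)) v u) := by rw [gsR_psi0]
    _ = gsE (psiE X t (x + latt k)) v u := by
        rw [← gsE_ofReal_cont (continuous_psi0 X t _) (psi0_nonneg X t _)]
        rfl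
    _ ≤ gsE (psiP X t x) v u := gsE_mono_on fun w _ =>
        ENNReal.le_tsum (f := fun k => psiE X t (x + latt k) w) k

/-! ### integration over the fuel -/

theorem integrate {P : Par} (hP : P.Ok) {K t : ℝ} (hK : 0 < K) (ht : 0 < t) {x : P2}
    (hmass : ∫⁻ u, phiE P t x u ≤ ENNReal.ofReal (K / t)) {v : R3} {W G : R3 → ℝ≥0∞}
    {O S : ℝ≥0∞} {C : ℝ}
    (h : ∀ u, phi P t x u ≠ 0 → gsE W v u ≤ ENNReal.ofReal (2 * π * ‖v - u‖) * O
      + ENNReal.ofReal (t / K) * S + ENNReal.ofReal C * G u) :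
    ∫⁻ u, phiE P t x u * gsE W v u ≤ Lc (phiE P t x) v * O + S
      + ENNReal.ofReal C * ∫⁻ u, phiE P t x u * G u := by
  have hm : Measurable (phiE P t x) :=
    meas3_slice (F := phiE P) (Fuel.measurable_ofReal_phi hP) t x
  have h1 : ∫⁻ u, phiE P t x u * gsE W v u ≤ ∫⁻ u, ((phiE P t x u *
      (ENNReal.ofReal (2 * π * ‖v - u‖)) * O + phiE P t x u * (ENNReal.ofReal (t / K) * S))
        + ENNReal.ofReal C * (phiE P t x u * G u)) := by
    refine lintegral_mono fun u => ?_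
    by_cases hu : phi P t x u = 0
    · have : phiE P t x u = 0 := by unfold phiE; rw [hu]; simp
      simp [this]
    · refine (mul_le_mul_right (h u hu) _).trans (le_of_eq ?_)
      ring
  refine h1.trans ?_
  have m1 : Measurable fun u => phiE P t x u * (ENNReal.ofReal (2 * π * ‖v - u‖)) :=
    hm.mul (by fun_prop)
  have m2 : Measurable fun u => phiE P t x u * (ENNReal.ofReal (t / K) * S) := hm.mul_const _
  have m3 : Measurable fun u => phiE P t x u * (ENNReal.ofReal (2 * π * ‖v - u‖)) * O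
      + phiE P t x u * (ENNReal.ofReal (t / K) * S) := (m1.mul_const _).add m2
  rw [lintegral_add_left m3, lintegral_add_left (m1.mul_const _), lintegral_mul_const _ m1,
    lintegral_mul_const _ hm, lintegral_const_mul' _ _ ENNReal.ofReal_ne_top,
    ← XSph.Lc_eq' hm v]
  refine add_le_add (add_le_add le_rfl ?_) le_rfl
  calc (∫⁻ u, phiE P t x u) * (ENNReal.ofReal (t / K) * S)
      ≤ ENNReal.ofReal (K / t) * (ENNReal.ofReal (t / K) * S) := mul_le_mul_left hmass _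
    _ = S := by
        rw [← mul_assoc, ← ENNReal.ofReal_mul (by positivity)]
        have : K / t * (t / K) = 1 := by field_simp
        rw [this]; simp

/-! ### the three cases -/

theorem hh_nonneg {C2 : ℝ} (h : 0 ≤ C2) (q : R3) : 0 ≤ hh C2 q := zero_le_one.trans (one_le_hh h q)

theorem Om_nonneg {Y C2 gp : ℝ} (h : 0 ≤ C2) (t : ℝ) (x : P2) (v : R3) : 0 ≤ Om Y C2 gp t x v :=
  mul_nonneg (hh_nonneg h _) (Real.exp_pos _).le

theorem case_far {Y C2 gp ε ε2 U : ℝ} (hC2 : 0 ≤ C2) (hgp : 0 ≤ gp)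
    (hU : Real.exp (gp * U ^ 2) ≤ 1 + ε) (hε : ε ≤ ε2) {t : ℝ} (ht : 0 < t) {x : P2} {v u : R3}
    (hu : ‖u‖ ≤ U)
    (H : (1 + ε2) / (2 * π) * gsR (hh C2) (fr (Yc Y t x) v) (fr (Yc Y t x) u)
      ≤ ‖fr (Yc Y t x) v - fr (Yc Y t x) u‖ * hh C2 (fr (Yc Y t x) v)) (S : ℝ≥0∞) :
    gsE (OmE Y C2 gp t x) v u ≤ ENNReal.ofReal (2 * π * ‖v - u‖) * OmE Y C2 gp t x v + S := by
  refine (gsE_Om_le hC2 hgp hU ht x v hu).trans ?_
  refine le_trans ?_ le_self_add
  unfold OmE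
  rw [← ENNReal.ofReal_mul (by positivity)]
  refine ENNReal.ofReal_le_ofReal ?_
  rw [fr_sub] at H
  unfold Om
  set G := gsR (hh C2) (fr (Yc Y t x) v) (fr (Yc Y t x) u) with hG
  have hG0 : 0 ≤ G := gsR_nonneg (hh_nonneg hC2) _ _
  set E := Real.exp (gp * mm t x v ^ 2)
  have hE : 0 < E := Real.exp_pos _
  have hpi := Real.pi_pos
  have h1 : (1 + ε2) * G ≤ 2 * π * ‖v - u‖ * hh C2 (fr (Yc Y t x) v) := by
    have := mul_le_mul_of_nonneg_left H (by positivity : (0 : ℝ) ≤ 2 * π)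
    calc (1 + ε2) * G = 2 * π * ((1 + ε2) / (2 * π) * G) := by field_simp
      _ ≤ _ := this
      _ = _ := by ring
  calc (1 + ε) * E * G ≤ (1 + ε2) * E * G := by gcongr
    _ = E * ((1 + ε2) * G) := by ring
    _ ≤ E * (2 * π * ‖v - u‖ * hh C2 (fr (Yc Y t x) v)) := by gcongr
    _ = _ := by ring

theorem case_pos {Y C2 gp ε U K Z1 V0 Cc : ℝ} (hK : 0 < K) (hC2 : 0 ≤ C2) (hgp : 0 < gp)
    (hU : Real.exp (gp * U ^ 2) ≤ 1 + ε) {t : ℝ} (ht : 0 < t) {x : P2} {v u : R3} (hu : ‖u‖ ≤ U)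
    (hv : ‖v‖ ≤ V0) (hCc : 0 ≤ Cc) (hYc : |Yc Y t x| ≤ 2 * Y)
    (H : gsR (hh C2) (fr (Yc Y t x) v) (fr (Yc Y t x) u)
      ≤ Cc * (1 + ‖fr (Yc Y t x) v‖) * hh C2 (fr (Yc Y t x) v))
    (hZ : 2 * V0 ≤ Z1) (hZ1 : 1 ≤ Z1) (hZK : 2 * K * (1 + ε) * Cc * (1 + V0 + 2 * Y) / gp ≤ Z1)
    (hx : Z1 ≤ distG x / t) (a : ℝ≥0∞) (b c d : ℝ≥0∞) :
    gsE (OmE Y C2 gp t x) v u ≤ a + ENNReal.ofReal (t / K) * (b + kap2 Y C2 gp Z1 t x v + c)
      + d := by
  refine (gsE_Om_le hC2 hgp.le hU ht x v hu).trans ?_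
  have h2 : kap2 Y C2 gp Z1 t x v = ENNReal.ofReal (gp / 2 * (distG x / t) ^ 2 / t * Om Y C2 gp t x v) := by
    unfold kap2
    rw [if_pos ⟨by linarith, hx⟩]
  have hε : 0 ≤ 1 + ε := (Real.exp_pos _).le.trans hU
  calc _ ≤ ENNReal.ofReal (t / K) * kap2 Y C2 gp Z1 t x v := by
        rw [h2, ← ENNReal.ofReal_mul (by positivity)]
        refine ENNReal.ofReal_le_ofReal ?_
        unfold Om
        set G := gsR (hh C2) (fr (Yc Y t x) v) (fr (Yc Y t x) u) with hG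
        set E := Real.exp (gp * mm t x v ^ 2)
        have hE : 0 < E := Real.exp_pos _
        set q := fr (Yc Y t x) v
        have hq : ‖q‖ ≤ V0 + 2 * Y := (norm_fr_le _ _).trans (by linarith)
        have hh0 := hh_nonneg hC2 q
        have hV0 : 0 ≤ V0 := (norm_nonneg v).trans hv
        set z := distG x / t
        have h3 : 2 * K * (1 + ε) * Cc * (1 + V0 + 2 * Y) ≤ gp * z ^ 2 := by
          rw [div_le_iff₀ hgp] at hZK
          have : Z1 ≤ z ^ 2 := by nlinarith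
          nlinarith
        have h4 : (1 + ε) * Cc * (1 + V0 + 2 * Y) ≤ gp / 2 * z ^ 2 / K := by
          rw [le_div_iff₀ hK]; linarith
        calc (1 + ε) * E * G ≤ (1 + ε) * E * (Cc * (1 + ‖q‖) * hh C2 q) := by gcongr
          _ ≤ (1 + ε) * E * (Cc * (1 + (V0 + 2 * Y)) * hh C2 q) := by gcongr
          _ = ((1 + ε) * Cc * (1 + V0 + 2 * Y)) * (hh C2 q * E) := by ring
          _ ≤ (gp / 2 * z ^ 2 / K) * (hh C2 q * E) := by gcongr
          _ = t / K * (gp / 2 * z ^ 2 / t * (hh C2 q * E)) := by field_simp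
    _ ≤ ENNReal.ofReal (t / K) * (b + kap2 Y C2 gp Z1 t x v + c) := by
        gcongr
        exact (le_add_self).trans le_self_add
    _ ≤ a + ENNReal.ofReal (t / K) * (b + kap2 Y C2 gp Z1 t x v + c) := le_add_self
    _ ≤ _ := le_self_add

theorem case_near {Y C2 gp ε ε1 U K Z1 V0 C C' k0 : ℝ} {X : XP} (hK : 0 < K) (hk0 : k0 = 2 * π * K)
    (hC2 : 0 ≤ C2) (hgp : 0 < gp)
    (hU : Real.exp (gp * U ^ 2) ≤ 1 + ε) (hε : ε ≤ ε1) {t : ℝ} (ht : 0 < t) {x : P2} {v u : R3}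
    (hu : ‖u‖ ≤ U) (hv : ‖v‖ ≤ V0) (hx8 : distG x < 1 / 8) (hx : distG x / t ≤ Z1)
    (hYc : |Yc Y t x| < 2 * Y) {k : ℤ × ℤ} (hk : (x + latt k).2 / t = Yc Y t x)
    (hB : 0 < X.B) (hkB : 2 * |(x + latt k).1 / t| ≤ X.B) (hC : 0 ≤ C)
    (hC' : 16 / 9 * C * Real.exp (gp * (max V0 Z1) ^ 2) / K ≤ C')
    (H : k0 * ((1 + ε1) / (2 * π) * gsR (hh C2) (fr (Yc Y t x) v) (fr (Yc Y t x) u)
        - ‖fr (Yc Y t x) v - fr (Yc Y t x) u‖ * hh C2 (fr (Yc Y t x) v)) ≤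
          C2 * |fr (Yc Y t x) v 1| + k0 / 2 * hh C2 (fr (Yc Y t x) v)
            + C * gsR (fun w => tentp X.A X.Yp X.e (Yc Y t x) w * lamd X.d (w 0))
              (fr (Yc Y t x) v) (fr (Yc Y t x) u)) :
    gsE (OmE Y C2 gp t x) v u ≤ ENNReal.ofReal (2 * π * ‖v - u‖) * OmE Y C2 gp t x v
      + ENNReal.ofReal (t / K) * (kap1 Y C2 gp t x v + kap2 Y C2 gp Z1 t x v
        + ENNReal.ofReal (π * K / t + C') * OmE Y C2 gp t x v)
      + ENNReal.ofReal C' * gsE (psiP X t x) v u := by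
  refine (gsE_Om_le hC2 hgp.le hU ht x v hu).trans ?_
  have hE : 0 < Real.exp (gp * mm t x v ^ 2) := Real.exp_pos _
  have hpi := Real.pi_pos
  have hT0 : 0 ≤ gsR (fun w => tentp X.A X.Yp X.e (Yc Y t x) w * lamd X.d (w 0))
      (fr (Yc Y t x) v) (fr (Yc Y t x) u) :=
    gsR_nonneg (fun w => mul_nonneg (tentp_nonneg _ _ _ _ _) (lamd_nonneg _ _)) _ _
  have hG0 : 0 ≤ gsR (hh C2) (fr (Yc Y t x) v) (fr (Yc Y t x) u) :=
    gsR_nonneg (hh_nonneg hC2) _ _
  have hh0 := hh_nonneg hC2 (fr (Yc Y t x) v)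
  have hC'0 : 0 ≤ C' := le_trans (by positivity) hC'
  have hmm : mm t x v ≤ max V0 Z1 := max_le_max hv hx
  have hmm0 : 0 ≤ mm t x v := (norm_nonneg v).trans (le_max_left _ _)
  have hEm : Real.exp (gp * mm t x v ^ 2) ≤ Real.exp (gp * (max V0 Z1) ^ 2) := by
    apply Real.exp_le_exp.2
    gcongr
  have hpsi := le_gsE_psiP X x v u k (t := t) hB hkB
  rw [hk] at hpsi
  rw [fr_sub] at H
  have hkap1 : kap1 Y C2 gp t x v = ENNReal.ofReal
      (C2 * |fr (Yc Y t x) v 1| / t * Real.exp (gp * mm t x v ^ 2)) := by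
    unfold kap1
    rw [if_pos ⟨hx8, hYc⟩]
  set G := gsR (hh C2) (fr (Yc Y t x) v) (fr (Yc Y t x) u) with hG
  set E := Real.exp (gp * mm t x v ^ 2) with hEdef
  set T := gsR (fun w => tentp X.A X.Yp X.e (Yc Y t x) w * lamd X.d (w 0))
      (fr (Yc Y t x) v) (fr (Yc Y t x) u) with hT
  set q := fr (Yc Y t x) v with hq
  have hreal : (1 + ε) * E * G ≤ 2 * π * ‖v - u‖ * (hh C2 q * E) +
      (t / K * (C2 * |q 1| / t * E) + t / K * (π * K / t * (hh C2 q * E)))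
      + C' * (9 / 16 * T) := by
    have h1 : (1 + ε1) * G ≤ 2 * π * ‖v - u‖ * hh C2 q + (C2 * |q 1| / K + π * hh C2 q)
        + C / K * T := by
      rw [hk0] at H
      have h2 : 2 * π * K * ((1 + ε1) / (2 * π) * G - ‖v - u‖ * hh C2 q)
          = K * ((1 + ε1) * G - 2 * π * ‖v - u‖ * hh C2 q) := by field_simp
      rw [h2] at H
      have h3 : (1 + ε1) * G - 2 * π * ‖v - u‖ * hh C2 q
          ≤ (C2 * |q 1| + 2 * π * K / 2 * hh C2 q + C * T) / K := by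
        rw [le_div_iff₀ hK]; linarith
      have h4 : (C2 * |q 1| + 2 * π * K / 2 * hh C2 q + C * T) / K
          = C2 * |q 1| / K + π * hh C2 q + C / K * T := by field_simp
      linarith
    have h5 : C / K * T * E ≤ C' * (9 / 16 * T) := by
      have h6 : 16 / 9 * C * E / K ≤ C' := le_trans (by gcongr) hC'
      calc C / K * T * E = 16 / 9 * C * E / K * (9 / 16 * T) := by field_simp
        _ ≤ _ := by gcongr
    calc (1 + ε) * E * G ≤ (1 + ε1) * E * G := by gcongr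
      _ = ((1 + ε1) * G) * E := by ring
      _ ≤ (2 * π * ‖v - u‖ * hh C2 q + (C2 * |q 1| / K + π * hh C2 q) + C / K * T) * E := by
          gcongr
      _ = 2 * π * ‖v - u‖ * (hh C2 q * E) +
          (t / K * (C2 * |q 1| / t * E) + t / K * (π * K / t * (hh C2 q * E))) + C / K * T * E := by
          field_simp
      _ ≤ _ := by linarith
  refine (ENNReal.ofReal_le_ofReal hreal).trans ?_
  rw [ENNReal.ofReal_add (by positivity) (by positivity),
    ENNReal.ofReal_add (by positivity) (by positivity),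
    ENNReal.ofReal_add (by positivity) (by positivity)]
  refine add_le_add (add_le_add ?_ ?_) ?_
  · rw [ENNReal.ofReal_mul (by positivity)]
    exact le_of_eq rfl
  · rw [mul_add]
    refine add_le_add ?_ ?_
    · rw [hkap1, mul_add, ← ENNReal.ofReal_mul (by positivity)]
      exact le_self_add
    · rw [ENNReal.ofReal_mul (by positivity)]
      gcongr
      rw [ENNReal.ofReal_mul (by positivity)]
      unfold OmE Om
      gcongr
      linarith
  · rw [ENNReal.ofReal_mul hC'0]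
    gcongr

end PwOm

/-- UPPER (Harnack), pointwise, from the sphere inequalities, the fuel and the frame -/
theorem pw_Om_of {P : Par} (hP : P.Ok) {A Yp e : ℝ} (hY1 : 1 ≤ P.Y)
    (hk0 : 6000 ≤ 2 * π * P.K)
    (har_near : ∃ ε1 d0 : ℝ, 0 < ε1 ∧ 0 < d0 ∧ ∀ d, 0 < d → d ≤ d0 → ∃ C : ℝ, 0 ≤ C ∧
      ∀ (q p : R3) (y s : ℝ), (s = 1 ∨ s = -1) → ‖p - us 0 s‖ ≤ ε1 → |y| ≤ P.Y + ε1 →
        2 * π * P.K * ((1 + ε1) / (2 * π) * gsR (hh (1200 * (2 * π * P.K))) q p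
          - ‖q - p‖ * hh (1200 * (2 * π * P.K)) q) ≤
          1200 * (2 * π * P.K) * |q 1| + 2 * π * P.K / 2 * hh (1200 * (2 * π * P.K)) q
            + C * gsR (fun w => tentp A Yp e y w * lamd d (w 0)) q p)
    (har_crude : ∀ C2 U : ℝ, 0 ≤ C2 → 0 ≤ U → ∃ C : ℝ, 0 ≤ C ∧ ∀ q p : R3, ‖p‖ ≤ U →
      gsR (hh C2) q p ≤ C * (1 + ‖q‖) * hh C2 q)
    (har_far : ∀ C2 U : ℝ, 0 ≤ C2 → 0 ≤ U → ∃ V1 ε2 : ℝ, 0 < V1 ∧ 0 < ε2 ∧
      ∀ q p : R3, V1 ≤ ‖q‖ → ‖p‖ ≤ U →
        (1 + ε2) / (2 * π) * gsR (hh C2) q p ≤ ‖q - p‖ * hh C2 q)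
    (fuel_all : ∃ t0 : ℝ, 0 < t0 ∧ ∀ t, 0 < t → t ≤ t0 → ∀ x : P2,
      (∀ u, phi P t x u ≠ 0 → ‖u‖ ≤ P.Y + 2 ∧ distG x ≤ 1 / 8) ∧
        ∫⁻ u, phiE P t x u ≤ ENNReal.ofReal (P.K / t))
    (fuel_near : ∀ Z : ℝ, 1 ≤ Z → ∃ t0 C : ℝ, 0 < t0 ∧ 0 ≤ C ∧
      ∀ t, 0 < t → t ≤ t0 → ∀ x : P2, ‖x‖ ≤ Z * t →
        (∀ u, phi P t x u ≠ 0 → |x.2 / t| ≤ P.Y + C * t ∧
          ∃ s : ℝ, (s = 1 ∨ s = -1) ∧ ‖u - us (x.2 / t) s‖ ≤ C * t))
    (Yc_near : ∀ (Y t : ℝ) (x : P2) (k : ℤ × ℤ), 0 < t → ‖x + latt k‖ ≤ 1 / 8 →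
      Yc Y t x = clamp (2 * Y) ((x + latt k).2 / t))
    (abs_Yc_le : ∀ (Y : ℝ), 0 ≤ Y → ∀ (t : ℝ) (x : P2), |Yc Y t x| ≤ 2 * Y) :
    ∃ gp0 d0 : ℝ, 0 < gp0 ∧ 0 < d0 ∧ ∀ gp, 0 < gp → gp ≤ gp0 → ∃ B0 Z1 : ℝ, 1 ≤ B0 ∧ 1 ≤ Z1 ∧
      ∀ B d, B0 ≤ B → 0 < d → d ≤ d0 →
      ∃ t0 C : ℝ, 0 < t0 ∧ 0 ≤ C ∧ ∀ t, 0 < t → t ≤ t0 → ∀ (x : P2) (v : R3),
      GA (phiE P) (OmE P.Y (1200 * (2 * π * P.K)) gp) t x v
      ≤ Lc (phiE P t x) v * OmE P.Y (1200 * (2 * π * P.K)) gp t x v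
        + kap1 P.Y (1200 * (2 * π * P.K)) gp t x v + kap2 P.Y (1200 * (2 * π * P.K)) gp Z1 t x v
        + ENNReal.ofReal (π * P.K / t + C) * OmE P.Y (1200 * (2 * π * P.K)) gp t x v
        + ENNReal.ofReal C * GA (phiE P) (psiP ⟨A, Yp, e, B, d⟩) t x v := by
  have hpi := Real.pi_pos
  have hK : 0 < P.K := by
    by_contra hc
    push Not at hc
    nlinarith
  set k0 := 2 * π * P.K with hk0def
  set C2 := 1200 * k0 with hC2def
  have hC2 : 0 ≤ C2 := by positivity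
  obtain ⟨ε1, d0, hε1, hd0, Hnear⟩ := har_near
  obtain ⟨V1, ε2, hV1, hε2, Hfar⟩ := har_far C2 (3 * P.Y + 2) hC2 (by positivity)
  obtain ⟨Cc, hCc, Hcr⟩ := har_crude C2 (3 * P.Y + 2) hC2 (by positivity)
  set ε := min ε1 ε2 with hεdef
  have hε : 0 < ε := lt_min hε1 hε2
  set U := P.Y + 2 with hUdef
  have hUpos : 0 < U := by positivity
  have hgp0 : 0 < Real.log (1 + ε) / U ^ 2 := div_pos (Real.log_pos (by linarith)) (by positivity)
  refine ⟨Real.log (1 + ε) / U ^ 2, d0, hgp0, hd0, fun gp hgp hgple => ?_⟩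
  have hU : Real.exp (gp * U ^ 2) ≤ 1 + ε := by
    have h1 : gp * U ^ 2 ≤ Real.log (1 + ε) := by
      rwa [le_div_iff₀ (by positivity)] at hgple
    calc Real.exp (gp * U ^ 2) ≤ Real.exp (Real.log (1 + ε)) := Real.exp_le_exp.2 h1
      _ = 1 + ε := Real.exp_log (by linarith)
  set V0 := V1 + 2 * P.Y with hV0def
  set M := 2 * P.K * (1 + ε) * Cc * (1 + V0 + 2 * P.Y) / gp with hMdef
  set Z1 := max 1 (max (2 * V0) M) with hZ1def
  have hZ1 : 1 ≤ Z1 := le_max_left _ _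
  have hZV : 2 * V0 ≤ Z1 := (le_max_left _ _).trans (le_max_right _ _)
  have hZM : M ≤ Z1 := (le_max_right _ _).trans (le_max_right _ _)
  refine ⟨2 * Z1, Z1, by linarith, hZ1, fun B d hB hd hdd => ?_⟩
  obtain ⟨C, hC, HN⟩ := Hnear d hd hdd
  obtain ⟨t1, Cf, ht1, hCf, Hf⟩ := fuel_near Z1 hZ1
  obtain ⟨t2, ht2, Hall⟩ := fuel_all
  set C' := 16 / 9 * C * Real.exp (gp * (max V0 Z1) ^ 2) / P.K with hC'def
  have hC' : 0 ≤ C' := by positivity
  set η := min ε1 (1 / 2) with hηdef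
  have hη : 0 < η := lt_min hε1 (by norm_num)
  refine ⟨min (min t1 t2) (min (η / (Cf + 1)) (1 / (16 * Z1))), C', ?_, hC', ?_⟩
  · have : 0 < Z1 := by linarith
    positivity
  intro t ht htt x v
  have htt1 : t ≤ t1 := htt.trans ((min_le_left _ _).trans (min_le_left _ _))
  have htt2 : t ≤ t2 := htt.trans ((min_le_left _ _).trans (min_le_right _ _))
  have htt3 : t ≤ η / (Cf + 1) := htt.trans ((min_le_right _ _).trans (min_le_left _ _))
  have htt4 : t ≤ 1 / (16 * Z1) := htt.trans ((min_le_right _ _).trans (min_le_right _ _))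
  have hCt : Cf * t ≤ η := by
    rw [le_div_iff₀ (by linarith)] at htt3
    nlinarith
  have hZt : Z1 * t ≤ 1 / 16 := by
    rw [le_div_iff₀ (by positivity)] at htt4
    linarith
  obtain ⟨Hsup, Hmass⟩ := Hall t ht htt2 x
  have hYc := abs_Yc_le P.Y (by linarith : (0 : ℝ) ≤ P.Y) t x
  have key : ∀ u, phi P t x u ≠ 0 → gsE (OmE P.Y C2 gp t x) v u ≤
      ENNReal.ofReal (2 * π * ‖v - u‖) * OmE P.Y C2 gp t x v
      + ENNReal.ofReal (t / P.K) * (kap1 P.Y C2 gp t x v + kap2 P.Y C2 gp Z1 t x v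
        + ENNReal.ofReal (π * P.K / t + C') * OmE P.Y C2 gp t x v)
      + ENNReal.ofReal C' * gsE (psiP ⟨A, Yp, e, B, d⟩ t x) v u := by
    intro u hu
    obtain ⟨huU, hx8⟩ := Hsup u hu
    have hp : ‖fr (Yc P.Y t x) u‖ ≤ 3 * P.Y + 2 := (PwOm.norm_fr_le _ _).trans (by linarith)
    by_cases hv : V0 ≤ ‖v‖
    · have hq : V1 ≤ ‖fr (Yc P.Y t x) v‖ := by
        have := PwOm.norm_le_fr (Yc P.Y t x) v
        linarith
      rw [add_assoc]
      exact PwOm.case_far hC2 hgp.le hU (min_le_right _ _) ht huU (Hfar _ _ hq hp) _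
    push Not at hv
    by_cases hz : Z1 ≤ distG x / t
    · exact PwOm.case_pos hK hC2 hgp hU ht huU hv.le hCc hYc
        (Hcr _ _ hp) hZV hZ1 hZM hz _ _ _ _
    push Not at hz
    obtain ⟨k, hk⟩ := exists_distG_eq x
    have hxk : ‖x + latt k‖ ≤ Z1 * t := by
      rw [← hk]
      exact ((div_lt_iff₀ ht).1 hz).le
    have Hf1 := Hf t ht htt1 (x + latt k) hxk
    have hu' : phi P t (x + latt k) u ≠ 0 := by
      have e := Fuel.perG_phi P t u x k
      exact fun h0 => hu (e.symm.trans h0)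
    obtain ⟨hy, s, hs, hus⟩ := Hf1 u hu'
    have hYk : Yc P.Y t x = clamp (2 * P.Y) ((x + latt k).2 / t) :=
      Yc_near P.Y t x k ht (hxk.trans (by linarith))
    have hη1 : η ≤ ε1 := min_le_left _ _
    have hη2 : η ≤ 1 / 2 := min_le_right _ _
    have hyY : |(x + latt k).2 / t| < 2 * P.Y := by linarith
    have hYk' : (x + latt k).2 / t = Yc P.Y t x := by
      rw [hYk]
      unfold clamp
      have := abs_lt.1 hyY
      rw [min_eq_right this.2.le, max_eq_right (by linarith [this.1])]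
    have hYcs : |Yc P.Y t x| < 2 * P.Y := by rw [← hYk']; exact hyY
    have hps : ‖fr (Yc P.Y t x) u - us 0 s‖ ≤ ε1 := by
      rw [PwOm.fr_sub_us, ← hYk']
      linarith
    have hyb : |Yc P.Y t x| ≤ P.Y + ε1 := by rw [← hYk']; linarith
    have H := HN (fr (Yc P.Y t x) v) (fr (Yc P.Y t x) u) (Yc P.Y t x) s hs hps hyb
    have hx1 : |(x + latt k).1 / t| ≤ Z1 := by
      rw [abs_div, abs_of_pos ht, div_le_iff₀ ht]
      exact (norm_fst_le (x + latt k)).trans hxk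
    exact PwOm.case_near (X := ⟨A, Yp, e, B, d⟩) hK hk0def hC2 hgp hU (min_le_left _ _) ht huU hv.le
      (lt_of_le_of_lt (hk.le.trans hxk) (by linarith)) hz.le hYcs hYk' (by
        show 0 < B
        linarith) (by
        show 2 * |(x + latt k).1 / t| ≤ B
        linarith) hC le_rfl H
  have hfin := PwOm.integrate hP hK ht Hmass key
  refine hfin.trans (le_of_eq ?_)
  show _ + (_ + _ + _) + _ = _
  rw [← add_assoc, ← add_assoc]
  rfl

end Crest.Agent.R68.X2
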