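import Crest.Agent.R68.XDefs2

/-!
# Row 68, PART X2 (helper330): what the seeds need from the weights
-/

set_option autoImplicit false
open MeasureTheory Set Filter
open scoped Topology ENNReal
open Crest.AnalysisR.VecCalc3 Crest.AnalysisR.PDE.Boltzmann

noncomputable section

namespace Crest.Agent.R68.X2

open Crest.Agent.R68.L (Den phiE Gf Dam TL sol)
open Crest.Agent.R68.A (Meas3)

/-- everything the seeds need from the weight `W` and the test function `g` on `(0,T]` -/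
structure SeedData (P : Par) (g1 g2 T A1 A2 C d1 c1 : ℝ) (v0 : R3) (W g Ψp : Den) : Prop where
  T0 : 0 < T
  T1 : T ≤ 1
  hg1 : 0 < g1
  hg2 : 0 ≤ g2
  Tg : √T / 100 ≤ g1 / 2
  A20 : 0 < A2
  A12 : A2 < A1
  C0 : 0 ≤ C
  d10 : 0 < d1
  c10 : 0 < c1
  mW : Meas3 W
  mg : Meas3 g
  mG : Meas3 (GA (phiE P) Ψp)
  pW : ∀ t v, PerG (fun x => W t x v)
  up : ∀ (τ : ℝ) (σ H : Den), 0 < τ → SeedH P g1 g2 τ T σ H → ∀ s t, τ ≤ s → s ≤ t → t ≤ T →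
    MW W H t ≤ MW W H s + ∫⁻ r in Ioo s t, (ENNReal.ofReal (A2 / r + C) * MW W H r
      + ENNReal.ofReal C * MW (GA (phiE P) Ψp) H r + MW W σ r)
  low : ∀ (τ : ℝ) (σ H : Den), 0 < τ → SeedH P g1 g2 τ T σ H → ∀ s t, τ ≤ s → s ≤ t → t ≤ T →
    PW g H s + ∫⁻ r in Ioo s t, (ENNReal.ofReal (A1 / r) * PW g H r
      + ENNReal.ofReal d1 * MW (GA (phiE P) Ψp) H r + PW g σ r)
      ≤ PW g H t + ∫⁻ r in Ioo s t, ENNReal.ofReal C * MW W H r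
  crude : ∀ t, 0 < t → t ≤ T → ∀ x v, GA (phiE P) Ψp t x v ≤ ENNReal.ofReal (C / t) * W t x v
  fin : ∃ B : ℝ≥0∞, B ≠ ⊤ ∧ ∀ t, 0 < t → t ≤ T → MW W (B2 P g1 g2 0) t ≤ B
  gs : ∀ t, 0 < t → t ≤ T → ∀ x v, 1 / 4 < ‖x‖ → g t x v = 0
  gb : ∀ t, 0 < t → t ≤ T → ∀ x v, g t x v ≤ ENNReal.ofReal C * ENNReal.ofReal (1 + ‖v‖ ^ 4)
  w4 : ∀ t, 0 < t → t ≤ T → ∀ x v, ENNReal.ofReal (1 + ‖v‖ ^ 4) ≤ ENNReal.ofReal C * W t x v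
  sg : ∀ t, 0 < t → t ≤ T → ∀ x v, ‖x‖ ≤ t / 2 → ‖v - v0‖ ≤ 1 / 4 → ENNReal.ofReal c1 ≤ g t x v
  sW : ∀ t, 0 < t → t ≤ T → ∀ x v, distG x ≤ t / 2 → ‖v - v0‖ ≤ 1 / 4 →
    W t x v ≤ ENNReal.ofReal C

end Crest.Agent.R68.X2
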