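import Crest.Agent.R68.XDefs2
import Crest.Agent.R68.X2Gs

/-!
# Row 68, PART X2: the seen case of `har_near` (helper211)
-/

set_option autoImplicit false
open MeasureTheory Set Filter
open scoped ENNReal Real
open Crest.AnalysisR.VecCalc3 Crest.AnalysisR.PDE.Boltzmann

noncomputable section

namespace Crest.Agent.R68.X2

open Crest.Agent.R68.XSph

namespace Seen

/-- fraction of the collision sphere where a coordinate lies in a window: lower bound -/
theorem smean_window {v u : R3} (i : Fin 3) (hd : v ≠ u) {α β : ℝ} (hab : α ≤ β)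
    (h1 : (v i + u i) / 2 - ‖v - u‖ / 2 ≤ α) (h2 : β ≤ (v i + u i) / 2 + ‖v - u‖ / 2) :
    (β - α) / ‖v - u‖ ≤ smean (fun a => (Icc α β).indicator (fun _ => (1 : ℝ)) (a i)) v u := by
  have hn : 0 < ‖v - u‖ := norm_pos_iff.2 (sub_ne_zero.2 hd)
  have hm : Measurable ((Icc α β).indicator (fun _ => (1 : ℝ))) :=
    measurable_const.indicator measurableSet_Icc
  rw [smean_coord v u i _ hm]
  set m := (v i + u i) / 2
  set R := ‖v - u‖ / 2 with hR
  have hR0 : 0 < R := by positivity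
  have e1 := intervalIntegral.integral_comp_add_mul (a := -1) (b := 1)
    ((Icc α β).indicator (fun _ => (1 : ℝ))) hR0.ne' m
  rw [e1, intervalIntegral.integral_of_le (by nlinarith), integral_indicator measurableSet_Icc,
    Measure.restrict_restrict measurableSet_Icc, setIntegral_const]
  simp only [smul_eq_mul, mul_one]
  have hsub : Ioc α β ⊆ Icc α β ∩ Ioc (m + R * -1) (m + R) := by
    intro s hs
    exact ⟨Ioc_subset_Icc_self hs, by linarith [hs.1], by linarith [hs.2]⟩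
  have h3 : β - α ≤ volume.real (Icc α β ∩ Ioc (m + R * -1) (m + R)) := by
    have h4 : volume.real (Ioc α β) ≤ volume.real (Icc α β ∩ Ioc (m + R * -1) (m + R)) :=
      measureReal_mono hsub (measure_ne_top_of_subset inter_subset_left
        (by rw [Real.volume_Icc]; exact ENNReal.ofReal_ne_top))
    rwa [Real.volume_real_Ioc_of_le hab] at h4
  have h5 : (β - α) / ‖v - u‖ = 1 / 2 * (R⁻¹ * (β - α)) := by
    rw [hR]; field_simp
  rw [h5]
  exact mul_le_mul_of_nonneg_left (mul_le_mul_of_nonneg_left h3 (by positivity)) (by norm_num)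

/-- fraction of the collision sphere where a coordinate is small: upper bound -/
theorem smean_slab {v u : R3} (i : Fin 3) (hd : v ≠ u) {δ : ℝ} (hδ : 0 ≤ δ) :
    smean (fun a => (Ioo (-δ) δ).indicator (fun _ => (1 : ℝ)) (a i)) v u ≤ 2 * δ / ‖v - u‖ := by
  have hn : 0 < ‖v - u‖ := norm_pos_iff.2 (sub_ne_zero.2 hd)
  have hm : Measurable ((Ioo (-δ) δ).indicator (fun _ => (1 : ℝ))) :=
    measurable_const.indicator measurableSet_Ioo
  rw [smean_coord v u i _ hm]
  set m := (v i + u i) / 2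
  set R := ‖v - u‖ / 2 with hR
  have hR0 : 0 < R := by positivity
  have e1 := intervalIntegral.integral_comp_add_mul (a := -1) (b := 1)
    ((Ioo (-δ) δ).indicator (fun _ => (1 : ℝ))) hR0.ne' m
  rw [e1, intervalIntegral.integral_of_le (by nlinarith), integral_indicator measurableSet_Ioo,
    Measure.restrict_restrict measurableSet_Ioo, setIntegral_const]
  simp only [smul_eq_mul, mul_one]
  have h3 : volume.real (Ioo (-δ) δ ∩ Ioc (m + R * -1) (m + R)) ≤ 2 * δ := by
    have h4 : volume.real (Ioo (-δ) δ ∩ Ioc (m + R * -1) (m + R)) ≤ volume.real (Ioo (-δ) δ) :=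
      measureReal_mono inter_subset_left (by rw [Real.volume_Ioo]; exact ENNReal.ofReal_ne_top)
    rw [Real.volume_real_Ioo_of_le (by linarith)] at h4
    linarith
  have h5 : 2 * δ / ‖v - u‖ = 1 / 2 * (R⁻¹ * (2 * δ)) := by
    rw [hR]; field_simp
  rw [h5]
  exact mul_le_mul_of_nonneg_left (mul_le_mul_of_nonneg_left h3 (by positivity)) (by norm_num)

/-- the tent is positive on the window -/
theorem tent_window {N A Yp Y ey e : ℝ} (h : TentOK N A Yp Y ey e) {Q1 κ ε1 y : ℝ}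
    (hQ4 : 4 ≤ Q1) (hκ : 0 < κ) (hκ1 : κ ≤ 1 / 6000) (he : 16 * e * (Q1 + 2) ^ 2 ≤ κ)
    (hε : (1 + A) * ε1 ≤ κ / 32) (hy : |y| ≤ Y + ε1) {w : R3} (hw : ‖w‖ ≤ Q1 + 2) {σ : ℝ}
    (hσ : σ = 1 ∨ σ = -1) (hσy : 0 ≤ σ * y) (h1 : -(3 * κ / 8) ≤ σ * w 1) (h2 : σ * w 1 ≤ -(κ / 4)) :
    κ / 16 ≤ tentp A Yp e y w := by
  refine le_trans ?_ (le_max_right _ _)
  unfold tent
  have hA : 0 < 1 + A := by have := h.AN; have := h.N1; linarith
  have he0 := h.e0
  have hw2 : e * ‖w‖ ^ 2 ≤ κ / 16 := by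
    have : ‖w‖ ^ 2 ≤ (Q1 + 2) ^ 2 := pow_le_pow_left₀ (norm_nonneg _) hw 2
    nlinarith
  have hek : e ≤ κ / 500 := by
    have h36 : (36 : ℝ) ≤ (Q1 + 2) ^ 2 := by nlinarith
    nlinarith
  have hey := h.eye
  have hYp := h.Ypd
  have hey0 := h.ey0
  have he2 := h.e2
  have habs : |(1 + A) * y + w 1| = |(1 + A) * (σ * y) + σ * w 1| := by
    rcases hσ with rfl | rfl
    · simp
    · rw [← abs_neg]; congr 1; ring
  have hσy' : σ * y ≤ Y + ε1 := by
    rcases hσ with rfl | rfl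
    · linarith [le_abs_self y]
    · linarith [neg_abs_le y]
  rw [habs]
  rcases le_total 0 ((1 + A) * (σ * y) + σ * w 1) with h0 | h0
  · rw [abs_of_nonneg h0]
    have h3 : (1 + A) * (σ * y) ≤ (1 + A) * (Y + ε1) := by gcongr
    have h4 : (1 + A) * Yp = (1 + A) * Y - (1 + A) * ey := by rw [hYp]; ring
    nlinarith
  · rw [abs_of_nonpos h0]
    have h3 : 0 ≤ (1 + A) * (σ * y) := by positivity
    have h4 : 600 ≤ (1 + A) * Yp := by
      refine le_trans ?_ he2
      rw [le_div_iff₀ he0]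
      have := h.e1
      nlinarith
    linarith

end Seen

/-- **the seen case** of `har_near` -/
theorem har_seen {N A Yp Y ey e : ℝ} (h : TentOK N A Yp Y ey e) {Q1 κ ε1 : ℝ}
    (hQ4 : 4 ≤ Q1) (hκ : 0 < κ) (hκ1 : κ ≤ 1 / 6000) (he : 16 * e * (Q1 + 2) ^ 2 ≤ κ)
    (hε0 : 0 ≤ ε1) (hε1 : ε1 ≤ κ / 4) (hε : (1 + A) * ε1 ≤ κ / 32) {d : ℝ} (hd : 0 < d)
    (hdκ : d ≤ κ / 64) {q p : R3} {y s : ℝ} (hs : s = 1 ∨ s = -1) (hp : ‖p - us 0 s‖ ≤ ε1)
    (hy : |y| ≤ Y + ε1) (hq : ‖q‖ ≤ Q1) (hseen : κ ≤ ‖q - p‖ - |q 1|) :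
    π * κ ^ 2 / 64 ≤ gsR (fun w => tentp A Yp e y w * lamd d (w 0)) q p := by
  have hpi := Real.pi_pos
  have hn : 0 < ‖q - p‖ := by linarith [abs_nonneg (q 1)]
  have hqp : q ≠ p := fun h0 => by rw [h0, sub_self, norm_zero] at hn; exact lt_irrefl _ hn
  have hp1 : |p 1| ≤ ε1 := by
    have h1 : |(p - us 0 s) 1| ≤ ‖p - us 0 s‖ := XTent.abs_apply_le _ _
    have h2 : (p - us 0 s) 1 = p 1 := by simp [us]
    rw [h2] at h1; linarith
  have hpn : ‖p‖ ≤ 1 + ε1 := by
    have h1 : ‖us 0 s‖ = 1 := by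
      unfold us
      rw [EuclideanSpace.norm_eq]
      rcases hs with rfl | rfl <;> simp [Fin.sum_univ_three]
    have h2 : p = (p - us 0 s) + us 0 s := by abel
    calc ‖p‖ = ‖(p - us 0 s) + us 0 s‖ := by rw [← h2]
      _ ≤ _ := (norm_add_le _ _).trans (by linarith)
  -- sign of `y`
  obtain ⟨σ, hσ, hσy⟩ : ∃ σ : ℝ, (σ = 1 ∨ σ = -1) ∧ 0 ≤ σ * y := by
    rcases le_total 0 y with h0 | h0
    · exact ⟨1, Or.inl rfl, by linarith⟩
    · exact ⟨-1, Or.inr rfl, by linarith⟩
  set α : ℝ := if σ = 1 then -(3 * κ / 8) else κ / 4 with hα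
  set β : ℝ := if σ = 1 then -(κ / 4) else 3 * κ / 8 with hβ
  have hab : β - α = κ / 8 := by
    rw [hα, hβ]; split_ifs <;> ring
  have hwin : ∀ r : ℝ, r ∈ Icc α β → -(3 * κ / 8) ≤ σ * r ∧ σ * r ≤ -(κ / 4) := by
    intro r hr
    rcases hσ with rfl | rfl
    · rw [hα, hβ, if_pos rfl, if_pos rfl] at hr
      exact ⟨by linarith [hr.1], by linarith [hr.2]⟩
    · rw [hα, hβ, if_neg (by norm_num), if_neg (by norm_num)] at hr
      exact ⟨by linarith [hr.2], by linarith [hr.1]⟩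
  have hq1 := abs_le.1 (le_refl |q 1|)
  have hp1' := abs_le.1 hp1
  have hα1 : (q 1 + p 1) / 2 - ‖q - p‖ / 2 ≤ α := by
    have : -(3 * κ / 8) ≤ α := by rw [hα]; split_ifs <;> linarith
    linarith [hq1.2]
  have hβ1 : β ≤ (q 1 + p 1) / 2 + ‖q - p‖ / 2 := by
    have : β ≤ 3 * κ / 8 := by rw [hβ]; split_ifs <;> linarith
    linarith [hq1.1]
  have hW := Seen.smean_window (v := q) (u := p) 1 hqp (by linarith : α ≤ β) hα1 hβ1
  have hS := Seen.smean_slab (v := q) (u := p) 0 hqp (by linarith : (0 : ℝ) ≤ 2 * d)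
  set f : R3 → ℝ := fun w => tentp A Yp e y w * lamd d (w 0) with hf
  have hfc : Continuous f := by
    rw [hf]
    refine Continuous.mul ?_ ?_
    · unfold tentp tent; fun_prop
    · unfold lamd; fun_prop
  have hf0 : ∀ w, 0 ≤ f w := fun w => mul_nonneg (le_max_left _ _) (le_max_left _ _)
  set I1 : R3 → ℝ := fun a => (Icc α β).indicator (fun _ => (1 : ℝ)) (a 1) with hI1
  set I2 : R3 → ℝ := fun a => (Ioo (-(2 * d)) (2 * d)).indicator (fun _ => (1 : ℝ)) (a 0) with hI2
  have mI1 : Measurable I1 :=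
    (measurable_const.indicator measurableSet_Icc).comp (by fun_prop : Measurable fun a : R3 => a 1)
  have mI2 : Measurable I2 :=
    (measurable_const.indicator measurableSet_Ioo).comp (by fun_prop : Measurable fun a : R3 => a 0)
  have bI1 : ∀ a, |I1 a| ≤ 1 := by
    intro a; rw [hI1]; simp only [indicator]; split_ifs <;> simp
  have bI2 : ∀ a, |I2 a| ≤ 1 := by
    intro a; rw [hI2]; simp only [indicator]; split_ifs <;> simp
  have i1 := integrable_pt_of_bounded mI1 q p (C := 1) fun a _ => bI1 a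
  have i2 := integrable_pt_of_bounded mI2 q p (C := 1) fun a _ => bI2 a
  have hfi := integrable_pt_of_continuous hfc q p
  have hpt : ∀ s : R3, ‖s‖ = 1 → κ / 16 * (I1 (pt q p s) - I2 (pt q p s)) ≤ f (pt q p s) := by
    intro s' hs'
    set w := pt q p s'
    have hw : ‖w‖ ≤ Q1 + 2 := (norm_pt_le hs').trans (by linarith)
    by_cases c1 : w 1 ∈ Icc α β
    · by_cases c2 : w 0 ∈ Ioo (-(2 * d)) (2 * d)
      · have e1 : I1 w = 1 := by rw [hI1]; simp only; rw [indicator_of_mem c1]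
        have e2 : I2 w = 1 := by rw [hI2]; simp only; rw [indicator_of_mem c2]
        rw [e1, e2]; simpa using hf0 w
      · have e1 : I1 w = 1 := by rw [hI1]; simp only; rw [indicator_of_mem c1]
        have e2 : I2 w = 0 := by rw [hI2]; simp only; rw [indicator_of_notMem c2]
        rw [e1, e2, sub_zero, mul_one]
        obtain ⟨h1, h2⟩ := hwin _ c1
        have ht := Seen.tent_window h hQ4 hκ hκ1 he hε hy hw hσ hσy h1 h2
        have hl : lamd d (w 0) = 1 := by
          have h3 : 2 * d ≤ |w 0| := by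
            by_contra hc
            push Not at hc
            exact c2 (abs_lt.1 hc)
          unfold lamd
          have h4 : (1 : ℝ) ≤ |w 0| / d - 1 := by
            rw [le_sub_iff_add_le, le_div_iff₀ hd]; linarith
          rw [min_eq_left h4, max_eq_right zero_le_one]
        show κ / 16 ≤ tentp A Yp e y w * lamd d (w 0)
        rw [hl, mul_one]; exact ht
    · have e1 : I1 w = 0 := by rw [hI1]; simp only; rw [indicator_of_notMem c1]
      have e2 : 0 ≤ I2 w := by
        rw [hI2]; simp only [indicator]; split_ifs <;> norm_num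
      rw [e1]
      have := hf0 w
      nlinarith
  have hmain : κ / 16 * (smean I1 q p - smean I2 q p) ≤ smean f q p := by
    rw [← smean_sub q p i1 i2, ← smean_const_mul]
    exact smean_mono q p ((i1.sub i2).const_mul _) hfi hpt
  rw [gsR_eq_smean hfc.measurable q p hfi]
  have h3 : κ / 16 / ‖q - p‖ ≤ smean I1 q p - smean I2 q p := by
    have h4 : κ / 16 / ‖q - p‖ ≤ (β - α) / ‖q - p‖ - 2 * (2 * d) / ‖q - p‖ := by
      rw [← sub_div, hab]
      gcongr
      linarith
    linarith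
  have h5 : κ / 16 * (κ / 16 / ‖q - p‖) ≤ smean f q p :=
    (mul_le_mul_of_nonneg_left h3 (by positivity)).trans hmain
  calc π * κ ^ 2 / 64 = 4 * π * ‖q - p‖ * (κ / 16 * (κ / 16 / ‖q - p‖)) := by
        field_simp; ring
    _ ≤ _ := mul_le_mul_of_nonneg_left h5 (by positivity)

end Crest.Agent.R68.X2
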