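import Crest.Agent.R68.X2Int
import Crest.Agent.R68.LMass

/-!
# Row 68, PART X2 (helper810): the integrated inequalities on a short time interval, with one
constant (abstract in the weights)
-/

set_option autoImplicit false
set_option maxHeartbeats 400000
open MeasureTheory Set Filter
open scoped ENNReal Real Topology
open Crest.AnalysisR.VecCalc3 Crest.AnalysisR.PDE.Boltzmann

noncomputable section

namespace Crest.Agent.R68.X2.Fin

open Crest.Agent.R68.L (Den Gf Dam TL sol)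
open Crest.Agent.R68.A (Meas3)

/-- upper inequality on `(0,T]` with the constant `C` -/
def UpP (P : Par) (g1 g2 A2 : ℝ) (W Ψ : Den) (T C : ℝ) : Prop :=
  ∀ (τ : ℝ) (σ H : Den), 0 < τ → SeedH P g1 g2 τ T σ H → ∀ s t, τ ≤ s → s ≤ t → t ≤ T →
    MW W H t ≤ MW W H s + ∫⁻ r in Ioo s t, (ENNReal.ofReal (A2 / r + C) * MW W H r
      + ENNReal.ofReal C * MW (GA (L.phiE P) Ψ) H r + MW W σ r)

/-- lower inequality on `(0,T]` with the constant `C` -/
def LowP (P : Par) (g1 g2 A1 d1 : ℝ) (g Ψ W : Den) (T C : ℝ) : Prop :=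
  ∀ (τ : ℝ) (σ H : Den), 0 < τ → SeedH P g1 g2 τ T σ H → ∀ s t, τ ≤ s → s ≤ t → t ≤ T →
    PW g H s + ∫⁻ r in Ioo s t, (ENNReal.ofReal (A1 / r) * PW g H r
      + ENNReal.ofReal d1 * MW (GA (L.phiE P) Ψ) H r + PW g σ r)
      ≤ PW g H t + ∫⁻ r in Ioo s t, ENNReal.ofReal C * MW W H r

theorem up_ev {P : Par} (hP : P.Ok) {g1 g2 : ℝ} {W Ψ k : Den} (mW : Meas3 W) (mΨ : Meas3 Ψ)
    (mk : Meas3 k)
    (pW : ∀ t v, PerG (fun x => W t x v)) (pΨ : ∀ t v, PerG (fun x => Ψ t x v))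
    (pk : ∀ t v, PerG (fun x => k t x v)) {a : ℝ} (ha : 0 ≤ a)
    (hfin : ∃ t0 : ℝ, 0 < t0 ∧ ∃ B : ℝ≥0∞, B ≠ ⊤ ∧ ∀ t, 0 < t → t ≤ t0 →
      MW (fun t x v => ENNReal.ofReal (1 + ‖v‖) * W t x v) (B2 P g1 g2 0) t ≤ B)
    (hk : ∃ t0 C : ℝ, 0 < t0 ∧ 0 ≤ C ∧ ∀ t, 0 < t → t ≤ t0 → ∀ x v,
      k t x v ≤ ENNReal.ofReal (C / t ^ 3) * W t x v)
    (hpw : ∃ t0 C : ℝ, 0 < t0 ∧ 0 ≤ C ∧ ∀ t, 0 < t → t ≤ t0 → ∀ x v,
      GA (L.phiE P) W t x v ≤ Lc (L.phiE P t x) v * W t x v + k t x v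
      + ENNReal.ofReal (a / t + C) * W t x v + ENNReal.ofReal C * GA (L.phiE P) Ψ t x v)
    (hfl : ∃ t0 C : ℝ, 0 < t0 ∧ 0 ≤ C ∧ ∀ s r : ℝ, 0 < s → s ≤ r → r ≤ t0 → ∀ (x : P2) (v : R3),
      W r (x + (r - s) • bar v) v + ∫⁻ ρ in Ioo s r, k ρ (x + (ρ - s) • bar v) v
      ≤ W s x v + ∫⁻ ρ in Ioo s r, ENNReal.ofReal C * W ρ (x + (ρ - s) • bar v) v) :
    ∃ T0 C0 : ℝ, 0 < T0 ∧ 0 ≤ C0 ∧ ∀ T C, 0 < T → T ≤ T0 → C0 ≤ C → UpP P g1 g2 a W Ψ T C := by
  obtain ⟨ta, hta, B, hB, hfin⟩ := hfin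
  obtain ⟨tb, Cb, htb, hCb, hk⟩ := hk
  obtain ⟨tc, Cc, htc, hCc, hpw⟩ := hpw
  obtain ⟨td, Cd, htd, hCd, hfl⟩ := hfl
  set Cm : ℝ := 8 * Cb + Cc + Cd with hCm
  have hCm0 : 0 ≤ Cm := by positivity
  refine ⟨min (min ta tb) (min tc td), 2 * Cm, by positivity, by positivity, ?_⟩
  intro T C hT hTle hC τ σ H hτ hS s t hs hst ht
  have h1 : T ≤ ta := hTle.trans ((min_le_left _ _).trans (min_le_left _ _))
  have h2 : T ≤ tb := hTle.trans ((min_le_left _ _).trans (min_le_right _ _))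
  have h3 : T ≤ tc := hTle.trans ((min_le_right _ _).trans (min_le_left _ _))
  have h4 : T ≤ td := hTle.trans ((min_le_right _ _).trans (min_le_right _ _))
  have key := int_up hP hτ hS mW mΨ mk pW pΨ pk ha hCm0
    ⟨B, hB, fun t ht1 ht2 => hfin t ht1 (ht2.trans h1)⟩
    (fun t ht1 ht2 x v => by
      have ht0 : 0 < t := by linarith
      refine (hk t ht0 (ht2.trans h2) x v).trans ?_
      gcongr ENNReal.ofReal ?_ * _
      rw [div_le_div_iff₀ (by positivity) (by positivity)]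
      have e1 : (τ / 2) ^ 3 ≤ t ^ 3 := pow_le_pow_left₀ (by positivity) ht1 3
      have e2 : τ ^ 3 ≤ 8 * t ^ 3 := by nlinarith
      calc Cb * τ ^ 3 ≤ Cb * (8 * t ^ 3) := by gcongr
        _ ≤ Cm * t ^ 3 := by
          rw [hCm]
          have : 0 < t ^ 3 := by positivity
          nlinarith)
    (fun t ht1 ht2 x v => by
      refine (hpw t ht1 (ht2.trans h3) x v).trans ?_
      have e1 : a / t + Cc ≤ a / t + Cm := by rw [hCm]; linarith
      have e2 : Cc ≤ Cm := by rw [hCm]; linarith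
      gcongr)
    (fun s r hs1 hsr hr x v => by
      refine (hfl s r hs1 hsr (hr.trans h4) x v).trans ?_
      have e2 : Cd ≤ Cm := by rw [hCm]; linarith
      gcongr) s t hs hst ht
  refine key.trans ?_
  gcongr with r hr
  linarith

/-- a weight supported in a small ball, dominated by a periodic weight -/
theorem PW_le_MW {R W H : Den} (mW : Meas3 W) (mH : Meas3 H)
    (pW : ∀ t v, PerG (fun x => W t x v)) (pH : ∀ t v, PerG (fun x => H t x v))
    {t Z c : ℝ} (hZ : Z < 7 / 20)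
    (hR : ∀ x v, R t x v ≤ if ‖x‖ ≤ Z then ENNReal.ofReal c * W t x v else 0) :
    PW R H t ≤ ENNReal.ofReal c * MW W H t := by
  set F : P2 → ℝ≥0∞ := fun x => ∫⁻ v, W t x v * H t x v with hF
  have mF : Measurable F := by
    refine Measurable.lintegral_prod_right' (f := fun p : P2 × R3 => W t p.1 p.2 * H t p.1 p.2) ?_
    exact (mW.comp measurable_const measurable_fst measurable_snd).mul
      (mH.comp measurable_const measurable_fst measurable_snd)
  have pF : PerG F := by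
    intro x k
    refine lintegral_congr fun v => ?_
    have e1 := pW t v x k
    have e2 := pH t v x k
    simp only at e1 e2
    rw [e1, e2]
  have h1 : ∀ x, (∫⁻ v, R t x v * H t x v) ≤
      {x : P2 | ‖x - 0‖ ≤ Z}.indicator (fun x => ENNReal.ofReal c * F x) x := by
    intro x
    by_cases hx : ‖x‖ ≤ Z
    · rw [indicator_of_mem (by simpa using hx), hF]
      simp only
      rw [← lintegral_const_mul' _ _ ENNReal.ofReal_ne_top]
      refine lintegral_mono fun v => ?_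
      have := hR x v
      rw [if_pos hx] at this
      calc R t x v * H t x v ≤ ENNReal.ofReal c * W t x v * H t x v := by gcongr
        _ = _ := by ring
    · rw [indicator_of_notMem (by simpa using hx)]
      refine le_of_eq ?_
      rw [lintegral_eq_zero_iff']
      · refine Eventually.of_forall fun v => ?_
        have := hR x v
        rw [if_neg hx] at this
        simp [nonpos_iff_eq_zero.1 this]
      · refine AEMeasurable.congr (f := fun _ => (0 : ℝ≥0∞)) aemeasurable_const ?_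
        refine Eventually.of_forall fun v => ?_
        have := hR x v
        rw [if_neg hx] at this
        simp [nonpos_iff_eq_zero.1 this]
  have hS : MeasurableSet {x : P2 | ‖x - 0‖ ≤ Z} :=
    measurableSet_le (by fun_prop) measurable_const
  calc PW R H t ≤ ∫⁻ x, {x : P2 | ‖x - 0‖ ≤ Z}.indicator (fun x => ENNReal.ofReal c * F x) x :=
        lintegral_mono h1
    _ = ∫⁻ x in {x : P2 | ‖x - 0‖ ≤ Z}, ENNReal.ofReal c * F x := lintegral_indicator hS _
    _ = ENNReal.ofReal c * ∫⁻ x in {x : P2 | ‖x - 0‖ ≤ Z}, F x :=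
        lintegral_const_mul' _ _ ENNReal.ofReal_ne_top
    _ ≤ ENNReal.ofReal c * ∫⁻ x in cellG, F x :=
        mul_le_mul' le_rfl (LMass.lintegral_ball_le mF pF 0 hZ)
    _ = ENNReal.ofReal c * MW W H t := rfl

/-- from a real increment inequality along a flight to the extended form -/
theorem flow_enn {L : ℝ → ℝ} {s r a b : ℝ} (hsr : s ≤ r) (hL : IntervalIntegrable L volume s r)
    (ha : 0 ≤ a) (h : ∫ ρ in s..r, L ρ ≤ b - a) :
    ENNReal.ofReal a + ∫⁻ ρ in Ioo s r, ENNReal.ofReal (L ρ) ≤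
      ENNReal.ofReal b + ∫⁻ ρ in Ioo s r, ENNReal.ofReal (-L ρ) := by
  rw [intervalIntegrable_iff_integrableOn_Ioo_of_le hsr] at hL
  rw [intervalIntegral.integral_of_le hsr, integral_Ioc_eq_integral_Ioo,
    integral_eq_lintegral_pos_part_sub_lintegral_neg_part hL] at h
  have f1 : (∫⁻ ρ in Ioo s r, ENNReal.ofReal (L ρ)) ≠ ⊤ := hL.lintegral_lt_top.ne
  have f2 : (∫⁻ ρ in Ioo s r, ENNReal.ofReal (-L ρ)) ≠ ⊤ := hL.neg.lintegral_lt_top.ne
  set p := ∫⁻ ρ in Ioo s r, ENNReal.ofReal (L ρ)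
  set n := ∫⁻ ρ in Ioo s r, ENNReal.ofReal (-L ρ)
  have hp : 0 ≤ p.toReal := ENNReal.toReal_nonneg
  have hn : 0 ≤ n.toReal := ENNReal.toReal_nonneg
  rw [← ENNReal.ofReal_toReal f1, ← ENNReal.ofReal_toReal f2, ← ENNReal.ofReal_add ha hp]
  calc ENNReal.ofReal (a + p.toReal) ≤ ENNReal.ofReal (b + n.toReal) :=
        ENNReal.ofReal_le_ofReal (by linarith)
    _ ≤ ENNReal.ofReal b + ENNReal.ofReal n.toReal := ENNReal.ofReal_add_le

theorem measurable_MW {W H : Den} (mW : Meas3 W) (mH : Meas3 H) :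
    Measurable fun r => MW W H r := by
  have h1 : (fun r => MW W H r) = fun r =>
      XWeak.mm ((volume : Measure P2).restrict cellG) W H r := by
    funext r; exact int_MW_eq_mm mW mH r
  rw [h1]
  exact XWeak.measurable_mm mW mH

theorem measurable_PW {W H : Den} (mW : Meas3 W) (mH : Meas3 H) :
    Measurable fun r => PW W H r := by
  have h1 : (fun r => PW W H r) = fun r => XWeak.mm (volume : Measure P2) W H r := by
    funext r; exact int_PW_eq_mm mW mH r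
  rw [h1]
  exact XWeak.measurable_mm mW mH

/-- the correction near the lattice point -/
def errD (C : ℝ) (W : Den) : Den := fun t x v =>
  if ‖x‖ ≤ C * t then ENNReal.ofReal (C * t) * W t x v else 0

theorem PW_errD_le {W H : Den} (mW : Meas3 W) (mH : Meas3 H)
    (pW : ∀ t v, PerG (fun x => W t x v)) (pH : ∀ t v, PerG (fun x => H t x v))
    {t C : ℝ} (hZ : C * t < 7 / 20) : PW (errD C W) H t ≤ ENNReal.ofReal (C * t) * MW W H t := by
  refine PW_le_MW (R := errD C W) (Z := C * t) (c := C * t) mW mH pW pH hZ fun x v => ?_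
  unfold errD
  exact le_rfl

theorem PW_le_add {g Ψ E H : Den} (mΨ : Meas3 Ψ) (mH : Meas3 H) {r : ℝ}
    (h : ∀ x v, g r x v ≤ Ψ r x v + E r x v) : PW g H r ≤ PW Ψ H r + PW E H r := by
  have m1 : Measurable fun p : P2 × R3 => Ψ r p.1 p.2 * H r p.1 p.2 :=
    (mΨ.comp measurable_const measurable_fst measurable_snd).mul
      (mH.comp measurable_const measurable_fst measurable_snd)
  unfold PW
  rw [← lintegral_add_left (Measurable.lintegral_prod_right' m1)]
  refine lintegral_mono fun x => ?_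
  have m2 : Measurable fun v => Ψ r x v * H r x v := m1.comp measurable_prodMk_left
  show ∫⁻ v, g r x v * H r x v ≤ (∫⁻ v, Ψ r x v * H r x v) + ∫⁻ v, E r x v * H r x v
  rw [← lintegral_add_left m2]
  refine lintegral_mono fun v => ?_
  rw [← add_mul]
  exact mul_le_mul' (h x v) le_rfl

theorem low_ev {P : Par} (hP : P.Ok) {g1 g2 : ℝ} {W g kp em R : Den} {X : XP} (mW : Meas3 W)
    (mg : Meas3 g) (mk : Meas3 kp) (me : Meas3 em) (mR : Meas3 R)
    (pW : ∀ t v, PerG (fun x => W t x v)) {a d1 : ℝ} (ha : 0 ≤ a) (hd1 : 0 < d1) {Z : ℝ}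
    (_hZ : 0 ≤ Z)
    (hsupp : ∃ t0 : ℝ, 0 < t0 ∧ ∀ t, 0 < t → t ≤ t0 → ∀ x v, ‖x‖ > Z * t →
      g t x v = 0 ∧ kp t x v = 0 ∧ em t x v = 0)
    (hb : ∃ t0 : ℝ, 0 < t0 ∧ ∀ τ, 0 < τ → ∃ B : ℝ≥0∞, B ≠ ⊤ ∧ ∀ t, τ / 2 ≤ t → t ≤ t0 → ∀ x v,
      g t x v ≤ B ∧ kp t x v ≤ B ∧ em t x v ≤ B)
    (hfin : ∃ t0 : ℝ, 0 < t0 ∧ ∃ B : ℝ≥0∞, B ≠ ⊤ ∧ ∀ t, 0 < t → t ≤ t0 →
      ∫⁻ x in {x : P2 | ‖x‖ ≤ Z * t}, ∫⁻ v, ENNReal.ofReal (1 + ‖v‖) * B2 P g1 g2 0 t x v ≤ B)
    (hpw : ∃ t0 : ℝ, 0 < t0 ∧ ∀ t, 0 < t → t ≤ t0 → ∀ x v,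
      kp t x v + Lc (L.phiE P t x) v * g t x v
      + ENNReal.ofReal (a / t) * psiE X t x v + ENNReal.ofReal d1 * GA (L.phiE P) (psiE X) t x v
      ≤ em t x v + GA (L.phiE P) g t x v + R t x v)
    (hfl : ∃ t0 : ℝ, 0 < t0 ∧ ∀ s r : ℝ, 0 < s → s ≤ r → r ≤ t0 → ∀ (x : P2) (v : R3),
      g s x v + ∫⁻ ρ in Ioo s r, em ρ (x + (ρ - s) • bar v) v
      ≤ g r (x + (r - s) • bar v) v + ∫⁻ ρ in Ioo s r, kp ρ (x + (ρ - s) • bar v) v)
    (hR : ∃ t0 C : ℝ, 0 < t0 ∧ 0 ≤ C ∧ ∀ t, 0 < t → t ≤ t0 → ∀ x v,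
      R t x v ≤ if ‖x‖ ≤ C * t then ENNReal.ofReal C * W t x v else 0)
    (hg : ∃ t0 C : ℝ, 0 < t0 ∧ 0 ≤ C ∧ ∀ t, 0 < t → t ≤ t0 → ∀ x v,
      g t x v ≤ psiE X t x v + errD C W t x v) :
    ∃ T0 C0 : ℝ, 0 < T0 ∧ 0 ≤ C0 ∧ ∀ T C, 0 < T → T ≤ T0 → C0 ≤ C →
      LowP P g1 g2 a d1 g (psiP X) W T C := by
  obtain ⟨ta, hta, hsupp⟩ := hsupp
  obtain ⟨tb, htb, hb⟩ := hb
  obtain ⟨tc, htc, B, hB, hfin⟩ := hfin
  obtain ⟨td, htd, hpw⟩ := hpw
  obtain ⟨te, hte, hfl⟩ := hfl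
  obtain ⟨tf, Cf, htf, hCf, hR⟩ := hR
  obtain ⟨tg, Cg, htg, hCg, hg⟩ := hg
  set th : ℝ := min (1 / (4 * (Cf + 1))) (1 / (4 * (Cg + 1))) with hth
  have hthp : 0 < th := by rw [hth]; positivity
  refine ⟨min (min (min ta tb) (min tc td)) (min (min te tf) (min tg th)), Cf + a * Cg,
    by positivity, by positivity, ?_⟩
  intro T C hT hTle hC τ σ H hτ hS s t hs hst ht
  have h1 : T ≤ ta := hTle.trans ((min_le_left _ _).trans ((min_le_left _ _).trans (min_le_left _ _)))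
  have h2 : T ≤ tb := hTle.trans ((min_le_left _ _).trans ((min_le_left _ _).trans (min_le_right _ _)))
  have h3 : T ≤ tc := hTle.trans ((min_le_left _ _).trans ((min_le_right _ _).trans (min_le_left _ _)))
  have h4 : T ≤ td := hTle.trans ((min_le_left _ _).trans ((min_le_right _ _).trans (min_le_right _ _)))
  have h5 : T ≤ te := hTle.trans ((min_le_right _ _).trans ((min_le_left _ _).trans (min_le_left _ _)))
  have h6 : T ≤ tf := hTle.trans ((min_le_right _ _).trans ((min_le_left _ _).trans (min_le_right _ _)))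
  have h7 : T ≤ tg := hTle.trans ((min_le_right _ _).trans ((min_le_right _ _).trans (min_le_left _ _)))
  have h8 : T ≤ th := hTle.trans ((min_le_right _ _).trans ((min_le_right _ _).trans (min_le_right _ _)))
  have key := int_low hP hτ hS (R := R) (a := a) (d1 := d1) (Z := Z) mg (int_meas3_psiE X) mk me mR ha hd1
    (fun t ht1 ht2 x v hx => hsupp t ht1 (ht2.trans h1) x v hx)
    (by
      obtain ⟨B', hB', hb'⟩ := hb τ hτ
      exact ⟨B', hB', fun t ht1 ht2 x v => hb' t ht1 (ht2.trans h2) x v⟩)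
    ⟨B, hB, fun t ht1 ht2 => hfin t ht1 (ht2.trans h3)⟩
    (fun t ht1 ht2 x v => hpw t ht1 (ht2.trans h4) x v)
    (fun s r hs1 hsr hr x v => hfl s r hs1 hsr (hr.trans h5) x v) s t hs hst ht
  -- error terms
  have hCf1 : ∀ r, 0 < r → r ≤ T → Cf * r < 7 / 20 := by
    intro r hr hrT
    have e1 : r ≤ 1 / (4 * (Cf + 1)) := hrT.trans (h8.trans (min_le_left _ _))
    calc Cf * r ≤ (Cf + 1) * (1 / (4 * (Cf + 1))) := by
          refine mul_le_mul (by linarith) e1 hr.le (by positivity)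
      _ = 1 / 4 := by field_simp
      _ < 7 / 20 := by norm_num
  have hCg1 : ∀ r, 0 < r → r ≤ T → Cg * r < 7 / 20 := by
    intro r hr hrT
    have e1 : r ≤ 1 / (4 * (Cg + 1)) := hrT.trans (h8.trans (min_le_right _ _))
    calc Cg * r ≤ (Cg + 1) * (1 / (4 * (Cg + 1))) := by
          refine mul_le_mul (by linarith) e1 hr.le (by positivity)
      _ = 1 / 4 := by field_simp
      _ < 7 / 20 := by norm_num
  have eR : ∀ r ∈ Ioo s t, PW R H r ≤ ENNReal.ofReal Cf * MW W H r := by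
    intro r hr
    have hr0 : 0 < r := hτ.trans_le (hs.trans hr.1.le)
    have hrT : r ≤ T := hr.2.le.trans ht
    exact PW_le_MW mW hS.mH pW hS.pH (hCf1 r hr0 hrT) (fun x v => hR r hr0 (hrT.trans h6) x v)
  have eg : ∀ r ∈ Ioo s t, ENNReal.ofReal (a / r) * PW g H r ≤
      ENNReal.ofReal (a / r) * PW (psiE X) H r + ENNReal.ofReal (a * Cg) * MW W H r := by
    intro r hr
    have hr0 : 0 < r := hτ.trans_le (hs.trans hr.1.le)
    have hrT : r ≤ T := hr.2.le.trans ht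
    have e1 : PW g H r ≤ PW (psiE X) H r + PW (errD Cg W) H r :=
      PW_le_add (int_meas3_psiE X) hS.mH (hg r hr0 (hrT.trans h7))
    have e2 : PW (errD Cg W) H r ≤ ENNReal.ofReal (Cg * r) * MW W H r :=
      PW_errD_le mW hS.mH pW hS.pH (hCg1 r hr0 hrT)
    calc ENNReal.ofReal (a / r) * PW g H r
        ≤ ENNReal.ofReal (a / r) * (PW (psiE X) H r + ENNReal.ofReal (Cg * r) * MW W H r) := by
          gcongr
          exact e1.trans (add_le_add le_rfl e2)
      _ = ENNReal.ofReal (a / r) * PW (psiE X) H r +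
          (ENNReal.ofReal (a / r) * ENNReal.ofReal (Cg * r)) * MW W H r := by ring
      _ = _ := by
          rw [← ENNReal.ofReal_mul (by positivity)]
          congr 3
          field_simp
  have mMW := measurable_MW mW hS.mH
  have eq1 : ∀ r, PW (GA (L.phiE P) (psiE X)) H r = MW (GA (L.phiE P) (psiP X)) H r := fun r =>
    PW_eq_MW hP hS.mH hS.pH r
  calc PW g H s + ∫⁻ r in Ioo s t, (ENNReal.ofReal (a / r) * PW g H r
        + ENNReal.ofReal d1 * MW (GA (L.phiE P) (psiP X)) H r + PW g σ r)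
      ≤ PW g H s + ∫⁻ r in Ioo s t, ((ENNReal.ofReal (a / r) * PW (psiE X) H r
        + ENNReal.ofReal d1 * PW (GA (L.phiE P) (psiE X)) H r + PW g σ r) +
        ENNReal.ofReal (a * Cg) * MW W H r) := by
        gcongr 1
        refine setLIntegral_mono_ae' measurableSet_Ioo (Eventually.of_forall fun r hr => ?_)
        rw [eq1 r]
        calc _ ≤ (ENNReal.ofReal (a / r) * PW (psiE X) H r + ENNReal.ofReal (a * Cg) * MW W H r)
            + ENNReal.ofReal d1 * MW (GA (L.phiE P) (psiP X)) H r + PW g σ r := by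
              gcongr
              exact eg r hr
          _ = _ := by ring
    _ = (PW g H s + ∫⁻ r in Ioo s t, (ENNReal.ofReal (a / r) * PW (psiE X) H r
        + ENNReal.ofReal d1 * PW (GA (L.phiE P) (psiE X)) H r + PW g σ r)) +
        ∫⁻ r in Ioo s t, ENNReal.ofReal (a * Cg) * MW W H r := by
        rw [lintegral_add_right _ (mMW.const_mul _), add_assoc]
    _ ≤ (PW g H t + ∫⁻ r in Ioo s t, PW R H r) +
        ∫⁻ r in Ioo s t, ENNReal.ofReal (a * Cg) * MW W H r := by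
        gcongr
    _ ≤ (PW g H t + ∫⁻ r in Ioo s t, ENNReal.ofReal Cf * MW W H r) +
        ∫⁻ r in Ioo s t, ENNReal.ofReal (a * Cg) * MW W H r := by
        exact add_le_add (add_le_add le_rfl
          (setLIntegral_mono_ae' measurableSet_Ioo (Eventually.of_forall eR))) le_rfl
    _ = PW g H t + ∫⁻ r in Ioo s t, ENNReal.ofReal (Cf + a * Cg) * MW W H r := by
        rw [add_assoc, ← lintegral_add_left (mMW.const_mul _)]
        congr 1
        refine lintegral_congr fun r => ?_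
        rw [← add_mul, ← ENNReal.ofReal_add hCf (by positivity)]
    _ ≤ _ := by
        gcongr

end Crest.Agent.R68.X2.Fin
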