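import Mathlib
import Crest.Agent.R68.XTent

/-!
# Row 68, PART X (helper180): spherical caps and lower bounds for the gain of a function which is
large on a ball meeting the collision sphere
-/

set_option autoImplicit false
open MeasureTheory Set Metric
open scoped ENNReal Real
open Crest.AnalysisR.VecCalc3 Crest.AnalysisR.PDE.Boltzmann

noncomputable section

namespace Crest.Agent.R68.X

open Crest.Agent.R68.XTent

/-- measure of a spherical cap -/
theorem sphere_cap {e : R3} (he : ‖e‖ = 1) {η : ℝ} (h0 : 0 ≤ η) (h2 : η ≤ 2) :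
    sphereMeasure {s : R3 | 1 - η < (inner ℝ e s : ℝ)} = ENNReal.ofReal (2 * π * η) := by
  have hm : MeasurableSet {s : R3 | 1 - η < (inner ℝ e s : ℝ)} :=
    measurableSet_lt measurable_const (by fun_prop)
  have h := lintegral_sphere_inner he (f := (Ioi (1 - η)).indicator 1)
    (measurable_one.indicator measurableSet_Ioi)
  have h1 : ∫⁻ w, (Ioi (1 - η)).indicator 1 (inner ℝ e w : ℝ) ∂sphereMeasure =
      sphereMeasure {s : R3 | 1 - η < (inner ℝ e s : ℝ)} := by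
    rw [← lintegral_indicator_one hm]
    refine lintegral_congr fun w => ?_
    rfl
  rw [← h1, h, lintegral_indicator_one measurableSet_Ioi,
    Measure.restrict_apply measurableSet_Ioi]
  have h3 : Ioi (1 - η) ∩ Ioo (-1 : ℝ) 1 = Ioo (1 - η) 1 := by
    ext t
    simp only [mem_inter_iff, mem_Ioi, mem_Ioo]
    constructor
    · rintro ⟨a, _, c⟩; exact ⟨a, c⟩
    · rintro ⟨a, c⟩; exact ⟨a, by linarith, c⟩
  rw [h3, Real.volume_Ioo, ← ENNReal.ofReal_mul (by positivity)]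
  congr 1
  ring

theorem out1_eq180 (q u s : R3) : out1 q u s = (1 / 2 : ℝ) • (q + u) - (‖q - u‖ / 2) • s := by
  unfold out1; module

theorem out2_eq180 (q u s : R3) : out2 q u s = (1 / 2 : ℝ) • (q + u) + (‖q - u‖ / 2) • s := by
  unfold out2; module

/-- the outgoing velocity stays in the ball if `s` is in the cap -/
theorem out1_near {q u s0 s : R3} (hs0 : ‖s0‖ = 1) (hs : ‖s‖ = 1) {r0 : ℝ} (hr : 0 < r0)
    (hqu : 0 < ‖q - u‖) (h : 1 - 2 * r0 ^ 2 / ‖q - u‖ ^ 2 < (inner ℝ s0 s : ℝ)) :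
    ‖out1 q u s - out1 q u s0‖ < r0 := by
  have h1 : out1 q u s - out1 q u s0 = (‖q - u‖ / 2) • (s0 - s) := by
    rw [out1_eq180, out1_eq180]; module
  rw [h1, norm_smul, Real.norm_of_nonneg (by positivity)]
  have h2 : ‖s0 - s‖ ^ 2 = 2 - 2 * inner ℝ s0 s := by
    rw [norm_sub_sq_real, hs0, hs]; ring
  have h3 : (‖q - u‖ / 2 * ‖s0 - s‖) ^ 2 < r0 ^ 2 := by
    rw [mul_pow, h2]
    have h4 : 0 < ‖q - u‖ ^ 2 := by positivity
    have h5 : 2 - 2 * (inner ℝ s0 s : ℝ) < 4 * r0 ^ 2 / ‖q - u‖ ^ 2 := by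
      have : 4 * r0 ^ 2 / ‖q - u‖ ^ 2 = 2 * (2 * r0 ^ 2 / ‖q - u‖ ^ 2) := by ring
      rw [this]; linarith
    rw [lt_div_iff₀ h4] at h5
    nlinarith
  exact lt_of_pow_lt_pow_left₀ 2 hr.le h3

/-- **cap lemma** -/
theorem cap_gainT {f : R3 → ℝ} (hf : Continuous f) (hf0 : ∀ q, 0 ≤ f q) {q u s0 : R3}
    (hs0 : ‖s0‖ = 1) {r0 c0 : ℝ} (hr : 0 < r0) (hc : 0 ≤ c0)
    (hb : ∀ p, ‖p - out1 q u s0‖ < r0 → c0 ≤ f p) (hqu : 0 < ‖q - u‖) :
    2 * π * c0 * min ‖q - u‖ (r0 ^ 2 / ‖q - u‖) ≤ gainT f q u := by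
  rw [gainT_eq hf.measurable]
  set η := min 2 (2 * r0 ^ 2 / ‖q - u‖ ^ 2) with hη
  have hη0 : 0 ≤ η := le_min (by norm_num) (by positivity)
  have hη2 : η ≤ 2 := min_le_left _ _
  have hm : MeasurableSet {s : R3 | 1 - η < (inner ℝ s0 s : ℝ)} :=
    measurableSet_lt measurable_const (by fun_prop)
  have hcf : Continuous fun s : R3 => f (out1 q u s) + f (out2 q u s) :=
    (hf.comp (continuous_out1 q u)).add (hf.comp (continuous_out2 q u))
  have h1 : ∫ s : R3, {s : R3 | 1 - η < (inner ℝ s0 s : ℝ)}.indicator (fun _ => c0) s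
      ∂sphereMeasure = 2 * π * η * c0 := by
    rw [integral_indicator hm, setIntegral_const, smul_eq_mul, Measure.real, sphere_cap hs0 hη0 hη2,
      ENNReal.toReal_ofReal (by positivity)]
  have h2 : 2 * π * η * c0 ≤ ∫ s, (f (out1 q u s) + f (out2 q u s)) ∂sphereMeasure := by
    rw [← h1]
    apply integral_mono_ae ((integrable_const c0).indicator hm)
      (integrable_sphere_of_continuous hcf)
    filter_upwards [ae_sphereMeasure] with s hs
    by_cases hmem : s ∈ {s : R3 | 1 - η < (inner ℝ s0 s : ℝ)}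
    · rw [indicator_of_mem hmem]
      have h3 : 1 - 2 * r0 ^ 2 / ‖q - u‖ ^ 2 < (inner ℝ s0 s : ℝ) ∨ η = 2 := by
        rcases min_choice 2 (2 * r0 ^ 2 / ‖q - u‖ ^ 2) with h | h
        · right; rw [hη, h]
        · left
          have h4 : 1 - η < (inner ℝ s0 s : ℝ) := hmem
          rw [hη, h] at h4; exact h4
      have h5 : ‖out1 q u s - out1 q u s0‖ < r0 := by
        rcases h3 with h3 | h3
        · exact out1_near hs0 hs hr hqu h3
        · apply out1_near hs0 hs hr hqu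
          have h4 : 1 - η < (inner ℝ s0 s : ℝ) := hmem
          have h6 : η ≤ 2 * r0 ^ 2 / ‖q - u‖ ^ 2 := min_le_right _ _
          linarith
      have h7 := hb _ h5
      have h8 := hf0 (out2 q u s)
      linarith
    · rw [indicator_of_notMem hmem]
      exact add_nonneg (hf0 _) (hf0 _)
  have h3 : 2 * π * c0 * min ‖q - u‖ (r0 ^ 2 / ‖q - u‖) = ‖q - u‖ / 2 * (2 * π * η * c0) := by
    have h4 : min ‖q - u‖ (r0 ^ 2 / ‖q - u‖) = ‖q - u‖ / 2 * η := by
      rw [hη, mul_min_of_nonneg _ _ (by positivity)]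
      congr 1
      · ring
      · field_simp
    rw [h4]; ring
  rw [h3]
  exact mul_le_mul_of_nonneg_left h2 (by positivity)

/-- every point of the collision sphere is an outgoing velocity -/
theorem exists_out1 {q u p0 : R3} (hqu : 0 < ‖q - u‖)
    (hp : ‖p0 - (1 / 2 : ℝ) • (q + u)‖ = ‖q - u‖ / 2) : ∃ s0 : R3, ‖s0‖ = 1 ∧ out1 q u s0 = p0 := by
  refine ⟨-((2 / ‖q - u‖) • (p0 - (1 / 2 : ℝ) • (q + u))), ?_, ?_⟩
  · rw [norm_neg, norm_smul, hp, Real.norm_of_nonneg (by positivity)]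
    field_simp
  · rw [out1_eq180, smul_neg, smul_smul, sub_neg_eq_add]
    have : ‖q - u‖ / 2 * (2 / ‖q - u‖) = 1 := by field_simp
    rw [this, one_smul]
    abel

/-- **cap lemma**, `p0` on the collision sphere -/
theorem cap_gainT' {f : R3 → ℝ} (hf : Continuous f) (hf0 : ∀ q, 0 ≤ f q) {q u p0 : R3}
    {r0 c0 : ℝ} (hr : 0 < r0) (hc : 0 ≤ c0)
    (hb : ∀ p, ‖p - p0‖ < r0 → c0 ≤ f p) (hqu : 0 < ‖q - u‖)
    (hp : ‖p0 - (1 / 2 : ℝ) • (q + u)‖ = ‖q - u‖ / 2) :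
    2 * π * c0 * min ‖q - u‖ (r0 ^ 2 / ‖q - u‖) ≤ gainT f q u := by
  obtain ⟨s0, hs0, rfl⟩ := exists_out1 hqu hp
  exact cap_gainT hf hf0 hs0 hr hc hb hqu

/-- **cap lemma** with uniform constants -/
theorem cap_gainT_unif {f : R3 → ℝ} (hf : Continuous f) (hf0 : ∀ q, 0 ≤ f q) {q u p0 : R3}
    {r0 c0 ρ V : ℝ} (hr : 0 < r0) (hc : 0 ≤ c0) (hρ : 0 < ρ) (h1 : ρ ≤ ‖q - u‖)
    (h2 : ‖q - u‖ ≤ V) (hb : ∀ p, ‖p - p0‖ < r0 → c0 ≤ f p)
    (hp : ‖p0 - (1 / 2 : ℝ) • (q + u)‖ = ‖q - u‖ / 2) :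
    2 * π * c0 * min ρ (r0 ^ 2 / V) ≤ gainT f q u := by
  have h0 : 0 < ‖q - u‖ := hρ.trans_le h1
  refine le_trans ?_ (cap_gainT' hf hf0 hr hc hb h0 hp)
  apply mul_le_mul_of_nonneg_left _ (by positivity)
  apply min_le_min h1
  exact div_le_div_of_nonneg_left (by positivity) h0 h2

/-- the incoming velocities are on the collision sphere -/
theorem left_mem_sphere (q u : R3) : ‖q - (1 / 2 : ℝ) • (q + u)‖ = ‖q - u‖ / 2 := by
  have : q - (1 / 2 : ℝ) • (q + u) = (1 / 2 : ℝ) • (q - u) := by module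
  rw [this, norm_smul]; norm_num; ring

theorem right_mem_sphere (q u : R3) : ‖u - (1 / 2 : ℝ) • (q + u)‖ = ‖q - u‖ / 2 := by
  have : u - (1 / 2 : ℝ) • (q + u) = -((1 / 2 : ℝ) • (q - u)) := by module
  rw [this, norm_neg, norm_smul]; norm_num; ring

/-! ### `ENNReal` version -/

/-- gain of a `[0,∞]`-valued function -/
def gainE (f : R3 → ℝ≥0∞) (q u : R3) : ℝ≥0∞ :=
  ∫⁻ w, ENNReal.ofReal |(inner ℝ (q - u) w : ℝ)| * (f (postVel q u w) + f (postVelStar q u w))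
    ∂sphereMeasure

theorem gainE_eq {f : R3 → ℝ≥0∞} (hf : Measurable f) (q u : R3) :
    gainE f q u = ENNReal.ofReal (‖q - u‖ / 2) *
      ∫⁻ s, (f (out1 q u s) + f (out2 q u s)) ∂sphereMeasure := by
  have hm1 : Measurable fun y : R3 => f (q - y) + f (u + y) :=
    (hf.comp (by fun_prop)).add (hf.comp (by fun_prop))
  exact lintegral_sigma (q - u) hm1

/-- **cap lemma**, `ENNReal` version -/
theorem cap_gainE {f : R3 → ℝ≥0∞} (hf : Measurable f) {q u p0 : R3}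
    {r0 : ℝ} {c0 : ℝ≥0∞} (hr : 0 < r0)
    (hb : ∀ p, ‖p - p0‖ < r0 → c0 ≤ f p) (hqu : 0 < ‖q - u‖)
    (hp : ‖p0 - (1 / 2 : ℝ) • (q + u)‖ = ‖q - u‖ / 2) :
    ENNReal.ofReal (2 * π * min ‖q - u‖ (r0 ^ 2 / ‖q - u‖)) * c0 ≤ gainE f q u := by
  obtain ⟨s0, hs0, rfl⟩ := exists_out1 hqu hp
  rw [gainE_eq hf]
  set η := min 2 (2 * r0 ^ 2 / ‖q - u‖ ^ 2) with hη
  have hη0 : 0 ≤ η := le_min (by norm_num) (by positivity)
  have hη2 : η ≤ 2 := min_le_left _ _
  have hm : MeasurableSet {s : R3 | 1 - η < (inner ℝ s0 s : ℝ)} :=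
    measurableSet_lt measurable_const (by fun_prop)
  have h2 : ENNReal.ofReal (2 * π * η) * c0 ≤
      ∫⁻ s, (f (out1 q u s) + f (out2 q u s)) ∂sphereMeasure := by
    have h1 : ∫⁻ s : R3, {s : R3 | 1 - η < (inner ℝ s0 s : ℝ)}.indicator (fun _ => c0) s
        ∂sphereMeasure = ENNReal.ofReal (2 * π * η) * c0 := by
      rw [lintegral_indicator hm, setLIntegral_const, sphere_cap hs0 hη0 hη2, mul_comm]
    rw [← h1]
    apply lintegral_mono_ae
    filter_upwards [ae_sphereMeasure] with s hs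
    by_cases hmem : s ∈ {s : R3 | 1 - η < (inner ℝ s0 s : ℝ)}
    · rw [indicator_of_mem hmem]
      have h5 : ‖out1 q u s - out1 q u s0‖ < r0 := by
        apply out1_near hs0 hs hr hqu
        have h4 : 1 - η < (inner ℝ s0 s : ℝ) := hmem
        have h6 : η ≤ 2 * r0 ^ 2 / ‖q - u‖ ^ 2 := min_le_right _ _
        linarith
      exact (hb _ h5).trans le_self_add
    · rw [indicator_of_notMem hmem]
      exact zero_le
  have h3 : 2 * π * min ‖q - u‖ (r0 ^ 2 / ‖q - u‖) = ‖q - u‖ / 2 * (2 * π * η) := by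
    have h4 : min ‖q - u‖ (r0 ^ 2 / ‖q - u‖) = ‖q - u‖ / 2 * η := by
      rw [hη, mul_min_of_nonneg _ _ (by positivity)]
      congr 1
      · ring
      · field_simp
    rw [h4]; ring
  rw [h3, ENNReal.ofReal_mul (by positivity), mul_assoc]
  exact mul_le_mul' le_rfl h2

end Crest.Agent.R68.X
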