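import Crest.Agent.R68.DBil
import Crest.Agent.R68.A2
import Crest.Agent.R68.Carl4

/-!
# Row 68, PART X: duality of the gain (helper485)
-/

set_option autoImplicit false
open MeasureTheory Set Filter
open scoped ENNReal Topology
open Crest.AnalysisR.VecCalc3 Crest.AnalysisR.PDE.Boltzmann

noncomputable section

namespace Crest.Agent.R68.XWeak

/-! ### duality of the gain -/

/-- **gain duality in velocity** -/
theorem gain_duality {f h ψ : R3 → ℝ≥0∞} (hf : Measurable f) (hh : Measurable h)
    (hψ : Measurable ψ) :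
    ∫⁻ v : R3, ψ v * (Qp f h v + Qp h f v) = ∫⁻ v : R3, ∫⁻ vs : R3, ∫⁻ w : R3, ENNReal.ofReal |inner ℝ (v - vs) w| *
      f vs * h v * (ψ (postVel v vs w) + ψ (postVelStar v vs w)) ∂sphereMeasure := by
  rw [D.lintegral_mul_gain hf hh hψ]
  refine lintegral_congr fun v => ?_
  have h1 : Measurable fun z : R3 × R3 => D.kB v z.1 z.2 * f z.1 *
      (ψ (postVel v z.1 z.2) + ψ (postVelStar v z.1 z.2)) := by
    refine Measurable.mul (Measurable.mul ?_ (hf.comp measurable_fst)) (Measurable.add ?_ ?_)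
    · exact D.Measurable.kB (by fun_prop) (by fun_prop) (by fun_prop)
    · exact hψ.comp (A.measurable_postVel (by fun_prop) (by fun_prop) (by fun_prop))
    · exact hψ.comp (A.measurable_postVelStar (by fun_prop) (by fun_prop) (by fun_prop))
  have h3 : Measurable fun vs : R3 => ∫⁻ w, D.kB v vs w * f vs *
      (ψ (postVel v vs w) + ψ (postVelStar v vs w)) ∂sphereMeasure :=
    Measurable.lintegral_prod_right' (f := fun z : R3 × R3 => D.kB v z.1 z.2 * f z.1 *
      (ψ (postVel v z.1 z.2) + ψ (postVelStar v z.1 z.2))) h1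
  have h4 := lintegral_const_mul (μ := (volume : Measure R3)) (h v) h3
  have h5 : h v * D.Ga f ψ v = h v * ∫⁻ vs : R3, ∫⁻ w, D.kB v vs w * f vs *
      (ψ (postVel v vs w) + ψ (postVelStar v vs w)) ∂sphereMeasure := rfl
  rw [h5, ← h4]
  refine lintegral_congr fun vs => ?_
  have h2 : Measurable fun w : R3 => D.kB v vs w * f vs * (ψ (postVel v vs w) +
      ψ (postVelStar v vs w)) := by
    refine Measurable.mul (Measurable.mul ?_ measurable_const) (Measurable.add ?_ ?_)
    · exact D.Measurable.kB (by fun_prop) (by fun_prop) (by fun_prop)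
    · exact hψ.comp (A.measurable_postVel (by fun_prop) (by fun_prop) (by fun_prop))
    · exact hψ.comp (A.measurable_postVelStar (by fun_prop) (by fun_prop) (by fun_prop))
  rw [← lintegral_const_mul _ h2]
  refine lintegral_congr fun w => ?_
  unfold D.kB
  ring

/-- **gain duality**, form with `2 Qp f h` -/
theorem gain_duality2 {f h ψ : R3 → ℝ≥0∞} (hf : Measurable f) (hh : Measurable h)
    (hψ : Measurable ψ) :
    ∫⁻ v : R3, ψ v * (2 * Qp f h v) = ∫⁻ v : R3, ∫⁻ vs : R3, ∫⁻ w : R3,
      ENNReal.ofReal |inner ℝ (v - vs) w| * f vs * h v *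
        (ψ (postVel v vs w) + ψ (postVelStar v vs w)) ∂sphereMeasure := by
  rw [← gain_duality hf hh hψ]
  refine lintegral_congr fun v => ?_
  rw [Qp_comm hh hf v, two_mul]

/-- form of the loss -/
theorem loss_duality {f : R3 → ℝ≥0∞} (hf : Measurable f) (h ψ : R3 → ℝ≥0∞) :
    ∫⁻ v : R3, ψ v * h v * Lc f v = ∫⁻ v : R3, ∫⁻ vs : R3, ∫⁻ w : R3, ENNReal.ofReal |inner ℝ (v - vs) w| *
      f vs * h v * ψ v ∂sphereMeasure := by
  refine lintegral_congr fun v => ?_
  have h0 : Measurable fun z : R3 × R3 => ENNReal.ofReal |inner ℝ (v - z.1) z.2| := by fun_prop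
  have h1 : Measurable fun z : R3 × R3 => ENNReal.ofReal |inner ℝ (v - z.1) z.2| * f z.1 :=
    h0.mul (hf.comp measurable_fst)
  have h3 : Measurable fun vs : R3 => ∫⁻ w, ENNReal.ofReal |inner ℝ (v - vs) w| * f vs
      ∂sphereMeasure :=
    Measurable.lintegral_prod_right' (f := fun z : R3 × R3 =>
      ENNReal.ofReal |inner ℝ (v - z.1) z.2| * f z.1) h1
  have h4 := lintegral_const_mul (μ := (volume : Measure R3)) (ψ v * h v) h3
  have h5 : ψ v * h v * Lc f v = ψ v * h v * ∫⁻ vs : R3, ∫⁻ w,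
      ENNReal.ofReal |inner ℝ (v - vs) w| * f vs ∂sphereMeasure := rfl
  rw [h5, ← h4]
  refine lintegral_congr fun vs => ?_
  have h2 : Measurable fun w : R3 => ENNReal.ofReal |inner ℝ (v - vs) w| * f vs := by fun_prop
  rw [← lintegral_const_mul _ h2]
  refine lintegral_congr fun w => ?_
  ring

end Crest.Agent.R68.XWeak
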