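import Crest.Agent.R68.XWeak
import Crest.Agent.R68.XDual
import Crest.Agent.R68.LDefs

/-!
# Row 68, PART X: functionals of the linear hot equation (helper485)

Signed weak form and the functional inequalities for `H = Dam (Gf φ H + σ)`.
`mm m w F t = ∫∫ w(t) F(t)`, `MM m w F a t = ∫_a^t ∫∫ w F`.
-/

set_option autoImplicit false
open MeasureTheory Set Filter
open scoped ENNReal Topology
open Crest.AnalysisR.VecCalc3 Crest.AnalysisR.PDE.Boltzmann

noncomputable section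

namespace Crest.Agent.R68.XWeak

open Crest.Agent.R68.A
open Crest.Agent.R68.N (Fld acc Dam measurable_acc)
open Crest.Agent.R68.ND (O1 O1_split measurable_O1_left measurable_O1_right)

/-- **one path, signed form** (`ψ = g1 - g2`, `ψ(s) + ∫_s^r (e-k) ≤ ψ(r)`) -/
theorem path_sgn {n g1 g2 e k : ℝ → ℝ≥0∞} {s t : ℝ} (hn : Measurable n) (hg1 : Measurable g1)
    (hg2 : Measurable g2) (he : Measurable e) (hk : Measurable k)
    (h0 : 0 ≤ s) (hst : s ≤ t) (hfin : O1 n s t ≠ ⊤)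
    (hflow : ∀ r ∈ Icc s t, g1 s + g2 r + O1 e s r ≤ g1 r + g2 s + O1 k s r) :
    (g1 s + ∫⁻ r in Ioo s t, e r * en (O1 n s r)) +
      (en (O1 n s t) * g2 t + ∫⁻ r in Ioo s t, n r * g2 r * en (O1 n s r)) ≤
    (g2 s + ∫⁻ r in Ioo s t, k r * en (O1 n s r)) +
      (en (O1 n s t) * g1 t + ∫⁻ r in Ioo s t, n r * g1 r * en (O1 n s r)) := by
  have hmE : Measurable fun r => en (O1 n s r) := measurable_en.comp (measurable_O1_right hn s)
  have hp : Measurable fun r => n r * en (O1 n s r) := hn.mul hmE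
  have hO : ∀ {w : ℝ → ℝ≥0∞}, Measurable w → Measurable fun r => O1 w s r := fun hw =>
    measurable_O1_right hw s
  have e1 : ∀ {g : ℝ → ℝ≥0∞}, Measurable g → ∫⁻ r in Ioo s t, n r * g r * en (O1 n s r) =
      ∫⁻ r in Ioo s t, n r * en (O1 n s r) * g r := by
    intro g _
    refine lintegral_congr fun r => ?_
    ring
  rw [path_left hn he (g1 s) h0 hst hfin, path_left hn hk (g2 s) h0 hst hfin, e1 hg1, e1 hg2]
  have c1 : Measurable fun r => n r * en (O1 n s r) * (g1 s + O1 e s r) :=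
    hp.mul ((hO he).const_add _)
  have c2 : Measurable fun r => n r * en (O1 n s r) * (g2 s + O1 k s r) :=
    hp.mul ((hO hk).const_add _)
  have key : (∫⁻ r in Ioo s t, n r * en (O1 n s r) * (g1 s + O1 e s r)) +
      (∫⁻ r in Ioo s t, n r * en (O1 n s r) * g2 r) ≤
      (∫⁻ r in Ioo s t, n r * en (O1 n s r) * (g2 s + O1 k s r)) +
      (∫⁻ r in Ioo s t, n r * en (O1 n s r) * g1 r) := by
    rw [← lintegral_add_left c1, ← lintegral_add_left c2]
    refine setLIntegral_mono_ae' measurableSet_Ioo (Eventually.of_forall fun r hr => ?_)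
    rw [← mul_add, ← mul_add]
    refine mul_le_mul' le_rfl ?_
    have := hflow r (Ioo_subset_Icc_self hr)
    calc g1 s + O1 e s r + g2 r = g1 s + g2 r + O1 e s r := by ring
      _ ≤ _ := this
      _ = g2 s + O1 k s r + g1 r := by ring
  have kt := mul_le_mul' (le_refl (en (O1 n s t))) (hflow t ⟨hst, le_rfl⟩)
  calc en (O1 n s t) * (g1 s + O1 e s t) + (∫⁻ r in Ioo s t, n r * en (O1 n s r) *
        (g1 s + O1 e s r)) + (en (O1 n s t) * g2 t + ∫⁻ r in Ioo s t, n r * en (O1 n s r) * g2 r)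
      = en (O1 n s t) * (g1 s + g2 t + O1 e s t) + ((∫⁻ r in Ioo s t, n r * en (O1 n s r) *
        (g1 s + O1 e s r)) + ∫⁻ r in Ioo s t, n r * en (O1 n s r) * g2 r) := by ring
    _ ≤ en (O1 n s t) * (g1 t + g2 s + O1 k s t) + ((∫⁻ r in Ioo s t, n r * en (O1 n s r) *
        (g2 s + O1 k s r)) + ∫⁻ r in Ioo s t, n r * en (O1 n s r) * g1 r) := add_le_add kt key
    _ = _ := by ring

/-- `∫∫ w(t) F(t)` -/
def mm (m : Measure P2) (w F : Fld) (t : ℝ) : ℝ≥0∞ :=
  ∫⁻ p, w t p.1 p.2 * F t p.1 p.2 ∂(m.prod (volume : Measure R3))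

/-- `∫_a^t ∫∫ w F` -/
def MM (m : Measure P2) (w F : Fld) (a t : ℝ) : ℝ≥0∞ := ∫⁻ r in Ioo a t, mm m w F r

variable {m : Measure P2} [SFinite m] {S : Set P2}

section basic

variable {w w' F G : Fld} {a t : ℝ}

theorem measurable_mm (hw : Meas3 w) (hF : Meas3 F) : Measurable fun r => mm m w F r :=
  Measurable.lintegral_prod_right' (f := fun z : ℝ × (P2 × R3) =>
      w z.1 z.2.1 z.2.2 * F z.1 z.2.1 z.2.2) (hw.mul hF)

omit [SFinite m] in
theorem mm_add_right (hw : Meas3 w) (hF : Meas3 F) (t : ℝ) :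
    mm m w (fun t x v => F t x v + G t x v) t = mm m w F t + mm m w G t := int_add hw hF t

omit [SFinite m] in
theorem mm_add_left (hw : Meas3 w) (hF : Meas3 F) (t : ℝ) :
    mm m (fun t x v => w t x v + w' t x v) F t = mm m w F t + mm m w' F t := by
  have h1 : Measurable fun p : P2 × R3 => w t p.1 p.2 * F t p.1 p.2 :=
    (slice2 hw t).mul (slice2 hF t)
  unfold mm
  rw [← lintegral_add_left h1]
  exact lintegral_congr fun p => add_mul _ _ _

theorem MM_add_right (hw : Meas3 w) (hF : Meas3 F) (a t : ℝ) :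
    MM m w (fun t x v => F t x v + G t x v) a t = MM m w F a t + MM m w G a t :=
  int_add_time hw hF a t

theorem MM_add_left (hw : Meas3 w) (hF : Meas3 F) (a t : ℝ) :
    MM m (fun t x v => w t x v + w' t x v) F a t = MM m w F a t + MM m w' F a t := by
  unfold MM
  rw [← lintegral_add_left (measurable_mm hw hF)]
  exact lintegral_congr fun r => mm_add_left hw hF r

omit [SFinite m] in
theorem MM_mono_on (h : ∀ r ∈ Ioo a t, ∀ᵐ p ∂(m.prod (volume : Measure R3)),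
    w r p.1 p.2 * F r p.1 p.2 ≤ w' r p.1 p.2 * G r p.1 p.2) : MM m w F a t ≤ MM m w' G a t := by
  unfold MM mm
  exact setLIntegral_mono_ae' measurableSet_Ioo
    (Eventually.of_forall fun r hr => lintegral_mono_ae (h r hr))

omit [SFinite m] in
theorem mm_congr (h : ∀ᵐ p ∂(m.prod (volume : Measure R3)), F t p.1 p.2 = G t p.1 p.2) :
    mm m w F t = mm m w G t := by
  unfold mm
  refine lintegral_congr_ae ?_
  filter_upwards [h] with p hp
  rw [hp]

omit [SFinite m] in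
theorem MM_congr (h : ∀ r ∈ Ioo a t, ∀ᵐ p ∂(m.prod (volume : Measure R3)),
    F r p.1 p.2 = G r p.1 p.2) : MM m w F a t = MM m w G a t := by
  unfold MM
  exact setLIntegral_congr_fun measurableSet_Ioo fun r hr => mm_congr (h r hr)

end basic

/-- the path conditions of the signed form -/
def SgnAt (ν g1 g2 e k : Fld) (t s : ℝ) (x : P2) (v : R3) : Prop :=
  O1 (fw ν s x v) s t ≠ ⊤ ∧ ∀ r ∈ Icc s t,
    g1 s x v + fw g2 s x v r + O1 (fw e s x v) s r ≤
      fw g1 s x v r + g2 s x v + O1 (fw k s x v) s r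

/-- measurability and periodicity of a field -/
structure Ok (S : Set P2) (F : Fld) : Prop where
  m : Meas3 F
  p : PerSF S F

theorem Ok.add {F G : Fld} (hF : Ok S F) (hG : Ok S G) : Ok S (fun t x v => F t x v + G t x v) :=
  ⟨hF.m.add hG.m, fun t v a ha x => by
    have e1 := hF.p t v a ha x
    have e2 := hG.p t v a ha x
    dsimp only at e1 e2 ⊢
    rw [e1, e2]⟩

theorem Ok.mul {F G : Fld} (hF : Ok S F) (hG : Ok S G) : Ok S (fun t x v => F t x v * G t x v) :=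
  ⟨Measurable.mul hF.m hG.m, fun t v a ha x => by
    have e1 := hF.p t v a ha x
    have e2 := hG.p t v a ha x
    dsimp only at e1 e2 ⊢
    rw [e1, e2]⟩

theorem ok_zero : Ok S (fun _ _ _ => 0) := ⟨measurable_const, fun _ _ _ _ _ => rfl⟩

section sgn

variable {ν g1 g2 e k q : Fld} {h : P2 → R3 → ℝ≥0∞} {s t a : ℝ}

/-- signed form, transport from one starting time -/
theorem start_sgn (hm : TInv m S) (Yν : Ok S ν) (hh : Measurable fun p : P2 × R3 => h p.1 p.2)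
    (ph : ∀ v, PerS S fun x => h x v) (Y1 : Ok S g1) (Y2 : Ok S g2) (Ye : Ok S e) (Yk : Ok S k)
    (h0 : 0 ≤ s) (hst : s ≤ t)
    (H : ∀ᵐ p ∂(m.prod (volume : Measure R3)), h p.1 p.2 ≠ 0 → SgnAt ν g1 g2 e k t s p.1 p.2) :
    ((∫⁻ p, g1 s p.1 p.2 * h p.1 p.2 ∂(m.prod (volume : Measure R3))) +
      (∫⁻ r in Ioo s t, ∫⁻ p, e r p.1 p.2 * Tr ν s h r p.1 p.2
        ∂(m.prod (volume : Measure R3)))) +
      ((∫⁻ p, g2 t p.1 p.2 * Tr ν s h t p.1 p.2 ∂(m.prod (volume : Measure R3))) +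
      ∫⁻ r in Ioo s t, ∫⁻ p, (ν r p.1 p.2 * g2 r p.1 p.2) * Tr ν s h r p.1 p.2
        ∂(m.prod (volume : Measure R3))) ≤
    ((∫⁻ p, g2 s p.1 p.2 * h p.1 p.2 ∂(m.prod (volume : Measure R3))) +
      (∫⁻ r in Ioo s t, ∫⁻ p, k r p.1 p.2 * Tr ν s h r p.1 p.2
        ∂(m.prod (volume : Measure R3)))) +
      ((∫⁻ p, g1 t p.1 p.2 * Tr ν s h t p.1 p.2 ∂(m.prod (volume : Measure R3))) +
      ∫⁻ r in Ioo s t, ∫⁻ p, (ν r p.1 p.2 * g1 r p.1 p.2) * Tr ν s h r p.1 p.2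
        ∂(m.prod (volume : Measure R3))) := by
  have hν := Yν.m
  have pν := Yν.p
  have f1 := (Yν.mul Y1)
  have f2 := (Yν.mul Y2)
  rw [start_int hm hν hh pν ph Ye.m Ye.p, start_int hm hν hh pν ph Yk.m Yk.p,
    start_int hm hν hh pν ph f1.m f1.p, start_int hm hν hh pν ph f2.m f2.p,
    start_eq hm hν hh pν ph (w := fun x v => g1 t x v) (slice2 Y1.m t) (fun v => Y1.p t v),
    start_eq hm hν hh pν ph (w := fun x v => g2 t x v) (slice2 Y2.m t) (fun v => Y2.p t v)]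
  have m1 : ∀ {g : Fld}, Ok S g → Measurable fun p : P2 × R3 => g s p.1 p.2 * h p.1 p.2 :=
    fun hg => (slice2 hg.m s).mul hh
  have m2 : ∀ {g : Fld}, Ok S g → Measurable fun p : P2 × R3 =>
      g t (p.1 + (t - s) • bar p.2) p.2 * en (O1 (fw ν s p.1 p.2) s t) * h p.1 p.2 := by
    intro g hg
    refine Measurable.mul (Measurable.mul ?_ ?_) hh
    · exact hg.m.comp (by fun_prop) (by fun_prop) (by fun_prop)
    · exact measurable_en.comp ((measurable_O1_fw hν s).comp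
        (f := fun p : P2 × R3 => (p, t)) (by fun_prop))
  have m3 : ∀ {w : Fld}, Ok S w → Measurable fun p : P2 × R3 =>
      (∫⁻ r in Ioo s t, fw w s p.1 p.2 r * en (O1 (fw ν s p.1 p.2) s r)) * h p.1 p.2 := by
    intro w hw
    refine Measurable.mul ?_ hh
    refine measurable_lintegral_Ioo (α := P2 × R3) (q := fun z : (P2 × R3) × ℝ =>
      fw w s z.1.1 z.1.2 z.2 * en (O1 (fw ν s z.1.1 z.1.2) s z.2)) ?_ measurable_const
      measurable_const
    refine Measurable.mul ?_ (measurable_en.comp (measurable_O1_fw hν s))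
    unfold fw
    exact hw.m.comp (by fun_prop) (by fun_prop) (by fun_prop)
  have m4 : ∀ {g w : Fld}, Ok S g → Ok S w → Measurable fun p : P2 × R3 =>
      g s p.1 p.2 * h p.1 p.2 +
      (∫⁻ r in Ioo s t, fw w s p.1 p.2 r * en (O1 (fw ν s p.1 p.2) s r)) * h p.1 p.2 :=
    fun hg hw => (m1 hg).add (m3 hw)
  rw [← lintegral_add_left (m1 Y1), ← lintegral_add_left (m1 Y2), ← lintegral_add_left (m2 Y1),
    ← lintegral_add_left (m2 Y2), ← lintegral_add_left (m4 Y1 Ye),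
    ← lintegral_add_left (m4 Y2 Yk)]
  refine lintegral_mono_ae ?_
  filter_upwards [H] with p hp
  by_cases h1 : h p.1 p.2 = 0
  · simp [h1]
  · obtain ⟨hfin, hflow⟩ := hp h1
    have hgs : ∀ g : Fld, fw g s p.1 p.2 s = g s p.1 p.2 := by
      intro g
      unfold fw; simp
    have := path_sgn (n := fw ν s p.1 p.2) (g1 := fw g1 s p.1 p.2) (g2 := fw g2 s p.1 p.2)
      (e := fw e s p.1 p.2) (k := fw k s p.1 p.2) (measurable_fw hν _ _ _)
      (measurable_fw Y1.m _ _ _) (measurable_fw Y2.m _ _ _)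
      (measurable_fw Ye.m _ _ _) (measurable_fw Yk.m _ _ _) h0 hst hfin
      (by intro r hr; rw [hgs, hgs]; exact hflow r hr)
    rw [hgs, hgs] at this
    have h2 := mul_le_mul_left this (h p.1 p.2)
    refine le_trans (le_of_eq ?_) (h2.trans (le_of_eq ?_))
    · simp only [fw, add_mul]
      ring
    · simp only [fw, add_mul]
      ring

theorem duh_eq (Yν : Ok S ν) (Yq : Ok S q) {w : Fld} (Yw : Ok S w) (a t : ℝ) :
    mm m w (DamA a ν q) t = ∫⁻ s in Ioo a t, ∫⁻ p, w t p.1 p.2 * Tr ν s (q s) t p.1 p.2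
        ∂(m.prod (volume : Measure R3)) :=
  duh_int Yν.m Yq.m (w := fun x v => w t x v) (slice2 Yw.m t) a t

theorem duh_eq2 (Yν : Ok S ν) (Yq : Ok S q) {w : Fld} (Yw : Ok S w) (a t : ℝ) :
    MM m w (DamA a ν q) a t = ∫⁻ s in Ioo a t, ∫⁻ r in Ioo s t, ∫⁻ p, w r p.1 p.2 *
      Tr ν s (q s) r p.1 p.2 ∂(m.prod (volume : Measure R3)) :=
  duh_int2 Yν.m Yq.m Yw.m a t

theorem meas_A (Yν : Ok S ν) (Yq : Ok S q) {w : Fld} (Yw : Ok S w) (t : ℝ) :
    Measurable fun s : ℝ => ∫⁻ p, w t p.1 p.2 * Tr ν s (q s) t p.1 p.2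
      ∂(m.prod (volume : Measure R3)) := by
  refine Measurable.lintegral_prod_right' (f := fun z : ℝ × (P2 × R3) =>
    w t z.2.1 z.2.2 * Tr ν z.1 (q z.1) t z.2.1 z.2.2) ?_
  refine Measurable.mul (Yw.m.comp (by fun_prop) (by fun_prop) (by fun_prop)) ?_
  exact (measurable_Tr_joint Yν.m Yq.m).comp
      (f := fun z : ℝ × (P2 × R3) => ((z.1, t), z.2)) (by fun_prop)

theorem meas_B (Yν : Ok S ν) (Yq : Ok S q) {w : Fld} (Yw : Ok S w) (t : ℝ) :
    Measurable fun s : ℝ => ∫⁻ r in Ioo s t, ∫⁻ p, w r p.1 p.2 * Tr ν s (q s) r p.1 p.2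
      ∂(m.prod (volume : Measure R3)) := by
  have hj : Measurable fun z : (ℝ × ℝ) × (P2 × R3) =>
      w z.1.2 z.2.1 z.2.2 * Tr ν z.1.1 (q z.1.1) z.1.2 z.2.1 z.2.2 :=
    (Yw.m.comp (by fun_prop) (by fun_prop) (by fun_prop)).mul (measurable_Tr_joint Yν.m Yq.m)
  have hj2 : Measurable (fun z : ℝ × ℝ => ∫⁻ p, w z.2 p.1 p.2 *
      Tr ν z.1 (q z.1) z.2 p.1 p.2 ∂(m.prod (volume : Measure R3))) :=
    Measurable.lintegral_prod_right' (f := fun z : (ℝ × ℝ) × (P2 × R3) =>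
      w z.1.2 z.2.1 z.2.2 * Tr ν z.1.1 (q z.1.1) z.1.2 z.2.1 z.2.2) hj
  exact measurable_lintegral_Ioo (α := ℝ) (q := fun z : ℝ × ℝ => ∫⁻ p, w z.2 p.1 p.2 *
      Tr ν z.1 (q z.1) z.2 p.1 p.2 ∂(m.prod (volume : Measure R3))) hj2 measurable_id
      measurable_const

/-- signed form, Duhamel integral from time `a` -/
theorem duh_sgn (hm : TInv m S) (Yν : Ok S ν) (Yq : Ok S q) (Y1 : Ok S g1) (Y2 : Ok S g2)
    (Ye : Ok S e) (Yk : Ok S k) (h0 : 0 ≤ a)
    (H : ∀ᵐ s ∂(volume.restrict (Ioo a t)), ∀ᵐ p ∂(m.prod (volume : Measure R3)),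
      q s p.1 p.2 ≠ 0 → SgnAt ν g1 g2 e k t s p.1 p.2) :
    (MM m g1 q a t + MM m e (DamA a ν q) a t) + (mm m g2 (DamA a ν q) t +
      MM m (fun t x v => ν t x v * g2 t x v) (DamA a ν q) a t) ≤
    (MM m g2 q a t + MM m k (DamA a ν q) a t) + (mm m g1 (DamA a ν q) t +
      MM m (fun t x v => ν t x v * g1 t x v) (DamA a ν q) a t) := by
  have f1 := (Yν.mul Y1)
  have f2 := (Yν.mul Y2)
  rw [duh_eq2 Yν Yq Ye, duh_eq2 Yν Yq Yk, duh_eq2 Yν Yq f1, duh_eq2 Yν Yq f2,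
    duh_eq Yν Yq Y1, duh_eq Yν Yq Y2]
  have c1 : ∀ {g w : Fld}, Ok S g → Ok S w → Measurable fun s : ℝ => mm m g q s +
      ∫⁻ r in Ioo s t, ∫⁻ p, w r p.1 p.2 * Tr ν s (q s) r p.1 p.2
      ∂(m.prod (volume : Measure R3)) := fun hg hw =>
    (measurable_mm hg.m Yq.m).add (meas_B Yν Yq hw t)
  unfold MM
  rw [← lintegral_add_left (measurable_mm Y1.m Yq.m), ← lintegral_add_left (measurable_mm Y2.m Yq.m),
    ← lintegral_add_left (meas_A Yν Yq Y1 t), ← lintegral_add_left (meas_A Yν Yq Y2 t),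
    ← lintegral_add_left (c1 Y1 Ye), ← lintegral_add_left (c1 Y2 Yk)]
  refine lintegral_mono_ae ?_
  filter_upwards [H, ae_restrict_mem measurableSet_Ioo] with s hs hst
  exact start_sgn hm Yν (h := q s) (slice2 Yq.m s) (fun v => Yq.p s v) Y1 Y2 Ye Yk
    (h0.trans hst.1.le) hst.2.le hs

/-- signed form between two times, `H r = Tr ν a h r + DamA a ν q r` -/
theorem sgn_gen (hm : TInv m S) (Yν : Ok S ν) (Yq : Ok S q) (Y1 : Ok S g1) (Y2 : Ok S g2)
    (Ye : Ok S e) (Yk : Ok S k) (hh : Measurable fun p : P2 × R3 => h p.1 p.2)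
    (ph : ∀ v, PerS S fun x => h x v) (h0 : 0 ≤ a) (hat : a < t)
    (H0 : ∀ᵐ p ∂(m.prod (volume : Measure R3)), h p.1 p.2 ≠ 0 → SgnAt ν g1 g2 e k t a p.1 p.2)
    (H1 : ∀ᵐ s ∂(volume.restrict (Ioo a t)), ∀ᵐ p ∂(m.prod (volume : Measure R3)),
      q s p.1 p.2 ≠ 0 → SgnAt ν g1 g2 e k t s p.1 p.2)
    {H : Fld} (hH : ∀ r ∈ Ioc a t, ∀ᵐ p ∂(m.prod (volume : Measure R3)),
      H r p.1 p.2 = Tr ν a h r p.1 p.2 + DamA a ν q r p.1 p.2) :
    (mm m g1 (fun _ => h) a + mm m g2 H t) + (MM m g1 q a t + MM m e H a t +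
      MM m (fun t x v => ν t x v * g2 t x v) H a t) ≤
    (mm m g2 (fun _ => h) a + mm m g1 H t) + (MM m g2 q a t + MM m k H a t +
      MM m (fun t x v => ν t x v * g1 t x v) H a t) := by
  have hT : Meas3 (fun r x v => Tr ν a h r x v) := meas3_Tr Yν.m hh a
  have f1 := (Yν.mul Y1)
  have f2 := (Yν.mul Y2)
  have e1 : ∀ {w : Fld}, Ok S w → MM m w H a t =
      MM m w (fun r x v => Tr ν a h r x v) a t + MM m w (DamA a ν q) a t := by
    intro w hw
    rw [← MM_add_right hw.m hT]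
    exact MM_congr fun r hr => hH r (Ioo_subset_Ioc_self hr)
  have e2 : ∀ {w : Fld}, Ok S w → mm m w H t =
      mm m w (fun r x v => Tr ν a h r x v) t + mm m w (DamA a ν q) t := by
    intro w hw
    rw [← mm_add_right hw.m hT]
    exact mm_congr (hH t ⟨hat, le_rfl⟩)
  rw [e1 Ye, e1 Yk, e1 f1, e1 f2, e2 Y1, e2 Y2]
  have h1 := start_sgn hm Yν hh ph Y1 Y2 Ye Yk h0 hat.le H0
  have h2 := duh_sgn hm Yν Yq Y1 Y2 Ye Yk h0 H1
  refine le_trans (le_of_eq ?_) ((add_le_add h1 h2).trans (le_of_eq ?_))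
  · unfold MM mm
    ring
  · unfold MM mm
    ring

/-- signed form between two times for `H = Dam ν q` (a.e. at every time of `[a,t]`) -/
theorem sgn_from (hm : TInv m S) (Yν : Ok S ν) (Yq : Ok S q) (Y1 : Ok S g1) (Y2 : Ok S g2)
    (Ye : Ok S e) (Yk : Ok S k) (h0 : 0 ≤ a) (hat : a < t)
    {H : Fld} (hH : ∀ r ∈ Icc a t, ∀ᵐ p ∂(m.prod (volume : Measure R3)),
      H r p.1 p.2 = Dam ν q r p.1 p.2)
    (H0 : ∀ᵐ p ∂(m.prod (volume : Measure R3)), H a p.1 p.2 ≠ 0 →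
      SgnAt ν g1 g2 e k t a p.1 p.2)
    (H1 : ∀ᵐ s ∂(volume.restrict (Ioo a t)), ∀ᵐ p ∂(m.prod (volume : Measure R3)),
      q s p.1 p.2 ≠ 0 → SgnAt ν g1 g2 e k t s p.1 p.2) :
    (mm m g1 H a + mm m g2 H t) + (MM m g1 q a t + MM m e H a t +
      MM m (fun t x v => ν t x v * g2 t x v) H a t) ≤
    (mm m g2 H a + mm m g1 H t) + (MM m g2 q a t + MM m k H a t +
      MM m (fun t x v => ν t x v * g1 t x v) H a t) := by
  have hD : Meas3 (Dam ν q) := meas3_Dam Yν.m Yq.m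
  have h1 := sgn_gen (h := Dam ν q a) (H := H) hm Yν Yq Y1 Y2 Ye Yk (slice2 hD a)
    (fun v => per_Dam Yν.p Yq.p a v) h0 hat (by
      filter_upwards [H0, hH a ⟨le_rfl, hat.le⟩] with p hp1 hp2 hp3
      exact hp1 (by rw [hp2]; exact hp3)) H1 (by
      intro r hr
      filter_upwards [hH r ⟨hr.1.le, hr.2⟩] with p hp
      rw [hp]
      exact Dam_split ν q h0 hr.1.le _ _)
  have e1 : ∀ w : Fld, mm m w (fun _ => Dam ν q a) a = mm m w H a := by
    intro w
    unfold mm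
    refine lintegral_congr_ae ?_
    filter_upwards [hH a ⟨le_rfl, hat.le⟩] with p hp
    rw [hp]
  rw [e1, e1] at h1
  exact h1

end sgn

/-! ### functional forms with the linear gain -/

/-- adjoint of the linear gain against `φ` -/
def GaF (φ g : Fld) : Fld := fun t x v => D.Ga (φ t x) (g t x) v

section func

variable {φ g g1 g2 e k B1 B2 σ H : Fld} {a t : ℝ}

theorem Ok.GaF (Yφ : Ok S φ) (Yg : Ok S g) : Ok S (XWeak.GaF φ g) := by
  refine ⟨?_, ?_⟩
  · have h1 : Measurable fun p : (ℝ × P2) × R3 => φ p.1.1 p.1.2 p.2 :=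
      Yφ.m.comp (by fun_prop) (by fun_prop) (by fun_prop)
    have h2 : Measurable fun p : (ℝ × P2) × R3 => g p.1.1 p.1.2 p.2 :=
      Yg.m.comp (by fun_prop) (by fun_prop) (by fun_prop)
    have h3 := D.meas_Ga (α := ℝ × P2) (φ := fun q => φ q.1 q.2) (ψ := fun q => g q.1 q.2) h1 h2
    exact h3.comp (f := fun p : ℝ × P2 × R3 => ((p.1, p.2.1), p.2.2)) (by fun_prop)
  · intro t v b hb x
    have e1 : φ t (x + b) = φ t x := by funext z; exact Yφ.p t z b hb x
    have e2 : g t (x + b) = g t x := by funext z; exact Yg.p t z b hb x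
    unfold XWeak.GaF
    dsimp only
    rw [e1, e2]

theorem Ok.LcF (Yφ : Ok S φ) : Ok S (N.LcF φ) := by
  refine ⟨A.meas3_Lc Yφ.m, ?_⟩
  intro t v b hb x
  have e1 : φ t (x + b) = φ t x := by funext z; exact Yφ.p t z b hb x
  unfold N.LcF
  dsimp only
  rw [e1]

theorem Ok.Gf (Yφ : Ok S φ) (YH : Ok S H) : Ok S (L.Gf φ H) := by
  refine ⟨L.meas3_Gf Yφ.m YH.m, ?_⟩
  intro t v b hb x
  have e1 : φ t (x + b) = φ t x := by funext z; exact Yφ.p t z b hb x
  have e2 : H t (x + b) = H t x := by funext z; exact YH.p t z b hb x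
  unfold L.Gf
  dsimp only
  rw [e1, e2]

omit [SFinite m] in
/-- duality of the linear gain, integrated in `x` -/
theorem mm_Gf (Yφ : Ok S φ) (Yg : Ok S g) (YH : Ok S H) (t : ℝ) :
    mm m g (L.Gf φ H) t = mm m (GaF φ g) H t := by
  unfold mm
  have h1 := (Yφ.Gf YH)
  have h2 := (Yφ.GaF Yg)
  rw [iter_eq (F := fun x v => g t x v * L.Gf φ H t x v) ((slice2 Yg.m t).mul (slice2 h1.m t)),
    iter_eq (F := fun x v => GaF φ g t x v * H t x v) ((slice2 h2.m t).mul (slice2 YH.m t))]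
  refine lintegral_congr fun x => ?_
  have m1 : Measurable (φ t x) := Yφ.m.comp (f := fun _ => t) measurable_const measurable_const
    measurable_id
  have m2 : Measurable (H t x) := YH.m.comp (f := fun _ => t) measurable_const measurable_const
    measurable_id
  have m3 : Measurable (g t x) := Yg.m.comp (f := fun _ => t) measurable_const measurable_const
    measurable_id
  have h3 := D.lintegral_mul_gain m1 m2 m3
  unfold L.Gf GaF
  rw [← lintegral_congr fun v => mul_comm (H t x v) (D.Ga (φ t x) (g t x) v), ← h3]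
  refine lintegral_congr fun v => ?_
  rw [Qp_comm m2 m1 v, two_mul]

theorem MM_Gf (Yφ : Ok S φ) (Yg : Ok S g) (YH : Ok S H) (a t : ℝ) :
    MM m g (L.Gf φ H) a t = MM m (GaF φ g) H a t := by
  unfold MM
  exact lintegral_congr fun r => mm_Gf Yφ Yg YH r

/-- the source of the hot equation -/
def srcF (φ H σ : Fld) : Fld := fun t x v => L.Gf φ H t x v + σ t x v

theorem Ok.srcF (Yφ : Ok S φ) (YH : Ok S H) (Yσ : Ok S σ) : Ok S (XWeak.srcF φ H σ) :=
  (Yφ.Gf YH).add Yσ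

/-- `H = Dam (Gf H + σ)` a.e. at every time of `[a,t]` -/
def SolOn (m : Measure P2) (φ σ H : Fld) (a t : ℝ) : Prop :=
  ∀ r ∈ Icc a t, ∀ᵐ p ∂(m.prod (volume : Measure R3)),
    H r p.1 p.2 = Dam (N.LcF φ) (srcF φ H σ) r p.1 p.2

omit [SFinite m] in
/-- the Neumann series solves the equation -/
theorem solOn_sol (hφ : Meas3 φ) (hσ : Meas3 σ) (a t : ℝ) :
    SolOn m φ σ (L.sol φ σ) a t := by
  intro r _
  refine Eventually.of_forall fun p => ?_
  rw [L.sol_eq hφ hσ r p.1 p.2]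
  have h1 := L.Dam_add (φ := φ) hφ (h := L.Gf φ (L.sol φ σ)) (k := σ)
    (L.meas3_Gf hφ (L.meas3_sol hφ hσ))
  have h2 := congrFun (congrFun (congrFun h1 r) p.1) p.2
  exact h2.symm

omit [SFinite m] in
/-- ancient solutions `H = T H` -/
theorem solOn_TL (hH : ∀ r ∈ Icc a t, ∀ᵐ p ∂(m.prod (volume : Measure R3)),
    H r p.1 p.2 = L.TL φ H r p.1 p.2) : SolOn m φ (fun _ _ _ => 0) H a t := by
  intro r hr
  filter_upwards [hH r hr] with p hp
  rw [hp]
  have : srcF φ H (fun _ _ _ => 0) = L.Gf φ H := by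
    funext t x v
    simp [srcF]
  rw [this]
  rfl

/-- **signed functional inequality** -/
theorem sgn_fun (hm : TInv m S) (Yφ : Ok S φ) (YH : Ok S H) (Yσ : Ok S σ) (Y1 : Ok S g1)
    (Y2 : Ok S g2) (Ye : Ok S e) (Yk : Ok S k) (YB1 : Ok S B1) (YB2 : Ok S B2) (h0 : 0 ≤ a)
    (hat : a < t) (hH : SolOn m φ σ H a t)
    (H0 : ∀ᵐ p ∂(m.prod (volume : Measure R3)), H a p.1 p.2 ≠ 0 →
      SgnAt (N.LcF φ) g1 g2 e k t a p.1 p.2)
    (H1 : ∀ᵐ s ∂(volume.restrict (Ioo a t)), ∀ᵐ p ∂(m.prod (volume : Measure R3)),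
      srcF φ H σ s p.1 p.2 ≠ 0 → SgnAt (N.LcF φ) g1 g2 e k t s p.1 p.2)
    (hpt : ∀ r ∈ Ioo a t, ∀ᵐ p ∂(m.prod (volume : Measure R3)), H r p.1 p.2 ≠ 0 →
      B1 r p.1 p.2 + (N.LcF φ r p.1 p.2 * g1 r p.1 p.2 + k r p.1 p.2 + GaF φ g2 r p.1 p.2) ≤
      B2 r p.1 p.2 + (e r p.1 p.2 + GaF φ g1 r p.1 p.2 + N.LcF φ r p.1 p.2 * g2 r p.1 p.2))
    (hfin : (MM m (fun t x v => N.LcF φ t x v * g1 t x v) H a t + MM m k H a t +
        MM m (GaF φ g2) H a t ≠ ⊤) ∨
      (MM m e H a t + MM m (GaF φ g1) H a t +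
        MM m (fun t x v => N.LcF φ t x v * g2 t x v) H a t ≠ ⊤)) :
    mm m g1 H a + mm m g2 H t + MM m g1 σ a t + MM m B1 H a t ≤
      mm m g2 H a + mm m g1 H t + MM m g2 σ a t + MM m B2 H a t := by
  have Yν := Yφ.LcF
  have h1 := sgn_from hm Yν (Yφ.srcF YH Yσ) Y1 Y2 Ye Yk h0 hat hH H0 H1
  have e1 : ∀ {g : Fld}, Ok S g → MM m g (srcF φ H σ) a t =
      MM m (GaF φ g) H a t + MM m g σ a t := by
    intro g hg
    rw [← MM_Gf Yφ hg YH, ← MM_add_right hg.m (Yφ.Gf YH).m]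
    rfl
  rw [e1 Y1, e1 Y2] at h1
  have f1 := Yν.mul Y1
  have f2 := Yν.mul Y2
  have f3 := Yφ.GaF Y1
  have f4 := Yφ.GaF Y2
  -- integrated pointwise inequality
  have h2 : MM m B1 H a t + (MM m (fun t x v => N.LcF φ t x v * g1 t x v) H a t +
      MM m k H a t + MM m (GaF φ g2) H a t) ≤ MM m B2 H a t + (MM m e H a t +
      MM m (GaF φ g1) H a t + MM m (fun t x v => N.LcF φ t x v * g2 t x v) H a t) := by
    have g5 := f1.add Yk
    have g6 := g5.add f4
    have g7 := Ye.add f3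
    have g8 := g7.add f2
    have s1 := MM_add_left (m := m) (w' := GaF φ g2) g5.m YH.m a t
    have s2 := MM_add_left (m := m) (w' := k) f1.m YH.m a t
    have s3 := MM_add_left (m := m) (w' := fun t x v => N.LcF φ t x v * g2 t x v) g7.m YH.m a t
    have s4 := MM_add_left (m := m) (w' := GaF φ g1) Ye.m YH.m a t
    rw [← s2, ← s1, ← s4, ← s3, ← MM_add_left YB1.m YH.m, ← MM_add_left YB2.m YH.m]
    refine MM_mono_on fun r hr => ?_
    filter_upwards [hpt r hr] with p hp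
    by_cases hz : H r p.1 p.2 = 0
    · simp [hz]
    · exact mul_le_mul' (hp hz) le_rfl
  generalize MM m B1 H a t = b1 at *
  generalize MM m B2 H a t = b2 at *
  generalize MM m (fun t x v => N.LcF φ t x v * g1 t x v) H a t = n1 at *
  generalize MM m (fun t x v => N.LcF φ t x v * g2 t x v) H a t = n2 at *
  generalize MM m (GaF φ g1) H a t = q1 at *
  generalize MM m (GaF φ g2) H a t = q2 at *
  generalize MM m e H a t = ee at *
  generalize MM m k H a t = kk at *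
  generalize MM m g1 σ a t = s1 at *
  generalize MM m g2 σ a t = s2 at *
  generalize mm m g1 H a = a1 at *
  generalize mm m g2 H a = a2 at *
  generalize mm m g1 H t = t1 at *
  generalize mm m g2 H t = t2 at *
  by_cases hb : b2 = ⊤
  · rw [hb]; simp
  have hX : n1 + kk + q2 ≠ ⊤ := by
    rcases hfin with h | h
    · exact h
    · refine ne_top_of_le_ne_top (ENNReal.add_ne_top.2 ⟨hb, h⟩) (le_trans ?_ h2)
      exact le_add_self
  have h3 : (a1 + t2 + s1 + b1) + (n1 + kk + q2) ≤ (a2 + t1 + s2 + b2) + (n1 + kk + q2) := by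
    calc (a1 + t2 + s1 + b1) + (n1 + kk + q2) = (a1 + t2 + s1) + (b1 + (n1 + kk + q2)) := by ring
      _ ≤ (a1 + t2 + s1) + (b2 + (ee + q1 + n2)) := by gcongr
      _ = (a1 + t2 + (q1 + s1 + ee + n2)) + b2 := by ring
      _ ≤ (a2 + t1 + (q2 + s2 + kk + n1)) + b2 := by gcongr
      _ = _ := by ring
  exact (ENNReal.add_le_add_iff_right hX).1 h3

omit [SFinite m] in
theorem Ga_zero (φ : R3 → ℝ≥0∞) (v : R3) : D.Ga φ (fun _ => 0) v = 0 := by
  simp [D.Ga]

omit [SFinite m] in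
theorem GaF_zero (φ : Fld) : GaF φ (fun _ _ _ => 0) = fun _ _ _ => 0 := by
  funext t x v
  exact Ga_zero _ _

omit [SFinite m] in
theorem mm_zero (F : Fld) (t : ℝ) : mm m (fun _ _ _ => 0) F t = 0 := by
  simp [mm]

omit [SFinite m] in
theorem MM_zero (F : Fld) (a t : ℝ) : MM m (fun _ _ _ => 0) F a t = 0 := by
  simp [MM, mm]

omit [SFinite m] in
theorem LowAt.sgn {ν : Fld} {s : ℝ} {x : P2} {v : R3} (h : LowAt ν g e k t s x v) :
    SgnAt ν g (fun _ _ _ => 0) e k t s x v := by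
  refine ⟨h.1, fun r hr => ?_⟩
  have := h.2 r hr
  simpa [fw] using this

omit [SFinite m] in
theorem UpAt.sgn {ν : Fld} {s : ℝ} {x : P2} {v : R3} (h : UpAt ν g e k t s x v) :
    SgnAt ν (fun _ _ _ => 0) g k e t s x v := by
  refine ⟨h.1, fun r hr => ?_⟩
  have := h.2 r hr
  simpa [fw] using this

/-- **lower functional**: `D g ≥ e - k`, `B1 + ν g + k ≤ B2 + e + Ga φ g` -/
theorem low_fun (hm : TInv m S) (Yφ : Ok S φ) (YH : Ok S H) (Yσ : Ok S σ) (Yg : Ok S g)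
    (Ye : Ok S e) (Yk : Ok S k) (YB1 : Ok S B1) (YB2 : Ok S B2) (h0 : 0 ≤ a)
    (hat : a < t) (hH : SolOn m φ σ H a t)
    (H0 : ∀ᵐ p ∂(m.prod (volume : Measure R3)), H a p.1 p.2 ≠ 0 →
      LowAt (N.LcF φ) g e k t a p.1 p.2)
    (H1 : ∀ᵐ s ∂(volume.restrict (Ioo a t)), ∀ᵐ p ∂(m.prod (volume : Measure R3)),
      srcF φ H σ s p.1 p.2 ≠ 0 → LowAt (N.LcF φ) g e k t s p.1 p.2)
    (hpt : ∀ r ∈ Ioo a t, ∀ᵐ p ∂(m.prod (volume : Measure R3)), H r p.1 p.2 ≠ 0 →
      B1 r p.1 p.2 + (N.LcF φ r p.1 p.2 * g r p.1 p.2 + k r p.1 p.2) ≤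
      B2 r p.1 p.2 + (e r p.1 p.2 + GaF φ g r p.1 p.2))
    (hfin : (MM m (fun t x v => N.LcF φ t x v * g t x v) H a t + MM m k H a t ≠ ⊤) ∨
      (MM m e H a t + MM m (GaF φ g) H a t ≠ ⊤)) :
    mm m g H a + MM m g σ a t + MM m B1 H a t ≤ mm m g H t + MM m B2 H a t := by
  have h := sgn_fun (g2 := fun _ _ _ => 0) hm Yφ YH Yσ Yg ok_zero Ye Yk YB1 YB2 h0 hat hH
    (by filter_upwards [H0] with p hp hp2 using (hp hp2).sgn)
    (by filter_upwards [H1] with s hs; filter_upwards [hs] with p hp hp2 using (hp hp2).sgn)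
    (by
      intro r hr
      filter_upwards [hpt r hr] with p hp hp2
      have := hp hp2
      rw [GaF_zero]
      simpa using this)
    (by
      rw [GaF_zero]
      simp only [mul_zero, MM_zero, add_zero]
      exact hfin)
  simp only [mm_zero, MM_zero, add_zero, zero_add] at h
  exact h

/-- **upper functional**: `D g ≤ e - k`, `B1 + e + Ga φ g ≤ B2 + ν g + k` -/
theorem up_fun (hm : TInv m S) (Yφ : Ok S φ) (YH : Ok S H) (Yσ : Ok S σ) (Yg : Ok S g)
    (Ye : Ok S e) (Yk : Ok S k) (YB1 : Ok S B1) (YB2 : Ok S B2) (h0 : 0 ≤ a)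
    (hat : a < t) (hH : SolOn m φ σ H a t)
    (H0 : ∀ᵐ p ∂(m.prod (volume : Measure R3)), H a p.1 p.2 ≠ 0 →
      UpAt (N.LcF φ) g e k t a p.1 p.2)
    (H1 : ∀ᵐ s ∂(volume.restrict (Ioo a t)), ∀ᵐ p ∂(m.prod (volume : Measure R3)),
      srcF φ H σ s p.1 p.2 ≠ 0 → UpAt (N.LcF φ) g e k t s p.1 p.2)
    (hpt : ∀ r ∈ Ioo a t, ∀ᵐ p ∂(m.prod (volume : Measure R3)), H r p.1 p.2 ≠ 0 →
      B1 r p.1 p.2 + (e r p.1 p.2 + GaF φ g r p.1 p.2) ≤
      B2 r p.1 p.2 + (N.LcF φ r p.1 p.2 * g r p.1 p.2 + k r p.1 p.2))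
    (hfin : (MM m (fun t x v => N.LcF φ t x v * g t x v) H a t + MM m k H a t ≠ ⊤) ∨
      (MM m e H a t + MM m (GaF φ g) H a t ≠ ⊤)) :
    mm m g H t + MM m B1 H a t ≤ mm m g H a + MM m g σ a t + MM m B2 H a t := by
  have h := sgn_fun (g1 := fun _ _ _ => 0) hm Yφ YH Yσ ok_zero Yg Yk Ye YB1 YB2 h0 hat hH
    (by filter_upwards [H0] with p hp hp2 using (hp hp2).sgn)
    (by filter_upwards [H1] with s hs; filter_upwards [hs] with p hp hp2 using (hp hp2).sgn)
    (by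
      intro r hr
      filter_upwards [hpt r hr] with p hp hp2
      have := hp hp2
      rw [GaF_zero]
      simp only [mul_zero, zero_add, add_zero]
      refine this.trans (le_of_eq ?_)
      ring)
    (by
      rw [GaF_zero]
      simp only [mul_zero, MM_zero, add_zero, zero_add]
      rcases hfin with h | h
      · right
        rwa [add_comm]
      · left
        exact h)
  simp only [mm_zero, MM_zero, add_zero, zero_add] at h
  exact h

end func

end Crest.Agent.R68.XWeak
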