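import Crest.Agent.R68.XUp

/-!
# Row 68, PART X: the upper growth exponent, vector form and ω-form
-/

set_option autoImplicit false
open MeasureTheory Set
open scoped ENNReal Real
open Crest.AnalysisR.VecCalc3 Crest.AnalysisR.PDE.Boltzmann

noncomputable section

namespace Crest.Agent.R68.XUp

theorem M2_nonneg_le (a b : R3) (s : ℝ) (hs : s = 1 ∨ s = -1) (h0 : |b 0| ≤ 1 / 5000)
    (h1 : |b 1| ≤ 1 / 5000) (h2 : |b 2 - s| ≤ 1 / 5000) : M2 a b ≤ 4 * Z a := by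
  obtain ⟨a0, b0⟩ := abs_le.mp h0
  obtain ⟨a1, b1⟩ := abs_le.mp h1
  obtain ⟨a2, b2⟩ := abs_le.mp h2
  have q0 : b 0 ^ 2 ≤ 1 / 25000000 := by nlinarith
  have q1 : b 1 ^ 2 ≤ 1 / 25000000 := by nlinarith
  have q2 : b 2 ^ 2 ≤ 101 / 100 := by
    rcases hs with h | h <;> rw [h] at a2 b2 <;> nlinarith
  have hB : ‖b‖ ^ 2 ≤ 102 / 100 := by rw [norm_sq_coord]; linarith
  have hB0 : 0 ≤ ‖b‖ ^ 2 := by positivity
  have hA0 : 0 ≤ ‖a‖ ^ 2 := by positivity
  have hin : -2 * (inner ℝ a b : ℝ) ≤ ‖a‖ ^ 2 + ‖b‖ ^ 2 := by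
    have := norm_add_sq_real a b
    nlinarith [sq_nonneg ‖a + b‖]
  have h3 : (a 2 + b 2) ^ 2 ≤ 2 * (a 2) ^ 2 + 2 * (b 2) ^ 2 := by nlinarith [sq_nonneg (a 2 - b 2)]
  have h4 : (‖a‖ ^ 2 + ‖b‖ ^ 2) ^ 2 ≤ 2 * ‖a‖ ^ 4 + 3 := by
    have e : ‖a‖ ^ 4 = (‖a‖ ^ 2) ^ 2 := by ring
    rw [e]
    nlinarith [sq_nonneg (‖a‖ ^ 2 - ‖b‖ ^ 2)]
  unfold M2 Z
  nlinarith [sq_nonneg (inner ℝ a b : ℝ), sq_nonneg (a 2)]

theorem Z_eq_Zp (a : R3) (s : ℝ) (hs : s = 1 ∨ s = -1) :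
    Z a = Zp (‖a‖ ^ 2 + 1 - 2 * (s * a 2) + 2 * (s * a 2) - 1) (s * a 2) := by
  have hss : s ^ 2 = 1 := by rcases hs with h | h <;> rw [h] <;> norm_num
  unfold Z Zp
  rw [mul_pow, hss]; ring

/-- **upper exponent**: `|a-b| ((1+1/2000) Σ<Z> - Z a) ≤ 1.78 Z a` -/
theorem upper (a b : R3) (s : ℝ) (hs : s = 1 ∨ s = -1) (h0 : |b 0| ≤ 1 / 5000)
    (h1 : |b 1| ≤ 1 / 5000) (h2 : |b 2 - s| ≤ 1 / 5000) :
    ‖a - b‖ * ((1 + 1 / 2000) * M2 a b - Z a) ≤ 1.78 * Z a := by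
  have hM := M2_le a b s hs h0 h1 h2
  have hM4 := M2_nonneg_le a b s hs h0 h1 h2
  have hZ1 := one_le_Z a
  obtain ⟨d, hd⟩ : ∃ d, d = √(‖a‖ ^ 2 + 1 - 2 * (s * a 2)) := ⟨_, rfl⟩
  have hd0 : 0 ≤ d := by rw [hd]; positivity
  have hss : s ^ 2 = 1 := by rcases hs with h | h <;> rw [h] <;> norm_num
  have hnn : 0 ≤ ‖a‖ ^ 2 + 1 - 2 * (s * a 2) := by
    rw [norm_sq_coord]; nlinarith [sq_nonneg (a 0), sq_nonneg (a 1), sq_nonneg (a 2 - s)]
  have hd2 : d ^ 2 = ‖a‖ ^ 2 + 1 - 2 * (s * a 2) := by rw [hd, Real.sq_sqrt hnn]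
  have hmain := main_poly d (s * a 2) hd0
  rw [hd2] at hmain
  rw [← Z_eq_Zp a s hs] at hmain
  rw [← hd] at hM
  -- distance
  obtain ⟨b0, hb0⟩ : ∃ b0 : R3, b0 = !₂[0, 0, s] := ⟨_, rfl⟩
  have hb00 : b0 0 = 0 := by rw [hb0]; rfl
  have hb01 : b0 1 = 0 := by rw [hb0]; rfl
  have hb02 : b0 2 = s := by rw [hb0]; rfl
  have hdd : ‖a - b0‖ = d := by
    rw [hd, ← Real.sqrt_sq (norm_nonneg (a - b0))]
    congr 1
    rw [norm_sq_coord, norm_sq_coord]
    simp only [PiLp.sub_apply, hb00, hb01, hb02]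
    nlinarith
  have hbb : ‖b - b0‖ ≤ 1 / 2500 := by
    have h3 : ‖b - b0‖ ^ 2 ≤ (1 / 2500) ^ 2 := by
      rw [norm_sq_coord]
      simp only [PiLp.sub_apply, hb00, hb01, hb02, sub_zero]
      have := sq_abs (b 0); have := sq_abs (b 1); have := sq_abs (b 2 - s)
      nlinarith [abs_nonneg (b 0), abs_nonneg (b 1), abs_nonneg (b 2 - s)]
    exact le_of_sq_le_sq h3 (by norm_num) |> fun h => h
  have hab : ‖a - b‖ ≤ d + 1 / 2500 := by
    calc ‖a - b‖ = ‖(a - b0) - (b - b0)‖ := by congr 1; abel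
      _ ≤ ‖a - b0‖ + ‖b - b0‖ := norm_sub_le _ _
      _ ≤ d + 1 / 2500 := by rw [hdd]; linarith
  by_cases hX : (1 + 1 / 2000) * M2 a b - Z a ≤ 0
  · have := mul_nonpos_of_nonneg_of_nonpos (norm_nonneg (a - b)) hX
    nlinarith [norm_nonneg (a - b)]
  · push Not at hX
    have e1 : ‖a - b‖ * ((1 + 1 / 2000) * M2 a b - Z a)
        ≤ (d + 1 / 2500) * ((1 + 1 / 2000) * M2 a b - Z a) :=
      mul_le_mul_of_nonneg_right hab hX.le
    have e2 : d * ((1 + 1 / 2000) * M2 a b - Z a)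
        ≤ d * ((1 + 1 / 2000) * Mp d (s * a 2) - Z a
          + 1 / 2000 * (1 + (‖a‖ ^ 2 + 1 - 2 * (s * a 2) + 2 * (s * a 2) - 1))) := by
      apply mul_le_mul_of_nonneg_left _ hd0
      nlinarith [sq_nonneg ‖a‖]
    nlinarith

theorem Z_continuous : Continuous Z := by
  unfold Z
  fun_prop

/-- mean of `Z` over the sphere with centre `m` and radius `|R|` -/
theorem integral_Z (m : R3) (R : ℝ) :
    ∫ s, Z (m + R • s) ∂sphereMeasure = 4 * π * (1 + 23 / 100 * (‖m‖ ^ 2 + R ^ 2)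
      + 17 / 100 * ((m 2) ^ 2 + R ^ 2 / 3)
      + 1 / 1000 * ((‖m‖ ^ 2 + R ^ 2) ^ 2 + 4 / 3 * (R ^ 2 * ‖m‖ ^ 2))) := by
  have h1 : ∀ᵐ s ∂sphereMeasure, Z (m + R • s) =
      (1 + 23 / 100 * (‖m‖ ^ 2 + R ^ 2) + 17 / 100 * (m 2) ^ 2
          + 1 / 1000 * (‖m‖ ^ 2 + R ^ 2) ^ 2)
        + ((46 / 100 * R + 4 / 1000 * (‖m‖ ^ 2 + R ^ 2) * R) * (inner ℝ m s : ℝ)
        + ((34 / 100 * (m 2) * R) * (inner ℝ ez s : ℝ)
        + ((17 / 100 * R ^ 2) * ((inner ℝ ez s : ℝ) * inner ℝ ez s)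
        + (4 / 1000 * R ^ 2) * ((inner ℝ m s : ℝ) * inner ℝ m s)))) := by
    filter_upwards [ae_sphereMeasure] with s hs
    have e1 : ‖m + R • s‖ ^ 2 = ‖m‖ ^ 2 + R ^ 2 + 2 * R * inner ℝ m s := by
      rw [norm_add_sq_real, norm_smul, hs, real_inner_smul_right, mul_pow, Real.norm_eq_abs,
        sq_abs]
      ring
    have e2 : (m + R • s) 2 = m 2 + R * inner ℝ ez s := by
      rw [inner_ez]; simp
    have e4 : ‖m + R • s‖ ^ 4 = (‖m‖ ^ 2 + R ^ 2 + 2 * R * inner ℝ m s) ^ 2 := by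
      rw [← e1]; ring
    unfold Z
    rw [e1, e2, e4]
    ring
  rw [integral_congr_ae h1]
  have i1 := integrable_inner_sphere m
  have i2 := integrable_inner_sphere ez
  have i3 := integrable_inner_mul_sphere ez ez
  have i4 := integrable_inner_mul_sphere m m
  rw [integral_add (integrable_const _), integral_add (i1.const_mul _),
    integral_add (i2.const_mul _), integral_add (i3.const_mul _) (i4.const_mul _),
    integral_const_mul, integral_const_mul, integral_const_mul, integral_const_mul,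
    integral_inner_sphere, integral_inner_sphere, integral_inner_mul_sphere,
    integral_inner_mul_sphere, integral_one_sphere, real_inner_self_eq_norm_sq,
    real_inner_self_eq_norm_sq, norm_ez]
  · ring
  · exact (i3.const_mul _).add (i4.const_mul _)
  · exact (i2.const_mul _).add ((i3.const_mul _).add (i4.const_mul _))
  · exact (i1.const_mul _).add ((i2.const_mul _).add ((i3.const_mul _).add (i4.const_mul _)))

/-- the sphere with diameter `[a,b]` -/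
theorem integral_Z_diam (a b : R3) :
    ∫ s, Z ((1 / 2 : ℝ) • (a + b) + (‖a - b‖ / 2) • s) ∂sphereMeasure = 2 * π * M2 a b := by
  rw [integral_Z]
  have e1 : ‖(1 / 2 : ℝ) • (a + b)‖ ^ 2 = (‖a‖ ^ 2 + 2 * inner ℝ a b + ‖b‖ ^ 2) / 4 := by
    rw [norm_smul, mul_pow, norm_add_sq_real]; norm_num; ring
  have e2 : (‖a - b‖ / 2) ^ 2 = (‖a‖ ^ 2 - 2 * inner ℝ a b + ‖b‖ ^ 2) / 4 := by
    rw [div_pow, norm_sub_sq_real]; norm_num
  have e3 : ((1 / 2 : ℝ) • (a + b)) 2 = (a 2 + b 2) / 2 := by simp; ring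
  rw [e1, e2, e3]
  unfold M2
  ring

/-- ω-form: rate times the sum of the weights of the two outgoing velocities (frame velocity `c`) -/
theorem integral_gain_Z (v u c : R3) :
    ∫ w, |(inner ℝ (v - u) w : ℝ)| * (Z (postVel v u w - c) + Z (postVelStar v u w - c))
      ∂sphereMeasure = 2 * π * ‖v - u‖ * M2 (v - c) (u - c) := by
  have hm1 : Measurable fun y : R3 => Z (v - y - c) + Z (u + y - c) := by
    have := Z_continuous.measurable
    fun_prop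
  have h := integral_sigma (v - u) (fun y : R3 => Z (v - y - c) + Z (u + y - c)) hm1
  have e1 : ∀ w : R3, Z (postVel v u w - c) + Z (postVelStar v u w - c)
      = Z (v - (inner ℝ (v - u) w : ℝ) • w - c) + Z (u + (inner ℝ (v - u) w : ℝ) • w - c) := by
    intro w; rfl
  simp_rw [e1]
  rw [h]
  have hcont : Continuous fun s : R3 =>
      Z ((1 / 2 : ℝ) • ((v - c) + (u - c)) + (‖(v - c) - (u - c)‖ / 2) • s) := by
    have := Z_continuous
    fun_prop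
  have hcont2 : Continuous fun s : R3 =>
      Z ((1 / 2 : ℝ) • ((v - c) + (u - c)) + (-(‖(v - c) - (u - c)‖ / 2)) • s) := by
    have := Z_continuous
    fun_prop
  have e2 : ∀ s : R3, Z (v - (1 / 2 : ℝ) • (v - u + ‖v - u‖ • s) - c)
      + Z (u + (1 / 2 : ℝ) • (v - u + ‖v - u‖ • s) - c)
      = Z ((1 / 2 : ℝ) • ((v - c) + (u - c)) + (-(‖(v - c) - (u - c)‖ / 2)) • s)
        + Z ((1 / 2 : ℝ) • ((v - c) + (u - c)) + (‖(v - c) - (u - c)‖ / 2) • s) := by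
    intro s
    have e3 : (v - c) - (u - c) = v - u := by abel
    rw [e3]
    congr 2
    · module
    · module
  simp_rw [e2]
  have hb : ∀ R : ℝ, Integrable (fun s : R3 =>
      Z ((1 / 2 : ℝ) • ((v - c) + (u - c)) + R • s)) sphereMeasure := by
    intro R
    have hc : Continuous fun s : R3 => Z ((1 / 2 : ℝ) • ((v - c) + (u - c)) + R • s) := by
      have := Z_continuous
      fun_prop
    obtain ⟨C, hC⟩ := (isCompact_sphere (0 : R3) 1).exists_bound_of_continuousOn hc.continuousOn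
    exact integrable_sphere_of_bounded hc.measurable (C := C) fun w hw => by
      have := hC w (by simpa using hw)
      simpa using this
  rw [integral_add (hb _) (hb _)]
  have e5 : ∫ s, Z ((1 / 2 : ℝ) • ((v - c) + (u - c)) + (-(‖(v - c) - (u - c)‖ / 2)) • s)
      ∂sphereMeasure = 2 * π * M2 (v - c) (u - c) := by
    rw [← integral_Z_diam, integral_Z, integral_Z]
    simp
  rw [e5, integral_Z_diam]
  have e3 : (v - c) - (u - c) = v - u := by abel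
  ring

end Crest.Agent.R68.XUp
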