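import Crest.Agent.R68.XDefs
import Crest.Agent.R68.XDefs2
import Crest.Agent.R68.FSum
import Crest.Agent.R68.XUpB
import Crest.Agent.R68.LX2

/-!
# Row 68, PART X2 (helper546): INTERFACE (statements with `sorry`; NEVER import this file in proofs)

Constants: `Y ≥ 1` fixed; `K ≥ K0(Y)`; `N = 197/100 π K`, `A = 98/100 N`, `e = K^(-3/4)`;
`k0 = 2 π K`, `C2 = 1200 k0`; then `ey ≤ eymax` (with `(1+A) ey ≤ e/10`), `d`, `gp`, `B`, ... ;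
then `p`, `c`, `j0`; then `t0`.
-/

set_option autoImplicit false
open MeasureTheory Set Filter
open scoped ENNReal Real Topology
open Crest.AnalysisR.VecCalc3 Crest.AnalysisR.PDE.Boltzmann

noncomputable section

namespace Crest.Agent.R68.XI

open Crest.Agent.R68.L (Den phiE Gf Dam TL sol)
open Crest.Agent.R68.X (chs)
open Crest.Agent.R68.A (Meas3)
open Crest.Agent.R68.X2

/-! ## XGs : elementary facts on `gsR`, `gsE` -/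

theorem gsE_ofReal {g : R3 → ℝ} (hg : Measurable g) (h0 : ∀ w, 0 ≤ g w) {C : ℝ} (hC : ∀ w, g w ≤ C)
    (v u : R3) : gsE (fun w => ENNReal.ofReal (g w)) v u = ENNReal.ofReal (gsR g v u) := sorry

theorem gsR_fr (g : R3 → ℝ) (y : ℝ) (v u : R3) :
    gsR (fun w => g (fr y w)) v u = gsR g (fr y v) (fr y u) := sorry

theorem gsR_const (c : ℝ) (v u : R3) : gsR (fun _ => c) v u = 4 * π * ‖v - u‖ * c := sorry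

/-- monotone on the sphere (all outgoing velocities satisfy `‖w‖ ≤ ‖v‖ + ‖u‖`) -/
theorem gsR_mono {f g : R3 → ℝ} (hf : Measurable f) (hg : Measurable g) {v u : R3} {C : ℝ}
    (hfC : ∀ w, ‖w‖ ≤ ‖v‖ + ‖u‖ → |f w| ≤ C) (hgC : ∀ w, ‖w‖ ≤ ‖v‖ + ‖u‖ → |g w| ≤ C)
    (h : ∀ w, ‖w‖ ≤ ‖v‖ + ‖u‖ → f w ≤ g w) : gsR f v u ≤ gsR g v u := sorry

theorem gsR_lip {f g : R3 → ℝ} (hf : Measurable f) (hg : Measurable g) {C L ε : ℝ}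
    (hfC : ∀ w, |f w| ≤ C) (hgC : ∀ w, |g w| ≤ C) (hfL : ∀ w w', |f w - f w'| ≤ L * ‖w - w'‖)
    (hfg : ∀ w, |f w - g w| ≤ ε) (v u u' : R3) :
    |gsR f v u - gsR g v u'| ≤ 8 * π * C * ‖u - u'‖ + 8 * π * ‖v - u'‖ * (L * ‖u - u'‖ + ε) := sorry

/-- duality (helper211, XDual) -/
theorem dual_GA {φ : Den} (hφ : Meas3 φ) {g h : Den} (hg : Meas3 g) (hh : Meas3 h) (t : ℝ) (x : P2) :
    ∫⁻ v, g t x v * Gf φ h t x v = ∫⁻ v, GA φ g t x v * h t x v := sorry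

/-! ## XTent (helper150) -/

/- THE TENT INEQUALITY is `XTent.tent_sub` (helper150, R68/XTent2.lean), with
`2πκ = N`, `B = (1+A) Yp`; XTent.us s = us 0 s, XTent.gainT = gsR. -/

/-- with the cut-offs -/
theorem f0_ineq {K N A Yp Y ey e : ℝ} (hN : N = 197 / 100 * π * K) (h : TentOK N A Yp Y ey e) :
    ∃ B0 d0 δ0 : ℝ, 1 ≤ B0 ∧ 0 < d0 ∧ 0 < δ0 ∧ ∀ B d d1 : ℝ, B0 ≤ B → 0 < d → d ≤ d0 → 0 < d1 →
      d1 ≤ δ0 → ∀ (z : P2) (v : R3) (k : ℝ), 0 ≤ k → k ≤ 1 → (|z.2| ≤ Yp → k = 1) →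
        (Y ≤ |z.2| → k = 0) →
        193 / 200 * N * f0 ⟨A, Yp, e, B, d⟩ z v ≤ L0 ⟨A, Yp, e, B, d⟩ z v
          + 197 / 400 * (ws ⟨A, Yp, e, B, d⟩ d1 (K * k) 1 z v
            + ws ⟨A, Yp, e, B, d⟩ d1 (K * k) (-1) z v) := sorry

/-- size, support and Lipschitz bounds of `f0` -/
theorem f0_facts {N A Yp Y ey e : ℝ} (h : TentOK N A Yp Y ey e) (B d : ℝ) (hB : 1 ≤ B) (hd : 0 < d) :
    ∃ C : ℝ, 1 ≤ C ∧ (∀ z v, 0 ≤ f0 ⟨A, Yp, e, B, d⟩ z v ∧ f0 ⟨A, Yp, e, B, d⟩ z v ≤ C) ∧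
      (∀ z v, f0 ⟨A, Yp, e, B, d⟩ z v ≠ 0 → ‖z‖ ≤ C ∧ ‖v‖ ≤ C ∧ d ≤ |v 0|) ∧
      (∀ z v z' v', |f0 ⟨A, Yp, e, B, d⟩ z v - f0 ⟨A, Yp, e, B, d⟩ z' v'| ≤
        C * (‖z - z'‖ + ‖v - v'‖)) := sorry

/-! ## XFuel (helper195): the fuel in the near zone -/

theorem fuel_all {P : Par} (hP : P.Ok) : ∃ t0 : ℝ, 0 < t0 ∧ ∀ t, 0 < t → t ≤ t0 → ∀ x : P2,
    (∀ u, phi P t x u ≠ 0 → ‖u‖ ≤ P.Y + 2 ∧ distG x ≤ 1 / 8) ∧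
      ∫⁻ u, phiE P t x u ≤ ENNReal.ofReal (P.K / t) := sorry

theorem fuel_near {P : Par} (hP : P.Ok) (Z : ℝ) (hZ : 1 ≤ Z) : ∃ t0 C : ℝ, 0 < t0 ∧ 0 ≤ C ∧
    ∀ t, 0 < t → t ≤ t0 → ∀ x : P2, ‖x‖ ≤ Z * t →
      (∀ u, phi P t x u ≠ 0 → |x.2 / t| ≤ P.Y + C * t ∧
        ∃ s : ℝ, (s = 1 ∨ s = -1) ∧ ‖u - us (x.2 / t) s‖ ≤ C * t) ∧
      (∀ (G : R3 → ℝ) (G0 L : ℝ), Measurable G → (∀ u, ‖u‖ ≤ P.Y + 3 → |G u| ≤ G0) →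
        (∀ u u', ‖u‖ ≤ P.Y + 3 → ‖u'‖ ≤ P.Y + 3 → |G u - G u'| ≤ L * ‖u - u'‖) →
        |(∫ u, phi P t x u * G u) - P.K / t * ky P (x.2 / t) *
          (chs P 1 (lab P t x) * G (us (x.2 / t) 1) + chs P (-1) (lab P t x) * G (us (x.2 / t) (-1)))|
          ≤ C * (G0 + L)) := sorry

/-! ## XHar (sphere means of the Harnack weight; no fuel) -/

/-- near inequality -/
theorem har_near {N A Yp Y ey e : ℝ} (h : TentOK N A Yp Y ey e) {k0 Q1 κ : ℝ} (hk0 : 6000 ≤ k0)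
    (hQ : 9600 * k0 ≤ Q1 ^ 11) (hQ4 : 4 ≤ Q1) (hκ : 0 < κ) (hκ1 : κ ≤ 1 / 6000)
    (hκ2 : 6000 * k0 * κ ^ 2 ≤ 1) (he : 16 * e * (Q1 + 2) ^ 2 ≤ κ) :
    ∃ ε1 d0 : ℝ, 0 < ε1 ∧ 0 < d0 ∧ ∀ d, 0 < d → d ≤ d0 → ∃ C : ℝ, 0 ≤ C ∧
      ∀ (q p : R3) (y s : ℝ), (s = 1 ∨ s = -1) → ‖p - us 0 s‖ ≤ ε1 → |y| ≤ Y + ε1 →
        k0 * ((1 + ε1) / (2 * π) * gsR (hh (1200 * k0)) q p - ‖q - p‖ * hh (1200 * k0) q) ≤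
          1200 * k0 * |q 1| + k0 / 2 * hh (1200 * k0) q
            + C * gsR (fun w => tentp A Yp e y w * lamd d (w 0)) q p := sorry

/-- crude bound -/
theorem har_crude (C2 U : ℝ) (hC2 : 0 ≤ C2) (hU : 0 ≤ U) : ∃ C : ℝ, 0 ≤ C ∧ ∀ q p : R3, ‖p‖ ≤ U →
    gsR (hh C2) q p ≤ C * (1 + ‖q‖) * hh C2 q := sorry

/-- far inequality -/
theorem har_far (C2 U : ℝ) (hC2 : 0 ≤ C2) (hU : 0 ≤ U) : ∃ V1 ε2 : ℝ, 0 < V1 ∧ 0 < ε2 ∧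
    ∀ q p : R3, V1 ≤ ‖q‖ → ‖p‖ ≤ U →
      (1 + ε2) / (2 * π) * gsR (hh C2) q p ≤ ‖q - p‖ * hh C2 q := sorry

/-! ## XFrame (helper665 / helper105): the frame and the flight inequality of `Om` -/

theorem Yc_near {Y t : ℝ} {x : P2} {k : ℤ × ℤ} (ht : 0 < t) (hx : ‖x + latt k‖ ≤ 1 / 8) :
    Yc Y t x = clamp (2 * Y) ((x + latt k).2 / t) := sorry

theorem abs_Yc_le {Y : ℝ} (hY : 0 ≤ Y) (t : ℝ) (x : P2) : |Yc Y t x| ≤ 2 * Y := sorry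

theorem meas3_OmE (Y C2 gp : ℝ) : Meas3 (OmE Y C2 gp) := sorry

theorem perG_OmE (Y C2 gp t : ℝ) (v : R3) : PerG (fun x => OmE Y C2 gp t x v) := sorry

theorem flight_Om {Y C2 gp Z1 : ℝ} (hY : 1 ≤ Y) (hC2 : 0 ≤ C2) (hgp : 0 < gp) (hZ : 1 ≤ Z1) :
    ∃ t0 C : ℝ, 0 < t0 ∧ t0 ≤ 1 ∧ 0 ≤ C ∧ ∀ s r : ℝ, 0 < s → s ≤ r → r ≤ t0 → ∀ (x : P2) (v : R3),
      OmE Y C2 gp r (x + (r - s) • bar v) v
        + ∫⁻ ρ in Ioo s r, (kap1 Y C2 gp ρ (x + (ρ - s) • bar v) v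
          + kap2 Y C2 gp Z1 ρ (x + (ρ - s) • bar v) v)
      ≤ OmE Y C2 gp s x v
        + ∫⁻ ρ in Ioo s r, ENNReal.ofReal C * OmE Y C2 gp ρ (x + (ρ - s) • bar v) v := sorry

/-! ## XLowFl (helper180): the corrected test function along flights -/

theorem corr_small {X : XP} {P : Par} {Y ey N d1 Zs Vs : ℝ} (h : LowOK X P Y ey N d1 Zs Vs) :
    ∃ t0 C : ℝ, 0 < t0 ∧ 0 ≤ C ∧ ∀ t, 0 < t → t ≤ t0 → ∀ x v,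
      |corr X P d1 Zs Vs t x v| ≤ C * t ^ 2 ∧
      (corr X P d1 Zs Vs t x v ≠ 0 → ‖t⁻¹ • x‖ ≤ 2 * Zs ∧ ‖v‖ ≤ 2 * Vs) := sorry

theorem flight_gL {X : XP} {P : Par} {Y ey N d1 Zs Vs : ℝ} (h : LowOK X P Y ey N d1 Zs Vs) (Cg : ℝ) :
    ∃ t0 C : ℝ, 0 < t0 ∧ 0 ≤ C ∧ ∀ s r : ℝ, 0 < s → s ≤ r → r ≤ t0 → ∀ (x : P2) (v : R3),
      IntervalIntegrable (fun ρ => Lg X P d1 Zs Vs C ρ (x + (ρ - s) • bar v) v) volume s r ∧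
      ∫ ρ in s..r, Lg X P d1 Zs Vs C ρ (x + (ρ - s) • bar v) v ≤
        gL X P d1 Zs Vs Cg r (x + (r - s) • bar v) v - gL X P d1 Zs Vs Cg s x v := sorry

/-! ## XPW : pointwise inequalities with the true fuel (helper546) -/

/-- LOWER, pointwise -/
theorem pw_low {X : XP} {P : Par} {Y ey N d1 Zs Vs Cg C' : ℝ} (h : LowOK X P Y ey N d1 Zs Vs)
    (hCg : 0 ≤ Cg)
    (hN : N = 197 / 100 * π * P.K)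
    (hf : ∀ (z : P2) (v : R3) (k : ℝ), 0 ≤ k → k ≤ 1 → (|z.2| ≤ X.Yp → k = 1) →
      (Y ≤ |z.2| → k = 0) →
      193 / 200 * N * f0 X z v ≤ L0 X z v
        + 197 / 400 * (ws X d1 (P.K * k) 1 z v + ws X d1 (P.K * k) (-1) z v)) :
    ∃ t0 C : ℝ, 0 < t0 ∧ 0 ≤ C ∧ ∀ t, 0 < t → t ≤ t0 → ∀ (x : P2) (v : R3),
      ENNReal.ofReal (-(Lg X P d1 Zs Vs C' t x v))
        + Lc (phiE P t x) v * ENNReal.ofReal (gL X P d1 Zs Vs Cg t x v)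
        + ENNReal.ofReal (193 / 200 * N / t) * psiE X t x v
        + ENNReal.ofReal d1 * GA (phiE P) (psiE X) t x v
      ≤ ENNReal.ofReal (Lg X P d1 Zs Vs C' t x v)
        + GA (phiE P) (fun t x v => ENNReal.ofReal (gL X P d1 Zs Vs Cg t x v)) t x v
        + ENNReal.ofReal (C * (if ‖x‖ ≤ C * t then (1 + ‖v‖) else 0)) := sorry

/-- UPPER (Harnack), pointwise -/
theorem pw_Om {P : Par} (hP : P.Ok) {N A Yp ey e : ℝ} (h : TentOK N A Yp P.Y ey e)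
    {Q1 κ : ℝ} (hk0 : 6000 ≤ 2 * π * P.K)
    (hQ : 9600 * (2 * π * P.K) ≤ Q1 ^ 11) (hQ4 : 4 ≤ Q1) (hκ : 0 < κ) (hκ1 : κ ≤ 1 / 6000)
    (hκ2 : 6000 * (2 * π * P.K) * κ ^ 2 ≤ 1) (he : 16 * e * (Q1 + 2) ^ 2 ≤ κ) :
    ∃ gp0 d0 : ℝ, 0 < gp0 ∧ 0 < d0 ∧ ∀ gp, 0 < gp → gp ≤ gp0 → ∃ B0 Z1 : ℝ, 1 ≤ B0 ∧ 1 ≤ Z1 ∧
      ∀ B d, B0 ≤ B → 0 < d → d ≤ d0 →
      ∃ t0 C : ℝ, 0 < t0 ∧ 0 ≤ C ∧ ∀ t, 0 < t → t ≤ t0 → ∀ (x : P2) (v : R3),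
      GA (phiE P) (OmE P.Y (1200 * (2 * π * P.K)) gp) t x v
      ≤ Lc (phiE P t x) v * OmE P.Y (1200 * (2 * π * P.K)) gp t x v
        + kap1 P.Y (1200 * (2 * π * P.K)) gp t x v + kap2 P.Y (1200 * (2 * π * P.K)) gp Z1 t x v
        + ENNReal.ofReal (π * P.K / t + C) * OmE P.Y (1200 * (2 * π * P.K)) gp t x v
        + ENNReal.ofReal C * GA (phiE P) (psiP ⟨A, Yp, e, B, d⟩) t x v := sorry

/-! ## XInt (helper485): integrated inequalities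

`H` below is `sol (phiE P) σ` for a seed; `hH` is the equation (`LNeu.sol_eq`). -/

/-- finiteness (helper585, Part K) -/
theorem Om_B2 {P : Par} (hP : P.Ok) {g1 g2 gp C2 : ℝ} (hg2 : 0 < g2) (hg21 : g2 ≤ g1)
    (hgp : 0 ≤ gp) (hgp2 : 4 * gp ≤ g2) (hC2 : 0 ≤ C2) : ∃ t0 : ℝ, 0 < t0 ∧ ∃ C : ℝ≥0∞, C ≠ ⊤ ∧
    ∀ t, 0 < t → t ≤ t0 → MW (fun t x v => ENNReal.ofReal (1 + ‖v‖) * OmE P.Y C2 gp t x v)
      (B2 P g1 g2 0) t ≤ C := sorry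

/-- UPPER, integrated; `W = OmE`, `Ψ = psiP`, `k = kap1 + kap2` -/
theorem int_up {P : Par} (hP : P.Ok) {g1 g2 τ t0 : ℝ} (hτ : 0 < τ) {σ H : Den}
    (h : SeedH P g1 g2 τ t0 σ H) {W Ψ k : Den} (mW : Meas3 W) (mΨ : Meas3 Ψ) (mk : Meas3 k)
    (pW : ∀ t v, PerG (fun x => W t x v)) (pΨ : ∀ t v, PerG (fun x => Ψ t x v))
    (pk : ∀ t v, PerG (fun x => k t x v)) {a C : ℝ} (ha : 0 ≤ a) (hC : 0 ≤ C)
    (hfin : ∃ B : ℝ≥0∞, B ≠ ⊤ ∧ ∀ t, 0 < t → t ≤ t0 →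
      MW (fun t x v => ENNReal.ofReal (1 + ‖v‖) * W t x v) (B2 P g1 g2 0) t ≤ B)
    (hkb : ∀ t, τ / 2 ≤ t → t ≤ t0 → ∀ x v, k t x v ≤ ENNReal.ofReal (C / τ ^ 3) * W t x v)
    (hpw : ∀ t, 0 < t → t ≤ t0 → ∀ x v, GA (phiE P) W t x v ≤ Lc (phiE P t x) v * W t x v + k t x v
      + ENNReal.ofReal (a / t + C) * W t x v + ENNReal.ofReal C * GA (phiE P) Ψ t x v)
    (hfl : ∀ s r : ℝ, 0 < s → s ≤ r → r ≤ t0 → ∀ (x : P2) (v : R3),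
      W r (x + (r - s) • bar v) v + ∫⁻ ρ in Ioo s r, k ρ (x + (ρ - s) • bar v) v
      ≤ W s x v + ∫⁻ ρ in Ioo s r, ENNReal.ofReal C * W ρ (x + (ρ - s) • bar v) v) :
    ∀ s t, τ ≤ s → s ≤ t → t ≤ t0 → MW W H t ≤ MW W H s
      + ∫⁻ r in Ioo s t, (ENNReal.ofReal (a / r + 2 * C) * MW W H r
        + ENNReal.ofReal C * MW (GA (phiE P) Ψ) H r + MW W σ r) := sorry

/-- LOWER, integrated; `g = ofReal gL`, `Ψ = psiE` (not periodised), `kp`, `em` = negative and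
positive part of `Lg`, `R` = error term -/
theorem int_low {P : Par} (hP : P.Ok) {g1 g2 τ t0 : ℝ} (hτ : 0 < τ) {σ H : Den}
    (h : SeedH P g1 g2 τ t0 σ H) {g Ψ kp em R : Den} (mg : Meas3 g) (mΨ : Meas3 Ψ) (mk : Meas3 kp)
    (me : Meas3 em) (mR : Meas3 R) {a d1 : ℝ} (ha : 0 ≤ a) (hd1 : 0 < d1) {Z : ℝ}
    (hsupp : ∀ t, 0 < t → t ≤ t0 → ∀ x v, ‖x‖ > Z * t → g t x v = 0 ∧ kp t x v = 0 ∧ em t x v = 0)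
    (hb : ∃ B : ℝ≥0∞, B ≠ ⊤ ∧ ∀ t, τ / 2 ≤ t → t ≤ t0 → ∀ x v, g t x v ≤ B ∧ kp t x v ≤ B ∧ em t x v ≤ B)
    (hfin : ∃ B : ℝ≥0∞, B ≠ ⊤ ∧ ∀ t, 0 < t → t ≤ t0 →
      ∫⁻ x in {x : P2 | ‖x‖ ≤ Z * t}, ∫⁻ v, ENNReal.ofReal (1 + ‖v‖) * B2 P g1 g2 0 t x v ≤ B)
    (hpw : ∀ t, 0 < t → t ≤ t0 → ∀ x v, kp t x v + Lc (phiE P t x) v * g t x v
      + ENNReal.ofReal (a / t) * Ψ t x v + ENNReal.ofReal d1 * GA (phiE P) Ψ t x v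
      ≤ em t x v + GA (phiE P) g t x v + R t x v)
    (hfl : ∀ s r : ℝ, 0 < s → s ≤ r → r ≤ t0 → ∀ (x : P2) (v : R3),
      g s x v + ∫⁻ ρ in Ioo s r, em ρ (x + (ρ - s) • bar v) v
      ≤ g r (x + (r - s) • bar v) v + ∫⁻ ρ in Ioo s r, kp ρ (x + (ρ - s) • bar v) v) :
    ∀ s t, τ ≤ s → s ≤ t → t ≤ t0 → PW g H s
      + ∫⁻ r in Ioo s t, (ENNReal.ofReal (a / r) * PW Ψ H r
        + ENNReal.ofReal d1 * PW (GA (phiE P) Ψ) H r + PW g σ r)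
      ≤ PW g H t + ∫⁻ r in Ioo s t, PW R H r := sorry

/-- periodisation -/
theorem PW_eq_MW {P : Par} (hP : P.Ok) {X : XP} {H : Den} (mH : Meas3 H)
    (pH : ∀ t v, PerG (fun x => H t x v)) (t : ℝ) :
    PW (GA (phiE P) (psiE X)) H t = MW (GA (phiE P) (psiP X)) H t := sorry

/-! ## XFin (helper330): seeds, ratio (810) and the final statement of X2 in 208's form -/

theorem exists_X2Out (Y g1 g2 : ℝ) (hY : 1 ≤ Y) (hg2 : 0 < g2) (hg21 : g2 ≤ g1) (hg1 : g1 ≤ 1) :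
    ∃ K0 : ℝ, ∀ K : ℝ, K0 ≤ K → ∃ eymax : ℝ, 0 < eymax ∧ ∀ ey : ℝ, 0 < ey → ey ≤ eymax →
      ∀ P : Par, P.Ok → P.K = K → P.Y = Y → P.ey = ey →
        ∃ t0 : ℝ, 0 < t0 ∧ ∀ t1, 0 < t1 → t1 ≤ t0 → ∃ (CH c0 : ℝ≥0∞) (tau : ℕ → ℝ) (sg : ℕ → Den),
          L.X2Out P g1 g2 t1 (119 / 20 * K) CH c0 tau sg := sorry

end Crest.Agent.R68.XI
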