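import Crest.Agent.R68.LNeu

/-!
# Row 68, PART X: real variable lemmas for the seeds (inequality form of Gronwall and of the
ratio lemma)
-/

set_option autoImplicit false
open MeasureTheory Set Filter
open scoped Topology ENNReal

noncomputable section

namespace Crest.Agent.R68.XSeed

/-- a bounded function with `F s ≤ ∫_a^s (c/r) F` vanishes -/
theorem eq_zero_of_le {a b c : ℝ} (ha : 0 < a) (hc : 0 ≤ c) {F : ℝ → ℝ≥0∞} {B : ℝ} (hB : 0 ≤ B)
    (hFB : ∀ s ∈ Icc a b, F s ≤ ENNReal.ofReal B)
    (h : ∀ s ∈ Icc a b, F s ≤ ∫⁻ r in Ioo a s, ENNReal.ofReal (c / r) * F r) :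
    ∀ s ∈ Icc a b, F s = 0 := by
  have hind : ∀ n : ℕ, ∀ s ∈ Icc a b,
      F s ≤ ENNReal.ofReal (B * (c * Real.log (s / a)) ^ n / n.factorial) := by
    intro n
    induction n with
    | zero => intro s hs; simpa using hFB s hs
    | succ n ih =>
      intro s hs
      refine (h s hs).trans ?_
      rw [← L.lintegral_log_pow ha hs.1 hc hB n]
      refine setLIntegral_mono' measurableSet_Ioo fun r hr => ?_
      rw [mul_comm]
      exact mul_le_mul' (ih r ⟨hr.1.le, hr.2.le.trans hs.2⟩) le_rfl
  intro s hs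
  have hlim : Tendsto (fun n : ℕ => ENNReal.ofReal (B * (c * Real.log (s / a)) ^ n / n.factorial))
      atTop (𝓝 (ENNReal.ofReal 0)) := by
    refine ENNReal.tendsto_ofReal ?_
    have h1 := (FloorSemiring.tendsto_pow_div_factorial_atTop (c * Real.log (s / a))).const_mul B
    rw [mul_zero] at h1
    refine h1.congr fun n => ?_
    ring
  have h2 := ge_of_tendsto hlim (Eventually.of_forall fun n => hind n s hs)
  rw [ENNReal.ofReal_zero] at h2
  exact le_antisymm h2 zero_le

/-- bounded measurable functions are interval integrable -/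
theorem intInt {f : ℝ → ℝ} {s t : ℝ} (hf : Measurable f) (hst : s ≤ t) {B : ℝ}
    (hB : ∀ r ∈ Icc s t, |f r| ≤ B) : IntervalIntegrable f volume s t := by
  rw [intervalIntegrable_iff_integrableOn_Ioc_of_le hst]
  refine Measure.integrableOn_of_bounded (M := B) (by simp) hf.aestronglyMeasurable ?_
  rw [ae_restrict_iff' measurableSet_Ioc]
  exact Eventually.of_forall fun r hr => hB r ⟨hr.1.le, hr.2⟩

/-- **lower Gronwall, sign**: `f t ≥ ∫_a^t k f`, `0 ≤ k ≤ c/r` give `f ≥ 0` -/
theorem nonneg_of_ge {a b c : ℝ} (ha : 0 < a) (hc : 0 ≤ c) {f k : ℝ → ℝ} (hf : Measurable f)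
    (hk : Measurable k) {B : ℝ} (hB : ∀ s ∈ Icc a b, |f s| ≤ B)
    (hk0 : ∀ s ∈ Icc a b, 0 ≤ k s) (hkc : ∀ s ∈ Icc a b, k s ≤ c / s)
    (h : ∀ t ∈ Icc a b, ∫ r in a..t, k r * f r ≤ f t) :
    ∀ t ∈ Icc a b, 0 ≤ f t := by
  have hz : ∀ s ∈ Icc a b, ENNReal.ofReal (-f s) = 0 := by
    rcases lt_or_ge b a with hab | hab
    · intro s hs; exact absurd (hs.1.trans hs.2) (not_le.2 hab)
    have hB0 : 0 ≤ B := (abs_nonneg _).trans (hB a ⟨le_rfl, hab⟩)
    refine eq_zero_of_le ha hc hB0 (fun s hs => ?_) fun t ht => ?_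
    · exact ENNReal.ofReal_le_ofReal ((neg_le_abs _).trans (hB s hs))
    · have hsub : ∀ r ∈ Icc a t, r ∈ Icc a b := fun r hr => ⟨hr.1, hr.2.trans ht.2⟩
      have hca : ∀ r ∈ Icc a b, c / r ≤ c / a := fun r hr =>
        div_le_div_of_nonneg_left hc ha hr.1
      have i1 : IntervalIntegrable (fun r => k r * f r) volume a t := by
        refine intInt (B := c / a * B) (hk.mul hf) ht.1 fun r hr => ?_
        rw [abs_mul, abs_of_nonneg (hk0 r (hsub r hr))]
        exact mul_le_mul ((hkc r (hsub r hr)).trans (hca r (hsub r hr))) (hB r (hsub r hr))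
          (abs_nonneg _) (div_nonneg hc ha.le)
      have i2 : IntervalIntegrable (fun r => k r * max (-f r) 0) volume a t := by
        refine intInt (B := c / a * B) (hk.mul (hf.neg.max measurable_const)) ht.1 fun r hr => ?_
        rw [abs_mul, abs_of_nonneg (hk0 r (hsub r hr)), abs_of_nonneg (le_max_right _ _)]
        refine mul_le_mul ((hkc r (hsub r hr)).trans (hca r (hsub r hr))) ?_
          (le_max_right _ _) (div_nonneg hc ha.le)
        exact max_le ((neg_le_abs _).trans (hB r (hsub r hr)))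
          ((abs_nonneg _).trans (hB r (hsub r hr)))
      have h1 : -f t ≤ ∫ r in a..t, k r * max (-f r) 0 := by
        have h2 := h t ht
        have h3 : -(∫ r in a..t, k r * f r) ≤ ∫ r in a..t, k r * max (-f r) 0 := by
          rw [← intervalIntegral.integral_neg]
          refine intervalIntegral.integral_mono_on ht.1 i1.neg i2 fun r hr => ?_
          have h4 := hk0 r (hsub r hr)
          have h5 : -f r ≤ max (-f r) 0 := le_max_left _ _
          calc -(k r * f r) = k r * (-f r) := by ring
            _ ≤ _ := mul_le_mul_of_nonneg_left h5 h4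
        linarith
      refine (ENNReal.ofReal_le_ofReal h1).trans ?_
      rw [intervalIntegral.integral_of_le ht.1, integral_Ioc_eq_integral_Ioo,
        ofReal_integral_eq_lintegral_ofReal]
      · refine setLIntegral_mono' measurableSet_Ioo fun r hr => ?_
        have hr' := hsub r ⟨hr.1.le, hr.2.le⟩
        rw [ENNReal.ofReal_mul (hk0 r hr')]
        refine mul_le_mul' (ENNReal.ofReal_le_ofReal (hkc r hr')) ?_
        rw [ENNReal.ofReal_max]
        simp
      · rw [intervalIntegrable_iff_integrableOn_Ioo_of_le ht.1] at i2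
        exact i2
      · rw [EventuallyLE, ae_restrict_iff' measurableSet_Ioo]
        exact Eventually.of_forall fun r hr =>
          mul_nonneg (hk0 r (hsub r ⟨hr.1.le, hr.2.le⟩)) (le_max_right _ _)
  intro t ht
  have := hz t ht
  rw [ENNReal.ofReal_eq_zero] at this
  linarith

/-- **lower Gronwall, growth** -/
theorem growth {a b c : ℝ} (ha : 0 < a) (hc : 0 ≤ c) {f k K : ℝ → ℝ} (hf : Measurable f)
    (hk : Measurable k) {B : ℝ} (hB : ∀ s ∈ Icc a b, |f s| ≤ B)
    (hk0 : ∀ s ∈ Icc a b, 0 ≤ k s) (hkc : ∀ s ∈ Icc a b, k s ≤ c / s)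
    (hKm : Measurable K) (hK : ∀ s ∈ Icc a b, HasDerivAt K (k s) s)
    (hkcont : ContinuousOn k (Icc a b))
    (h : ∀ t ∈ Icc a b, f a + ∫ r in a..t, k r * f r ≤ f t) :
    ∀ t ∈ Icc a b, f a * Real.exp (K t - K a) ≤ f t := by
  intro t ht
  have hab : a ≤ b := ht.1.trans ht.2
  set D : ℝ → ℝ := fun r => f a * Real.exp (K r - K a) with hD
  have hKcont : ContinuousOn K (Icc a b) := fun s hs => (hK s hs).continuousAt.continuousWithinAt
  have hDc : ContinuousOn D (Icc a b) := by
    refine continuousOn_const.mul ?_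
    exact Real.continuous_exp.comp_continuousOn (hKcont.sub continuousOn_const)
  obtain ⟨BD, hBD⟩ := isCompact_Icc.exists_bound_of_continuousOn hDc
  have hDm : Measurable D := by
    exact measurable_const.mul (Real.measurable_exp.comp (hKm.sub measurable_const))
  have hDeq : ∀ t ∈ Icc a b, D t = D a + ∫ r in a..t, k r * D r := by
    intro t ht
    have hder : ∀ s ∈ uIcc a t, HasDerivAt D (k s * D s) s := by
      intro s hs
      rw [uIcc_of_le ht.1] at hs
      have h1 := hK s ⟨hs.1, hs.2.trans ht.2⟩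
      have h2 := ((h1.sub_const (K a)).exp).const_mul (f a)
      refine h2.congr_deriv ?_
      simp only [hD]; ring
    have hcont : ContinuousOn (fun s => k s * D s) (uIcc a t) := by
      rw [uIcc_of_le ht.1]
      exact (hkcont.mul hDc).mono (Icc_subset_Icc_right ht.2)
    rw [intervalIntegral.integral_eq_sub_of_hasDerivAt hder hcont.intervalIntegrable]
    ring
  have hDa : D a = f a := by simp [hD]
  have key := nonneg_of_ge (f := fun r => f r - D r) ha hc (hf.sub hDm) hk (B := B + BD)
    (fun s hs => ?_) hk0 hkc (fun t ht => ?_) t ht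
  · have : 0 ≤ f t - D t := key
    linarith
  · have h1 := hB s hs
    have h2 := hBD s hs
    rw [Real.norm_eq_abs] at h2
    exact (abs_sub _ _).trans (add_le_add h1 h2)
  · have hsub : ∀ r ∈ Icc a t, r ∈ Icc a b := fun r hr => ⟨hr.1, hr.2.trans ht.2⟩
    have hca : ∀ r ∈ Icc a b, c / r ≤ c / a := fun r hr =>
      div_le_div_of_nonneg_left hc ha hr.1
    have i1 : IntervalIntegrable (fun r => k r * f r) volume a t := by
      refine intInt (B := c / a * B) (hk.mul hf) ht.1 fun r hr => ?_
      rw [abs_mul, abs_of_nonneg (hk0 r (hsub r hr))]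
      exact mul_le_mul ((hkc r (hsub r hr)).trans (hca r (hsub r hr))) (hB r (hsub r hr))
        (abs_nonneg _) (div_nonneg hc ha.le)
    have i2 : IntervalIntegrable (fun r => k r * D r) volume a t := by
      have hcont : ContinuousOn (fun s => k s * D s) (uIcc a t) := by
        rw [uIcc_of_le ht.1]
        exact (hkcont.mul hDc).mono (Icc_subset_Icc_right ht.2)
      exact hcont.intervalIntegrable
    have e : ∫ r in a..t, k r * (f r - D r) = (∫ r in a..t, k r * f r) - ∫ r in a..t, k r * D r := by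
      rw [← intervalIntegral.integral_sub i1 i2]
      refine intervalIntegral.integral_congr fun r _ => ?_
      ring
    rw [e]
    have h1 := h t ht
    have h2 := hDeq t ht
    linarith

/-- **upper Gronwall**: `M t ≤ M0 + ∫_a^t (c/r) M` gives `M t ≤ M0 (t/a)^c` -/
theorem upper {a b c : ℝ} (ha : 0 < a) (hc : 0 ≤ c) {M : ℝ → ℝ} (hM : Measurable M) {B M0 : ℝ}
    (hB : ∀ s ∈ Icc a b, |M s| ≤ B)
    (h : ∀ t ∈ Icc a b, M t ≤ M0 + ∫ r in a..t, c / r * M r) :
    ∀ t ∈ Icc a b, M t ≤ M0 * (t / a) ^ c := by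
  intro t ht
  have hab : a ≤ b := ht.1.trans ht.2
  set f : ℝ → ℝ := fun r => M0 * (r / a) ^ c - M r with hf
  have hDc : ContinuousOn (fun r : ℝ => M0 * (r / a) ^ c) (Icc a b) := by
    refine continuousOn_const.mul ?_
    exact (continuousOn_id.div_const a).rpow_const fun s hs =>
      Or.inl (div_pos (ha.trans_le hs.1) ha).ne'
  obtain ⟨BD, hBD⟩ := isCompact_Icc.exists_bound_of_continuousOn hDc
  have hDm : Measurable (fun r : ℝ => M0 * (r / a) ^ c) := by fun_prop
  have hkm : Measurable fun r : ℝ => c / r := by fun_prop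
  have hkcont : ContinuousOn (fun r : ℝ => c / r) (Icc a b) :=
    continuousOn_const.div continuousOn_id fun s hs => (ha.trans_le hs.1).ne'
  have hDeq : ∀ t ∈ Icc a b, M0 * (t / a) ^ c = M0 + ∫ r in a..t, c / r * (M0 * (r / a) ^ c) := by
    intro t ht
    have hder : ∀ s ∈ uIcc a t, HasDerivAt (fun r : ℝ => M0 * (r / a) ^ c)
        (c / s * (M0 * (s / a) ^ c)) s := by
      intro s hs
      rw [uIcc_of_le ht.1] at hs
      have hs0 : 0 < s := ha.trans_le hs.1
      have h1 : HasDerivAt (fun r : ℝ => r / a) (1 / a) s := (hasDerivAt_id s).div_const a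
      have h2 := (h1.rpow_const (p := c) (Or.inl (div_pos hs0 ha).ne')).const_mul M0
      refine h2.congr_deriv ?_
      have h3 : (s / a) ^ (c - 1) = (s / a) ^ c / (s / a) := by
        rw [Real.rpow_sub_one (div_pos hs0 ha).ne']
      rw [h3]
      field_simp
    have hcont : ContinuousOn (fun s : ℝ => c / s * (M0 * (s / a) ^ c)) (uIcc a t) := by
      rw [uIcc_of_le ht.1]
      exact (hkcont.mul hDc).mono (Icc_subset_Icc_right ht.2)
    rw [intervalIntegral.integral_eq_sub_of_hasDerivAt hder hcont.intervalIntegrable]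
    rw [div_self ha.ne', Real.one_rpow]
    ring
  have key := nonneg_of_ge (f := f) (k := fun r => c / r) ha hc (hDm.sub hM) hkm (B := BD + B)
    (fun s hs => ?_) (fun s hs => div_nonneg hc (ha.trans_le hs.1).le) (fun s _ => le_rfl)
    (fun t ht => ?_) t ht
  · have : 0 ≤ f t := key
    simp only [hf] at this
    linarith
  · have h1 := hB s hs
    have h2 := hBD s hs
    rw [Real.norm_eq_abs] at h2
    exact (abs_sub _ _).trans (add_le_add h2 h1)
  · have hsub : ∀ r ∈ Icc a t, r ∈ Icc a b := fun r hr => ⟨hr.1, hr.2.trans ht.2⟩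
    have i1 : IntervalIntegrable (fun r => c / r * M r) volume a t := by
      refine intInt (B := c / a * B) (hkm.mul hM) ht.1 fun r hr => ?_
      have hr0 : 0 < r := ha.trans_le hr.1
      rw [abs_mul, abs_of_nonneg (div_nonneg hc hr0.le)]
      exact mul_le_mul (div_le_div_of_nonneg_left hc ha hr.1) (hB r (hsub r hr))
        (abs_nonneg _) (div_nonneg hc ha.le)
    have i2 : IntervalIntegrable (fun r => c / r * (M0 * (r / a) ^ c)) volume a t := by
      have hcont : ContinuousOn (fun s : ℝ => c / s * (M0 * (s / a) ^ c)) (uIcc a t) := by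
        rw [uIcc_of_le ht.1]
        exact (hkcont.mul hDc).mono (Icc_subset_Icc_right ht.2)
      exact hcont.intervalIntegrable
    have e : ∫ r in a..t, c / r * f r = (∫ r in a..t, c / r * (M0 * (r / a) ^ c)) -
        ∫ r in a..t, c / r * M r := by
      rw [← intervalIntegral.integral_sub i2 i1]
      refine intervalIntegral.integral_congr fun r _ => ?_
      simp only [hf]; ring
    rw [e]
    have h1 := h t ht
    have h2 := hDeq t ht
    have h3 : f t = M0 * (t / a) ^ c - M t := rfl
    rw [h3, h2]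
    linarith

end Crest.Agent.R68.XSeed
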