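import Crest.Agent.R68.Sph4

/-!
# Row 68, PART X: the upper growth exponent (real inequality)

Weight `Z a = 1 + .23 |a|² + .17 a₃² + .001 |a|⁴`.  For a fuel velocity `b` near `(0,0,±1)` the
sum `M2 a b` of the means of `Z` over the two outgoing velocities (both uniformly distributed on
the sphere with diameter `[a,b]`) satisfies `|a-b| ((1+1/2000) M2 a b - Z a) ≤ 1.78 Z a`.
-/

set_option autoImplicit false
open MeasureTheory Set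
open scoped ENNReal Real
open Crest.AnalysisR.VecCalc3 Crest.AnalysisR.PDE.Boltzmann

noncomputable section

namespace Crest.Agent.R68.XUp

/-- univariate positivity (the discriminant) -/
theorem disc_pos (d : ℝ) (hd : 0 ≤ d) :
    0 < 1.0355 - 0.8648 * d + 0.1028 * d ^ 3 - 0.0082 * d ^ 4 + 0.001 * d ^ 5 := by
  nlinarith [mul_nonneg hd (sq_nonneg (d - 1.79)), sq_nonneg (d - 1.79),
    mul_nonneg hd (sq_nonneg (d * (d - 1.79))), sq_nonneg (d * (d - 1.79)),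
    mul_nonneg hd (sq_nonneg (d * (d - 4.1))), sq_nonneg (d * (d - 4.1)),
    mul_nonneg hd (sq_nonneg (d ^ 2 - 1)), pow_nonneg hd 3, pow_nonneg hd 4, pow_nonneg hd 5]

/-- weight as a function of `n = |a|²` and `z = ± a₃` -/
def Zp (n z : ℝ) : ℝ := 1 + 23 / 100 * n + 17 / 100 * z ^ 2 + 1 / 1000 * n ^ 2

/-- `2 <Z>` for `b = (0,0,1)`, `n = |a|² = d² + 2 z - 1` -/
def Mp (d z : ℝ) : ℝ :=
  2 + 23 / 100 * (d ^ 2 + 2 * z - 1 + 1) + 34 / 100 * (((z + 1) / 2) ^ 2 + d ^ 2 / 12)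
    + 2 / 1000 * (((d ^ 2 + 2 * z - 1 + 1) / 2) ^ 2
      + 1 / 3 * d ^ 2 * ((d ^ 2 + 2 * z - 1 + 1) / 2 - d ^ 2 / 4))

set_option maxHeartbeats 1000000 in
theorem main_poly (d z : ℝ) (hd : 0 ≤ d) :
    d * ((1 + 1 / 2000) * Mp d z - Zp (d ^ 2 + 2 * z - 1) z
      + 1 / 2000 * (1 + (d ^ 2 + 2 * z - 1))) ≤ 1.775 * Zp (d ^ 2 + 2 * z - 1) z := by
  set A : ℝ := 1.775 * (17 / 100 + 4 / 1000)
    + d * (17 / 200 + 2 / 1000 - 1 / 2000 * (17 / 200 + 2 / 1000)) with hA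
  set B : ℝ := 1.775 * (46 / 100 + 4 / 1000 * (d ^ 2 - 1))
    - d * (17 / 100 - 4 / 3000 * d ^ 2 + 4 / 1000 + 2 / 2000
      + 1 / 2000 * (17 / 100 - 4 / 3000 * d ^ 2 + 4 / 1000 + 46 / 100
        + 4 / 1000 * (d ^ 2 - 1))) with hB
  set C : ℝ := 1.775 * (1 + 23 / 100 * (d ^ 2 - 1) + 1 / 1000 * (d ^ 2 - 1) ^ 2)
    - d * (1 + 63 / 200 - 1 / 1000 + d ^ 2 * (17 / 600 + 2 / 1000) - 1 / 3000 * d ^ 4
      + 1 / 2000 * d ^ 2 + 1 / 2000 * (1 + 63 / 200 - 1 / 1000 + d ^ 2 * (17 / 600 + 2 / 1000)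
        - 1 / 3000 * d ^ 4 + (1 + 23 / 100 * (d ^ 2 - 1) + 1 / 1000 * (d ^ 2 - 1) ^ 2))) with hC
  have hApos : 0 < A := by rw [hA]; nlinarith
  have hQ : 1.775 * Zp (d ^ 2 + 2 * z - 1) z
      - d * ((1 + 1 / 2000) * Mp d z - Zp (d ^ 2 + 2 * z - 1) z
        + 1 / 2000 * (1 + (d ^ 2 + 2 * z - 1))) = A * z ^ 2 + B * z + C := by
    rw [hA, hB, hC, Mp, Zp]; ring
  have hD : 0 ≤ 4 * A * C - B ^ 2 := by
    have h := disc_pos d hd
    have h2 : 0 ≤ 4 * A * C - B ^ 2 - (1.0355 - 0.8648 * d + 0.1028 * d ^ 3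
          - 0.0082 * d ^ 4 + 0.001 * d ^ 5) := by
      rw [hA, hB, hC]
      have h3 := pow_nonneg hd 2
      have h4 := pow_nonneg hd 3
      have h5 := pow_nonneg hd 4
      have h6 := pow_nonneg hd 5
      have h7 := pow_nonneg hd 6
      ring_nf
      linarith
    linarith
  have h4 : 0 ≤ 4 * A * (A * z ^ 2 + B * z + C) := by
    have : 4 * A * (A * z ^ 2 + B * z + C) = (2 * A * z + B) ^ 2 + (4 * A * C - B ^ 2) := by ring
    rw [this]; positivity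
  have h5 : 0 ≤ A * z ^ 2 + B * z + C := by
    by_contra h
    have h6 := mul_neg_of_pos_of_neg (show 0 < 4 * A by linarith) (not_le.mp h)
    linarith
  linarith

/-- bound of `2 <Z>` for a perturbed fuel velocity `(e1,e2,s+e3)` -/
theorem M2_perturb (x y z s e1 e2 e3 : ℝ) (hs : s = 1 ∨ s = -1)
    (h1 : |e1| ≤ 1 / 5000) (h2 : |e2| ≤ 1 / 5000) (h3 : |e3| ≤ 1 / 5000) :
    let A := x ^ 2 + y ^ 2 + z ^ 2
    let B := e1 ^ 2 + e2 ^ 2 + (s + e3) ^ 2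
    let p := x * e1 + y * e2 + z * (s + e3)
    (23 / 100 * (A + B) + 17 / 100 * ((z + (s + e3)) ^ 2 / 2 + (A + B - 2 * p) / 6)
      + 1 / 1000 * (2 / 3) * ((A + B) ^ 2 - p ^ 2))
    ≤ (23 / 100 * (A + 1) + 17 / 100 * ((z + s) ^ 2 / 2 + (A + 1 - 2 * (z * s)) / 6)
      + 1 / 1000 * (2 / 3) * ((A + 1) ^ 2 - (z * s) ^ 2)) + 1 / 2500 * (1 + A) := by
  intro A B p
  have hss : s ^ 2 = 1 := by rcases hs with h | h <;> rw [h] <;> norm_num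
  obtain ⟨r, hr⟩ : ∃ r, r = x * e1 + y * e2 + z * e3 := ⟨_, rfl⟩
  have hp : p = z * s + r := by rw [hr]; simp only [p]; ring
  obtain ⟨β, hβ⟩ : ∃ β, β = B - 1 := ⟨_, rfl⟩
  have hβ' : β = e1 ^ 2 + e2 ^ 2 + e3 ^ 2 + 2 * (s * e3) := by
    rw [hβ]; simp only [B]; nlinarith
  have hBβ : B = 1 + β := by rw [hβ]; ring
  obtain ⟨a1, b1⟩ := abs_le.mp h1
  obtain ⟨a2, b2⟩ := abs_le.mp h2
  obtain ⟨a3, b3⟩ := abs_le.mp h3
  have hse : |s * e3| ≤ 1 / 5000 := by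
    rcases hs with h | h <;> rw [h] <;> simpa using h3
  obtain ⟨a4, b4⟩ := abs_le.mp hse
  have q1 : e1 ^ 2 ≤ 1 / 25000000 := by nlinarith
  have q2 : e2 ^ 2 ≤ 1 / 25000000 := by nlinarith
  have q3 : e3 ^ 2 ≤ 1 / 25000000 := by nlinarith
  have hβ1 : β ≤ 3 / 5000 := by rw [hβ']; linarith
  have hβ2 : -(3 / 5000) ≤ β := by rw [hβ']; nlinarith [sq_nonneg e1, sq_nonneg e2, sq_nonneg e3]
  have hA0 : 0 ≤ A := by simp only [A]; positivity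
  obtain ⟨S, hS⟩ : ∃ S, S = |x| + |y| + |z| := ⟨_, rfl⟩
  have hS0 : 0 ≤ S := by rw [hS]; positivity
  have hS2 : S ^ 2 ≤ 3 * A := by
    rw [hS]; simp only [A]
    have := sq_abs x; have := sq_abs y; have := sq_abs z
    nlinarith [sq_nonneg (|x| - |y|), sq_nonneg (|x| - |z|), sq_nonneg (|y| - |z|)]
  have hr1 : |r| ≤ 1 / 5000 * S := by
    rw [hr, hS]
    calc |x * e1 + y * e2 + z * e3| ≤ |x * e1| + |y * e2| + |z * e3| := abs_add_three _ _ _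
      _ = |x| * |e1| + |y| * |e2| + |z| * |e3| := by rw [abs_mul, abs_mul, abs_mul]
      _ ≤ |x| * (1 / 5000) + |y| * (1 / 5000) + |z| * (1 / 5000) := by gcongr
      _ = 1 / 5000 * (|x| + |y| + |z|) := by ring
  obtain ⟨r1, r2⟩ := abs_le.mp hr1
  have hz : |z| ≤ S := by rw [hS]; linarith [abs_nonneg x, abs_nonneg y]
  obtain ⟨z1, z2⟩ := abs_le.mp hz
  have hSA : S ≤ 3 / 2 + A / 2 := by nlinarith [sq_nonneg (S - 3)]
  -- the pieces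
  have t1 : (z + (s + e3)) ^ 2 ≤ (z + s) ^ 2 + (2 * S + 3) / 5000 := by
    have e : (z + (s + e3)) ^ 2 = (z + s) ^ 2 + (2 * (z * e3) + 2 * (s * e3) + e3 ^ 2) := by ring
    have : z * e3 ≤ S * (1 / 5000) := by
      calc z * e3 ≤ |z * e3| := le_abs_self _
        _ = |z| * |e3| := abs_mul _ _
        _ ≤ S * (1 / 5000) := by gcongr
    rw [e]; linarith
  have hzs : (z * s) * r ≤ S * (1 / 5000 * S) ∧ -(S * (1 / 5000 * S)) ≤ (z * s) * r := by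
    have hzs1 : |z * s| ≤ S := by
      rcases hs with h | h <;> rw [h] <;> simpa using hz
    have : |z * s * r| ≤ S * (1 / 5000 * S) := by
      rw [abs_mul]; gcongr
    exact ⟨(abs_le.mp this).2, (abs_le.mp this).1⟩
  have t2 : (A + B) ^ 2 ≤ (A + 1) ^ 2 + 3 / 5000 * (2 * A + 3) := by
    have : (A + B) ^ 2 = (A + 1) ^ 2 + β * (2 * A + 2 + β) := by rw [hBβ]; ring
    rw [this]
    have h5 : β * (2 * A + 2 + β) ≤ 3 / 5000 * (2 * A + 2 + β) :=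
      mul_le_mul_of_nonneg_right hβ1 (by linarith)
    linarith
  have t3 : (z * s) ^ 2 - p ^ 2 ≤ 2 * (S * (1 / 5000 * S)) := by
    have e : p ^ 2 = (z * s) ^ 2 + 2 * ((z * s) * r) + r ^ 2 := by rw [hp]; ring
    have := sq_nonneg r
    linarith [hzs.2]
  have hp2 : - p ≤ -(z * s) + 1 / 5000 * S := by rw [hp]; linarith
  have hSS : S * (1 / 5000 * S) ≤ 3 / 5000 * A := by linarith [show S * (1 / 5000 * S) = 1 / 5000 * S ^ 2 by ring]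
  have t4 : A + B - 2 * p ≤ A + 1 - 2 * (z * s) + (3 / 5000 + 2 / 5000 * S) := by
    rw [hBβ]; linarith
  have t5 : A + B ≤ A + 1 + 3 / 5000 := by rw [hBβ]; linarith
  linarith

/-- the weight -/
def Z (a : R3) : ℝ := 1 + 23 / 100 * ‖a‖ ^ 2 + 17 / 100 * (a 2) ^ 2 + 1 / 1000 * ‖a‖ ^ 4

/-- sum of the means of `Z` over the two outgoing velocities of a collision of `a` and `b` -/
def M2 (a b : R3) : ℝ :=
  2 + 23 / 100 * (‖a‖ ^ 2 + ‖b‖ ^ 2)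
    + 17 / 100 * ((a 2 + b 2) ^ 2 / 2 + (‖a‖ ^ 2 + ‖b‖ ^ 2 - 2 * inner ℝ a b) / 6)
    + 1 / 1000 * (2 / 3) * ((‖a‖ ^ 2 + ‖b‖ ^ 2) ^ 2 - (inner ℝ a b : ℝ) ^ 2)

theorem one_le_Z (a : R3) : 1 ≤ Z a := by
  unfold Z; nlinarith [sq_nonneg ‖a‖, sq_nonneg (a 2), sq_nonneg (‖a‖ ^ 2)]

theorem norm_sq_coord (a : R3) : ‖a‖ ^ 2 = a 0 ^ 2 + a 1 ^ 2 + a 2 ^ 2 := by
  rw [EuclideanSpace.norm_sq_eq]; simp [Fin.sum_univ_three]

theorem inner_coord (a b : R3) : (inner ℝ a b : ℝ) = a 0 * b 0 + a 1 * b 1 + a 2 * b 2 := by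
  simp [PiLp.inner_apply, Fin.sum_univ_three, mul_comm]

theorem M2_le (a b : R3) (s : ℝ) (hs : s = 1 ∨ s = -1) (h0 : |b 0| ≤ 1 / 5000)
    (h1 : |b 1| ≤ 1 / 5000) (h2 : |b 2 - s| ≤ 1 / 5000) :
    M2 a b ≤ Mp (√(‖a‖ ^ 2 + 1 - 2 * (s * a 2))) (s * a 2) + 1 / 2500 * (1 + ‖a‖ ^ 2) := by
  have h := M2_perturb (a 0) (a 1) (a 2) s (b 0) (b 1) (b 2 - s) hs h0 h1 h2
  simp only [add_sub_cancel] at h
  have hss : s ^ 2 = 1 := by rcases hs with h | h <;> rw [h] <;> norm_num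
  have hnn : 0 ≤ ‖a‖ ^ 2 + 1 - 2 * (s * a 2) := by
    rw [norm_sq_coord]; nlinarith [sq_nonneg (a 0), sq_nonneg (a 1), sq_nonneg (a 2 - s)]
  have hd := Real.sq_sqrt hnn
  unfold M2 Mp
  rw [hd]
  rw [norm_sq_coord a, norm_sq_coord b, inner_coord]
  have e : (s * a 2 + 1) ^ 2 = (a 2 + s) ^ 2 := by
    have : (s * a 2 + 1) ^ 2 - (a 2 + s) ^ 2 = (s ^ 2 - 1) * (a 2 ^ 2 - 1) := by ring
    rw [hss] at this; linarith
  have e2 : (s * a 2) ^ 2 = (a 2) ^ 2 := by rw [mul_pow, hss, one_mul]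
  nlinarith [h, e, e2]

end Crest.Agent.R68.XUp
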