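import Crest.Agent.R68.NAlg
import Crest.Agent.R68.NDamp1
import Crest.Agent.R68.DBil
import Crest.Agent.R68.FCell

/-!
# Row 68, PART X: weak (one-sided) form of the damped Duhamel equation, gain duality (helper485)

`H = N.Dam ν q` (`ν`, `q` arbitrary measurable fields).  If along flights
`g(s) + ∫_s^r e ≤ g(r) + ∫_s^r k` then
`∫_0^t∫ g q + ∫_0^t∫ e H ≤ ∫ g(t) H(t) + ∫_0^t∫ (ν g + k) H`, and the reversed statement.
Position space: a measure `m` invariant under translations for `S`-periodic functions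
(the plane with `S = ∅`, the cell with `S = range latt`).
-/

set_option autoImplicit false
open MeasureTheory Set Filter
open scoped ENNReal Topology
open Crest.AnalysisR.VecCalc3 Crest.AnalysisR.PDE.Boltzmann

noncomputable section

namespace Crest.Agent.R68.XWeak

open Crest.Agent.R68.A
open Crest.Agent.R68.N (Fld acc Dam measurable_acc)
open Crest.Agent.R68.ND (O1 O1_split measurable_O1_left measurable_O1_right)

/-! ### one path -/

theorem path_w {n w : ℝ → ℝ≥0∞} (hn : Measurable n) (hw : Measurable w) {s t : ℝ} (h0 : 0 ≤ s)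
    (_hst : s ≤ t) (hfin : O1 n s t ≠ ⊤) :
    ∫⁻ r in Ioo s t, w r * en (O1 n s r) = en (O1 n s t) * O1 w s t +
      ∫⁻ r in Ioo s t, n r * en (O1 n s r) * O1 w s r := by
  have hmE : Measurable fun r => en (O1 n s r) := measurable_en.comp (measurable_O1_right hn s)
  have hp : Measurable fun r => n r * en (O1 n s r) := hn.mul hmE
  have key : ∀ r ∈ Ioo s t, en (O1 n s r) =
      (∫⁻ τ in Ioo r t, n τ * en (O1 n s τ)) + en (O1 n s t) := by
    intro r hr
    have hfr : O1 n r t ≠ ⊤ := ne_top_of_le_ne_top hfin (ND.O1_mono_left n hr.1.le)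
    have h1 := ND.ftc_forw_fin' hn (h0.trans hr.1.le) hr.2.le hfr
    calc en (O1 n s r) = en (O1 n s r) * ((∫⁻ τ in Ioo r t, n τ * en (O1 n r τ)) + en (O1 n r t)) := by
          rw [h1, mul_one]
      _ = (∫⁻ τ in Ioo r t, n τ * en (O1 n s τ)) + en (O1 n s t) := by
          rw [mul_add, ← lintegral_const_mul' _ _ (en_ne_top _), O1_split n hr.1.le hr.2.le, en_add]
          congr 1
          refine setLIntegral_congr_fun measurableSet_Ioo fun τ hτ => ?_
          rw [O1_split n hr.1.le hτ.1.le, en_add]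
          ring
  calc ∫⁻ r in Ioo s t, w r * en (O1 n s r)
      = ∫⁻ r in Ioo s t, ((∫⁻ τ in Ioo r t, n τ * en (O1 n s τ)) * w r + en (O1 n s t) * w r) := by
        refine setLIntegral_congr_fun measurableSet_Ioo fun r hr => ?_
        conv_lhs => rw [key r hr]
        ring
    _ = (∫⁻ r in Ioo s t, (∫⁻ τ in Ioo r t, n τ * en (O1 n s τ)) * w r) +
        ∫⁻ r in Ioo s t, en (O1 n s t) * w r := by
        rw [lintegral_add_right _ (hw.const_mul _)]
    _ = _ := by
        rw [lintegral_triangle hp hw, lintegral_const_mul' _ _ (en_ne_top _), add_comm]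
        rfl

variable {n g e k : ℝ → ℝ≥0∞} {s t : ℝ}

theorem path_left (hn : Measurable n) (he : Measurable e) (gs : ℝ≥0∞) (h0 : 0 ≤ s)
    (hst : s ≤ t) (hfin : O1 n s t ≠ ⊤) :
    gs + ∫⁻ r in Ioo s t, e r * en (O1 n s r) = en (O1 n s t) * (gs + O1 e s t) +
      ∫⁻ r in Ioo s t, n r * en (O1 n s r) * (gs + O1 e s r) := by
  have hmE : Measurable fun r => en (O1 n s r) := measurable_en.comp (measurable_O1_right hn s)
  have hp : Measurable fun r => n r * en (O1 n s r) := hn.mul hmE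
  have h1 := ND.ftc_forw_fin' hn h0 hst hfin
  have e1 : ∫⁻ r in Ioo s t, n r * en (O1 n s r) * (gs + O1 e s r) =
      (∫⁻ r in Ioo s t, n r * en (O1 n s r)) * gs +
        ∫⁻ r in Ioo s t, n r * en (O1 n s r) * O1 e s r := by
    rw [← lintegral_mul_const _ hp, ← lintegral_add_left (hp.mul_const _)]
    refine lintegral_congr fun r => ?_
    ring
  rw [path_w hn he h0 hst hfin, e1]
  calc gs + (en (O1 n s t) * O1 e s t + ∫⁻ r in Ioo s t, n r * en (O1 n s r) * O1 e s r)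
      = ((∫⁻ r in Ioo s t, n r * en (O1 n s r)) + en (O1 n s t)) * gs +
        (en (O1 n s t) * O1 e s t + ∫⁻ r in Ioo s t, n r * en (O1 n s r) * O1 e s r) := by
        rw [h1, one_mul]
    _ = _ := by ring

theorem path_right (hn : Measurable n) (hg : Measurable g) (hk : Measurable k) (h0 : 0 ≤ s)
    (hst : s ≤ t) (hfin : O1 n s t ≠ ⊤) :
    en (O1 n s t) * g t + ∫⁻ r in Ioo s t, (n r * g r + k r) * en (O1 n s r) =
      en (O1 n s t) * (g t + O1 k s t) +
        ∫⁻ r in Ioo s t, n r * en (O1 n s r) * (g r + O1 k s r) := by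
  have hmE : Measurable fun r => en (O1 n s r) := measurable_en.comp (measurable_O1_right hn s)
  have hp : Measurable fun r => n r * en (O1 n s r) := hn.mul hmE
  have hpg : Measurable fun r => n r * en (O1 n s r) * g r := hp.mul hg
  have e1 : ∫⁻ r in Ioo s t, (n r * g r + k r) * en (O1 n s r) =
      (∫⁻ r in Ioo s t, n r * en (O1 n s r) * g r) + ∫⁻ r in Ioo s t, k r * en (O1 n s r) := by
    rw [← lintegral_add_left hpg]
    refine lintegral_congr fun r => ?_
    ring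
  have e2 : ∫⁻ r in Ioo s t, n r * en (O1 n s r) * (g r + O1 k s r) =
      (∫⁻ r in Ioo s t, n r * en (O1 n s r) * g r) +
        ∫⁻ r in Ioo s t, n r * en (O1 n s r) * O1 k s r := by
    rw [← lintegral_add_left hpg]
    refine lintegral_congr fun r => ?_
    ring
  rw [e1, e2, path_w hn hk h0 hst hfin]
  ring

/-- **one path, lower form** -/
theorem path_low (hn : Measurable n) (hg : Measurable g) (he : Measurable e) (hk : Measurable k)
    (h0 : 0 ≤ s) (hst : s ≤ t) (hfin : O1 n s t ≠ ⊤)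
    (hflow : ∀ r ∈ Icc s t, g s + O1 e s r ≤ g r + O1 k s r) :
    g s + ∫⁻ r in Ioo s t, e r * en (O1 n s r) ≤
      en (O1 n s t) * g t + ∫⁻ r in Ioo s t, (n r * g r + k r) * en (O1 n s r) := by
  rw [path_left hn he _ h0 hst hfin, path_right hn hg hk h0 hst hfin]
  refine add_le_add (mul_le_mul' le_rfl (hflow t ⟨hst, le_rfl⟩)) ?_
  exact setLIntegral_mono_ae' measurableSet_Ioo (Eventually.of_forall fun r hr =>
    mul_le_mul' le_rfl (hflow r (Ioo_subset_Icc_self hr)))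

/-- **one path, upper form** -/
theorem path_up (hn : Measurable n) (hg : Measurable g) (he : Measurable e) (hk : Measurable k)
    (h0 : 0 ≤ s) (hst : s ≤ t) (hfin : O1 n s t ≠ ⊤)
    (hflow : ∀ r ∈ Icc s t, g r + O1 k s r ≤ g s + O1 e s r) :
    en (O1 n s t) * g t + ∫⁻ r in Ioo s t, (n r * g r + k r) * en (O1 n s r) ≤
      g s + ∫⁻ r in Ioo s t, e r * en (O1 n s r) := by
  rw [path_left hn he _ h0 hst hfin, path_right hn hg hk h0 hst hfin]
  refine add_le_add (mul_le_mul' le_rfl (hflow t ⟨hst, le_rfl⟩)) ?_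
  exact setLIntegral_mono_ae' measurableSet_Ioo (Eventually.of_forall fun r hr =>
    mul_le_mul' le_rfl (hflow r (Ioo_subset_Icc_self hr)))

/-! ### translations -/

/-- periodicity with respect to a set of vectors -/
def PerS (S : Set P2) (G : P2 → ℝ≥0∞) : Prop := ∀ a ∈ S, ∀ x, G (x + a) = G x

/-- `m` is translation invariant on `S`-periodic functions -/
def TInv (m : Measure P2) (S : Set P2) : Prop :=
  ∀ G : P2 → ℝ≥0∞, Measurable G → PerS S G → ∀ a, ∫⁻ x, G (x + a) ∂m = ∫⁻ x, G x ∂m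

theorem tinv_volume (S : Set P2) : TInv (volume : Measure P2) S := fun G _ _ a =>
  lintegral_add_right_eq_self (μ := (volume : Measure P2)) G a

theorem perS_latt_iff {G : P2 → ℝ≥0∞} : PerS (range latt) G ↔ PerG G := by
  constructor
  · intro h x k
    exact h _ ⟨k, rfl⟩ x
  · rintro h a ⟨k, rfl⟩ x
    exact h x k

theorem tinv_cell : TInv ((volume : Measure P2).restrict cellG) (range latt) := fun G hG hp a =>
  lintegral_cellG_add hG (perS_latt_iff.1 hp) a

variable {m : Measure P2} [SFinite m] {S : Set P2}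

/-- change of variables along the free flow -/
theorem cv (hm : TInv m S) {G : P2 → R3 → ℝ≥0∞} (hG : Measurable fun p : P2 × R3 => G p.1 p.2)
    (hper : ∀ v, PerS S fun x => G x v) (τ : ℝ) :
    ∫⁻ p, G (p.1 + τ • bar p.2) p.2 ∂(m.prod (volume : Measure R3)) =
      ∫⁻ p, G p.1 p.2 ∂(m.prod (volume : Measure R3)) := by
  have h1 : Measurable fun p : P2 × R3 => G (p.1 + τ • bar p.2) p.2 :=
    hG.comp (f := fun p : P2 × R3 => (p.1 + τ • bar p.2, p.2)) (by fun_prop)
  rw [lintegral_prod_symm _ h1.aemeasurable, lintegral_prod_symm _ hG.aemeasurable]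
  refine lintegral_congr fun v => ?_
  exact hm (fun x => G x v) (hG.comp (by fun_prop : Measurable fun x : P2 => (x, v))) (hper v)
    (τ • bar v)

/-- periodicity of a field -/
def PerSF (S : Set P2) (F : Fld) : Prop := ∀ t v, PerS S fun x => F t x v

theorem PerSF.at {F : Fld} (hF : PerSF S F) {a : P2} (ha : a ∈ S) (t : ℝ) (x y : P2) (v : R3) :
    F t (x + a + y) v = F t (x + y) v := by
  have : x + a + y = (x + y) + a := by abel
  rw [this]
  exact hF t v a ha _

theorem PerSF.at_sub {F : Fld} (hF : PerSF S F) {a : P2} (ha : a ∈ S) (t : ℝ) (x y : P2) (v : R3) :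
    F t (x + a - y) v = F t (x - y) v := by
  have : x + a - y = (x - y) + a := by abel
  rw [this]
  exact hF t v a ha _

/-- the rate along the flight from `(s,y,v)` -/
def fw (F : Fld) (s : ℝ) (y : P2) (v : R3) : ℝ → ℝ≥0∞ := fun r => F r (y + (r - s) • bar v) v

theorem measurable_fw {F : Fld} (hF : Meas3 F) (s : ℝ) (y : P2) (v : R3) :
    Measurable (fw F s y v) := hF.comp (by fun_prop) (by fun_prop) (by fun_prop)

theorem acc_flow (ν : Fld) (s r : ℝ) (y : P2) (v : R3) :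
    acc ν s r (y + (r - s) • bar v) v = O1 (fw ν s y v) s r := by
  unfold acc O1 fw
  refine lintegral_congr fun τ => ?_
  congr 1
  module

theorem per_acc {ν : Fld} (hν : PerSF S ν) (s r : ℝ) (v : R3) : PerS S fun x => acc ν s r x v := by
  intro a ha x
  unfold acc
  exact lintegral_congr fun τ => hν.at_sub ha τ x _ v

/-- transport from time `s` to time `r` with the damping -/
def Tr (ν : Fld) (s : ℝ) (h : P2 → R3 → ℝ≥0∞) (r : ℝ) (x : P2) (v : R3) : ℝ≥0∞ :=
  en (acc ν s r x v) * h (x - (r - s) • bar v) v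

section start

variable {ν : Fld} {h : P2 → R3 → ℝ≥0∞}

theorem measurable_Tr (hν : Meas3 ν) (hh : Measurable fun p : P2 × R3 => h p.1 p.2) (s r : ℝ) :
    Measurable fun p : P2 × R3 => Tr ν s h r p.1 p.2 := by
  unfold Tr
  refine Measurable.mul (measurable_en.comp (measurable_acc hν measurable_const measurable_const
    measurable_fst measurable_snd)) ?_
  exact hh.comp (f := fun p : P2 × R3 => (p.1 - (r - s) • bar p.2, p.2)) (by fun_prop)

theorem start_eq (hm : TInv m S) (hν : Meas3 ν) (hh : Measurable fun p : P2 × R3 => h p.1 p.2)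
    (pν : PerSF S ν) (ph : ∀ v, PerS S fun x => h x v) {w : P2 → R3 → ℝ≥0∞}
    (hw : Measurable fun p : P2 × R3 => w p.1 p.2) (pw : ∀ v, PerS S fun x => w x v) (s r : ℝ) :
    ∫⁻ p, w p.1 p.2 * Tr ν s h r p.1 p.2 ∂(m.prod (volume : Measure R3)) =
      ∫⁻ p, w (p.1 + (r - s) • bar p.2) p.2 * en (O1 (fw ν s p.1 p.2) s r) * h p.1 p.2
        ∂(m.prod (volume : Measure R3)) := by
  have h1 := cv hm (G := fun x v => w x v * Tr ν s h r x v)
    (hw.mul (measurable_Tr hν hh s r)) (fun v a ha x => by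
      dsimp only
      unfold Tr
      have e1 : x + a - (r - s) • bar v = (x - (r - s) • bar v) + a := by abel
      have e2 := ph v a ha (x - (r - s) • bar v)
      have e3 := pw v a ha x
      have e4 := per_acc pν s r v a ha x
      dsimp only at e2 e3 e4
      rw [e1, e2, e3, e4]) (r - s)
  rw [← h1]
  refine lintegral_congr fun p => ?_
  unfold Tr
  rw [acc_flow, add_sub_cancel_right, mul_assoc]

theorem measurable_O1_fw (hν : Meas3 ν) (s : ℝ) : Measurable fun q : (P2 × R3) × ℝ =>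
    O1 (fw ν s q.1.1 q.1.2) s q.2 := by
  unfold O1 fw
  refine measurable_lintegral_Ioo (α := (P2 × R3) × ℝ) (q := fun z : ((P2 × R3) × ℝ) × ℝ =>
    ν z.2 (z.1.1.1 + (z.2 - s) • bar z.1.1.2) z.1.1.2) ?_ measurable_const measurable_snd
  exact hν.comp (by fun_prop) (by fun_prop) (by fun_prop)

theorem start_int (hm : TInv m S) (hν : Meas3 ν) (hh : Measurable fun p : P2 × R3 => h p.1 p.2)
    (pν : PerSF S ν) (ph : ∀ v, PerS S fun x => h x v) {w : Fld} (hw : Meas3 w)
    (pw : PerSF S w) (s t : ℝ) :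
    ∫⁻ r in Ioo s t, ∫⁻ p, w r p.1 p.2 * Tr ν s h r p.1 p.2 ∂(m.prod (volume : Measure R3)) =
      ∫⁻ p, (∫⁻ r in Ioo s t, fw w s p.1 p.2 r * en (O1 (fw ν s p.1 p.2) s r)) * h p.1 p.2
        ∂(m.prod (volume : Measure R3)) := by
  have hm1 : Measurable fun q : (P2 × R3) × ℝ => w q.2 (q.1.1 + (q.2 - s) • bar q.1.2) q.1.2 *
      en (O1 (fw ν s q.1.1 q.1.2) s q.2) * h q.1.1 q.1.2 := by
    refine Measurable.mul (Measurable.mul ?_ ?_) ?_
    · exact hw.comp (by fun_prop) (by fun_prop) (by fun_prop)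
    · exact measurable_en.comp (measurable_O1_fw hν s)
    · exact hh.comp (f := fun q : (P2 × R3) × ℝ => q.1) measurable_fst
  calc ∫⁻ r in Ioo s t, ∫⁻ p, w r p.1 p.2 * Tr ν s h r p.1 p.2 ∂(m.prod (volume : Measure R3))
      = ∫⁻ r in Ioo s t, ∫⁻ p, w r (p.1 + (r - s) • bar p.2) p.2 *
          en (O1 (fw ν s p.1 p.2) s r) * h p.1 p.2 ∂(m.prod (volume : Measure R3)) := by
        refine lintegral_congr fun r => ?_
        exact start_eq hm hν hh pν ph (w := fun x v => w r x v)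
          (hw.comp (f := fun _ => r) measurable_const measurable_fst measurable_snd)
          (fun v => pw r v) s r
    _ = ∫⁻ p, (∫⁻ r in Ioo s t, w r (p.1 + (r - s) • bar p.2) p.2 *
          en (O1 (fw ν s p.1 p.2) s r) * h p.1 p.2) ∂(m.prod (volume : Measure R3)) := by
        rw [lintegral_lintegral_swap]
        exact (hm1.comp (measurable_swap (α := ℝ) (β := P2 × R3))).aemeasurable
    _ = _ := by
        refine lintegral_congr fun p => ?_
        rw [← lintegral_mul_const]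
        · rfl
        · refine Measurable.mul (measurable_fw hw s p.1 p.2) ?_
          exact measurable_en.comp (measurable_O1_right (measurable_fw hν s p.1 p.2) s)

variable {g e k : Fld} {s t : ℝ}

/-- **lower form, transport from one starting time** -/
theorem start_low (hm : TInv m S) (hν : Meas3 ν) (hh : Measurable fun p : P2 × R3 => h p.1 p.2)
    (pν : PerSF S ν) (ph : ∀ v, PerS S fun x => h x v) (hg : Meas3 g) (he : Meas3 e)
    (hk : Meas3 k) (pg : PerSF S g) (pe : PerSF S e) (pk : PerSF S k) (h0 : 0 ≤ s) (hst : s ≤ t)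
    (H : ∀ᵐ p ∂(m.prod (volume : Measure R3)), h p.1 p.2 ≠ 0 →
      O1 (fw ν s p.1 p.2) s t ≠ ⊤ ∧ ∀ r ∈ Icc s t,
        g s p.1 p.2 + O1 (fw e s p.1 p.2) s r ≤ fw g s p.1 p.2 r + O1 (fw k s p.1 p.2) s r) :
    (∫⁻ p, g s p.1 p.2 * h p.1 p.2 ∂(m.prod (volume : Measure R3))) +
      (∫⁻ r in Ioo s t, ∫⁻ p, e r p.1 p.2 * Tr ν s h r p.1 p.2
        ∂(m.prod (volume : Measure R3))) ≤
    ∫⁻ p, g t p.1 p.2 * Tr ν s h t p.1 p.2 ∂(m.prod (volume : Measure R3)) +
      ∫⁻ r in Ioo s t, ∫⁻ p, (ν r p.1 p.2 * g r p.1 p.2 + k r p.1 p.2) * Tr ν s h r p.1 p.2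
        ∂(m.prod (volume : Measure R3)) := by
  have hng : Meas3 (fun t x v => ν t x v * g t x v + k t x v) := (hν.mul hg).add hk
  have png : PerSF S (fun t x v => ν t x v * g t x v + k t x v) := by
    intro τ v a ha x
    have e1 := pν τ v a ha x
    have e2 := pg τ v a ha x
    have e3 := pk τ v a ha x
    dsimp only at e1 e2 e3 ⊢
    rw [e1, e2, e3]
  have hgs : Measurable fun p : P2 × R3 => g s p.1 p.2 * h p.1 p.2 :=
    (hg.comp (f := fun _ => s) measurable_const measurable_fst measurable_snd).mul hh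
  rw [start_int hm hν hh pν ph he pe, start_int hm hν hh pν ph hng png,
    start_eq hm hν hh pν ph (w := fun x v => g t x v)
      (hg.comp (f := fun _ => t) measurable_const measurable_fst measurable_snd)
      (fun v => pg t v), ← lintegral_add_left hgs]
  have hm2 : Measurable fun p : P2 × R3 => g t (p.1 + (t - s) • bar p.2) p.2 *
      en (O1 (fw ν s p.1 p.2) s t) * h p.1 p.2 := by
    refine Measurable.mul (Measurable.mul ?_ ?_) hh
    · exact hg.comp (by fun_prop) (by fun_prop) (by fun_prop)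
    · exact measurable_en.comp ((measurable_O1_fw hν s).comp
        (f := fun p : P2 × R3 => (p, t)) (by fun_prop))
  rw [← lintegral_add_left hm2]
  refine lintegral_mono_ae ?_
  filter_upwards [H] with p hp
  by_cases h1 : h p.1 p.2 = 0
  · simp [h1]
  · obtain ⟨hfin, hflow⟩ := hp h1
    have hgss : fw g s p.1 p.2 s = g s p.1 p.2 := by unfold fw; simp
    have := path_low (n := fw ν s p.1 p.2) (g := fw g s p.1 p.2) (e := fw e s p.1 p.2)
      (k := fw k s p.1 p.2) (measurable_fw hν _ _ _) (measurable_fw hg _ _ _)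
      (measurable_fw he _ _ _) (measurable_fw hk _ _ _) h0 hst hfin
      (by intro r hr; rw [hgss]; exact hflow r hr)
    rw [← add_mul, ← add_mul]
    refine mul_le_mul' ?_ le_rfl
    rw [hgss] at this
    refine this.trans (le_of_eq ?_)
    rw [mul_comm (en _)]
    rfl

/-- **upper form, transport from one starting time** -/
theorem start_up (hm : TInv m S) (hν : Meas3 ν) (hh : Measurable fun p : P2 × R3 => h p.1 p.2)
    (pν : PerSF S ν) (ph : ∀ v, PerS S fun x => h x v) (hg : Meas3 g) (he : Meas3 e)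
    (hk : Meas3 k) (pg : PerSF S g) (pe : PerSF S e) (pk : PerSF S k) (h0 : 0 ≤ s) (hst : s ≤ t)
    (H : ∀ᵐ p ∂(m.prod (volume : Measure R3)), h p.1 p.2 ≠ 0 →
      O1 (fw ν s p.1 p.2) s t ≠ ⊤ ∧ ∀ r ∈ Icc s t,
        fw g s p.1 p.2 r + O1 (fw k s p.1 p.2) s r ≤ g s p.1 p.2 + O1 (fw e s p.1 p.2) s r) :
    ∫⁻ p, g t p.1 p.2 * Tr ν s h t p.1 p.2 ∂(m.prod (volume : Measure R3)) +
      ∫⁻ r in Ioo s t, ∫⁻ p, (ν r p.1 p.2 * g r p.1 p.2 + k r p.1 p.2) * Tr ν s h r p.1 p.2
        ∂(m.prod (volume : Measure R3)) ≤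
    ∫⁻ p, g s p.1 p.2 * h p.1 p.2 ∂(m.prod (volume : Measure R3)) +
      ∫⁻ r in Ioo s t, ∫⁻ p, e r p.1 p.2 * Tr ν s h r p.1 p.2
        ∂(m.prod (volume : Measure R3)) := by
  have hng : Meas3 (fun t x v => ν t x v * g t x v + k t x v) := (hν.mul hg).add hk
  have png : PerSF S (fun t x v => ν t x v * g t x v + k t x v) := by
    intro τ v a ha x
    have e1 := pν τ v a ha x
    have e2 := pg τ v a ha x
    have e3 := pk τ v a ha x
    dsimp only at e1 e2 e3 ⊢
    rw [e1, e2, e3]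
  have hgs : Measurable fun p : P2 × R3 => g s p.1 p.2 * h p.1 p.2 :=
    (hg.comp (f := fun _ => s) measurable_const measurable_fst measurable_snd).mul hh
  rw [start_int hm hν hh pν ph he pe, start_int hm hν hh pν ph hng png,
    start_eq hm hν hh pν ph (w := fun x v => g t x v)
      (hg.comp (f := fun _ => t) measurable_const measurable_fst measurable_snd)
      (fun v => pg t v), ← lintegral_add_left hgs]
  have hm2 : Measurable fun p : P2 × R3 => g t (p.1 + (t - s) • bar p.2) p.2 *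
      en (O1 (fw ν s p.1 p.2) s t) * h p.1 p.2 := by
    refine Measurable.mul (Measurable.mul ?_ ?_) hh
    · exact hg.comp (by fun_prop) (by fun_prop) (by fun_prop)
    · exact measurable_en.comp ((measurable_O1_fw hν s).comp
        (f := fun p : P2 × R3 => (p, t)) (by fun_prop))
  rw [← lintegral_add_left hm2]
  refine lintegral_mono_ae ?_
  filter_upwards [H] with p hp
  by_cases h1 : h p.1 p.2 = 0
  · simp [h1]
  · obtain ⟨hfin, hflow⟩ := hp h1
    have hgss : fw g s p.1 p.2 s = g s p.1 p.2 := by unfold fw; simp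
    have := path_up (n := fw ν s p.1 p.2) (g := fw g s p.1 p.2) (e := fw e s p.1 p.2)
      (k := fw k s p.1 p.2) (measurable_fw hν _ _ _) (measurable_fw hg _ _ _)
      (measurable_fw he _ _ _) (measurable_fw hk _ _ _) h0 hst hfin
      (by intro r hr; rw [hgss]; exact hflow r hr)
    rw [← add_mul, ← add_mul]
    refine mul_le_mul' ?_ le_rfl
    rw [hgss] at this
    refine le_trans (le_of_eq ?_) this
    rw [mul_comm (en _)]
    rfl

end start

/-! ### Duhamel integrals -/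

/-- Tonelli on a triangle -/
theorem tri {f : ℝ → ℝ → ℝ≥0∞} (hf : Measurable (Function.uncurry f)) (a t : ℝ) :
    ∫⁻ r in Ioo a t, ∫⁻ s in Ioo a r, f s r = ∫⁻ s in Ioo a t, ∫⁻ r in Ioo s t, f s r := by
  have e1 : ∀ r ∈ Ioo a t, ∫⁻ s in Ioo a r, f s r
      = ∫⁻ s in Ioo a t, {p : ℝ × ℝ | p.1 < p.2}.indicator (Function.uncurry f) (s, r) := by
    intro r hr
    rw [← lintegral_indicator measurableSet_Ioo, ← lintegral_indicator measurableSet_Ioo]
    refine lintegral_congr fun s => ?_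
    by_cases h1 : s ∈ Ioo a r
    · rw [indicator_of_mem h1, indicator_of_mem (show s ∈ Ioo a t from ⟨h1.1, h1.2.trans hr.2⟩),
        indicator_of_mem (show (s, r) ∈ {p : ℝ × ℝ | p.1 < p.2} from h1.2)]
      rfl
    · rw [indicator_of_notMem h1]
      by_cases h2 : s ∈ Ioo a t
      · rw [indicator_of_mem h2, indicator_of_notMem]
        intro h3
        exact h1 ⟨h2.1, h3⟩
      · rw [indicator_of_notMem h2]
  have e2 : ∀ s ∈ Ioo a t, ∫⁻ r in Ioo s t, f s r
      = ∫⁻ r in Ioo a t, {p : ℝ × ℝ | p.1 < p.2}.indicator (Function.uncurry f) (s, r) := by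
    intro s hs
    rw [← lintegral_indicator measurableSet_Ioo, ← lintegral_indicator measurableSet_Ioo]
    refine lintegral_congr fun r => ?_
    by_cases h1 : r ∈ Ioo s t
    · rw [indicator_of_mem h1, indicator_of_mem (show r ∈ Ioo a t from ⟨hs.1.trans h1.1, h1.2⟩),
        indicator_of_mem (show (s, r) ∈ {p : ℝ × ℝ | p.1 < p.2} from h1.1)]
      rfl
    · rw [indicator_of_notMem h1]
      by_cases h2 : r ∈ Ioo a t
      · rw [indicator_of_mem h2, indicator_of_notMem]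
        intro h3
        exact h1 ⟨h3, h2.2⟩
      · rw [indicator_of_notMem h2]
  rw [setLIntegral_congr_fun measurableSet_Ioo e1, setLIntegral_congr_fun measurableSet_Ioo e2,
    lintegral_lintegral_swap]
  exact ((hf.indicator (measurableSet_lt measurable_fst measurable_snd)).comp
    measurable_swap).aemeasurable

/-- Duhamel integral from time `a` -/
def DamA (a : ℝ) (ν q : Fld) : Fld := fun t x v =>
  ∫⁻ s in Ioo a t, Tr ν s (q s) t x v

theorem DamA_zero (ν q : Fld) : DamA 0 ν q = Dam ν q := rfl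

section duh

variable {ν q : Fld}

theorem measurable_Tr_joint (hν : Meas3 ν) (hq : Meas3 q) :
    Measurable fun z : (ℝ × ℝ) × (P2 × R3) => Tr ν z.1.1 (q z.1.1) z.1.2 z.2.1 z.2.2 := by
  unfold Tr
  refine Measurable.mul (measurable_en.comp (measurable_acc hν (by fun_prop) (by fun_prop)
    (by fun_prop) (by fun_prop))) ?_
  exact hq.comp (by fun_prop) (by fun_prop) (by fun_prop)

theorem meas3_DamA (hν : Meas3 ν) (hq : Meas3 q) (a : ℝ) : Meas3 (DamA a ν q) := by
  unfold Meas3 DamA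
  refine measurable_lintegral_Ioo (α := ℝ × P2 × R3) (q := fun z : (ℝ × P2 × R3) × ℝ =>
    Tr ν z.2 (q z.2) z.1.1 z.1.2.1 z.1.2.2) ?_ measurable_const measurable_fst
  exact (measurable_Tr_joint hν hq).comp
    (f := fun z : (ℝ × P2 × R3) × ℝ => ((z.2, z.1.1), (z.1.2.1, z.1.2.2))) (by fun_prop)

theorem per_Tr (pν : PerSF S ν) {h : P2 → R3 → ℝ≥0∞} (ph : ∀ v, PerS S fun x => h x v) (s r : ℝ)
    (v : R3) : PerS S fun x => Tr ν s h r x v := by
  intro a ha x
  unfold Tr
  have e1 : x + a - (r - s) • bar v = (x - (r - s) • bar v) + a := by abel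
  have e2 := ph v a ha (x - (r - s) • bar v)
  have e4 := per_acc pν s r v a ha x
  dsimp only at e2 e4 ⊢
  rw [e1, e2, e4]

theorem per_DamA (pν : PerSF S ν) (pq : PerSF S q) (a : ℝ) : PerSF S (DamA a ν q) := by
  intro t v b hb x
  unfold DamA
  exact lintegral_congr fun s => per_Tr pν (fun v => pq s v) s t v b hb x

theorem duh_int (hν : Meas3 ν) (hq : Meas3 q) {w : P2 → R3 → ℝ≥0∞}
    (hw : Measurable fun p : P2 × R3 => w p.1 p.2) (a r : ℝ) :
    ∫⁻ p, w p.1 p.2 * DamA a ν q r p.1 p.2 ∂(m.prod (volume : Measure R3)) =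
      ∫⁻ s in Ioo a r, ∫⁻ p, w p.1 p.2 * Tr ν s (q s) r p.1 p.2
        ∂(m.prod (volume : Measure R3)) := by
  have hj : Measurable fun z : ℝ × (P2 × R3) => w z.2.1 z.2.2 * Tr ν z.1 (q z.1) r z.2.1 z.2.2 := by
    refine Measurable.mul ?_ ?_
    · exact hw.comp (f := fun z : ℝ × (P2 × R3) => z.2) measurable_snd
    · exact (measurable_Tr_joint hν hq).comp
        (f := fun z : ℝ × (P2 × R3) => ((z.1, r), z.2)) (by fun_prop)
  rw [lintegral_lintegral_swap (hj.aemeasurable)]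
  refine lintegral_congr fun p => ?_
  unfold DamA
  rw [lintegral_const_mul]
  exact (measurable_Tr_joint hν hq).comp (f := fun s : ℝ => ((s, r), p)) (by fun_prop)

theorem duh_int2 (hν : Meas3 ν) (hq : Meas3 q) {w : Fld} (hw : Meas3 w) (a t : ℝ) :
    ∫⁻ r in Ioo a t, ∫⁻ p, w r p.1 p.2 * DamA a ν q r p.1 p.2 ∂(m.prod (volume : Measure R3)) =
      ∫⁻ s in Ioo a t, ∫⁻ r in Ioo s t, ∫⁻ p, w r p.1 p.2 * Tr ν s (q s) r p.1 p.2
        ∂(m.prod (volume : Measure R3)) := by
  have hj : Measurable fun z : (ℝ × ℝ) × (P2 × R3) =>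
      w z.1.2 z.2.1 z.2.2 * Tr ν z.1.1 (q z.1.1) z.1.2 z.2.1 z.2.2 :=
    (hw.comp (by fun_prop) (by fun_prop) (by fun_prop)).mul (measurable_Tr_joint hν hq)
  have hj2 : Measurable (Function.uncurry fun s r : ℝ => ∫⁻ p, w r p.1 p.2 *
      Tr ν s (q s) r p.1 p.2 ∂(m.prod (volume : Measure R3))) :=
    Measurable.lintegral_prod_right' (f := fun z : (ℝ × ℝ) × (P2 × R3) =>
      w z.1.2 z.2.1 z.2.2 * Tr ν z.1.1 (q z.1.1) z.1.2 z.2.1 z.2.2) hj
  rw [← tri hj2]
  refine lintegral_congr fun r => ?_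
  exact duh_int hν hq (w := fun x v => w r x v)
    (hw.comp (f := fun _ => r) measurable_const measurable_fst measurable_snd) a r

variable {g e k : Fld} {a t : ℝ}

/-- **lower form for the Duhamel integral from time `a`** -/
theorem duh_low (hm : TInv m S) (hν : Meas3 ν) (hq : Meas3 q) (pν : PerSF S ν) (pq : PerSF S q)
    (hg : Meas3 g) (he : Meas3 e) (hk : Meas3 k) (pg : PerSF S g) (pe : PerSF S e)
    (pk : PerSF S k) (h0 : 0 ≤ a)
    (H : ∀ᵐ s ∂(volume.restrict (Ioo a t)), ∀ᵐ p ∂(m.prod (volume : Measure R3)),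
      q s p.1 p.2 ≠ 0 → O1 (fw ν s p.1 p.2) s t ≠ ⊤ ∧ ∀ r ∈ Icc s t,
        g s p.1 p.2 + O1 (fw e s p.1 p.2) s r ≤ fw g s p.1 p.2 r + O1 (fw k s p.1 p.2) s r) :
    (∫⁻ s in Ioo a t, ∫⁻ p, g s p.1 p.2 * q s p.1 p.2 ∂(m.prod (volume : Measure R3))) +
      (∫⁻ r in Ioo a t, ∫⁻ p, e r p.1 p.2 * DamA a ν q r p.1 p.2
        ∂(m.prod (volume : Measure R3))) ≤
    ∫⁻ p, g t p.1 p.2 * DamA a ν q t p.1 p.2 ∂(m.prod (volume : Measure R3)) +
      ∫⁻ r in Ioo a t, ∫⁻ p, (ν r p.1 p.2 * g r p.1 p.2 + k r p.1 p.2) * DamA a ν q r p.1 p.2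
        ∂(m.prod (volume : Measure R3)) := by
  have hng : Meas3 (fun t x v => ν t x v * g t x v + k t x v) := (hν.mul hg).add hk
  have hgq : Measurable fun s : ℝ => ∫⁻ p, g s p.1 p.2 * q s p.1 p.2
      ∂(m.prod (volume : Measure R3)) := by
    refine Measurable.lintegral_prod_right' (f := fun z : ℝ × (P2 × R3) =>
      g z.1 z.2.1 z.2.2 * q z.1 z.2.1 z.2.2) ?_
    exact hg.mul hq
  have hgt : Measurable fun s : ℝ => ∫⁻ p, g t p.1 p.2 * Tr ν s (q s) t p.1 p.2
      ∂(m.prod (volume : Measure R3)) := by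
    refine Measurable.lintegral_prod_right' (f := fun z : ℝ × (P2 × R3) =>
      g t z.2.1 z.2.2 * Tr ν z.1 (q z.1) t z.2.1 z.2.2) ?_
    refine Measurable.mul (hg.comp (by fun_prop) (by fun_prop) (by fun_prop)) ?_
    exact (measurable_Tr_joint hν hq).comp
        (f := fun z : ℝ × (P2 × R3) => ((z.1, t), z.2)) (by fun_prop)
  rw [duh_int2 hν hq he, duh_int2 hν hq hng, duh_int hν hq (w := fun x v => g t x v)
    (hg.comp (f := fun _ => t) measurable_const measurable_fst measurable_snd),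
    ← lintegral_add_left hgq, ← lintegral_add_left hgt]
  refine lintegral_mono_ae ?_
  filter_upwards [H, ae_restrict_mem measurableSet_Ioo] with s hs hst
  exact start_low hm hν (h := q s)
    (hq.comp (f := fun _ => s) measurable_const measurable_fst measurable_snd) pν
    (fun v => pq s v) hg he hk pg pe pk (h0.trans hst.1.le) hst.2.le hs

/-- **upper form for the Duhamel integral from time `a`** -/
theorem duh_up (hm : TInv m S) (hν : Meas3 ν) (hq : Meas3 q) (pν : PerSF S ν) (pq : PerSF S q)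
    (hg : Meas3 g) (he : Meas3 e) (hk : Meas3 k) (pg : PerSF S g) (pe : PerSF S e)
    (pk : PerSF S k) (h0 : 0 ≤ a)
    (H : ∀ᵐ s ∂(volume.restrict (Ioo a t)), ∀ᵐ p ∂(m.prod (volume : Measure R3)),
      q s p.1 p.2 ≠ 0 → O1 (fw ν s p.1 p.2) s t ≠ ⊤ ∧ ∀ r ∈ Icc s t,
        fw g s p.1 p.2 r + O1 (fw k s p.1 p.2) s r ≤ g s p.1 p.2 + O1 (fw e s p.1 p.2) s r) :
    ∫⁻ p, g t p.1 p.2 * DamA a ν q t p.1 p.2 ∂(m.prod (volume : Measure R3)) +
      ∫⁻ r in Ioo a t, ∫⁻ p, (ν r p.1 p.2 * g r p.1 p.2 + k r p.1 p.2) * DamA a ν q r p.1 p.2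
        ∂(m.prod (volume : Measure R3)) ≤
    (∫⁻ s in Ioo a t, ∫⁻ p, g s p.1 p.2 * q s p.1 p.2 ∂(m.prod (volume : Measure R3))) +
      (∫⁻ r in Ioo a t, ∫⁻ p, e r p.1 p.2 * DamA a ν q r p.1 p.2
        ∂(m.prod (volume : Measure R3))) := by
  have hng : Meas3 (fun t x v => ν t x v * g t x v + k t x v) := (hν.mul hg).add hk
  have hgq : Measurable fun s : ℝ => ∫⁻ p, g s p.1 p.2 * q s p.1 p.2
      ∂(m.prod (volume : Measure R3)) := by
    refine Measurable.lintegral_prod_right' (f := fun z : ℝ × (P2 × R3) =>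
      g z.1 z.2.1 z.2.2 * q z.1 z.2.1 z.2.2) ?_
    exact hg.mul hq
  have hgt : Measurable fun s : ℝ => ∫⁻ p, g t p.1 p.2 * Tr ν s (q s) t p.1 p.2
      ∂(m.prod (volume : Measure R3)) := by
    refine Measurable.lintegral_prod_right' (f := fun z : ℝ × (P2 × R3) =>
      g t z.2.1 z.2.2 * Tr ν z.1 (q z.1) t z.2.1 z.2.2) ?_
    refine Measurable.mul (hg.comp (by fun_prop) (by fun_prop) (by fun_prop)) ?_
    exact (measurable_Tr_joint hν hq).comp
        (f := fun z : ℝ × (P2 × R3) => ((z.1, t), z.2)) (by fun_prop)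
  rw [duh_int2 hν hq he, duh_int2 hν hq hng, duh_int hν hq (w := fun x v => g t x v)
    (hg.comp (f := fun _ => t) measurable_const measurable_fst measurable_snd),
    ← lintegral_add_left hgq, ← lintegral_add_left hgt]
  refine lintegral_mono_ae ?_
  filter_upwards [H, ae_restrict_mem measurableSet_Ioo] with s hs hst
  exact start_up hm hν (h := q s)
    (hq.comp (f := fun _ => s) measurable_const measurable_fst measurable_snd) pν
    (fun v => pq s v) hg he hk pg pe pk (h0.trans hst.1.le) hst.2.le hs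

/-- **restart identity** -/
theorem Dam_split (ν q : Fld) (h0 : 0 ≤ a) (hat : a ≤ t) (x : P2) (v : R3) :
    Dam ν q t x v = Tr ν a (Dam ν q a) t x v + DamA a ν q t x v := by
  have h1 : Dam ν q t x v = O1 (fun s => Tr ν s (q s) t x v) 0 t := rfl
  rw [h1, O1_split _ h0 hat]
  congr 1
  unfold O1
  rw [Tr, Dam, ← lintegral_const_mul' _ _ (en_ne_top _)]
  refine setLIntegral_congr_fun measurableSet_Ioo fun s hs => ?_
  have e1 : acc ν s t x v = acc ν s a (x - (t - a) • bar v) v + acc ν a t x v := by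
    have h2 : acc ν s t x v = O1 (fun τ => ν τ (x - (t - τ) • bar v) v) s t := rfl
    have h3 : acc ν a t x v = O1 (fun τ => ν τ (x - (t - τ) • bar v) v) a t := rfl
    have h4 : acc ν s a (x - (t - a) • bar v) v =
        O1 (fun τ => ν τ (x - (t - τ) • bar v) v) s a := by
      unfold acc O1
      refine lintegral_congr fun τ => ?_
      congr 1
      module
    rw [h2, h3, h4, O1_split _ hs.2.le hat]
  have e2 : x - (t - a) • bar v - (a - s) • bar v = x - (t - s) • bar v := by module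
  rw [Tr, e1, en_add, e2]
  ring

end duh

/-! ### the full weak forms (start term + Duhamel integral) -/

section full

variable {ν q g e k : Fld} {h : P2 → R3 → ℝ≥0∞} {a t : ℝ}

/-- the path conditions needed for the lower form -/
def LowAt (ν g e k : Fld) (t s : ℝ) (x : P2) (v : R3) : Prop :=
  O1 (fw ν s x v) s t ≠ ⊤ ∧ ∀ r ∈ Icc s t,
    g s x v + O1 (fw e s x v) s r ≤ fw g s x v r + O1 (fw k s x v) s r

/-- the path conditions needed for the upper form -/
def UpAt (ν g e k : Fld) (t s : ℝ) (x : P2) (v : R3) : Prop :=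
  O1 (fw ν s x v) s t ≠ ⊤ ∧ ∀ r ∈ Icc s t,
    fw g s x v r + O1 (fw k s x v) s r ≤ g s x v + O1 (fw e s x v) s r

/-- all the measurability and periodicity hypotheses -/
structure Hyp (S : Set P2) (ν q g e k : Fld) : Prop where
  hν : Meas3 ν
  hq : Meas3 q
  hg : Meas3 g
  he : Meas3 e
  hk : Meas3 k
  pν : PerSF S ν
  pq : PerSF S q
  pg : PerSF S g
  pe : PerSF S e
  pk : PerSF S k

omit [SFinite m] in
theorem int_add {w F G : Fld} (hw : Meas3 w) (hF : Meas3 F) (r : ℝ) :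
    ∫⁻ p, w r p.1 p.2 * (F r p.1 p.2 + G r p.1 p.2) ∂(m.prod (volume : Measure R3)) =
      ∫⁻ p, w r p.1 p.2 * F r p.1 p.2 ∂(m.prod (volume : Measure R3)) +
        ∫⁻ p, w r p.1 p.2 * G r p.1 p.2 ∂(m.prod (volume : Measure R3)) := by
  have h1 : Measurable fun p : P2 × R3 => w r p.1 p.2 * F r p.1 p.2 :=
    (hw.comp (f := fun _ => r) measurable_const measurable_fst measurable_snd).mul
      (hF.comp (f := fun _ => r) measurable_const measurable_fst measurable_snd)
  rw [← lintegral_add_left h1]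
  exact lintegral_congr fun p => mul_add _ _ _

theorem int_add_time {w F G : Fld} (hw : Meas3 w) (hF : Meas3 F) (a t : ℝ) :
    ∫⁻ r in Ioo a t, ∫⁻ p, w r p.1 p.2 * (F r p.1 p.2 + G r p.1 p.2)
        ∂(m.prod (volume : Measure R3)) =
      (∫⁻ r in Ioo a t, ∫⁻ p, w r p.1 p.2 * F r p.1 p.2 ∂(m.prod (volume : Measure R3))) +
        ∫⁻ r in Ioo a t, ∫⁻ p, w r p.1 p.2 * G r p.1 p.2 ∂(m.prod (volume : Measure R3)) := by
  rw [← lintegral_add_left]
  · exact lintegral_congr fun r => int_add hw hF r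
  · exact Measurable.lintegral_prod_right' (f := fun z : ℝ × (P2 × R3) =>
      w z.1 z.2.1 z.2.2 * F z.1 z.2.1 z.2.2) (hw.mul hF)

theorem meas3_Tr (hν : Meas3 ν) (hh : Measurable fun p : P2 × R3 => h p.1 p.2) (a : ℝ) :
    Meas3 (fun r x v => Tr ν a h r x v) := by
  have := measurable_Tr_joint (ν := ν) (q := fun _ x v => h x v) hν
    (hh.comp (f := fun p : ℝ × P2 × R3 => p.2) measurable_snd)
  exact this.comp (f := fun p : ℝ × P2 × R3 => ((a, p.1), p.2)) (by fun_prop)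

/-- **lower weak form, general**: `H r = Tr ν a h r + DamA a ν q r` -/
theorem low_gen (hm : TInv m S) (Y : Hyp S ν q g e k)
    (hh : Measurable fun p : P2 × R3 => h p.1 p.2) (ph : ∀ v, PerS S fun x => h x v)
    (h0 : 0 ≤ a) (hat : a ≤ t)
    (H0 : ∀ᵐ p ∂(m.prod (volume : Measure R3)), h p.1 p.2 ≠ 0 → LowAt ν g e k t a p.1 p.2)
    (H1 : ∀ᵐ s ∂(volume.restrict (Ioo a t)), ∀ᵐ p ∂(m.prod (volume : Measure R3)),
      q s p.1 p.2 ≠ 0 → LowAt ν g e k t s p.1 p.2)
    {H : Fld} (hH : ∀ r ∈ Ioc a t, ∀ᵐ p ∂(m.prod (volume : Measure R3)),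
      H r p.1 p.2 = Tr ν a h r p.1 p.2 + DamA a ν q r p.1 p.2) (hat' : a < t ∨ H t = h) :
    (∫⁻ p, g a p.1 p.2 * h p.1 p.2 ∂(m.prod (volume : Measure R3))) +
      (∫⁻ s in Ioo a t, ∫⁻ p, g s p.1 p.2 * q s p.1 p.2 ∂(m.prod (volume : Measure R3))) +
      (∫⁻ r in Ioo a t, ∫⁻ p, e r p.1 p.2 * H r p.1 p.2 ∂(m.prod (volume : Measure R3))) ≤
    (∫⁻ p, g t p.1 p.2 * H t p.1 p.2 ∂(m.prod (volume : Measure R3))) +
      ∫⁻ r in Ioo a t, ∫⁻ p, (ν r p.1 p.2 * g r p.1 p.2 + k r p.1 p.2) * H r p.1 p.2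
        ∂(m.prod (volume : Measure R3)) := by
  rcases hat.eq_or_lt with rfl | hlt
  · have : H a = h := by
      rcases hat' with h1 | h1
      · exact absurd h1 (lt_irrefl _)
      · exact h1
    simp [this]
  · have hng : Meas3 (fun t x v => ν t x v * g t x v + k t x v) := (Y.hν.mul Y.hg).add Y.hk
    have hT := meas3_Tr Y.hν hh a
    have e1 : ∀ w : Fld, ∫⁻ r in Ioo a t, ∫⁻ p, w r p.1 p.2 * H r p.1 p.2
        ∂(m.prod (volume : Measure R3)) = ∫⁻ r in Ioo a t, ∫⁻ p, w r p.1 p.2 *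
        (Tr ν a h r p.1 p.2 + DamA a ν q r p.1 p.2) ∂(m.prod (volume : Measure R3)) := by
      intro w
      refine setLIntegral_congr_fun measurableSet_Ioo fun r hr => ?_
      refine lintegral_congr_ae ?_
      filter_upwards [hH r (Ioo_subset_Ioc_self hr)] with p hp
      rw [hp]
    have e2 : ∫⁻ p, g t p.1 p.2 * H t p.1 p.2 ∂(m.prod (volume : Measure R3)) =
        ∫⁻ p, g t p.1 p.2 * (Tr ν a h t p.1 p.2 + DamA a ν q t p.1 p.2)
          ∂(m.prod (volume : Measure R3)) := by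
      refine lintegral_congr_ae ?_
      filter_upwards [hH t ⟨hlt, le_rfl⟩] with p hp
      rw [hp]
    rw [e1 e, e1 (fun r x v => ν r x v * g r x v + k r x v), e2,
      int_add_time (w := e) (F := fun r x v => Tr ν a h r x v) (G := DamA a ν q) Y.he hT,
      int_add_time (w := fun r x v => ν r x v * g r x v + k r x v)
        (F := fun r x v => Tr ν a h r x v) (G := DamA a ν q) hng hT,
      int_add (w := g) (F := fun r x v => Tr ν a h r x v) (G := DamA a ν q) Y.hg hT t]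
    have h1 := start_low hm Y.hν hh Y.pν ph Y.hg Y.he Y.hk Y.pg Y.pe Y.pk h0 hat H0
    have h2 := duh_low hm Y.hν Y.hq Y.pν Y.pq Y.hg Y.he Y.hk Y.pg Y.pe Y.pk h0 H1
    refine le_trans (le_of_eq ?_) ((add_le_add h1 h2).trans (le_of_eq ?_))
    · ring
    · ring

/-- **upper weak form, general**: `H r = Tr ν a h r + DamA a ν q r` -/
theorem up_gen (hm : TInv m S) (Y : Hyp S ν q g e k)
    (hh : Measurable fun p : P2 × R3 => h p.1 p.2) (ph : ∀ v, PerS S fun x => h x v)
    (h0 : 0 ≤ a) (hat : a ≤ t)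
    (H0 : ∀ᵐ p ∂(m.prod (volume : Measure R3)), h p.1 p.2 ≠ 0 → UpAt ν g e k t a p.1 p.2)
    (H1 : ∀ᵐ s ∂(volume.restrict (Ioo a t)), ∀ᵐ p ∂(m.prod (volume : Measure R3)),
      q s p.1 p.2 ≠ 0 → UpAt ν g e k t s p.1 p.2)
    {H : Fld} (hH : ∀ r ∈ Ioc a t, ∀ᵐ p ∂(m.prod (volume : Measure R3)),
      H r p.1 p.2 = Tr ν a h r p.1 p.2 + DamA a ν q r p.1 p.2) (hat' : a < t ∨ H t = h) :
    (∫⁻ p, g t p.1 p.2 * H t p.1 p.2 ∂(m.prod (volume : Measure R3))) +
      (∫⁻ r in Ioo a t, ∫⁻ p, (ν r p.1 p.2 * g r p.1 p.2 + k r p.1 p.2) * H r p.1 p.2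
        ∂(m.prod (volume : Measure R3))) ≤
    (∫⁻ p, g a p.1 p.2 * h p.1 p.2 ∂(m.prod (volume : Measure R3))) +
      (∫⁻ s in Ioo a t, ∫⁻ p, g s p.1 p.2 * q s p.1 p.2 ∂(m.prod (volume : Measure R3))) +
      (∫⁻ r in Ioo a t, ∫⁻ p, e r p.1 p.2 * H r p.1 p.2 ∂(m.prod (volume : Measure R3))) := by
  rcases hat.eq_or_lt with rfl | hlt
  · have : H a = h := by
      rcases hat' with h1 | h1
      · exact absurd h1 (lt_irrefl _)
      · exact h1
    simp [this]
  · have hng : Meas3 (fun t x v => ν t x v * g t x v + k t x v) := (Y.hν.mul Y.hg).add Y.hk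
    have hT := meas3_Tr Y.hν hh a
    have e1 : ∀ w : Fld, ∫⁻ r in Ioo a t, ∫⁻ p, w r p.1 p.2 * H r p.1 p.2
        ∂(m.prod (volume : Measure R3)) = ∫⁻ r in Ioo a t, ∫⁻ p, w r p.1 p.2 *
        (Tr ν a h r p.1 p.2 + DamA a ν q r p.1 p.2) ∂(m.prod (volume : Measure R3)) := by
      intro w
      refine setLIntegral_congr_fun measurableSet_Ioo fun r hr => ?_
      refine lintegral_congr_ae ?_
      filter_upwards [hH r (Ioo_subset_Ioc_self hr)] with p hp
      rw [hp]
    have e2 : ∫⁻ p, g t p.1 p.2 * H t p.1 p.2 ∂(m.prod (volume : Measure R3)) =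
        ∫⁻ p, g t p.1 p.2 * (Tr ν a h t p.1 p.2 + DamA a ν q t p.1 p.2)
          ∂(m.prod (volume : Measure R3)) := by
      refine lintegral_congr_ae ?_
      filter_upwards [hH t ⟨hlt, le_rfl⟩] with p hp
      rw [hp]
    rw [e1 e, e1 (fun r x v => ν r x v * g r x v + k r x v), e2,
      int_add_time (w := e) (F := fun r x v => Tr ν a h r x v) (G := DamA a ν q) Y.he hT,
      int_add_time (w := fun r x v => ν r x v * g r x v + k r x v)
        (F := fun r x v => Tr ν a h r x v) (G := DamA a ν q) hng hT,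
      int_add (w := g) (F := fun r x v => Tr ν a h r x v) (G := DamA a ν q) Y.hg hT t]
    have h1 := start_up hm Y.hν hh Y.pν ph Y.hg Y.he Y.hk Y.pg Y.pe Y.pk h0 hat H0
    have h2 := duh_up hm Y.hν Y.hq Y.pν Y.pq Y.hg Y.he Y.hk Y.pg Y.pe Y.pk h0 H1
    refine le_trans (le_of_eq ?_) ((add_le_add h1 h2).trans (le_of_eq ?_))
    · ring
    · ring

/-- lower form from time `0`, `H = Dam ν q` -/
theorem low_zero (hm : TInv m S) (Y : Hyp S ν q g e k)
    (H1 : ∀ᵐ s ∂(volume.restrict (Ioo 0 t)), ∀ᵐ p ∂(m.prod (volume : Measure R3)),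
      q s p.1 p.2 ≠ 0 → LowAt ν g e k t s p.1 p.2) :
    (∫⁻ s in Ioo 0 t, ∫⁻ p, g s p.1 p.2 * q s p.1 p.2 ∂(m.prod (volume : Measure R3))) +
      (∫⁻ r in Ioo 0 t, ∫⁻ p, e r p.1 p.2 * Dam ν q r p.1 p.2
        ∂(m.prod (volume : Measure R3))) ≤
    (∫⁻ p, g t p.1 p.2 * Dam ν q t p.1 p.2 ∂(m.prod (volume : Measure R3))) +
      ∫⁻ r in Ioo 0 t, ∫⁻ p, (ν r p.1 p.2 * g r p.1 p.2 + k r p.1 p.2) * Dam ν q r p.1 p.2
        ∂(m.prod (volume : Measure R3)) :=
  duh_low hm Y.hν Y.hq Y.pν Y.pq Y.hg Y.he Y.hk Y.pg Y.pe Y.pk le_rfl H1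

/-- upper form from time `0`, `H = Dam ν q` -/
theorem up_zero (hm : TInv m S) (Y : Hyp S ν q g e k)
    (H1 : ∀ᵐ s ∂(volume.restrict (Ioo 0 t)), ∀ᵐ p ∂(m.prod (volume : Measure R3)),
      q s p.1 p.2 ≠ 0 → UpAt ν g e k t s p.1 p.2) :
    (∫⁻ p, g t p.1 p.2 * Dam ν q t p.1 p.2 ∂(m.prod (volume : Measure R3))) +
      (∫⁻ r in Ioo 0 t, ∫⁻ p, (ν r p.1 p.2 * g r p.1 p.2 + k r p.1 p.2) * Dam ν q r p.1 p.2
        ∂(m.prod (volume : Measure R3))) ≤
    (∫⁻ s in Ioo 0 t, ∫⁻ p, g s p.1 p.2 * q s p.1 p.2 ∂(m.prod (volume : Measure R3))) +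
      (∫⁻ r in Ioo 0 t, ∫⁻ p, e r p.1 p.2 * Dam ν q r p.1 p.2
        ∂(m.prod (volume : Measure R3))) :=
  duh_up hm Y.hν Y.hq Y.pν Y.pq Y.hg Y.he Y.hk Y.pg Y.pe Y.pk le_rfl H1

theorem per_Dam (pν : PerSF S ν) (pq : PerSF S q) : PerSF S (Dam ν q) := per_DamA pν pq 0

theorem meas3_Dam (hν : Meas3 ν) (hq : Meas3 q) : Meas3 (Dam ν q) := meas3_DamA hν hq 0

/-- lower form between two times, `H = Dam ν q` -/
theorem low_from (hm : TInv m S) (Y : Hyp S ν q g e k) (h0 : 0 ≤ a) (hat : a ≤ t)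
    (H0 : ∀ᵐ p ∂(m.prod (volume : Measure R3)), Dam ν q a p.1 p.2 ≠ 0 →
      LowAt ν g e k t a p.1 p.2)
    (H1 : ∀ᵐ s ∂(volume.restrict (Ioo a t)), ∀ᵐ p ∂(m.prod (volume : Measure R3)),
      q s p.1 p.2 ≠ 0 → LowAt ν g e k t s p.1 p.2) :
    (∫⁻ p, g a p.1 p.2 * Dam ν q a p.1 p.2 ∂(m.prod (volume : Measure R3))) +
      (∫⁻ s in Ioo a t, ∫⁻ p, g s p.1 p.2 * q s p.1 p.2 ∂(m.prod (volume : Measure R3))) +
      (∫⁻ r in Ioo a t, ∫⁻ p, e r p.1 p.2 * Dam ν q r p.1 p.2
        ∂(m.prod (volume : Measure R3))) ≤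
    (∫⁻ p, g t p.1 p.2 * Dam ν q t p.1 p.2 ∂(m.prod (volume : Measure R3))) +
      ∫⁻ r in Ioo a t, ∫⁻ p, (ν r p.1 p.2 * g r p.1 p.2 + k r p.1 p.2) * Dam ν q r p.1 p.2
        ∂(m.prod (volume : Measure R3)) := by
  rcases hat.eq_or_lt with rfl | hlt
  · simp
  refine low_gen (h := Dam ν q a) (H := Dam ν q) hm Y
    ((meas3_Dam Y.hν Y.hq).comp (f := fun _ => a) measurable_const measurable_fst
      measurable_snd) (fun v => per_Dam Y.pν Y.pq a v) h0 hat H0 H1 ?_ (Or.inl hlt)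
  intro r hr
  exact Eventually.of_forall fun p => Dam_split ν q h0 hr.1.le _ _

/-- upper form between two times, `H = Dam ν q` -/
theorem up_from (hm : TInv m S) (Y : Hyp S ν q g e k) (h0 : 0 ≤ a) (hat : a ≤ t)
    (H0 : ∀ᵐ p ∂(m.prod (volume : Measure R3)), Dam ν q a p.1 p.2 ≠ 0 →
      UpAt ν g e k t a p.1 p.2)
    (H1 : ∀ᵐ s ∂(volume.restrict (Ioo a t)), ∀ᵐ p ∂(m.prod (volume : Measure R3)),
      q s p.1 p.2 ≠ 0 → UpAt ν g e k t s p.1 p.2) :
    (∫⁻ p, g t p.1 p.2 * Dam ν q t p.1 p.2 ∂(m.prod (volume : Measure R3))) +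
      (∫⁻ r in Ioo a t, ∫⁻ p, (ν r p.1 p.2 * g r p.1 p.2 + k r p.1 p.2) * Dam ν q r p.1 p.2
        ∂(m.prod (volume : Measure R3))) ≤
    (∫⁻ p, g a p.1 p.2 * Dam ν q a p.1 p.2 ∂(m.prod (volume : Measure R3))) +
      (∫⁻ s in Ioo a t, ∫⁻ p, g s p.1 p.2 * q s p.1 p.2 ∂(m.prod (volume : Measure R3))) +
      (∫⁻ r in Ioo a t, ∫⁻ p, e r p.1 p.2 * Dam ν q r p.1 p.2
        ∂(m.prod (volume : Measure R3))) := by
  rcases hat.eq_or_lt with rfl | hlt
  · simp
  refine up_gen (h := Dam ν q a) (H := Dam ν q) hm Y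
    ((meas3_Dam Y.hν Y.hq).comp (f := fun _ => a) measurable_const measurable_fst
      measurable_snd) (fun v => per_Dam Y.pν Y.pq a v) h0 hat H0 H1 ?_ (Or.inl hlt)
  intro r hr
  exact Eventually.of_forall fun p => Dam_split ν q h0 hr.1.le _ _

end full

/-! ### iterated integrals -/

omit [SFinite m] in
/-- iterated form of the phase space integral -/
theorem iter_eq {F : P2 → R3 → ℝ≥0∞} (hF : Measurable fun p : P2 × R3 => F p.1 p.2) :
    ∫⁻ p, F p.1 p.2 ∂(m.prod (volume : Measure R3)) = ∫⁻ x, (∫⁻ v, F x v) ∂m :=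
  lintegral_prod _ hF.aemeasurable

/-- the plane: `m = volume` -/
theorem iter_plane {F : P2 → R3 → ℝ≥0∞} (hF : Measurable fun p : P2 × R3 => F p.1 p.2) :
    ∫⁻ p, F p.1 p.2 ∂((volume : Measure P2).prod (volume : Measure R3)) = ∫⁻ x, ∫⁻ v, F x v :=
  lintegral_prod _ hF.aemeasurable

/-- the cell: `m = volume.restrict cellG` -/
theorem iter_cell {F : P2 → R3 → ℝ≥0∞} (hF : Measurable fun p : P2 × R3 => F p.1 p.2) :
    ∫⁻ p, F p.1 p.2 ∂(((volume : Measure P2).restrict cellG).prod (volume : Measure R3)) =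
      ∫⁻ x in cellG, ∫⁻ v, F x v :=
  lintegral_prod _ hF.aemeasurable

/-- slices of measurable fields -/
theorem slice2 {F : Fld} (hF : Meas3 F) (t : ℝ) : Measurable fun p : P2 × R3 => F t p.1 p.2 :=
  hF.comp (f := fun _ => t) measurable_const measurable_fst measurable_snd

end Crest.Agent.R68.XWeak
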