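import Crest.Agent.R68.ZDefs
import Crest.Statements.S0091

/-! # Row 68, PART Z: interface (sorry; NEVER import in a proof) -/

set_option autoImplicit false
open MeasureTheory Set
open scoped ENNReal
open Crest.AnalysisR.VecCalc3 Crest.AnalysisR.PDE.Boltzmann

noncomputable section

namespace Crest.Agent.R68

/-- Z1: transfer of mild solutions -/
theorem mildSol_of_mildG {G : ℝ → P2 → R3 → ℝ} {G0 : P2 → R3 → ℝ} {R : ℝ} (h : MildG G G0 R) :
    MildSol (pull G) (fun x v => G0 (prx x) (rotv v)) R := by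
  sorry

/-- Z2: two different solutions in the planar frame differ in the statement's frame -/
theorem pos_measure_pull {G G' : ℝ → P2 → R3 → ℝ}
    (hm : Measurable (fun p : ℝ × P2 × R3 => G p.1 p.2.1 p.2.2))
    (hm' : Measurable (fun p : ℝ × P2 × R3 => G' p.1 p.2.1 p.2.2))
    (hp : ∀ t v, PerG (fun x => G t x v)) (hp' : ∀ t v, PerG (fun x => G' t x v))
    (h : 0 < volume {p : ℝ × P2 × R3 | 0 < p.1 ∧ G p.1 p.2.1 p.2.2 ≠ G' p.1 p.2.1 p.2.2}) :
    0 < volume {p : ℝ × R3 × R3 | p ∈ region ∧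
      pull G p.1 p.2.1 p.2.2 ≠ pull G' p.1 p.2.1 p.2.2} := by
  sorry

end Crest.Agent.R68
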