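import Mathlib
import Crest.Agent.R68.Defs
import Crest.Agent.R68.Sph2
import Crest.Agent.R68.E2
import Crest.Agent.R68.EHyp

/-!
Row 68, part Z, module 1: the rotation between the golden frame and the frozen frame.
-/

set_option autoImplicit false
open MeasureTheory Set
open scoped ENNReal
open Crest.AnalysisR.VecCalc3 Crest.AnalysisR.PDE.Boltzmann

namespace Crest.Agent.R68.Z

/-- normalisation `√(1+g²)` -/
noncomputable def nn : ℝ := √(1 + gold ^ 2)

lemma nn_pos : 0 < nn := Real.sqrt_pos.2 (by positivity)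

lemma nn_sq : nn ^ 2 = 1 + gold ^ 2 := Real.sq_sqrt (by positivity)

/-- the planar map `(a,b) ↦ ((b - a g)/n, (a + b g)/n)` -/
noncomputable def A2 (x : P2) : P2 := ((x.2 - x.1 * gold) / nn, (x.1 + x.2 * gold) / nn)

/-- the rotation of `R3` (an involution) as a linear map -/
noncomputable def RotL : R3 →ₗ[ℝ] R3 where
  toFun v := vec3 ((v 1 - v 0 * gold) / nn) ((v 0 + v 1 * gold) / nn) (v 2)
  map_add' v w := by
    rw [vec3_add]
    refine vec3_ext ?_ ?_ ?_ <;> simp [vec3] <;> ring
  map_smul' c v := by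
    simp only [RingHom.id_apply]
    rw [vec3_smul]
    refine vec3_ext ?_ ?_ ?_ <;> simp [vec3] <;> ring

lemma RotL_apply (v : R3) :
    RotL v = vec3 ((v 1 - v 0 * gold) / nn) ((v 0 + v 1 * gold) / nn) (v 2) := rfl

lemma RotL_invol : Function.Involutive RotL := by
  intro v
  have hn := nn_pos.ne'
  have hs := nn_sq
  refine vec3_ext ?_ ?_ ?_
  · simp only [RotL_apply, vec3]
    simp
    field_simp
    rw [hs]; ring
  · simp only [RotL_apply, vec3]
    simp
    field_simp
    rw [hs]; ring
  · simp only [RotL_apply, vec3]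
    simp

/-- the rotation as a linear isometry equivalence -/
noncomputable def Rot : R3 ≃ₗᵢ[ℝ] R3 where
  toLinearEquiv := LinearEquiv.ofInvolutive RotL RotL_invol
  norm_map' v := by
    have h : (LinearEquiv.ofInvolutive RotL RotL_invol) v = RotL v := rfl
    rw [h, RotL_apply]
    have h2 : ‖vec3 ((v 1 - v 0 * gold) / nn) ((v 0 + v 1 * gold) / nn) (v 2)‖ ^ 2 = ‖v‖ ^ 2 := by
      rw [norm_sq_vec3, ← vec3_eta v, norm_sq_vec3]
      have hn := nn_pos.ne'
      have hs := nn_sq
      simp only [vec3]
      simp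
      field_simp
      rw [hs]; ring
    exact (sq_eq_sq₀ (norm_nonneg _) (norm_nonneg _)).1 h2

lemma Rot_apply (v : R3) :
    Rot v = vec3 ((v 1 - v 0 * gold) / nn) ((v 0 + v 1 * gold) / nn) (v 2) := rfl

lemma Rot_Rot (v : R3) : Rot (Rot v) = v := RotL_invol v

lemma norm_Rot (v : R3) : ‖Rot v‖ = ‖v‖ := Rot.norm_map v

lemma bar_Rot (x : R3) : bar (Rot x) = A2 (x 0, x 1) := by
  rw [Rot_apply]; rfl

lemma bar_add (x y : R3) : bar (x + y) = bar x + bar y := rfl

lemma bar_smul (t : ℝ) (x : R3) : bar (t • x) = t • bar x := rfl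

lemma measurable_bar : Measurable bar := by
  unfold bar; fun_prop

lemma Rot_postVel (v vs w : R3) :
    Rot (postVel v vs w) = postVel (Rot v) (Rot vs) (Rot w) := by
  unfold postVel
  rw [map_sub, LinearIsometryEquiv.map_smul, ← map_sub, LinearIsometryEquiv.inner_map_map]

lemma Rot_postVelStar (v vs w : R3) :
    Rot (postVelStar v vs w) = postVelStar (Rot v) (Rot vs) (Rot w) := by
  unfold postVelStar
  rw [map_add, LinearIsometryEquiv.map_smul, ← map_sub, LinearIsometryEquiv.inner_map_map]

lemma mp_Rot : MeasurePreserving (Rot : R3 → R3) volume volume := Rot.measurePreserving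

lemma me_Rot : MeasurableEmbedding (Rot : R3 → R3) := Rot.toHomeomorph.measurableEmbedding

open Crest.Agent.R68E (gain loss)

lemma inner_aux (v vs w : R3) : inner ℝ (v - Rot vs) (Rot w) = (inner ℝ (Rot v - vs) w : ℝ) := by
  have h : v - Rot vs = Rot (Rot v - vs) := by rw [map_sub, Rot_Rot]
  rw [h, LinearIsometryEquiv.inner_map_map]

lemma gain_Rot (g : R3 → ℝ) (v : R3) : gain (fun u => g (Rot u)) v = gain g (Rot v) := by
  unfold gain
  rw [← mp_Rot.lintegral_comp_emb me_Rot]
  refine lintegral_congr fun vs => ?_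
  rw [← (measurePreserving_sphere_isometry Rot).lintegral_comp_emb me_Rot]
  refine lintegral_congr fun w => ?_
  simp only [Rot_postVel, Rot_postVelStar, Rot_Rot, inner_aux]

lemma loss_Rot (g : R3 → ℝ) (v : R3) : loss (fun u => g (Rot u)) v = loss g (Rot v) := by
  unfold loss
  rw [← mp_Rot.lintegral_comp_emb me_Rot]
  refine lintegral_congr fun vs => ?_
  rw [← (measurePreserving_sphere_isometry Rot).lintegral_comp_emb me_Rot]
  refine lintegral_congr fun w => ?_
  simp only [Rot_Rot, inner_aux]

/-! ### the planar map -/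

/-- `A2` as a linear map -/
noncomputable def A2L : P2 →ₗ[ℝ] P2 where
  toFun := A2
  map_add' x y := by
    ext <;> simp [A2] <;> ring
  map_smul' c x := by
    ext <;> simp [A2] <;> ring

lemma A2_A2 (x : P2) : A2 (A2 x) = x := by
  have hn := nn_pos.ne'
  have hs := nn_sq
  ext
  · simp only [A2]
    field_simp
    rw [hs]; ring
  · simp only [A2]
    field_simp
    rw [hs]; ring

lemma A2L_det : |LinearMap.det A2L| = 1 := by
  have h : A2L * A2L = 1 := LinearMap.ext fun x => A2_A2 x
  have h2 : LinearMap.det A2L * LinearMap.det A2L = 1 := by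
    rw [← map_mul, h, map_one]
  have h3 : |LinearMap.det A2L| * |LinearMap.det A2L| = 1 := by
    rw [← abs_mul, h2, abs_one]
  nlinarith [abs_nonneg (LinearMap.det A2L)]

lemma continuous_A2 : Continuous A2 := by unfold A2; fun_prop

lemma mp_A2 : MeasurePreserving A2 (volume : Measure P2) volume := by
  have hd := A2L_det
  have hne : LinearMap.det A2L ≠ 0 := by
    intro h; rw [h] at hd; simp at hd
  refine ⟨continuous_A2.measurable, ?_⟩
  have : (volume : Measure P2).IsAddHaarMeasure := by
    rw [Measure.volume_eq_prod]; infer_instance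
  have h := Measure.map_linearMap_addHaar_eq_smul_addHaar (volume : Measure P2) hne
  rw [abs_inv, hd, inv_one, ENNReal.ofReal_one, one_smul] at h
  exact h

lemma me_A2 : MeasurableEmbedding A2 :=
  (MeasurableEquiv.ofInvolutive A2 A2_A2 continuous_A2.measurable).measurableEmbedding

/-- unit square -/
def sq : Set P2 := Ico (0 : ℝ) 1 ×ˢ Ico (0 : ℝ) 1

lemma A2_preimage_cellG : A2 ⁻¹' cellG = sq := by
  ext x
  simp only [mem_preimage, cellG, mem_ofPred_eq, sq, mem_prod]
  constructor
  · rintro ⟨s, t, hs, ht, h⟩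
    have h2 : A2 x = A2 (s, t) := h
    have h3 : x = (s, t) := by rw [← A2_A2 x, h2, A2_A2]
    rw [h3]
    exact ⟨hs, ht⟩
  · rintro ⟨h1, h2⟩
    exact ⟨x.1, x.2, h1, h2, rfl⟩

lemma measurableSet_cellG : MeasurableSet cellG := by
  have h : cellG = A2 ⁻¹' sq := by
    rw [← A2_preimage_cellG, ← preimage_comp]
    have : A2 ∘ A2 = id := funext A2_A2
    rw [this, preimage_id]
  rw [h]
  exact continuous_A2.measurable (measurableSet_Ico.prod measurableSet_Ico)

lemma mp_A2_cell : MeasurePreserving A2 ((volume : Measure P2).restrict sq)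
    ((volume : Measure P2).restrict cellG) := by
  rw [← A2_preimage_cellG]
  exact mp_A2.restrict_preimage measurableSet_cellG

end Crest.Agent.R68.Z
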