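import Mathlib
import Crest.Agent.R68.ZRot1

/-!
Row 68, part Z, module 2: measure theory of the change of frame.
-/

set_option autoImplicit false
open MeasureTheory Set
open scoped ENNReal
open Crest.AnalysisR.VecCalc3 Crest.AnalysisR.PDE.Boltzmann

namespace Crest.Agent.R68.Z

/-- coordinates -/
def co (x : R3) : ℝ × ℝ × ℝ := (x 0, x 1, x 2)

/-- `vec3` as a measurable equivalence -/
noncomputable def vecE : (ℝ × ℝ × ℝ) ≃ᵐ R3 where
  toFun p := vec3 p.1 p.2.1 p.2.2
  invFun := co
  left_inv p := by simp [co, vec3]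
  right_inv x := vec3_eta x
  measurable_toFun := continuous_vec3.measurable
  measurable_invFun := by
    show Measurable co
    unfold co; fun_prop

lemma mp_co : MeasurePreserving co (volume : Measure R3) volume := by
  have h : MeasurePreserving vecE (volume : Measure (ℝ × ℝ × ℝ)) (volume : Measure R3) := mp_vec3
  exact h.symm vecE

lemma co_preimage : co ⁻¹' (Ico (0 : ℝ) 1 ×ˢ (Ico (0 : ℝ) 1 ×ˢ Ico (0 : ℝ) 1)) = cell := by
  ext x
  simp only [mem_preimage, co, mem_prod, cell, mem_ofPred_eq]
  constructor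
  · rintro ⟨h0, h1, h2⟩ i
    fin_cases i
    · exact h0
    · exact h1
    · exact h2
  · intro h
    exact ⟨h 0, h 1, h 2⟩

instance prob_Ico : IsProbabilityMeasure ((volume : Measure ℝ).restrict (Ico 0 1)) :=
  ⟨by rw [Measure.restrict_apply_univ, Real.volume_Ico]; simp⟩

lemma mp_bar : MeasurePreserving bar ((volume : Measure R3).restrict cell)
    ((volume : Measure P2).restrict sq) := by
  have h1 : MeasurePreserving co ((volume : Measure R3).restrict cell)
      ((volume : Measure (ℝ × ℝ × ℝ)).restrict
        (Ico (0 : ℝ) 1 ×ˢ (Ico (0 : ℝ) 1 ×ˢ Ico (0 : ℝ) 1))) := by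
    rw [← co_preimage]
    exact mp_co.restrict_preimage (measurableSet_Ico.prod (measurableSet_Ico.prod measurableSet_Ico))
  have h2 : (volume : Measure (ℝ × ℝ × ℝ)).restrict
        (Ico (0 : ℝ) 1 ×ˢ (Ico (0 : ℝ) 1 ×ˢ Ico (0 : ℝ) 1)) =
      ((volume : Measure ℝ).restrict (Ico 0 1)).prod
        (((volume : Measure ℝ).restrict (Ico 0 1)).prod ((volume : Measure ℝ).restrict (Ico 0 1))) := by
    rw [Measure.prod_restrict, Measure.prod_restrict, ← Measure.volume_eq_prod,
      ← Measure.volume_eq_prod]
  have h3 : MeasurePreserving (Prod.map id Prod.fst : ℝ × (ℝ × ℝ) → ℝ × ℝ)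
      (((volume : Measure ℝ).restrict (Ico 0 1)).prod
        (((volume : Measure ℝ).restrict (Ico 0 1)).prod ((volume : Measure ℝ).restrict (Ico 0 1))))
      (((volume : Measure ℝ).restrict (Ico 0 1)).prod ((volume : Measure ℝ).restrict (Ico 0 1))) :=
    (MeasurePreserving.id _).prod measurePreserving_fst
  have h4 : ((volume : Measure ℝ).restrict (Ico 0 1)).prod
      ((volume : Measure ℝ).restrict (Ico 0 1)) = (volume : Measure P2).restrict sq := by
    rw [Measure.prod_restrict, ← Measure.volume_eq_prod]; rfl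
  rw [h2] at h1
  rw [← h4]
  exact h3.comp h1

/-- the position map -/
noncomputable def posZ (x : R3) : P2 := bar (Rot x)

lemma posZ_eq : posZ = A2 ∘ bar := by
  funext x
  unfold posZ
  rw [bar_Rot]; rfl

lemma mp_posZ : MeasurePreserving posZ ((volume : Measure R3).restrict cell)
    ((volume : Measure P2).restrict cellG) := by
  rw [posZ_eq]
  exact mp_A2_cell.comp mp_bar

lemma qmp_bar : Measure.QuasiMeasurePreserving bar (volume : Measure R3) (volume : Measure P2) := by
  have h1 : Measure.QuasiMeasurePreserving (Prod.map id Prod.fst : ℝ × (ℝ × ℝ) → ℝ × ℝ)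
      ((volume : Measure ℝ).prod ((volume : Measure ℝ).prod volume))
      ((volume : Measure ℝ).prod volume) :=
    QuasiMeasurePreserving.prodMap (Measure.QuasiMeasurePreserving.id _)
      Measure.quasiMeasurePreserving_fst
  exact h1.comp mp_co.quasiMeasurePreserving

lemma qmp_posZ : Measure.QuasiMeasurePreserving posZ (volume : Measure R3) (volume : Measure P2) :=
  qmp_bar.comp mp_Rot.quasiMeasurePreserving

/-- the phase space map -/
noncomputable def phZ (q : R3 × R3) : P2 × R3 := (posZ q.1, Rot q.2)

lemma qmp_phZ : Measure.QuasiMeasurePreserving phZ (volume : Measure (R3 × R3))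
    (volume : Measure (P2 × R3)) :=
  QuasiMeasurePreserving.prodMap qmp_posZ mp_Rot.quasiMeasurePreserving

lemma mp_phZ : MeasurePreserving phZ ((volume : Measure (R3 × R3)).restrict (cell ×ˢ univ))
    ((volume : Measure (P2 × R3)).restrict (cellG ×ˢ univ)) := by
  have h := mp_posZ.prod mp_Rot
  rw [Measure.volume_eq_prod, Measure.volume_eq_prod, ← Measure.prod_restrict,
    ← Measure.prod_restrict, Measure.restrict_univ]
  exact h

/-- the space-time phase map -/
noncomputable def stZ (p : ℝ × (R3 × R3)) : ℝ × (P2 × R3) := (p.1, phZ p.2)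

lemma mp_stZ (A : Set ℝ) : MeasurePreserving stZ
    ((volume : Measure (ℝ × (R3 × R3))).restrict (A ×ˢ (cell ×ˢ univ)))
    ((volume : Measure (ℝ × (P2 × R3))).restrict (A ×ˢ (cellG ×ˢ univ))) := by
  have h := (MeasurePreserving.id ((volume : Measure ℝ).restrict A)).prod mp_phZ
  rw [Measure.prod_restrict, Measure.prod_restrict] at h
  exact h

end Crest.Agent.R68.Z
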