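import Mathlib
import Crest.Agent.R68.ZRot2

/-!
Row 68, part Z, module 3: solutions in the rotated (golden) frame give `MildSol` in the frozen
frame.
-/

set_option autoImplicit false
open MeasureTheory Set
open scoped ENNReal
open Crest.AnalysisR.VecCalc3 Crest.AnalysisR.PDE.Boltzmann

namespace Crest.Agent.R68.Z

open Crest.Agent.R68E (gain loss)

/-- A nonnegative `Γ`-periodic mild solution in the rotated frame. -/
structure RotSol (G : ℝ → P2 → R3 → ℝ) (G0 : P2 → R3 → ℝ) (R : ℝ) : Prop where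
  meas : Measurable fun p : ℝ × P2 × R3 => G p.1 p.2.1 p.2.2
  nonneg : ∀ t x v, 0 ≤ t → 0 ≤ G t x v
  per : ∀ t v, PerG fun x => G t x v
  init : ∀ x v, G 0 x v = G0 x v
  meas0 : Measurable fun q : P2 × R3 => G0 q.1 q.2
  supp0 : ∀ x v, R ≤ ‖v‖ → G0 x v = 0
  fin0 : (∫⁻ q in cellG ×ˢ univ,
    ENNReal.ofReal (G0 q.1 q.2 * (1 + ‖q.2‖ ^ 2 + |Real.log (G0 q.1 q.2)|))
      ∂(volume : Measure (P2 × R3))) < ⊤
  mild : ∀ t, 0 ≤ t → ∀ᵐ q ∂(volume : Measure (P2 × R3)),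
    G t (q.1 + t • bar q.2) q.2 = G0 q.1 q.2 +
      ∫ s in (0)..t, ((gain (G s (q.1 + s • bar q.2)) q.2).toReal -
        (loss (G s (q.1 + s • bar q.2)) q.2).toReal)
  int : ∀ (T : ℝ) (k : ℕ), (∫⁻ p in Ioo 0 T ×ˢ (cellG ×ˢ univ),
      ENNReal.ofReal ((1 + ‖p.2.2‖ ^ 2) ^ (k / 2 : ℝ) + Real.log (1 + G p.1 p.2.1 p.2.2)) *
        (gain (G p.1 p.2.1) p.2.2 + loss (G p.1 p.2.1) p.2.2)
      ∂(volume : Measure (ℝ × P2 × R3))) < ⊤

/-- transfer of a kinetic density to the frozen frame. -/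
noncomputable def toF (G : ℝ → P2 → R3 → ℝ) (t : ℝ) (x v : R3) : ℝ := G t (posZ x) (Rot v)

/-- transfer of a datum to the frozen frame. -/
noncomputable def toF0 (G0 : P2 → R3 → ℝ) (x v : R3) : ℝ := G0 (posZ x) (Rot v)

lemma posZ_add_smul (x v : R3) (t : ℝ) : posZ (x + t • v) = posZ x + t • bar (Rot v) := by
  unfold posZ
  rw [map_add, LinearIsometryEquiv.map_smul, bar_add, bar_smul]

lemma posZ_add_single (x : R3) (i : Fin 3) :
    ∃ k : ℤ × ℤ, posZ (x + EuclideanSpace.single i 1) = posZ x + latt k := by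
  have h : ∀ y : R3, posZ (x + y) = posZ x + posZ y := by
    intro y; unfold posZ; rw [map_add, bar_add]
  have hn : nn = √(1 + gold ^ 2) := rfl
  fin_cases i
  · refine ⟨(1, 0), ?_⟩
    rw [h]
    congr 1
    rw [posZ_eq]
    ext <;> simp [A2, bar, latt, hn]
  · refine ⟨(0, 1), ?_⟩
    rw [h]
    congr 1
    rw [posZ_eq]
    ext <;> simp [A2, bar, latt, hn]
  · refine ⟨(0, 0), ?_⟩
    rw [h]
    congr 1
    rw [posZ_eq]
    ext <;> simp [A2, bar, latt]

lemma per_toF {α : Type*} {g : P2 → R3 → α} (hg : ∀ v, PerG fun x => g x v) (v : R3) :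
    IsPeriodic3 fun x => g (posZ x) (Rot v) := by
  intro x i
  obtain ⟨k, hk⟩ := posZ_add_single x i
  simp only [hk]
  exact hg (Rot v) (posZ x) k

lemma gain_toF (G : ℝ → P2 → R3 → ℝ) (t : ℝ) (x v : R3) :
    collGain (toF G) t x v = gain (G t (posZ x)) (Rot v) :=
  gain_Rot (G t (posZ x)) v

lemma loss_toF (G : ℝ → P2 → R3 → ℝ) (t : ℝ) (x v : R3) :
    collLoss (toF G) t x v = loss (G t (posZ x)) (Rot v) :=
  loss_Rot (G t (posZ x)) v

variable {G : ℝ → P2 → R3 → ℝ} {G0 : P2 → R3 → ℝ} {R : ℝ}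

lemma measurable_posZ : Measurable posZ := mp_posZ.measurable

lemma RotSol.admissible (S : RotSol G G0 R) : IsAdmissibleDatum (toF0 G0) R := by
  refine ⟨?_, ?_, ?_, ?_, ?_⟩
  · exact S.meas0.comp ((measurable_posZ.comp measurable_fst).prodMk
      (mp_Rot.measurable.comp measurable_snd))
  · intro x v
    have := S.nonneg 0 (posZ x) (Rot v) le_rfl
    rwa [S.init] at this
  · refine per_toF (g := G0) ?_
    intro v x k
    have h := S.per 0 v x k
    simp only [S.init] at h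
    exact h
  · intro x v hv
    exact S.supp0 _ _ (by rw [norm_Rot]; exact hv)
  · have hm : Measurable fun q : P2 × R3 =>
        ENNReal.ofReal (G0 q.1 q.2 * (1 + ‖q.2‖ ^ 2 + |Real.log (G0 q.1 q.2)|)) := by
      refine Measurable.ennreal_ofReal (S.meas0.mul ?_)
      exact (measurable_const.add (by fun_prop)).add
        (continuous_abs.measurable.comp (Real.measurable_log.comp S.meas0))
    have h := S.fin0
    rw [← mp_phZ.lintegral_comp hm] at h
    refine lt_of_le_of_lt (le_of_eq ?_) h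
    refine lintegral_congr fun q => ?_
    simp only [toF0, phZ, norm_Rot]

lemma RotSol.meas_gl (S : RotSol G G0 R) : Measurable fun p : ℝ × (P2 × R3) =>
    gain (G p.1 p.2.1) p.2.2 + loss (G p.1 p.2.1) p.2.2 := by
  have h0 : Measurable fun z : (ℝ × P2) × R3 => (z.1.1, (z.1.2, z.2)) := by fun_prop
  have hg : Measurable (Function.uncurry fun (y : ℝ × P2) (v : R3) => G y.1 y.2 v) := by
    have h00 := S.meas.comp h0
    exact h00
  have h1 := (R68E.measurable_gain hg).add (R68E.measurable_loss hg)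
  have h3 : Measurable fun p : ℝ × (P2 × R3) => ((p.1, p.2.1), p.2.2) := by fun_prop
  have h4 := h1.comp h3
  exact h4

lemma RotSol.meas_w (S : RotSol G G0 R) (k : ℕ) : Measurable fun p : ℝ × (P2 × R3) =>
    ENNReal.ofReal ((1 + ‖p.2.2‖ ^ 2) ^ (k / 2 : ℝ) + Real.log (1 + G p.1 p.2.1 p.2.2)) := by
  refine Measurable.ennreal_ofReal (Measurable.add ?_ ?_)
  · fun_prop
  · exact Real.measurable_log.comp (measurable_const.add S.meas)

lemma RotSol.int_lt (S : RotSol G G0 R) (T : ℝ) (k : ℕ) :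
    (∫⁻ p in Set.Ioo 0 T ×ˢ (cell ×ˢ Set.univ),
      ENNReal.ofReal ((1 + ‖p.2.2‖ ^ 2) ^ (k / 2 : ℝ) + Real.log (1 + toF G p.1 p.2.1 p.2.2)) *
        (collGain (toF G) p.1 p.2.1 p.2.2 + collLoss (toF G) p.1 p.2.1 p.2.2)
      ∂(volume : Measure (ℝ × R3 × R3))) < ⊤ := by
  have h := S.int T k
  have hm := (S.meas_w k).mul S.meas_gl
  have h5 := (mp_stZ (Ioo 0 T)).lintegral_comp hm
  refine lt_of_le_of_lt (le_of_eq ?_) h
  refine Eq.trans ?_ h5
  refine lintegral_congr fun p => ?_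
  simp only [Pi.mul_apply, gain_toF, loss_toF, toF, stZ, phZ, norm_Rot]

/-- **Theorem Z1.** -/
theorem RotSol.mildSol (S : RotSol G G0 R) : MildSol (toF G) (toF0 G0) R where
  datum := S.admissible
  meas := by
    have h : Measurable fun p : ℝ × (R3 × R3) => (p.1, (posZ p.2.1, Rot p.2.2)) :=
      measurable_fst.prodMk ((measurable_posZ.comp (measurable_fst.comp measurable_snd)).prodMk
        (mp_Rot.measurable.comp (measurable_snd.comp measurable_snd)))
    exact S.meas.comp h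
  nonneg t x v ht := S.nonneg t _ _ ht
  per t v := per_toF (g := G t) (S.per t) v
  init x v := S.init _ _
  mild t ht := by
    have h := qmp_phZ.ae (S.mild t ht)
    filter_upwards [h] with q hq
    have e1 : toF G t (q.1 + t • q.2) q.2 =
        G t ((phZ q).1 + t • bar (phZ q).2) (phZ q).2 := by
      unfold toF phZ
      rw [posZ_add_smul]
    rw [e1, hq]
    congr 1
    refine intervalIntegral.integral_congr fun s _ => ?_
    simp only [Qr, shift]
    rw [gain_toF, loss_toF, posZ_add_smul]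
    rfl
  int T k := S.int_lt T k

/-- the two transferred solutions differ on a set of positive measure. -/
theorem volume_ne_pos {G1 G2 : ℝ → P2 → R3 → ℝ} (h1 : Measurable fun p : ℝ × P2 × R3 => G1 p.1 p.2.1 p.2.2)
    (h2 : Measurable fun p : ℝ × P2 × R3 => G2 p.1 p.2.1 p.2.2)
    (h : 0 < (volume : Measure (ℝ × P2 × R3)) {p | p ∈ Ioi (0 : ℝ) ×ˢ (cellG ×ˢ (univ : Set R3)) ∧
      G1 p.1 p.2.1 p.2.2 ≠ G2 p.1 p.2.1 p.2.2}) :
    0 < volume {p : ℝ × R3 × R3 | p ∈ region ∧ toF G1 p.1 p.2.1 p.2.2 ≠ toF G2 p.1 p.2.1 p.2.2} := by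
  have hS : MeasurableSet {p : ℝ × P2 × R3 | G1 p.1 p.2.1 p.2.2 ≠ G2 p.1 p.2.1 p.2.2} :=
    (measurableSet_eq_fun h1 h2).compl
  have e1 : {p : ℝ × P2 × R3 | p ∈ Ioi (0 : ℝ) ×ˢ (cellG ×ˢ (univ : Set R3)) ∧
      G1 p.1 p.2.1 p.2.2 ≠ G2 p.1 p.2.1 p.2.2} =
      {p : ℝ × P2 × R3 | G1 p.1 p.2.1 p.2.2 ≠ G2 p.1 p.2.1 p.2.2} ∩
        Ioi (0 : ℝ) ×ˢ (cellG ×ˢ (univ : Set R3)) := by
    ext p; simp only [mem_ofPred_eq, mem_inter_iff]; tauto
  rw [e1, ← Measure.restrict_apply hS] at h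
  have h3 := (mp_stZ (Ioi 0)).measure_preimage hS.nullMeasurableSet
  rw [← h3, Measure.restrict_apply ((mp_stZ (Ioi 0)).measurable hS)] at h
  refine lt_of_lt_of_le h (measure_mono ?_)
  rintro p ⟨hp1, hp2⟩
  exact ⟨hp2, hp1⟩

end Crest.Agent.R68.Z
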