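import Mathlib
import Crest.Agent.R68.ZDefs
import Crest.Agent.R68.ZRot3

/-!
Row 68, part Z: transfer of mild solutions from the planar frame (`MildG`) to `MildSol`.
-/

set_option autoImplicit false
open MeasureTheory Set
open scoped ENNReal
open Crest.AnalysisR.VecCalc3 Crest.AnalysisR.PDE.Boltzmann

noncomputable section

namespace Crest.Agent.R68

open Crest.Agent.R68E (gain loss)

lemma prx_eq : prx = Z.posZ := by
  funext x
  rw [Z.posZ_eq]
  simp only [prx, Function.comp_apply, Z.A2, bar, Z.nn, mul_comm gold]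

lemma rotv_eq (v : R3) : rotv v = Z.Rot v := by
  rw [Z.Rot_apply]
  unfold rotv vec3 Z.nn
  simp only [mul_comm gold]

lemma pull_eq (G : ℝ → P2 → R3 → ℝ) : pull G = Z.toF G := by
  funext t x v
  unfold pull Z.toF
  rw [prx_eq, rotv_eq]

lemma Qp_eq_gain {g : R3 → ℝ} (hg : ∀ v, 0 ≤ g v) (v : R3) :
    Qp (fun z => ENNReal.ofReal (g z)) (fun z => ENNReal.ofReal (g z)) v = gain g v := by
  unfold Qp gain
  refine lintegral_congr fun vs => lintegral_congr fun w => ?_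
  rw [ENNReal.ofReal_mul (mul_nonneg (abs_nonneg _) (hg _)), ENNReal.ofReal_mul (abs_nonneg _)]

lemma Lc_eq_loss {g : R3 → ℝ} (hg : ∀ v, 0 ≤ g v) (v : R3) :
    ENNReal.ofReal (g v) * Lc (fun z => ENNReal.ofReal (g z)) v = loss g v := by
  unfold Lc loss
  rw [← lintegral_const_mul' _ _ ENNReal.ofReal_ne_top]
  refine lintegral_congr fun vs => ?_
  rw [← lintegral_const_mul' _ _ ENNReal.ofReal_ne_top]
  refine lintegral_congr fun w => ?_
  rw [ENNReal.ofReal_mul (mul_nonneg (abs_nonneg _) (hg _)), ENNReal.ofReal_mul (abs_nonneg _)]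
  ring

lemma gainG_eq {G : ℝ → P2 → R3 → ℝ} {t : ℝ} {x : P2} (hg : ∀ v, 0 ≤ G t x v) (v : R3) :
    gainG G t x v = gain (G t x) v := Qp_eq_gain hg v

lemma lossG_eq {G : ℝ → P2 → R3 → ℝ} {t : ℝ} {x : P2} (hg : ∀ v, 0 ≤ G t x v) (v : R3) :
    lossG G t x v = loss (G t x) v := Lc_eq_loss hg v

lemma MildG.rotSol {G : ℝ → P2 → R3 → ℝ} {G0 : P2 → R3 → ℝ} {R : ℝ} (h : MildG G G0 R) :
    Z.RotSol G G0 R where
  meas := h.meas
  nonneg := h.nonneg
  per := h.per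
  init := h.init
  meas0 := h.datum.meas
  supp0 := h.datum.supp
  fin0 := h.datum.fin
  mild t ht := by
    filter_upwards [h.mild t ht] with q hq
    rw [hq]
    congr 1
    refine intervalIntegral.integral_congr fun s hs => ?_
    rw [uIcc_of_le ht] at hs
    have h0 : ∀ v, 0 ≤ G s (q.1 + s • bar q.2) v := fun v => h.nonneg s _ v hs.1
    simp only [gainG_eq h0, lossG_eq h0]
  int T k := by
    refine lt_of_le_of_lt (le_of_eq ?_) (h.int T k)
    refine setLIntegral_congr_fun ?_ ?_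
    · exact measurableSet_Ioo.prod (Z.measurableSet_cellG.prod MeasurableSet.univ)
    · intro p hp
      have h0 : ∀ v, 0 ≤ G p.1 p.2.1 v := fun v => h.nonneg p.1 _ v hp.1.1.le
      simp only [gainG_eq h0, lossG_eq h0]

/-- **Z1: transfer of mild solutions.** -/
theorem mildSol_of_mildG {G : ℝ → P2 → R3 → ℝ} {G0 : P2 → R3 → ℝ} {R : ℝ} (h : MildG G G0 R) :
    MildSol (pull G) (fun x v => G0 (prx x) (rotv v)) R := by
  have h1 := h.rotSol.mildSol
  rw [pull_eq]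
  have h2 : (fun x v => G0 (prx x) (rotv v)) = Z.toF0 G0 := by
    funext x v
    unfold Z.toF0
    rw [prx_eq, rotv_eq]
  rw [h2]
  exact h1

/-! ### positive measure -/

lemma latt_eq (k : ℤ × ℤ) : latt k = Z.A2 ((k.1 : ℝ), (k.2 : ℝ)) := by
  unfold latt Z.A2 Z.nn
  rfl

lemma A2_add (x y : P2) : Z.A2 (x + y) = Z.A2 x + Z.A2 y := Z.A2L.map_add x y

lemma exists_latt_mem (x : P2) : ∃ k : ℤ × ℤ, x + latt k ∈ cellG := by
  obtain ⟨y, rfl⟩ : ∃ y, x = Z.A2 y := ⟨Z.A2 x, (Z.A2_A2 x).symm⟩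
  refine ⟨(-⌊y.1⌋, -⌊y.2⌋), ?_⟩
  have h : Z.A2 y + latt (-⌊y.1⌋, -⌊y.2⌋) = Z.A2 (Int.fract y.1, Int.fract y.2) := by
    rw [latt_eq, ← A2_add]
    congr 1
    ext
    · simp only [Prod.fst_add, Int.cast_neg]
      have := Int.floor_add_fract y.1
      linarith
    · simp only [Prod.snd_add, Int.cast_neg]
      have := Int.floor_add_fract y.2
      linarith
  rw [h]
  have h2 : (Int.fract y.1, Int.fract y.2) ∈ Z.sq :=
    ⟨⟨Int.fract_nonneg _, Int.fract_lt_one _⟩, ⟨Int.fract_nonneg _, Int.fract_lt_one _⟩⟩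
  rw [← Z.A2_preimage_cellG] at h2
  exact h2

/-- **Z2: two different solutions in the planar frame differ in the statement's frame.** -/
theorem pos_measure_pull {G G' : ℝ → P2 → R3 → ℝ}
    (hm : Measurable (fun p : ℝ × P2 × R3 => G p.1 p.2.1 p.2.2))
    (hm' : Measurable (fun p : ℝ × P2 × R3 => G' p.1 p.2.1 p.2.2))
    (hp : ∀ t v, PerG (fun x => G t x v)) (hp' : ∀ t v, PerG (fun x => G' t x v))
    (h : 0 < volume {p : ℝ × P2 × R3 | 0 < p.1 ∧ G p.1 p.2.1 p.2.2 ≠ G' p.1 p.2.1 p.2.2}) :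
    0 < volume {p : ℝ × R3 × R3 | p ∈ region ∧
      pull G p.1 p.2.1 p.2.2 ≠ pull G' p.1 p.2.1 p.2.2} := by
  rw [pull_eq, pull_eq]
  refine Z.volume_ne_pos hm hm' ?_
  by_contra hcon
  have h0 : (volume : Measure (ℝ × P2 × R3)) {p | p ∈ Ioi (0 : ℝ) ×ˢ (cellG ×ˢ (univ : Set R3)) ∧
      G p.1 p.2.1 p.2.2 ≠ G' p.1 p.2.1 p.2.2} = 0 := by
    simpa [pos_iff_ne_zero] using hcon
  refine h.ne' ?_
  -- translations
  let τ : ℤ × ℤ → ℝ × P2 × R3 → ℝ × P2 × R3 := fun k p => (p.1, (p.2.1 + latt k, p.2.2))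
  have hτ : ∀ k, MeasurePreserving (τ k) (volume : Measure (ℝ × P2 × R3)) volume := by
    intro k
    have h1 : MeasurePreserving (fun x : P2 => x + latt k) volume volume :=
      measurePreserving_add_right _ _
    have h2 := h1.prod (MeasurePreserving.id (volume : Measure R3))
    exact (MeasurePreserving.id (volume : Measure ℝ)).prod h2
  have hcov : {p : ℝ × P2 × R3 | 0 < p.1 ∧ G p.1 p.2.1 p.2.2 ≠ G' p.1 p.2.1 p.2.2} ⊆
      ⋃ k, τ k ⁻¹' {p | p ∈ Ioi (0 : ℝ) ×ˢ (cellG ×ˢ (univ : Set R3)) ∧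
        G p.1 p.2.1 p.2.2 ≠ G' p.1 p.2.1 p.2.2} := by
    rintro p ⟨hp1, hp2⟩
    obtain ⟨k, hk⟩ := exists_latt_mem p.2.1
    refine mem_iUnion.2 ⟨k, ?_⟩
    have e1 : (τ k p).1 = p.1 := by simp [τ]
    have e2 : (τ k p).2.1 = p.2.1 + latt k := rfl
    have e3 : (τ k p).2.2 = p.2.2 := by simp [τ]
    refine ⟨⟨?_, ?_, mem_univ _⟩, ?_⟩
    · rw [e1]; exact hp1
    · rw [e2]; exact hk
    · rw [e1, e2, e3]
      have h1 := hp p.1 p.2.2 p.2.1 k
      have h2 := hp' p.1 p.2.2 p.2.1 k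
      simp only at h1 h2
      rw [h1, h2]; exact hp2
  refine measure_mono_null hcov (measure_iUnion_null fun k => ?_)
  exact (hτ k).quasiMeasurePreserving.preimage_null h0

end Crest.Agent.R68
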